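/-
Row 275: a small tool for "arithmetic of exponents" (helper269).

Every positive quantity is written as `Real.exp` of a real variable; a product / quotient / power / square root of such
quantities and of numerals is a MONOMIAL `K * exp u`, and type class resolution computes `K` (a numeral expression) and `u`
(a linear form) from the syntactic shape of the expression (`XMon`).  Sums and products of sums are expanded into lists of monomials
(`XSum`).  An inequality `e ≤ exp vP + exp vQ` is then reduced by `xsum_le` to one linear inequality per monomial (`linarith`).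
-/
import Mathlib

set_option autoImplicit false

namespace Claimed.Agent.R275

/-- `e = K * exp u`; `K`, `u` are computed by instance resolution. -/
class XMon (e : ℝ) (K : outParam ℝ) (u : outParam ℝ) : Prop where
  eq : e = K * Real.exp u

instance xmon_exp (x : ℝ) : XMon (Real.exp x) 1 x := ⟨by rw [one_mul]⟩

instance xmon_lit (k : ℕ) [OfNat ℝ k] : XMon (no_index (OfNat.ofNat k : ℝ)) (OfNat.ofNat k : ℝ) 0 :=
  ⟨by rw [Real.exp_zero, mul_one]⟩

instance xmon_mul {a b K K' u u' : ℝ} [ha : XMon a K u] [hb : XMon b K' u'] : XMon (a * b) (K * K') (u + u') :=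
  ⟨by rw [ha.eq, hb.eq, Real.exp_add]; ring⟩

instance xmon_div {a b K K' u u' : ℝ} [ha : XMon a K u] [hb : XMon b K' u'] : XMon (a / b) (K / K') (u - u') :=
  ⟨by rw [ha.eq, hb.eq, Real.exp_sub]; field_simp⟩

instance xmon_inv {a K u : ℝ} [ha : XMon a K u] : XMon (a⁻¹) (K⁻¹) (-u) :=
  ⟨by rw [ha.eq, Real.exp_neg, mul_inv]⟩

instance xmon_pow {a K u : ℝ} (k : ℕ) [ha : XMon a K u] : XMon (a ^ k) (K ^ k) ((k : ℝ) * u) :=
  ⟨by rw [ha.eq, mul_pow, Real.exp_nat_mul]⟩

instance xmon_sqrt {a K u : ℝ} [ha : XMon a K u] : XMon (Real.sqrt a) (Real.sqrt K) (u / 2) :=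
  ⟨by
    rw [ha.eq, Real.sqrt_mul' _ (Real.exp_pos u).le]
    congr 1
    rw [Real.sqrt_eq_iff_mul_self_eq (Real.exp_pos u).le (Real.exp_pos _).le, ← Real.exp_add]
    congr 1
    ring⟩

theorem xmon_eq_exp (e : ℝ) {K u : ℝ} [h : XMon e K u] (hK : K = 1) : e = Real.exp u := by
  rw [h.eq, hK, one_mul]

/-- multiply every monomial of a list by `K * exp u` -/
def xscale (K u : ℝ) : List (ℝ × ℝ) → List (ℝ × ℝ)
  | [] => []
  | x :: L => (x.1 * K, x.2 + u) :: xscale K u L

/-- product of two lists of monomials -/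
def xmulL : List (ℝ × ℝ) → List (ℝ × ℝ) → List (ℝ × ℝ)
  | [], _ => []
  | x :: L, M => xscale x.1 x.2 M ++ xmulL L M

/-- the value of a list of monomials -/
noncomputable def xval : List (ℝ × ℝ) → ℝ
  | [] => 0
  | x :: L => x.1 * Real.exp x.2 + xval L

/-- all monomials are `≤ B` -/
def xall (B : ℝ) : List (ℝ × ℝ) → Prop
  | [] => True
  | x :: L => x.1 * Real.exp x.2 ≤ B ∧ xall B L

theorem xval_append (L M : List (ℝ × ℝ)) : xval (L ++ M) = xval L + xval M := by
  induction L with
  | nil => simp [xval]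
  | cons x L ih => simp only [List.cons_append, xval, ih]; ring

theorem xval_scale (K u : ℝ) (L : List (ℝ × ℝ)) : xval (xscale K u L) = xval L * (K * Real.exp u) := by
  induction L with
  | nil => simp [xval, xscale]
  | cons x L ih => simp only [xscale, xval, ih, Real.exp_add]; ring

theorem xval_mulL (L M : List (ℝ × ℝ)) : xval (xmulL L M) = xval L * xval M := by
  induction L with
  | nil => simp [xval, xmulL]
  | cons x L ih => simp only [xmulL, xval, xval_append, xval_scale, ih]; ring

theorem xval_le {B : ℝ} : ∀ L : List (ℝ × ℝ), xall B L → xval L ≤ (L.length : ℝ) * B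
  | [], _ => by simp [xval]
  | x :: L, h => by
      have h1 := xval_le L h.2
      have h2 := h.1
      simp only [xval, List.length_cons, Nat.cast_add, Nat.cast_one]
      linarith

/-- `e` is the sum of the monomials of the list `L`; `L` is computed by instance resolution. -/
class XSum (e : ℝ) (L : outParam (List (ℝ × ℝ))) : Prop where
  eq : e = xval L

instance (priority := 100) xsum_mul {a b : ℝ} {L M : List (ℝ × ℝ)} [ha : XSum a L] [hb : XSum b M] :
    XSum (a * b) (xmulL L M) := ⟨by rw [xval_mulL, ← ha.eq, ← hb.eq]⟩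

instance (priority := 100) xsum_div {a b K u : ℝ} {L : List (ℝ × ℝ)} [ha : XSum a L] [hb : XMon b K u] :
    XSum (a / b) (xscale K⁻¹ (-u) L) :=
  ⟨by rw [xval_scale, ← ha.eq, hb.eq, Real.exp_neg, div_eq_mul_inv, mul_inv]⟩

instance (priority := 100) xsum_add {a b : ℝ} {L M : List (ℝ × ℝ)} [ha : XSum a L] [hb : XSum b M] :
    XSum (a + b) (L ++ M) := ⟨by rw [xval_append, ← ha.eq, ← hb.eq]⟩

instance (priority := 1000) xsum_mon {e K u : ℝ} [h : XMon e K u] : XSum e [(K, u)] :=
  ⟨by simp only [xval, add_zero]; exact h.eq⟩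

/-- the reduction: every monomial of `e` is at most `R / k`, and there are at most `k` monomials. -/
theorem xsum_le {e R : ℝ} {L : List (ℝ × ℝ)} [h : XSum e L] (k : ℝ) (hk : 0 < k) (hR : 0 ≤ R)
    (hL : (L.length : ℝ) ≤ k) (hall : xall (R / k) L) : e ≤ R := by
  rw [h.eq]
  refine (xval_le L hall).trans ?_
  have h1 : (L.length : ℝ) * (R / k) ≤ k * (R / k) := mul_le_mul_of_nonneg_right hL (by positivity)
  refine h1.trans (le_of_eq ?_)
  field_simp

/-- a monomial is below the first target -/
theorem xleaf_l {K u vP vQ w k : ℝ} (hk : 0 < k) (hK : K * k ≤ Real.exp w) (h : u + w ≤ vP) :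
    K * Real.exp u ≤ (Real.exp vP + Real.exp vQ) / k := by
  rw [le_div_iff₀ hk]
  have h1 : K * Real.exp u * k = (K * k) * Real.exp u := by ring
  rw [h1]
  have h2 : (K * k) * Real.exp u ≤ Real.exp w * Real.exp u := mul_le_mul_of_nonneg_right hK (Real.exp_pos u).le
  rw [← Real.exp_add] at h2
  have h3 : Real.exp (w + u) ≤ Real.exp vP := Real.exp_le_exp.2 (by linarith)
  have h4 := Real.exp_pos vQ
  linarith

/-- a monomial is below the second target -/
theorem xleaf_r {K u vP vQ w k : ℝ} (hk : 0 < k) (hK : K * k ≤ Real.exp w) (h : u + w ≤ vQ) :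
    K * Real.exp u ≤ (Real.exp vP + Real.exp vQ) / k := by
  rw [add_comm]
  exact xleaf_l hk hK h

/-- one monomial below one exponential -/
theorem xmon_le_exp {e K u v w : ℝ} [h : XMon e K u] (hK : K ≤ Real.exp w) (hu : u + w ≤ v) : e ≤ Real.exp v := by
  rw [h.eq]
  have h2 : K * Real.exp u ≤ Real.exp w * Real.exp u := mul_le_mul_of_nonneg_right hK (Real.exp_pos u).le
  rw [← Real.exp_add] at h2
  exact h2.trans (Real.exp_le_exp.2 (by linarith))

end Claimed.Agent.R275
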