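import Claimed.Agent.R275.Defs

/-!
# Row 275: absolute path majorants (definitions of Lemma 4.3 `lemma:path-majorants`)

Paper: `foundations.tex` l. 426-470.  Owner: helper208 (definitions only; the statements of L4.3, (4.4)-(4.6) belong to Sec 4 = captain).
The majorants are used only in the ANALYSIS (never evaluated by the machine), hence they are real valued.
`Cm` is the constant `C` of the paper ("large enough to include the virtual, centering, and degree-zero Gram corrections").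
-/

set_option autoImplicit false

namespace Claimed.Agent.R275

open Matrix

/-- coefficient of `z^k` in `𝖴_l(z) = (C/l) (1 + ∑_{k=1}^{L-1} k q^k z^k)` -/
noncomputable def UmajC (d : ℕ) (Cm : ℝ) (l k : ℕ) : ℝ :=
  Cm / (l : ℝ) * (if k = 0 then 1 else (k : ℝ) * ((d : ℝ) - 1) ^ k)

/-- `𝖴_l(z)` -/
noncomputable def Umaj (d : ℕ) (Cm : ℝ) (l L : ℕ) (z : ℝ) : ℝ :=
  ∑ k ∈ Finset.range L, UmajC d Cm l k * z ^ k

namespace PPair

variable {n d : ℕ} (π : PPair n d)

/-- the coefficient entry `(Q_k)_{ab}` at two labels -/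
noncomputable def qEnt (k : ℕ) (a b : Label n d) : ℝ := π.ent (π.Qmat ℝ k) a b

/-- sum of the absolute values of the terms of `P_{ab} = ∑_{k<L} (σ h)^k (Q_k)_{ab}` -/
noncomputable def pAbs (L : ℕ) (z : ℝ) (a b : Label n d) : ℝ := ∑ k ∈ Finset.range L, z ^ k * |π.qEnt k a b|

/-- actual-walk part of the majorant: `∑_{k<L} N_k(v, w) z^k` -/
noncomputable def Aact (L : ℕ) (z : ℝ) (v w : Fin n) : ℝ := ∑ k ∈ Finset.range L, π.Nact ℝ k v w * z ^ k

/-- nonempty actual returns: `∑_{1≤k<L} N_k(v, v) z^k` -/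
noncomputable def Ract (L : ℕ) (z : ℝ) (v : Fin n) : ℝ := ∑ k ∈ Finset.Ico 1 L, π.Nact ℝ k v v * z ^ k

/-- coefficient of `z^k` in `𝖠_{i,x}` -/
noncomputable def AmajC (Cm : ℝ) (k : ℕ) (i : Label n d) (x : Stub n d) : ℝ :=
  π.Nact ℝ k i.vtx x.1 + UmajC d Cm π.l k

/-- `A_i(x) = 𝖠_{i,x}(z)` (evaluate at `z = h`) -/
noncomputable def Amaj (Cm : ℝ) (L : ℕ) (z : ℝ) (i : Label n d) (x : Stub n d) : ℝ :=
  π.Aact L z i.vtx x.1 + Umaj d Cm π.l L z

/-- `j_x = 𝖩_x(z)` -/
noncomputable def jmaj (Cm : ℝ) (L : ℕ) (z : ℝ) (x : Stub n d) : ℝ :=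
  π.Ract L z x.1 + Umaj d Cm π.l L z

/-- `b_{xy} = 𝖡_{x,y}(z) = 𝖠_{x,y}(z) + C / l` -/
noncomputable def bmaj (Cm : ℝ) (L : ℕ) (z : ℝ) (x y : Stub n d) : ℝ :=
  π.Amaj Cm L z (.stub x) y + Cm / (π.l : ℝ)

/-- `r_i(x) = A_i(x) + |e_i(x)|` (cleanup.tex l. 92) -/
noncomputable def rmaj (Cm : ℝ) (L : ℕ) (σ h : ℝ) (i : Label n d) (x : Stub n d) : ℝ :=
  π.Amaj Cm L h i x + |π.eEnt L σ h i x|

/-- the entry `E_{ab}` at two labels (current axes) -/
noncomputable def Eent {K : Type*} [Field K] (L : ℕ) (σ h : K) (a b : Label n d) : K :=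
  π.ent (π.Emat L σ h) a b

/-- increment of an entry when `{u, v}` is resolved (INCLUDING the recentring of surviving stub axes) -/
noncomputable def dEent {K : Type*} [Field K] (L : ℕ) (σ h : K) (u v : Stub n d) (a b : Label n d) : K :=
  (π.resolve u v).Eent L σ h a b - π.Eent L σ h a b

end PPair

/-- uniform average over a finite set (D5 of the design memo) -/
noncomputable def avgOn {ι K : Type*} [Field K] (I : Finset ι) (f : ι → K) : K :=
  (∑ v ∈ I, f v) / (I.card : K)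

end Claimed.Agent.R275
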