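import Claimed.Agent.R275.TwoByTwo
import Claimed.Agent.R275.Maj

/-!
# Row 275, package FORMAL: the formal exposure (4.1) and the structure of the truncation tail

Paper: `foundations.tex` l. 160-172 (eq. (4.1) = `eq:original-1`), l. 560-625 ("The formal exposure tail"), `cleanup.tex` l. 300-320.
Owner of the statements: helper208.  Everything was checked numerically (exact coefficients; tail = sum of the `≥ L` parts to 1e-13).

Formal variable `X = σ h`.  All formal objects are matrices over `K[X]` (polynomials suffice: `P` is truncated, and the word with `j`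
intermediate factors is divisible by `X^{j+1}`).
* `PmatX L = ∑_{j<L} X^j Π Q_j Π`, `H0X = - X F B`, `TpX = Uᵀ P U - G_0`, `wordX j = P U H_0 (-(T H_0))^j Uᵀ P`.
* `formal_exposure`: for `m < L`, `coeff_m P' = coeff_m P - ∑_{j<L} coeff_m (wordX j)`.
  PROOF ROUTE (verified by hand): over the commutative ring `K⟦X⟧` (or modulo `X^L`) put `W_X = ∑ X^j Q_j`; L41C gives
  `(1 - X A_e + X² (D_e - 1)) W_X = 1 - X²`; `Ae_resolve`, `Dcal_resolve` give `T'_X = T_X + U (X² - X F) B Uᵀ`; Woodbury in the form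
  `(T + U K Uᵀ)⁻¹ = T⁻¹ - T⁻¹ U K (1 + Uᵀ T⁻¹ U K)⁻¹ Uᵀ T⁻¹`; with `K~ = K / (1 - X²)` one has `K~ (1 + X F) = H_0`, i.e.
  `K~ = H_0 (1 - G_0 H_0)⁻¹` (`G_0 F B = F`), hence `K~ (1 + G K~)⁻¹ = H_0 (1 + (G - G_0) H_0)⁻¹`.  Coefficients `< L` only see `P`.
* `tail_eq`: `tailR = lim_J ∑_{j<J} (wordX j)_{≥ L}(σ h)`; `tail_decomp`: zero-intermediate pure-swap part `TZ` + remainder dominated by the
  nonnegative majorant coefficient `Ĥ_P - h F`.
-/

set_option autoImplicit false
set_option linter.unusedSectionVars false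
set_option linter.unusedSimpArgs false
set_option linter.unusedVariables false

namespace Claimed.Agent.R275

open Matrix Polynomial

/-- the part of degree `≥ L` of a polynomial -/
noncomputable def hiPart {K : Type*} [Field K] (L : ℕ) (p : K[X]) : K[X] :=
  p - ∑ k ∈ Finset.range L, Polynomial.C (p.coeff k) * X ^ k

/-! ### abstract algebra over a commutative ring -/

section Abstract

variable {R : Type*} [CommRing R] {ι κ : Type*} [Fintype ι] [Fintype κ] [DecidableEq ι] [DecidableEq κ]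

/-- Woodbury over a commutative ring, in the normalisation of (4.1). -/
theorem fx_woodbury (c : R) (hc : IsUnit c) (T T' W W' : Matrix ι ι R) (U : Matrix ι κ R)
    (Km H G S : Matrix κ κ R)
    (hTW : T * W = c • 1) (hTW' : T' * W' = c • 1) (hT' : T' = T + U * Km * Uᵀ)
    (hK : Km * (1 - G * H) = c • H) (hS : (1 + (Uᵀ * W * U - G) * H) * S = 1) :
    W' = W - W * U * (H * S) * Uᵀ * W := by
  obtain ⟨c', rfl⟩ := hc
  set V := W - W * U * (H * S) * Uᵀ * W with hV
  -- the 2x2 identity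
  have e1 : Km = ((c' : R) • 1 + Km * (Uᵀ * W * U)) * H * S := by
    have h1 : Km * (1 + (Uᵀ * W * U - G) * H) = ((c' : R) • 1 + Km * (Uᵀ * W * U)) * H := by
      have : Km * (1 + (Uᵀ * W * U - G) * H) = Km * (1 - G * H) + Km * (Uᵀ * W * U) * H := by
        noncomm_ring
      rw [this, hK]
      rw [Matrix.add_mul, Matrix.smul_mul, Matrix.one_mul]
    calc Km = Km * ((1 + (Uᵀ * W * U - G) * H) * S) := by rw [hS, Matrix.mul_one]
      _ = (Km * (1 + (Uᵀ * W * U - G) * H)) * S := (Matrix.mul_assoc _ _ _).symm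
      _ = _ := by rw [h1]
  have e2 : T' * V = (c' : R) • 1 := by
    have h2 : T' * V = T * W - (T * W) * U * (H * S) * Uᵀ * W + U * Km * Uᵀ * W
        - U * (Km * (Uᵀ * W * U) * H * S) * Uᵀ * W := by
      rw [hT', hV]
      simp only [Matrix.add_mul, Matrix.mul_sub, Matrix.mul_assoc]
      abel
    have h3 : U * Km * Uᵀ * W = U * (((c' : R) • 1 + Km * (Uᵀ * W * U)) * H * S) * Uᵀ * W := by
      rw [← e1]
    rw [h2, h3, hTW]
    simp only [Matrix.add_mul, Matrix.mul_add, Matrix.smul_mul, Matrix.mul_smul, Matrix.one_mul,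
      Matrix.mul_assoc]
    abel
  have e3 : ((↑c'⁻¹ : R) • W') * T' = 1 := by
    rw [mul_eq_one_comm, Matrix.mul_smul, hTW', smul_smul]
    simp
  calc W' = ((↑c'⁻¹ : R) • W') * ((c' : R) • 1) := by
        rw [Matrix.mul_smul, Matrix.mul_one, smul_smul]; simp
    _ = ((↑c'⁻¹ : R) • W') * (T' * V) := by rw [e2]
    _ = V := by rw [← Matrix.mul_assoc, e3, Matrix.one_mul]

end Abstract


section MapHom

variable {A B : Type*} [CommRing A] [CommRing B] (f : A →+* B)

theorem fxm_mul {a b c : Type*} [Fintype b] (M : Matrix a b A) (N : Matrix b c A) :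
    (M * N).map f = M.map f * N.map f := Matrix.map_mul

theorem fxm_add {a b : Type*} (M N : Matrix a b A) : (M + N).map f = M.map f + N.map f :=
  Matrix.map_add f (map_add f) M N

theorem fxm_sub {a b : Type*} (M N : Matrix a b A) : (M - N).map f = M.map f - N.map f :=
  Matrix.map_sub f (map_sub f) M N

theorem fxm_neg {a b : Type*} (M : Matrix a b A) : (-M).map f = -M.map f := by
  ext i j; simp

theorem fxm_smul {a b : Type*} (r : A) (M : Matrix a b A) : (r • M).map f = f r • M.map f := by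
  ext i j; simp

theorem fxm_one {a : Type*} [DecidableEq a] : (1 : Matrix a a A).map f = 1 :=
  Matrix.map_one f (map_zero f) (map_one f)

theorem fxm_sum {a : Type*} [Fintype a] [DecidableEq a] {ι : Type*} (s : Finset ι)
    (M : ι → Matrix a a A) : (∑ i ∈ s, M i).map f = ∑ i ∈ s, (M i).map f :=
  map_sum f.mapMatrix M s

theorem fxm_pow {a : Type*} [Fintype a] [DecidableEq a] (M : Matrix a a A) (k : ℕ) :
    (M ^ k).map f = (M.map f) ^ k :=
  map_pow f.mapMatrix M k

end MapHom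

namespace PPair

variable {n d : ℕ} (π : PPair n d)

section Defs

variable (K : Type*) [Field K]

/-- formal reference -/
noncomputable def PmatX (L : ℕ) : Matrix (Fin n) (Fin n) K[X] :=
  ∑ j ∈ Finset.range L, (X ^ j : K[X]) • (Pi1 K n * π.Qmat K j * Pi1 K n).map Polynomial.C

/-- `U` with constant coefficients -/
noncomputable def UpairX (u v : Stub n d) : Matrix (Fin n) (Fin 2) K[X] := (π.Upair K u v).map Polynomial.C

/-- `H_0 = - X F B` -/
noncomputable def H0X : Matrix (Fin 2) (Fin 2) K[X] := -(X : K[X]) • (F2 K * B2 K π.l).map Polynomial.C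

/-- `T = Uᵀ P U - G_0` -/
noncomputable def TpX (L : ℕ) (u v : Stub n d) : Matrix (Fin 2) (Fin 2) K[X] :=
  (π.UpairX K u v)ᵀ * π.PmatX K L * π.UpairX K u v - (G0 K π.l).map Polynomial.C

/-- the word with `j` intermediate endpoint factors -/
noncomputable def wordX (L j : ℕ) (u v : Stub n d) : Matrix (Fin n) (Fin n) K[X] :=
  π.PmatX K L * π.UpairX K u v * (π.H0X K * (-(π.TpX K L u v * π.H0X K)) ^ j) * (π.UpairX K u v)ᵀ * π.PmatX K L

/-- `T_X = 1 - X A_e + X² (D_e - 1)` -/
noncomputable def fxT : Matrix (Fin n) (Fin n) K[X] :=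
  1 - (X : K[X]) • (π.Ae K).map Polynomial.C + (X ^ 2 : K[X]) • (π.De K - 1).map Polynomial.C

/-- `W_X` truncated: `∑_{j<N} X^j Q_j` -/
noncomputable def fxW (N : ℕ) : Matrix (Fin n) (Fin n) K[X] :=
  ∑ j ∈ Finset.range N, (X ^ j : K[X]) • (π.Qmat K j).map Polynomial.C

end Defs

section Formal

variable {K : Type*} [Field K] [CharZero K]

theorem fx_map_mul {a b c : Type*} [Fintype b] (M : Matrix a b K) (N : Matrix b c K) :
    (M * N).map (Polynomial.C : K → K[X]) = M.map Polynomial.C * N.map Polynomial.C :=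
  Matrix.map_mul (f := (Polynomial.C : K →+* K[X]))

theorem fx_map_sub {a b : Type*} (M N : Matrix a b K) :
    (M - N).map (Polynomial.C : K → K[X]) = M.map Polynomial.C - N.map Polynomial.C :=
  Matrix.map_sub (Polynomial.C : K →+* K[X]) (map_sub _) M N

theorem fx_map_add {a b : Type*} (M N : Matrix a b K) :
    (M + N).map (Polynomial.C : K → K[X]) = M.map Polynomial.C + N.map Polynomial.C :=
  Matrix.map_add (Polynomial.C : K →+* K[X]) (map_add _) M N

theorem fx_map_one {a : Type*} [DecidableEq a] :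
    (1 : Matrix a a K).map (Polynomial.C : K → K[X]) = 1 :=
  Matrix.map_one (Polynomial.C : K →+* K[X]) (map_zero _) (map_one _)

/-- the truncated generating identity, formally -/
theorem fxT_mul_fxW (N : ℕ) : π.fxT K * π.fxW K (N + 2) =
    (1 - X ^ 2 : K[X]) • 1 - (X ^ (N + 2) : K[X]) • (π.Qmat K (N + 2)).map Polynomial.C
      + (X ^ (N + 3) : K[X]) • ((π.De K - 1) * π.Qmat K (N + 1)).map Polynomial.C := by
  induction N with
  | zero =>
    have h2 : π.Qmat K (0 + 2) = π.Ae K * π.Ae K - π.De K := rfl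
    have h1 : π.Qmat K (0 + 1) = π.Ae K := rfl
    rw [h2, h1]
    simp only [fxW, fxT, Finset.sum_range_succ, Finset.sum_range_zero, Qmat_zero, Qmat_one,
      fx_map_mul, fx_map_sub, fx_map_one]
    simp only [Matrix.mul_add, Matrix.add_mul, Matrix.sub_mul, Matrix.mul_sub, Matrix.smul_mul,
      Matrix.mul_smul, Matrix.one_mul, Matrix.mul_one, smul_smul, smul_sub, smul_add,
      Matrix.mul_zero, smul_zero]
    module
  | succ N ih =>
    have e : π.fxW K (N + 1 + 2) = π.fxW K (N + 2) + (X ^ (N + 2) : K[X]) • (π.Qmat K (N + 2)).map Polynomial.C := by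
      rw [fxW, Finset.sum_range_succ]; rfl
    rw [e, Matrix.mul_add, ih, show N + 1 + 2 = N + 3 from rfl, Qmat_rec]
    simp only [fxT, fx_map_mul, fx_map_sub, fx_map_one]
    simp only [Matrix.mul_add, Matrix.add_mul, Matrix.sub_mul, Matrix.mul_sub, Matrix.smul_mul,
      Matrix.mul_smul, Matrix.one_mul, Matrix.mul_one, smul_smul, smul_sub, smul_add]
    module

theorem fx_PmatX_eq (L : ℕ) :
    π.PmatX K L = (Pi1 K n).map Polynomial.C * π.fxW K L * (Pi1 K n).map Polynomial.C := by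
  rw [PmatX, fxW, Finset.mul_sum, Finset.sum_mul]
  refine Finset.sum_congr rfl fun j _ => ?_
  rw [fx_map_mul, fx_map_mul, Matrix.mul_smul, Matrix.smul_mul]

theorem fx_Pi_mul_UX (hl : 0 < π.l) (u v : Stub n d) :
    (Pi1 K n).map Polynomial.C * π.UpairX K u v = π.UpairX K u v := by
  rw [UpairX, ← fx_map_mul, Pi1_mul_Upair π hl]

theorem fx_UXt_mul_Pi (hl : 0 < π.l) (u v : Stub n d) :
    (π.UpairX K u v)ᵀ * (Pi1 K n).map Polynomial.C = (π.UpairX K u v)ᵀ := by
  have h := congrArg Matrix.transpose (π.fx_Pi_mul_UX (K := K) hl u v)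
  rw [Matrix.transpose_mul, ← Matrix.transpose_map, Pi1_transpose] at h
  exact h

theorem fx_TpX_eq (hl : 0 < π.l) (L : ℕ) (u v : Stub n d) :
    π.TpX K L u v = (π.UpairX K u v)ᵀ * π.fxW K L * π.UpairX K u v - (G0 K π.l).map Polynomial.C := by
  rw [TpX, fx_PmatX_eq]
  congr 1
  calc (π.UpairX K u v)ᵀ * ((Pi1 K n).map Polynomial.C * π.fxW K L * (Pi1 K n).map Polynomial.C)
        * π.UpairX K u v
      = ((π.UpairX K u v)ᵀ * (Pi1 K n).map Polynomial.C) * π.fxW K L
          * ((Pi1 K n).map Polynomial.C * π.UpairX K u v) := by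
        simp only [Matrix.mul_assoc]
    _ = _ := by rw [fx_Pi_mul_UX π hl, fx_UXt_mul_Pi π hl]

/-- the formal coupling `(X² - X F) B` -/
noncomputable def fxKm (K : Type*) [Field K] (l : ℕ) : Matrix (Fin 2) (Fin 2) K[X] :=
  ((X ^ 2 : K[X]) • 1 - (X : K[X]) • (F2 K).map Polynomial.C) * (B2 K l).map Polynomial.C

variable {π} in
theorem fxT_resolve {u v : Stub n d} (hu : π.Unres u) (hv : π.Unres v) (huv : u ≠ v) (hl : 2 < π.l) :
    (π.resolve u v).fxT K = π.fxT K + π.UpairX K u v * fxKm K π.l * (π.UpairX K u v)ᵀ := by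
  have hD : ∀ ρ : PPair n d, ρ.De K = (d : K) • 1 - ρ.Dcal K := fun _ => rfl
  rw [fxT, fxT, hD, hD, Dcal_resolve K hu hv huv hl, Ae_resolve K hu hv huv hl, fxKm, UpairX]
  simp only [fx_map_mul, fx_map_sub, fx_map_add, fx_map_one, Matrix.transpose_map]
  simp only [Matrix.mul_add, Matrix.add_mul, Matrix.sub_mul, Matrix.mul_sub, Matrix.smul_mul,
    Matrix.mul_smul, Matrix.one_mul, Matrix.mul_one, smul_smul, smul_sub, smul_add, Matrix.mul_assoc]
  module

theorem fx_B2_mul_F2 (l : ℕ) : B2 K l * F2 K = F2 K * B2 K l := by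
  ext i j
  fin_cases i <;> fin_cases j <;> simp [F2, B2, J2, Matrix.mul_apply, Fin.sum_univ_two, Matrix.one_apply]

theorem fx_G0_mul_F2 (l : ℕ) : G0 K l * F2 K = F2 K * G0 K l := by
  ext i j
  fin_cases i <;> fin_cases j <;> simp [F2, G0, J2, Matrix.mul_apply, Fin.sum_univ_two, Matrix.one_apply]

theorem fx_Km_identity (hl : 2 < π.l) :
    fxKm K π.l * (1 - (G0 K π.l).map Polynomial.C * π.H0X K) = (1 - X ^ 2 : K[X]) • π.H0X K := by
  have h1 : G0 K π.l * (F2 K * B2 K π.l) = F2 K := by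
    rw [← Matrix.mul_assoc, fx_G0_mul_F2, Matrix.mul_assoc, G0_mul_B2 K hl, Matrix.mul_one]
  have h2 : B2 K π.l * F2 K = F2 K * B2 K π.l := fx_B2_mul_F2 _
  have h3 : F2 K * (F2 K * B2 K π.l) = B2 K π.l := by
    rw [← Matrix.mul_assoc, F2_mul_F2, Matrix.one_mul]
  have e1 : (G0 K π.l).map Polynomial.C * π.H0X K = -(X : K[X]) • (F2 K).map Polynomial.C := by
    rw [H0X, Matrix.mul_smul, ← fx_map_mul, h1]
  rw [e1, fxKm, H0X]
  have e2 : (B2 K π.l).map Polynomial.C * (F2 K).map (Polynomial.C : K → K[X]) =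
      (F2 K * B2 K π.l).map Polynomial.C := by rw [← fx_map_mul, h2]
  have e3 : (F2 K).map Polynomial.C * (F2 K * B2 K π.l).map (Polynomial.C : K → K[X]) =
      (B2 K π.l).map Polynomial.C := by rw [← fx_map_mul, h3]
  have e4 : (F2 K).map Polynomial.C * (B2 K π.l).map (Polynomial.C : K → K[X]) =
      (F2 K * B2 K π.l).map Polynomial.C := by rw [← fx_map_mul]
  have e5 : (F2 K * B2 K π.l).map Polynomial.C * (F2 K).map (Polynomial.C : K → K[X]) =
      (B2 K π.l).map Polynomial.C := by rw [← fx_map_mul, Matrix.mul_assoc, h2, h3]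
  simp only [Matrix.mul_add, Matrix.add_mul, Matrix.sub_mul, Matrix.mul_sub, Matrix.smul_mul,
    Matrix.mul_smul, Matrix.one_mul, Matrix.mul_one, smul_smul, smul_sub, smul_add, Matrix.mul_assoc,
    e2, e3, e4, e5, neg_smul, Matrix.mul_neg, sub_neg_eq_add, smul_neg]
  module

section Quot

variable {R : Type*} [CommRing R] (f : K[X] →+* R) (L : ℕ)

theorem fx_map_fxW_add_two (hf : f X ^ L = 0) : (π.fxW K (L + 2)).map f = (π.fxW K L).map f := by
  rw [fxW, Finset.sum_range_succ, Finset.sum_range_succ, fxm_add, fxm_add, fxm_smul, fxm_smul, map_pow,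
    map_pow, pow_succ, hf, zero_mul, zero_smul, zero_smul, add_zero, add_zero]
  rfl

theorem fx_map_T_mul_W (hf : f X ^ L = 0) :
    (π.fxT K).map f * (π.fxW K L).map f = f (1 - X ^ 2) • 1 := by
  rw [← fx_map_fxW_add_two π f L hf, ← fxm_mul, fxT_mul_fxW, fxm_add, fxm_sub, fxm_smul, fxm_smul,
    fxm_smul, fxm_one, map_pow, map_pow, pow_add, pow_add, hf, zero_mul, zero_mul, zero_smul, zero_smul,
    sub_zero, add_zero]

theorem fx_isUnit (hf : f X ^ L = 0) : IsUnit (f (1 - X ^ 2)) := by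
  rw [map_sub, map_one, map_pow]
  exact IsNilpotent.isUnit_one_sub (IsNilpotent.pow_succ 1 ⟨L, hf⟩)

variable {π} in
theorem fx_main (hf : f X ^ L = 0) {u v : Stub n d} (hu : π.Unres u) (hv : π.Unres v) (huv : u ≠ v)
    (hl : 2 < π.l) :
    ((π.resolve u v).fxW K L).map f = (π.fxW K L - π.fxW K L * π.UpairX K u v *
      (π.H0X K * ∑ j ∈ Finset.range L, (-(π.TpX K L u v * π.H0X K)) ^ j) * (π.UpairX K u v)ᵀ
        * π.fxW K L).map f := by
  have hS : (1 + (((π.UpairX K u v).map f)ᵀ * (π.fxW K L).map f * (π.UpairX K u v).map f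
      - ((G0 K π.l).map Polynomial.C).map f) * (π.H0X K).map f) *
      (∑ j ∈ Finset.range L, (-(π.TpX K L u v * π.H0X K)) ^ j).map f = 1 := by
    have e1 : ((π.UpairX K u v).map f)ᵀ * (π.fxW K L).map f * (π.UpairX K u v).map f
      - ((G0 K π.l).map Polynomial.C).map f = (π.TpX K L u v).map f := by
      rw [fx_TpX_eq π (by omega), fxm_sub, fxm_mul, fxm_mul, Matrix.transpose_map]
    rw [e1, fxm_sum]
    simp only [fxm_pow, fxm_neg, fxm_mul]
    set y := -((π.TpX K L u v).map f * (π.H0X K).map f) with hy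
    have e2 : 1 + (π.TpX K L u v).map f * (π.H0X K).map f = 1 - y := by rw [hy]; abel
    rw [e2, mul_neg_geom_sum]
    have e3 : y = f X • ((π.TpX K L u v).map f * ((F2 K * B2 K π.l).map Polynomial.C).map f) := by
      rw [hy, H0X, fxm_smul, Matrix.mul_smul, map_neg, neg_smul, neg_neg]
    rw [e3, _root_.smul_pow, hf, zero_smul, sub_zero]
  have := fx_woodbury (f (1 - X ^ 2)) (fx_isUnit f L hf) ((π.fxT K).map f) (((π.resolve u v).fxT K).map f)
    ((π.fxW K L).map f) (((π.resolve u v).fxW K L).map f) ((π.UpairX K u v).map f) ((fxKm K π.l).map f)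
    ((π.H0X K).map f) (((G0 K π.l).map Polynomial.C).map f)
    ((∑ j ∈ Finset.range L, (-(π.TpX K L u v * π.H0X K)) ^ j).map f)
    (fx_map_T_mul_W π f L hf) (fx_map_T_mul_W _ f L hf)
    (by rw [fxT_resolve hu hv huv hl, fxm_add, fxm_mul, fxm_mul, Matrix.transpose_map])
    (by rw [← fxm_smul, ← fx_Km_identity π hl, fxm_mul, fxm_sub, fxm_mul, fxm_one])
    hS
  rw [this, fxm_sub]
  simp only [fxm_mul, Matrix.transpose_map]

end Quot

theorem fx_eval_map_C {a b : Type*} (x : K) (M : Matrix a b K) :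
    (M.map Polynomial.C).map (Polynomial.eval x) = M := by
  ext i j; simp

theorem eval_PmatX (L : ℕ) (σ h : K) : (π.PmatX K L).map (Polynomial.eval (σ * h)) = π.Pmat L σ h := by
  have h1 := fxm_sum (Polynomial.evalRingHom (σ * h)) (Finset.range L)
    (fun j => (X ^ j : K[X]) • (Pi1 K n * π.Qmat K j * Pi1 K n).map Polynomial.C)
  rw [Polynomial.coe_evalRingHom] at h1
  rw [PmatX, h1, Pmat, PmatV]
  refine Finset.sum_congr rfl fun j _ => ?_
  have h2 := fxm_smul (Polynomial.evalRingHom (σ * h)) (X ^ j : K[X])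
    ((Pi1 K n * π.Qmat K j * Pi1 K n).map Polynomial.C)
  rw [Polynomial.coe_evalRingHom] at h2
  rw [h2, fx_eval_map_C, Polynomial.eval_pow, Polynomial.eval_X]
  rfl

theorem eval_H0X (σ h : K) : (π.H0X K).map (Polynomial.eval (σ * h)) = H0 π.l σ h := by
  have h2 := fxm_smul (Polynomial.evalRingHom (σ * h)) (-X : K[X]) ((F2 K * B2 K π.l).map Polynomial.C)
  rw [Polynomial.coe_evalRingHom] at h2
  rw [H0X, h2, fx_eval_map_C, Polynomial.eval_neg, Polynomial.eval_X, H0]

theorem eval_UpairX (x : K) (u v : Stub n d) : (π.UpairX K u v).map (Polynomial.eval x) = π.Upair K u v :=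
  fx_eval_map_C x _

theorem eval_TpX (L : ℕ) (σ h : K) (u v : Stub n d) :
    (π.TpX K L u v).map (Polynomial.eval (σ * h)) = π.Tp L σ h u v := by
  have h1 := fxm_sub (Polynomial.evalRingHom (σ * h))
    ((π.UpairX K u v)ᵀ * π.PmatX K L * π.UpairX K u v) ((G0 K π.l).map Polynomial.C)
  rw [fxm_mul, fxm_mul, Polynomial.coe_evalRingHom] at h1
  rw [TpX, h1, fx_eval_map_C, Matrix.transpose_map, eval_UpairX, eval_PmatX, Tp, blk]

theorem eval_wordX (L j : ℕ) (σ h : K) (u v : Stub n d) :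
    (π.wordX K L j u v).map (Polynomial.eval (σ * h)) =
      π.Pmat L σ h * π.Upair K u v * (H0 π.l σ h * (-(π.Tp L σ h u v * H0 π.l σ h)) ^ j)
        * (π.Upair K u v)ᵀ * π.Pmat L σ h := by
  rw [← Polynomial.coe_evalRingHom, wordX]
  simp only [fxm_mul, fxm_pow, fxm_neg, Matrix.transpose_map]
  rw [Polynomial.coe_evalRingHom, eval_PmatX, eval_UpairX, eval_H0X, eval_TpX]

/-- `wordX j` is divisible by `X^{j+1}` -/
theorem coeff_wordX_eq_zero (L j m : ℕ) (hm : m ≤ j) (u v : Stub n d) (a b : Fin n) :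
    (π.wordX K L j u v a b).coeff m = 0 := by
  set M0 : Matrix (Fin 2) (Fin 2) K[X] := (F2 K * B2 K π.l).map Polynomial.C with hM0
  have e1 : -(π.TpX K L u v * π.H0X K) = (X : K[X]) • (π.TpX K L u v * M0) := by
    rw [H0X, Matrix.mul_smul, neg_smul, neg_neg]
  have e2 : π.wordX K L j u v = (X ^ (j + 1) : K[X]) • (π.PmatX K L * π.UpairX K u v *
      (-(M0 * (π.TpX K L u v * M0) ^ j)) * (π.UpairX K u v)ᵀ * π.PmatX K L) := by
    rw [wordX, e1, _root_.smul_pow, H0X, Matrix.mul_smul, Matrix.smul_mul, smul_smul]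
    simp only [Matrix.mul_smul, Matrix.smul_mul, Matrix.mul_neg, Matrix.neg_mul, smul_neg]
    rw [← neg_smul]
    congr 1
    ring
  rw [e2, Matrix.smul_apply, smul_eq_mul, Polynomial.coeff_X_pow_mul', if_neg (by omega)]

theorem fx_sum_wordX (hl : 0 < π.l) (L : ℕ) (u v : Stub n d) :
    ∑ j ∈ Finset.range L, π.wordX K L j u v =
      (Pi1 K n).map Polynomial.C * (π.fxW K L * π.UpairX K u v *
      (π.H0X K * ∑ j ∈ Finset.range L, (-(π.TpX K L u v * π.H0X K)) ^ j) * (π.UpairX K u v)ᵀ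
        * π.fxW K L) * (Pi1 K n).map Polynomial.C := by
  have e1 : π.PmatX K L * π.UpairX K u v = (Pi1 K n).map Polynomial.C * π.fxW K L * π.UpairX K u v := by
    rw [fx_PmatX_eq, Matrix.mul_assoc _ _ (π.UpairX K u v), fx_Pi_mul_UX π hl]
  have e2 : (π.UpairX K u v)ᵀ * π.PmatX K L = (π.UpairX K u v)ᵀ * π.fxW K L * (Pi1 K n).map Polynomial.C := by
    rw [fx_PmatX_eq, ← Matrix.mul_assoc, ← Matrix.mul_assoc, fx_UXt_mul_Pi π hl]
  have e3 : ∀ j, π.wordX K L j u v = (Pi1 K n).map Polynomial.C * (π.fxW K L * π.UpairX K u v *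
      (π.H0X K * (-(π.TpX K L u v * π.H0X K)) ^ j) * (π.UpairX K u v)ᵀ
        * π.fxW K L) * (Pi1 K n).map Polynomial.C := by
    intro j
    rw [wordX, e1, Matrix.mul_assoc _ ((π.UpairX K u v)ᵀ) (π.PmatX K L), e2]
    simp only [Matrix.mul_assoc]
  simp only [e3, Matrix.mul_sum, Matrix.sum_mul]

variable {π} in
/-- (4.1): THE FORMAL EXPOSURE, coefficientwise -/
theorem formal_exposure {u v : Stub n d} (hu : π.Unres u) (hv : π.Unres v) (huv : u ≠ v) (hl : 2 < π.l)
    (hn : 0 < n) (L m : ℕ) (hm : m < L) (a b : Fin n) :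
    ((π.resolve u v).PmatX K L a b).coeff m =
      (π.PmatX K L a b).coeff m - ∑ j ∈ Finset.range L, (π.wordX K L j u v a b).coeff m := by
  set f := Ideal.Quotient.mk (Ideal.span {(X : K[X]) ^ L}) with hfdef
  have hf : f X ^ L = 0 := by
    rw [← map_pow, hfdef, Ideal.Quotient.eq_zero_iff_mem]
    exact Ideal.mem_span_singleton_self _
  have key : ((π.resolve u v).PmatX K L).map f =
      (π.PmatX K L - ∑ j ∈ Finset.range L, π.wordX K L j u v).map f := by
    rw [fx_sum_wordX π (by omega), fx_PmatX_eq, fx_PmatX_eq, fxm_mul, fxm_mul, fx_main f L hf hu hv huv hl,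
      ← fxm_mul, ← fxm_mul, Matrix.mul_sub, Matrix.sub_mul]
  have h1 := congrFun (congrFun key a) b
  simp only [Matrix.map_apply] at h1
  rw [hfdef, Ideal.Quotient.eq, Ideal.mem_span_singleton, Polynomial.X_pow_dvd_iff] at h1
  have h2 := h1 m hm
  rw [Polynomial.coeff_sub, Matrix.sub_apply, Matrix.sum_apply, Polynomial.coeff_sub,
    Polynomial.finsetSum_coeff] at h2
  exact sub_eq_zero.1 h2

end Formal

end PPair

end Claimed.Agent.R275
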