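import Claimed.Agent.R275.Formal

/-!
# Row 275, package FORMALTAIL: structure of the truncation tail `𝓡_P = [P U H_P Uᵀ P]_{≥ L}`

See the header of `Formal.lean`.  Statements: helper208 (numerically checked).  May assume all statements of `Formal.lean`, `TwoByTwo.lean`.
Proofs: helper277 (helper lemmas are prefixed `ft`).  CHANGE: `abs_Tp_le` got the hypothesis `0 < L` (it is false at `L = 0`, where `T = -G_0`).
Method for `tail_decomp`: `ftPB h p c` says `∑ |p_k| h^k ≤ c`; it is closed under `+`, `*`, `hiPart`; the remainder of `tail_eq` is `O((3/8)^J)`.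
-/

set_option autoImplicit false

namespace Claimed.Agent.R275

open Matrix Polynomial

/-! ### coefficientwise majorants of real polynomials -/

theorem ft_dom_eval {p P : ℝ[X]} (hd : ∀ k, |p.coeff k| ≤ P.coeff k) {x h : ℝ} (hx : |x| ≤ h) :
    |p.eval x| ≤ P.eval h := by
  rw [Polynomial.eval_eq_sum_range' (show p.natDegree < max p.natDegree P.natDegree + 1 by
      have := le_max_left p.natDegree P.natDegree; omega),
    Polynomial.eval_eq_sum_range' (show P.natDegree < max p.natDegree P.natDegree + 1 by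
      have := le_max_right p.natDegree P.natDegree; omega)]
  refine (Finset.abs_sum_le_sum_abs _ _).trans (Finset.sum_le_sum fun k _ => ?_)
  rw [abs_mul, abs_pow]
  exact mul_le_mul (hd k) (pow_le_pow_left₀ (abs_nonneg _) hx k) (by positivity)
    ((abs_nonneg _).trans (hd k))

/-- `p` is coefficientwise dominated by a polynomial whose value at `h` is `≤ c` (i.e. `∑ |p_k| h^k ≤ c`) -/
def ftPB (h : ℝ) (p : ℝ[X]) (c : ℝ) : Prop :=
  ∃ P : ℝ[X], (∀ k, |p.coeff k| ≤ P.coeff k) ∧ P.eval h ≤ c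

namespace ftPB

variable {h : ℝ} {p q : ℝ[X]} {c c' : ℝ}

theorem eval_le (H : ftPB h p c) {x : ℝ} (hx : |x| ≤ h) : |p.eval x| ≤ c := by
  obtain ⟨P, hP, hc⟩ := H
  exact (ft_dom_eval hP hx).trans hc

theorem nonneg (hh : 0 ≤ h) (H : ftPB h p c) : 0 ≤ c :=
  (abs_nonneg _).trans (H.eval_le (x := h) (by rw [abs_of_nonneg hh]))

theorem mono (H : ftPB h p c) (hc : c ≤ c') : ftPB h p c' := by
  obtain ⟨P, hP, hc'⟩ := H
  exact ⟨P, hP, hc'.trans hc⟩

theorem zero : ftPB h 0 0 := ⟨0, by simp, by simp⟩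

theorem add (H : ftPB h p c) (H' : ftPB h q c') : ftPB h (p + q) (c + c') := by
  obtain ⟨P, hP, hc⟩ := H
  obtain ⟨Q, hQ, hc'⟩ := H'
  refine ⟨P + Q, fun k => ?_, by rw [Polynomial.eval_add]; linarith⟩
  rw [Polynomial.coeff_add, Polynomial.coeff_add]
  exact (abs_add_le _ _).trans (add_le_add (hP k) (hQ k))

theorem neg (H : ftPB h p c) : ftPB h (-p) c := by
  obtain ⟨P, hP, hc⟩ := H
  exact ⟨P, fun k => by rw [Polynomial.coeff_neg, abs_neg]; exact hP k, hc⟩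

theorem mul (hh : 0 ≤ h) (H : ftPB h p c) (H' : ftPB h q c') : ftPB h (p * q) (c * c') := by
  have hc0 := H.nonneg hh
  obtain ⟨P, hP, hc⟩ := H
  obtain ⟨Q, hQ, hc'⟩ := H'
  have hQ0 : 0 ≤ Q.eval h :=
    (abs_nonneg _).trans (ft_dom_eval hQ (x := h) (by rw [abs_of_nonneg hh]))
  refine ⟨P * Q, fun k => ?_, by rw [Polynomial.eval_mul]; exact mul_le_mul hc hc' hQ0 hc0⟩
  rw [Polynomial.coeff_mul, Polynomial.coeff_mul]
  refine (Finset.abs_sum_le_sum_abs _ _).trans (Finset.sum_le_sum fun ij _ => ?_)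
  rw [abs_mul]
  exact mul_le_mul (hP _) (hQ _) (abs_nonneg _) ((abs_nonneg _).trans (hP _))

theorem sum {ι : Type*} (s : Finset ι) {f : ι → ℝ[X]} {g : ι → ℝ} (H : ∀ i ∈ s, ftPB h (f i) (g i)) :
    ftPB h (∑ i ∈ s, f i) (∑ i ∈ s, g i) := by
  classical
  induction s using Finset.induction_on with
  | empty => simpa using zero
  | insert a s ha ih =>
    rw [Finset.sum_insert ha, Finset.sum_insert ha]
    exact (H a (Finset.mem_insert_self _ _)).add (ih fun i hi => H i (Finset.mem_insert_of_mem hi))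

theorem C_mul_X_pow (a : ℝ) (k : ℕ) : ftPB h (C a * X ^ k) (h ^ k * |a|) := by
  refine ⟨C |a| * X ^ k, fun m => ?_, by
    rw [Polynomial.eval_mul, Polynomial.eval_C, Polynomial.eval_pow, Polynomial.eval_X, mul_comm]⟩
  rw [Polynomial.coeff_C_mul_X_pow, Polynomial.coeff_C_mul_X_pow]
  split_ifs <;> simp

theorem const (a : ℝ) : ftPB h (C a) |a| := by
  simpa using C_mul_X_pow (h := h) a 0

theorem one : ftPB h 1 1 := by
  simpa using const (h := h) 1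

theorem var : ftPB h X h := by
  simpa using C_mul_X_pow (h := h) 1 1

end ftPB

theorem ft_coeff_hiPart (L : ℕ) (p : ℝ[X]) (k : ℕ) : (hiPart L p).coeff k = if k < L then 0 else p.coeff k := by
  rw [hiPart, Polynomial.coeff_sub, Polynomial.finsetSum_coeff]
  simp only [Polynomial.coeff_C_mul_X_pow]
  rw [Finset.sum_ite_eq]
  simp only [Finset.mem_range]
  split_ifs <;> simp

theorem ftPB.hiPart {h : ℝ} {p : ℝ[X]} {c : ℝ} (H : ftPB h p c) (L : ℕ) : ftPB h (hiPart L p) c := by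
  obtain ⟨P, hP, hc⟩ := H
  refine ⟨P, fun k => ?_, hc⟩
  rw [ft_coeff_hiPart]
  split_ifs
  · rw [abs_zero]; exact (abs_nonneg _).trans (hP k)
  · exact hP k

/-- `p ↦ p_{≥ L}(x)` as a linear map -/
noncomputable def ftHi (L : ℕ) (x : ℝ) : ℝ[X] →ₗ[ℝ] ℝ where
  toFun p := (hiPart L p).eval x
  map_add' p q := by
    rw [← Polynomial.eval_add]
    congr 1
    ext k
    simp only [ft_coeff_hiPart, Polynomial.coeff_add]
    split_ifs <;> simp
  map_smul' r p := by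
    rw [RingHom.id_apply, smul_eq_mul, ← Polynomial.eval_C (a := r) (x := x), ← Polynomial.eval_mul]
    rw [Polynomial.eval_C]
    congr 1
    ext k
    simp only [ft_coeff_hiPart, Polynomial.coeff_smul, Polynomial.coeff_C_mul, smul_eq_mul]
    split_ifs <;> simp

theorem ftHi_apply (L : ℕ) (x : ℝ) (p : ℝ[X]) : ftHi L x p = (hiPart L p).eval x := rfl

theorem ftHi_C_mul_X_pow (L : ℕ) (x a : ℝ) (m : ℕ) :
    ftHi L x (C a * X ^ m) = if L ≤ m then a * x ^ m else 0 := by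
  rw [ftHi_apply]
  split_ifs with hm
  · have : hiPart L (C a * X ^ m) = C a * X ^ m := by
      ext k
      rw [ft_coeff_hiPart, Polynomial.coeff_C_mul_X_pow]
      split_ifs with h1 h2 <;> first | rfl | omega
    rw [this]; simp
  · have : hiPart L (C a * X ^ m) = 0 := by
      ext k
      rw [ft_coeff_hiPart, Polynomial.coeff_C_mul_X_pow]
      split_ifs with h1 h2 <;> first | omega | simp
    rw [this]; simp

/-- entrywise version of `ftPB` for `2 × 2` matrices -/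
def ftMB (h : ℝ) (A : Matrix (Fin 2) (Fin 2) ℝ[X]) (B : Matrix (Fin 2) (Fin 2) ℝ) : Prop :=
  ∀ i j, ftPB h (A i j) (B i j)

namespace ftMB

variable {h : ℝ} {A A' : Matrix (Fin 2) (Fin 2) ℝ[X]} {B B' : Matrix (Fin 2) (Fin 2) ℝ}

theorem mul (hh : 0 ≤ h) (H : ftMB h A B) (H' : ftMB h A' B') : ftMB h (A * A') (B * B') := by
  intro i j
  rw [Matrix.mul_apply, Matrix.mul_apply]
  exact ftPB.sum _ fun k _ => (H i k).mul hh (H' k j)

theorem neg (H : ftMB h A B) : ftMB h (-A) B := fun i j => (H i j).neg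

theorem one : ftMB h 1 1 := by
  intro i j
  rw [Matrix.one_apply, Matrix.one_apply]
  split_ifs
  · exact ftPB.one
  · exact ftPB.zero

theorem pow (hh : 0 ≤ h) (H : ftMB h A B) (k : ℕ) : ftMB h (A ^ k) (B ^ k) := by
  induction k with
  | zero => simpa using one
  | succ k ih => rw [pow_succ, pow_succ]; exact ih.mul hh H

theorem mono (H : ftMB h A B) (hB : ∀ i j, B i j ≤ B' i j) : ftMB h A B' :=
  fun i j => (H i j).mono (hB i j)

end ftMB

/-! ### sandwiches -/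

section Sandwich

variable {R : Type*} [CommRing R] {n : ℕ}

theorem ft_sandwich (A B : Matrix (Fin n) (Fin n) R) (U : Matrix (Fin n) (Fin 2) R)
    (Hm : Matrix (Fin 2) (Fin 2) R) (fa fb : Fin n → R) :
    fa ⬝ᵥ ((A * U * Hm * Uᵀ * B) *ᵥ fb) =
      ∑ s : Fin 2, ∑ s' : Fin 2, (fa ⬝ᵥ (A *ᵥ fun i => U i s)) * Hm s s' * ((fun i => U i s') ⬝ᵥ (B *ᵥ fb)) := by
  have hU : ∀ w : Fin 2 → R, U *ᵥ w = w 0 • (fun i => U i 0) + w 1 • (fun i => U i 1) := by
    intro w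
    ext k
    simp [Matrix.mulVec, dotProduct, Fin.sum_univ_two]
    ring
  have hUt : ∀ w : Fin n → R, Uᵀ *ᵥ w = ![(fun i => U i 0) ⬝ᵥ w, (fun i => U i 1) ⬝ᵥ w] := by
    intro w
    ext i
    fin_cases i <;> simp [Matrix.mulVec, dotProduct]
  simp only [← Matrix.mulVec_mulVec, hUt, hU, Fin.sum_univ_two]
  generalize (fun i => U i 0) ⬝ᵥ B *ᵥ fb = α
  generalize (fun i => U i 1) ⬝ᵥ B *ᵥ fb = β
  simp only [Matrix.mulVec_add, Matrix.mulVec_smul, dotProduct_add, dotProduct_smul, smul_eq_mul]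
  generalize fa ⬝ᵥ A *ᵥ (fun i => U i 0) = γ
  generalize fa ⬝ᵥ A *ᵥ (fun i => U i 1) = δ
  simp [Matrix.mulVec, dotProduct, Fin.sum_univ_two]
  ring

theorem ft_block (A : Matrix (Fin n) (Fin n) R) (U : Matrix (Fin n) (Fin 2) R) (s s' : Fin 2) :
    (Uᵀ * A * U) s s' = (fun i => U i s) ⬝ᵥ (A *ᵥ fun i => U i s') := by
  simp only [Matrix.mul_apply, Matrix.transpose_apply, dotProduct, Matrix.mulVec, Finset.sum_mul,
    Finset.mul_sum]
  rw [Finset.sum_comm]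
  refine Finset.sum_congr rfl fun i _ => Finset.sum_congr rfl fun j _ => ?_
  ring

end Sandwich

namespace PPair

variable {n d : ℕ} (π : PPair n d)

/-! ### label entries -/

theorem ft_sum_lvec (hn : 0 < n) (hl : 0 < π.l) (a : Label n d) : ∑ i, π.lvec ℝ a i = 0 := by
  cases a with
  | glob i =>
    have hn' : (n : ℝ) ≠ 0 := Nat.cast_ne_zero.2 hn.ne'
    simp only [lvec, Finset.sum_sub_distrib, Finset.sum_ite_eq, Finset.mem_univ, if_true,
      Finset.sum_const, Finset.card_univ, Fintype.card_fin, nsmul_eq_mul]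
    rw [mul_inv_cancel₀ hn', sub_self]
  | stub x => exact π.sum_xi_apply ℝ hl x

theorem ft_Pi1_mulVec_lvec (hn : 0 < n) (hl : 0 < π.l) (a : Label n d) :
    Pi1 ℝ n *ᵥ π.lvec ℝ a = π.lvec ℝ a :=
  Pi1_mulVec_of_sum_zero _ (π.ft_sum_lvec hn hl a)

theorem ft_ent_transpose (M : Matrix (Fin n) (Fin n) ℝ) (a b : Label n d) : π.ent Mᵀ a b = π.ent M b a := by
  rw [ent, ent, Matrix.mulVec_transpose, dotProduct_comm, ← Matrix.dotProduct_mulVec]

theorem ft_ent_Pi1 (hn : 0 < n) (hl : 0 < π.l) (M : Matrix (Fin n) (Fin n) ℝ) (a b : Label n d) :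
    π.ent (Pi1 ℝ n * M * Pi1 ℝ n) a b = π.ent M a b := by
  rw [ent, ent, ← Matrix.mulVec_mulVec, ← Matrix.mulVec_mulVec, π.ft_Pi1_mulVec_lvec hn hl,
    Matrix.dotProduct_mulVec, ← Matrix.mulVec_transpose, Pi1_transpose, π.ft_Pi1_mulVec_lvec hn hl]

theorem ft_qEnt_comm (k : ℕ) (a b : Label n d) : π.qEnt k a b = π.qEnt k b a := by
  rw [qEnt, qEnt, ← ft_ent_transpose, Qmat_transpose]

theorem ft_ent_add (M N : Matrix (Fin n) (Fin n) ℝ) (a b : Label n d) :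
    π.ent (M + N) a b = π.ent M a b + π.ent N a b := by
  rw [ent, ent, ent, Matrix.add_mulVec, dotProduct_add]

theorem ft_ent_sub (M N : Matrix (Fin n) (Fin n) ℝ) (a b : Label n d) :
    π.ent (M - N) a b = π.ent M a b - π.ent N a b := by
  rw [ent, ent, ent, Matrix.sub_mulVec, dotProduct_sub]

theorem ft_ent_smul (r : ℝ) (M : Matrix (Fin n) (Fin n) ℝ) (a b : Label n d) :
    π.ent (r • M) a b = r * π.ent M a b := by
  rw [ent, ent, Matrix.smul_mulVec, dotProduct_smul, smul_eq_mul]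

theorem ft_ent_zero (a b : Label n d) : π.ent (0 : Matrix (Fin n) (Fin n) ℝ) a b = 0 := by
  rw [ent, Matrix.zero_mulVec, dotProduct_zero]

theorem ft_ent_sum {ι : Type*} (s : Finset ι) (M : ι → Matrix (Fin n) (Fin n) ℝ) (a b : Label n d) :
    π.ent (∑ i ∈ s, M i) a b = ∑ i ∈ s, π.ent (M i) a b := by
  classical
  induction s using Finset.induction_on with
  | empty => simp [ft_ent_zero]
  | insert x s hx ih => rw [Finset.sum_insert hx, Finset.sum_insert hx, ft_ent_add, ih]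

/-- the reference entry as the sum of its terms -/
theorem ft_ent_Pmat (hn : 0 < n) (hl : 0 < π.l) (L : ℕ) (σ h : ℝ) (a b : Label n d) :
    π.ent (π.Pmat L σ h) a b = ∑ k ∈ Finset.range L, (σ * h) ^ k * π.qEnt k a b := by
  rw [Pmat, PmatV, ft_ent_sum]
  refine Finset.sum_congr rfl fun k _ => ?_
  rw [ft_ent_smul, π.ft_ent_Pi1 hn hl]
  rfl

/-- coefficients of the reference deviation `T = Uᵀ P U - G_0` at two stubs -/
noncomputable def tCoef (k : ℕ) (x y : Stub n d) : ℝ :=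
  π.qEnt k (.stub x) (.stub y) - (if k = 0 then (if x = y then 1 else 0) - (π.l : ℝ)⁻¹ else 0)

/-- sum of absolute values of the terms of `T_{xy}` -/
noncomputable def TAbs (L : ℕ) (z : ℝ) (x y : Stub n d) : ℝ := ∑ k ∈ Finset.range L, z ^ k * |π.tCoef k x y|

/-- the zero-intermediate pure-swap part of the tail: `TZ = - σ h [p_a(u) p_b(v) + p_a(v) p_b(u)]_{deg ≥ L}` -/
noncomputable def TZ (L : ℕ) (σ h : ℝ) (u v : Stub n d) (a b : Label n d) : ℝ :=
  -(σ * h) * ∑ k₁ ∈ Finset.range L, ∑ k₂ ∈ Finset.range L,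
    if L ≤ k₁ + k₂ + 1 then
      (σ * h) ^ (k₁ + k₂) * (π.qEnt k₁ a (.stub u) * π.qEnt k₂ (.stub v) b
        + π.qEnt k₁ a (.stub v) * π.qEnt k₂ (.stub u) b)
    else 0

theorem ft_abs_sigma_mul (σ h : ℝ) (hσ : σ ^ 2 = 1) (hh : 0 ≤ h) : |σ * h| = h := by
  have : |σ| = 1 := by
    have h1 : |σ| ^ 2 = 1 := by rw [sq_abs, hσ]
    nlinarith [abs_nonneg σ]
  rw [abs_mul, this, one_mul, abs_of_nonneg hh]

theorem ft_abs_sum_le (σ h : ℝ) (hσ : σ ^ 2 = 1) (hh : 0 ≤ h) (L : ℕ) (c : ℕ → ℝ) :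
    |∑ k ∈ Finset.range L, (σ * h) ^ k * c k| ≤ ∑ k ∈ Finset.range L, h ^ k * |c k| := by
  refine (Finset.abs_sum_le_sum_abs _ _).trans (Finset.sum_le_sum fun k _ => ?_)
  rw [abs_mul, abs_pow, ft_abs_sigma_mul σ h hσ hh]

theorem ft_abs_ent_Pmat_le (hn : 0 < n) (hl : 0 < π.l) (L : ℕ) (σ h : ℝ) (hσ : σ ^ 2 = 1) (hh : 0 ≤ h)
    (a b : Label n d) : |π.ent (π.Pmat L σ h) a b| ≤ π.pAbs L h a b := by
  rw [π.ft_ent_Pmat hn hl]
  exact ft_abs_sum_le σ h hσ hh L _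

/-- `|p| ≤ pAbs`, `|T| ≤ TAbs` -/
theorem abs_pEnt_le (hn : 0 < n) (hl : 0 < π.l) (L : ℕ) (σ h : ℝ) (hσ : σ ^ 2 = 1) (hh : 0 ≤ h) (a : Label n d)
    (x : Stub n d) : |π.pEnt L σ h a x| ≤ π.pAbs L h a (.stub x) :=
  π.ft_abs_ent_Pmat_le hn hl L σ h hσ hh a (.stub x)

theorem ft_G0_apply {u v : Stub n d} (huv : u ≠ v) (s s' : Fin 2) :
    G0 ℝ π.l s s' = (if (if s = 0 then u else v) = (if s' = 0 then u else v) then 1 else 0) - (π.l : ℝ)⁻¹ := by
  fin_cases s <;> fin_cases s' <;> simp [G0, J2, huv, huv.symm]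

/-- `T` as the sum of its terms -/
theorem ft_Tp_apply (hn : 0 < n) (hl : 0 < π.l) (L : ℕ) (hL : 0 < L) (σ h : ℝ) {u v : Stub n d}
    (huv : u ≠ v) (s s' : Fin 2) :
    π.Tp L σ h u v s s' =
      ∑ k ∈ Finset.range L, (σ * h) ^ k * π.tCoef k (if s = 0 then u else v) (if s' = 0 then u else v) := by
  rw [Tp, Matrix.sub_apply, blk_eq_ent, π.ft_ent_Pmat hn hl, π.ft_G0_apply huv]
  simp only [tCoef, mul_sub, Finset.sum_sub_distrib]
  congr 1
  rw [Finset.sum_eq_single 0 (fun k _ hk => by rw [if_neg hk, mul_zero])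
    (fun h0 => absurd (Finset.mem_range.2 hL) h0)]
  simp

theorem abs_Tp_le (hn : 0 < n) (hl : 0 < π.l) (L : ℕ) (hL : 0 < L) (σ h : ℝ) (hσ : σ ^ 2 = 1) (hh : 0 ≤ h)
    {u v : Stub n d} (huv : u ≠ v) (s s' : Fin 2) :
    |π.Tp L σ h u v s s'| ≤ π.TAbs L h (if s = 0 then u else v) (if s' = 0 then u else v) := by
  rw [π.ft_Tp_apply hn hl L hL σ h huv]
  exact ft_abs_sum_le σ h hσ hh L _

/-- centring of any matrix row at the unresolved stubs -/
theorem ft_sum_ent (M : Matrix (Fin n) (Fin n) ℝ) (a : Label n d) :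
    ∑ x ∈ π.unres, π.ent M a (.stub x) = 0 := by
  have h1 : ∀ x : Stub n d, π.ent M a (.stub x) = π.lvec ℝ a ⬝ᵥ (M *ᵥ π.xi ℝ x) := fun _ => rfl
  simp only [h1]
  rw [← dotProduct_sum, ← Matrix.mulVec_sum, sum_xi, Matrix.mulVec_zero, dotProduct_zero]

/-- centring of the coefficients: `∑_{x ∈ S} (Q_k)_{a, ξ_x} = 0` -/
theorem sum_qEnt (k : ℕ) (a : Label n d) : ∑ x ∈ π.unres, π.qEnt k a (.stub x) = 0 :=
  π.ft_sum_ent _ a

/-- centring of the numerical rows -/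
theorem sum_pEnt (L : ℕ) (σ h : ℝ) (a : Label n d) : ∑ x ∈ π.unres, π.pEnt L σ h a x = 0 :=
  π.ft_sum_ent _ a

theorem sum_eEnt (L : ℕ) (σ h : ℝ) (a : Label n d) : ∑ x ∈ π.unres, π.eEnt L σ h a x = 0 :=
  π.ft_sum_ent _ a

theorem sum_wEnt (σ h : ℝ) (a : Label n d) : ∑ x ∈ π.unres, π.wEnt σ h a x = 0 :=
  π.ft_sum_ent _ a

/-! ## the numerical tail -/

theorem ft_coeff_sum (c : ℕ → ℝ) (L m : ℕ) :
    (∑ j ∈ Finset.range L, C (c j) * X ^ j : ℝ[X]).coeff m = if m < L then c m else 0 := by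
  rw [Polynomial.finsetSum_coeff]
  simp only [Polynomial.coeff_C_mul_X_pow]
  rw [Finset.sum_ite_eq]
  simp only [Finset.mem_range]

theorem ft_PmatX_apply (L : ℕ) (a b : Fin n) :
    π.PmatX ℝ L a b = ∑ j ∈ Finset.range L, C ((Pi1 ℝ n * π.Qmat ℝ j * Pi1 ℝ n) a b) * X ^ j := by
  rw [PmatX, Matrix.sum_apply]
  refine Finset.sum_congr rfl fun j _ => ?_
  rw [Matrix.smul_apply, Matrix.map_apply, smul_eq_mul, mul_comm]

/-- `P` has degree `< L` -/
theorem ft_Pmat_apply_eq (L : ℕ) (σ h : ℝ) (a b : Fin n) :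
    π.Pmat L σ h a b = ∑ m ∈ Finset.range L, (π.PmatX ℝ L a b).coeff m * (σ * h) ^ m := by
  rw [Pmat, PmatV, Matrix.sum_apply]
  refine Finset.sum_congr rfl fun m hm => ?_
  rw [ft_PmatX_apply, ft_coeff_sum, if_pos (Finset.mem_range.1 hm), Matrix.smul_apply, smul_eq_mul, mul_comm]
  rfl

theorem ft_eval_hiPart (L : ℕ) (p : ℝ[X]) (x : ℝ) :
    (hiPart L p).eval x = p.eval x - ∑ m ∈ Finset.range L, p.coeff m * x ^ m := by
  rw [hiPart, Polynomial.eval_sub, Polynomial.eval_finsetSum]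
  simp

variable {π} in
/-- exact finite form: for `J ≥ L`, `𝓡_P = ∑_{j<J} (word_j)_{≥L}(σh) + P U H_P (-(T H_0))^J Uᵀ P` -/
theorem tail_eq {u v : Stub n d} (hu : π.Unres u) (hv : π.Unres v) (huv : u ≠ v) (hn : 0 < n)
    (L : ℕ) (σ h : ℝ) (H : TBHyp π.l σ h (π.Tp L σ h u v)) (J : ℕ) (hJ : L ≤ J) :
    π.tailR L σ h u v =
      ∑ j ∈ Finset.range J, (π.wordX ℝ L j u v).map (fun p => (hiPart L p).eval (σ * h))
      + π.Pmat L σ h * π.Upair ℝ u v * (π.HP L σ h u v * (-(π.Tp L σ h u v * H0 π.l σ h)) ^ J)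
        * (π.Upair ℝ u v)ᵀ * π.Pmat L σ h := by
  have hl : 2 < π.l := by have := H.hl; omega
  -- Neumann expansion of the sandwich
  have h1 : π.Pmat L σ h * π.Upair ℝ u v * π.HP L σ h u v * (π.Upair ℝ u v)ᵀ * π.Pmat L σ h =
      ∑ j ∈ Finset.range J, (π.wordX ℝ L j u v).map (Polynomial.eval (σ * h))
      + π.Pmat L σ h * π.Upair ℝ u v * (π.HP L σ h u v * (-(π.Tp L σ h u v * H0 π.l σ h)) ^ J)
        * (π.Upair ℝ u v)ᵀ * π.Pmat L σ h := by
    have hN := tb_neumann H J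
    rw [← HP_eq_Hgen] at hN
    conv_lhs => rw [hN]
    simp only [eval_wordX, Matrix.mul_add, Matrix.add_mul, Matrix.mul_sum, Matrix.sum_mul]
  -- the low part
  have h2 : (π.resolve u v).Pmat L σ h - π.Pmat L σ h =
      - ∑ j ∈ Finset.range J, (π.wordX ℝ L j u v).map
        (fun p => ∑ m ∈ Finset.range L, p.coeff m * (σ * h) ^ m) := by
    ext a b
    rw [Matrix.sub_apply, Matrix.neg_apply, Matrix.sum_apply, ft_Pmat_apply_eq, ft_Pmat_apply_eq,
      ← Finset.sum_sub_distrib]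
    simp only [Matrix.map_apply]
    rw [Finset.sum_comm, ← Finset.sum_neg_distrib]
    refine Finset.sum_congr rfl fun m hm => ?_
    have hm' := Finset.mem_range.1 hm
    rw [formal_exposure hu hv huv hl hn L m hm' a b, ← Finset.sum_mul]
    have h3 : ∑ j ∈ Finset.range L, (π.wordX ℝ L j u v a b).coeff m =
        ∑ j ∈ Finset.range J, (π.wordX ℝ L j u v a b).coeff m := by
      refine Finset.sum_subset (Finset.range_subset_range.2 hJ) fun j _ hj => ?_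
      rw [Finset.mem_range, not_lt] at hj
      exact π.coeff_wordX_eq_zero L j m (by omega) u v a b
    rw [h3]
    ring
  rw [tailR, h1, h2, ← add_assoc]
  congr 1
  rw [neg_add_eq_sub, ← Finset.sum_sub_distrib]
  refine Finset.sum_congr rfl fun j _ => ?_
  ext a b
  rw [Matrix.sub_apply, Matrix.map_apply, Matrix.map_apply, Matrix.map_apply, ft_eval_hiPart]

/-! ## polynomial entries -/

/-- the label vector with constant coefficients -/
noncomputable def ftLvecX (a : Label n d) : Fin n → ℝ[X] := fun i => C (π.lvec ℝ a i)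

/-- the polynomial entry of a formal matrix at two labels -/
noncomputable def ftEntX (M : Matrix (Fin n) (Fin n) ℝ[X]) (a b : Label n d) : ℝ[X] :=
  π.ftLvecX a ⬝ᵥ (M *ᵥ π.ftLvecX b)

theorem ft_ent_map (φ : ℝ[X] →ₗ[ℝ] ℝ) (M : Matrix (Fin n) (Fin n) ℝ[X]) (a b : Label n d) :
    π.ent (M.map φ) a b = φ (π.ftEntX M a b) := by
  simp only [ent, ftEntX, ftLvecX, dotProduct, Matrix.mulVec, Matrix.map_apply, map_sum, Finset.mul_sum]
  refine Finset.sum_congr rfl fun i _ => Finset.sum_congr rfl fun j _ => ?_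
  rw [show C (π.lvec ℝ a i) * (M i j * C (π.lvec ℝ b j)) = (π.lvec ℝ a i * π.lvec ℝ b j) • M i j by
    rw [Polynomial.smul_eq_C_mul, map_mul]; ring]
  rw [map_smul, smul_eq_mul]
  ring

theorem ft_entX_add (M N : Matrix (Fin n) (Fin n) ℝ[X]) (a b : Label n d) :
    π.ftEntX (M + N) a b = π.ftEntX M a b + π.ftEntX N a b := by
  rw [ftEntX, ftEntX, ftEntX, Matrix.add_mulVec, dotProduct_add]

theorem ft_entX_smul (r : ℝ[X]) (M : Matrix (Fin n) (Fin n) ℝ[X]) (a b : Label n d) :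
    π.ftEntX (r • M) a b = r * π.ftEntX M a b := by
  rw [ftEntX, ftEntX, Matrix.smul_mulVec, dotProduct_smul, smul_eq_mul]

theorem ft_entX_map_C (M : Matrix (Fin n) (Fin n) ℝ) (a b : Label n d) :
    π.ftEntX (M.map C) a b = C (π.ent M a b) := by
  simp only [ent, ftEntX, ftLvecX, dotProduct, Matrix.mulVec, Matrix.map_apply, map_sum, map_mul]

theorem ft_entX_PmatX (hn : 0 < n) (hl : 0 < π.l) (L : ℕ) (a b : Label n d) :
    π.ftEntX (π.PmatX ℝ L) a b = ∑ k ∈ Finset.range L, C (π.qEnt k a b) * X ^ k := by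
  induction L with
  | zero => simp [PmatX, ftEntX]
  | succ L ih =>
    rw [Finset.sum_range_succ, ← ih, PmatX, Finset.sum_range_succ, ft_entX_add, ft_entX_smul,
      ft_entX_map_C, π.ft_ent_Pi1 hn hl, mul_comm]
    rfl

theorem ft_UpairX_col (u v : Stub n d) (s : Fin 2) :
    (fun i => π.UpairX ℝ u v i s) = π.ftLvecX (.stub (if s = 0 then u else v)) := by
  ext1 i
  simp only [UpairX, Matrix.map_apply, Upair, ftLvecX]
  split_ifs <;> rfl

theorem ft_entX_sandwich (A B : Matrix (Fin n) (Fin n) ℝ[X]) (Hm : Matrix (Fin 2) (Fin 2) ℝ[X])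
    (u v : Stub n d) (a b : Label n d) :
    π.ftEntX (A * π.UpairX ℝ u v * Hm * (π.UpairX ℝ u v)ᵀ * B) a b =
      ∑ s : Fin 2, ∑ s' : Fin 2, π.ftEntX A a (.stub (if s = 0 then u else v)) * Hm s s' *
        π.ftEntX B (.stub (if s' = 0 then u else v)) b := by
  rw [ftEntX, ft_sandwich]
  simp only [ft_UpairX_col]
  rfl

theorem ft_TpX_apply (hn : 0 < n) (hl : 0 < π.l) (L : ℕ) (hL : 0 < L) {u v : Stub n d} (huv : u ≠ v)
    (s s' : Fin 2) :
    π.TpX ℝ L u v s s' =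
      ∑ k ∈ Finset.range L, C (π.tCoef k (if s = 0 then u else v) (if s' = 0 then u else v)) * X ^ k := by
  rw [TpX, Matrix.sub_apply, ft_block, ft_UpairX_col, ft_UpairX_col, Matrix.map_apply, π.ft_G0_apply huv]
  have := π.ft_entX_PmatX hn hl L (.stub (if s = 0 then u else v)) (.stub (if s' = 0 then u else v))
  rw [ftEntX] at this
  rw [this]
  simp only [tCoef, map_sub, sub_mul, Finset.sum_sub_distrib]
  congr 1
  rw [Finset.sum_eq_single 0 (fun k _ hk => by rw [if_neg hk, map_zero, zero_mul])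
    (fun h0 => absurd (Finset.mem_range.2 hL) h0)]
  simp

/-! ## majorants of the formal objects -/

theorem ft_PB_sum (h : ℝ) (c : ℕ → ℝ) (L : ℕ) :
    ftPB h (∑ k ∈ Finset.range L, C (c k) * X ^ k) (∑ k ∈ Finset.range L, h ^ k * |c k|) :=
  ftPB.sum _ fun k _ => ftPB.C_mul_X_pow (c k) k

theorem ft_PB_entX (hn : 0 < n) (hl : 0 < π.l) (L : ℕ) (h : ℝ) (a b : Label n d) :
    ftPB h (π.ftEntX (π.PmatX ℝ L) a b) (π.pAbs L h a b) := by
  rw [π.ft_entX_PmatX hn hl]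
  exact ft_PB_sum h _ L

theorem ft_MB_TpX (hn : 0 < n) (hl : 0 < π.l) (L : ℕ) (hL : 0 < L) (h : ℝ) {u v : Stub n d} (huv : u ≠ v)
    (t : Matrix (Fin 2) (Fin 2) ℝ)
    (ht : ∀ s s' : Fin 2, π.TAbs L h (if s = 0 then u else v) (if s' = 0 then u else v) ≤ t s s') :
    ftMB h (π.TpX ℝ L u v) t := by
  intro s s'
  rw [π.ft_TpX_apply hn hl L hL huv]
  exact (ft_PB_sum h _ L).mono (ht s s')

theorem ft_FB_nonneg {l : ℕ} (hl : 2 < l) (s s' : Fin 2) : 0 ≤ (F2 ℝ * B2 ℝ l) s s' := by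
  have h4 : (2 : ℝ) < l := by exact_mod_cast hl
  have h1 : 0 ≤ ((l : ℝ) - 2)⁻¹ := inv_nonneg.2 (by linarith)
  rw [F2_mul_B2]
  fin_cases s <;> fin_cases s' <;> simp [F2, J2] <;> linarith

theorem ft_MB_H0X (hl : 2 < π.l) (h : ℝ) : ftMB h (π.H0X ℝ) (H0 π.l (-1) h) := by
  intro s s'
  have e1 : π.H0X ℝ s s' = -(C ((F2 ℝ * B2 ℝ π.l) s s') * X ^ 1) := by
    rw [H0X, Matrix.smul_apply, Matrix.map_apply, smul_eq_mul, pow_one]; ring
  have e2 : H0 π.l (-1) h s s' = h ^ 1 * |(F2 ℝ * B2 ℝ π.l) s s'| := by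
    rw [abs_of_nonneg (ft_FB_nonneg hl s s'), H0, Matrix.smul_apply, smul_eq_mul]; ring
  rw [e1, e2]
  exact (ftPB.C_mul_X_pow _ 1).neg

end PPair

/-! ## quadratic forms in the two endpoint majorants -/

section Quad

variable {aA bA : Fin 2 → ℝ}

theorem ft_quad_eq (aA bA : Fin 2 → ℝ) (M : Matrix (Fin 2) (Fin 2) ℝ) :
    aA ⬝ᵥ (M *ᵥ bA) = ∑ s : Fin 2, ∑ s' : Fin 2, aA s * M s s' * bA s' := by
  simp only [dotProduct, Matrix.mulVec, Finset.mul_sum, mul_assoc]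

theorem ft_quad_mono (ha : ∀ s, 0 ≤ aA s) (hb : ∀ s, 0 ≤ bA s) {M N : Matrix (Fin 2) (Fin 2) ℝ}
    (h : ∀ i j, M i j ≤ N i j) : aA ⬝ᵥ (M *ᵥ bA) ≤ aA ⬝ᵥ (N *ᵥ bA) := by
  rw [ft_quad_eq, ft_quad_eq]
  exact Finset.sum_le_sum fun s _ => Finset.sum_le_sum fun s' _ =>
    mul_le_mul_of_nonneg_right (mul_le_mul_of_nonneg_left (h s s') (ha s)) (hb s')

theorem ft_quad_add (M N : Matrix (Fin 2) (Fin 2) ℝ) :
    aA ⬝ᵥ ((M + N) *ᵥ bA) = aA ⬝ᵥ (M *ᵥ bA) + aA ⬝ᵥ (N *ᵥ bA) := by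
  rw [Matrix.add_mulVec, dotProduct_add]

theorem ft_quad_sum (J : ℕ) (M : ℕ → Matrix (Fin 2) (Fin 2) ℝ) :
    aA ⬝ᵥ ((∑ j ∈ Finset.range J, M j) *ᵥ bA) = ∑ j ∈ Finset.range J, aA ⬝ᵥ (M j *ᵥ bA) := by
  induction J with
  | zero => simp
  | succ J ih => rw [Finset.sum_range_succ, Finset.sum_range_succ, ft_quad_add, ih]

theorem ft_PB_quad {h : ℝ} (hh : 0 ≤ h) {pa pb : Fin 2 → ℝ[X]} {Hm : Matrix (Fin 2) (Fin 2) ℝ[X]}
    {Hh : Matrix (Fin 2) (Fin 2) ℝ} (ha : ∀ s, ftPB h (pa s) (aA s)) (hb : ∀ s, ftPB h (pb s) (bA s))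
    (hH : ftMB h Hm Hh) :
    ftPB h (∑ s : Fin 2, ∑ s' : Fin 2, pa s * Hm s s' * pb s') (aA ⬝ᵥ (Hh *ᵥ bA)) := by
  rw [ft_quad_eq]
  exact ftPB.sum _ fun s _ => ftPB.sum _ fun s' _ => ((ha s).mul hh (hH s s')).mul hh (hb s')

theorem ft_abs_quad_le {pa pb : Fin 2 → ℝ} {M : Matrix (Fin 2) (Fin 2) ℝ} {c : ℝ}
    (ha : ∀ s, |pa s| ≤ aA s) (hb : ∀ s, |pb s| ≤ bA s) (hM : ∀ i j, |M i j| ≤ c) :
    |∑ s : Fin 2, ∑ s' : Fin 2, pa s * M s s' * pb s'| ≤ c * ((∑ s, aA s) * ∑ s, bA s) := by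
  have hc : 0 ≤ c := (abs_nonneg _).trans (hM 0 0)
  rw [Finset.sum_mul_sum, Finset.mul_sum]
  refine (Finset.abs_sum_le_sum_abs _ _).trans (Finset.sum_le_sum fun s _ => ?_)
  rw [Finset.mul_sum]
  refine (Finset.abs_sum_le_sum_abs _ _).trans (Finset.sum_le_sum fun s' _ => ?_)
  rw [abs_mul, abs_mul]
  have h1 : |pa s| * |M s s'| ≤ aA s * c :=
    mul_le_mul (ha s) (hM s s') (abs_nonneg _) ((abs_nonneg _).trans (ha s))
  have h2 : |pa s| * |M s s'| * |pb s'| ≤ aA s * c * bA s' :=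
    mul_le_mul h1 (hb s') (abs_nonneg _) (mul_nonneg ((abs_nonneg _).trans (ha s)) hc)
  linarith

theorem ft_abs_mul_le {A B : Matrix (Fin 2) (Fin 2) ℝ} {a b : ℝ} (hA : ∀ i j, |A i j| ≤ a)
    (hB : ∀ i j, |B i j| ≤ b) (i j : Fin 2) : |(A * B) i j| ≤ 2 * (a * b) := by
  have ha : 0 ≤ a := (abs_nonneg _).trans (hA 0 0)
  rw [Matrix.mul_apply, Fin.sum_univ_two]
  refine (abs_add_le _ _).trans ?_
  rw [abs_mul, abs_mul]
  have h1 := mul_le_mul (hA i 0) (hB 0 j) (abs_nonneg _) ha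
  have h2 := mul_le_mul (hA i 1) (hB 1 j) (abs_nonneg _) ha
  linarith

theorem ft_abs_pow_le {A : Matrix (Fin 2) (Fin 2) ℝ} {c : ℝ} (hA : ∀ i j, |A i j| ≤ c) (J : ℕ)
    (i j : Fin 2) : |(A ^ J) i j| ≤ (2 * c) ^ J := by
  induction J generalizing i j with
  | zero =>
    rw [pow_zero, pow_zero, Matrix.one_apply]
    split_ifs <;> simp
  | succ J ih =>
    rw [pow_succ]
    refine (ft_abs_mul_le ih hA i j).trans (le_of_eq ?_)
    ring

end Quad

theorem ft_Hi_prod (L : ℕ) (x : ℝ) (c e : ℕ → ℝ) :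
    ftHi L x ((∑ k ∈ Finset.range L, C (c k) * X ^ k) * (-X) * (∑ k ∈ Finset.range L, C (e k) * X ^ k)) =
      -x * ∑ k₁ ∈ Finset.range L, ∑ k₂ ∈ Finset.range L,
        if L ≤ k₁ + k₂ + 1 then x ^ (k₁ + k₂) * (c k₁ * e k₂) else 0 := by
  rw [Finset.sum_mul, Finset.sum_mul, map_sum, Finset.mul_sum]
  refine Finset.sum_congr rfl fun k₁ _ => ?_
  rw [Finset.mul_sum, map_sum, Finset.mul_sum]
  refine Finset.sum_congr rfl fun k₂ _ => ?_
  rw [show C (c k₁) * X ^ k₁ * (-X) * (C (e k₂) * X ^ k₂) = C (-(c k₁ * e k₂)) * X ^ (k₁ + k₂ + 1) by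
    rw [map_neg, map_mul]; ring]
  rw [ftHi_C_mul_X_pow]
  split_ifs
  · ring
  · ring

namespace PPair

variable {n d : ℕ} (π : PPair n d)

theorem ft_tCoef_comm (k : ℕ) (x y : Stub n d) : π.tCoef k x y = π.tCoef k y x := by
  rw [tCoef, tCoef, ft_qEnt_comm]
  simp only [eq_comm]

theorem ft_pAbs_nonneg (L : ℕ) {h : ℝ} (hh : 0 ≤ h) (a b : Label n d) : 0 ≤ π.pAbs L h a b :=
  Finset.sum_nonneg fun k _ => mul_nonneg (pow_nonneg hh k) (abs_nonneg _)

theorem ft_TAbs_nonneg (L : ℕ) {h : ℝ} (hh : 0 ≤ h) (x y : Stub n d) : 0 ≤ π.TAbs L h x y :=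
  Finset.sum_nonneg fun k _ => mul_nonneg (pow_nonneg hh k) (abs_nonneg _)

theorem ft_pAbs_comm (L : ℕ) (h : ℝ) (a b : Label n d) : π.pAbs L h a b = π.pAbs L h b a :=
  Finset.sum_congr rfl fun k _ => by rw [ft_qEnt_comm]

theorem ft_H0_sub (l : ℕ) (h : ℝ) (i j : Fin 2) :
    (H0 l (-1) h - h • F2 ℝ) i j = h ^ 1 * ((l : ℝ) - 2)⁻¹ := by
  rw [H0, F2_mul_B2]
  simp [J2]

theorem ft_abs_H0_le {l : ℕ} (hl : 4 ≤ l) (σ h : ℝ) (hx : |σ * h| ≤ 1) (i j : Fin 2) :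
    |H0 l σ h i j| ≤ 3 / 2 := by
  have h4 : (4 : ℝ) ≤ l := by exact_mod_cast hl
  have h1 : 0 ≤ ((l : ℝ) - 2)⁻¹ := inv_nonneg.2 (by linarith)
  have h2 : ((l : ℝ) - 2)⁻¹ ≤ 1 / 2 := by
    rw [inv_le_comm₀ (by linarith) (by norm_num)]
    norm_num; linarith
  have h3 : |(F2 ℝ * B2 ℝ l) i j| ≤ 3 / 2 := by
    rw [abs_of_nonneg (ft_FB_nonneg (by omega) i j), F2_mul_B2]
    fin_cases i <;> fin_cases j <;> simp [F2, J2] <;> linarith
  rw [H0, Matrix.smul_apply, smul_eq_mul, abs_mul, abs_neg]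
  calc |σ * h| * |(F2 ℝ * B2 ℝ l) i j| ≤ 1 * (3 / 2) := mul_le_mul hx h3 (abs_nonneg _) zero_le_one
    _ = 3 / 2 := one_mul _

theorem ft_TBHyp_Tp (hn : 0 < n) (L : ℕ) (hL : 0 < L) (σ h : ℝ) (hσ : σ ^ 2 = 1) {u v : Stub n d}
    (huv : u ≠ v) (t : Matrix (Fin 2) (Fin 2) ℝ) (H : TBHyp π.l (-1) h (-t))
    (ht : ∀ s s' : Fin 2, π.TAbs L h (if s = 0 then u else v) (if s' = 0 then u else v) ≤ t s s') :
    TBHyp π.l σ h (π.Tp L σ h u v) where
  hl := H.hl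
  hσ := hσ
  hh := H.hh
  hh1 := H.hh1
  sym := by
    have hl : 0 < π.l := by have := H.hl; omega
    rw [π.ft_Tp_apply hn hl L hL σ h huv, π.ft_Tp_apply hn hl L hL σ h huv]
    refine Finset.sum_congr rfl fun k _ => ?_
    rw [ft_tCoef_comm]
  small := fun i j => by
    have hl : 0 < π.l := by have := H.hl; omega
    have h1 := H.small i j
    rw [Matrix.neg_apply, abs_neg] at h1
    exact (π.abs_Tp_le hn hl L hL σ h hσ H.hh.le huv i j).trans
      ((ht i j).trans ((le_abs_self _).trans h1))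

/-- the zero-intermediate word: pure swap part plus the `1/(l-2)` correction -/
theorem ft_word_zero (hn : 0 < n) (hl : 0 < π.l) (L : ℕ) (σ h : ℝ) (u v : Stub n d) (a b : Label n d) :
    ftHi L (σ * h) (π.ftEntX (π.wordX ℝ L 0 u v) a b) = π.TZ L σ h u v a b +
      ftHi L (σ * h) (∑ s : Fin 2, ∑ s' : Fin 2,
        π.ftEntX (π.PmatX ℝ L) a (.stub (if s = 0 then u else v)) *
          (fun _ _ => -(C (((π.l : ℝ) - 2)⁻¹) * X ^ 1) : Matrix (Fin 2) (Fin 2) ℝ[X]) s s' *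
        π.ftEntX (π.PmatX ℝ L) (.stub (if s' = 0 then u else v)) b) := by
  have e0 : ∀ s s' : Fin 2, π.H0X ℝ s s' = C (F2 ℝ s s') * (-X) + -(C (((π.l : ℝ) - 2)⁻¹) * X ^ 1) := by
    intro s s'
    rw [H0X, F2_mul_B2, Matrix.smul_apply, Matrix.map_apply, Matrix.add_apply, Matrix.smul_apply, J2,
      smul_eq_mul, smul_eq_mul, mul_one, map_add]
    ring
  rw [wordX, ft_entX_sandwich, pow_zero, Matrix.mul_one]
  simp only [e0, mul_add, add_mul, Finset.sum_add_distrib, map_add]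
  congr 1
  simp only [Fin.sum_univ_two, F2, if_true, one_ne_zero, zero_ne_one, if_false, map_zero, map_one,
    zero_mul, mul_zero, zero_add, add_zero, one_mul, map_add]
  rw [π.ft_entX_PmatX hn hl, π.ft_entX_PmatX hn hl, π.ft_entX_PmatX hn hl, π.ft_entX_PmatX hn hl,
    ft_Hi_prod, ft_Hi_prod, TZ, ← mul_add, ← Finset.sum_add_distrib]
  congr 1
  refine Finset.sum_congr rfl fun k₁ _ => ?_
  rw [← Finset.sum_add_distrib]
  refine Finset.sum_congr rfl fun k₂ _ => ?_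
  split_ifs
  · ring
  · ring

variable {π} in
/-- TAIL DECOMPOSITION.  `aA, bA` majorise the absolute outer sums at the two endpoints, `t` the absolute middle sums. -/
theorem tail_decomp {u v : Stub n d} (hu : π.Unres u) (hv : π.Unres v) (huv : u ≠ v) (hn : 0 < n)
    (L : ℕ) (σ h : ℝ) (hσ : σ ^ 2 = 1) (a b : Label n d)
    (aA bA : Fin 2 → ℝ) (t : Matrix (Fin 2) (Fin 2) ℝ) (H : TBHyp π.l (-1) h (-t))
    (ha : ∀ s : Fin 2, π.pAbs L h a (.stub (if s = 0 then u else v)) ≤ aA s)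
    (hb : ∀ s : Fin 2, π.pAbs L h b (.stub (if s = 0 then u else v)) ≤ bA s)
    (ht : ∀ s s' : Fin 2, π.TAbs L h (if s = 0 then u else v) (if s' = 0 then u else v) ≤ t s s') :
    |π.ent (π.tailR L σ h u v) a b - π.TZ L σ h u v a b| ≤
      aA ⬝ᵥ ((Hgen π.l (-1) h (-t) - h • F2 ℝ) *ᵥ bA) := by
  have hh0 : 0 ≤ h := H.hh.le
  have hl4 := H.hl
  have hl : 0 < π.l := by omega
  have hl2 : 2 < π.l := by omega
  have hlr : 0 ≤ ((π.l : ℝ) - 2)⁻¹ := by
    have : (2 : ℝ) < π.l := by exact_mod_cast hl2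
    exact inv_nonneg.2 (by linarith)
  have haA : ∀ s, 0 ≤ aA s := fun s => (π.ft_pAbs_nonneg L hh0 _ _).trans (ha s)
  have hbA : ∀ s, 0 ≤ bA s := fun s => (π.ft_pAbs_nonneg L hh0 _ _).trans (hb s)
  have ht0 : ∀ i j, 0 ≤ t i j := fun i j => (π.ft_TAbs_nonneg L hh0 _ _).trans (ht i j)
  -- partial sums of the majorant
  have hmaj : ∀ N : ℕ, aA ⬝ᵥ ((∑ k ∈ Finset.range N, H0 π.l (-1) h * (t * H0 π.l (-1) h) ^ k
      - h • F2 ℝ) *ᵥ bA) ≤ aA ⬝ᵥ ((Hgen π.l (-1) h (-t) - h • F2 ℝ) *ᵥ bA) := by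
    intro N
    refine ft_quad_mono haA hbA fun i j => ?_
    rw [Matrix.sub_apply, Matrix.sub_apply]
    exact sub_le_sub_right (tb_majorant_nonneg H ht0 N i j).2 _
  rcases Nat.eq_zero_or_pos L with rfl | hL
  · have e1 : π.tailR 0 σ h u v = 0 := by simp [tailR, Pmat, PmatV]
    have e2 : π.TZ 0 σ h u v a b = 0 := by simp [TZ]
    rw [e1, e2, ft_ent_zero, sub_zero, abs_zero]
    refine le_trans ?_ (hmaj 1)
    have := ft_quad_mono haA hbA (M := 0)
      (N := ∑ k ∈ Finset.range 1, H0 π.l (-1) h * (t * H0 π.l (-1) h) ^ k - h • F2 ℝ) (fun i j => by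
        rw [Finset.sum_range_one, pow_zero, Matrix.mul_one, ft_H0_sub, Matrix.zero_apply]
        positivity)
    simpa using this
  · have HT := π.ft_TBHyp_Tp hn L hL σ h hσ huv t H ht
    have hx : |σ * h| ≤ h := (ft_abs_sigma_mul σ h hσ hh0).le
    have hx1 : |σ * h| ≤ 1 := hx.trans H.hh1
    have hpa : ∀ s : Fin 2, ftPB h (π.ftEntX (π.PmatX ℝ L) a (.stub (if s = 0 then u else v))) (aA s) :=
      fun s => (π.ft_PB_entX hn hl L h a _).mono (ha s)
    have hpb : ∀ s : Fin 2, ftPB h (π.ftEntX (π.PmatX ℝ L) (.stub (if s = 0 then u else v)) b) (bA s) :=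
      fun s => (π.ft_PB_entX hn hl L h _ b).mono (by rw [ft_pAbs_comm]; exact hb s)
    have hMB : ∀ j, ftMB h (π.H0X ℝ * (-(π.TpX ℝ L u v * π.H0X ℝ)) ^ j)
        (H0 π.l (-1) h * (t * H0 π.l (-1) h) ^ j) := fun j =>
      (π.ft_MB_H0X hl2 h).mul hh0
        ((((π.ft_MB_TpX hn hl L hL h huv t ht).mul hh0 (π.ft_MB_H0X hl2 h)).neg).pow hh0 j)
    have hWb : ∀ j, |ftHi L (σ * h) (π.ftEntX (π.wordX ℝ L j u v) a b)| ≤
        aA ⬝ᵥ ((H0 π.l (-1) h * (t * H0 π.l (-1) h) ^ j) *ᵥ bA) := by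
      intro j
      rw [wordX, ft_entX_sandwich, ftHi_apply]
      exact ((ft_PB_quad hh0 hpa hpb (hMB j)).hiPart L).eval_le hx
    have hR0 : |ftHi L (σ * h) (∑ s : Fin 2, ∑ s' : Fin 2,
        π.ftEntX (π.PmatX ℝ L) a (.stub (if s = 0 then u else v)) *
          (fun _ _ => -(C (((π.l : ℝ) - 2)⁻¹) * X ^ 1) : Matrix (Fin 2) (Fin 2) ℝ[X]) s s' *
        π.ftEntX (π.PmatX ℝ L) (.stub (if s' = 0 then u else v)) b)| ≤
        aA ⬝ᵥ ((H0 π.l (-1) h - h • F2 ℝ) *ᵥ bA) := by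
      rw [ftHi_apply]
      refine ((ft_PB_quad hh0 hpa hpb ?_).hiPart L).eval_le hx
      intro i j
      rw [ft_H0_sub]
      have := (ftPB.C_mul_X_pow (h := h) (((π.l : ℝ) - 2)⁻¹) 1).neg
      rwa [abs_of_nonneg hlr] at this
    -- the remainder
    set S : ℝ := (∑ s, aA s) * ∑ s, bA s with hS
    have hrem : ∀ J : ℕ, |π.ent (π.Pmat L σ h * π.Upair ℝ u v *
        (π.HP L σ h u v * (-(π.Tp L σ h u v * H0 π.l σ h)) ^ J) * (π.Upair ℝ u v)ᵀ * π.Pmat L σ h) a b| ≤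
        2 * (4 * (2 * (2 * (1 / 16 * (3 / 2)))) ^ J) * S := by
      intro J
      rw [ent_update]
      refine ft_abs_quad_le
        (fun s => (π.ft_abs_ent_Pmat_le hn hl L σ h hσ hh0 a _).trans (ha s))
        (fun s => (π.ft_abs_ent_Pmat_le hn hl L σ h hσ hh0 _ b).trans
          (by rw [ft_pAbs_comm]; exact hb s)) ?_
      rw [HP_eq_Hgen]
      refine ft_abs_mul_le (tb_abs_le HT) (ft_abs_pow_le (fun i j => ?_) J)
      rw [Matrix.neg_apply, abs_neg]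
      exact ft_abs_mul_le HT.small (ft_abs_H0_le hl4 σ h hx1) i j
    -- the estimate for every `J = L + m + 1`
    have key : ∀ m : ℕ, |π.ent (π.tailR L σ h u v) a b - π.TZ L σ h u v a b| ≤
        aA ⬝ᵥ ((Hgen π.l (-1) h (-t) - h • F2 ℝ) *ᵥ bA)
          + 2 * (4 * (2 * (2 * (1 / 16 * (3 / 2)))) ^ (L + m + 1)) * S := by
      intro m
      have hfun : (fun p : ℝ[X] => (hiPart L p).eval (σ * h)) = ⇑(ftHi L (σ * h)) := rfl
      rw [tail_eq hu hv huv hn L σ h HT (L + m + 1) (by omega), ft_ent_add, ft_ent_sum, hfun]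
      simp only [ft_ent_map]
      rw [Finset.sum_range_succ', π.ft_word_zero hn hl]
      refine le_trans ?_ (add_le_add_left (hmaj (L + m + 1)) _)
      rw [Finset.sum_range_succ', pow_zero, Matrix.mul_one,
        add_sub_assoc (∑ k ∈ Finset.range (L + m), H0 π.l (-1) h * (t * H0 π.l (-1) h) ^ (k + 1)),
        ft_quad_add, ft_quad_sum]
      have h1 := Finset.abs_sum_le_sum_abs
        (fun j => ftHi L (σ * h) (π.ftEntX (π.wordX ℝ L (j + 1) u v) a b)) (Finset.range (L + m))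
      have h2 := Finset.sum_le_sum (s := Finset.range (L + m)) fun j _ => hWb (j + 1)
      have h3 := hrem (L + m + 1)
      rw [abs_le] at h1 hR0 h3 ⊢
      constructor <;> linarith [h1.1, h1.2, hR0.1, hR0.2, h3.1, h3.2]
    have hlim : Filter.Tendsto (fun m : ℕ => aA ⬝ᵥ ((Hgen π.l (-1) h (-t) - h • F2 ℝ) *ᵥ bA)
          + 2 * (4 * (2 * (2 * (1 / 16 * (3 / 2)))) ^ (L + m + 1)) * S) Filter.atTop
        (nhds (aA ⬝ᵥ ((Hgen π.l (-1) h (-t) - h • F2 ℝ) *ᵥ bA) + 2 * (4 * 0) * S)) := by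
      have h0 : Filter.Tendsto (fun m : ℕ => ((2 * (2 * (1 / 16 * (3 / 2)))) : ℝ) ^ m) Filter.atTop (nhds 0) :=
        tendsto_pow_atTop_nhds_zero_of_lt_one (by norm_num) (by norm_num)
      have h1 : Filter.Tendsto (fun m : ℕ => ((2 * (2 * (1 / 16 * (3 / 2)))) : ℝ) ^ (L + m + 1))
          Filter.atTop (nhds 0) := by
        have := (Filter.tendsto_add_atTop_iff_nat (L + 1)).2 h0
        refine this.congr fun m => ?_
        congr 1
        omega
      exact tendsto_const_nhds.add (((h1.const_mul 4).const_mul 2).mul_const S)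
    have := ge_of_tendsto' hlim key
    simpa using this

end PPair

end Claimed.Agent.R275
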