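import Claimed.Agent.R275.Defs

/-!
# Row 275, package L41A: combinatorics of `resolve`

Paper: `foundations.tex` lines 19-190 (Lemma 4.1 `lemma:configuration-algebra`, (4.2)).  Statements by helper208; all matrix identities
were checked with exact rational arithmetic on random partial pairings (n = 6, d = 3) against `Defs.lean`.
Finite-dimensional algebra over a field of characteristic zero; no analysis.  ONE OWNER PER FILE (see table subtask).
-/

set_option autoImplicit false
set_option linter.unusedSectionVars false

namespace Claimed.Agent.R275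

open Matrix

namespace PPair

variable {n d : ℕ} (π : PPair n d)

/-! ## (A) combinatorics of a partial pairing -/

theorem sum_tcount : ∑ v, π.tcount v = π.l := by
  unfold tcount l
  exact (Finset.card_eq_sum_card_fiberwise (f := Prod.fst) (s := π.unres) (t := Finset.univ)
    (fun x _ => Finset.mem_univ _)).symm

/-- every vertex has `d` stubs -/
theorem sum_acount_add_tcount (v : Fin n) : ∑ w, π.acount v w + π.tcount v = d := by
  classical
  have h1 : ∑ w, π.acount v w =
      (Finset.univ.filter fun x : Stub n d => x.1 = v ∧ ¬ π.Unres x).card := by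
    rw [Finset.card_eq_sum_card_fiberwise (f := fun x => (π.mate x).1) (t := Finset.univ)
      (fun x _ => Finset.mem_univ _)]
    refine Finset.sum_congr rfl fun w _ => ?_
    unfold acount
    congr 1
    ext x
    simp only [Finset.mem_filter, Finset.mem_univ, true_and, and_assoc]
  have h2 : π.tcount v = (Finset.univ.filter fun x : Stub n d => x.1 = v ∧ π.Unres x).card := by
    unfold tcount unres
    congr 1
    ext x
    simp only [Finset.mem_filter, Finset.mem_univ, true_and, and_comm]
  have h3 : (Finset.univ.filter fun x : Stub n d => x.1 = v).card = d := by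
    have : (Finset.univ.filter fun x : Stub n d => x.1 = v) =
        (Finset.univ : Finset (Fin d)).map ⟨fun i => (v, i), fun i j h => (Prod.ext_iff.1 h).2⟩ := by
      ext x
      simp only [Finset.mem_filter, Finset.mem_univ, true_and, Finset.mem_map]
      constructor
      · rintro rfl
        exact ⟨x.2, rfl⟩
      · rintro ⟨i, rfl⟩
        rfl
    rw [this, Finset.card_map, Finset.card_univ, Fintype.card_fin]
  have h4 := Finset.card_filter_add_card_filter_not
    (s := Finset.univ.filter fun x : Stub n d => x.1 = v) (fun x => π.Unres x)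
  rw [Finset.filter_filter, Finset.filter_filter, h3] at h4
  rw [h1, h2]
  omega

theorem acount_symm (v w : Fin n) : π.acount v w = π.acount w v := by
  unfold acount
  have hun : ∀ x, ¬ π.Unres x → ¬ π.Unres (π.mate x) := by
    intro x hx h
    apply hx
    have h' : π.mate (π.mate x) = π.mate x := h
    rw [π.mate_mate] at h'
    exact h'.symm
  refine Finset.card_bij' (fun x _ => π.mate x) (fun x _ => π.mate x) ?_ ?_
    (fun x _ => π.mate_mate x) (fun x _ => π.mate_mate x)
  · intro x hx
    simp only [Finset.mem_filter, Finset.mem_univ, true_and] at hx ⊢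
    exact ⟨hx.2.2, hun x hx.2.1, by rw [π.mate_mate]; exact hx.1⟩
  · intro x hx
    simp only [Finset.mem_filter, Finset.mem_univ, true_and] at hx ⊢
    exact ⟨hx.2.2, hun x hx.2.1, by rw [π.mate_mate]; exact hx.1⟩

theorem l_empty : (PPair.empty n d).l = n * d := by
  have : (PPair.empty n d).unres = Finset.univ := by
    ext x
    simp [unres, Unres, empty]
  unfold l
  rw [this, Finset.card_univ, Fintype.card_prod, Fintype.card_fin, Fintype.card_fin]

/-- the number of unresolved stubs has the parity of `n d` -/
theorem l_parity : Even (n * d - π.l) ∧ π.l ≤ n * d := by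
  have hcard : (Finset.univ : Finset (Stub n d)).card = n * d := by
    rw [Finset.card_univ, Fintype.card_prod, Fintype.card_fin, Fintype.card_fin]
  have hsplit := Finset.card_filter_add_card_filter_not (s := (Finset.univ : Finset (Stub n d)))
    (fun x => π.Unres x)
  rw [hcard] at hsplit
  have hl : π.l = (Finset.univ.filter fun x => π.Unres x).card := rfl
  have hev : Even (Finset.univ.filter fun x : Stub n d => ¬ π.Unres x).card := by
    have hun : ∀ x, ¬ π.Unres x → ¬ π.Unres (π.mate x) := by
      intro x hx h
      apply hx
      have h' : π.mate (π.mate x) = π.mate x := h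
      rw [π.mate_mate] at h'
      exact h'.symm
    have hz : ∑ _x ∈ Finset.univ.filter fun x : Stub n d => ¬ π.Unres x, (1 : ZMod 2) = 0 := by
      refine Finset.sum_involution (fun x _ => π.mate x) ?_ ?_ ?_ ?_
      · intro x _
        decide
      · intro x hx _
        exact (Finset.mem_filter.1 hx).2
      · intro x hx
        exact Finset.mem_filter.2 ⟨Finset.mem_univ _, hun x (Finset.mem_filter.1 hx).2⟩
      · intro x _
        exact π.mate_mate x
    rw [Finset.sum_const, nsmul_eq_mul, mul_one] at hz
    exact (ZMod.natCast_eq_zero_iff_even).1 hz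
  constructor
  · have : n * d - π.l = (Finset.univ.filter fun x : Stub n d => ¬ π.Unres x).card := by omega
    rw [this]
    exact hev
  · omega

variable {π} in
theorem resolve_mate {u v : Stub n d} (hu : π.Unres u) (hv : π.Unres v) (x : Stub n d) :
    (π.resolve u v).mate x = if x = u then v else if x = v then u else π.mate x := by
  unfold resolve
  rw [dif_pos ⟨hu, hv⟩]

variable {π} in
theorem resolve_unres {u v : Stub n d} (hu : π.Unres u) (hv : π.Unres v) (huv : u ≠ v) :
    (π.resolve u v).unres = (π.unres.erase u).erase v := by
  have hm : ∀ (ρ : PPair n d) (y : Stub n d), y ∈ ρ.unres ↔ ρ.mate y = y := fun ρ y =>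
    ⟨fun h => (Finset.mem_filter.1 h).2, fun h => Finset.mem_filter.2 ⟨Finset.mem_univ _, h⟩⟩
  ext x
  rw [Finset.mem_erase, Finset.mem_erase, hm, hm, resolve_mate hu hv]
  by_cases h1 : x = u
  · subst h1
    simp [huv.symm]
  · by_cases h2 : x = v
    · subst h2
      simp [h1, huv]
    · simp [h1, h2]

variable {π} in
theorem resolve_l {u v : Stub n d} (hu : π.Unres u) (hv : π.Unres v) (huv : u ≠ v) :
    (π.resolve u v).l + 2 = π.l := by
  have hu' : u ∈ π.unres := Finset.mem_filter.2 ⟨Finset.mem_univ _, hu⟩
  have hv' : v ∈ π.unres.erase u :=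
    Finset.mem_erase.2 ⟨huv.symm, Finset.mem_filter.2 ⟨Finset.mem_univ _, hv⟩⟩
  unfold l
  rw [resolve_unres hu hv huv, Finset.card_erase_of_mem hv', Finset.card_erase_of_mem hu']
  have h1 : 0 < (π.unres.erase u).card := Finset.card_pos.2 ⟨v, hv'⟩
  rw [Finset.card_erase_of_mem hu'] at h1
  omega

variable {π} in
theorem resolve_tcount {u v : Stub n d} (hu : π.Unres u) (hv : π.Unres v) (huv : u ≠ v) (w : Fin n) :
    (π.resolve u v).tcount w + (if u.1 = w then 1 else 0) + (if v.1 = w then 1 else 0) = π.tcount w := by
  have hu' : u ∈ π.unres := Finset.mem_filter.2 ⟨Finset.mem_univ _, hu⟩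
  have hv' : v ∈ π.unres.erase u :=
    Finset.mem_erase.2 ⟨huv.symm, Finset.mem_filter.2 ⟨Finset.mem_univ _, hv⟩⟩
  have h1 : π.unres = insert u (insert v (π.resolve u v).unres) := by
    rw [resolve_unres hu hv huv, Finset.insert_erase hv', Finset.insert_erase hu']
  have hvn : v ∉ (π.resolve u v).unres := by
    rw [resolve_unres hu hv huv]
    exact Finset.notMem_erase _ _
  have hun : u ∉ insert v (π.resolve u v).unres := by
    rw [resolve_unres hu hv huv, Finset.insert_erase hv']
    exact Finset.notMem_erase _ _
  unfold tcount
  rw [h1, Finset.filter_insert, Finset.filter_insert]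
  by_cases ha : u.1 = w <;> by_cases hb : v.1 = w
  · rw [if_pos ha, if_pos hb, if_pos ha, if_pos hb,
      Finset.card_insert_of_notMem (fun h => hun (Finset.mem_insert.2
        ((Finset.mem_insert.1 h).imp id fun h' => (Finset.mem_filter.1 h').1))),
      Finset.card_insert_of_notMem (fun h => hvn (Finset.mem_filter.1 h).1)]
  · rw [if_pos ha, if_neg hb, if_pos ha, if_neg hb,
      Finset.card_insert_of_notMem (fun h => hun (Finset.mem_insert_of_mem (Finset.mem_filter.1 h).1))]
  · rw [if_neg ha, if_pos hb, if_neg ha, if_pos hb,
      Finset.card_insert_of_notMem (fun h => hvn (Finset.mem_filter.1 h).1)]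
  · rw [if_neg ha, if_neg hb, if_neg ha, if_neg hb]
    rfl

variable {π} in
theorem resolve_acount {u v : Stub n d} (hu : π.Unres u) (hv : π.Unres v) (huv : u ≠ v) (a b : Fin n) :
    (π.resolve u v).acount a b =
      π.acount a b + (if u.1 = a ∧ v.1 = b then 1 else 0) + (if v.1 = a ∧ u.1 = b then 1 else 0) := by
  have hu0 : π.mate u = u := hu
  have hv0 : π.mate v = v := hv
  have e1 : (if u.1 = a ∧ v.1 = b then 1 else 0 : ℕ) =
      ∑ x : Stub n d, if x = u then (if u.1 = a ∧ v.1 = b then 1 else 0) else 0 := by
    rw [Finset.sum_ite_eq' Finset.univ u]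
    simp
  have e2 : (if v.1 = a ∧ u.1 = b then 1 else 0 : ℕ) =
      ∑ x : Stub n d, if x = v then (if v.1 = a ∧ u.1 = b then 1 else 0) else 0 := by
    rw [Finset.sum_ite_eq' Finset.univ v]
    simp
  unfold acount
  rw [Finset.card_filter, Finset.card_filter, e1, e2, ← Finset.sum_add_distrib,
    ← Finset.sum_add_distrib]
  refine Finset.sum_congr rfl fun x _ => ?_
  simp only [Unres, resolve_mate hu hv]
  by_cases h1 : x = u
  · subst h1
    simp [huv, huv.symm, hu0]
  · by_cases h2 : x = v
    · subst h2
      simp [h1, huv, hv0]
    · simp only [h1, h2, if_false, add_zero]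
      exact if_congr Iff.rfl rfl rfl

/-- the actual graph only grows -/
theorem graph_le_resolve (u v : Stub n d) : π.graph ≤ (π.resolve u v).graph := by
  by_cases h : π.Unres u ∧ π.Unres v
  · obtain ⟨hu, hv⟩ := h
    by_cases huv : u = v
    · subst huv
      have : π.resolve u u = π := by
        ext1
        funext x
        rw [resolve_mate hu hu]
        by_cases h1 : x = u
        · subst h1
          simp only [if_true]
          exact hu.symm
        · simp [h1]
      rw [this]
    · intro a b hab
      refine ⟨hab.1, ?_⟩
      rw [resolve_acount hu hv huv]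
      have := hab.2
      omega
  · have : π.resolve u v = π := by
      unfold resolve
      rw [dif_neg h]
    rw [this]

end PPair

end Claimed.Agent.R275
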