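import Claimed.Agent.R275.L41A

/-!
# Row 275, package L41B: vertex-space matrices, `Rinv`

Paper: `foundations.tex` lines 19-190 (Lemma 4.1 `lemma:configuration-algebra`, (4.2)).  Statements by helper208; all matrix identities
were checked with exact rational arithmetic on random partial pairings (n = 6, d = 3) against `Defs.lean`.
Finite-dimensional algebra over a field of characteristic zero; no analysis.  ONE OWNER PER FILE (see table subtask).
Proofs: helper153.
-/

set_option autoImplicit false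
set_option linter.unusedSectionVars false

namespace Claimed.Agent.R275

open Matrix

/-! ## the projections `J1`, `Pi1` -/

section Proj

variable (K : Type*) [Field K] [CharZero K] {n : ℕ}

theorem J1_transpose : (J1 K n)ᵀ = J1 K n := rfl

theorem Pi1_transpose : (Pi1 K n)ᵀ = Pi1 K n := by
  rw [Pi1, Matrix.transpose_sub, Matrix.transpose_one, J1_transpose]

theorem J1_mul_J1 (hn : 0 < n) : J1 K n * J1 K n = J1 K n := by
  have hnK : (n : K) ≠ 0 := Nat.cast_ne_zero.2 hn.ne'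
  ext a b
  simp only [Matrix.mul_apply, J1, Finset.sum_const, Finset.card_univ, Fintype.card_fin, nsmul_eq_mul]
  field_simp

theorem Pi1_mul_J1 (hn : 0 < n) : Pi1 K n * J1 K n = 0 := by
  rw [Pi1, Matrix.sub_mul, Matrix.one_mul, J1_mul_J1 K hn, sub_self]

theorem J1_mul_Pi1 (hn : 0 < n) : J1 K n * Pi1 K n = 0 := by
  rw [Pi1, Matrix.mul_sub, Matrix.mul_one, J1_mul_J1 K hn, sub_self]

theorem Pi1_mul_Pi1 (hn : 0 < n) : Pi1 K n * Pi1 K n = Pi1 K n := by
  have h : Pi1 K n = 1 - J1 K n := rfl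
  calc Pi1 K n * Pi1 K n = (1 - J1 K n) * Pi1 K n := by rw [← h]
    _ = Pi1 K n := by rw [Matrix.sub_mul, Matrix.one_mul, J1_mul_Pi1 K hn, sub_zero]

theorem Pi1_add_J1 : Pi1 K n + J1 K n = 1 := by rw [Pi1, sub_add_cancel]

variable {K}

theorem J1_mulVec (v : Fin n → K) : J1 K n *ᵥ v = fun _ => (n : K)⁻¹ * ∑ i, v i := by
  ext i
  simp only [Matrix.mulVec, dotProduct, J1, ← Finset.mul_sum]

theorem Pi1_mulVec_of_sum_zero (v : Fin n → K) (hv : ∑ i, v i = 0) : Pi1 K n *ᵥ v = v := by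
  rw [Pi1, Matrix.sub_mulVec, Matrix.one_mulVec, J1_mulVec, hv, mul_zero]
  ext i; simp

theorem mul_J1_of_mulVec_one (M : Matrix (Fin n) (Fin n) K) (c : K) (hM : M *ᵥ (fun _ => 1) = fun _ => c) :
    M * J1 K n = c • J1 K n := by
  ext a b
  have := congrFun hM a
  simp only [Matrix.mulVec, dotProduct, mul_one] at this
  simp only [Matrix.mul_apply, J1, ← Finset.sum_mul, this, Matrix.smul_apply, smul_eq_mul]

theorem J1_mul_of_mulVec_one (M : Matrix (Fin n) (Fin n) K) (c : K) (hMt : Mᵀ = M)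
    (hM : M *ᵥ (fun _ => 1) = fun _ => c) : J1 K n * M = c • J1 K n := by
  have := congrArg Matrix.transpose (mul_J1_of_mulVec_one M c hM)
  rwa [Matrix.transpose_mul, hMt, J1_transpose, Matrix.transpose_smul, J1_transpose] at this

/-- for a symmetric matrix with constant row sums, `compN M = M Π + J` -/
theorem compN_eq_of_symm (hn : 0 < n) (M : Matrix (Fin n) (Fin n) K) (c : K) (hMt : Mᵀ = M)
    (hM : M *ᵥ (fun _ => 1) = fun _ => c) : compN M = M * Pi1 K n + J1 K n := by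
  rw [compN]
  congr 1
  have h : Pi1 K n = 1 - J1 K n := rfl
  calc Pi1 K n * M * Pi1 K n = (1 - J1 K n) * M * Pi1 K n := by rw [← h]
    _ = M * Pi1 K n := by
      rw [Matrix.sub_mul, Matrix.one_mul, Matrix.sub_mul, J1_mul_of_mulVec_one M c hMt hM,
        Matrix.smul_mul, J1_mul_Pi1 K hn, smul_zero, sub_zero]

theorem compN_transpose (M : Matrix (Fin n) (Fin n) K) (hMt : Mᵀ = M) : (compN M)ᵀ = compN M := by
  rw [compN, Matrix.transpose_add, Matrix.transpose_mul, Matrix.transpose_mul, Pi1_transpose, hMt, J1_transpose,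
    Matrix.mul_assoc]

theorem compN_mul_J1 (hn : 0 < n) (M : Matrix (Fin n) (Fin n) K) : compN M * J1 K n = J1 K n := by
  rw [compN, Matrix.add_mul, Matrix.mul_assoc, Pi1_mul_J1 K hn, Matrix.mul_zero, zero_add, J1_mul_J1 K hn]

theorem J1_mul_compN (hn : 0 < n) (M : Matrix (Fin n) (Fin n) K) : J1 K n * compN M = J1 K n := by
  rw [compN, Matrix.mul_add, ← Matrix.mul_assoc, ← Matrix.mul_assoc, J1_mul_Pi1 K hn, Matrix.zero_mul,
    Matrix.zero_mul, zero_add, J1_mul_J1 K hn]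

/-- the zero-extended inverse on `1^⊥`, abstractly -/
theorem invOn1_spec (hn : 0 < n) (M : Matrix (Fin n) (Fin n) K) (c : K) (hMt : Mᵀ = M)
    (hM : M *ᵥ (fun _ => 1) = fun _ => c) (hU : IsUnit (compN M)) :
    M * invOn1 M = Pi1 K n ∧ invOn1 M * M = Pi1 K n ∧ invOn1 M * J1 K n = 0 ∧ J1 K n * invOn1 M = 0 ∧
      (invOn1 M)ᵀ = invOn1 M := by
  have hdet := (Matrix.isUnit_iff_isUnit_det _).1 hU
  have hNi : compN M * (compN M)⁻¹ = 1 := Matrix.mul_nonsing_inv _ hdet
  have hiN : (compN M)⁻¹ * compN M = 1 := Matrix.nonsing_inv_mul _ hdet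
  have hiJ : (compN M)⁻¹ * J1 K n = J1 K n := by
    calc (compN M)⁻¹ * J1 K n = (compN M)⁻¹ * (compN M * J1 K n) := by rw [compN_mul_J1 hn]
      _ = J1 K n := by rw [← Matrix.mul_assoc, hiN, Matrix.one_mul]
  have hJi : J1 K n * (compN M)⁻¹ = J1 K n := by
    calc J1 K n * (compN M)⁻¹ = (J1 K n * compN M) * (compN M)⁻¹ := by rw [J1_mul_compN hn]
      _ = J1 K n := by rw [Matrix.mul_assoc, hNi, Matrix.mul_one]
  have hMJ := mul_J1_of_mulVec_one M c hM
  have hJM := J1_mul_of_mulVec_one M c hMt hM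
  have hN := compN_eq_of_symm hn M c hMt hM
  have hM1 : M = compN M - J1 K n + c • J1 K n := by
    rw [hN, ← hMJ, add_sub_cancel_right, ← Matrix.mul_add, Pi1_add_J1, Matrix.mul_one]
  have hRJ : invOn1 M * J1 K n = 0 := by
    rw [invOn1, Matrix.sub_mul, hiJ, J1_mul_J1 K hn, sub_self]
  have hJR : J1 K n * invOn1 M = 0 := by
    rw [invOn1, Matrix.mul_sub, hJi, J1_mul_J1 K hn, sub_self]
  refine ⟨?_, ?_, hRJ, hJR, ?_⟩
  · calc M * invOn1 M = (compN M - J1 K n + c • J1 K n) * invOn1 M := by rw [← hM1]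
      _ = compN M * invOn1 M := by
        rw [Matrix.add_mul, Matrix.sub_mul, Matrix.smul_mul, hJR, smul_zero, sub_zero, add_zero]
      _ = Pi1 K n := by rw [invOn1, Matrix.mul_sub, hNi, compN_mul_J1 hn, Pi1]
  · calc invOn1 M * M = invOn1 M * (compN M - J1 K n + c • J1 K n) := by rw [← hM1]
      _ = invOn1 M * compN M := by
        rw [Matrix.mul_add, Matrix.mul_sub, Matrix.mul_smul, hRJ, smul_zero, sub_zero, add_zero]
      _ = Pi1 K n := by rw [invOn1, Matrix.sub_mul, hiN, J1_mul_compN hn, Pi1]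
  · rw [invOn1, Matrix.transpose_sub, Matrix.transpose_nonsing_inv, compN_transpose M hMt, J1_transpose]

theorem invOn1_unique (hn : 0 < n) (M : Matrix (Fin n) (Fin n) K) (c : K) (hMt : Mᵀ = M)
    (hM : M *ᵥ (fun _ => 1) = fun _ => c) (R : Matrix (Fin n) (Fin n) K)
    (h1 : M * R = Pi1 K n) (h2 : J1 K n * R = 0) : IsUnit (compN M) ∧ invOn1 M = R := by
  have hN := compN_eq_of_symm hn M c hMt hM
  have hPR : Pi1 K n * R = R := by rw [Pi1, Matrix.sub_mul, Matrix.one_mul, h2, sub_zero]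
  have key : compN M * (R + J1 K n) = 1 := by
    rw [hN, Matrix.add_mul, Matrix.mul_add, Matrix.mul_add, Matrix.mul_assoc, hPR, h1, Matrix.mul_assoc,
      Pi1_mul_J1 K hn, Matrix.mul_zero, h2, J1_mul_J1 K hn, add_zero, zero_add, Pi1_add_J1]
  refine ⟨(Matrix.isUnit_iff_isUnit_det _).2 (Matrix.isUnit_det_of_right_inverse key), ?_⟩
  rw [invOn1, Matrix.inv_eq_right_inv key, add_sub_cancel_right]

end Proj

namespace PPair

variable {n d : ℕ} (π : PPair n d)

/-! ## (B) vertex-space matrices -/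

section B

variable (K : Type*) [Field K] [CharZero K]

theorem lV_tvec : lV (π.tvec K) = (π.l : K) := by
  rw [lV, ← π.sum_tcount, Nat.cast_sum]
  rfl

theorem xi_apply (x : Stub n d) (w : Fin n) :
    π.xi K x w = (if x.1 = w then 1 else 0) - (π.tcount w : K) / (π.l : K) := by
  rw [xi, xiV, lV_tvec]
  rfl

theorem Dcal_eq : π.Dcal K = diagonal (π.tvec K) - (π.l : K)⁻¹ • vecMulVec (π.tvec K) (π.tvec K) := by
  rw [Dcal, DcalV, lV_tvec]

theorem Ae_eq : π.Ae K = π.adjM K + (π.l : K)⁻¹ • vecMulVec (π.tvec K) (π.tvec K) := by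
  rw [Ae, AeV, lV_tvec]

theorem tcount_eq_zero_of_l (hl : π.l = 0) (w : Fin n) : π.tcount w = 0 := by
  have := π.sum_tcount
  rw [hl, Finset.sum_eq_zero_iff] at this
  exact this w (Finset.mem_univ w)

/-- `∑_{x ∈ S} [v(x) = w] = t_w` -/
theorem sum_unres_ite (w : Fin n) : ∑ x ∈ π.unres, (if x.1 = w then (1 : K) else 0) = (π.tcount w : K) := by
  rw [tcount, Finset.card_filter, Nat.cast_sum]
  refine Finset.sum_congr rfl fun x _ => ?_
  split_ifs <;> simp

/-- `l (t_a / l) = t_a` also at `l = 0` -/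
theorem l_mul_tcount_div (w : Fin n) : (π.l : K) * ((π.tcount w : K) / (π.l : K)) = (π.tcount w : K) := by
  by_cases hl : π.l = 0
  · rw [π.tcount_eq_zero_of_l hl w, hl]; simp
  · have : (π.l : K) ≠ 0 := Nat.cast_ne_zero.2 hl
    field_simp

theorem Dcal_eq_Xi_mul : π.Dcal K = π.Xi K * (π.Xi K)ᵀ := by
  ext a b
  rw [Dcal_eq, Matrix.mul_apply]
  have e1 : ∑ x, π.Xi K a x * (π.Xi K)ᵀ x b = ∑ x ∈ π.unres, π.xi K x a * π.xi K x b := by
    rw [unres, Finset.sum_filter]
    refine Finset.sum_congr rfl fun x _ => ?_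
    simp only [Xi, Matrix.transpose_apply]
    split_ifs <;> simp
  rw [e1]
  simp only [xi_apply]
  have e2 : ∀ x : Stub n d, ((if x.1 = a then (1 : K) else 0) - (π.tcount a : K) / (π.l : K)) *
      ((if x.1 = b then 1 else 0) - (π.tcount b : K) / (π.l : K)) =
      (if a = b then 1 else 0) * (if x.1 = a then (1 : K) else 0)
        - (π.tcount b : K) / (π.l : K) * (if x.1 = a then (1 : K) else 0)
        - (π.tcount a : K) / (π.l : K) * (if x.1 = b then (1 : K) else 0)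
        + (π.tcount a : K) / (π.l : K) * ((π.tcount b : K) / (π.l : K)) := by
    intro x
    have : (if x.1 = a then (1 : K) else 0) * (if x.1 = b then 1 else 0) =
        (if a = b then 1 else 0) * (if x.1 = a then (1 : K) else 0) := by
      by_cases h1 : x.1 = a
      · subst h1; simp
      · simp [h1]
    linear_combination this
  simp only [e2, Finset.sum_add_distrib, Finset.sum_sub_distrib, ← Finset.mul_sum, sum_unres_ite,
    Finset.sum_const, nsmul_eq_mul]
  have e3 : ((π.unres.card : ℕ) : K) = (π.l : K) := rfl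
  rw [e3]
  have h5 := π.l_mul_tcount_div K b
  simp only [Matrix.sub_apply, Matrix.smul_apply, vecMulVec_apply, tvec, smul_eq_mul, Matrix.diagonal_apply]
  by_cases hab : a = b
  · subst hab
    simp only [if_true]
    linear_combination (-((π.tcount a : K) / (π.l : K))) * h5
  · simp only [hab, if_false]
    linear_combination (-((π.tcount a : K) / (π.l : K))) * h5

/-- `∑_{x ∈ S} ξ_x = 0` -/
theorem sum_xi : ∑ x ∈ π.unres, π.xi K x = 0 := by
  ext w
  rw [Finset.sum_apply]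
  simp only [xi_apply, Finset.sum_sub_distrib, sum_unres_ite, Finset.sum_const, nsmul_eq_mul, Pi.zero_apply]
  have e3 : ((π.unres.card : ℕ) : K) = (π.l : K) := rfl
  rw [e3, l_mul_tcount_div, sub_self]

/-- `ξ_x ∈ 1^⊥` -/
theorem sum_xi_apply (hl : 0 < π.l) (x : Stub n d) : ∑ w, π.xi K x w = 0 := by
  have hlK : (π.l : K) ≠ 0 := Nat.cast_ne_zero.2 hl.ne'
  simp only [xi_apply, Finset.sum_sub_distrib, ← Finset.sum_div]
  rw [← Nat.cast_sum, π.sum_tcount, div_self hlK]
  simp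

theorem Dcal_transpose : (π.Dcal K)ᵀ = π.Dcal K := by
  rw [Dcal_eq_Xi_mul, Matrix.transpose_mul, Matrix.transpose_transpose]

theorem Ae_transpose : (π.Ae K)ᵀ = π.Ae K := by
  ext a b
  rw [Matrix.transpose_apply, Ae_eq]
  simp only [Matrix.add_apply, Matrix.smul_apply, vecMulVec_apply, adjM, smul_eq_mul, π.acount_symm a b]
  ring

theorem Dcal_mulVec_one : π.Dcal K *ᵥ (fun _ => 1) = 0 := by
  ext a
  rw [Dcal_eq]
  simp only [Matrix.mulVec, dotProduct, mul_one, Matrix.sub_apply, Matrix.smul_apply, vecMulVec_apply, smul_eq_mul,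
    Finset.sum_sub_distrib, ← Finset.mul_sum, Pi.zero_apply, Matrix.diagonal_apply, Finset.sum_ite_eq,
    Finset.mem_univ, if_true]
  have : ∑ i, π.tvec K i = (π.l : K) := π.lV_tvec K
  rw [this]
  have := π.l_mul_tcount_div K a
  simp only [tvec]
  linear_combination -this

theorem Ae_mulVec_one : π.Ae K *ᵥ (fun _ => 1) = fun _ => (d : K) := by
  ext a
  rw [Ae_eq]
  simp only [Matrix.mulVec, dotProduct, mul_one, Matrix.add_apply, Matrix.smul_apply, vecMulVec_apply, smul_eq_mul,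
    Finset.sum_add_distrib, ← Finset.mul_sum]
  have h1 : ∑ i, π.tvec K i = (π.l : K) := π.lV_tvec K
  rw [h1]
  have h2 := π.l_mul_tcount_div K a
  have h3 : (∑ w, (π.acount a w : K)) + (π.tcount a : K) = (d : K) := by
    rw [← Nat.cast_sum, ← Nat.cast_add, π.sum_acount_add_tcount a]
  simp only [tvec, adjM]
  linear_combination h3 + h2

/-- recentring of a surviving stub: `ξ'_x = ξ_x + (ξ_u + ξ_v) / (l - 2)` -/
theorem xi_resolve {u v : Stub n d} (hu : π.Unres u) (hv : π.Unres v) (huv : u ≠ v) (hl : 2 < π.l)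
    (x : Stub n d) :
    (π.resolve u v).xi K x = π.xi K x + ((π.l : K) - 2)⁻¹ • (π.xi K u + π.xi K v) := by
  have h1 : ((π.l : K) - 2) ≠ 0 := by
    have : ((π.l - 2 : ℕ) : K) ≠ 0 := Nat.cast_ne_zero.2 (by omega)
    rwa [Nat.cast_sub hl.le, Nat.cast_ofNat] at this
  have h2 : (π.l : K) ≠ 0 := Nat.cast_ne_zero.2 (by omega)
  have hl' : ((π.resolve u v).l : K) = (π.l : K) - 2 := by
    rw [← resolve_l hu hv huv]; push_cast; ring
  ext w
  have ht : ((π.resolve u v).tcount w : K) =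
      (π.tcount w : K) - (if u.1 = w then 1 else 0) - (if v.1 = w then 1 else 0) := by
    rw [← resolve_tcount hu hv huv w]; push_cast; ring
  simp only [xi_apply, Pi.add_apply, Pi.smul_apply, smul_eq_mul, hl', ht]
  field_simp
  ring

variable {K}

theorem Mmat_eq (σ h : K) :
    π.Mmat σ h = zfun d h • (1 : Matrix (Fin n) (Fin n) K) - σ • π.Ae K - h • π.Dcal K := rfl

theorem Mmat_transpose (σ h : K) : (π.Mmat σ h)ᵀ = π.Mmat σ h := by
  rw [Mmat_eq, Matrix.transpose_sub, Matrix.transpose_sub, Matrix.transpose_smul, Matrix.transpose_smul,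
    Matrix.transpose_smul, Matrix.transpose_one, Ae_transpose, Dcal_transpose]

theorem Mmat_mulVec_one (σ h : K) :
    π.Mmat σ h *ᵥ (fun _ => 1) = fun _ => zfun d h - σ * (d : K) := by
  rw [Mmat_eq, Matrix.sub_mulVec, Matrix.sub_mulVec, Matrix.smul_mulVec, Matrix.smul_mulVec, Matrix.smul_mulVec,
    Matrix.one_mulVec, Ae_mulVec_one, Dcal_mulVec_one]
  ext a
  simp

/-- `M` commutes with the projection onto `1^⊥`, hence `compN M = M Π + J/n` -/
theorem compN_Mmat (hn : 0 < n) (σ h : K) : compN (π.Mmat σ h) = π.Mmat σ h * Pi1 K n + J1 K n :=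
  compN_eq_of_symm hn _ _ (π.Mmat_transpose σ h) (π.Mmat_mulVec_one σ h)

/-- `M(h - x) = M(h) + x (𝒟 + h⁻² α I) + γ(x) I`, `γ(x) = x² / (h² (h - x))` -/
theorem Mmat_sub (σ h x : K) (hh : h ≠ 0) (hx : h - x ≠ 0) :
    π.Mmat σ (h - x) = π.Mmat σ h + x • (π.Dcal K + (h⁻¹ ^ 2 * alphaf d h) • 1)
      + (x ^ 2 / (h ^ 2 * (h - x))) • 1 := by
  have e : zfun d (h - x) = zfun d h + x * (h⁻¹ ^ 2 * alphaf d h) + x ^ 2 / (h ^ 2 * (h - x)) := by
    rw [zfun, zfun, alphaf]
    field_simp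
    ring
  rw [Mmat_eq, Mmat_eq, e]
  module

/-- `Rinv` is the zero-extended inverse on `1^⊥` -/
theorem Mmat_mul_Rinv (hn : 0 < n) (σ h : K) (hU : IsUnit (compN (π.Mmat σ h))) :
    π.Mmat σ h * π.Rinv σ h = Pi1 K n ∧ π.Rinv σ h * π.Mmat σ h = Pi1 K n ∧
    π.Rinv σ h * J1 K n = 0 ∧ J1 K n * π.Rinv σ h = 0 ∧ (π.Rinv σ h)ᵀ = π.Rinv σ h :=
  invOn1_spec hn _ _ (π.Mmat_transpose σ h) (π.Mmat_mulVec_one σ h) hU

/-- uniqueness: any zero-extended right inverse is `Rinv` -/
theorem Rinv_unique (hn : 0 < n) (σ h : K) (R : Matrix (Fin n) (Fin n) K)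
    (h1 : π.Mmat σ h * R = Pi1 K n) (h2 : J1 K n * R = 0) :
    IsUnit (compN (π.Mmat σ h)) ∧ π.Rinv σ h = R :=
  invOn1_unique hn _ _ (π.Mmat_transpose σ h) (π.Mmat_mulVec_one σ h) R h1 h2

theorem acount_empty (v w : Fin n) : (PPair.empty n d).acount v w = 0 := by
  rw [acount, Finset.card_eq_zero, Finset.filter_eq_empty_iff]
  intro x _ hx
  exact hx.2.1 rfl

theorem tcount_empty (v : Fin n) : (PPair.empty n d).tcount v = d := by
  have := (PPair.empty n d).sum_acount_add_tcount v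
  simpa [acount_empty] using this

/-- at the empty pairing `W` is the identity of `1^⊥` -/
theorem Wmat_empty (hn : 0 < n) (hd : 0 < d) (σ h : K) (hh : h ≠ 0) (hh1 : h ^ 2 ≠ 1) :
    (PPair.empty n d).Wmat σ h = Pi1 K n := by
  have hnK : (n : K) ≠ 0 := Nat.cast_ne_zero.2 hn.ne'
  have hdK : (d : K) ≠ 0 := Nat.cast_ne_zero.2 hd.ne'
  have h1 : (1 - h ^ 2) ≠ 0 := fun e => hh1 (by linear_combination -e)
  have hm : mh h ≠ 0 := div_ne_zero hh h1
  have hAe : (PPair.empty n d).Ae K = (d : K) • J1 K n := by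
    ext a b
    rw [Ae_eq]
    simp only [Matrix.add_apply, Matrix.smul_apply, vecMulVec_apply, adjM, tvec, acount_empty, tcount_empty,
      l_empty, J1, smul_eq_mul]
    push_cast
    field_simp
    simp
  have hD : (PPair.empty n d).Dcal K = (d : K) • Pi1 K n := by
    ext a b
    rw [Dcal_eq]
    simp only [Matrix.sub_apply, Matrix.smul_apply, vecMulVec_apply, tvec, tcount_empty,
      l_empty, J1, Pi1, smul_eq_mul, Matrix.diagonal_apply, Matrix.one_apply]
    push_cast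
    by_cases hab : a = b
    · simp [hab]; field_simp
    · simp [hab]; field_simp
  obtain ⟨-, h2⟩ := (PPair.empty n d).Rinv_unique hn σ h (mh h • Pi1 K n)
    (by
      rw [Mmat_eq, hAe, hD, Matrix.mul_smul, Matrix.sub_mul, Matrix.sub_mul, Matrix.smul_mul, Matrix.smul_mul,
        Matrix.smul_mul, Matrix.smul_mul, Matrix.smul_mul, Matrix.one_mul, J1_mul_Pi1 K hn, Pi1_mul_Pi1 K hn,
        smul_zero, smul_zero, sub_zero, smul_smul, ← sub_smul, smul_smul]
      have : mh h * (zfun d h - h * (d : K)) = 1 := by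
        rw [mh, zfun]; field_simp; ring
      rw [this, one_smul])
    (by rw [Matrix.mul_smul, J1_mul_Pi1 K hn, smul_zero])
  have : (PPair.empty n d).Wmat σ h = (mh h)⁻¹ • (PPair.empty n d).Rinv σ h := rfl
  rw [this, h2, smul_smul, inv_mul_cancel₀ hm, one_smul]

/-- at a complete pairing `M = z - σ A` -/
theorem Mmat_complete (hc : π.Complete) (σ h : K) :
    π.Mmat σ h = zfun d h • (1 : Matrix (Fin n) (Fin n) K) - σ • π.adjM K := by
  have hl : π.l = 0 := by
    rw [l, Finset.card_eq_zero, unres, Finset.filter_eq_empty_iff]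
    intro x _
    exact hc x
  have ht : π.tvec K = 0 := by
    ext w
    simp [tvec, π.tcount_eq_zero_of_l hl w]
  rw [Mmat_eq, Ae_eq, Dcal_eq, ht]
  simp

end B

/-- positivity gives invertibility on `1^⊥`, and `Rinv` is then positive semidefinite -/
theorem isUnit_of_posOn1 (hn : 0 < n) (σ h : ℝ) (hpos : PosOn1 (π.Mmat σ h)) :
    IsUnit (compN (π.Mmat σ h)) ∧ PosOn1 (π.Rinv σ h) := by
  have hnR : (n : ℝ) ≠ 0 := Nat.cast_ne_zero.2 hn.ne'
  have hU : IsUnit (compN (π.Mmat σ h)) := by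
    rw [Matrix.isUnit_iff_isUnit_det, isUnit_iff_ne_zero]
    intro hdet
    obtain ⟨x, hx0, hx⟩ := Matrix.exists_mulVec_eq_zero_iff.2 hdet
    rw [π.compN_Mmat hn, Matrix.add_mulVec, ← Matrix.mulVec_mulVec] at hx
    set x₀ := Pi1 ℝ n *ᵥ x with hx₀
    have hJx₀ : J1 ℝ n *ᵥ x₀ = 0 := by
      rw [hx₀, Matrix.mulVec_mulVec, J1_mul_Pi1 ℝ hn, Matrix.zero_mulVec]
    have hs : ∑ i, x₀ i = 0 := by
      have e2 := congrFun hJx₀ ⟨0, hn⟩
      rw [J1_mulVec] at e2
      rcases mul_eq_zero.1 e2 with e3 | e3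
      · exact absurd e3 (inv_ne_zero hnR)
      · exact e3
    have h1 : x₀ ⬝ᵥ (π.Mmat σ h *ᵥ x₀) = 0 := by
      have := congrArg (fun y => x₀ ⬝ᵥ y) hx
      simp only [dotProduct_add, dotProduct_zero] at this
      have h2 : x₀ ⬝ᵥ (J1 ℝ n *ᵥ x) = 0 := by
        rw [J1_mulVec, dotProduct, ← Finset.sum_mul, hs, zero_mul]
      rwa [h2, add_zero] at this
    have h3 : x₀ = 0 := by
      by_contra hne
      exact absurd h1 (hpos x₀ hs hne).ne'
    rw [h3, Matrix.mulVec_zero, zero_add] at hx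
    apply hx0
    have : x = Pi1 ℝ n *ᵥ x + J1 ℝ n *ᵥ x := by
      rw [← Matrix.add_mulVec, Pi1_add_J1, Matrix.one_mulVec]
    rw [this, ← hx₀, h3, hx, add_zero]
  refine ⟨hU, ?_⟩
  obtain ⟨hMR, hRM, hRJ, hJR, hRt⟩ := π.Mmat_mul_Rinv hn σ h hU
  intro v hv hv0
  set r := π.Rinv σ h *ᵥ v with hr
  have hMr : π.Mmat σ h *ᵥ r = v := by
    rw [hr, Matrix.mulVec_mulVec, hMR, Pi1_mulVec_of_sum_zero v hv]
  have hs : ∑ i, r i = 0 := by
    have e1 : J1 ℝ n *ᵥ r = 0 := by rw [hr, Matrix.mulVec_mulVec, hJR, Matrix.zero_mulVec]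
    have e2 := congrFun e1 ⟨0, hn⟩
    rw [J1_mulVec] at e2
    rcases mul_eq_zero.1 e2 with e3 | e3
    · exact absurd e3 (inv_ne_zero hnR)
    · exact e3
  have hr0 : r ≠ 0 := by
    intro e
    rw [e, Matrix.mulVec_zero] at hMr
    exact hv0 hMr.symm
  have := hpos r hs hr0
  rw [hMr, dotProduct_comm] at this
  exact this

end PPair

end Claimed.Agent.R275
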