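import Claimed.Agent.R275.L41B

/-!
# Row 275, package L41C: the path generating function

Paper: `foundations.tex` lines 19-190 (Lemma 4.1 `lemma:configuration-algebra`, (4.2)).  Statements by helper208; all matrix identities
were checked with exact rational arithmetic on random partial pairings (n = 6, d = 3) against `Defs.lean`.
Finite-dimensional algebra over a field of characteristic zero; no analysis.  ONE OWNER PER FILE (see table subtask).
Proofs: helper153.
-/

set_option autoImplicit false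
set_option linter.unusedSectionVars false

namespace Claimed.Agent.R275

open Matrix

/-- entrywise `0 ≤ A ≤ A'` -/
def EntLe {a b : Type*} (A A' : Matrix a b ℝ) : Prop := ∀ i j, 0 ≤ A i j ∧ A i j ≤ A' i j

theorem EntLe.mul {a b c : Type*} [Fintype b] {A A' : Matrix a b ℝ} {B B' : Matrix b c ℝ}
    (hA : EntLe A A') (hB : EntLe B B') : EntLe (A * B) (A' * B') := by
  intro i j
  rw [Matrix.mul_apply, Matrix.mul_apply]
  exact ⟨Finset.sum_nonneg fun k _ => mul_nonneg (hA i k).1 (hB k j).1,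
    Finset.sum_le_sum fun k _ => mul_le_mul (hA i k).2 (hB k j).2 (hB k j).1 ((hA i k).1.trans (hA i k).2)⟩

theorem EntLe.one {a : Type*} [DecidableEq a] : EntLe (1 : Matrix a a ℝ) 1 := by
  intro i j
  refine ⟨?_, le_refl _⟩
  rw [Matrix.one_apply]
  split_ifs <;> norm_num

theorem EntLe.pow {a : Type*} [Fintype a] [DecidableEq a] {A A' : Matrix a a ℝ} (hA : EntLe A A') (k : ℕ) :
    EntLe (A ^ k) (A' ^ k) := by
  induction k with
  | zero => simpa using EntLe.one
  | succ k ih => rw [pow_succ, pow_succ]; exact ih.mul hA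

namespace PPair

variable {n d : ℕ} (π : PPair n d)

/-! ## (C) the path generating function -/

section C

variable (K : Type*) [Field K] [CharZero K]

theorem Qmat_zero : π.Qmat K 0 = 1 := rfl

theorem Qmat_one : π.Qmat K 1 = π.Ae K := rfl

theorem Qmat_two : π.Qmat K 2 = π.Ae K * π.Ae K - π.De K := rfl

theorem Qmat_rec (j : ℕ) :
    π.Qmat K (j + 3) = π.Ae K * π.Qmat K (j + 2) - (π.De K - 1) * π.Qmat K (j + 1) := rfl

theorem Cinc_sandwich (X : Matrix (Stub n d) (Stub n d) K) (v w : Fin n) :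
    (Cinc K n d * X * (Cinc K n d)ᵀ) v w =
      ∑ x : Stub n d, (if x.1 = v then (1 : K) else 0) * ∑ y : Stub n d, X x y * (if y.1 = w then 1 else 0) := by
  rw [Matrix.mul_assoc, Matrix.mul_apply]
  refine Finset.sum_congr rfl fun x _ => ?_
  rw [Matrix.mul_apply]
  rfl

theorem unres_mate {x : Stub n d} (hx : ¬ π.Unres x) : ¬ π.Unres (π.mate x) := by
  intro h
  apply hx
  have : π.mate (π.mate x) = π.mate x := h
  rw [π.mate_mate] at this
  exact this.symm

/-- `∑_y [y ∈ S] c f(y)` -/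
theorem sum_ite_unres_mul (c : K) (w : Fin n) :
    ∑ y : Stub n d, (if π.Unres y then c else 0) * (if y.1 = w then (1 : K) else 0) = c * (π.tcount w : K) := by
  rw [← sum_unres_ite, unres, Finset.sum_filter, Finset.mul_sum]
  refine Finset.sum_congr rfl fun y _ => ?_
  split_ifs <;> simp

theorem Pstar_row (x : Stub n d) (w : Fin n) :
    ∑ y : Stub n d, π.Pstar K x y * (if y.1 = w then (1 : K) else 0) =
      if π.Unres x then (π.l : K)⁻¹ * (π.tcount w : K) else (if (π.mate x).1 = w then 1 else 0) := by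
  by_cases hx : π.Unres x
  · simp only [Pstar, hx, if_true]
    exact π.sum_ite_unres_mul K _ w
  · simp only [Pstar, hx, if_false, ite_mul, one_mul, zero_mul, Finset.sum_ite_eq, Finset.mem_univ, if_true]

/-- `C P_* Cᵀ = A_e` -/
theorem Cinc_Pstar : Cinc K n d * π.Pstar K * (Cinc K n d)ᵀ = π.Ae K := by
  ext v w
  rw [Cinc_sandwich, Ae_eq]
  simp only [Pstar_row, Matrix.add_apply, Matrix.smul_apply, vecMulVec_apply, adjM, tvec, smul_eq_mul]
  have e : ∀ x : Stub n d, (if x.1 = v then (1 : K) else 0) *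
      (if π.Unres x then (π.l : K)⁻¹ * (π.tcount w : K) else (if (π.mate x).1 = w then 1 else 0)) =
      (if x.1 = v ∧ ¬ π.Unres x ∧ (π.mate x).1 = w then 1 else 0) +
      (if π.Unres x then (π.l : K)⁻¹ * (π.tcount w : K) else 0) * (if x.1 = v then (1 : K) else 0) := by
    intro x
    by_cases h1 : x.1 = v <;> by_cases h2 : π.Unres x <;> simp [h1, h2]
  simp only [e, Finset.sum_add_distrib, sum_ite_unres_mul]
  rw [acount, Finset.card_filter, Nat.cast_sum]
  congr 1
  · refine Finset.sum_congr rfl fun x _ => ?_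
    split_ifs <;> simp
  · ring

theorem Pstar_avg_mul (y : Stub n d) :
    ∑ z : Stub n d, (if π.Unres z then (π.l : K)⁻¹ else 0) * π.Pstar K z y =
      if π.Unres y then (π.l : K)⁻¹ else 0 := by
  have e : ∀ z : Stub n d, (if π.Unres z then (π.l : K)⁻¹ else 0) * π.Pstar K z y =
      if π.Unres z then (π.l : K)⁻¹ * (if π.Unres y then (π.l : K)⁻¹ else 0) else 0 := by
    intro z
    by_cases hz : π.Unres z <;> simp [Pstar, hz]
  simp only [e]
  rw [← Finset.sum_filter, Finset.sum_const, nsmul_eq_mul]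
  have e3 : (((Finset.univ.filter fun z => π.Unres z).card : ℕ) : K) = (π.l : K) := rfl
  rw [e3]
  by_cases hl : (π.l : K) = 0
  · simp [hl]
  · rw [← mul_assoc, mul_inv_cancel₀ hl, one_mul]

theorem Pstar_sq_apply (x y : Stub n d) :
    (π.Pstar K * π.Pstar K) x y =
      if π.Unres x then (if π.Unres y then (π.l : K)⁻¹ else 0) else (if x = y then 1 else 0) := by
  rw [Matrix.mul_apply]
  by_cases hx : π.Unres x
  · simp only [hx, if_true]
    rw [← Pstar_avg_mul]
    refine Finset.sum_congr rfl fun z _ => ?_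
    simp only [Pstar, hx, if_true]
  · simp only [hx, if_false]
    have : ∀ z, π.Pstar K x z * π.Pstar K z y = if π.mate x = z then π.Pstar K z y else 0 := by
      intro z
      simp only [Pstar, hx, if_false, ite_mul, one_mul, zero_mul]
    simp only [this, Finset.sum_ite_eq, Finset.mem_univ, if_true]
    simp only [Pstar, π.unres_mate hx, if_false, π.mate_mate]

theorem Pstar_sq_row (x : Stub n d) (w : Fin n) :
    ∑ y : Stub n d, (π.Pstar K * π.Pstar K) x y * (if y.1 = w then (1 : K) else 0) =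
      if π.Unres x then (π.l : K)⁻¹ * (π.tcount w : K) else (if x.1 = w then 1 else 0) := by
  by_cases hx : π.Unres x
  · simp only [Pstar_sq_apply, hx, if_true]
    exact π.sum_ite_unres_mul K _ w
  · simp only [Pstar_sq_apply, hx, if_false, ite_mul, one_mul, zero_mul, Finset.sum_ite_eq, Finset.mem_univ,
      if_true]

theorem sum_stub_ite (v : Fin n) : ∑ x : Stub n d, (if x.1 = v then (1 : K) else 0) = (d : K) := by
  rw [Fintype.sum_prod_type, Finset.sum_comm]
  have : ∀ y : Fin d, ∑ x : Fin n, (if (x, y).1 = v then (1 : K) else 0) = 1 := by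
    intro y
    rw [Finset.sum_ite_eq' Finset.univ v (fun _ => (1 : K))]
    simp
  simp only [this, Finset.sum_const, Finset.card_univ, Fintype.card_fin, nsmul_eq_mul, mul_one]

/-- `C P_*² Cᵀ = D_e` -/
theorem Cinc_Pstar_sq : Cinc K n d * (π.Pstar K * π.Pstar K) * (Cinc K n d)ᵀ = π.De K := by
  ext v w
  rw [Cinc_sandwich]
  have hDe : π.De K = (d : K) • 1 - π.Dcal K := rfl
  rw [hDe, Dcal_eq]
  simp only [Pstar_sq_row, Matrix.sub_apply, Matrix.smul_apply, vecMulVec_apply, tvec, smul_eq_mul,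
    Matrix.one_apply, Matrix.diagonal_apply]
  have e : ∀ x : Stub n d, (if x.1 = v then (1 : K) else 0) *
      (if π.Unres x then (π.l : K)⁻¹ * (π.tcount w : K) else (if x.1 = w then 1 else 0)) =
      (if v = w then 1 else 0) * (if x.1 = v then (1 : K) else 0)
      - (if π.Unres x then (if v = w then 1 else 0) else 0) * (if x.1 = v then (1 : K) else 0)
      + (if π.Unres x then (π.l : K)⁻¹ * (π.tcount w : K) else 0) * (if x.1 = v then (1 : K) else 0) := by
    intro x
    by_cases h1 : x.1 = v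
    · subst h1
      by_cases h2 : π.Unres x <;> simp [h2]
    · simp [h1]
  simp only [e, Finset.sum_add_distrib, Finset.sum_sub_distrib, sum_ite_unres_mul, ← Finset.mul_sum, sum_stub_ite]
  by_cases hvw : v = w
  · subst hvw; simp; ring
  · simp [hvw]; ring

theorem NBm_eq : NBm K n d = (Cinc K n d)ᵀ * Cinc K n d - 1 := by
  ext x y
  simp only [NBm, Matrix.sub_apply, Matrix.mul_apply, Matrix.transpose_apply, Cinc, Matrix.one_apply]
  have : ∀ v : Fin n, (if x.1 = v then (1 : K) else 0) * (if y.1 = v then 1 else 0) =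
      if x.1 = v then (if y.1 = v then 1 else 0) else 0 := by
    intro v; split_ifs <;> simp
  simp only [this, Finset.sum_ite_eq, Finset.mem_univ, if_true]
  by_cases h1 : x = y
  · subst h1; simp
  · by_cases h2 : x.1 = y.1
    · simp [h1, h2]
    · have h3 : ¬ y.1 = x.1 := fun e => h2 e.symm
      simp [h1, h2, h3]

theorem Pstar_cube' : π.Pstar K * π.Pstar K * π.Pstar K = π.Pstar K := by
  ext x y
  rw [Matrix.mul_apply]
  by_cases hx : π.Unres x
  · simp only [Pstar_sq_apply, hx, if_true]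
    rw [Pstar_avg_mul]
    simp only [Pstar, hx, if_true]
  · simp only [Pstar_sq_apply, hx, if_false, ite_mul, one_mul, zero_mul, Finset.sum_ite_eq, Finset.mem_univ,
      if_true]

/-- `P_*³ = P_*` and `C P_*² (CᵀC - I) P_* = (D_e - I) C P_*`  (foundations.tex l. 108) -/
theorem Pstar_cube : π.Pstar K * π.Pstar K * π.Pstar K = π.Pstar K ∧
    Cinc K n d * (π.Pstar K * π.Pstar K) * (NBm K n d * π.Pstar K) =
      (π.De K - 1) * (Cinc K n d * π.Pstar K) := by
  refine ⟨π.Pstar_cube' K, ?_⟩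
  rw [NBm_eq, Matrix.sub_mul, Matrix.one_mul, Matrix.mul_sub, Matrix.sub_mul, Matrix.one_mul, ← Cinc_Pstar_sq]
  congr 1
  · simp only [Matrix.mul_assoc]
  · rw [Matrix.mul_assoc, π.Pstar_cube' K]

theorem QmatS_one : π.QmatS K 1 = π.Ae K := by
  rw [QmatS, pow_zero, Matrix.mul_one, Cinc_Pstar]

/-- `A_e Q_{j+1} = Q_{j+2} + C P_*² (N P_*)^j Cᵀ` -/
theorem Ae_mul_QmatS (j : ℕ) : π.Ae K * π.QmatS K (j + 1) =
    π.QmatS K (j + 2) + Cinc K n d * (π.Pstar K * π.Pstar K) * (NBm K n d * π.Pstar K) ^ j * (Cinc K n d)ᵀ := by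
  have h1 : (Cinc K n d)ᵀ * Cinc K n d = NBm K n d + 1 := by rw [NBm_eq, sub_add_cancel]
  rw [← Cinc_Pstar, QmatS, QmatS, pow_succ']
  calc Cinc K n d * π.Pstar K * (Cinc K n d)ᵀ *
        (Cinc K n d * π.Pstar K * (NBm K n d * π.Pstar K) ^ j * (Cinc K n d)ᵀ)
      = Cinc K n d * π.Pstar K * ((Cinc K n d)ᵀ * Cinc K n d) * π.Pstar K * (NBm K n d * π.Pstar K) ^ j
          * (Cinc K n d)ᵀ := by simp only [Matrix.mul_assoc]
    _ = _ := by
      rw [h1, Matrix.mul_add, Matrix.mul_one, Matrix.add_mul, Matrix.add_mul, Matrix.add_mul]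
      simp only [Matrix.mul_assoc]

/-- the recurrence computes the weighted nonbacktracking stub walks of the paper -/
theorem Qmat_eq_QmatS (j : ℕ) : π.Qmat K j = π.QmatS K j := by
  induction j using Nat.strong_induction_on with
  | _ j ih =>
    match j with
    | 0 => rfl
    | 1 => rw [Qmat_one, QmatS_one]
    | 2 =>
      have := π.Ae_mul_QmatS K 0
      rw [pow_zero, Matrix.mul_one, Cinc_Pstar_sq, QmatS_one] at this
      rw [Qmat_two, this, add_sub_cancel_right]
    | j + 3 =>
      have := π.Ae_mul_QmatS K (j + 1)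
      have e1 : π.QmatS K (j + 1) =
          Cinc K n d * π.Pstar K * (NBm K n d * π.Pstar K) ^ j * (Cinc K n d)ᵀ := rfl
      rw [Qmat_rec, ih (j + 2) (by omega), ih (j + 1) (by omega), this, pow_succ', ← Matrix.mul_assoc,
        (π.Pstar_cube K).2, e1]
      simp only [Matrix.mul_assoc]
      exact add_sub_cancel_right _ _

theorem Pstar_transpose : (π.Pstar K)ᵀ = π.Pstar K := by
  ext x y
  simp only [Matrix.transpose_apply, Pstar]
  by_cases hx : π.Unres x <;> by_cases hy : π.Unres y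
  · simp [hx, hy]
  · have : π.mate y ≠ x := by
      intro e
      exact π.unres_mate hy (e ▸ hx)
    simp [hx, hy, this]
  · have : π.mate x ≠ y := by
      intro e
      exact π.unres_mate hx (e ▸ hy)
    simp [hx, hy, this]
  · simp only [hx, hy, if_false]
    by_cases h : π.mate y = x
    · have : π.mate x = y := by rw [← h, π.mate_mate]
      simp [h, this]
    · have : π.mate x ≠ y := by
        intro e
        exact h (by rw [← e, π.mate_mate])
      simp [h, this]

theorem NBm_transpose : (NBm K n d)ᵀ = NBm K n d := by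
  rw [NBm_eq, Matrix.transpose_sub, Matrix.transpose_mul, Matrix.transpose_transpose, Matrix.transpose_one]

theorem mul_pow_mul_comm' {m : Type*} [Fintype m] [DecidableEq m] (A B : Matrix m m K) (k : ℕ) :
    (A * B) ^ k * A = A * (B * A) ^ k := by
  induction k with
  | zero => simp
  | succ k ih => rw [pow_succ', Matrix.mul_assoc, ih, pow_succ']; simp only [Matrix.mul_assoc]

theorem Qmat_transpose (j : ℕ) : (π.Qmat K j)ᵀ = π.Qmat K j := by
  rw [Qmat_eq_QmatS]
  match j with
  | 0 => exact Matrix.transpose_one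
  | j + 1 =>
    rw [QmatS, Matrix.transpose_mul, Matrix.transpose_mul, Matrix.transpose_mul, Matrix.transpose_transpose,
      Matrix.transpose_pow, Matrix.transpose_mul, Pstar_transpose, NBm_transpose]
    have key := mul_pow_mul_comm' K (π.Pstar K) (NBm K n d) j
    calc Cinc K n d * ((π.Pstar K * NBm K n d) ^ j * (π.Pstar K * (Cinc K n d)ᵀ))
        = Cinc K n d * ((π.Pstar K * NBm K n d) ^ j * π.Pstar K) * (Cinc K n d)ᵀ := by
          simp only [Matrix.mul_assoc]
      _ = _ := by rw [key]; simp only [Matrix.mul_assoc]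

theorem Cinc_transpose_mulVec_one : (Cinc K n d)ᵀ *ᵥ (fun _ => 1) = fun _ => 1 := by
  ext x
  simp [Matrix.mulVec, dotProduct, Cinc]

theorem Cinc_mulVec_one : Cinc K n d *ᵥ (fun _ => 1) = fun _ => (d : K) := by
  ext v
  simp only [Matrix.mulVec, dotProduct, Cinc, mul_one]
  exact sum_stub_ite K v

theorem Pstar_mulVec_one : π.Pstar K *ᵥ (fun _ => 1) = fun _ => 1 := by
  ext x
  simp only [Matrix.mulVec, dotProduct, mul_one]
  by_cases hx : π.Unres x
  · simp only [Pstar, hx, if_true]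
    rw [← Finset.sum_filter, Finset.sum_const, nsmul_eq_mul]
    have e3 : (((Finset.univ.filter fun z => π.Unres z).card : ℕ) : K) = (π.l : K) := rfl
    rw [e3]
    have : π.l ≠ 0 := by
      rw [l]
      exact Finset.card_ne_zero_of_mem (Finset.mem_filter.2 ⟨Finset.mem_univ x, hx⟩)
    exact mul_inv_cancel₀ (Nat.cast_ne_zero.2 this)
  · simp only [Pstar, hx, if_false, Finset.sum_ite_eq, Finset.mem_univ, if_true]

theorem NBm_mulVec_one : NBm K n d *ᵥ (fun _ => 1) = fun _ => (d : K) - 1 := by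
  rw [NBm_eq, Matrix.sub_mulVec, ← Matrix.mulVec_mulVec, Cinc_mulVec_one, Matrix.one_mulVec]
  ext x
  simp [Matrix.mulVec, dotProduct, Cinc]

theorem NBP_pow_mulVec_one (j : ℕ) :
    (NBm K n d * π.Pstar K) ^ j *ᵥ (fun _ => 1) = fun _ => ((d : K) - 1) ^ j := by
  induction j with
  | zero => simp
  | succ j ih =>
    rw [pow_succ, ← Matrix.mulVec_mulVec, ← Matrix.mulVec_mulVec, Pstar_mulVec_one, NBm_mulVec_one]
    have : (fun _ : Stub n d => (d : K) - 1) = ((d : K) - 1) • (fun _ => (1 : K)) := by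
      ext; simp
    rw [this, Matrix.mulVec_smul, ih]
    ext x
    simp [pow_succ, mul_comm]

/-- row sums `d q^{j-1}` -/
theorem Qmat_mulVec_one (j : ℕ) :
    π.Qmat K (j + 1) *ᵥ (fun _ => 1) = fun _ => (d : K) * ((d : K) - 1) ^ j := by
  rw [Qmat_eq_QmatS, QmatS, ← Matrix.mulVec_mulVec, Cinc_transpose_mulVec_one, ← Matrix.mulVec_mulVec,
    NBP_pow_mulVec_one]
  have : (fun _ : Stub n d => ((d : K) - 1) ^ j) = (((d : K) - 1) ^ j) • (fun _ => (1 : K)) := by
    ext; simp
  rw [this, Matrix.mulVec_smul, ← Matrix.mulVec_mulVec, Pstar_mulVec_one, Cinc_mulVec_one]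
  ext x
  simp [mul_comm]

/-- entries of `Q_j` and of the actual walk counts are nonnegative, and `N_j ≤ Q_j` entrywise -/
theorem Nact_le_Qmat (j : ℕ) (v w : Fin n) : 0 ≤ π.Nact ℝ j v w ∧ π.Nact ℝ j v w ≤ π.Qmat ℝ j v w := by
  rw [Qmat_eq_QmatS]
  match j with
  | 0 => exact EntLe.one v w
  | j + 1 =>
    have hC : EntLe (Cinc ℝ n d) (Cinc ℝ n d) := by
      intro i x
      refine ⟨?_, le_refl _⟩
      simp only [Cinc]; split_ifs <;> norm_num
    have hCt : EntLe (Cinc ℝ n d)ᵀ (Cinc ℝ n d)ᵀ := fun x i => hC i x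
    have hN : EntLe (NBm ℝ n d) (NBm ℝ n d) := by
      intro x y
      refine ⟨?_, le_refl _⟩
      simp only [NBm]; split_ifs <;> norm_num
    have hP : EntLe (π.Pact ℝ) (π.Pstar ℝ) := by
      intro x y
      simp only [Pact, Pstar]
      by_cases hx : π.Unres x
      · simp only [hx, if_true]
        refine ⟨le_refl _, ?_⟩
        split_ifs
        · positivity
        · exact le_refl _
      · simp only [hx, if_false]
        refine ⟨?_, le_refl _⟩
        split_ifs <;> norm_num
    exact (((hC.mul hP).mul ((hN.mul hP).pow j)).mul hCt) v w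

variable {K}

/-- `h M(h) = I - σ h A_e + h² (D_e - I)` -/
theorem smul_Mmat (σ h : K) (hh : h ≠ 0) :
    h • π.Mmat σ h = 1 - (σ * h) • π.Ae K + h ^ 2 • (π.De K - 1) := by
  have hDe : π.De K = (d : K) • 1 - π.Dcal K := rfl
  have e : h * zfun d h = 1 + h ^ 2 * ((d : K) - 1) := by
    rw [zfun]; field_simp
  rw [Mmat_eq, hDe, smul_sub, smul_sub, smul_smul, e]
  module

/-- the truncated generating-function identity (`L ≥ 2`) -/
theorem smul_Mmat_mul_sum (σ h : K) (hσ : σ ^ 2 = 1) (hh : h ≠ 0) (L : ℕ) :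
    (h • π.Mmat σ h) * ∑ j ∈ Finset.range (L + 2), (σ * h) ^ j • π.Qmat K j =
      (1 - h ^ 2) • 1 - (σ * h) ^ (L + 2) • π.Qmat K (L + 2)
        + (σ * h) ^ (L + 3) • ((π.De K - 1) * π.Qmat K (L + 1)) := by
  have hx : h ^ 2 = (σ * h) ^ 2 := by rw [mul_pow, hσ, one_mul]
  rw [smul_Mmat π σ h hh, hx]
  set x := σ * h
  induction L with
  | zero =>
    rw [Finset.sum_range_succ, Finset.sum_range_one, Qmat_zero, Qmat_one, Qmat_two]
    simp only [Matrix.add_mul, Matrix.sub_mul, Matrix.mul_add, Matrix.smul_mul, Matrix.mul_smul,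
      Matrix.one_mul, Matrix.mul_one, smul_smul, smul_sub, smul_add, pow_zero, pow_one, one_smul, zero_add]
    module
  | succ L ih =>
    rw [Finset.sum_range_succ, Matrix.mul_add, ih, Qmat_rec]
    simp only [Matrix.add_mul, Matrix.sub_mul, Matrix.smul_mul, Matrix.mul_smul,
      Matrix.one_mul, smul_smul, smul_sub, smul_add]
    module

/-- exact formula for the truncation error `E = W - P` -/
theorem Emat_eq (hn : 0 < n) (σ h : K) (hσ : σ ^ 2 = 1) (hh : h ≠ 0) (hh1 : h ^ 2 ≠ 1) (L : ℕ)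
    (hU : IsUnit (compN (π.Mmat σ h))) :
    π.Emat (L + 2) σ h = (1 - h ^ 2)⁻¹ • (π.Wmat σ h *
      ((σ * h) ^ (L + 2) • π.Qmat K (L + 2) - (σ * h) ^ (L + 3) • ((π.De K - 1) * π.Qmat K (L + 1)))
        * Pi1 K n) := by
  obtain ⟨hMR, hRM, hRJ, hJR, hRt⟩ := π.Mmat_mul_Rinv hn σ h hU
  have h1 : (1 - h ^ 2) ≠ 0 := fun e => hh1 (by linear_combination -e)
  have hm : mh h ≠ 0 := div_ne_zero hh h1
  have hW : π.Wmat σ h = (mh h)⁻¹ • π.Rinv σ h := rfl
  set S := ∑ j ∈ Finset.range (L + 2), (σ * h) ^ j • π.Qmat K j with hS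
  set Z := (σ * h) ^ (L + 2) • π.Qmat K (L + 2) - (σ * h) ^ (L + 3) • ((π.De K - 1) * π.Qmat K (L + 1)) with hZ
  have key : (h • π.Mmat σ h) * S = (1 - h ^ 2) • 1 - Z := by
    rw [hS, smul_Mmat_mul_sum π σ h hσ hh L, hZ]
    abel
  have hP : π.Pmat (L + 2) σ h = Pi1 K n * S * Pi1 K n := by
    rw [hS, Finset.mul_sum, Finset.sum_mul]
    have : π.Pmat (L + 2) σ h =
        ∑ j ∈ Finset.range (L + 2), (σ * h) ^ j • (Pi1 K n * π.Qmat K j * Pi1 K n) := rfl
    rw [this]
    refine Finset.sum_congr rfl fun j _ => ?_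
    rw [Matrix.mul_smul, Matrix.smul_mul]
  -- multiply `key` on the left by `W / (1 - h²)`
  have e1 : π.Wmat σ h * ((h • π.Mmat σ h) * S) = (1 - h ^ 2) • (Pi1 K n * S) := by
    rw [← Matrix.mul_assoc, Matrix.mul_smul, hW, Matrix.smul_mul (mh h)⁻¹ (π.Rinv σ h) (π.Mmat σ h), hRM, smul_smul, Matrix.smul_mul]
    congr 1
    rw [mh]; field_simp
  rw [key, Matrix.mul_sub, Matrix.mul_smul, Matrix.mul_one] at e1
  have e2 : Pi1 K n * S = π.Wmat σ h - (1 - h ^ 2)⁻¹ • (π.Wmat σ h * Z) := by
    have := congrArg (fun X => (1 - h ^ 2)⁻¹ • X) e1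
    simp only [smul_sub, smul_smul, inv_mul_cancel₀ h1, one_smul] at this
    exact this.symm
  have hWP : π.Wmat σ h * Pi1 K n = π.Wmat σ h := by
    rw [Pi1, Matrix.mul_sub, Matrix.mul_one, hW, Matrix.smul_mul, hRJ, smul_zero, sub_zero]
  rw [Emat, hP, e2, Matrix.sub_mul, hWP, Matrix.smul_mul, sub_sub_cancel]

end C

end PPair

end Claimed.Agent.R275
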