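import Claimed.Agent.R275.L41B

/-!
# Row 275, package L41D: one exposure, Woodbury, inertia, (4.2)

Paper: `foundations.tex` lines 19-190 (Lemma 4.1 `lemma:configuration-algebra`, (4.2)).  Statements by helper208; all matrix identities
were checked with exact rational arithmetic on random partial pairings (n = 6, d = 3) against `Defs.lean`.
Finite-dimensional algebra over a field of characteristic zero; no analysis.  ONE OWNER PER FILE (see table subtask).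
Proofs: helper153.
-/

set_option autoImplicit false
set_option linter.unusedSectionVars false

namespace Claimed.Agent.R275

open Matrix

/-- nonnegativity on `1^⊥` -/
theorem PosOn1.nonneg {n : ℕ} {M : Matrix (Fin n) (Fin n) ℝ} (hpos : PosOn1 M) (v : Fin n → ℝ)
    (hv : ∑ i, v i = 0) : 0 ≤ v ⬝ᵥ (M *ᵥ v) := by
  by_cases h0 : v = 0
  · subst h0; simp
  · exact (hpos v hv h0).le

/-- Cauchy-Schwarz for a symmetric form that is positive on `1^⊥` -/
theorem PosOn1.cauchy {n : ℕ} {M : Matrix (Fin n) (Fin n) ℝ} (hpos : PosOn1 M) (hMt : Mᵀ = M)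
    (x y : Fin n → ℝ) (hx : ∑ i, x i = 0) (hy : ∑ i, y i = 0) :
    (x ⬝ᵥ (M *ᵥ y)) ^ 2 ≤ (x ⬝ᵥ (M *ᵥ x)) * (y ⬝ᵥ (M *ᵥ y)) := by
  by_cases h0 : y = 0
  · subst h0; simp
  have hyy := hpos y hy h0
  have hsymm : y ⬝ᵥ (M *ᵥ x) = x ⬝ᵥ (M *ᵥ y) := by
    rw [Matrix.dotProduct_mulVec, ← Matrix.mulVec_transpose, hMt, dotProduct_comm]
  set a := x ⬝ᵥ (M *ᵥ x)
  set b := x ⬝ᵥ (M *ᵥ y)
  set c := y ⬝ᵥ (M *ᵥ y)
  have hw := hpos.nonneg (c • x - b • y) (by
    simp only [Pi.sub_apply, Pi.smul_apply, smul_eq_mul, Finset.sum_sub_distrib, ← Finset.mul_sum, hx, hy]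
    ring)
  have e : (c • x - b • y) ⬝ᵥ (M *ᵥ (c • x - b • y)) = c * (a * c - b ^ 2) := by
    rw [Matrix.mulVec_sub, Matrix.mulVec_smul, Matrix.mulVec_smul]
    simp only [sub_dotProduct, dotProduct_sub, smul_dotProduct, dotProduct_smul, smul_eq_mul, hsymm]
    ring
  rw [e] at hw
  have := nonneg_of_mul_nonneg_right hw hyy
  linarith

/-- a negative rank one perturbation `M - c q qᵀ` stays positive while `c qᵀ M⁻¹ q < 1` -/
theorem PosOn1.sub_rank_one {n : ℕ} {M : Matrix (Fin n) (Fin n) ℝ} (hpos : PosOn1 M) (hMt : Mᵀ = M)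
    (q r : Fin n → ℝ) (hr : ∑ i, r i = 0) (hMr : M *ᵥ r = q) (c : ℝ) (hc : 0 ≤ c)
    (hcq : c * (q ⬝ᵥ r) < 1) (v : Fin n → ℝ) (hv : ∑ i, v i = 0) (hv0 : v ≠ 0) :
    0 < v ⬝ᵥ (M *ᵥ v) - c * (q ⬝ᵥ v) ^ 2 := by
  have h1 := hpos.cauchy hMt v r hv hr
  rw [hMr, dotProduct_comm v q, dotProduct_comm r q] at h1
  have h2 := hpos v hv hv0
  have h3 : c * (q ⬝ᵥ v) ^ 2 ≤ c * ((v ⬝ᵥ (M *ᵥ v)) * (q ⬝ᵥ r)) := mul_le_mul_of_nonneg_left h1 hc
  have h4 : 0 < (v ⬝ᵥ (M *ᵥ v)) * (1 - c * (q ⬝ᵥ r)) := mul_pos h2 (by linarith)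
  nlinarith

theorem det_aux (a x d00 d01 d10 d11 : ℝ) (ha : 1 < a) (hx0 : 0 ≤ x) (hx : x ≤ a / 4)
    (h00 : |d00| ≤ 1 / 8) (h01 : |d01| ≤ 1 / 8) (h10 : |d10| ≤ 1 / 8) (h11 : |d11| ≤ 1 / 8) :
    (x + d00) * (x + d11) - (-(a - x) + d01) * (-(a - x) + d10) < 0 := by
  rw [abs_le] at h00 h01 h10 h11
  have p1 : |x + d00| ≤ a / 4 + 1 / 8 := by rw [abs_le]; constructor <;> linarith [h00.1, h00.2]
  have p2 : |x + d11| ≤ a / 4 + 1 / 8 := by rw [abs_le]; constructor <;> linarith [h11.1, h11.2]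
  have p3 : (x + d00) * (x + d11) ≤ (a / 4 + 1 / 8) * (a / 4 + 1 / 8) := by
    calc (x + d00) * (x + d11) ≤ |(x + d00) * (x + d11)| := le_abs_self _
      _ = |x + d00| * |x + d11| := abs_mul _ _
      _ ≤ _ := mul_le_mul p1 p2 (abs_nonneg _) (by linarith)
  have q1 : 3 * a / 4 - 1 / 8 ≤ (a - x) - d01 := by linarith [h01.2]
  have q2 : 3 * a / 4 - 1 / 8 ≤ (a - x) - d10 := by linarith [h10.2]
  have q3 : (3 * a / 4 - 1 / 8) * (3 * a / 4 - 1 / 8) ≤ ((a - x) - d01) * ((a - x) - d10) :=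
    mul_le_mul q1 q2 (by linarith) (by linarith)
  nlinarith

namespace PPair

variable {n d : ℕ} (π : PPair n d)

/-! ## (D) one exposure -/

section D

variable (K : Type*) [Field K] [CharZero K]

theorem l_sub_two_ne {l : ℕ} (hl : 2 < l) : ((l : K) - 2) ≠ 0 := by
  have : ((l - 2 : ℕ) : K) ≠ 0 := Nat.cast_ne_zero.2 (by omega)
  rwa [Nat.cast_sub hl.le, Nat.cast_ofNat] at this

theorem l_ne_zero' {l : ℕ} (hl : 2 < l) : (l : K) ≠ 0 := Nat.cast_ne_zero.2 (by omega)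

theorem G0_mul_B2 {l : ℕ} (hl : 2 < l) : G0 K l * B2 K l = 1 := by
  have h1 := l_sub_two_ne K hl
  have h2 := l_ne_zero' K hl
  ext i j
  fin_cases i <;> fin_cases j <;>
    simp [G0, B2, J2, Matrix.mul_apply, Fin.sum_univ_two, Matrix.one_apply] <;> field_simp <;> ring

theorem B2_mul_G0 {l : ℕ} (hl : 2 < l) : B2 K l * G0 K l = 1 := by
  have h1 := l_sub_two_ne K hl
  have h2 := l_ne_zero' K hl
  ext i j
  fin_cases i <;> fin_cases j <;>
    simp [G0, B2, J2, Matrix.mul_apply, Fin.sum_univ_two, Matrix.one_apply] <;> field_simp <;> ring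

theorem F2_mul_F2 : F2 K * F2 K = 1 := by
  ext i j
  fin_cases i <;> fin_cases j <;>
    simp [F2, Matrix.mul_apply, Fin.sum_univ_two]

/-- entries of `U X Uᵀ` -/
theorem Upair_mul_apply (X : Matrix (Fin 2) (Fin 2) K) (u v : Stub n d) (a b : Fin n) :
    (π.Upair K u v * X * (π.Upair K u v)ᵀ) a b =
      π.xi K u a * X 0 0 * π.xi K u b + π.xi K u a * X 0 1 * π.xi K v b
        + π.xi K v a * X 1 0 * π.xi K u b + π.xi K v a * X 1 1 * π.xi K v b := by
  simp [Matrix.mul_apply, Fin.sum_univ_two, Upair]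
  ring

variable {π} in
theorem resolve_tcount_cast {u v : Stub n d} (hu : π.Unres u) (hv : π.Unres v) (huv : u ≠ v) (w : Fin n) :
    ((π.resolve u v).tcount w : K) =
      (π.tcount w : K) - (if u.1 = w then 1 else 0) - (if v.1 = w then 1 else 0) := by
  have := resolve_tcount hu hv huv w
  rw [← this]
  push_cast
  ring

variable {π} in
theorem resolve_l_cast {u v : Stub n d} (hu : π.Unres u) (hv : π.Unres v) (huv : u ≠ v) :
    ((π.resolve u v).l : K) = (π.l : K) - 2 := by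
  have := resolve_l hu hv huv
  rw [← this]
  push_cast
  ring

theorem Dcal_resolve_aux (ta tb eua eub eva evb δ l : K) (h2 : l ≠ 0) (h1 : l - 2 ≠ 0)
    (k1 : eua * δ = eua * eub) (k2 : eva * δ = eva * evb) :
    (ta - eua - eva) * δ - (l - 2)⁻¹ * ((ta - eua - eva) * (tb - eub - evb)) =
      ta * δ - l⁻¹ * (ta * tb) -
        ((eua - ta / l) * (1 + (l - 2)⁻¹ * 1) * (eub - tb / l) + (eua - ta / l) * (0 + (l - 2)⁻¹ * 1) * (evb - tb / l)
          + (eva - ta / l) * (0 + (l - 2)⁻¹ * 1) * (eub - tb / l)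
          + (eva - ta / l) * (1 + (l - 2)⁻¹ * 1) * (evb - tb / l)) := by
  have : (ta - eua - eva) * δ - (l - 2)⁻¹ * ((ta - eua - eva) * (tb - eub - evb)) -
      (ta * δ - l⁻¹ * (ta * tb) -
        ((eua - ta / l) * (1 + (l - 2)⁻¹ * 1) * (eub - tb / l) + (eua - ta / l) * (0 + (l - 2)⁻¹ * 1) * (evb - tb / l)
          + (eva - ta / l) * (0 + (l - 2)⁻¹ * 1) * (eub - tb / l)
          + (eva - ta / l) * (1 + (l - 2)⁻¹ * 1) * (evb - tb / l))) =
      -(eua * δ) - eva * δ + eua * eub + eva * evb := by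
    field_simp
    ring
  linear_combination this - k1 - k2

theorem ite_mul_delta (w a b : Fin n) :
    (if w = a then (1 : K) else 0) * (if a = b then 1 else 0) = (if w = a then 1 else 0) * (if w = b then 1 else 0) := by
  by_cases h1 : w = a
  · subst h1; simp
  · simp [h1]

variable {π} in
theorem Dcal_resolve {u v : Stub n d} (hu : π.Unres u) (hv : π.Unres v) (huv : u ≠ v) (hl : 2 < π.l) :
    (π.resolve u v).Dcal K = π.Dcal K - π.Upair K u v * B2 K π.l * (π.Upair K u v)ᵀ := by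
  have h1 := l_sub_two_ne K hl
  have h2 := l_ne_zero' K hl
  ext a b
  rw [Matrix.sub_apply, Upair_mul_apply, Dcal_eq, Dcal_eq]
  have hd : ∀ t : Fin n → K, (diagonal t) a b = t a * (if a = b then 1 else 0) := by
    intro t
    by_cases hab : a = b
    · subst hab; simp
    · simp [hab]
  simp only [xi_apply, Matrix.sub_apply, Matrix.smul_apply, vecMulVec_apply, hd, tvec, smul_eq_mul,
    resolve_tcount_cast K hu hv huv, resolve_l_cast K hu hv huv, B2, J2, Matrix.add_apply,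
    Matrix.one_apply]
  exact Dcal_resolve_aux K _ _ _ _ _ _ _ _ h2 h1 (ite_mul_delta K _ _ _) (ite_mul_delta K _ _ _)

variable {π} in
theorem resolve_acount_cast {u v : Stub n d} (hu : π.Unres u) (hv : π.Unres v) (huv : u ≠ v) (a b : Fin n) :
    ((π.resolve u v).acount a b : K) =
      (π.acount a b : K) + (if u.1 = a then 1 else 0) * (if v.1 = b then 1 else 0)
        + (if v.1 = a then 1 else 0) * (if u.1 = b then 1 else 0) := by
  rw [resolve_acount hu hv huv a b]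
  push_cast
  congr 1
  · congr 1
    by_cases h1 : u.1 = a <;> by_cases h2 : v.1 = b <;> simp [h1, h2]
  · by_cases h1 : v.1 = a <;> by_cases h2 : u.1 = b <;> simp [h1, h2]

theorem F2_mul_B2 (l : ℕ) : F2 K * B2 K l = F2 K + ((l : K) - 2)⁻¹ • J2 K := by
  ext i j
  fin_cases i <;> fin_cases j <;> simp [F2, B2, J2, Matrix.mul_apply, Fin.sum_univ_two, Matrix.one_apply]

variable {π} in
theorem Ae_resolve {u v : Stub n d} (hu : π.Unres u) (hv : π.Unres v) (huv : u ≠ v) (hl : 2 < π.l) :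
    (π.resolve u v).Ae K = π.Ae K + π.Upair K u v * (F2 K * B2 K π.l) * (π.Upair K u v)ᵀ := by
  have h1 := l_sub_two_ne K hl
  have h2 := l_ne_zero' K hl
  ext a b
  rw [Matrix.add_apply, Upair_mul_apply, Ae_eq, Ae_eq, F2_mul_B2]
  simp only [xi_apply, Matrix.smul_apply, vecMulVec_apply, tvec, adjM, smul_eq_mul,
    resolve_tcount_cast K hu hv huv, resolve_l_cast K hu hv huv, resolve_acount_cast K hu hv huv,
    F2, J2, Matrix.add_apply]
  simp only [Fin.isValue, ↓reduceIte, zero_ne_one, one_ne_zero]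
  field_simp
  ring

variable {K}


/-- `H_0⁻¹ = -(σ / h) G_0 F` -/
theorem H0_inv {l : ℕ} (hl : 2 < l) (σ h : K) (hσ : σ ^ 2 = 1) (hh : h ≠ 0) :
    (H0 l σ h)⁻¹ = -(σ * h⁻¹) • (G0 K l * F2 K) ∧ IsUnit (H0 l σ h) := by
  have key : H0 l σ h * (-(σ * h⁻¹) • (G0 K l * F2 K)) = 1 := by
    rw [H0, Matrix.smul_mul, Matrix.mul_smul, smul_smul, Matrix.mul_assoc, ← Matrix.mul_assoc (B2 K l),
      B2_mul_G0 K hl, Matrix.one_mul, F2_mul_F2]
    have : -(σ * h) * -(σ * h⁻¹) = 1 := by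
      field_simp
      linear_combination hσ
    rw [this, one_smul]
  exact ⟨Matrix.inv_eq_right_inv key, (Matrix.isUnit_iff_isUnit_det _).2 (Matrix.isUnit_det_of_right_inverse key)⟩

theorem woodbury_coeff_aux {l : ℕ} (hl : 2 < l) (σ h : K) (hσ : σ ^ 2 = 1) (hh : h ≠ 0) (hh1 : h ^ 2 ≠ 1) :
    (mh h • ((h • 1 - σ • F2 K) * B2 K l)) * (-(G0 K l) - (σ * h⁻¹) • (G0 K l * F2 K)) = 1 := by
  have h1 : (1 - h ^ 2) ≠ 0 := fun e => hh1 (by linear_combination -e)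
  have e1 : -(G0 K l) - (σ * h⁻¹) • (G0 K l * F2 K) = G0 K l * ((-h⁻¹) • (h • 1 + σ • F2 K)) := by
    rw [Matrix.mul_smul, Matrix.mul_add, Matrix.mul_smul, Matrix.mul_smul, Matrix.mul_one, smul_add, smul_smul,
      smul_smul]
    have : -h⁻¹ * h = -1 := by field_simp
    rw [this, neg_smul, one_smul, sub_eq_add_neg, ← neg_smul]
    congr 2
    ring
  rw [e1, Matrix.smul_mul, Matrix.mul_assoc, ← Matrix.mul_assoc (B2 K l), B2_mul_G0 K hl, Matrix.one_mul,
    Matrix.mul_smul, smul_smul]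
  have e2 : (h • (1 : Matrix (Fin 2) (Fin 2) K) - σ • F2 K) * (h • 1 + σ • F2 K) = (h ^ 2 - 1) • 1 := by
    rw [Matrix.sub_mul, Matrix.mul_add, Matrix.mul_add]
    simp only [Matrix.smul_mul, Matrix.mul_smul, Matrix.one_mul, Matrix.mul_one, F2_mul_F2, smul_smul]
    rw [← pow_two σ, hσ]
    module
  rw [e2, smul_smul]
  have : mh h * -h⁻¹ * (h ^ 2 - 1) = 1 := by
    rw [mh]; field_simp; ring
  rw [this, one_smul]

/-- `[m_h (h I - σ F) B]⁻¹ + G_0 = H_0⁻¹` -/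
theorem woodbury_coeff {l : ℕ} (hl : 2 < l) (σ h : K) (hσ : σ ^ 2 = 1) (hh : h ≠ 0) (hh1 : h ^ 2 ≠ 1) :
    (mh h • ((h • 1 - σ • F2 K) * B2 K l))⁻¹ + G0 K l = (H0 l σ h)⁻¹ := by
  rw [Matrix.inv_eq_right_inv (woodbury_coeff_aux hl σ h hσ hh hh1), (H0_inv hl σ h hσ hh).1, neg_smul]
  abel



variable {π} in
theorem Mmat_resolve {u v : Stub n d} (hu : π.Unres u) (hv : π.Unres v) (huv : u ≠ v) (hl : 2 < π.l)
    (σ h : K) :
    (π.resolve u v).Mmat σ h =
      π.Mmat σ h + π.Upair K u v * ((h • 1 - σ • F2 K) * B2 K π.l) * (π.Upair K u v)ᵀ := by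
  rw [Mmat_eq, Mmat_eq, Dcal_resolve K hu hv huv hl, Ae_resolve K hu hv huv hl, Matrix.sub_mul, Matrix.mul_sub,
    Matrix.sub_mul, Matrix.smul_mul, Matrix.smul_mul, Matrix.one_mul, Matrix.mul_smul, Matrix.mul_smul,
    Matrix.smul_mul, Matrix.smul_mul, smul_add, smul_sub]
  abel


/-- abstract Woodbury identity relative to a projection `P` -/
theorem woodbury_general {ι κ : Type*} [Fintype ι] [Fintype κ] [DecidableEq ι] [DecidableEq κ]
    (M R P : Matrix ι ι K) (U : Matrix ι κ K) (C X H : Matrix κ κ K)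
    (hMR : M * R = P) (hPU : P * U = U) (hCX : C * X = 1) (hTH : (X + Uᵀ * R * U) * H = 1) :
    (M + U * C * Uᵀ) * (R - R * U * H * Uᵀ * R) = P := by
  have e1 : C * (Uᵀ * R * U) * H = C - H := by
    have : C * ((X + Uᵀ * R * U) * H) = C := by rw [hTH, Matrix.mul_one]
    rw [Matrix.add_mul, Matrix.mul_add, ← Matrix.mul_assoc, hCX, Matrix.one_mul, ← Matrix.mul_assoc] at this
    exact eq_sub_of_add_eq' this
  have e2 : M * (R * U * H * Uᵀ * R) = U * H * Uᵀ * R := by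
    simp only [← Matrix.mul_assoc]
    rw [hMR, hPU]
  have e3 : U * C * Uᵀ * (R * U * H * Uᵀ * R) = U * (C * (Uᵀ * R * U) * H) * Uᵀ * R := by
    simp only [Matrix.mul_assoc]
  rw [Matrix.add_mul, Matrix.mul_sub, Matrix.mul_sub, hMR, e2, e3, e1, Matrix.mul_sub, Matrix.sub_mul, Matrix.sub_mul]
  abel

theorem J1_mul_Upair (hl : 0 < π.l) (u v : Stub n d) : J1 K n * π.Upair K u v = 0 := by
  ext a i
  simp only [Matrix.mul_apply, J1, Upair, Matrix.zero_apply, ← Finset.mul_sum]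
  by_cases hi : i = 0
  · simp only [hi, if_true, sum_xi_apply π K hl, mul_zero]
  · simp only [hi, if_false, sum_xi_apply π K hl, mul_zero]

theorem Pi1_mul_Upair (hl : 0 < π.l) (u v : Stub n d) : Pi1 K n * π.Upair K u v = π.Upair K u v := by
  rw [Pi1, Matrix.sub_mul, Matrix.one_mul, J1_mul_Upair π hl, sub_zero]

theorem Wmat_eq_smul (σ h : K) : π.Wmat σ h = (mh h)⁻¹ • π.Rinv σ h := rfl

theorem mh_ne_zero {h : K} (hh : h ≠ 0) (hh1 : h ^ 2 ≠ 1) : mh h ≠ 0 := by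
  have h1 : (1 - h ^ 2) ≠ 0 := fun e => hh1 (by linear_combination -e)
  exact div_ne_zero hh h1

variable {π} in
/-- the inverse update `W' = W - W U H Uᵀ W` -/
theorem Wmat_resolve (hn : 0 < n) {u v : Stub n d} (hu : π.Unres u) (hv : π.Unres v) (huv : u ≠ v)
    (hl : 2 < π.l) (σ h : K) (hσ : σ ^ 2 = 1) (hh : h ≠ 0) (hh1 : h ^ 2 ≠ 1)
    (hU : IsUnit (compN (π.Mmat σ h)))
    (hH : IsUnit ((H0 π.l σ h)⁻¹ + π.Dp σ h u v)) :
    IsUnit (compN ((π.resolve u v).Mmat σ h)) ∧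
    (π.resolve u v).Wmat σ h =
      π.Wmat σ h - π.Wmat σ h * π.Upair K u v * π.Hp σ h u v * (π.Upair K u v)ᵀ * π.Wmat σ h := by
  obtain ⟨hMR, hRM, hRJ, hJR, hRt⟩ := π.Mmat_mul_Rinv hn σ h hU
  have hm := mh_ne_zero hh hh1
  set U := π.Upair K u v with hUdef
  set W := π.Wmat σ h with hW
  set C := mh h • ((h • 1 - σ • F2 K) * B2 K π.l) with hC
  have hT : (H0 π.l σ h)⁻¹ + π.Dp σ h u v = C⁻¹ + Uᵀ * W * U := by
    rw [← woodbury_coeff hl σ h hσ hh hh1, Dp, blk]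
    abel
  have hTH : (C⁻¹ + Uᵀ * W * U) * π.Hp σ h u v = 1 := by
    rw [Hp, hT]
    rw [hT] at hH
    exact Matrix.mul_nonsing_inv _ ((Matrix.isUnit_iff_isUnit_det _).1 hH)
  have hCX : C * C⁻¹ = 1 := by
    rw [Matrix.inv_eq_right_inv (woodbury_coeff_aux hl σ h hσ hh hh1)]
    exact woodbury_coeff_aux hl σ h hσ hh hh1
  have hMW : (mh h • π.Mmat σ h) * W = Pi1 K n := by
    rw [hW, Wmat_eq_smul, Matrix.smul_mul, Matrix.mul_smul, smul_smul, mul_inv_cancel₀ hm, one_smul, hMR]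
  have key := woodbury_general (mh h • π.Mmat σ h) W (Pi1 K n) U C C⁻¹ (π.Hp σ h u v) hMW
    (Pi1_mul_Upair π (by omega) u v) hCX hTH
  have hM' : mh h • (π.resolve u v).Mmat σ h = mh h • π.Mmat σ h + U * C * Uᵀ := by
    rw [Mmat_resolve hu hv huv hl, smul_add, hC, Matrix.mul_smul, Matrix.smul_mul]
  have hJW : J1 K n * W = 0 := by
    rw [hW, Wmat_eq_smul, Matrix.mul_smul, hJR, smul_zero]
  obtain ⟨h1, h2⟩ := (π.resolve u v).Rinv_unique hn σ h (mh h • (W - W * U * π.Hp σ h u v * Uᵀ * W))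
    (by rw [Matrix.mul_smul, ← Matrix.smul_mul, hM', key])
    (by
      rw [Matrix.mul_smul, Matrix.mul_sub]
      simp only [← Matrix.mul_assoc, hJW, Matrix.zero_mul, sub_zero, smul_zero])
  refine ⟨h1, ?_⟩
  rw [Wmat_eq_smul, h2, smul_smul, inv_mul_cancel₀ hm, one_smul]

variable {π} in
/-- error increment before recentring: `ΔE = -(W U H Uᵀ W - P U H_P Uᵀ P) - 𝓡_P`  (cleanup.tex l. 310) -/
theorem Emat_resolve (hn : 0 < n) {u v : Stub n d} (hu : π.Unres u) (hv : π.Unres v) (huv : u ≠ v)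
    (hl : 2 < π.l) (L : ℕ) (σ h : K) (hσ : σ ^ 2 = 1) (hh : h ≠ 0) (hh1 : h ^ 2 ≠ 1)
    (hU : IsUnit (compN (π.Mmat σ h)))
    (hH : IsUnit ((H0 π.l σ h)⁻¹ + π.Dp σ h u v)) :
    (π.resolve u v).Emat L σ h = π.Emat L σ h
      - (π.Wmat σ h * π.Upair K u v * π.Hp σ h u v * (π.Upair K u v)ᵀ * π.Wmat σ h
        - π.Pmat L σ h * π.Upair K u v * π.HP L σ h u v * (π.Upair K u v)ᵀ * π.Pmat L σ h)
      - π.tailR L σ h u v := by
  rw [Emat, (Wmat_resolve hn hu hv huv hl σ h hσ hh hh1 hU hH).2, Emat, tailR]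
  abel

end D

/-! ## (E) preservation of positivity (two-dimensional inertia argument) -/

section E

variable {K : Type*} [Field K]

theorem Upair_transpose_mulVec (u v : Stub n d) (w : Fin n → K) :
    (π.Upair K u v)ᵀ *ᵥ w = ![π.xi K u ⬝ᵥ w, π.xi K v ⬝ᵥ w] := by
  ext i
  fin_cases i <;> simp [Matrix.mulVec, dotProduct, Upair]

/-- the quadratic form of `U X Uᵀ` -/
theorem quad_Upair (X : Matrix (Fin 2) (Fin 2) K) (u v : Stub n d) (w : Fin n → K) :
    w ⬝ᵥ ((π.Upair K u v * X * (π.Upair K u v)ᵀ) *ᵥ w) =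
      (π.xi K u ⬝ᵥ w) * X 0 0 * (π.xi K u ⬝ᵥ w) + (π.xi K u ⬝ᵥ w) * X 0 1 * (π.xi K v ⬝ᵥ w)
        + (π.xi K v ⬝ᵥ w) * X 1 0 * (π.xi K u ⬝ᵥ w) + (π.xi K v ⬝ᵥ w) * X 1 1 * (π.xi K v ⬝ᵥ w) := by
  rw [← Matrix.mulVec_mulVec, ← Matrix.mulVec_mulVec, Matrix.dotProduct_mulVec, ← Matrix.mulVec_transpose,
    Upair_transpose_mulVec]
  simp [dotProduct, Matrix.mulVec, Fin.sum_univ_two]
  ring

theorem blk_apply (X : Matrix (Fin n) (Fin n) K) (u v : Stub n d) (i j : Fin 2) :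
    π.blk X u v i j = (if i = 0 then π.xi K u else π.xi K v) ⬝ᵥ (X *ᵥ (if j = 0 then π.xi K u else π.xi K v)) := by
  rw [Matrix.dotProduct_mulVec, blk, Matrix.mul_apply, dotProduct]
  refine Finset.sum_congr rfl fun b _ => ?_
  congr 1
  · rw [Matrix.mul_apply, Matrix.vecMul, dotProduct]
    refine Finset.sum_congr rfl fun a _ => ?_
    congr 1
    simp only [Matrix.transpose_apply, Upair]
    split_ifs <;> rfl
  · simp only [Upair]
    split_ifs <;> rfl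

end E

theorem posOn1_num1 (h l s : ℝ) (hh : 0 < h) (hh1 : h < 1) (hl : 4 ≤ l) (hs : s ≤ 1 / 2) :
    (1 - h) * (1 / 2 + (l - 2)⁻¹) * (mh h * (2 - 4 * l⁻¹ + s)) < 1 := by
  have h1 : 0 < 1 - h := by linarith
  have h2 : 0 < 1 + h := by linarith
  have h3 : 0 < l - 2 := by linarith
  have h4 : 0 < l := by linarith
  have e : (1 - h) * (1 / 2 + (l - 2)⁻¹) * (mh h * (2 - 4 * l⁻¹ + s)) =
      h / (1 + h) * (1 + l / (2 * (l - 2)) * s) := by
    have : 1 - h ^ 2 = (1 - h) * (1 + h) := by ring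
    rw [mh, this]
    field_simp
    ring
  rw [e]
  have h5 : l / (2 * (l - 2)) ≤ 1 := by
    rw [div_le_one (by linarith)]; linarith
  have h6 : 0 < l / (2 * (l - 2)) := by positivity
  have h7 : l / (2 * (l - 2)) * s ≤ 1 / 2 := by nlinarith
  have h8 : h / (1 + h) * (1 + l / (2 * (l - 2)) * s) ≤ h / (1 + h) * (3 / 2) :=
    mul_le_mul_of_nonneg_left (by linarith) (by positivity)
  have h9 : h / (1 + h) * (3 / 2) < 1 := by
    rw [div_mul_eq_mul_div, div_lt_one h2]; linarith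
  linarith

theorem posOn1_num2 (h s : ℝ) (hh : 0 < h) (hh1 : h < 1) (hs : s ≤ 1 / 2) :
    (1 - h) / 2 * (mh h * (2 + s)) < 1 := by
  have h1 : 0 < 1 - h := by linarith
  have h2 : 0 < 1 + h := by linarith
  have e : (1 - h) / 2 * (mh h * (2 + s)) = h / (1 + h) * (1 + s / 2) := by
    have : 1 - h ^ 2 = (1 - h) * (1 + h) := by ring
    rw [mh, this]
    field_simp
  rw [e]
  have h8 : h / (1 + h) * (1 + s / 2) ≤ h / (1 + h) * (3 / 2) :=
    mul_le_mul_of_nonneg_left (by linarith) (by positivity)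
  have h9 : h / (1 + h) * (3 / 2) < 1 := by
    rw [div_mul_eq_mul_div, div_lt_one h2]; linarith
  linarith

variable {π} in
/-- If `M > 0` on `1^⊥` and the endpoint block error is small then `M' > 0`, and `H_0⁻¹ + D_p` is invertible.
(`H_0⁻¹ = -(σ/h) G_0 F` has eigenvalues `σ/h` and `-(σ/h)(1 - 2/l)`; Schur complements of `[[M, U], [Uᵀ, -K⁻¹]]`.) -/
theorem posOn1_resolve (hn : 0 < n) {u v : Stub n d} (hu : π.Unres u) (hv : π.Unres v) (huv : u ≠ v)
    (hl : 4 ≤ π.l) (σ h : ℝ) (hσ : σ ^ 2 = 1) (hh : 0 < h) (hh1 : h < 1)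
    (hpos : PosOn1 (π.Mmat σ h)) (hD : ∀ i j, |π.Dp σ h u v i j| ≤ 1 / 8) :
    PosOn1 ((π.resolve u v).Mmat σ h) ∧ IsUnit ((H0 π.l σ h)⁻¹ + π.Dp σ h u v) := by
  have hl2 : 2 < π.l := by omega
  have hlR : (4 : ℝ) ≤ (π.l : ℝ) := by exact_mod_cast hl
  have hσ' : σ = 1 ∨ σ = -1 := by
    have : (σ - 1) * (σ + 1) = 0 := by linear_combination hσ
    rcases mul_eq_zero.1 this with e | e
    · left; linarith
    · right; linarith
  constructor
  · obtain ⟨hU, -⟩ := π.isUnit_of_posOn1 hn σ h hpos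
    obtain ⟨hMR, hRM, hRJ, hJR, hRt⟩ := π.Mmat_mul_Rinv hn σ h hU
    have hMt := π.Mmat_transpose σ h
    have hm : mh h ≠ 0 := mh_ne_zero hh.ne' (by nlinarith)
    have hnR : (n : ℝ) ≠ 0 := Nat.cast_ne_zero.2 hn.ne'
    have hq : ∀ q : Fin n → ℝ, ∑ i, q i = 0 →
        (∑ i, (π.Rinv σ h *ᵥ q) i = 0) ∧ π.Mmat σ h *ᵥ (π.Rinv σ h *ᵥ q) = q := by
      intro q hq0
      constructor
      · have e1 : (J1 ℝ n * π.Rinv σ h) *ᵥ q = 0 := by rw [hJR, Matrix.zero_mulVec]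
        rw [← Matrix.mulVec_mulVec] at e1
        have e2 := congrFun e1 ⟨0, hn⟩
        simp only [Matrix.mulVec, dotProduct, J1, ← Finset.mul_sum, Pi.zero_apply] at e2
        rcases mul_eq_zero.1 e2 with e3 | e3
        · exact absurd e3 (inv_ne_zero hnR)
        · exact e3
      · rw [Matrix.mulVec_mulVec, hMR, Pi1, Matrix.sub_mulVec, Matrix.one_mulVec]
        have : J1 ℝ n *ᵥ q = 0 := by
          ext i
          simp only [Matrix.mulVec, dotProduct, J1, ← Finset.mul_sum, hq0, mul_zero, Pi.zero_apply]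
        rw [this, sub_zero]
    have hR : π.Rinv σ h = mh h • π.Wmat σ h := by
      rw [Wmat_eq_smul, smul_smul, mul_inv_cancel₀ hm, one_smul]
    have hDp : ∀ i j, π.Dp σ h u v i j = (if i = 0 then π.xi ℝ u else π.xi ℝ v) ⬝ᵥ
        (π.Wmat σ h *ᵥ (if j = 0 then π.xi ℝ u else π.xi ℝ v)) - G0 ℝ π.l i j := by
      intro i j
      rw [Dp, Matrix.sub_apply, blk_apply]
    have d00 := hDp 0 0
    have d01 := hDp 0 1
    have d10 := hDp 1 0
    have d11 := hDp 1 1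
    simp only [G0, J2, Matrix.sub_apply, Matrix.one_apply, Matrix.smul_apply, smul_eq_mul, Fin.isValue, ↓reduceIte,
      zero_ne_one, one_ne_zero, mul_one] at d00 d01 d10 d11
    have b00 := abs_le.1 (hD 0 0)
    have b01 := abs_le.1 (hD 0 1)
    have b10 := abs_le.1 (hD 1 0)
    have b11 := abs_le.1 (hD 1 1)
    have su := sum_xi_apply π ℝ (by omega : 0 < π.l) u
    have sv := sum_xi_apply π ℝ (by omega : 0 < π.l) v
    have hβ : 0 < ((π.l : ℝ) - 2)⁻¹ := inv_pos.2 (by linarith)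
    intro w hw hw0
    rw [Mmat_resolve hu hv huv hl2, Matrix.add_mulVec, dotProduct_add, quad_Upair]
    simp only [Matrix.mul_apply, Fin.sum_univ_two, B2, F2, J2, Matrix.sub_apply, Matrix.add_apply,
      Matrix.one_apply, Matrix.smul_apply, smul_eq_mul]
    simp only [Fin.isValue, ↓reduceIte, zero_ne_one, one_ne_zero]
    set a := π.xi ℝ u ⬝ᵥ w
    set b := π.xi ℝ v ⬝ᵥ w
    set β := ((π.l : ℝ) - 2)⁻¹
    rcases hσ' with rfl | rfl
    · have hs : ∑ i, (π.xi ℝ u + π.xi ℝ v) i = 0 := by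
        simp only [Pi.add_apply, Finset.sum_add_distrib, su, sv, add_zero]
      obtain ⟨hr, hMr⟩ := hq _ hs
      have hqr : (π.xi ℝ u + π.xi ℝ v) ⬝ᵥ (π.Rinv 1 h *ᵥ (π.xi ℝ u + π.xi ℝ v)) =
          mh h * (2 - 4 * (π.l : ℝ)⁻¹ + (π.Dp 1 h u v 0 0 + π.Dp 1 h u v 0 1 + π.Dp 1 h u v 1 0
            + π.Dp 1 h u v 1 1)) := by
        rw [hR, Matrix.smul_mulVec, dotProduct_smul, Matrix.mulVec_add, add_dotProduct, dotProduct_add,
          dotProduct_add, d00, d01, d10, d11, smul_eq_mul]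
        ring
      have key := hpos.sub_rank_one hMt _ _ hr hMr ((1 - h) * (1 / 2 + β))
        (mul_nonneg (by linarith) (by positivity))
        (by rw [hqr]; exact posOn1_num1 h _ _ hh hh1 hlR (by linarith [b00.2, b01.2, b10.2, b11.2])) w hw hw0
      rw [add_dotProduct] at key
      have : (1 + h) / 2 * (a - b) ^ 2 ≥ 0 := by positivity
      nlinarith
    · have hs : ∑ i, (π.xi ℝ u - π.xi ℝ v) i = 0 := by
        simp only [Pi.sub_apply, Finset.sum_sub_distrib, su, sv, sub_zero]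
      obtain ⟨hr, hMr⟩ := hq _ hs
      have hqr : (π.xi ℝ u - π.xi ℝ v) ⬝ᵥ (π.Rinv (-1) h *ᵥ (π.xi ℝ u - π.xi ℝ v)) =
          mh h * (2 + (π.Dp (-1) h u v 0 0 - π.Dp (-1) h u v 0 1 - π.Dp (-1) h u v 1 0
            + π.Dp (-1) h u v 1 1)) := by
        rw [hR, Matrix.smul_mulVec, dotProduct_smul, Matrix.mulVec_sub, sub_dotProduct, dotProduct_sub,
          dotProduct_sub, d00, d01, d10, d11, smul_eq_mul]
        ring
      have key := hpos.sub_rank_one hMt _ _ hr hMr ((1 - h) / 2) (by linarith)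
        (by rw [hqr]; exact posOn1_num2 h _ hh hh1 (by linarith [b00.2, b01.1, b10.1, b11.2])) w hw hw0
      rw [sub_dotProduct] at key
      have : ((1 + h) / 2 + (1 + h) * β) * (a + b) ^ 2 ≥ 0 := by positivity
      nlinarith
  · rw [Matrix.isUnit_iff_isUnit_det, isUnit_iff_ne_zero, Matrix.det_fin_two, (H0_inv hl2 σ h hσ hh.ne').1]
    have hlpos : (0 : ℝ) < (π.l : ℝ) := by linarith
    have ha : 1 < h⁻¹ := (one_lt_inv₀ hh).2 hh1
    have hx0 : 0 ≤ h⁻¹ * (π.l : ℝ)⁻¹ := by positivity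
    have hx : h⁻¹ * (π.l : ℝ)⁻¹ ≤ h⁻¹ / 4 := by
      rw [div_eq_mul_inv]
      exact mul_le_mul_of_nonneg_left (inv_anti₀ (by norm_num) hlR) (by positivity)
    rcases hσ' with rfl | rfl
    · have := det_aux h⁻¹ (h⁻¹ * (π.l : ℝ)⁻¹) _ _ _ _ ha hx0 hx (hD 0 0) (hD 0 1) (hD 1 0) (hD 1 1)
      refine ne_of_lt ?_
      simp only [Matrix.add_apply, Matrix.smul_apply, Matrix.mul_apply, Fin.sum_univ_two, G0, F2, J2,
        Matrix.sub_apply, Matrix.one_apply, smul_eq_mul]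
      simp only [Fin.isValue, ↓reduceIte, zero_ne_one, one_ne_zero]
      linarith
    · have := det_aux h⁻¹ (h⁻¹ * (π.l : ℝ)⁻¹) (-_) (-_) (-_) (-_) ha hx0 hx
        (by rw [abs_neg]; exact hD 0 0) (by rw [abs_neg]; exact hD 0 1) (by rw [abs_neg]; exact hD 1 0)
        (by rw [abs_neg]; exact hD 1 1)
      refine ne_of_lt ?_
      simp only [Matrix.add_apply, Matrix.smul_apply, Matrix.mul_apply, Fin.sum_univ_two, G0, F2, J2,
        Matrix.sub_apply, Matrix.one_apply, smul_eq_mul]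
      simp only [Fin.isValue, ↓reduceIte, zero_ne_one, one_ne_zero]
      linarith

end PPair

/-! ## (F) the exact cancellation (4.2) -/

/-- (4.2) in sum form: ordered distinct pairs in `I`, `|I| = l - k`. -/
theorem pair_contraction {ι K : Type*} [DecidableEq ι] [Field K] [CharZero K] (I : Finset ι) (a c : ι → K)
    {l : ℕ} (hl : 2 < l) :
    ∑ u ∈ I, ∑ v ∈ I.erase u,
        (![a u, a v] ⬝ᵥ ((F2 K * B2 K l) *ᵥ ![c u, c v])) =
      2 * (1 + ((l : K) - 2)⁻¹) * ((∑ u ∈ I, a u) * ∑ u ∈ I, c u)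
        - 2 * ((l : K) - (I.card : K)) * ((l : K) - 2)⁻¹ * ∑ u ∈ I, a u * c u := by
  have h1 := PPair.l_sub_two_ne K hl
  set β : K := ((l : K) - 2)⁻¹ with hβ
  have e0 : ∀ u v, (![a u, a v] ⬝ᵥ ((F2 K * B2 K l) *ᵥ ![c u, c v])) =
      (1 + β) * (a u * c v + a v * c u) + β * (a u * c u + a v * c v) := by
    intro u v
    simp [F2, B2, J2, Matrix.mul_apply, Fin.sum_univ_two, Matrix.one_apply, dotProduct, Matrix.mulVec, ← hβ]
    ring
  have e1 : ∀ u ∈ I, ∑ v ∈ I.erase u, (![a u, a v] ⬝ᵥ ((F2 K * B2 K l) *ᵥ ![c u, c v])) =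
      (∑ v ∈ I, ((1 + β) * (a u * c v + a v * c u) + β * (a u * c u + a v * c v)))
        - ((1 + β) * (a u * c u + a u * c u) + β * (a u * c u + a u * c u)) := by
    intro u hu
    rw [← Finset.add_sum_erase I _ hu]
    simp only [e0]
    ring
  rw [Finset.sum_congr rfl e1, Finset.sum_sub_distrib]
  have e2 : ∀ u ∈ I, (∑ v ∈ I, ((1 + β) * (a u * c v + a v * c u) + β * (a u * c u + a v * c v))) =
      (1 + β) * (a u * (∑ v ∈ I, c v) + c u * (∑ v ∈ I, a v)) + β * ((I.card : K) * (a u * c u) + ∑ v ∈ I, a v * c v) := by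
    intro u _
    simp only [Finset.sum_add_distrib, ← Finset.mul_sum, ← Finset.sum_mul, Finset.sum_const, nsmul_eq_mul]
    ring
  rw [Finset.sum_congr rfl e2]
  simp only [Finset.sum_add_distrib, ← Finset.mul_sum, ← Finset.sum_mul, Finset.sum_const, nsmul_eq_mul]
  have hβ1 : β * ((l : K) - 2) = 1 := inv_mul_cancel₀ h1
  set Sa := ∑ u ∈ I, a u
  set Sc := ∑ u ∈ I, c u
  set Sac := ∑ u ∈ I, a u * c u
  linear_combination (2 * Sac) * hβ1

end Claimed.Agent.R275
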