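import Claimed.Agent.R275.Defs

/-!
# Row 275, package L41G: CAST = naturality under a field homomorphism

Paper: `foundations.tex` lines 19-190 (Lemma 4.1 `lemma:configuration-algebra`, (4.2)).  Statements by helper208; all matrix identities
were checked with exact rational arithmetic on random partial pairings (n = 6, d = 3) against `Defs.lean`.
Finite-dimensional algebra over a field of characteristic zero; no analysis.  ONE OWNER PER FILE (see table subtask).
-/

set_option autoImplicit false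
set_option linter.unusedSectionVars false

namespace Claimed.Agent.R275

open Matrix

/-! ## (G) CAST: naturality under a homomorphism of fields (used with `Rat.castHom ℝ`) -/

section Cast

variable {n d : ℕ} {K K' : Type*} [Field K] [Field K'] (f : K →+* K')

/-- nonsingular inverses commute with homomorphisms of fields -/
theorem map_nonsing_inv {m : Type*} [Fintype m] [DecidableEq m] (M : Matrix m m K) :
    (M⁻¹).map f = (M.map f)⁻¹ := by
  rw [Matrix.inv_def, Matrix.inv_def, Ring.inverse_eq_inv', Ring.inverse_eq_inv']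
  have h1 : (M.map f).det = f M.det := (f.map_det M).symm
  have h2 : (M.map f).adjugate = M.adjugate.map f := (f.map_adjugate M).symm
  rw [h1, h2, ← map_inv₀]
  ext i j
  simp

theorem map_zfun (h : K) : f (zfun d h) = zfun d (f h) := by
  simp [zfun]

theorem map_alphaf (h : K) : f (alphaf d h) = alphaf d (f h) := by
  simp [alphaf]

theorem map_mh (h : K) : f (mh h) = mh (f h) := by
  simp [mh]

theorem map_sgn (b : Bool) : f (sgn b) = sgn b := by
  cases b <;> simp [sgn]

theorem map_J1 : (J1 K n).map f = J1 K' n := by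
  ext i j
  simp [J1]

theorem map_Pi1 : (Pi1 K n).map f = Pi1 K' n := by
  rw [Pi1, Pi1, Matrix.map_sub (f := f) (map_sub f), map_J1, Matrix.map_one f (map_zero f) (map_one f)]

theorem map_mul' {a b c : Type*} [Fintype b] (M : Matrix a b K) (N : Matrix b c K) :
    (M * N).map f = M.map f * N.map f := Matrix.map_mul

theorem map_add' {a b : Type*} (M N : Matrix a b K) : (M + N).map f = M.map f + N.map f :=
  Matrix.map_add f (map_add f) M N

theorem map_sub' {a b : Type*} (M N : Matrix a b K) : (M - N).map f = M.map f - N.map f :=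
  Matrix.map_sub f (map_sub f) M N

theorem map_smul'' {a b : Type*} (r : K) (M : Matrix a b K) : (r • M).map f = f r • M.map f := by
  ext i j
  simp

theorem map_one' {a : Type*} [DecidableEq a] : (1 : Matrix a a K).map f = 1 :=
  Matrix.map_one f (map_zero f) (map_one f)

theorem map_transpose' {a b : Type*} (M : Matrix a b K) : (Mᵀ).map f = (M.map f)ᵀ := rfl

theorem map_trace' {a : Type*} [Fintype a] (M : Matrix a a K) : f M.trace = (M.map f).trace := by
  simp [Matrix.trace, map_sum]

theorem map_compN (M : Matrix (Fin n) (Fin n) K) : (compN M).map f = compN (M.map f) := by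
  rw [compN, compN, map_add', map_mul', map_mul', map_Pi1, map_J1]

theorem map_invOn1 (M : Matrix (Fin n) (Fin n) K) : (invOn1 M).map f = invOn1 (M.map f) := by
  rw [invOn1, invOn1, map_sub', map_nonsing_inv, map_compN, map_J1]

theorem map_lV (t : Fin n → K) : f (lV t) = lV (f ∘ t) := by
  simp [lV, map_sum]

theorem map_xiV (t : Fin n → K) (w : Fin n) : f ∘ xiV t w = xiV (f ∘ t) w := by
  funext v
  simp only [Function.comp_apply, xiV, map_sub, map_div₀, map_lV]
  congr 1
  split_ifs <;> simp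

theorem map_vecMulVec (t u : Fin n → K) : (vecMulVec t u).map f = vecMulVec (f ∘ t) (f ∘ u) := by
  ext i j
  simp [vecMulVec_apply]

theorem map_diagonal' (t : Fin n → K) : (diagonal t).map f = diagonal (f ∘ t) := by
  rw [Matrix.diagonal_map (map_zero f)]
  rfl

theorem map_DcalV (t : Fin n → K) : (DcalV t).map f = DcalV (f ∘ t) := by
  rw [DcalV, DcalV, map_sub', map_smul'', map_diagonal', map_vecMulVec, map_inv₀, map_lV]

theorem map_AeV (A : Matrix (Fin n) (Fin n) K) (t : Fin n → K) :
    (AeV A t).map f = AeV (A.map f) (f ∘ t) := by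
  rw [AeV, AeV, map_add', map_smul'', map_vecMulVec, map_inv₀, map_lV]

theorem map_DeV (t : Fin n → K) : (DeV d t).map f = DeV d (f ∘ t) := by
  rw [DeV, DeV, map_sub', map_smul'', map_one', map_DcalV, map_natCast]

theorem map_MmatV (A : Matrix (Fin n) (Fin n) K) (t : Fin n → K) (σ h : K) :
    (MmatV d A t σ h).map f = MmatV d (A.map f) (f ∘ t) (f σ) (f h) := by
  rw [MmatV, MmatV, map_sub', map_sub', map_smul'', map_smul'', map_smul'', map_one', map_AeV,
    map_DcalV, map_zfun]

theorem map_RinvV (A : Matrix (Fin n) (Fin n) K) (t : Fin n → K) (σ h : K) :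
    (RinvV d A t σ h).map f = RinvV d (A.map f) (f ∘ t) (f σ) (f h) := by
  rw [RinvV, RinvV, map_invOn1, map_MmatV]

theorem map_WmatV (A : Matrix (Fin n) (Fin n) K) (t : Fin n → K) (σ h : K) :
    (WmatV d A t σ h).map f = WmatV d (A.map f) (f ∘ t) (f σ) (f h) := by
  rw [WmatV, WmatV, map_smul'', map_RinvV, map_inv₀, map_mh]

theorem map_QmatV (A : Matrix (Fin n) (Fin n) K) (t : Fin n → K) (j : ℕ) :
    (QmatV d A t j).map f = QmatV d (A.map f) (f ∘ t) j := by
  induction j using Nat.strong_induction_on with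
  | _ j ih =>
    match j, ih with
    | 0, _ => simp only [QmatV]; exact map_one' f
    | 1, _ => simp only [QmatV]; exact map_AeV f A t
    | 2, _ => simp only [QmatV]; rw [map_sub', map_mul', map_AeV, map_DeV]
    | j + 3, ih =>
      simp only [QmatV]
      rw [map_sub', map_mul', map_mul', map_sub', map_one', map_AeV, map_DeV,
        ih (j + 2) (by omega), ih (j + 1) (by omega)]

theorem map_PmatV (A : Matrix (Fin n) (Fin n) K) (t : Fin n → K) (L : ℕ) (σ h : K) :
    (PmatV d A t L σ h).map f = PmatV d (A.map f) (f ∘ t) L (f σ) (f h) := by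
  rw [PmatV, PmatV]
  have h1 : ∀ (s : Finset ℕ) (g : ℕ → Matrix (Fin n) (Fin n) K),
      (∑ j ∈ s, g j).map f = ∑ j ∈ s, (g j).map f := by
    intro s g
    exact map_sum (f.mapMatrix) g s
  rw [h1]
  refine Finset.sum_congr rfl fun j _ => ?_
  rw [map_smul'', map_mul', map_mul', map_Pi1, map_QmatV, map_pow, map_mul]

variable (π : PPair n d)

theorem PPair.map_adjM : (π.adjM K).map f = π.adjM K' := by
  ext v w
  simp [PPair.adjM]

theorem PPair.map_tvec : f ∘ π.tvec K = π.tvec K' := by
  funext v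
  simp [PPair.tvec]

theorem PPair.map_xi (x : Stub n d) : f ∘ π.xi K x = π.xi K' x := by
  rw [PPair.xi, PPair.xi, map_xiV, PPair.map_tvec]

theorem PPair.map_lvec (a : Label n d) : f ∘ π.lvec K a = π.lvec K' a := by
  cases a with
  | glob i =>
    funext v
    simp only [Function.comp_apply, PPair.lvec, map_sub, map_inv₀, map_natCast]
    congr 1
    split_ifs <;> simp
  | stub x => exact π.map_xi f x

theorem PPair.map_Dcal : (π.Dcal K).map f = π.Dcal K' := by
  rw [PPair.Dcal, PPair.Dcal, map_DcalV, PPair.map_tvec]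

theorem PPair.map_Ae : (π.Ae K).map f = π.Ae K' := by
  rw [PPair.Ae, PPair.Ae, map_AeV, PPair.map_tvec, PPair.map_adjM]

theorem PPair.map_De : (π.De K).map f = π.De K' := by
  rw [PPair.De, PPair.De, map_DeV, PPair.map_tvec]

theorem PPair.map_Xi : (π.Xi K).map f = π.Xi K' := by
  ext v x
  simp only [Matrix.map_apply, PPair.Xi]
  split_ifs
  · exact congrFun (π.map_xi f x) v
  · exact map_zero f

theorem PPair.map_PiS : (π.PiS K).map f = π.PiS K' := by
  ext x y
  simp only [Matrix.map_apply, PPair.PiS]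
  split_ifs <;> simp

theorem PPair.map_Mmat (σ h : K) : (π.Mmat σ h).map f = π.Mmat (f σ) (f h) := by
  rw [PPair.Mmat, PPair.Mmat, map_MmatV, PPair.map_tvec, PPair.map_adjM]

theorem PPair.map_Rinv (σ h : K) : (π.Rinv σ h).map f = π.Rinv (f σ) (f h) := by
  rw [PPair.Rinv, PPair.Rinv, map_RinvV, PPair.map_tvec, PPair.map_adjM]

theorem PPair.map_Wmat (σ h : K) : (π.Wmat σ h).map f = π.Wmat (f σ) (f h) := by
  rw [PPair.Wmat, PPair.Wmat, map_WmatV, PPair.map_tvec, PPair.map_adjM]

theorem PPair.map_Qmat (j : ℕ) : (π.Qmat K j).map f = π.Qmat K' j := by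
  rw [PPair.Qmat, PPair.Qmat, map_QmatV, PPair.map_tvec, PPair.map_adjM]

theorem PPair.map_Pmat (L : ℕ) (σ h : K) : (π.Pmat L σ h).map f = π.Pmat L (f σ) (f h) := by
  rw [PPair.Pmat, PPair.Pmat, map_PmatV, PPair.map_tvec, PPair.map_adjM]

theorem PPair.map_Emat (L : ℕ) (σ h : K) : (π.Emat L σ h).map f = π.Emat L (f σ) (f h) := by
  rw [PPair.Emat, PPair.Emat, map_sub', PPair.map_Wmat, PPair.map_Pmat]

theorem map_dotProduct' {a : Type*} [Fintype a] (v w : a → K) :
    f (v ⬝ᵥ w) = (f ∘ v) ⬝ᵥ (f ∘ w) := by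
  simp [dotProduct, map_sum]

theorem map_mulVec' {a b : Type*} [Fintype b] (M : Matrix a b K) (v : b → K) :
    f ∘ (M *ᵥ v) = (M.map f) *ᵥ (f ∘ v) := by
  funext i
  simp [mulVec, dotProduct, map_sum]

theorem PPair.map_ent (X : Matrix (Fin n) (Fin n) K) (a b : Label n d) :
    f (π.ent X a b) = π.ent (X.map f) a b := by
  rw [PPair.ent, PPair.ent, map_dotProduct', map_mulVec', PPair.map_lvec, PPair.map_lvec]

theorem PPair.map_pEnt (L : ℕ) (σ h : K) (i : Label n d) (x : Stub n d) :
    f (π.pEnt L σ h i x) = π.pEnt L (f σ) (f h) i x := by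
  rw [PPair.pEnt, PPair.pEnt, PPair.map_ent, PPair.map_Pmat]

theorem PPair.map_eEnt (L : ℕ) (σ h : K) (i : Label n d) (x : Stub n d) :
    f (π.eEnt L σ h i x) = π.eEnt L (f σ) (f h) i x := by
  rw [PPair.eEnt, PPair.eEnt, PPair.map_ent, PPair.map_Emat]

theorem PPair.map_wEnt (σ h : K) (i : Label n d) (x : Stub n d) :
    f (π.wEnt σ h i x) = π.wEnt (f σ) (f h) i x := by
  rw [PPair.wEnt, PPair.wEnt, PPair.map_ent, PPair.map_Wmat]

theorem PPair.map_Gam (σ h : K) : (π.Gam σ h).map f = π.Gam (f σ) (f h) := by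
  rw [PPair.Gam, PPair.Gam, map_mul', map_mul', map_transpose', PPair.map_Xi, PPair.map_Wmat]

theorem PPair.map_Dst (σ h : K) : (π.Dst σ h).map f = π.Dst (f σ) (f h) := by
  rw [PPair.Dst, PPair.Dst, map_sub', PPair.map_Gam, PPair.map_PiS]

theorem PPair.map_Kall (σ h : K) : (π.Kall σ h).map f = π.Kall (f σ) (f h) := by
  rw [PPair.Kall, PPair.Kall, map_mul', PPair.map_Gam]

theorem PPair.map_Qall (σ h : K) : (π.Qall σ h).map f = π.Qall (f σ) (f h) := by
  rw [PPair.Qall, PPair.Qall, map_mul', map_mul', map_mul', map_transpose', PPair.map_Xi,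
    PPair.map_Wmat]

theorem PPair.map_Jall (σ h : K) : (π.Jall σ h).map f = π.Jall (f σ) (f h) := by
  rw [PPair.Jall, PPair.Jall, map_mul', PPair.map_Gam, PPair.map_Qall]

theorem PPair.map_F1 (σ h : K) : f (π.F1 σ h) = π.F1 (f σ) (f h) := by
  rw [PPair.F1, PPair.F1, map_trace', map_mul', PPair.map_Dcal, PPair.map_Wmat]

theorem PPair.map_F0 (σ h : K) : f (π.F0 σ h) = π.F0 (f σ) (f h) := by
  rw [PPair.F0, PPair.F0, map_trace', PPair.map_Wmat]

theorem PPair.map_Ttr (σ h : K) : f (π.Ttr σ h) = π.Ttr (f σ) (f h) := by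
  rw [PPair.Ttr, PPair.Ttr, map_trace', PPair.map_Qall]

theorem PPair.map_L1 (σ h : K) : f (π.L1 σ h) = π.L1 (f σ) (f h) := by
  rw [PPair.L1, PPair.L1, map_sub, map_sub, PPair.map_F1, map_natCast, map_one]

theorem PPair.map_L0 (σ h : K) : f (π.L0 σ h) = π.L0 (f σ) (f h) := by
  rw [PPair.L0, PPair.L0, map_sub, map_sub, PPair.map_F0, map_natCast, map_one]

theorem PPair.map_TS (L : ℕ) (σ h : K) : f (π.TS L σ h) = π.TS L (f σ) (f h) := by
  rw [PPair.TS, PPair.TS, map_sum]
  exact Finset.sum_congr rfl fun x _ => by rw [map_pow, PPair.map_eEnt]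

theorem PPair.map_YE (L : ℕ) (σ h : K) : f (π.YE L σ h) = π.YE L (f σ) (f h) := by
  rw [PPair.YE, PPair.YE, map_sum]
  exact Finset.sum_congr rfl fun x _ => by rw [PPair.map_eEnt]

theorem PPair.map_traces (L : ℕ) (σ h : K) :
    f (π.L1 σ h) = π.L1 (f σ) (f h) ∧ f (π.L0 σ h) = π.L0 (f σ) (f h) ∧
    f (π.Ttr σ h) = π.Ttr (f σ) (f h) ∧ f (π.TS L σ h) = π.TS L (f σ) (f h) :=
  ⟨π.map_L1 f σ h, π.map_L0 f σ h, π.map_Ttr f σ h, π.map_TS f L σ h⟩

/-! ### one exposure -/

theorem PPair.map_Upair (u v : Stub n d) : (π.Upair K u v).map f = π.Upair K' u v := by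
  ext w i
  simp only [Matrix.map_apply, PPair.Upair]
  split_ifs
  · exact congrFun (π.map_xi f u) w
  · exact congrFun (π.map_xi f v) w

theorem map_J2 : (J2 K).map f = J2 K' := by
  ext i j
  simp [J2]

theorem map_F2 : (F2 K).map f = F2 K' := by
  ext i j
  simp only [Matrix.map_apply, F2]
  split_ifs <;> simp

theorem map_G0 (l : ℕ) : (G0 K l).map f = G0 K' l := by
  rw [G0, G0, map_sub', map_one', map_smul'', map_J2, map_inv₀, map_natCast]

theorem map_B2 (l : ℕ) : (B2 K l).map f = B2 K' l := by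
  rw [B2, B2, map_add', map_one', map_smul'', map_J2, map_inv₀, map_sub, map_natCast, map_ofNat]

theorem map_H0 (l : ℕ) (σ h : K) : (H0 l σ h).map f = H0 l (f σ) (f h) := by
  rw [H0, H0, map_smul'', map_mul', map_F2, map_B2, map_neg, map_mul]

theorem PPair.map_blk (X : Matrix (Fin n) (Fin n) K) (u v : Stub n d) :
    (π.blk X u v).map f = π.blk (X.map f) u v := by
  rw [PPair.blk, PPair.blk, map_mul', map_mul', map_transpose', PPair.map_Upair]

theorem PPair.map_Dp (σ h : K) (u v : Stub n d) :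
    (π.Dp σ h u v).map f = π.Dp (f σ) (f h) u v := by
  rw [PPair.Dp, PPair.Dp, map_sub', PPair.map_blk, PPair.map_Wmat, map_G0]

theorem PPair.map_Hp (σ h : K) (u v : Stub n d) :
    (π.Hp σ h u v).map f = π.Hp (f σ) (f h) u v := by
  rw [PPair.Hp, PPair.Hp, map_nonsing_inv, map_add', map_nonsing_inv, map_H0, PPair.map_Dp]

theorem PPair.map_Tp (L : ℕ) (σ h : K) (u v : Stub n d) :
    (π.Tp L σ h u v).map f = π.Tp L (f σ) (f h) u v := by
  rw [PPair.Tp, PPair.Tp, map_sub', PPair.map_blk, PPair.map_Pmat, map_G0]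

theorem PPair.map_HP (L : ℕ) (σ h : K) (u v : Stub n d) :
    (π.HP L σ h u v).map f = π.HP L (f σ) (f h) u v := by
  rw [PPair.HP, PPair.HP, map_nonsing_inv, map_add', map_nonsing_inv, map_H0, PPair.map_Tp]

theorem PPair.map_tailR (L : ℕ) (σ h : K) (u v : Stub n d) :
    (π.tailR L σ h u v).map f = π.tailR L (f σ) (f h) u v := by
  rw [PPair.tailR, PPair.tailR, map_add', map_sub', map_mul', map_mul', map_mul', map_mul',
    map_transpose', PPair.map_Pmat, PPair.map_Pmat, PPair.map_Upair, PPair.map_HP]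

end Cast

end Claimed.Agent.R275
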