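import Claimed.Agent.R275.Stage
import Claimed.Agent.R275.L41A

/-!
# Row 275: combinatorial description of the walk counts `Nact` (helper199)

`π.nbwSW j x y`: there is an actual nonbacktracking stub walk with `j + 1` edges which leaves its first vertex through the (resolved) stub `x`
and arrives at its last vertex at the stub `y`.
* `nbw_Nact_succ_ne_zero : π.Nact ℚ (j+1) v w ≠ 0 ↔ ∃ x y, x.1 = v ∧ y.1 = w ∧ π.nbwSW j x y`
* `nbw_not_far_iff : ¬ π.Far k v w ↔ ∃ p : π.graph.Walk v w, p.length ≤ k`  (every partial pairing)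
No sorry.
-/

set_option autoImplicit false

namespace Claimed.Agent.R275

open Matrix

/-! ### products of nonnegative matrices -/

section NN

variable {ι κ μ : Type*} [Fintype κ]

theorem nbw_mul_nonneg {A : Matrix ι κ ℚ} {B : Matrix κ μ ℚ} (hA : ∀ i j, 0 ≤ A i j)
    (hB : ∀ i j, 0 ≤ B i j) (i : ι) (k : μ) : 0 ≤ (A * B) i k := by
  rw [Matrix.mul_apply]
  exact Finset.sum_nonneg fun j _ => mul_nonneg (hA i j) (hB j k)

theorem nbw_mul_ne_zero_iff {A : Matrix ι κ ℚ} {B : Matrix κ μ ℚ} (hA : ∀ i j, 0 ≤ A i j)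
    (hB : ∀ i j, 0 ≤ B i j) (i : ι) (k : μ) :
    (A * B) i k ≠ 0 ↔ ∃ j, A i j ≠ 0 ∧ B j k ≠ 0 := by
  rw [Matrix.mul_apply, Ne, Finset.sum_eq_zero_iff_of_nonneg
    (fun j _ => mul_nonneg (hA i j) (hB j k))]
  constructor
  · intro h
    by_contra hcon
    apply h
    intro j _
    by_contra hj
    exact hcon ⟨j, left_ne_zero_of_mul hj, right_ne_zero_of_mul hj⟩
  · rintro ⟨j, h1, h2⟩ h
    exact mul_ne_zero h1 h2 (h j (Finset.mem_univ j))

theorem nbw_pow_nonneg [DecidableEq κ] {A : Matrix κ κ ℚ} (hA : ∀ i j, 0 ≤ A i j) (m : ℕ)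
    (i j : κ) : 0 ≤ (A ^ m) i j := by
  induction m generalizing i j with
  | zero =>
    rw [pow_zero, Matrix.one_apply]
    split_ifs <;> norm_num
  | succ m ih =>
    rw [pow_succ]
    exact nbw_mul_nonneg ih hA i j

end NN

namespace PPair

variable {n d : ℕ} (π : PPair n d)

theorem nbw_unres_mate {x : Stub n d} (hx : ¬ π.Unres x) : ¬ π.Unres (π.mate x) := by
  intro h
  apply hx
  have h1 : π.mate (π.mate x) = π.mate x := h
  rw [π.mate_mate] at h1
  exact h1.symm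

/-- actual nonbacktracking stub walks with `j + 1` edges, first stub `x`, last stub `y` -/
def nbwSW : ℕ → Stub n d → Stub n d → Prop
  | 0, x, y => ¬ π.Unres x ∧ π.mate x = y
  | j + 1, x, y => ∃ y' x', nbwSW j x y' ∧ y'.1 = x'.1 ∧ y' ≠ x' ∧ ¬ π.Unres x' ∧ π.mate x' = y

theorem nbw_Pact_nonneg (x y : Stub n d) : 0 ≤ π.Pact ℚ x y := by
  unfold Pact
  split_ifs <;> norm_num

theorem nbw_NBm_nonneg (x y : Stub n d) : 0 ≤ NBm ℚ n d x y := by
  unfold NBm
  split_ifs <;> norm_num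

theorem nbw_Cinc_nonneg (v : Fin n) (x : Stub n d) : 0 ≤ Cinc ℚ n d v x := by
  unfold Cinc
  split_ifs <;> norm_num

theorem nbw_Pact_ne_zero (x y : Stub n d) : π.Pact ℚ x y ≠ 0 ↔ ¬ π.Unres x ∧ π.mate x = y := by
  unfold Pact
  by_cases h1 : π.Unres x
  · simp [h1]
  · by_cases h2 : π.mate x = y
    · simp [h1, h2]
    · simp [h1, h2]

theorem nbw_NBm_ne_zero (x y : Stub n d) : NBm ℚ n d x y ≠ 0 ↔ x.1 = y.1 ∧ x ≠ y := by
  unfold NBm
  by_cases h : x.1 = y.1 ∧ x ≠ y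
  · simp only [if_pos h, ne_eq, one_ne_zero, not_false_eq_true, true_iff]
    exact h
  · simp only [if_neg h, ne_eq, not_true_eq_false, false_iff]
    exact h

theorem nbw_Cinc_ne_zero (v : Fin n) (x : Stub n d) : Cinc ℚ n d v x ≠ 0 ↔ x.1 = v := by
  unfold Cinc
  by_cases h : x.1 = v
  · simp [h]
  · simp [h]

theorem nbw_NP_nonneg (x y : Stub n d) : 0 ≤ (NBm ℚ n d * π.Pact ℚ) x y :=
  nbw_mul_nonneg nbw_NBm_nonneg π.nbw_Pact_nonneg x y

theorem nbw_W_nonneg (j : ℕ) (x y : Stub n d) :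
    0 ≤ (π.Pact ℚ * (NBm ℚ n d * π.Pact ℚ) ^ j) x y :=
  nbw_mul_nonneg π.nbw_Pact_nonneg (nbw_pow_nonneg π.nbw_NP_nonneg j) x y

theorem nbw_W_ne_zero (j : ℕ) (x y : Stub n d) :
    (π.Pact ℚ * (NBm ℚ n d * π.Pact ℚ) ^ j) x y ≠ 0 ↔ π.nbwSW j x y := by
  induction j generalizing y with
  | zero =>
    rw [pow_zero, Matrix.mul_one, nbw_Pact_ne_zero]
    rfl
  | succ j ih =>
    rw [pow_succ, ← Matrix.mul_assoc, nbw_mul_ne_zero_iff (π.nbw_W_nonneg j) π.nbw_NP_nonneg]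
    constructor
    · rintro ⟨y', h1, h2⟩
      rw [nbw_mul_ne_zero_iff nbw_NBm_nonneg π.nbw_Pact_nonneg] at h2
      obtain ⟨x', h3, h4⟩ := h2
      rw [nbw_NBm_ne_zero] at h3
      rw [nbw_Pact_ne_zero] at h4
      exact ⟨y', x', (ih y').1 h1, h3.1, h3.2, h4.1, h4.2⟩
    · rintro ⟨y', x', h1, h2, h3, h4, h5⟩
      refine ⟨y', (ih y').2 h1, ?_⟩
      rw [nbw_mul_ne_zero_iff nbw_NBm_nonneg π.nbw_Pact_nonneg]
      exact ⟨x', (nbw_NBm_ne_zero _ _).2 ⟨h2, h3⟩, (π.nbw_Pact_ne_zero _ _).2 ⟨h4, h5⟩⟩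

theorem nbw_Nact_zero_ne_zero (v w : Fin n) : π.Nact ℚ 0 v w ≠ 0 ↔ v = w := by
  show (1 : Matrix (Fin n) (Fin n) ℚ) v w ≠ 0 ↔ v = w
  rw [Matrix.one_apply]
  by_cases h : v = w
  · simp [h]
  · simp [h]

theorem nbw_Nact_succ_ne_zero (j : ℕ) (v w : Fin n) :
    π.Nact ℚ (j + 1) v w ≠ 0 ↔ ∃ x y : Stub n d, x.1 = v ∧ y.1 = w ∧ π.nbwSW j x y := by
  show (Cinc ℚ n d * π.Pact ℚ * (NBm ℚ n d * π.Pact ℚ) ^ j * (Cinc ℚ n d)ᵀ) v w ≠ 0 ↔ _
  have hCT : ∀ (i : Stub n d) (j : Fin n), 0 ≤ (Cinc ℚ n d)ᵀ i j := fun i j => nbw_Cinc_nonneg j i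
  rw [Matrix.mul_assoc (Cinc ℚ n d), Matrix.mul_assoc (Cinc ℚ n d),
    nbw_mul_ne_zero_iff nbw_Cinc_nonneg (nbw_mul_nonneg (π.nbw_W_nonneg j) hCT)]
  constructor
  · rintro ⟨x, h1, h2⟩
    rw [nbw_mul_ne_zero_iff (π.nbw_W_nonneg j) hCT] at h2
    obtain ⟨y, h3, h4⟩ := h2
    rw [Matrix.transpose_apply, nbw_Cinc_ne_zero] at h4
    exact ⟨x, y, (nbw_Cinc_ne_zero _ _).1 h1, h4, (π.nbw_W_ne_zero j x y).1 h3⟩
  · rintro ⟨x, y, h1, h2, h3⟩
    refine ⟨x, (nbw_Cinc_ne_zero _ _).2 h1, ?_⟩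
    rw [nbw_mul_ne_zero_iff (π.nbw_W_nonneg j) hCT]
    exact ⟨y, (π.nbw_W_ne_zero j x y).2 h3, by
      rw [Matrix.transpose_apply, nbw_Cinc_ne_zero]; exact h2⟩

theorem nbw_not_far (k : ℕ) (v w : Fin n) : ¬ π.Far k v w ↔ ∃ j ≤ k, π.Nact ℚ j v w ≠ 0 := by
  unfold Far
  push Not
  constructor
  · rintro ⟨j, h1, h2⟩
    exact ⟨j, by omega, h2⟩
  · rintro ⟨j, h1, h2⟩
    exact ⟨j, by omega, h2⟩

/-! ### calculus of stub walks -/

variable {π}

theorem nbwSW.first {j : ℕ} {x y : Stub n d} (h : π.nbwSW j x y) : ¬ π.Unres x := by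
  induction j generalizing y with
  | zero => exact h.1
  | succ j ih =>
    obtain ⟨y', x', h1, -⟩ := h
    exact ih h1

theorem nbwSW.last {j : ℕ} {x y : Stub n d} (h : π.nbwSW j x y) : ¬ π.Unres y := by
  cases j with
  | zero =>
    rw [← h.2]
    exact π.nbw_unres_mate h.1
  | succ j =>
    obtain ⟨y', x', -, -, -, h4, h5⟩ := h
    rw [← h5]
    exact π.nbw_unres_mate h4

theorem nbwSW.snoc {j : ℕ} {x y x' : Stub n d} (h : π.nbwSW j x y) (hv : y.1 = x'.1) (hne : y ≠ x')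
    (hx' : ¬ π.Unres x') : π.nbwSW (j + 1) x (π.mate x') := ⟨y, x', h, hv, hne, hx', rfl⟩

theorem nbwSW.one {x : Stub n d} (hx : ¬ π.Unres x) : π.nbwSW 0 x (π.mate x) := ⟨hx, rfl⟩

/-- concatenation -/
theorem nbwSW.append {j k : ℕ} {x y x' z : Stub n d} (h : π.nbwSW j x y) (hv : y.1 = x'.1)
    (hne : y ≠ x') (h' : π.nbwSW k x' z) : π.nbwSW (j + k + 1) x z := by
  induction k generalizing z with
  | zero =>
    obtain ⟨h1, h2⟩ := h'
    rw [← h2]
    exact h.snoc hv hne h1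
  | succ k ih =>
    obtain ⟨y', x'', h1, h2, h3, h4, h5⟩ := h'
    rw [← h5]
    exact (ih h1).snoc h2 h3 h4

theorem nbwSW.cons {j : ℕ} {x x' y : Stub n d} (hx : ¬ π.Unres x) (hv : (π.mate x).1 = x'.1)
    (hne : π.mate x ≠ x') (h : π.nbwSW j x' y) : π.nbwSW (j + 1) x y := by
  have := (nbwSW.one hx).append hv hne h
  rwa [zero_add] at this

/-- reversal -/
theorem nbwSW.symm {j : ℕ} {x y : Stub n d} (h : π.nbwSW j x y) : π.nbwSW j y x := by
  induction j generalizing y with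
  | zero =>
    obtain ⟨h1, h2⟩ := h
    refine ⟨?_, ?_⟩
    · rw [← h2]; exact π.nbw_unres_mate h1
    · rw [← h2, π.mate_mate]
  | succ j ih =>
    obtain ⟨y', x', h1, h2, h3, h4, h5⟩ := h
    rw [← h5]
    refine nbwSW.cons (π.nbw_unres_mate h4) ?_ ?_ (ih h1)
    · rw [π.mate_mate]; exact h2.symm
    · rw [π.mate_mate]; exact h3.symm

variable (π)

theorem nbw_Nact_ne_zero_symm {k : ℕ} {v w : Fin n} (h : π.Nact ℚ k v w ≠ 0) :
    π.Nact ℚ k w v ≠ 0 := by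
  cases k with
  | zero =>
    rw [nbw_Nact_zero_ne_zero] at h ⊢
    exact h.symm
  | succ j =>
    rw [nbw_Nact_succ_ne_zero] at h ⊢
    obtain ⟨x, y, h1, h2, h3⟩ := h
    exact ⟨y, x, h2, h1, h3.symm⟩

/-! ### the bridge to `π.graph` -/

/-- `dist ≤ k` in the actual simple graph -/
def nbwReach (k : ℕ) (v w : Fin n) : Prop := ∃ p : π.graph.Walk v w, p.length ≤ k

variable {π}

theorem nbwReach.refl (k : ℕ) (v : Fin n) : π.nbwReach k v v := ⟨SimpleGraph.Walk.nil, Nat.zero_le _⟩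

theorem nbwReach.mono {k k' : ℕ} {v w : Fin n} (h : π.nbwReach k v w) (hk : k ≤ k') :
    π.nbwReach k' v w := by
  obtain ⟨p, hp⟩ := h
  exact ⟨p, hp.trans hk⟩

theorem nbwReach.symm {k : ℕ} {v w : Fin n} (h : π.nbwReach k v w) : π.nbwReach k w v := by
  obtain ⟨p, hp⟩ := h
  exact ⟨p.reverse, by rw [SimpleGraph.Walk.length_reverse]; exact hp⟩

theorem nbwReach.trans {k k' : ℕ} {v w y : Fin n} (h : π.nbwReach k v w) (h' : π.nbwReach k' w y) :
    π.nbwReach (k + k') v y := by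
  obtain ⟨p, hp⟩ := h
  obtain ⟨q, hq⟩ := h'
  exact ⟨p.append q, by rw [SimpleGraph.Walk.length_append]; omega⟩

theorem nbw_reach_step {x : Stub n d} (hx : ¬ π.Unres x) : π.nbwReach 1 x.1 (π.mate x).1 := by
  by_cases h : x.1 = (π.mate x).1
  · rw [← h]
    exact nbwReach.refl 1 _
  · have hadj : π.graph.Adj x.1 (π.mate x).1 := by
      refine ⟨h, Finset.card_pos.2 ⟨x, ?_⟩⟩
      exact Finset.mem_filter.2 ⟨Finset.mem_univ _, rfl, hx, rfl⟩
    exact ⟨SimpleGraph.Walk.cons hadj SimpleGraph.Walk.nil, by simp⟩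

theorem nbwSW.reach {j : ℕ} {x y : Stub n d} (h : π.nbwSW j x y) : π.nbwReach (j + 1) x.1 y.1 := by
  induction j generalizing y with
  | zero =>
    obtain ⟨h1, h2⟩ := h
    rw [← h2]
    exact nbw_reach_step h1
  | succ j ih =>
    obtain ⟨y', x', h1, h2, h3, h4, h5⟩ := h
    rw [← h5]
    have := ih h1
    rw [h2] at this
    exact this.trans (nbw_reach_step h4)

theorem nbw_exists_stub {v w : Fin n} (h : π.graph.Adj v w) :
    ∃ x : Stub n d, x.1 = v ∧ ¬ π.Unres x ∧ (π.mate x).1 = w := by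
  obtain ⟨x, hx⟩ := Finset.card_pos.1 h.2
  simp only [Finset.mem_filter, Finset.mem_univ, true_and] at hx
  exact ⟨x, hx⟩

theorem nbw_path_SW {v w : Fin n} (p : π.graph.Walk v w) (hp : p.IsPath) (h0 : p.length ≠ 0) :
    ∃ x y : Stub n d, x.1 = v ∧ y.1 = w ∧ π.nbwSW (p.length - 1) x y ∧ (π.mate x).1 ∈ p.support := by
  induction p with
  | nil => exact absurd rfl h0
  | @cons v u w h q ih =>
    rw [SimpleGraph.Walk.cons_isPath_iff] at hp
    obtain ⟨x, hx1, hx2, hx3⟩ := nbw_exists_stub h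
    by_cases hq : q.length = 0
    · have huw : u = w := SimpleGraph.Walk.eq_of_length_eq_zero hq
      refine ⟨x, π.mate x, hx1, hx3.trans huw, ?_, ?_⟩
      · rw [SimpleGraph.Walk.length_cons, hq]
        exact nbwSW.one hx2
      · rw [hx3, SimpleGraph.Walk.support_cons]
        exact List.mem_cons_of_mem _ q.start_mem_support
    · obtain ⟨x', y, h1, h2, h3, h4⟩ := ih hp.1 hq
      refine ⟨x, y, hx1, h2, ?_, ?_⟩
      · rw [SimpleGraph.Walk.length_cons, Nat.add_sub_cancel]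
        have hne : π.mate x ≠ x' := by
          intro he
          apply hp.2
          rw [← he, π.mate_mate, hx1] at h4
          exact h4
        have := nbwSW.cons hx2 (hx3.trans h1.symm) hne h3
        rwa [Nat.sub_add_cancel (Nat.one_le_iff_ne_zero.2 hq)] at this
      · rw [hx3, SimpleGraph.Walk.support_cons]
        exact List.mem_cons_of_mem _ q.start_mem_support

variable (π)

/-- **the bridge**: no simplicity hypothesis -/
theorem nbw_not_far_iff (k : ℕ) (v w : Fin n) : ¬ π.Far k v w ↔ π.nbwReach k v w := by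
  classical
  rw [nbw_not_far]
  constructor
  · rintro ⟨j, hj, h⟩
    cases j with
    | zero =>
      rw [nbw_Nact_zero_ne_zero] at h
      rw [h]
      exact nbwReach.refl k w
    | succ j =>
      rw [nbw_Nact_succ_ne_zero] at h
      obtain ⟨x, y, h1, h2, h3⟩ := h
      rw [← h1, ← h2]
      exact h3.reach.mono hj
  · rintro ⟨p, hp⟩
    have hlen : p.bypass.length ≤ k := (p.length_bypass_le_length).trans hp
    by_cases h0 : p.bypass.length = 0
    · exact ⟨0, Nat.zero_le _, (π.nbw_Nact_zero_ne_zero v w).2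
        (SimpleGraph.Walk.eq_of_length_eq_zero h0)⟩
    · obtain ⟨x, y, h1, h2, h3, -⟩ := nbw_path_SW p.bypass p.bypass_isPath h0
      refine ⟨p.bypass.length - 1 + 1, by omega, ?_⟩
      rw [nbw_Nact_succ_ne_zero]
      exact ⟨x, y, h1, h2, h3⟩

theorem nbw_far_symm {k : ℕ} {v w : Fin n} (h : π.Far k v w) : π.Far k w v := by
  by_contra hcon
  rw [nbw_not_far_iff] at hcon
  exact (π.nbw_not_far_iff k v w).2 hcon.symm h

theorem nbw_far_mono {k k' : ℕ} (hk : k ≤ k') {v w : Fin n} (h : π.Far k' v w) : π.Far k v w :=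
  fun j hj => h j (by omega)

end PPair

end Claimed.Agent.R275
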