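import Claimed.Agent.R275.NbWalk

/-!
# Row 275: walks and extensions of a partial pairing (helper199)

* `nbw_walk_sup_edge`: NEW EDGE RULE for walks of `G ⊔ edge s t` (any simple graph).
* `nbw_graph_resolve`, `nbw_reach_resolve`.
* extensions `π₀ ≤ π` (hypothesis `hE : ∀ x, ¬ π₀.Unres x → π.mate x = π₀.mate x`, which is `PPair.Le` and `PPair.Ext` by unfolding):
  `nbw_ext_first` (first use of a new edge), `nbw_ext_decomp` (a short NB walk uses at most one new edge if the new stubs are far apart and have no short return),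
  `nbw_ext_girth` (the girth exclusion survives).
* balls: `nbw_card_adj_le`, `nbw_card_ball_le`.
No sorry.
-/

set_option autoImplicit false

namespace Claimed.Agent.R275

/-- NEW EDGE RULE: a walk of `G ⊔ edge s t` is dominated by an old walk, or by old walks to and from the endpoints of the new edge. -/
theorem nbw_walk_sup_edge {V : Type*} (G : SimpleGraph V) (s t : V) {a x : V}
    (p : (G ⊔ SimpleGraph.edge s t).Walk a x) :
    (∃ q : G.Walk a x, q.length ≤ p.length) ∨ ∃ k1 k2 : ℕ, k1 + 1 + k2 ≤ p.length ∧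
      (((∃ q : G.Walk a s, q.length ≤ k1) ∧ ∃ q : G.Walk t x, q.length ≤ k2) ∨
        ((∃ q : G.Walk a t, q.length ≤ k1) ∧ ∃ q : G.Walk s x, q.length ≤ k2)) := by
  induction p with
  | nil => exact Or.inl ⟨SimpleGraph.Walk.nil, le_refl _⟩
  | @cons a a' x h q ih =>
    rw [SimpleGraph.Walk.length_cons]
    rcases (SimpleGraph.sup_adj _ _ _ _).1 h with hG | hE
    · rcases ih with ⟨q', hq'⟩ | ⟨k1, k2, hk, ⟨⟨qa, hqa⟩, hb⟩ | ⟨⟨qa, hqa⟩, hb⟩⟩
      · exact Or.inl ⟨SimpleGraph.Walk.cons hG q', by rw [SimpleGraph.Walk.length_cons]; omega⟩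
      · exact Or.inr ⟨k1 + 1, k2, by omega, Or.inl
          ⟨⟨SimpleGraph.Walk.cons hG qa, by rw [SimpleGraph.Walk.length_cons]; omega⟩, hb⟩⟩
      · exact Or.inr ⟨k1 + 1, k2, by omega, Or.inr
          ⟨⟨SimpleGraph.Walk.cons hG qa, by rw [SimpleGraph.Walk.length_cons]; omega⟩, hb⟩⟩
    · rw [SimpleGraph.edge_adj] at hE
      rcases hE.1 with ⟨rfl, rfl⟩ | ⟨rfl, rfl⟩
      · rcases ih with ⟨q', hq'⟩ | ⟨k1, k2, hk, ⟨-, hb⟩ | ⟨-, ⟨qb, hqb⟩⟩⟩
        · exact Or.inr ⟨0, q.length, by omega, Or.inl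
            ⟨⟨SimpleGraph.Walk.nil, le_refl _⟩, ⟨q', hq'⟩⟩⟩
        · exact Or.inr ⟨0, k2, by omega, Or.inl ⟨⟨SimpleGraph.Walk.nil, le_refl _⟩, hb⟩⟩
        · exact Or.inl ⟨qb, by omega⟩
      · rcases ih with ⟨q', hq'⟩ | ⟨k1, k2, hk, ⟨-, ⟨qb, hqb⟩⟩ | ⟨-, hb⟩⟩
        · exact Or.inr ⟨0, q.length, by omega, Or.inr
            ⟨⟨SimpleGraph.Walk.nil, le_refl _⟩, ⟨q', hq'⟩⟩⟩
        · exact Or.inl ⟨qb, by omega⟩
        · exact Or.inr ⟨0, k2, by omega, Or.inr ⟨⟨SimpleGraph.Walk.nil, le_refl _⟩, hb⟩⟩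

namespace PPair

variable {n d : ℕ} (π : PPair n d)

/-- the graph after an exposure -/
theorem nbw_graph_resolve {u v : Stub n d} (hu : π.Unres u) (hv : π.Unres v) (huv : u ≠ v) :
    (π.resolve u v).graph = π.graph ⊔ SimpleGraph.edge u.1 v.1 := by
  ext a b
  rw [SimpleGraph.sup_adj, SimpleGraph.edge_adj]
  show (a ≠ b ∧ 0 < (π.resolve u v).acount a b) ↔ (a ≠ b ∧ 0 < π.acount a b) ∨ _
  rw [resolve_acount hu hv huv]
  by_cases h1 : u.1 = a ∧ v.1 = b
  · obtain ⟨rfl, rfl⟩ := h1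
    rw [if_pos ⟨rfl, rfl⟩]
    constructor
    · intro h
      exact Or.inr ⟨Or.inl ⟨rfl, rfl⟩, h.1⟩
    · rintro (h | h)
      · exact ⟨h.1, by omega⟩
      · exact ⟨h.2, by omega⟩
  · by_cases h2 : v.1 = a ∧ u.1 = b
    · obtain ⟨rfl, rfl⟩ := h2
      rw [if_pos (⟨rfl, rfl⟩ : v.1 = v.1 ∧ u.1 = u.1)]
      constructor
      · intro h
        exact Or.inr ⟨Or.inr ⟨rfl, rfl⟩, h.1⟩
      · rintro (h | h)
        · exact ⟨h.1, by omega⟩
        · exact ⟨h.2, by omega⟩
    · rw [if_neg h1, if_neg h2, add_zero, add_zero]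
      constructor
      · exact Or.inl
      · rintro (h | h)
        · exact h
        · rcases h.1 with ⟨rfl, rfl⟩ | ⟨rfl, rfl⟩
          · exact absurd ⟨rfl, rfl⟩ h1
          · exact absurd ⟨rfl, rfl⟩ h2

/-- NEW EDGE RULE for `nbwReach` -/
theorem nbw_reach_resolve {u v : Stub n d} (hu : π.Unres u) (hv : π.Unres v) (huv : u ≠ v) {k : ℕ}
    {a x : Fin n} (h : (π.resolve u v).nbwReach k a x) :
    π.nbwReach k a x ∨ ∃ k1 k2 : ℕ, k1 + 1 + k2 ≤ k ∧
      ((π.nbwReach k1 a u.1 ∧ π.nbwReach k2 v.1 x) ∨ (π.nbwReach k1 a v.1 ∧ π.nbwReach k2 u.1 x)) := by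
  obtain ⟨p, hp⟩ := h
  have hgr := π.nbw_graph_resolve hu hv huv
  rcases nbw_walk_sup_edge π.graph u.1 v.1 (p.copy rfl rfl |>.map (SimpleGraph.Hom.ofLE hgr.le)) with
    ⟨q, hq⟩ | ⟨k1, k2, hk, h⟩
  · left
    rw [SimpleGraph.Walk.length_map, SimpleGraph.Walk.length_copy] at hq
    exact ⟨q, hq.trans hp⟩
  · right
    rw [SimpleGraph.Walk.length_map, SimpleGraph.Walk.length_copy] at hk
    exact ⟨k1, k2, hk.trans hp, h⟩

/-! ### extensions -/

section Ext

variable {π₀ π : PPair n d} (hE : ∀ x, ¬ π₀.Unres x → π.mate x = π₀.mate x)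

include hE

theorem nbw_ext_res {x : Stub n d} (hx : ¬ π₀.Unres x) : ¬ π.Unres x := by
  intro h
  apply hx
  have h1 : π.mate x = x := h
  rw [hE x hx] at h1
  exact h1

theorem nbw_ext_new_mate {x : Stub n d} (h0 : π₀.Unres x) (h1 : ¬ π.Unres x) :
    π₀.Unres (π.mate x) := by
  by_contra hcon
  apply h1
  have h2 := hE _ hcon
  rw [π.mate_mate] at h2
  have h3 : π₀.mate x = π.mate x := by
    conv_lhs => rw [h2]
    exact π₀.mate_mate _
  have h4 : π₀.mate x = x := h0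
  show π.mate x = x
  rw [← h3, h4]

/-- first use of a new edge -/
theorem nbw_ext_first {j : ℕ} {x y : Stub n d} (h : π.nbwSW j x y) :
    π₀.nbwSW j x y ∨ ∃ k₁ ≤ j, ∃ s, π₀.Unres s ∧ ¬ π.Unres s ∧ π₀.Nact ℚ k₁ x.1 s.1 ≠ 0 := by
  induction j generalizing y with
  | zero =>
    obtain ⟨h1, h2⟩ := h
    by_cases hx : π₀.Unres x
    · exact Or.inr ⟨0, le_refl _, x, hx, h1, (π₀.nbw_Nact_zero_ne_zero _ _).2 rfl⟩
    · exact Or.inl ⟨hx, by rw [← hE x hx]; exact h2⟩
  | succ j ih =>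
    obtain ⟨y', x', h1, h2, h3, h4, h5⟩ := h
    rcases ih h1 with h6 | ⟨k₁, hk, s, hs⟩
    · by_cases hx : π₀.Unres x'
      · refine Or.inr ⟨j + 1, le_refl _, x', hx, h4, ?_⟩
        rw [nbw_Nact_succ_ne_zero]
        exact ⟨x, y', rfl, h2, h6⟩
      · exact Or.inl ⟨y', x', h6, h2, h3, hx, by rw [← hE x' hx]; exact h5⟩
    · exact Or.inr ⟨k₁, by omega, s, hs⟩

/-- a short NB walk of the extension uses at most one new edge, if the new stubs are far apart and have no short return -/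
theorem nbw_ext_decomp (G : ℕ)
    (H1 : ∀ s t, π₀.Unres s → π₀.Unres t → ¬ π.Unres s → ¬ π.Unres t → s ≠ t → π₀.Far G s.1 t.1)
    (H2 : ∀ s, π₀.Unres s → ¬ π.Unres s → ∀ k, 1 ≤ k → k ≤ G → π₀.Nact ℚ k s.1 s.1 = 0)
    {j : ℕ} {x y : Stub n d} (hj : j ≤ G) (h : π.nbwSW j x y) :
    π₀.nbwSW j x y ∨ ∃ s, π₀.Unres s ∧ ¬ π.Unres s ∧ ∃ i ≤ j, π₀.Nact ℚ i x.1 s.1 ≠ 0 ∧
      ((i = j ∧ y = π.mate s) ∨
        ∃ x₂ m, i + m + 1 = j ∧ x₂.1 = (π.mate s).1 ∧ π₀.nbwSW m x₂ y) := by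
  induction j generalizing y with
  | zero =>
    obtain ⟨h1, h2⟩ := h
    by_cases hx : π₀.Unres x
    · exact Or.inr ⟨x, hx, h1, 0, le_refl _, (π₀.nbw_Nact_zero_ne_zero _ _).2 rfl,
        Or.inl ⟨rfl, h2.symm⟩⟩
    · exact Or.inl ⟨hx, by rw [← hE x hx]; exact h2⟩
  | succ j ih =>
    obtain ⟨y', x', h1, h2, h3, h4, h5⟩ := h
    rcases ih (by omega) h1 with h6 | ⟨s, hs0, hs1, i, hi, hN, halt⟩
    · by_cases hx : π₀.Unres x'
      · refine Or.inr ⟨x', hx, h4, j + 1, le_refl _, ?_, Or.inl ⟨rfl, h5.symm⟩⟩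
        rw [nbw_Nact_succ_ne_zero]
        exact ⟨x, y', rfl, h2, h6⟩
      · exact Or.inl ⟨y', x', h6, h2, h3, hx, by rw [← hE x' hx]; exact h5⟩
    · have ht0 : π₀.Unres (π.mate s) := nbw_ext_new_mate hE hs0 hs1
      have ht1 : ¬ π.Unres (π.mate s) := π.nbw_unres_mate hs1
      by_cases hx : π₀.Unres x'
      · -- a second new edge: impossible
        exfalso
        rcases halt with ⟨-, hy'⟩ | ⟨x₂, m, hm, hx₂, hSW⟩
        · have hne : π.mate s ≠ x' := by rw [← hy']; exact h3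
          have := H1 _ _ ht0 hx ht1 h4 hne 0 (by omega)
          rw [← hy', h2] at this
          exact (π₀.nbw_Nact_zero_ne_zero _ _).2 rfl this
        · have hN2 : π₀.Nact ℚ (m + 1) (π.mate s).1 x'.1 ≠ 0 := by
            rw [nbw_Nact_succ_ne_zero]
            exact ⟨x₂, y', hx₂, h2, hSW⟩
          by_cases hne : π.mate s = x'
          · rw [← hne] at hN2
            exact hN2 (H2 _ ht0 ht1 (m + 1) (by omega) (by omega))
          · exact hN2 (H1 _ _ ht0 hx ht1 h4 hne (m + 1) (by omega))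
      · have hm' : π₀.mate x' = y := by rw [← hE x' hx]; exact h5
        refine Or.inr ⟨s, hs0, hs1, i, by omega, hN, Or.inr ?_⟩
        rcases halt with ⟨hij, hy'⟩ | ⟨x₂, m, hm, hx₂, hSW⟩
        · exact ⟨x', 0, by omega, by rw [← h2, hy'], hx, hm'⟩
        · exact ⟨x₂, m + 1, by omega, hx₂, y', x', hSW, h2, h3, hx, hm'⟩

/-- the girth exclusion survives an extension whose new stubs are far apart and have no short return -/
theorem nbw_ext_girth (g G : ℕ) (hgG : g ≤ G + 2) (hg : π₀.GirthGE g)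
    (H1 : ∀ s t, π₀.Unres s → π₀.Unres t → ¬ π.Unres s → ¬ π.Unres t → s ≠ t → π₀.Far G s.1 t.1)
    (H2 : ∀ s, π₀.Unres s → ¬ π.Unres s → ∀ k, 1 ≤ k → k ≤ G → π₀.Nact ℚ k s.1 s.1 = 0) :
    π.GirthGE g := by
  intro a k hk hk1
  by_contra hcon
  obtain ⟨j, rfl⟩ : ∃ j, k = j + 1 := ⟨k - 1, by omega⟩
  rw [← Ne, nbw_Nact_succ_ne_zero] at hcon
  obtain ⟨x, y, hx, hy, hSW⟩ := hcon
  rcases nbw_ext_decomp hE G H1 H2 (by omega) hSW with h | ⟨s, hs0, hs1, i, hi, hN, halt⟩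
  · exact (π₀.nbw_Nact_succ_ne_zero j a a).2 ⟨x, y, hx, hy, h⟩ (hg a (j + 1) hk hk1)
  · have ht0 : π₀.Unres (π.mate s) := nbw_ext_new_mate hE hs0 hs1
    have ht1 : ¬ π.Unres (π.mate s) := π.nbw_unres_mate hs1
    have hne : π.mate s ≠ s := hs1
    have hfar := H1 _ _ ht0 hs0 ht1 hs1 hne
    have hR1 : π₀.nbwReach i x.1 s.1 :=
      (π₀.nbw_not_far_iff i _ _).1 ((π₀.nbw_not_far i _ _).2 ⟨i, le_refl _, hN⟩)
    apply (π₀.nbw_not_far_iff G (π.mate s).1 s.1).2 _ hfar
    rcases halt with ⟨-, hy'⟩ | ⟨x₂, m, hm, hx₂, hSW₂⟩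
    · rw [← hy', hy, ← hx]
      exact hR1.mono (by omega)
    · have hR2 := hSW₂.reach
      rw [hx₂, hy, ← hx] at hR2
      exact (hR2.trans hR1).mono (by omega)

end Ext

/-! ### one exposure as an extension -/

theorem nbw_resolve_ext {u v : Stub n d} (hu : π.Unres u) (hv : π.Unres v) :
    ∀ x, ¬ π.Unres x → (π.resolve u v).mate x = π.mate x := by
  intro x hx
  rw [resolve_mate hu hv]
  have h1 : x ≠ u := fun h => hx (h ▸ hu)
  have h2 : x ≠ v := fun h => hx (h ▸ hv)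
  rw [if_neg h1, if_neg h2]

theorem nbw_resolve_unres_iff {u v : Stub n d} (hu : π.Unres u) (hv : π.Unres v) (huv : u ≠ v)
    (x : Stub n d) : (π.resolve u v).Unres x ↔ π.Unres x ∧ x ≠ u ∧ x ≠ v := by
  have h := congrArg (fun s => x ∈ s) (resolve_unres hu hv huv)
  simp only [unres, Finset.mem_erase, Finset.mem_filter, Finset.mem_univ, true_and, eq_iff_iff] at h
  rw [h]
  tauto

theorem nbw_resolve_new {u v : Stub n d} (hu : π.Unres u) (hv : π.Unres v) (huv : u ≠ v)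
    {s : Stub n d} (h0 : π.Unres s) (h1 : ¬ (π.resolve u v).Unres s) : s = u ∨ s = v := by
  rw [nbw_resolve_unres_iff π hu hv huv] at h1
  by_contra hcon
  push Not at hcon
  exact h1 ⟨h0, hcon.1, hcon.2⟩

/-- a new walk either avoids the new edge or reaches one of its endpoints earlier by an old walk -/
theorem nbw_Nact_resolve {u v : Stub n d} (hu : π.Unres u) (hv : π.Unres v) (huv : u ≠ v)
    (k : ℕ) (a b : Fin n) (h : (π.resolve u v).Nact ℚ k a b ≠ 0) :
    π.Nact ℚ k a b ≠ 0 ∨ ∃ k₁ < k, π.Nact ℚ k₁ a u.1 ≠ 0 ∨ π.Nact ℚ k₁ a v.1 ≠ 0 := by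
  cases k with
  | zero =>
    left
    rw [nbw_Nact_zero_ne_zero] at h ⊢
    exact h
  | succ j =>
    rw [nbw_Nact_succ_ne_zero] at h
    obtain ⟨x, y, hx, hy, hSW⟩ := h
    rcases nbw_ext_first (π.nbw_resolve_ext hu hv) hSW with h | ⟨k₁, hk, s, hs0, hs1, hN⟩
    · left
      rw [nbw_Nact_succ_ne_zero]
      exact ⟨x, y, hx, hy, h⟩
    · right
      refine ⟨k₁, by omega, ?_⟩
      rw [hx] at hN
      rcases π.nbw_resolve_new hu hv huv hs0 hs1 with rfl | rfl
      · exact Or.inl hN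
      · exact Or.inr hN

/-- joining two vertices at distance `> g` keeps the girth `≥ g` -/
theorem nbw_girth_resolve {u v : Stub n d} (hu : π.Unres u) (hv : π.Unres v) (huv : u ≠ v) (g : ℕ)
    (hg : π.GirthGE g) (hfar : π.Far g u.1 v.1) : (π.resolve u v).GirthGE g := by
  refine nbw_ext_girth (π.nbw_resolve_ext hu hv) g (g - 1) (by omega) hg ?_ ?_
  · intro s t hs0 ht0 hs1 ht1 hst
    have hfar' : π.Far (g - 1) u.1 v.1 := π.nbw_far_mono (by omega) hfar
    rcases π.nbw_resolve_new hu hv huv hs0 hs1 with rfl | rfl <;>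
      rcases π.nbw_resolve_new hu hv huv ht0 ht1 with rfl | rfl
    · exact absurd rfl hst
    · exact hfar'
    · exact π.nbw_far_symm hfar'
    · exact absurd rfl hst
  · intro s _ _ k hk1 hk
    exact hg s.1 k (by omega) hk1

/-- a stub which is not bad stays not bad when two OTHER unresolved stubs are joined -/
theorem nbw_clean_resolve {u v x : Stub n d} (hu : π.Unres u) (hv : π.Unres v) (huv : u ≠ v) (R : ℕ)
    (hx : π.Unres x) (hxu : x ≠ u) (hxv : x ≠ v) (hc : ¬ π.Bad R x) : ¬ (π.resolve u v).Bad R x := by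
  have hc1 : ¬ π.HasRet R x.1 := fun h => hc ⟨hx, Or.inl h⟩
  have hc2 : ∀ y, π.Unres y → y ≠ x → π.Far R x.1 y.1 := by
    intro y hy hyx
    by_contra hcon
    exact hc ⟨hx, Or.inr ⟨y, hy, hyx, hcon⟩⟩
  have hold : ∀ k ≤ R, ∀ b, (π.resolve u v).Nact ℚ k x.1 b ≠ 0 → π.Nact ℚ k x.1 b ≠ 0 := by
    intro k hk b h
    rcases π.nbw_Nact_resolve hu hv huv k x.1 b h with h | ⟨k₁, hk₁, h | h⟩
    · exact h
    · exact absurd (hc2 u hu hxu.symm k₁ (by omega)) h
    · exact absurd (hc2 v hv hxv.symm k₁ (by omega)) h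
  rintro ⟨-, ⟨k, hk, hk1, h⟩ | ⟨y, hy, hyx, h⟩⟩
  · exact hc1 ⟨k, hk, hk1, hold k (by omega) _ h⟩
  · rw [nbw_not_far] at h
    obtain ⟨j, hj, h⟩ := h
    have hy' : π.Unres y := ((π.nbw_resolve_unres_iff hu hv huv y).1 hy).1
    exact hold j hj _ h (hc2 y hy' hyx j (by omega))

/-! ### balls -/

theorem nbw_reach_one_iff {v w : Fin n} (hne : w ≠ v) : π.nbwReach 1 v w ↔ π.graph.Adj v w := by
  constructor
  · rintro ⟨p, hp⟩
    cases p with
    | nil => exact absurd rfl hne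
    | cons h q =>
      rw [SimpleGraph.Walk.length_cons] at hp
      have : q.length = 0 := by omega
      have := SimpleGraph.Walk.eq_of_length_eq_zero this
      subst this
      exact h
  · intro h
    exact ⟨SimpleGraph.Walk.cons h SimpleGraph.Walk.nil, by simp⟩

open Classical in
/-- every vertex has at most `d` neighbours -/
theorem nbw_card_adj_le (v : Fin n) : (Finset.univ.filter fun w => π.graph.Adj v w).card ≤ d := by
  have hsub : (Finset.univ.filter fun w => π.graph.Adj v w) ⊆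
      (Finset.univ : Finset (Fin d)).image fun i => (π.mate (v, i)).1 := by
    intro w hw
    obtain ⟨x, hx1, -, hx3⟩ := nbw_exists_stub (Finset.mem_filter.1 hw).2
    refine Finset.mem_image.2 ⟨x.2, Finset.mem_univ _, ?_⟩
    rw [← hx3, ← hx1]
  refine (Finset.card_le_card hsub).trans (Finset.card_image_le.trans ?_)
  rw [Finset.card_univ, Fintype.card_fin]

open Classical in
/-- balls -/
theorem nbw_card_ball_le (k : ℕ) (v : Fin n) :
    (Finset.univ.filter fun w => π.nbwReach k v w).card ≤ ∑ j ∈ Finset.range (k + 1), d ^ j := by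
  induction k generalizing v with
  | zero =>
    have : (Finset.univ.filter fun w => π.nbwReach 0 v w) ⊆ {v} := by
      intro w hw
      obtain ⟨p, hp⟩ := (Finset.mem_filter.1 hw).2
      rw [Finset.mem_singleton]
      exact (SimpleGraph.Walk.eq_of_length_eq_zero (Nat.le_zero.1 hp)).symm
    simpa using Finset.card_le_card this
  | succ k ih =>
    have hsub : (Finset.univ.filter fun w => π.nbwReach (k + 1) v w) ⊆
        insert v ((Finset.univ.filter fun u => π.graph.Adj v u).biUnion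
          fun u => Finset.univ.filter fun w => π.nbwReach k u w) := by
      intro w hw
      obtain ⟨p, hp⟩ := (Finset.mem_filter.1 hw).2
      cases p with
      | nil => exact Finset.mem_insert_self _ _
      | @cons _ u _ h q =>
        rw [SimpleGraph.Walk.length_cons] at hp
        refine Finset.mem_insert_of_mem (Finset.mem_biUnion.2 ⟨u, ?_, ?_⟩)
        · exact Finset.mem_filter.2 ⟨Finset.mem_univ _, h⟩
        · exact Finset.mem_filter.2 ⟨Finset.mem_univ _, q, by omega⟩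
    refine (Finset.card_le_card hsub).trans ((Finset.card_insert_le _ _).trans ?_)
    have h1 : ((Finset.univ.filter fun u => π.graph.Adj v u).biUnion
          fun u => Finset.univ.filter fun w => π.nbwReach k u w).card
        ≤ d * ∑ j ∈ Finset.range (k + 1), d ^ j := by
      refine Finset.card_biUnion_le.trans ?_
      refine (Finset.sum_le_card_nsmul _ _ _ fun u _ => ih u).trans ?_
      rw [smul_eq_mul]
      exact Nat.mul_le_mul_right _ (π.nbw_card_adj_le v)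
    rw [Finset.sum_range_succ' _ (k + 1), pow_zero]
    have h2 : ∑ j ∈ Finset.range (k + 1), d ^ (j + 1) = d * ∑ j ∈ Finset.range (k + 1), d ^ j := by
      rw [Finset.mul_sum]
      exact Finset.sum_congr rfl fun j _ => by rw [pow_succ, mul_comm]
    rw [h2]
    omega

end PPair

end Claimed.Agent.R275
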