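import Claimed.Agent.R275.S51Fun

/-!
# Row 275, Sec 5.1, package S51-AVG: means and second moments of the trace increments over the valid pairs (LAYER B, Lemma 5.3 abstract)

Blueprint: helper194.  Prefix `s51`.  NO PAPER NEEDED (early.tex l. 117-316 is the source; every estimate below was re-derived by hand).
Setting of `S5Base`/`S5Rank2`: `S` unresolved stubs, `l = |S|`, `Vd` valid ordered pairs, `D` symmetric centred (`S5R2`), and stub matrices `K, Q, J`.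
All sums over ordered pairs.  GENERAL SCHEME for a signed mean (`f` = increment, `P` = its polynomial part, defined for all pairs):
     `∑_{Vd} f = ∑_{S.offDiag} P - ∑_{S.offDiag \ Vd} P + ∑_{Vd} (f - P)`,   `|Vd| ≥ l²/2` (`s5_card_valid_half`).
* full sums: `s5_sum_H0` (`= 0`), `s5_sum_B` (`= 2 l Tr`), `s5_sum_FF`, after `s51_swap_corr` (cost `C a b / l` per pair);
* forbidden pairs: at most `l Dg` of them (`s5_card_forb`), or `s5_sum_forb_one` for one-endpoint majorants;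
* remainders: `s51_dL1_rem`, `s51_dL0_rem`, `s51_dT_rem` and `∑_{S.offDiag} s51n D_p ≤ 2 l N + l C0`.

L1.  `∑_{offDiag} P_1 = 2 l Tr D [h² (Tr K / l - 1) - 1] + 2 h² (Tr(DK) - 2 ∑ D_xx K_xx) + corr`,  `|∑ D_xx K_xx| ≤ C0 √(l N) ≤ C0 l (N + 1)`.
T.   `∑_{offDiag} P_T = 2 l Tr Q [h² (Tr K / l - 1) - 1] + 2 h² (Tr(QK) - 2 ∑ Q_xx K_xx) + 4 h² (Tr D Tr J + Tr(DJ) - 2 ∑ D_xx J_xx) + corr`;
     `Tr(QK) ≥ 0` is DROPPED (we only need a lower bound), `∑ Q_xx K_xx ≤ C0 Tr Q`.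
-/

set_option autoImplicit false

namespace Claimed.Agent.R275

open Matrix Finset

/-! ## general tools -/

section s51v

variable {α : Type} [DecidableEq α]

omit [DecidableEq α] in
theorem s51v_pblk00 (X : Matrix α α ℝ) (u v : α) : pblk X u v 0 0 = X u u := rfl
omit [DecidableEq α] in
theorem s51v_pblk01 (X : Matrix α α ℝ) (u v : α) : pblk X u v 0 1 = X u v := rfl
omit [DecidableEq α] in
theorem s51v_pblk10 (X : Matrix α α ℝ) (u v : α) : pblk X u v 1 0 = X v u := rfl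
omit [DecidableEq α] in
theorem s51v_pblk11 (X : Matrix α α ℝ) (u v : α) : pblk X u v 1 1 = X v v := rfl

omit [DecidableEq α] in
theorem s51v_le_pblk {X : Matrix α α ℝ} {u v : α} {κ : ℝ} (h1 : |X u u| ≤ κ) (h2 : |X u v| ≤ κ)
    (h3 : |X v u| ≤ κ) (h4 : |X v v| ≤ κ) : s51Le (pblk X u v) κ := by
  intro i j
  fin_cases i <;> fin_cases j
  · exact h1
  · exact h2
  · exact h3
  · exact h4

/-- sums over all ordered distinct pairs are dominated by the double sum -/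
theorem s51v_off_le (S : Finset α) (g : α → α → ℝ) (hg : ∀ u ∈ S, 0 ≤ g u u) :
    ∑ p ∈ S.offDiag, g p.1 p.2 ≤ ∑ u ∈ S, ∑ v ∈ S, g u v := by
  rw [s5b_sum_offDiag]
  linarith [Finset.sum_nonneg hg]

/-- sums over a set of ordered distinct pairs with a nonnegative two-endpoint majorant -/
theorem s51v_sum_le {S : Finset α} {T : Finset (α × α)} (hT : T ⊆ S.offDiag) (f : α × α → ℝ)
    (g : α → α → ℝ) (hg : ∀ u ∈ S, ∀ v ∈ S, 0 ≤ g u v) (hf : ∀ p ∈ T, f p ≤ g p.1 p.2) :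
    ∑ p ∈ T, f p ≤ ∑ u ∈ S, ∑ v ∈ S, g u v := by
  refine (Finset.sum_le_sum hf).trans ?_
  refine (Finset.sum_le_sum_of_subset_of_nonneg hT fun p hp _ => ?_).trans
    (s51v_off_le S g fun u hu => hg u hu u hu)
  have := Finset.mem_offDiag.1 hp
  exact hg _ this.1 _ this.2.1

/-- one-endpoint majorants on a set of pairs -/
theorem s51v_sum_one {S : Finset α} {T : Finset (α × α)} (hT : T ⊆ S.offDiag) (f : α × α → ℝ)
    (a : α → ℝ) (ha : ∀ x ∈ S, 0 ≤ a x) (hf : ∀ p ∈ T, |f p| ≤ a p.1 + a p.2) :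
    |∑ p ∈ T, f p| ≤ 2 * (S.card : ℝ) * ∑ x ∈ S, a x := by
  refine (Finset.abs_sum_le_sum_abs _ _).trans ?_
  refine (s51v_sum_le hT (fun p => |f p|) (fun u v => a u + a v)
    (fun u hu v hv => add_nonneg (ha u hu) (ha v hv)) hf).trans (le_of_eq ?_)
  simp only [Finset.sum_add_distrib, Finset.sum_const, nsmul_eq_mul, ← Finset.mul_sum]
  ring

/-- one-endpoint majorants on the forbidden pairs -/
theorem s51v_sum_forb {S : Finset α} {Vd : Finset (α × α)} {Dg : ℕ} (hV : S5Valid S Vd Dg)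
    (f : α × α → ℝ) (a : α → ℝ) (ha : ∀ x ∈ S, 0 ≤ a x)
    (hf : ∀ p ∈ S.offDiag, |f p| ≤ a p.1 + a p.2) :
    |∑ p ∈ S.offDiag \ Vd, f p| ≤ 2 * (Dg : ℝ) * ∑ x ∈ S, a x := by
  refine (Finset.abs_sum_le_sum_abs _ _).trans ?_
  refine (Finset.sum_le_sum fun p hp => hf p (Finset.mem_sdiff.1 hp).1).trans ?_
  rw [Finset.sum_add_distrib]
  have := s5_sum_forb_one hV a ha
  linarith [this.1, this.2]

theorem s51v_decomp {S : Finset α} {Vd : Finset (α × α)} (hV : Vd ⊆ S.offDiag) (f P : α × α → ℝ) :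
    ∑ p ∈ Vd, f p = ∑ p ∈ S.offDiag, P p - ∑ p ∈ S.offDiag \ Vd, P p + ∑ p ∈ Vd, (f p - P p) := by
  rw [← Finset.sum_sdiff hV (f := P), Finset.sum_sub_distrib]
  ring

/-- lower signed mean -/
theorem s51v_mean_lower {S : Finset α} {Vd : Finset (α × α)} {Dg : ℕ} (hV : S5Valid S Vd Dg)
    (hl : 8 ≤ S.card) (hDg : 4 * Dg ≤ S.card) (f P : α × α → ℝ) (M E1 E2 E3 : ℝ)
    (h1 : M - E1 ≤ ∑ p ∈ S.offDiag, P p) (h2 : |∑ p ∈ S.offDiag \ Vd, P p| ≤ E2)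
    (h3 : |∑ p ∈ Vd, (f p - P p)| ≤ E3) (hE : 0 ≤ E1) :
    M / (Vd.card : ℝ) - 2 * (E1 + E2 + E3) / (S.card : ℝ) ^ 2 ≤ avgOn Vd f := by
  have hc := s5_card_valid_half hV hl hDg
  have hl0 : (0 : ℝ) < S.card := by exact_mod_cast (show 0 < S.card by omega)
  have hh : (0 : ℝ) < (S.card : ℝ) ^ 2 / 2 := by positivity
  have hv : (0 : ℝ) < Vd.card := lt_of_lt_of_le hh hc
  have hE2 : 0 ≤ E2 := (abs_nonneg _).trans h2
  have hE3 : 0 ≤ E3 := (abs_nonneg _).trans h3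
  have hs : M - (E1 + E2 + E3) ≤ ∑ p ∈ Vd, f p := by
    rw [s51v_decomp hV.sub f P]
    have a2 := (abs_le.1 h2).2
    have a3 := (abs_le.1 h3).1
    linarith
  have e1 : (E1 + E2 + E3) / (Vd.card : ℝ) ≤ 2 * (E1 + E2 + E3) / (S.card : ℝ) ^ 2 := by
    calc (E1 + E2 + E3) / (Vd.card : ℝ) ≤ (E1 + E2 + E3) / ((S.card : ℝ) ^ 2 / 2) :=
          div_le_div_of_nonneg_left (by positivity) hh hc
      _ = 2 * (E1 + E2 + E3) / (S.card : ℝ) ^ 2 := by field_simp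
  have e2 : (M - (E1 + E2 + E3)) / (Vd.card : ℝ) ≤ avgOn Vd f :=
    div_le_div_of_nonneg_right hs hv.le
  rw [sub_div] at e2
  linarith

/-- two-sided signed mean -/
theorem s51v_mean {S : Finset α} {Vd : Finset (α × α)} {Dg : ℕ} (hV : S5Valid S Vd Dg)
    (hl : 8 ≤ S.card) (hDg : 4 * Dg ≤ S.card) (f P : α × α → ℝ) (M E1 E2 E3 : ℝ)
    (h1 : |∑ p ∈ S.offDiag, P p - M| ≤ E1) (h2 : |∑ p ∈ S.offDiag \ Vd, P p| ≤ E2)
    (h3 : |∑ p ∈ Vd, (f p - P p)| ≤ E3) :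
    |avgOn Vd f - M / (Vd.card : ℝ)| ≤ 2 * (E1 + E2 + E3) / (S.card : ℝ) ^ 2 := by
  have hE : 0 ≤ E1 := (abs_nonneg _).trans h1
  have a1 := abs_le.1 h1
  have l1 := s51v_mean_lower hV hl hDg f P M E1 E2 E3 (by linarith [a1.1]) h2 h3 hE
  have l2 := s51v_mean_lower hV hl hDg (fun p => -f p) (fun p => -P p) (-M) E1 E2 E3
    (by rw [Finset.sum_neg_distrib]; linarith [a1.2])
    (by rw [Finset.sum_neg_distrib, abs_neg]; exact h2)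
    (by
      have : ∑ p ∈ Vd, (-f p - -P p) = -∑ p ∈ Vd, (f p - P p) := by
        rw [← Finset.sum_neg_distrib]
        exact Finset.sum_congr rfl fun p _ => by ring
      rw [this, abs_neg]; exact h3) hE
  have e : avgOn Vd (fun p => -f p) = -avgOn Vd f := by
    unfold avgOn
    rw [Finset.sum_neg_distrib, neg_div]
  rw [e, neg_div] at l2
  rw [abs_le]
  constructor <;> linarith

/-- averages of nonnegative majorants -/
theorem s51v_avg_le {S : Finset α} {Vd : Finset (α × α)} {Dg : ℕ} (hV : S5Valid S Vd Dg)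
    (hl : 8 ≤ S.card) (hDg : 4 * Dg ≤ S.card) (f : α × α → ℝ) (E : ℝ) (hE : 0 ≤ E)
    (h : ∑ p ∈ Vd, f p ≤ E) : avgOn Vd f ≤ 2 * E / (S.card : ℝ) ^ 2 := by
  have hc := s5_card_valid_half hV hl hDg
  have hl0 : (0 : ℝ) < S.card := by exact_mod_cast (show 0 < S.card by omega)
  have hh : (0 : ℝ) < (S.card : ℝ) ^ 2 / 2 := by positivity
  unfold avgOn
  calc (∑ p ∈ Vd, f p) / (Vd.card : ℝ) ≤ E / (Vd.card : ℝ) :=
        div_le_div_of_nonneg_right h (Nat.cast_nonneg _)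
    _ ≤ E / ((S.card : ℝ) ^ 2 / 2) := div_le_div_of_nonneg_left hE hh hc
    _ = 2 * E / (S.card : ℝ) ^ 2 := by field_simp

end s51v

/-! ## consequences of the standing hypotheses -/

section s51w

variable {α : Type} [DecidableEq α] {C0 N Z : ℝ} {S : Finset α} {Vd : Finset (α × α)} {Dg : ℕ}
  {σ h : ℝ} {D : Matrix α α ℝ}

theorem s51v_card (R : S5R2 C0 N Z S Vd Dg σ h D) : (32 : ℝ) ≤ S.card := by exact_mod_cast R.hl

theorem s51v_ne (R : S5R2 C0 N Z S Vd Dg σ h D) : S.Nonempty :=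
  Finset.card_pos.1 (by have := R.hl; omega)

theorem s51v_C0 (R : S5R2 C0 N Z S Vd Dg σ h D) : 0 ≤ C0 := by
  obtain ⟨x, hx⟩ := s51v_ne R
  exact (abs_nonneg _).trans (R.ent x hx x hx)

theorem s51v_N (R : S5R2 C0 N Z S Vd Dg σ h D) : 0 ≤ N :=
  (Finset.sum_nonneg fun _ _ => sq_nonneg _).trans R.diag

theorem s51v_h2 (R : S5R2 C0 N Z S Vd Dg σ h D) : 0 ≤ h ^ 2 ∧ h ^ 2 ≤ 1 :=
  ⟨sq_nonneg _, pow_le_one₀ R.hh.le R.hh1⟩

theorem s51v_D_le (R : S5R2 C0 N Z S Vd Dg σ h D) {u v : α} (hu : u ∈ S) (hv : v ∈ S) :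
    s51Le (pblk D u v) C0 :=
  s51v_le_pblk (R.ent u hu u hu) (R.ent u hu v hv) (R.ent v hv u hu) (R.ent v hv v hv)

theorem s51v_mem (R : S5R2 C0 N Z S Vd Dg σ h D) {p : α × α} (hp : p ∈ Vd) : p.1 ∈ S ∧ p.2 ∈ S := by
  have := Finset.mem_offDiag.1 (R.valid.sub hp)
  exact ⟨this.1, this.2.1⟩

/-- `∑_{Vd} ‖D_p‖² ≤ l (2 N + C0)` -/
theorem s51v_sum_n (R : S5R2 C0 N Z S Vd Dg σ h D) :
    ∑ p ∈ Vd, s51n (pblk D p.1 p.2) ≤ (S.card : ℝ) * (2 * N + C0) := by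
  refine (s51v_sum_le R.valid.sub _ (fun u v => D u u ^ 2 + D v v ^ 2 + D u v ^ 2)
    (fun _ _ _ _ => by positivity) (fun p _ => le_rfl)).trans ?_
  simp only [Finset.sum_add_distrib, Finset.sum_const, nsmul_eq_mul, ← Finset.mul_sum]
  have h1 : ∑ u ∈ S, ∑ v ∈ S, D u v ^ 2 ≤ (S.card : ℝ) * C0 := by
    refine (Finset.sum_le_sum R.row).trans (le_of_eq ?_)
    rw [Finset.sum_const, nsmul_eq_mul]
  have h2 := mul_le_mul_of_nonneg_left R.diag (Nat.cast_nonneg (α := ℝ) S.card)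
  linarith

/-- `∑ |D_xx| ≤ l (N + 1)` -/
theorem s51v_sum_absD (R : S5R2 C0 N Z S Vd Dg σ h D) :
    ∑ x ∈ S, |D x x| ≤ (S.card : ℝ) * (N + 1) := by
  have h1 : ∑ x ∈ S, |D x x| ≤ ∑ x ∈ S, (D x x ^ 2 + 1) := by
    refine Finset.sum_le_sum fun x _ => ?_
    have := sq_nonneg (|D x x| - 1)
    rw [sub_sq, sq_abs] at this
    nlinarith [abs_nonneg (D x x), sq_nonneg (D x x)]
  rw [Finset.sum_add_distrib, Finset.sum_const, nsmul_eq_mul, mul_one] at h1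
  have h2 := s51v_card R
  have h3 := s51v_N R
  have h4 := R.diag
  nlinarith

theorem s51v_sum_DX (R : S5R2 C0 N Z S Vd Dg σ h D) (X : Matrix α α ℝ) (κ : ℝ) (hκ : 0 ≤ κ)
    (hX : ∀ x ∈ S, |X x x| ≤ κ) : |∑ x ∈ S, D x x * X x x| ≤ κ * ((S.card : ℝ) * (N + 1)) := by
  refine (Finset.abs_sum_le_sum_abs _ _).trans ?_
  refine le_trans ?_ (mul_le_mul_of_nonneg_left (s51v_sum_absD R) hκ)
  rw [Finset.mul_sum]
  refine Finset.sum_le_sum fun x hx => ?_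
  rw [abs_mul, mul_comm]
  exact mul_le_mul_of_nonneg_right (hX x hx) (abs_nonneg _)

end s51w

/-- the double contraction `∑ Tr (H_0 A_p H_0 B_p)`, up to the swap corrections -/
theorem s51v_sum_HH : ∃ C : ℝ, 0 < C ∧ ∀ (α : Type) [DecidableEq α] (S : Finset α) (σ h : ℝ)
    (A B : Matrix α α ℝ) (w : α → ℝ), 4 ≤ S.card → σ ^ 2 = 1 → 0 < h → h ≤ 1 →
    (∀ x y, A x y = A y x) → (∀ x ∈ S, 0 ≤ w x) →
    (∀ u ∈ S, ∀ v ∈ S, ∃ a b : ℝ, s51Le (pblk A u v) a ∧ s51Le (pblk B u v) b ∧ a * b ≤ w u + w v) →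
    |∑ p ∈ S.offDiag, (H0 S.card σ h * pblk A p.1 p.2 * H0 S.card σ h * pblk B p.1 p.2).trace
      - 2 * h ^ 2 * (trS S A * trS S B + trS2 S A B - 2 * ∑ x ∈ S, A x x * B x x)| ≤
      C * ∑ x ∈ S, w x := by
  obtain ⟨C, hC, H⟩ := s51_swap_corr
  refine ⟨2 * C, by positivity, ?_⟩
  intro α _ S σ h A B w hl hσ hh hh1 hA hw hab
  have hl0 : (0 : ℝ) < S.card := by exact_mod_cast (show 0 < S.card by omega)
  have e : 2 * h ^ 2 * (trS S A * trS S B + trS2 S A B - 2 * ∑ x ∈ S, A x x * B x x) =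
      ∑ p ∈ S.offDiag, h ^ 2 * (F2 ℝ * pblk A p.1 p.2 * F2 ℝ * pblk B p.1 p.2).trace := by
    rw [← Finset.mul_sum, s5_sum_FF S A B hA]
    ring
  rw [e, ← Finset.sum_sub_distrib]
  have key := s51v_sum_one (S := S) (T := S.offDiag) (Finset.Subset.refl _)
    (fun p => (H0 S.card σ h * pblk A p.1 p.2 * H0 S.card σ h * pblk B p.1 p.2).trace
      - h ^ 2 * (F2 ℝ * pblk A p.1 p.2 * F2 ℝ * pblk B p.1 p.2).trace)
    (fun x => C / (S.card : ℝ) * w x) (fun x hx => mul_nonneg (by positivity) (hw x hx)) ?_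
  · refine key.trans (le_of_eq ?_)
    rw [← Finset.mul_sum]
    field_simp
  · intro p hp
    have hp' := Finset.mem_offDiag.1 hp
    obtain ⟨a, b, h1, h2, h3⟩ := hab p.1 hp'.1 p.2 hp'.2.1
    refine (H S.card σ h _ _ a b hl hσ hh hh1 h1 h2).trans ?_
    have : C * a * b / (S.card : ℝ) = C / (S.card : ℝ) * (a * b) := by ring
    rw [this, ← mul_add]
    exact mul_le_mul_of_nonneg_left h3 (by positivity)

/-- `Tr (H_0 X)² ≤ 9 (X_01² + X_10²) + 16 (X_00² + X_11²) / l²` -/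
theorem s51v_trH0_sq {l : ℕ} {σ h : ℝ} (hl : 4 ≤ l) (hσ : σ ^ 2 = 1) (hh : 0 < h) (hh1 : h ≤ 1)
    (X : Matrix (Fin 2) (Fin 2) ℝ) :
    (H0 l σ h * X).trace ^ 2 ≤ 9 * (X 0 1 ^ 2 + X 1 0 ^ 2) + 4 * (X 0 0 ^ 2 + X 1 1 ^ 2) / ((l : ℝ) - 2) ^ 2 := by
  obtain ⟨e0, e1, e2⟩ := s51f_eps hl
  have hx := s51f_absx hσ hh hh1
  rw [s51_tr_H0, one_div]
  set ε := ((l : ℝ) - 2)⁻¹ with hε
  have hx2 : (σ * h) ^ 2 ≤ 1 := by
    rw [← sq_abs]; exact pow_le_one₀ (abs_nonneg _) hx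
  have e : 4 * (X 0 0 ^ 2 + X 1 1 ^ 2) / ((l : ℝ) - 2) ^ 2 = 4 * ε ^ 2 * (X 0 0 ^ 2 + X 1 1 ^ 2) := by
    rw [hε, inv_pow]; ring
  rw [e]
  have h1 : ((1 + ε) * (X 0 1 + X 1 0) + ε * (X 0 0 + X 1 1)) ^ 2 ≤
      9 * (X 0 1 ^ 2 + X 1 0 ^ 2) + 4 * ε ^ 2 * (X 0 0 ^ 2 + X 1 1 ^ 2) := by
    have a1 : ((1 + ε) * (X 0 1 + X 1 0) + ε * (X 0 0 + X 1 1)) ^ 2 ≤
        2 * ((1 + ε) * (X 0 1 + X 1 0)) ^ 2 + 2 * (ε * (X 0 0 + X 1 1)) ^ 2 := by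
      nlinarith [sq_nonneg ((1 + ε) * (X 0 1 + X 1 0) - ε * (X 0 0 + X 1 1))]
    have a2 : ((1 + ε) * (X 0 1 + X 1 0)) ^ 2 ≤ 9 / 4 * (2 * (X 0 1 ^ 2 + X 1 0 ^ 2)) := by
      rw [mul_pow]
      have b1 : (1 + ε) ^ 2 ≤ 9 / 4 := by nlinarith
      have b2 : (X 0 1 + X 1 0) ^ 2 ≤ 2 * (X 0 1 ^ 2 + X 1 0 ^ 2) := by
        nlinarith [sq_nonneg (X 0 1 - X 1 0)]
      exact mul_le_mul b1 b2 (sq_nonneg _) (by norm_num)
    have a3 : (ε * (X 0 0 + X 1 1)) ^ 2 ≤ ε ^ 2 * (2 * (X 0 0 ^ 2 + X 1 1 ^ 2)) := by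
      rw [mul_pow]
      refine mul_le_mul_of_nonneg_left ?_ (sq_nonneg _)
      nlinarith [sq_nonneg (X 0 0 - X 1 1)]
    linarith
  calc (-(σ * h) * ((1 + ε) * (X 0 1 + X 1 0) + ε * (X 0 0 + X 1 1))) ^ 2
      = (σ * h) ^ 2 * ((1 + ε) * (X 0 1 + X 1 0) + ε * (X 0 0 + X 1 1)) ^ 2 := by ring
    _ ≤ 1 * ((1 + ε) * (X 0 1 + X 1 0) + ε * (X 0 0 + X 1 1)) ^ 2 :=
        mul_le_mul_of_nonneg_right hx2 (sq_nonneg _)
    _ ≤ _ := by rw [one_mul]; exact h1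

/-- hypotheses on `K_all` -/
structure S51K {α : Type} (C0 : ℝ) (S : Finset α) (K : Matrix α α ℝ) : Prop where
  symm : ∀ x y, K x y = K y x
  cent : CenteredOn S K
  ent : ∀ x ∈ S, ∀ y ∈ S, |K x y| ≤ C0

/-- hypotheses on `Q_all` (positive semidefinite, only through its `2 × 2` minors) -/
structure S51Q {α : Type} (CQ : ℝ) (S : Finset α) (Q : Matrix α α ℝ) : Prop where
  symm : ∀ x y, Q x y = Q y x
  cent : CenteredOn S Q
  diag0 : ∀ x ∈ S, 0 ≤ Q x x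
  off : ∀ x ∈ S, ∀ y ∈ S, |Q x y| ≤ (Q x x + Q y y) / 2
  diag : ∀ x ∈ S, Q x x ≤ CQ

/-- hypotheses on `J_all = Γ Q_all` (not symmetric): `|J_xy| ≤ jr y` (application: `jr y = C √((Q²)_yy)`), `jr ≤ κJ` -/
structure S51J {α : Type} (κJ : ℝ) (S : Finset α) (J : Matrix α α ℝ) (jr : α → ℝ) : Prop where
  cent : CenteredOn S J
  ent : ∀ x ∈ S, ∀ y ∈ S, |J x y| ≤ jr y
  sup : ∀ y ∈ S, jr y ≤ κJ

/-- the drift coefficient `a' = 2 l [h² (Tr K / l - 1) - 1] / |Vd|` -/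
noncomputable def s51a {α : Type} (S : Finset α) (Vd : Finset (α × α)) (h : ℝ) (K : Matrix α α ℝ) : ℝ :=
  2 * (S.card : ℝ) * (h ^ 2 * (trS S K / (S.card : ℝ) - 1) - 1) / (Vd.card : ℝ)

theorem s51v_tri {a b c e1 e2 : ℝ} (h1 : |a - (b + c)| ≤ e1) (h2 : |c| ≤ e2) : |a - b| ≤ e1 + e2 := by
  rw [abs_le] at *
  constructor <;> linarith [h1.1, h1.2, h2.1, h2.2]

theorem s51v_K_le {α : Type} {C0 : ℝ} {S : Finset α} {K : Matrix α α ℝ} (hK : S51K C0 S K) {u v : α}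
    (hu : u ∈ S) (hv : v ∈ S) : s51Le (pblk K u v) C0 :=
  s51v_le_pblk (hK.ent u hu u hu) (hK.ent u hu v hv) (hK.ent v hv u hu) (hK.ent v hv v hv)

/-- `𝔼 ‖D_p‖² ≤ C (N + C0) / l`. -/
theorem s51_avg_n {α : Type} [DecidableEq α] {C0 N Z : ℝ} {S : Finset α} {Vd : Finset (α × α)} {Dg : ℕ}
    {σ h : ℝ} {D : Matrix α α ℝ} (R : S5R2 C0 N Z S Vd Dg σ h D) :
    avgOn Vd (fun p => s51n (pblk D p.1 p.2)) ≤ 4 * (N + C0) / (S.card : ℝ) := by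
  have hl := s51v_card R
  have hC := s51v_C0 R
  have hN := s51v_N R
  have h1 := s51v_avg_le R.valid (by have := R.hl; omega) R.hDg (fun p => s51n (pblk D p.1 p.2)) _
    (by positivity) (s51v_sum_n R)
  refine h1.trans ?_
  have e : 2 * ((S.card : ℝ) * (2 * N + C0)) / (S.card : ℝ) ^ 2 = 2 * (2 * N + C0) / (S.card : ℝ) := by
    field_simp
  rw [e]
  exact div_le_div_of_nonneg_right (by linarith) (by linarith)

/-- full sum of `P_1`, exact up to the swap corrections. -/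
theorem s51_sum_P1 (C0 : ℝ) : ∃ C : ℝ, 0 < C ∧ ∀ (α : Type) [DecidableEq α] (N Z : ℝ) (S : Finset α)
    (Vd : Finset (α × α)) (Dg : ℕ) (σ h : ℝ) (D K : Matrix α α ℝ),
    S5R2 C0 N Z S Vd Dg σ h D → CenteredOn S D → S51K C0 S K →
    |∑ p ∈ S.offDiag, s51P1 S.card σ h (pblk D p.1 p.2) (pblk K p.1 p.2)
      - (2 * (S.card : ℝ) * (h ^ 2 * (trS S K / (S.card : ℝ) - 1) - 1) * trS S D
          + 2 * h ^ 2 * (trS2 S D K - 2 * ∑ x ∈ S, D x x * K x x))| ≤ C * (S.card : ℝ) := by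
  obtain ⟨C, hC, H⟩ := s51v_sum_HH
  refine ⟨C * C0 ^ 2 + 1, by positivity, ?_⟩
  intro α _ N Z S Vd Dg σ h D K R hD hK
  have hl := s51v_card R
  have hl2 : 2 < S.card := by have := R.hl; omega
  have key := H α S σ h D K (fun _ => C0 ^ 2 / 2) (by have := R.hl; omega) R.hσ R.hh R.hh1 R.symm
    (fun _ _ => by positivity)
    (fun u hu v hv => ⟨C0, C0, s51v_D_le R hu hv, s51v_K_le hK hu hv, le_of_eq (by ring)⟩)
  have e : ∑ p ∈ S.offDiag, s51P1 S.card σ h (pblk D p.1 p.2) (pblk K p.1 p.2) =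
      -(1 + h ^ 2) * (2 * S.card * trS S D) + ∑ p ∈ S.offDiag,
        (H0 S.card σ h * pblk D p.1 p.2 * H0 S.card σ h * pblk K p.1 p.2).trace := by
    simp only [s51P1, Finset.sum_add_distrib, Finset.sum_sub_distrib, ← Finset.mul_sum]
    rw [s5_sum_H0 S hl2 σ h D hD, s5_sum_H0 S hl2 σ h K hK.cent, s5_sum_B S hl2 D hD]
    ring
  rw [e]
  have e2 : -(1 + h ^ 2) * (2 * S.card * trS S D) + ∑ p ∈ S.offDiag,
        (H0 S.card σ h * pblk D p.1 p.2 * H0 S.card σ h * pblk K p.1 p.2).trace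
      - (2 * (S.card : ℝ) * (h ^ 2 * (trS S K / (S.card : ℝ) - 1) - 1) * trS S D
          + 2 * h ^ 2 * (trS2 S D K - 2 * ∑ x ∈ S, D x x * K x x)) =
      ∑ p ∈ S.offDiag, (H0 S.card σ h * pblk D p.1 p.2 * H0 S.card σ h * pblk K p.1 p.2).trace
      - 2 * h ^ 2 * (trS S D * trS S K + trS2 S D K - 2 * ∑ x ∈ S, D x x * K x x) := by
    have : (S.card : ℝ) ≠ 0 := by linarith
    field_simp
    ring
  rw [e2]
  refine key.trans ?_
  rw [Finset.sum_const, nsmul_eq_mul]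
  nlinarith [mul_nonneg hC.le (sq_nonneg C0)]

/-- **(5.16), abstract.** -/
theorem s51_L1_mean (C0 : ℝ) : ∃ C : ℝ, 0 < C ∧ ∀ (α : Type) [DecidableEq α] (N Z : ℝ) (S : Finset α)
    (Vd : Finset (α × α)) (Dg : ℕ) (σ h : ℝ) (D K : Matrix α α ℝ),
    S5R2 C0 N Z S Vd Dg σ h D → CenteredOn S D → S51K C0 S K →
    |avgOn Vd (fun p => s51dL1 S.card σ h (pblk D p.1 p.2) (pblk K p.1 p.2)) - s51a S Vd h K * trS S D| ≤
      C * ((N + Dg + 1) / (S.card : ℝ) + |trS2 S D K| / (S.card : ℝ) ^ 2) := by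
  obtain ⟨C1, hC1, H1⟩ := s51_sum_P1 C0
  obtain ⟨C2, hC2, H2⟩ := s51_P_abs
  obtain ⟨C3, hC3, H3⟩ := s51_dL1_rem
  refine ⟨2 * (C1 + 2 + 4 * |C0| + C2 * (|C0| + |C0| + |C0| * |C0|) + C3 * (1 + |C0|) * (2 + |C0|)),
    by positivity, ?_⟩
  intro α _ N Z S Vd Dg σ h D K R hD hK
  have hl := s51v_card R
  have hC0 := s51v_C0 R
  have hN := s51v_N R
  obtain ⟨hh0, hh1⟩ := s51v_h2 R
  rw [abs_of_nonneg hC0]
  have hl4 : 4 ≤ S.card := by have := R.hl; omega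
  set l : ℝ := (S.card : ℝ) with hldef
  set T : ℝ := |trS2 S D K| with hT
  have hT0 : 0 ≤ T := abs_nonneg _
  have hDg0 : (0 : ℝ) ≤ Dg := Nat.cast_nonneg _
  have eM : s51a S Vd h K * trS S D =
      (2 * l * (h ^ 2 * (trS S K / l - 1) - 1) * trS S D) / (Vd.card : ℝ) := by
    rw [s51a, div_mul_eq_mul_div]
  rw [eM]
  -- the three error terms
  have h1 : |∑ p ∈ S.offDiag, s51P1 S.card σ h (pblk D p.1 p.2) (pblk K p.1 p.2)
      - 2 * l * (h ^ 2 * (trS S K / l - 1) - 1) * trS S D| ≤ C1 * l + 2 * T + 4 * C0 * (l * (N + 1)) := by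
    have a1 := H1 α N Z S Vd Dg σ h D K R hD hK
    have a2 := s51v_sum_DX R K C0 hC0 fun x hx => hK.ent x hx x hx
    have a3 : |2 * h ^ 2 * (trS2 S D K - 2 * ∑ x ∈ S, D x x * K x x)| ≤
        2 * T + 4 * C0 * (l * (N + 1)) := by
      rw [abs_mul, abs_of_nonneg (by positivity : 0 ≤ 2 * h ^ 2)]
      have b1 : |trS2 S D K - 2 * ∑ x ∈ S, D x x * K x x| ≤ T + 2 * (C0 * (l * (N + 1))) := by
        refine (abs_sub _ _).trans ?_
        rw [abs_mul, abs_of_nonneg (by norm_num : (0 : ℝ) ≤ 2)]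
        linarith
      have b2 : 0 ≤ T + 2 * (C0 * (l * (N + 1))) := (abs_nonneg _).trans b1
      calc 2 * h ^ 2 * |trS2 S D K - 2 * ∑ x ∈ S, D x x * K x x|
          ≤ 2 * 1 * (T + 2 * (C0 * (l * (N + 1)))) :=
            mul_le_mul (by linarith) b1 (abs_nonneg _) (by norm_num)
        _ = _ := by ring
    have a5 := s51v_tri a1 a3
    linarith
  have h2 : |∑ p ∈ S.offDiag \ Vd, s51P1 S.card σ h (pblk D p.1 p.2) (pblk K p.1 p.2)| ≤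
      C2 * (C0 + C0 + C0 * C0) * (Dg * l) := by
    refine (s51v_sum_forb R.valid _ (fun _ => C2 * (C0 + C0 + C0 * C0) / 2)
      (fun _ _ => by positivity) fun p hp => ?_).trans (le_of_eq ?_)
    · have hp' := Finset.mem_offDiag.1 hp
      refine ((H2 S.card σ h _ _ (pblk K p.1 p.2) C0 C0 C0 hl4 R.hσ R.hh R.hh1
        (s51v_D_le R hp'.1 hp'.2.1) (s51v_K_le hK hp'.1 hp'.2.1) (s51v_K_le hK hp'.1 hp'.2.1)).1).trans
        (le_of_eq (by ring))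
    · rw [Finset.sum_const, nsmul_eq_mul]
      ring
  have h3 : |∑ p ∈ Vd, (s51dL1 S.card σ h (pblk D p.1 p.2) (pblk K p.1 p.2)
      - s51P1 S.card σ h (pblk D p.1 p.2) (pblk K p.1 p.2))| ≤ C3 * (1 + C0) * (l * (2 * N + C0)) := by
    refine (Finset.abs_sum_le_sum_abs _ _).trans ?_
    refine le_trans ?_ (mul_le_mul_of_nonneg_left (s51v_sum_n R) (by positivity))
    rw [Finset.mul_sum]
    refine Finset.sum_le_sum fun p hp => ?_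
    have hp' := s51v_mem R hp
    exact H3 S.card σ h _ _ C0 (R.tb p hp) (s51v_K_le hK hp'.1 hp'.2)
  refine (s51v_mean R.valid (by have := R.hl; omega) R.hDg _ _ _ _ _ _ h1 h2 h3).trans ?_
  have hX : (N + Dg + 1) / l + T / l ^ 2 = ((N + Dg + 1) * l + T) / l ^ 2 := by
    field_simp
  rw [hX, ← mul_div_assoc]
  refine div_le_div_of_nonneg_right ?_ (by positivity)
  set X : ℝ := (N + Dg + 1) * l + T with hXdef
  have x1 : l ≤ X := by nlinarith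
  have x2 : T ≤ X := by nlinarith
  have x3 : l * (N + 1) ≤ X := by nlinarith
  have x4 : Dg * l ≤ X := by nlinarith
  have x5 : l * (2 * N + C0) ≤ (2 + C0) * X := by nlinarith
  have y1 := mul_le_mul_of_nonneg_left x1 hC1.le
  have y3 := mul_le_mul_of_nonneg_left x3 (by positivity : 0 ≤ 4 * C0)
  have y4 := mul_le_mul_of_nonneg_left x4 (by positivity : 0 ≤ C2 * (C0 + C0 + C0 * C0))
  have y5 := mul_le_mul_of_nonneg_left x5 (by positivity : 0 ≤ C3 * (1 + C0))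
  nlinarith

theorem s51v_m_sq (D : Matrix (Fin 2) (Fin 2) ℝ) : s51m D ^ 2 ≤ 3 * s51n D := by
  unfold s51m s51n
  have a1 := sq_abs (D 0 0)
  have a2 := sq_abs (D 1 1)
  have a3 := sq_abs (D 0 1)
  nlinarith [sq_nonneg (|D 0 0| - |D 1 1|), sq_nonneg (|D 0 0| - |D 0 1|), sq_nonneg (|D 1 1| - |D 0 1|)]

/-- `∑_{Vd} Tr (H_0 X_p)² ≤ 20 ∑ X_xy²` -/
theorem s51v_sum_trH0_sq {α : Type} [DecidableEq α] {C0 N Z : ℝ} {S : Finset α} {Vd : Finset (α × α)}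
    {Dg : ℕ} {σ h : ℝ} {D : Matrix α α ℝ} (R : S5R2 C0 N Z S Vd Dg σ h D) (X : Matrix α α ℝ) :
    ∑ p ∈ Vd, (H0 S.card σ h * pblk X p.1 p.2).trace ^ 2 ≤ 20 * ∑ x ∈ S, ∑ y ∈ S, X x y ^ 2 := by
  have hl := s51v_card R
  have hl4 : 4 ≤ S.card := by have := R.hl; omega
  have hdiag : ∑ u ∈ S, X u u ^ 2 ≤ ∑ u ∈ S, ∑ v ∈ S, X u v ^ 2 :=
    Finset.sum_le_sum fun u hu =>
      Finset.single_le_sum (f := fun v => X u v ^ 2) (fun _ _ => sq_nonneg _) hu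
  have hd0 : 0 ≤ ∑ u ∈ S, X u u ^ 2 := Finset.sum_nonneg fun _ _ => sq_nonneg _
  refine (s51v_sum_le R.valid.sub _
    (fun u v => 9 * (X u v ^ 2 + X v u ^ 2) + 4 * (X u u ^ 2 + X v v ^ 2) / ((S.card : ℝ) - 2) ^ 2)
    (fun _ _ _ _ => by positivity)
    (fun p _ => s51v_trH0_sq hl4 R.hσ R.hh R.hh1 (pblk X p.1 p.2))).trans ?_
  have hc : ∑ u ∈ S, ∑ v ∈ S, X v u ^ 2 = ∑ u ∈ S, ∑ v ∈ S, X u v ^ 2 := Finset.sum_comm
  simp only [Finset.sum_add_distrib, ← Finset.mul_sum, ← Finset.sum_div, Finset.sum_const, nsmul_eq_mul]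
  rw [hc]
  have h2 : 4 * ((S.card : ℝ) * ∑ u ∈ S, X u u ^ 2 + (S.card : ℝ) * ∑ u ∈ S, X u u ^ 2)
      / ((S.card : ℝ) - 2) ^ 2 ≤ ∑ u ∈ S, X u u ^ 2 := by
    rw [div_le_iff₀ (by nlinarith)]
    have : 8 * (S.card : ℝ) ≤ ((S.card : ℝ) - 2) ^ 2 := by nlinarith
    nlinarith [mul_le_mul_of_nonneg_left this hd0]
  linarith

/-- second moment of an increment `f = - Tr (H_0 X_p) + O(c |D_p|)` -/
theorem s51v_sq {α : Type} [DecidableEq α] {C0 N Z : ℝ} {S : Finset α} {Vd : Finset (α × α)}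
    {Dg : ℕ} {σ h : ℝ} {D : Matrix α α ℝ} (R : S5R2 C0 N Z S Vd Dg σ h D) (X : Matrix α α ℝ)
    (f : α × α → ℝ) (c : ℝ)
    (hf : ∀ p ∈ Vd, |f p + (H0 S.card σ h * pblk X p.1 p.2).trace| ≤ c * s51m (pblk D p.1 p.2)) :
    avgOn Vd (fun p => f p ^ 2) ≤
      2 * (40 * (∑ x ∈ S, ∑ y ∈ S, X x y ^ 2) + 6 * c ^ 2 * ((S.card : ℝ) * (2 * N + C0)))
        / (S.card : ℝ) ^ 2 := by
  have hl := s51v_card R
  have hC0 := s51v_C0 R
  have hN := s51v_N R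
  have hSS : 0 ≤ ∑ x ∈ S, ∑ y ∈ S, X x y ^ 2 :=
    Finset.sum_nonneg fun _ _ => Finset.sum_nonneg fun _ _ => sq_nonneg _
  refine s51v_avg_le R.valid (by have := R.hl; omega) R.hDg _ _ (by positivity) ?_
  have h1 : ∀ p ∈ Vd, f p ^ 2 ≤ 2 * (H0 S.card σ h * pblk X p.1 p.2).trace ^ 2
      + 6 * c ^ 2 * s51n (pblk D p.1 p.2) := by
    intro p hp
    have a1 := hf p hp
    have a2 : (f p + (H0 S.card σ h * pblk X p.1 p.2).trace) ^ 2 ≤ (c * s51m (pblk D p.1 p.2)) ^ 2 :=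
      sq_le_sq' (by linarith [(abs_le.1 a1).1]) (abs_le.1 a1).2
    have a3 := mul_le_mul_of_nonneg_left (s51v_m_sq (pblk D p.1 p.2)) (sq_nonneg c)
    rw [mul_pow] at a2
    nlinarith [sq_nonneg (f p + 2 * (H0 S.card σ h * pblk X p.1 p.2).trace)]
  refine (Finset.sum_le_sum h1).trans ?_
  rw [Finset.sum_add_distrib, ← Finset.mul_sum, ← Finset.mul_sum]
  have b1 := s51v_sum_trH0_sq R X
  have b2 := mul_le_mul_of_nonneg_left (s51v_sum_n R) (by positivity : 0 ≤ 6 * c ^ 2)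
  linarith

theorem s51v_trS2_self {α : Type} (S : Finset α) (X : Matrix α α ℝ) (hX : ∀ x y, X x y = X y x) :
    trS2 S X X = ∑ x ∈ S, ∑ y ∈ S, X x y ^ 2 := by
  unfold trS2
  exact Finset.sum_congr rfl fun x _ => Finset.sum_congr rfl fun y _ => by rw [hX y x]; ring

/-- **(5.17), abstract.** -/
theorem s51_L1_sq (C0 : ℝ) : ∃ C : ℝ, 0 < C ∧ ∀ (α : Type) [DecidableEq α] (N Z : ℝ) (S : Finset α)
    (Vd : Finset (α × α)) (Dg : ℕ) (σ h : ℝ) (D K : Matrix α α ℝ),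
    S5R2 C0 N Z S Vd Dg σ h D → S51K C0 S K →
    avgOn Vd (fun p => s51dL1 S.card σ h (pblk D p.1 p.2) (pblk K p.1 p.2) ^ 2) ≤
      C * (trS2 S K K / (S.card : ℝ) ^ 2 + (N + 1) / (S.card : ℝ)) := by
  obtain ⟨C1, hC1, H1⟩ := s51_dL1_first
  refine ⟨2 * (40 + 6 * (C1 * (1 + |C0|)) ^ 2 * (2 + |C0|)), by positivity, ?_⟩
  intro α _ N Z S Vd Dg σ h D K R hK
  have hl := s51v_card R
  have hC0 := s51v_C0 R
  have hN := s51v_N R
  rw [abs_of_nonneg hC0]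
  refine (s51v_sq R K _ (C1 * (1 + C0)) fun p hp => ?_).trans ?_
  · have hp' := s51v_mem R hp
    exact H1 S.card σ h _ _ C0 (R.tb p hp) (s51v_K_le hK hp'.1 hp'.2)
  rw [s51v_trS2_self S K hK.symm]
  have hSS : 0 ≤ ∑ x ∈ S, ∑ y ∈ S, K x y ^ 2 :=
    Finset.sum_nonneg fun _ _ => Finset.sum_nonneg fun _ _ => sq_nonneg _
  set SS := ∑ x ∈ S, ∑ y ∈ S, K x y ^ 2
  set l : ℝ := (S.card : ℝ)
  have hX : SS / l ^ 2 + (N + 1) / l = (SS + (N + 1) * l) / l ^ 2 := by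
    field_simp
  rw [hX, ← mul_div_assoc]
  refine div_le_div_of_nonneg_right ?_ (by positivity)
  have x1 : SS ≤ SS + (N + 1) * l := by nlinarith
  have x2 : l * (2 * N + C0) ≤ (2 + C0) * (SS + (N + 1) * l) := by
    nlinarith [mul_nonneg hC0 hSS, mul_nonneg hC0 (mul_nonneg hN (by linarith : (0 : ℝ) ≤ l))]
  have y2 := mul_le_mul_of_nonneg_left x2 (by positivity : 0 ≤ 6 * (C1 * (1 + C0)) ^ 2)
  nlinarith

section s51q

variable {α : Type} {CQ : ℝ} {S : Finset α} {Q : Matrix α α ℝ}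

theorem s51v_Q_psd (hQ : S51Q CQ S Q) {u v : α} (hu : u ∈ S) (hv : v ∈ S) : S51Psd (pblk Q u v) :=
  ⟨hQ.symm v u, hQ.diag0 u hu, hQ.diag0 v hv, hQ.off u hu v hv⟩

theorem s51v_Q_le (hQ : S51Q CQ S Q) {u v : α} (hu : u ∈ S) (hv : v ∈ S) : s51Le (pblk Q u v) CQ := by
  have h1 := hQ.diag u hu
  have h2 := hQ.diag v hv
  refine s51v_le_pblk ?_ ?_ ?_ ?_
  · rw [abs_of_nonneg (hQ.diag0 u hu)]; exact h1
  · exact (hQ.off u hu v hv).trans (by linarith)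
  · exact (hQ.off v hv u hu).trans (by linarith)
  · rw [abs_of_nonneg (hQ.diag0 v hv)]; exact h2

theorem s51v_CQ (hQ : S51Q CQ S Q) (hS : S.Nonempty) : 0 ≤ CQ := by
  obtain ⟨x, hx⟩ := hS
  exact (hQ.diag0 x hx).trans (hQ.diag x hx)

theorem s51v_trQ (hQ : S51Q CQ S Q) : 0 ≤ trS S Q := Finset.sum_nonneg hQ.diag0

end s51q

/-- full sum of `P_0` -/
theorem s51v_sum_P0 : ∃ C : ℝ, 0 < C ∧ ∀ (α : Type) [DecidableEq α] (C0 N Z CQ : ℝ) (S : Finset α)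
    (Vd : Finset (α × α)) (Dg : ℕ) (σ h : ℝ) (D Q : Matrix α α ℝ),
    S5R2 C0 N Z S Vd Dg σ h D → S51Q CQ S Q →
    |∑ p ∈ S.offDiag, s51P0 S.card σ h (pblk D p.1 p.2) (pblk Q p.1 p.2)| ≤
      C * C0 * (CQ * S.card) + (2 * (|trS S D| * trS S Q + |trS2 S D Q|)
        + 4 * (CQ * ((S.card : ℝ) * (N + 1)))) := by
  obtain ⟨C1, hC1, H1⟩ := s51v_sum_HH
  refine ⟨C1, hC1, ?_⟩
  intro α _ C0 N Z CQ S Vd Dg σ h D Q R hQ
  have hl := s51v_card R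
  have hC0 := s51v_C0 R
  have hN := s51v_N R
  have hCQ := s51v_CQ hQ (s51v_ne R)
  have hTQ := s51v_trQ hQ
  obtain ⟨hh0, hh1⟩ := s51v_h2 R
  have hl4 : 4 ≤ S.card := by have := R.hl; omega
  have hl2 : 2 < S.card := by have := R.hl; omega
  have key := H1 α S σ h D Q (fun _ => C0 * CQ / 2) hl4 R.hσ R.hh R.hh1 R.symm
    (fun _ _ => by positivity)
    (fun u hu v hv => ⟨C0, CQ, s51v_D_le R hu hv, s51v_Q_le hQ hu hv, le_of_eq (by ring)⟩)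
  have e : ∑ p ∈ S.offDiag, s51P0 S.card σ h (pblk D p.1 p.2) (pblk Q p.1 p.2) =
      ∑ p ∈ S.offDiag, (H0 S.card σ h * pblk D p.1 p.2 * H0 S.card σ h * pblk Q p.1 p.2).trace := by
    simp only [s51P0, Finset.sum_add_distrib, Finset.sum_neg_distrib]
    rw [s5_sum_H0 S hl2 σ h Q hQ.cent]
    ring
  rw [e]
  have a2 := s51v_sum_DX R Q CQ hCQ fun x hx => by
    rw [abs_of_nonneg (hQ.diag0 x hx)]; exact hQ.diag x hx
  obtain ⟨W, hW⟩ : ∃ W, W = |trS S D| * trS S Q + |trS2 S D Q| := ⟨_, rfl⟩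
  rw [← hW]
  have a3 : |2 * h ^ 2 * (trS S D * trS S Q + trS2 S D Q - 2 * ∑ x ∈ S, D x x * Q x x)| ≤
      2 * W + 4 * (CQ * ((S.card : ℝ) * (N + 1))) := by
    rw [abs_mul, abs_of_nonneg (by positivity : 0 ≤ 2 * h ^ 2)]
    have b1 : |trS S D * trS S Q + trS2 S D Q - 2 * ∑ x ∈ S, D x x * Q x x| ≤
        W + 2 * (CQ * ((S.card : ℝ) * (N + 1))) := by
      refine (abs_sub _ _).trans ?_
      rw [abs_mul 2, abs_of_nonneg (by norm_num : (0 : ℝ) ≤ 2)]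
      have := abs_add_le (trS S D * trS S Q) (trS2 S D Q)
      rw [abs_mul, abs_of_nonneg hTQ] at this
      linarith
    have b2 : 0 ≤ W + 2 * (CQ * ((S.card : ℝ) * (N + 1))) := (abs_nonneg _).trans b1
    calc 2 * h ^ 2 * |trS S D * trS S Q + trS2 S D Q - 2 * ∑ x ∈ S, D x x * Q x x|
        ≤ 2 * 1 * (W + 2 * (CQ * ((S.card : ℝ) * (N + 1)))) :=
          mul_le_mul (by linarith) b1 (abs_nonneg _) (by norm_num)
      _ = _ := by ring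
  rw [Finset.sum_const, nsmul_eq_mul] at key
  have key' : C1 * ((S.card : ℝ) * (C0 * CQ / 2)) ≤ C1 * C0 * (CQ * S.card) := by
    have : 0 ≤ C1 * C0 * (CQ * S.card) := by positivity
    nlinarith
  have k1 := abs_le.1 (key.trans key')
  have k2 := abs_le.1 a3
  rw [abs_le]
  constructor <;> linarith [k1.1, k1.2, k2.1, k2.2]

/-- **(5.18), mean, abstract.** -/
theorem s51_L0_mean (C0 : ℝ) : ∃ C : ℝ, 0 < C ∧ ∀ (α : Type) [DecidableEq α] (N Z CQ : ℝ) (S : Finset α)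
    (Vd : Finset (α × α)) (Dg : ℕ) (σ h : ℝ) (D Q : Matrix α α ℝ),
    S5R2 C0 N Z S Vd Dg σ h D → S51Q CQ S Q →
    |avgOn Vd (fun p => s51dL0 S.card σ h (pblk D p.1 p.2) (pblk Q p.1 p.2))| ≤
      C * (CQ * (N + Dg + 1) / (S.card : ℝ) + (|trS S D| * trS S Q + |trS2 S D Q|) / (S.card : ℝ) ^ 2) := by
  obtain ⟨C1, hC1, H1⟩ := s51v_sum_P0
  obtain ⟨C2, hC2, H2⟩ := s51_P_abs
  obtain ⟨C3, hC3, H3⟩ := s51_dL0_rem
  refine ⟨2 * (C1 * |C0| + 2 + 4 + C2 * (1 + |C0|) + C3 * (2 + |C0|)), by positivity, ?_⟩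
  intro α _ N Z CQ S Vd Dg σ h D Q R hQ
  have hl := s51v_card R
  have hC0 := s51v_C0 R
  have hN := s51v_N R
  have hCQ := s51v_CQ hQ (s51v_ne R)
  have hTQ := s51v_trQ hQ
  rw [abs_of_nonneg hC0]
  have hl4 : 4 ≤ S.card := by have := R.hl; omega
  have hDg0 : (0 : ℝ) ≤ Dg := Nat.cast_nonneg _
  have h1 := H1 α C0 N Z CQ S Vd Dg σ h D Q R hQ
  obtain ⟨W, hW⟩ : ∃ W, W = |trS S D| * trS S Q + |trS2 S D Q| := ⟨_, rfl⟩
  rw [← hW] at h1 ⊢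
  have hW0 : 0 ≤ W := by rw [hW]; positivity
  have h2 : |∑ p ∈ S.offDiag \ Vd, s51P0 S.card σ h (pblk D p.1 p.2) (pblk Q p.1 p.2)| ≤
      C2 * (1 + C0) * (CQ * (Dg * S.card)) := by
    refine (s51v_sum_forb R.valid _ (fun _ => C2 * (1 + C0) * CQ / 2)
      (fun _ _ => by positivity) fun p hp => ?_).trans (le_of_eq ?_)
    · have hp' := Finset.mem_offDiag.1 hp
      refine ((H2 S.card σ h _ (pblk Q p.1 p.2) _ C0 CQ CQ hl4 R.hσ R.hh R.hh1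
        (s51v_D_le R hp'.1 hp'.2.1) (s51v_Q_le hQ hp'.1 hp'.2.1) (s51v_Q_le hQ hp'.1 hp'.2.1)).2).trans
        (le_of_eq (by ring))
    · rw [Finset.sum_const, nsmul_eq_mul]
      ring
  have h3 : |∑ p ∈ Vd, (s51dL0 S.card σ h (pblk D p.1 p.2) (pblk Q p.1 p.2)
      - s51P0 S.card σ h (pblk D p.1 p.2) (pblk Q p.1 p.2))| ≤
      C3 * CQ * ((S.card : ℝ) * (2 * N + C0)) := by
    refine (Finset.abs_sum_le_sum_abs _ _).trans ?_
    refine le_trans ?_ (mul_le_mul_of_nonneg_left (s51v_sum_n R) (by positivity))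
    rw [Finset.mul_sum]
    refine Finset.sum_le_sum fun p hp => ?_
    have hp' := s51v_mem R hp
    exact H3 S.card σ h _ _ CQ (R.tb p hp) (s51v_Q_le hQ hp'.1 hp'.2)
  have hm := s51v_mean R.valid (by have := R.hl; omega) R.hDg
    (fun p => s51dL0 S.card σ h (pblk D p.1 p.2) (pblk Q p.1 p.2))
    (fun p => s51P0 S.card σ h (pblk D p.1 p.2) (pblk Q p.1 p.2)) 0
    (C1 * C0 * (CQ * S.card) + (2 * W + 4 * (CQ * ((S.card : ℝ) * (N + 1))))) _ _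
    (by rw [sub_zero]; exact h1) h2 h3
  rw [zero_div, sub_zero] at hm
  refine hm.trans ?_
  obtain ⟨l, hldef⟩ : ∃ l : ℝ, l = (S.card : ℝ) := ⟨_, rfl⟩
  rw [← hldef] at hl ⊢
  have hX : CQ * (N + Dg + 1) / l + W / l ^ 2 = (CQ * (N + Dg + 1) * l + W) / l ^ 2 := by
    field_simp
  rw [hX, ← mul_div_assoc]
  refine div_le_div_of_nonneg_right ?_ (by positivity)
  obtain ⟨X, hXdef⟩ : ∃ X : ℝ, X = CQ * (N + Dg + 1) * l + W := ⟨_, rfl⟩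
  rw [← hXdef]
  have p1 : 0 ≤ CQ * l := by positivity
  have p2 : 0 ≤ CQ * l * N := by positivity
  have p3 : 0 ≤ CQ * l * Dg := by positivity
  have x1 : CQ * l ≤ X := by nlinarith
  have x2 : W ≤ X := by nlinarith
  have x3 : CQ * (l * (N + 1)) ≤ X := by nlinarith
  have x4 : CQ * (Dg * l) ≤ X := by nlinarith
  have x5 : CQ * (l * (2 * N + C0)) ≤ (2 + C0) * X := by
    nlinarith [mul_nonneg hC0 p2, mul_nonneg hC0 p3, mul_nonneg hC0 hW0]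
  have y1 := mul_le_mul_of_nonneg_left x1 (by positivity : 0 ≤ C1 * C0)
  have y4 := mul_le_mul_of_nonneg_left x4 (by positivity : 0 ≤ C2 * (1 + C0))
  have y5 := mul_le_mul_of_nonneg_left x5 hC3.le
  nlinarith

/-- **(5.18), second moment, abstract.** -/
theorem s51_L0_sq (C0 : ℝ) : ∃ C : ℝ, 0 < C ∧ ∀ (α : Type) [DecidableEq α] (N Z CQ : ℝ) (S : Finset α)
    (Vd : Finset (α × α)) (Dg : ℕ) (σ h : ℝ) (D Q : Matrix α α ℝ),
    S5R2 C0 N Z S Vd Dg σ h D → S51Q CQ S Q →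
    avgOn Vd (fun p => s51dL0 S.card σ h (pblk D p.1 p.2) (pblk Q p.1 p.2) ^ 2) ≤
      C * (trS2 S Q Q / (S.card : ℝ) ^ 2 + CQ ^ 2 * (N + 1) / (S.card : ℝ)) := by
  obtain ⟨C1, hC1, H1⟩ := s51_dL0_first
  refine ⟨2 * (40 + 6 * C1 ^ 2 * (2 + |C0|)), by positivity, ?_⟩
  intro α _ N Z CQ S Vd Dg σ h D Q R hQ
  have hl := s51v_card R
  have hC0 := s51v_C0 R
  have hN := s51v_N R
  rw [abs_of_nonneg hC0]
  refine (s51v_sq R Q _ (C1 * CQ) fun p hp => ?_).trans ?_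
  · have hp' := s51v_mem R hp
    exact H1 S.card σ h _ _ CQ (R.tb p hp) (s51v_Q_le hQ hp'.1 hp'.2)
  rw [s51v_trS2_self S Q hQ.symm]
  have hSS : 0 ≤ ∑ x ∈ S, ∑ y ∈ S, Q x y ^ 2 :=
    Finset.sum_nonneg fun _ _ => Finset.sum_nonneg fun _ _ => sq_nonneg _
  set SS := ∑ x ∈ S, ∑ y ∈ S, Q x y ^ 2
  set l : ℝ := (S.card : ℝ)
  have hX : SS / l ^ 2 + CQ ^ 2 * (N + 1) / l = (SS + CQ ^ 2 * (N + 1) * l) / l ^ 2 := by
    field_simp
  rw [hX, ← mul_div_assoc]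
  refine div_le_div_of_nonneg_right ?_ (by positivity)
  have q0 : 0 ≤ CQ ^ 2 := sq_nonneg _
  have p1 : 0 ≤ CQ ^ 2 * l := by positivity
  have p2 : 0 ≤ CQ ^ 2 * l * N := by positivity
  have x2 : CQ ^ 2 * (l * (2 * N + C0)) ≤ (2 + C0) * (SS + CQ ^ 2 * (N + 1) * l) := by
    nlinarith [mul_nonneg hC0 p2, mul_nonneg hC0 hSS]
  have y2 := mul_le_mul_of_nonneg_left x2 (by positivity : 0 ≤ 6 * C1 ^ 2)
  nlinarith

section s51j

variable {α : Type} {κJ : ℝ} {S : Finset α} {J : Matrix α α ℝ} {jr : α → ℝ}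

theorem s51v_jr (hJ : S51J κJ S J jr) {y : α} (hy : y ∈ S) : 0 ≤ jr y :=
  (abs_nonneg _).trans (hJ.ent y hy y hy)

theorem s51v_J_le (hJ : S51J κJ S J jr) {u v : α} (hu : u ∈ S) (hv : v ∈ S) :
    s51Le (pblk J u v) (jr u + jr v) := by
  have h1 := s51v_jr hJ hu
  have h2 := s51v_jr hJ hv
  refine s51v_le_pblk ?_ ?_ ?_ ?_
  · exact (hJ.ent u hu u hu).trans (by linarith)
  · exact (hJ.ent u hu v hv).trans (by linarith)
  · exact (hJ.ent v hv u hu).trans (by linarith)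
  · exact (hJ.ent v hv v hv).trans (by linarith)

theorem s51v_J_le' (hJ : S51J κJ S J jr) {u v : α} (hu : u ∈ S) (hv : v ∈ S) :
    s51Le (pblk J u v) κJ :=
  s51v_le_pblk ((hJ.ent u hu u hu).trans (hJ.sup u hu)) ((hJ.ent u hu v hv).trans (hJ.sup v hv))
    ((hJ.ent v hv u hu).trans (hJ.sup u hu)) ((hJ.ent v hv v hv).trans (hJ.sup v hv))

end s51j

theorem s51v_dsum_one {α : Type} (S : Finset α) (a : α → ℝ) :
    ∑ u ∈ S, ∑ v ∈ S, (a u + a v) = 2 * (S.card : ℝ) * ∑ x ∈ S, a x := by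
  simp only [Finset.sum_add_distrib, Finset.sum_const, nsmul_eq_mul, ← Finset.mul_sum]
  ring

/-- maximal increment of `𝒯`. -/
theorem s51_T_sup (C0 : ℝ) : ∃ C : ℝ, 0 < C ∧ ∀ (α : Type) [DecidableEq α] (N Z CQ κJ : ℝ) (S : Finset α)
    (Vd : Finset (α × α)) (Dg : ℕ) (σ h : ℝ) (D K Q J : Matrix α α ℝ) (jr : α → ℝ),
    S5R2 C0 N Z S Vd Dg σ h D → S51K C0 S K → S51Q CQ S Q → S51J κJ S J jr → ∀ p ∈ Vd,
    |s51dT S.card σ h (pblk D p.1 p.2) (pblk K p.1 p.2) (pblk Q p.1 p.2) (pblk J p.1 p.2)| ≤ C * (CQ + κJ) := by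
  obtain ⟨C1, hC1, H1⟩ := s51_dT_abs
  refine ⟨4 * C1 * (1 + |C0|), by positivity, ?_⟩
  intro α _ N Z CQ κJ S Vd Dg σ h D K Q J jr R hK hQ hJ p hp
  have hl := s51v_card R
  have hC0 := s51v_C0 R
  rw [abs_of_nonneg hC0]
  obtain ⟨hu, hv⟩ := s51v_mem R hp
  have hCQ := s51v_CQ hQ (s51v_ne R)
  have hJl := s51v_J_le' hJ hu hv
  have hκ : 0 ≤ κJ := s51f_nonneg hJl
  have hDl := s51v_D_le R hu hv
  refine (H1 S.card σ h _ _ _ (pblk J p.1 p.2) C0 (R.tb p hp) (s51v_K_le hK hu hv)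
    (s51v_Q_psd hQ hu hv)).trans ?_
  have q0 : pblk Q p.1 p.2 0 0 ≤ CQ := hQ.diag _ hu
  have q1 : pblk Q p.1 p.2 1 1 ≤ CQ := hQ.diag _ hv
  have il : 1 / (S.card : ℝ) ≤ 1 := by
    rw [div_le_one (by linarith)]; linarith
  have il0 : 0 ≤ 1 / (S.card : ℝ) := by positivity
  have t1 : C1 * (1 + C0) * (pblk Q p.1 p.2 0 0 + pblk Q p.1 p.2 1 1) ≤ C1 * (1 + C0) * (2 * CQ) :=
    mul_le_mul_of_nonneg_left (by linarith) (by positivity)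
  have t2 : C1 * (|pblk J p.1 p.2 0 1| + |pblk J p.1 p.2 1 0|) ≤ C1 * (2 * κJ) :=
    mul_le_mul_of_nonneg_left (by linarith [hJl 0 1, hJl 1 0]) hC1.le
  have t3 : C1 * (|pblk D p.1 p.2 1 1| + 1 / (S.card : ℝ)) * |pblk J p.1 p.2 0 0| ≤
      C1 * (C0 + 1) * κJ :=
    mul_le_mul (mul_le_mul_of_nonneg_left (by linarith [hDl 1 1]) hC1.le) (hJl 0 0) (abs_nonneg _)
      (by positivity)
  have t4 : C1 * (|pblk D p.1 p.2 0 0| + 1 / (S.card : ℝ)) * |pblk J p.1 p.2 1 1| ≤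
      C1 * (C0 + 1) * κJ :=
    mul_le_mul (mul_le_mul_of_nonneg_left (by linarith [hDl 0 0]) hC1.le) (hJl 1 1) (abs_nonneg _)
      (by positivity)
  have t5 : 0 ≤ C1 * C0 * κJ := by positivity
  have t6 : 0 ≤ C1 * (1 + C0) * CQ := by positivity
  nlinarith

/-- scalar inequality behind the second moment of `Δ𝒯` -/
theorem s51v_T_sq_scalar {C1 C0 CQ ε x q0 q1 juv jvu juu jvv du dv : ℝ} (hC0 : 0 ≤ C0)
    (h0 : 0 ≤ q0) (h1 : 0 ≤ q1) (h0' : q0 ≤ CQ) (h1' : q1 ≤ CQ)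
    (a0 : |x| ≤ C1 * (1 + C0) * (q0 + q1) + C1 * (|juv| + |jvu|) + C1 * (|dv| + ε) * |juu|
      + C1 * (|du| + ε) * |jvv|) :
    x ^ 2 ≤ 8 * C1 ^ 2 * ((1 + C0) ^ 2 * CQ * (q0 + q1) + (juv ^ 2 + jvu ^ 2)
        + (dv ^ 2 + ε ^ 2) * juu ^ 2 + (du ^ 2 + ε ^ 2) * jvv ^ 2) := by
  obtain ⟨A, hA⟩ : ∃ A, A = C1 * (1 + C0) * (q0 + q1) := ⟨_, rfl⟩
  obtain ⟨B, hB⟩ : ∃ B, B = C1 * (|juv| + |jvu|) := ⟨_, rfl⟩
  obtain ⟨E, hE⟩ : ∃ E, E = C1 * (|dv| + ε) * |juu| := ⟨_, rfl⟩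
  obtain ⟨F, hF⟩ : ∃ F, F = C1 * (|du| + ε) * |jvv| := ⟨_, rfl⟩
  rw [← hA, ← hB, ← hE, ← hF] at a0
  have s0 : x ^ 2 ≤ (A + B + E + F) ^ 2 := sq_le_sq' (by linarith [(abs_le.1 a0).1]) (abs_le.1 a0).2
  have s1 : (A + B + E + F) ^ 2 ≤ 4 * (A ^ 2 + B ^ 2 + E ^ 2 + F ^ 2) := by
    nlinarith [sq_nonneg (A - B), sq_nonneg (A - E), sq_nonneg (A - F), sq_nonneg (B - E),
      sq_nonneg (B - F), sq_nonneg (E - F)]
  have sA : A ^ 2 ≤ 2 * C1 ^ 2 * ((1 + C0) ^ 2 * CQ * (q0 + q1)) := by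
    rw [hA]
    have : (q0 + q1) ^ 2 ≤ 2 * CQ * (q0 + q1) := by nlinarith
    calc (C1 * (1 + C0) * (q0 + q1)) ^ 2 = C1 ^ 2 * (1 + C0) ^ 2 * (q0 + q1) ^ 2 := by ring
      _ ≤ C1 ^ 2 * (1 + C0) ^ 2 * (2 * CQ * (q0 + q1)) :=
          mul_le_mul_of_nonneg_left this (by positivity)
      _ = _ := by ring
  have sB : B ^ 2 ≤ 2 * C1 ^ 2 * (juv ^ 2 + jvu ^ 2) := by
    rw [hB]
    have : (|juv| + |jvu|) ^ 2 ≤ 2 * (juv ^ 2 + jvu ^ 2) := by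
      nlinarith [sq_nonneg (|juv| - |jvu|), sq_abs juv, sq_abs jvu]
    calc (C1 * (|juv| + |jvu|)) ^ 2 = C1 ^ 2 * (|juv| + |jvu|) ^ 2 := by ring
      _ ≤ C1 ^ 2 * (2 * (juv ^ 2 + jvu ^ 2)) := mul_le_mul_of_nonneg_left this (by positivity)
      _ = _ := by ring
  have sG : ∀ d j : ℝ, (C1 * (|d| + ε) * |j|) ^ 2 ≤ 2 * C1 ^ 2 * ((d ^ 2 + ε ^ 2) * j ^ 2) := by
    intro d j
    have : (|d| + ε) ^ 2 ≤ 2 * (d ^ 2 + ε ^ 2) := by
      nlinarith [sq_nonneg (|d| - ε), sq_abs d]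
    calc (C1 * (|d| + ε) * |j|) ^ 2 = C1 ^ 2 * j ^ 2 * (|d| + ε) ^ 2 := by
          rw [mul_pow, mul_pow, sq_abs]; ring
      _ ≤ C1 ^ 2 * j ^ 2 * (2 * (d ^ 2 + ε ^ 2)) := mul_le_mul_of_nonneg_left this (by positivity)
      _ = _ := by ring
  have sE := sG dv juu
  have sF := sG du jvv
  rw [← hE] at sE
  rw [← hF] at sF
  linarith

/-- the double sum of the majorant of `(Δ𝒯)²` -/
theorem s51v_T_sq_sum {α : Type} (S : Finset α) (D Q J : Matrix α α ℝ) (c a ε : ℝ) :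
    ∑ u ∈ S, ∑ v ∈ S, c * (a * (Q u u + Q v v)
        + (J u v ^ 2 + J v u ^ 2) + (D v v ^ 2 + ε ^ 2) * J u u ^ 2 + (D u u ^ 2 + ε ^ 2) * J v v ^ 2) =
      c * (a * (2 * (S.card : ℝ) * trS S Q) + 2 * ∑ x ∈ S, ∑ y ∈ S, J x y ^ 2
        + 2 * ((∑ x ∈ S, D x x ^ 2 + (S.card : ℝ) * ε ^ 2) * ∑ x ∈ S, J x x ^ 2)) := by
  have t1 := s51v_dsum_one S fun x => Q x x
  have t2 : ∑ u ∈ S, ∑ v ∈ S, (J u v ^ 2 + J v u ^ 2) = 2 * ∑ x ∈ S, ∑ y ∈ S, J x y ^ 2 := by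
    simp only [Finset.sum_add_distrib]
    rw [Finset.sum_comm (f := fun u v => J v u ^ 2)]
    ring
  have t0 : ∑ x ∈ S, (D x x ^ 2 + ε ^ 2) = ∑ x ∈ S, D x x ^ 2 + (S.card : ℝ) * ε ^ 2 := by
    rw [Finset.sum_add_distrib, Finset.sum_const, nsmul_eq_mul]
  have t3 : ∑ u ∈ S, ∑ v ∈ S, (D v v ^ 2 + ε ^ 2) * J u u ^ 2 =
      (∑ x ∈ S, D x x ^ 2 + (S.card : ℝ) * ε ^ 2) * ∑ x ∈ S, J x x ^ 2 := by
    rw [← t0, Finset.sum_mul_sum, Finset.sum_comm]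
  have t4 : ∑ u ∈ S, ∑ v ∈ S, (D u u ^ 2 + ε ^ 2) * J v v ^ 2 =
      (∑ x ∈ S, D x x ^ 2 + (S.card : ℝ) * ε ^ 2) * ∑ x ∈ S, J x x ^ 2 := by
    rw [← t0, Finset.sum_mul_sum]
  have e : ∀ u v, c * (a * (Q u u + Q v v)
        + (J u v ^ 2 + J v u ^ 2) + (D v v ^ 2 + ε ^ 2) * J u u ^ 2 + (D u u ^ 2 + ε ^ 2) * J v v ^ 2) =
      c * a * (Q u u + Q v v) + c * (J u v ^ 2 + J v u ^ 2) + c * ((D v v ^ 2 + ε ^ 2) * J u u ^ 2)
        + c * ((D u u ^ 2 + ε ^ 2) * J v v ^ 2) := fun u v => by ring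
  simp only [e]
  rw [Finset.sum_congr rfl fun u _ => Finset.sum_add_distrib, Finset.sum_add_distrib,
    Finset.sum_congr rfl fun u _ => Finset.sum_add_distrib, Finset.sum_add_distrib,
    Finset.sum_congr rfl fun u _ => Finset.sum_add_distrib, Finset.sum_add_distrib]
  simp only [← Finset.mul_sum]
  rw [t1, t2, t3, ← Finset.sum_mul, t0]
  unfold trS
  ring

/-- **(5.21'), abstract**: second moment of `Δ𝒯`. -/
theorem s51_T_sq (C0 : ℝ) : ∃ C : ℝ, 0 < C ∧ ∀ (α : Type) [DecidableEq α] (N Z CQ : ℝ) (S : Finset α)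
    (Vd : Finset (α × α)) (Dg : ℕ) (σ h : ℝ) (D K Q J : Matrix α α ℝ),
    S5R2 C0 N Z S Vd Dg σ h D → S51K C0 S K → S51Q CQ S Q →
    avgOn Vd (fun p =>
        s51dT S.card σ h (pblk D p.1 p.2) (pblk K p.1 p.2) (pblk Q p.1 p.2) (pblk J p.1 p.2) ^ 2) ≤
      C * (CQ * trS S Q / (S.card : ℝ) + (∑ x ∈ S, ∑ y ∈ S, J x y ^ 2) / (S.card : ℝ) ^ 2
        + (N + 1) * (∑ x ∈ S, J x x ^ 2) / (S.card : ℝ) ^ 2) := by
  obtain ⟨C1, hC1, H1⟩ := s51_dT_abs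
  refine ⟨32 * C1 ^ 2 * (1 + |C0|) ^ 2, by positivity, ?_⟩
  intro α _ N Z CQ S Vd Dg σ h D K Q J R hK hQ
  have hl := s51v_card R
  have hC0 := s51v_C0 R
  have hN := s51v_N R
  have hCQ := s51v_CQ hQ (s51v_ne R)
  have hTQ := s51v_trQ hQ
  rw [abs_of_nonneg hC0]
  have hε1 : (S.card : ℝ) * (1 / (S.card : ℝ)) ^ 2 ≤ 1 := by
    have : (S.card : ℝ) * (1 / (S.card : ℝ)) ^ 2 = 1 / (S.card : ℝ) := by field_simp
    rw [this, div_le_one (by linarith)]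
    linarith
  have hsum := s51v_sum_le R.valid.sub
    (fun p => s51dT S.card σ h (pblk D p.1 p.2) (pblk K p.1 p.2) (pblk Q p.1 p.2) (pblk J p.1 p.2) ^ 2)
    (fun u v => 8 * C1 ^ 2 * ((1 + C0) ^ 2 * CQ * (Q u u + Q v v) + (J u v ^ 2 + J v u ^ 2)
        + (D v v ^ 2 + (1 / (S.card : ℝ)) ^ 2) * J u u ^ 2
        + (D u u ^ 2 + (1 / (S.card : ℝ)) ^ 2) * J v v ^ 2))
    (fun u hu v hv => by
      have q0 := hQ.diag0 u hu
      have q1 := hQ.diag0 v hv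
      positivity)
    (fun p hp => by
      obtain ⟨hu, hv⟩ := s51v_mem R hp
      exact s51v_T_sq_scalar hC0 (hQ.diag0 _ hu) (hQ.diag0 _ hv) (hQ.diag _ hu) (hQ.diag _ hv)
        (H1 S.card σ h _ _ _ (pblk J p.1 p.2) C0 (R.tb p hp) (s51v_K_le hK hu hv)
          (s51v_Q_psd hQ hu hv)))
  rw [s51v_T_sq_sum] at hsum
  obtain ⟨JJ, hJJ⟩ : ∃ JJ, JJ = ∑ x ∈ S, ∑ y ∈ S, J x y ^ 2 := ⟨_, rfl⟩
  obtain ⟨JD, hJD⟩ : ∃ JD, JD = ∑ x ∈ S, J x x ^ 2 := ⟨_, rfl⟩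
  have hJJ0 : 0 ≤ JJ := by
    rw [hJJ]; exact Finset.sum_nonneg fun _ _ => Finset.sum_nonneg fun _ _ => sq_nonneg _
  have hJD0 : 0 ≤ JD := by rw [hJD]; exact Finset.sum_nonneg fun _ _ => sq_nonneg _
  rw [← hJJ, ← hJD] at hsum ⊢
  have hDD : (∑ x ∈ S, D x x ^ 2 + (S.card : ℝ) * (1 / (S.card : ℝ)) ^ 2) * JD ≤ (N + 1) * JD :=
    mul_le_mul_of_nonneg_right (by linarith [R.diag]) hJD0
  have hE : ∑ p ∈ Vd,
      s51dT S.card σ h (pblk D p.1 p.2) (pblk K p.1 p.2) (pblk Q p.1 p.2) (pblk J p.1 p.2) ^ 2 ≤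
      16 * C1 ^ 2 * (1 + C0) ^ 2 * (CQ * trS S Q * S.card + JJ + (N + 1) * JD) := by
    refine hsum.trans ?_
    have c1 : (1 : ℝ) ≤ (1 + C0) ^ 2 := by nlinarith
    have c2 : 0 ≤ JJ + (N + 1) * JD := by positivity
    have c3 := mul_le_mul_of_nonneg_right c1 c2
    have c4 : 0 ≤ 8 * C1 ^ 2 := by positivity
    have c5 : (1 + C0) ^ 2 * CQ * (2 * (S.card : ℝ) * trS S Q) + 2 * JJ
        + 2 * ((∑ x ∈ S, D x x ^ 2 + (S.card : ℝ) * (1 / (S.card : ℝ)) ^ 2) * JD) ≤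
        2 * ((1 + C0) ^ 2 * (CQ * trS S Q * S.card + JJ + (N + 1) * JD)) := by nlinarith
    calc _ ≤ 8 * C1 ^ 2 * (2 * ((1 + C0) ^ 2 * (CQ * trS S Q * S.card + JJ + (N + 1) * JD))) :=
          mul_le_mul_of_nonneg_left c5 c4
      _ = _ := by ring
  have hfin := s51v_avg_le R.valid (by have := R.hl; omega) R.hDg _ _ (by positivity) hE
  refine hfin.trans (le_of_eq ?_)
  have : (S.card : ℝ) ≠ 0 := by linarith
  field_simp
  ring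

/-- `P_T` for EVERY pair -/
theorem s51v_PT_abs : ∃ C : ℝ, 0 < C ∧ ∀ (l : ℕ) (σ h : ℝ) (D K Q J : Matrix (Fin 2) (Fin 2) ℝ) (a κ b : ℝ),
    4 ≤ l → σ ^ 2 = 1 → 0 < h → h ≤ 1 → s51Le D a → s51Le K κ → S51Psd Q → s51Le J b →
    |s51PT l σ h D K Q J| ≤ C * (1 + κ) * (Q 0 0 + Q 1 1) + (16 + 128 * a) * b := by
  obtain ⟨C, hC, H⟩ := s51_PT_outer_abs
  refine ⟨C, hC, ?_⟩
  intro l σ h D K Q J a κ b hl hσ hh hh1 hD hK hQ hJ
  have h0 := s51f_H0 hl hσ hh hh1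
  have t1 := s51f_tr (s51f_mul h0 hJ)
  have t2 := s51f_tr (s51f_mul (s51f_mul (s51f_mul h0 hD) h0) hJ)
  have t3 := H l σ h K Q κ hl hσ hh hh1 hK hQ
  have e : s51PT l σ h D K Q J =
      (-(1 + h ^ 2) * (B2 ℝ l * Q).trace + 2 * (H0 l σ h * Q).trace + (H0 l σ h * Q * H0 l σ h * K).trace)
        + (-2 * (H0 l σ h * J).trace + 2 * (H0 l σ h * D * H0 l σ h * J).trace) := by
    unfold s51PT; ring
  rw [e]
  refine (abs_add_le _ _).trans (add_le_add t3 ?_)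
  refine (abs_add_le _ _).trans ?_
  rw [abs_mul, abs_mul, abs_neg, abs_of_nonneg (by norm_num : (0 : ℝ) ≤ 2)]
  nlinarith

/-- lower bound for the full sum of `P_T` -/
theorem s51v_sum_PT : ∃ C : ℝ, 0 < C ∧ ∀ (α : Type) [DecidableEq α] (C0 N Z CQ κJ : ℝ) (S : Finset α)
    (Vd : Finset (α × α)) (Dg : ℕ) (σ h : ℝ) (D K Q J : Matrix α α ℝ) (jr : α → ℝ),
    S5R2 C0 N Z S Vd Dg σ h D → S51K C0 S K → S51Q CQ S Q → S51J κJ S J jr → 0 ≤ trS2 S Q K →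
    2 * (S.card : ℝ) * (h ^ 2 * (trS S K / (S.card : ℝ) - 1) - 1) * trS S Q
      - ((C * C0 + 4 * C0) * trS S Q + 2 * C * C0 * ∑ y ∈ S, jr y
          + 8 * (|trS S D| * |trS S J| + |trS2 S D J| + ∑ x ∈ S, |D x x| * jr x)) ≤
      ∑ p ∈ S.offDiag,
        s51PT S.card σ h (pblk D p.1 p.2) (pblk K p.1 p.2) (pblk Q p.1 p.2) (pblk J p.1 p.2) := by
  obtain ⟨C, hC, H⟩ := s51v_sum_HH
  refine ⟨C, hC, ?_⟩
  intro α _ C0 N Z CQ κJ S Vd Dg σ h D K Q J jr R hK hQ hJ hQK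
  have hl := s51v_card R
  have hC0 := s51v_C0 R
  have hTQ := s51v_trQ hQ
  obtain ⟨hh0, hh1⟩ := s51v_h2 R
  have hl4 : 4 ≤ S.card := by have := R.hl; omega
  have hl2 : 2 < S.card := by have := R.hl; omega
  have keyQK := H α S σ h Q K (fun x => C0 * Q x x) hl4 R.hσ R.hh R.hh1 hQ.symm
    (fun x hx => mul_nonneg hC0 (hQ.diag0 x hx))
    (fun u hu v hv => ⟨Q u u + Q v v, C0, s51f_Q (s51v_Q_psd hQ hu hv), s51v_K_le hK hu hv,
      le_of_eq (by ring)⟩)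
  have keyDJ := H α S σ h D J (fun x => C0 * jr x) hl4 R.hσ R.hh R.hh1 R.symm
    (fun x hx => mul_nonneg hC0 (s51v_jr hJ hx))
    (fun u hu v hv => ⟨C0, jr u + jr v, s51v_D_le R hu hv, s51v_J_le hJ hu hv, le_of_eq (by ring)⟩)
  rw [← Finset.mul_sum] at keyQK keyDJ
  have e : ∑ p ∈ S.offDiag,
        s51PT S.card σ h (pblk D p.1 p.2) (pblk K p.1 p.2) (pblk Q p.1 p.2) (pblk J p.1 p.2) =
      -(1 + h ^ 2) * (2 * S.card * trS S Q)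
        + ∑ p ∈ S.offDiag, (H0 S.card σ h * pblk Q p.1 p.2 * H0 S.card σ h * pblk K p.1 p.2).trace
        + 2 * ∑ p ∈ S.offDiag, (H0 S.card σ h * pblk D p.1 p.2 * H0 S.card σ h * pblk J p.1 p.2).trace := by
    simp only [s51PT, Finset.sum_add_distrib, Finset.sum_sub_distrib, ← Finset.mul_sum]
    rw [s5_sum_H0 S hl2 σ h Q hQ.cent, s5_sum_H0 S hl2 σ h J hJ.cent, s5_sum_B S hl2 Q hQ.cent]
    ring
  rw [e]
  obtain ⟨SQK, hSQK⟩ : ∃ x, x = ∑ p ∈ S.offDiag,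
    (H0 S.card σ h * pblk Q p.1 p.2 * H0 S.card σ h * pblk K p.1 p.2).trace := ⟨_, rfl⟩
  obtain ⟨SDJ, hSDJ⟩ : ∃ x, x = ∑ p ∈ S.offDiag,
    (H0 S.card σ h * pblk D p.1 p.2 * H0 S.card σ h * pblk J p.1 p.2).trace := ⟨_, rfl⟩
  rw [← hSQK] at keyQK ⊢
  rw [← hSDJ] at keyDJ ⊢
  have hQKd : ∑ x ∈ S, Q x x * K x x ≤ C0 * trS S Q := by
    unfold trS
    rw [Finset.mul_sum]
    refine Finset.sum_le_sum fun x hx => ?_
    rw [mul_comm]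
    exact mul_le_mul_of_nonneg_right ((le_abs_self _).trans (hK.ent x hx x hx)) (hQ.diag0 x hx)
  have hDJd : |∑ x ∈ S, D x x * J x x| ≤ ∑ x ∈ S, |D x x| * jr x := by
    refine (Finset.abs_sum_le_sum_abs _ _).trans (Finset.sum_le_sum fun x hx => ?_)
    rw [abs_mul]
    exact mul_le_mul_of_nonneg_left (hJ.ent x hx x hx) (abs_nonneg _)
  obtain ⟨Dj, hDj⟩ : ∃ x, x = ∑ x ∈ S, |D x x| * jr x := ⟨_, rfl⟩
  obtain ⟨Sj, hSj⟩ : ∃ x, x = ∑ y ∈ S, jr y := ⟨_, rfl⟩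
  obtain ⟨dQK, hdQK⟩ : ∃ x, x = ∑ x ∈ S, Q x x * K x x := ⟨_, rfl⟩
  obtain ⟨dDJ, hdDJ⟩ : ∃ x, x = ∑ x ∈ S, D x x * J x x := ⟨_, rfl⟩
  rw [← hDj, ← hdDJ] at hDJd
  rw [← hdQK] at hQKd keyQK
  rw [← hdDJ, ← hSj] at keyDJ
  rw [← hDj, ← hSj]
  have eT : ∑ x ∈ S, Q x x = trS S Q := rfl
  rw [eT] at keyQK
  -- the `D J` part
  have b1 : |trS S D * trS S J + trS2 S D J - 2 * dDJ| ≤ |trS S D| * |trS S J| + |trS2 S D J| + 2 * Dj := by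
    refine (abs_sub _ _).trans ?_
    rw [abs_mul 2, abs_of_nonneg (by norm_num : (0 : ℝ) ≤ 2)]
    have := abs_add_le (trS S D * trS S J) (trS2 S D J)
    rw [abs_mul] at this
    linarith
  obtain ⟨U, hU⟩ : ∃ x, x = |trS S D| * |trS S J| + |trS2 S D J| + 2 * Dj := ⟨_, rfl⟩
  rw [← hU] at b1
  have hU0 : 0 ≤ U := (abs_nonneg _).trans b1
  have hDj0 : 0 ≤ Dj := (abs_nonneg _).trans hDJd
  have b2 : -(2 * U) ≤ 2 * h ^ 2 * (trS S D * trS S J + trS2 S D J - 2 * dDJ) := by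
    have c1 := (abs_le.1 b1).1
    nlinarith [mul_nonneg hh0 hU0, mul_le_mul_of_nonneg_left c1 hh0]
  have b3 := (abs_le.1 keyDJ).1
  -- the `Q K` part
  have b4 := (abs_le.1 keyQK).1
  have b5 : 2 * h ^ 2 * (trS S Q * trS S K) - 4 * (C0 * trS S Q) ≤
      2 * h ^ 2 * (trS S Q * trS S K + trS2 S Q K - 2 * dQK) := by
    have c0 : 0 ≤ C0 * trS S Q := mul_nonneg hC0 hTQ
    nlinarith [mul_nonneg hh0 hQK, mul_le_mul_of_nonneg_left hQKd hh0, mul_nonneg hh0 c0]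
  have eM : 2 * (S.card : ℝ) * (h ^ 2 * (trS S K / (S.card : ℝ) - 1) - 1) * trS S Q =
      -(1 + h ^ 2) * (2 * S.card * trS S Q) + 2 * h ^ 2 * (trS S Q * trS S K) := by
    have : (S.card : ℝ) ≠ 0 := by linarith
    field_simp
    ring
  rw [eM]
  have hU' : 2 * U ≤ 4 * (|trS S D| * |trS S J| + |trS2 S D J| + Dj) := by
    rw [hU]
    have : 0 ≤ |trS S D| * |trS S J| + |trS2 S D J| := by positivity
    linarith
  nlinarith

/-- final arithmetic of the drift of `𝒯` -/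
theorem s51v_T_arith {C0 C1 C2 C3 N δ κJ l TQ Sj U Dg : ℝ} (hC0 : 0 ≤ C0) (hC1 : 0 ≤ C1) (hC2 : 0 ≤ C2)
    (hC3 : 0 ≤ C3) (hN : 0 ≤ N) (hδ : 0 ≤ δ) (hκ : 0 ≤ κJ) (hl : 1 ≤ l) (hTQ : 0 ≤ TQ) (hSj : 0 ≤ Sj)
    (hU : 0 ≤ U) (hDg : 0 ≤ Dg) :
    2 * (((C1 * C0 + 4 * C0) * TQ + 2 * C1 * C0 * Sj + 8 * U)
        + 2 * Dg * (C2 * (1 + C0) * TQ + (16 + 128 * C0) * Sj)
        + (C3 * (1 + C0) * δ * (2 * l * TQ) + C3 * κJ * (l * (2 * N + C0)))) / l ^ 2 ≤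
      2 * ((C1 * C0 + 4 * C0) + 2 * C1 * C0 + 8 + 2 * (C2 * (1 + C0)) + 2 * (16 + 128 * C0)
          + 2 * (C3 * (1 + C0)) + C3 * (2 + C0)) *
        ((δ + (Dg + 1) / l) * TQ / l + ((Dg + 1) * Sj + U) / l ^ 2 + κJ * (N + 1) / l) := by
  have hl0 : 0 < l := by linarith
  have hX : (δ + (Dg + 1) / l) * TQ / l + ((Dg + 1) * Sj + U) / l ^ 2 + κJ * (N + 1) / l =
      ((δ * l + Dg + 1) * TQ + (Dg + 1) * Sj + U + κJ * (N + 1) * l) / l ^ 2 := by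
    field_simp
    ring
  rw [hX, ← mul_div_assoc]
  refine div_le_div_of_nonneg_right ?_ (by positivity)
  obtain ⟨X, hXdef⟩ : ∃ X : ℝ, X = (δ * l + Dg + 1) * TQ + (Dg + 1) * Sj + U + κJ * (N + 1) * l :=
    ⟨_, rfl⟩
  rw [← hXdef]
  have p1 : 0 ≤ δ * l * TQ := by positivity
  have p2 : 0 ≤ Dg * TQ := by positivity
  have p3 : 0 ≤ Dg * Sj := by positivity
  have p4 : 0 ≤ κJ * l := by positivity
  have p5 : 0 ≤ κJ * l * N := by positivity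
  have x1 : TQ ≤ X := by nlinarith
  have x2 : Sj ≤ X := by nlinarith
  have x3 : U ≤ X := by nlinarith
  have x4 : Dg * TQ ≤ X := by nlinarith
  have x5 : Dg * Sj ≤ X := by nlinarith
  have x6 : δ * l * TQ ≤ X := by nlinarith
  have x7 : κJ * l * N + κJ * l ≤ X := by nlinarith
  have hX0 : 0 ≤ X := hTQ.trans x1
  have x8 : κJ * (l * (2 * N + C0)) ≤ (2 + C0) * X := by
    have : κJ * l ≤ X := by linarith
    nlinarith [mul_le_mul_of_nonneg_left this hC0]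
  have y1 := mul_le_mul_of_nonneg_left x1 (by positivity : 0 ≤ C1 * C0 + 4 * C0)
  have y2 := mul_le_mul_of_nonneg_left x2 (by positivity : 0 ≤ 2 * C1 * C0)
  have y4 := mul_le_mul_of_nonneg_left x4 (by positivity : 0 ≤ C2 * (1 + C0))
  have y5 := mul_le_mul_of_nonneg_left x5 (by positivity : 0 ≤ 16 + 128 * C0)
  have y6 := mul_le_mul_of_nonneg_left x6 (by positivity : 0 ≤ C3 * (1 + C0))
  have y8 := mul_le_mul_of_nonneg_left x8 hC3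
  nlinarith

/-- **(5.20), abstract**: lower drift of `𝒯 = Tr Q`. -/
theorem s51_T_drift (C0 : ℝ) : ∃ C : ℝ, 0 < C ∧ ∀ (α : Type) [DecidableEq α] (N Z CQ κJ δ : ℝ) (S : Finset α)
    (Vd : Finset (α × α)) (Dg : ℕ) (σ h : ℝ) (D K Q J : Matrix α α ℝ) (jr : α → ℝ),
    S5R2 C0 N Z S Vd Dg σ h D → S51K C0 S K → S51Q CQ S Q → S51J κJ S J jr →
    (∀ p ∈ Vd, s51m (pblk D p.1 p.2) ≤ δ) → 0 ≤ trS2 S Q K →
    s51a S Vd h K * trS S Q
      - C * ((δ + ((Dg : ℝ) + 1) / (S.card : ℝ)) * trS S Q / (S.card : ℝ)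
          + (((Dg : ℝ) + 1) * ∑ y ∈ S, jr y + |trS S D| * |trS S J| + |trS2 S D J| + ∑ x ∈ S, |D x x| * jr x)
              / (S.card : ℝ) ^ 2
          + κJ * (N + 1) / (S.card : ℝ))
      ≤ avgOn Vd (fun p => s51dT S.card σ h (pblk D p.1 p.2) (pblk K p.1 p.2) (pblk Q p.1 p.2) (pblk J p.1 p.2)) := by
  obtain ⟨C1, hC1, H1⟩ := s51v_sum_PT
  obtain ⟨C2, hC2, H2⟩ := s51v_PT_abs
  obtain ⟨C3, hC3, H3⟩ := s51_dT_rem
  refine ⟨2 * ((C1 * |C0| + 4 * |C0|) + 2 * C1 * |C0| + 8 + 2 * (C2 * (1 + |C0|)) + 2 * (16 + 128 * |C0|)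
          + 2 * (C3 * (1 + |C0|)) + C3 * (2 + |C0|)), by positivity, ?_⟩
  intro α _ N Z CQ κJ δ S Vd Dg σ h D K Q J jr R hK hQ hJ hδ hQK
  have hl := s51v_card R
  have hC0 := s51v_C0 R
  have hN := s51v_N R
  have hTQ := s51v_trQ hQ
  rw [abs_of_nonneg hC0]
  have hl4 : 4 ≤ S.card := by have := R.hl; omega
  have hl8 : 8 ≤ S.card := by have := R.hl; omega
  have hDg0 : (0 : ℝ) ≤ Dg := Nat.cast_nonneg _
  have hSj : 0 ≤ ∑ y ∈ S, jr y := Finset.sum_nonneg fun y hy => s51v_jr hJ hy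
  have hκ : 0 ≤ κJ := by
    obtain ⟨x, hx⟩ := s51v_ne R
    exact (s51v_jr hJ hx).trans (hJ.sup x hx)
  have hδ0 : 0 ≤ δ := by
    have hc := s5_card_valid_half R.valid hl8 R.hDg
    have : (0 : ℝ) < Vd.card := lt_of_lt_of_le (by positivity) hc
    obtain ⟨p, hp⟩ : Vd.Nonempty := Finset.card_pos.1 (by exact_mod_cast this)
    exact (s51f_m_nonneg _).trans (hδ p hp)
  have h1 := H1 α C0 N Z CQ κJ S Vd Dg σ h D K Q J jr R hK hQ hJ hQK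
  have h2 : |∑ p ∈ S.offDiag \ Vd,
      s51PT S.card σ h (pblk D p.1 p.2) (pblk K p.1 p.2) (pblk Q p.1 p.2) (pblk J p.1 p.2)| ≤
      2 * (Dg : ℝ) * (C2 * (1 + C0) * trS S Q + (16 + 128 * C0) * ∑ y ∈ S, jr y) := by
    refine (s51v_sum_forb R.valid _ (fun x => C2 * (1 + C0) * Q x x + (16 + 128 * C0) * jr x)
      (fun x hx => add_nonneg (mul_nonneg (by positivity) (hQ.diag0 x hx))
        (mul_nonneg (by positivity) (s51v_jr hJ hx))) fun p hp => ?_).trans (le_of_eq ?_)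
    · have hp' := Finset.mem_offDiag.1 hp
      refine (H2 S.card σ h _ _ _ _ C0 C0 (jr p.1 + jr p.2) hl4 R.hσ R.hh R.hh1
        (s51v_D_le R hp'.1 hp'.2.1) (s51v_K_le hK hp'.1 hp'.2.1) (s51v_Q_psd hQ hp'.1 hp'.2.1)
        (s51v_J_le hJ hp'.1 hp'.2.1)).trans (le_of_eq ?_)
      rw [s51v_pblk00, s51v_pblk11]
      ring
    · rw [Finset.sum_add_distrib, ← Finset.mul_sum, ← Finset.mul_sum]
      rfl
  have h3 : |∑ p ∈ Vd,
      (s51dT S.card σ h (pblk D p.1 p.2) (pblk K p.1 p.2) (pblk Q p.1 p.2) (pblk J p.1 p.2)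
      - s51PT S.card σ h (pblk D p.1 p.2) (pblk K p.1 p.2) (pblk Q p.1 p.2) (pblk J p.1 p.2))| ≤
      C3 * (1 + C0) * δ * (2 * (S.card : ℝ) * trS S Q) + C3 * κJ * ((S.card : ℝ) * (2 * N + C0)) := by
    refine (Finset.abs_sum_le_sum_abs _ _).trans ?_
    have a1 : ∀ p ∈ Vd,
        |s51dT S.card σ h (pblk D p.1 p.2) (pblk K p.1 p.2) (pblk Q p.1 p.2) (pblk J p.1 p.2)
        - s51PT S.card σ h (pblk D p.1 p.2) (pblk K p.1 p.2) (pblk Q p.1 p.2) (pblk J p.1 p.2)| ≤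
        C3 * (1 + C0) * δ * (Q p.1 p.1 + Q p.2 p.2) + C3 * κJ * s51n (pblk D p.1 p.2) := by
      intro p hp
      obtain ⟨hu, hv⟩ := s51v_mem R hp
      refine (H3 S.card σ h _ _ _ _ C0 κJ (R.tb p hp) (s51v_K_le hK hu hv) (s51v_Q_psd hQ hu hv)
        (s51v_J_le' hJ hu hv)).trans (add_le_add ?_ le_rfl)
      rw [s51v_pblk00, s51v_pblk11]
      refine mul_le_mul_of_nonneg_right ?_ (add_nonneg (hQ.diag0 _ hu) (hQ.diag0 _ hv))
      exact mul_le_mul_of_nonneg_left (hδ p hp) (by positivity)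
    refine (Finset.sum_le_sum a1).trans ?_
    rw [Finset.sum_add_distrib, ← Finset.mul_sum (a := C3 * κJ)]
    refine add_le_add ?_ (mul_le_mul_of_nonneg_left (s51v_sum_n R) (by positivity))
    refine (s51v_sum_le R.valid.sub _ (fun u v => C3 * (1 + C0) * δ * (Q u u + Q v v))
      (fun u hu v hv => mul_nonneg (by positivity) (add_nonneg (hQ.diag0 _ hu) (hQ.diag0 _ hv)))
      (fun p _ => le_rfl)).trans (le_of_eq ?_)
    simp only [← Finset.mul_sum]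
    rw [s51v_dsum_one S fun x => Q x x]
    rfl
  have hU0 : 0 ≤ |trS S D| * |trS S J| + |trS2 S D J| + ∑ x ∈ S, |D x x| * jr x :=
    add_nonneg (by positivity)
      (Finset.sum_nonneg fun x hx => mul_nonneg (abs_nonneg _) (s51v_jr hJ hx))
  have hm := s51v_mean_lower R.valid hl8 R.hDg _ _ _ _ _ _ h1 h2 h3 (by positivity)
  have har := s51v_T_arith (C1 := C1) (C2 := C2) (C3 := C3) (N := N) (δ := δ) (κJ := κJ)
    (l := (S.card : ℝ)) (TQ := trS S Q) (Sj := ∑ y ∈ S, jr y) (Dg := (Dg : ℝ)) hC0 hC1.le hC2.le hC3.le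
    hN hδ0 hκ (by linarith) hTQ hSj hU0 hDg0
  have eM : s51a S Vd h K * trS S Q =
      (2 * (S.card : ℝ) * (h ^ 2 * (trS S K / (S.card : ℝ) - 1) - 1) * trS S Q) / (Vd.card : ℝ) := by
    rw [s51a, div_mul_eq_mul_div]
  rw [eM]
  have e2 : ((Dg : ℝ) + 1) * ∑ y ∈ S, jr y + |trS S D| * |trS S J| + |trS2 S D J| + ∑ x ∈ S, |D x x| * jr x =
      ((Dg : ℝ) + 1) * ∑ y ∈ S, jr y + (|trS S D| * |trS S J| + |trS2 S D J| + ∑ x ∈ S, |D x x| * jr x) := by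
    ring
  rw [e2]
  linarith

/-! ## scalar account lemmas (LAYER D, abstract) -/

theorem s51sc_lin {ι : Type*} (I : Finset ι) (hI : I.Nonempty) (c0 c1 c2 : ℝ) (f g : ι → ℝ) :
    avgOn I (fun v => c0 + c1 * f v + c2 * g v) = c0 + c1 * avgOn I f + c2 * avgOn I g := by
  have hn : (I.card : ℝ) ≠ 0 := by exact_mod_cast hI.card_pos.ne'
  unfold avgOn
  rw [Finset.sum_add_distrib, Finset.sum_add_distrib, Finset.sum_const, nsmul_eq_mul,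
    ← Finset.mul_sum, ← Finset.mul_sum]
  field_simp

theorem s51sc_mono {ι : Type*} (I : Finset ι) (f g : ι → ℝ) (h : ∀ v ∈ I, f v ≤ g v) :
    avgOn I f ≤ avgOn I g := by
  unfold avgOn
  exact div_le_div_of_nonneg_right (Finset.sum_le_sum h) (Nat.cast_nonneg _)

theorem s51sc_nonneg {ι : Type*} (I : Finset ι) (f : ι → ℝ) (h : ∀ v ∈ I, 0 ≤ f v) :
    0 ≤ avgOn I f := by
  unfold avgOn
  exact div_nonneg (Finset.sum_nonneg h) (Nat.cast_nonneg _)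

/-- square account with a drift: if `|𝔼 Δ - a X| ≤ er`, `𝔼 Δ² ≤ V`, `a ≤ ap`, `0 ≤ ap`, then
`𝔼 (1 + (X + Δ)²/S²) ≤ (1 + 2 ap + er/S + V/S²)(1 + X²/S²)`   (`2 |X|/S ≤ 1 + X²/S²`). -/
theorem s51_square_step {ι : Type*} (I : Finset ι) (hI : I.Nonempty) (X S a ap er V : ℝ) (hS : 0 < S) (Δ : ι → ℝ)
    (hap : 0 ≤ ap) (ha : a ≤ ap) (hm : |avgOn I Δ - a * X| ≤ er) (hV : avgOn I (fun v => Δ v ^ 2) ≤ V) :
    avgOn I (fun v => 1 + (X + Δ v) ^ 2 / S ^ 2) ≤ (1 + 2 * ap + er / S + V / S ^ 2) * (1 + X ^ 2 / S ^ 2) := by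
  have hS2 : 0 < S ^ 2 := by positivity
  have e1 : (fun v => 1 + (X + Δ v) ^ 2 / S ^ 2) =
      fun v => (1 + X ^ 2 / S ^ 2) + (2 * X / S ^ 2) * Δ v + (1 / S ^ 2) * (Δ v ^ 2) := by
    funext v
    field_simp
    ring
  rw [e1, s51sc_lin I hI]
  set m := avgOn I Δ with hmdef
  set q := avgOn I (fun v => Δ v ^ 2) with hqdef
  have hq0 : 0 ≤ q := s51sc_nonneg I _ fun v _ => by positivity
  have hV0 : 0 ≤ V := hq0.trans hV
  have her : 0 ≤ er := (abs_nonneg _).trans hm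
  set y := X / S with hy
  have hX : X = y * S := by rw [hy]; field_simp
  have h1 : X ^ 2 / S ^ 2 = y ^ 2 := by rw [hy]; field_simp
  have h2 : 2 * X / S ^ 2 * m = 2 * y * (m / S) := by rw [hy]; field_simp
  rw [h1, h2]
  have hm' : |m / S - a * y| ≤ er / S := by
    have : m / S - a * y = (m - a * X) / S := by rw [hy]; field_simp
    rw [this, abs_div, abs_of_pos hS]
    exact div_le_div_of_nonneg_right hm hS.le
  have her' : 0 ≤ er / S := div_nonneg her hS.le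
  have h3 : 2 * y * (m / S) ≤ er / S * (1 + y ^ 2) + 2 * ap * y ^ 2 := by
    have a1 : 2 * y * (m / S - a * y) ≤ 2 * |y| * (er / S) := by
      calc 2 * y * (m / S - a * y) ≤ |2 * y * (m / S - a * y)| := le_abs_self _
        _ = 2 * |y| * |m / S - a * y| := by rw [abs_mul, abs_mul]; norm_num
        _ ≤ 2 * |y| * (er / S) := mul_le_mul_of_nonneg_left hm' (by positivity)
    have a2 : 2 * |y| ≤ 1 + y ^ 2 := by
      have := sq_nonneg (|y| - 1)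
      rw [sub_sq, sq_abs] at this
      linarith
    have a3 : 2 * |y| * (er / S) ≤ (1 + y ^ 2) * (er / S) := mul_le_mul_of_nonneg_right a2 her'
    have a4 : a * y ^ 2 ≤ ap * y ^ 2 := mul_le_mul_of_nonneg_right ha (by positivity)
    nlinarith
  have h4 : 1 / S ^ 2 * q ≤ V / S ^ 2 * (1 + y ^ 2) := by
    have b1 : 1 / S ^ 2 * q ≤ V / S ^ 2 := by
      rw [one_div_mul_eq_div]
      exact div_le_div_of_nonneg_right hV hS2.le
    have b2 : 0 ≤ V / S ^ 2 * y ^ 2 := by positivity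
    nlinarith
  have h5 : 0 ≤ 2 * ap := by positivity
  nlinarith

/-- reciprocal: `1/(T + Δ) ≤ 1/T - Δ/T² + 2 Δ²/T³` for `|Δ| ≤ T/2`. -/
theorem s51_recip (T Δ : ℝ) (hT : 0 < T) (hΔ : |Δ| ≤ T / 2) :
    1 / (T + Δ) ≤ 1 / T - Δ / T ^ 2 + 2 * Δ ^ 2 / T ^ 3 := by
  obtain ⟨h1, h2⟩ := abs_le.1 hΔ
  have hTD : 0 < T + Δ := by linarith
  rw [div_le_iff₀ hTD]
  have e : (1 / T - Δ / T ^ 2 + 2 * Δ ^ 2 / T ^ 3) * (T + Δ) = 1 + Δ ^ 2 * (T + 2 * Δ) / T ^ 3 := by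
    field_simp
    ring
  rw [e]
  have : 0 ≤ Δ ^ 2 * (T + 2 * Δ) / T ^ 3 :=
    div_nonneg (mul_nonneg (sq_nonneg _) (by linarith)) (by positivity)
  linarith

/-- reciprocal account: if `𝔼 Δ ≥ - (A T + u) T`, `𝔼 Δ² ≤ w T²`, `|Δ| ≤ T/2`, then `𝔼 1/(T + Δ) ≤ (1 + u + 2 w)/T + A`. -/
theorem s51_recip_step {ι : Type*} (I : Finset ι) (hI : I.Nonempty) (T A u w : ℝ) (hT : 0 < T) (Δ : ι → ℝ)
    (hsup : ∀ v ∈ I, |Δ v| ≤ T / 2) (hm : -(A * T + u) * T ≤ avgOn I Δ) (hV : avgOn I (fun v => Δ v ^ 2) ≤ w * T ^ 2) :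
    avgOn I (fun v => 1 / (T + Δ v)) ≤ (1 + u + 2 * w) / T + A := by
  have h1 : avgOn I (fun v => 1 / (T + Δ v)) ≤
      avgOn I (fun v => 1 / T + (-(1 / T ^ 2)) * Δ v + (2 / T ^ 3) * (Δ v ^ 2)) := by
    refine s51sc_mono I _ _ fun v hv => ?_
    refine (s51_recip T (Δ v) hT (hsup v hv)).trans (le_of_eq ?_)
    ring
  refine h1.trans ?_
  rw [s51sc_lin I hI]
  have h2 : -(1 / T ^ 2) * avgOn I Δ ≤ (1 / T ^ 2) * ((A * T + u) * T) := by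
    have : 0 ≤ 1 / T ^ 2 := by positivity
    nlinarith [mul_le_mul_of_nonneg_left hm this]
  have h3 : 2 / T ^ 3 * avgOn I (fun v => Δ v ^ 2) ≤ 2 / T ^ 3 * (w * T ^ 2) :=
    mul_le_mul_of_nonneg_left hV (by positivity)
  have e : 1 / T + (1 / T ^ 2) * ((A * T + u) * T) + 2 / T ^ 3 * (w * T ^ 2) = (1 + u + 2 * w) / T + A := by
    field_simp
    ring
  linarith

/-- the account `1 + κ / (T f)`: with `f ≤ f'` (`f' = f_{l-2}`), `0 < f`: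
`𝔼 (1 + κ/(T' f')) ≤ (1 + u + 2 w + κ A / f)(1 + κ/(T f))`. -/
theorem s51_recip_account {ι : Type*} (I : Finset ι) (hI : I.Nonempty) (T A u w κ f f' : ℝ) (hT : 0 < T) (Δ : ι → ℝ)
    (hA : 0 ≤ A) (hu : 0 ≤ u) (hw : 0 ≤ w) (hκ : 0 ≤ κ) (hf : 0 < f) (hff : f ≤ f')
    (hsup : ∀ v ∈ I, |Δ v| ≤ T / 2) (hm : -(A * T + u) * T ≤ avgOn I Δ) (hV : avgOn I (fun v => Δ v ^ 2) ≤ w * T ^ 2) :
    avgOn I (fun v => 1 + κ / ((T + Δ v) * f')) ≤ (1 + u + 2 * w + κ * A / f) * (1 + κ / (T * f)) := by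
  have hf' : 0 < f' := lt_of_lt_of_le hf hff
  have hpos : ∀ v ∈ I, 0 < T + Δ v := fun v hv => by
    have := (abs_le.1 (hsup v hv)).1
    linarith
  have e1 : (fun v => 1 + κ / ((T + Δ v) * f')) =
      fun v => 1 + (κ / f') * (1 / (T + Δ v)) + 0 * (0 : ℝ) := by
    funext v
    rw [mul_zero, add_zero, div_mul_div_comm, mul_one, mul_comm f']
  rw [e1, s51sc_lin I hI 1 (κ / f') 0 (fun v => 1 / (T + Δ v)) (fun _ => 0)]
  have hst := s51_recip_step I hI T A u w hT Δ hsup hm hV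
  have h0 : 0 ≤ avgOn I (fun v => 1 / (T + Δ v)) :=
    s51sc_nonneg I _ fun v hv => (one_div_pos.2 (hpos v hv)).le
  have h1 : κ / f' ≤ κ / f := div_le_div_of_nonneg_left hκ hf hff
  have h2 : κ / f' * avgOn I (fun v => 1 / (T + Δ v)) ≤ κ / f * ((1 + u + 2 * w) / T + A) :=
    mul_le_mul h1 hst h0 (by positivity)
  have e2 : (1 + u + 2 * w + κ * A / f) * (1 + κ / (T * f)) =
      1 + κ / f * ((1 + u + 2 * w) / T + A) + (u + 2 * w) + κ * A / f * (κ / (T * f)) := by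
    field_simp
    ring
  rw [e2]
  have h3 : 0 ≤ κ * A / f * (κ / (T * f)) := by positivity
  linarith

end Claimed.Agent.R275
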