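import Claimed.Agent.R275.S6Phase
import Claimed.Agent.R275.S43V

/-!
# Row 275, Sec 5 (early.tex): THE EARLY PHASE (definitions over a generic ordered field `K`)

Owner: helper11.  Definitions + package S5-PHASE (naturality, combinatorics of the candidates) at the end.  Same pattern as `S6Phase.lean`.

STATE = `PPair n d`.   RUN = `(s5Phase ℚ d n P SA).run (PPair.empty n d) (s5T d n)`, `s5T = (n d - l₁)/2`.
* candidates = `π.resolve u v` over the ORDERED pairs `(u, v)` with `π.Adm (g0 d n) u v` (unresolved, distance `> g₀`);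
* analytic accounts, per tracked `h` and sign `s`, all with weight `1` and all `≥ 1`:
    `trL1`: `1 + L_1²/S_1²`, `S_1 ≍ n^{.065a}/α_*`;     `trL0`: `1 + L_0²/S_0²`, `S_0 ≍ n^{.095a}/α_*²`;
    `recT` (primaries only): `1 + n^{-θ/4} / (𝒯 f_l)`, `f_l = 1/n + α(h)/l`;     `tS`: `1 + T_S/S_T`, `S_T ≍ n^{xT}`;
    `hi`: `Z_p = 1 + F_p + ∑_{k ≤ R} ϰ^{k+1} N_k` (see `S5Hi.lean`), `p = 2 p2`, `|z_ab|^p = (E_ab² / B_e²)^{p2}`, `B_e² ≍ n^{.62a}/l₀`;
* plus the structural accounts `SA` (STRUCT-ACCOUNTS, helper153), appended as `Sum.inl`.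
CHANGES w.r.t. the paper: no `T_V`, no `T_{XS,k}`; the diagonal moments are replaced by the near-pair moments `N_k`.
-/

set_option autoImplicit false

namespace Claimed.Agent.R275

open Matrix

/-- the rational parameters of the early phase -/
structure S5Par where
  /-- the constant of the primaries (Sec 2) -/
  cp : ℚ
  /-- `S_T = n^{xT}` -/
  xT : ℚ
  /-- the exponent `θ` of (5.13) -/
  θ : ℚ
  /-- half of the moment order -/
  p2 : ℕ
  /-- near radius -/
  R : ℕ
  /-- weight of the near-pair moments -/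
  kp : ℚ

/-- number of steps of the early phase -/
def s5T (d n : ℕ) : ℕ := (n * d - l1 n) / 2

/-! ## scales (rational, computable) -/

def s5S1 (d n : ℕ) : ℚ := scQ (65 / 1000 * aa) n / alphaf d (prim d n 0)
def s5S0 (d n : ℕ) : ℚ := scQ (95 / 1000 * aa) n / alphaf d (prim d n 0) ^ 2
def s5ST (P : S5Par) (n : ℕ) : ℚ := scQ P.xT n
/-- `B_e² ≍ n^{.62a} / l₀` -/
def s5BeSq (n : ℕ) : ℚ := scQ (62 / 100 * aa) n / (l0 n : ℚ)
/-- `n^{-θ/4}` -/
def s5cT (P : S5Par) (n : ℕ) : ℚ := scQ (-(P.θ / 4)) n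

namespace PPair

variable {n d : ℕ} (π : PPair n d)

/-- the candidates of one early step -/
def s5cands (g : ℕ) : List (PPair n d) :=
  (stubList n d).flatMap fun u => ((stubList n d).filter fun v => decide (π.Adm g u v)).map fun v => π.resolve u v

/-- the alive labels -/
def s5aliveL : List (Label n d) := (labelList n d).filter fun a => decide (π.Alive a)

/-- near relation: distance `≤ k` -/
def s5nr (k : ℕ) (a b : Label n d) : Bool := !decide (π.Far k a.vtx b.vtx)

section Field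

variable (K : Type) [Field K]

/-- weight of a label: `1/n` global, `1/l` stub -/
def s5m : Label n d → K
  | .glob _ => (n : K)⁻¹
  | .stub _ => (π.l : K)⁻¹

variable {K}

/-- `|z_ab|^p` -/
noncomputable def s5zp (p2 : ℕ) (σ h : K) (a b : Label n d) : K :=
  (π.Eent (Lcut d n) σ h a b ^ 2 / ((s5BeSq n : ℚ) : K)) ^ p2

/-- `F_p` -/
noncomputable def s5F (p2 : ℕ) (σ h : K) : K :=
  (π.s5aliveL.map fun a => (π.s5aliveL.map fun b => π.s5m K a * π.s5m K b * π.s5zp p2 σ h a b).sum).sum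

/-- `N_k` -/
noncomputable def s5N (p2 k : ℕ) (σ h : K) : K :=
  (π.s5aliveL.map fun a => (π.unresL.map fun x =>
    if π.s5nr k a (.stub x) then π.s5m K a * π.s5zp p2 σ h a (.stub x) else 0).sum).sum

/-- `Z_p` -/
noncomputable def s5Zhi (p2 R : ℕ) (kp : K) (σ h : K) : K :=
  1 + π.s5F p2 σ h + ((List.range (R + 1)).map fun k => kp ^ (k + 1) * π.s5N p2 k σ h).sum

end Field

end PPair

/-! ## accounts -/

/-- labels of the analytic accounts of the early phase -/
inductive S5Lab : Type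
  | trL1 (h : ℚ) (s : Bool)
  | trL0 (h : ℚ) (s : Bool)
  | recT (h : ℚ) (s : Bool)
  | tS (h : ℚ) (s : Bool)
  | hi (h : ℚ) (s : Bool)

/-- the list of the analytic accounts -/
def s5labels (d n : ℕ) (cp : ℚ) : List S5Lab :=
  ((trackedList d n cp).flatMap fun h => [false, true].flatMap fun s =>
    [S5Lab.trL1 h s, S5Lab.trL0 h s, S5Lab.tS h s, S5Lab.hi h s])
  ++ (primList d n cp).flatMap fun h => [false, true].map fun s => S5Lab.recT h s

section Field

variable (K : Type) [Field K] [LinearOrder K] [IsStrictOrderedRing K]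

/-- values of the analytic accounts -/
noncomputable def s5Zv (d n : ℕ) (P : S5Par) : S5Lab → PPair n d → K
  | .trL1 h s, π => 1 + π.L1 (sgn s) (h : K) ^ 2 / ((s5S1 d n : ℚ) : K) ^ 2
  | .trL0 h s, π => 1 + π.L0 (sgn s) (h : K) ^ 2 / ((s5S0 d n : ℚ) : K) ^ 2
  | .recT h s, π => 1 + |((s5cT P n : ℚ) : K) / (π.Ttr (sgn s) (h : K) * ((n : K)⁻¹ + alphaf d (h : K) / (π.l : K)))|
  | .tS h s, π => 1 + π.TS (Lcut d n) (sgn s) (h : K) / ((s5ST P n : ℚ) : K)
  | .hi h s, π => π.s5Zhi P.p2 P.R ((P.kp : ℚ) : K) (sgn s) (h : K)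

/-- THE EARLY PHASE -/
noncomputable def s5Phase {ιs : Type} (d n : ℕ) (P : S5Par) (SA : Phase K (PPair n d) ιs) :
    Phase K (PPair n d) (ιs ⊕ S5Lab) where
  labels := SA.labels.map Sum.inl ++ (s5labels d n P.cp).map Sum.inr
  wt := Sum.elim SA.wt fun _ => 1
  Z := fun i π => Sum.elim (fun j => SA.Z j π) (fun j => s5Zv K d n P j π) i
  cands := fun π => π.s5cands (g0 d n)

end Field

/-- the state after the early phase -/
noncomputable def s5Run {ιs : Type} (d n : ℕ) (P : S5Par) (SA : Phase ℚ (PPair n d) ιs) : PPair n d :=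
  ((s5Phase ℚ d n P SA).run (PPair.empty n d) (s5T d n)).1

/-! ## package S5-PHASE, part 1: naturality (the machine runs over `ℚ`, the analysis over `ℝ`) -/

theorem s5p_cast_Ttr {n d : ℕ} (π : PPair n d) (b : Bool) (h : ℚ) :
    ((π.Ttr (sgn b) h : ℚ) : ℝ) = π.Ttr (sgn b) (h : ℝ) := by
  have := π.map_Ttr (Rat.castHom ℝ) (sgn b) h
  simpa [s6p_cast_sgn] using this

theorem s5p_cast_alphaf (d : ℕ) (h : ℚ) : ((alphaf d h : ℚ) : ℝ) = alphaf d (h : ℝ) := by
  unfold alphaf
  push_cast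
  rfl

theorem s5p_cast_m {n d : ℕ} (π : PPair n d) (a : Label n d) : ((π.s5m ℚ a : ℚ) : ℝ) = π.s5m ℝ a := by
  cases a <;> simp [PPair.s5m]

theorem s5p_cast_zp {n d : ℕ} (π : PPair n d) (p2 : ℕ) (b : Bool) (h : ℚ) (x y : Label n d) :
    ((π.s5zp p2 (sgn b) h x y : ℚ) : ℝ) = π.s5zp p2 (sgn b) (h : ℝ) x y := by
  unfold PPair.s5zp
  simp only [Rat.cast_id]
  push_cast
  rw [s6p_cast_Eent]

theorem s5p_cast_lsum {α : Type} (l : List α) (f : α → ℚ) :
    (((l.map f).sum : ℚ) : ℝ) = (l.map fun a => ((f a : ℚ) : ℝ)).sum := by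
  induction l with
  | nil => simp
  | cons a l ih => simp only [List.map_cons, List.sum_cons, Rat.cast_add, ih]

theorem s5p_cast_F {n d : ℕ} (π : PPair n d) (p2 : ℕ) (b : Bool) (h : ℚ) :
    ((π.s5F p2 (sgn b) h : ℚ) : ℝ) = π.s5F p2 (sgn b) (h : ℝ) := by
  unfold PPair.s5F
  rw [s5p_cast_lsum]
  congr 1
  refine List.map_congr_left fun x _ => ?_
  rw [s5p_cast_lsum]
  congr 1
  refine List.map_congr_left fun y _ => ?_
  rw [Rat.cast_mul, Rat.cast_mul, s5p_cast_m, s5p_cast_m, s5p_cast_zp]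

theorem s5p_cast_N {n d : ℕ} (π : PPair n d) (p2 k : ℕ) (b : Bool) (h : ℚ) :
    ((π.s5N p2 k (sgn b) h : ℚ) : ℝ) = π.s5N p2 k (sgn b) (h : ℝ) := by
  unfold PPair.s5N
  rw [s5p_cast_lsum]
  congr 1
  refine List.map_congr_left fun x _ => ?_
  rw [s5p_cast_lsum]
  congr 1
  refine List.map_congr_left fun y _ => ?_
  split_ifs
  · rw [Rat.cast_mul, s5p_cast_m, s5p_cast_zp]
  · exact Rat.cast_zero

theorem s5p_cast_Zhi {n d : ℕ} (π : PPair n d) (p2 R : ℕ) (kp : ℚ) (b : Bool) (h : ℚ) :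
    ((π.s5Zhi p2 R kp (sgn b) h : ℚ) : ℝ) = π.s5Zhi p2 R (kp : ℝ) (sgn b) (h : ℝ) := by
  unfold PPair.s5Zhi
  rw [Rat.cast_add, Rat.cast_add, Rat.cast_one, s5p_cast_F, s5p_cast_lsum]
  congr 2
  refine List.map_congr_left fun k _ => ?_
  rw [Rat.cast_mul, Rat.cast_pow, s5p_cast_N]

theorem s5Zv_cast (d n : ℕ) (P : S5Par) (j : S5Lab) (π : PPair n d) :
    ((s5Zv ℚ d n P j π : ℚ) : ℝ) = s5Zv ℝ d n P j π := by
  cases j with
  | trL1 h s =>
    simp only [s5Zv, Rat.cast_id]
    push_cast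
    rw [s6p_cast_L1]
  | trL0 h s =>
    simp only [s5Zv, Rat.cast_id]
    push_cast
    rw [s6p_cast_L0]
  | recT h s =>
    simp only [s5Zv, Rat.cast_id]
    push_cast
    rw [s5p_cast_Ttr, s5p_cast_alphaf]
  | tS h s =>
    simp only [s5Zv, Rat.cast_id]
    push_cast
    rw [s6p_cast_TS]
  | hi h s =>
    simp only [s5Zv, Rat.cast_id]
    exact s5p_cast_Zhi π P.p2 P.R P.kp s h

theorem s5Phase_map {ιs : Type} (d n : ℕ) (P : S5Par) (SA : Phase ℚ (PPair n d) ιs) :
    (s5Phase ℚ d n P SA).map (Rat.castHom ℝ) = s5Phase ℝ d n P (SA.map (Rat.castHom ℝ)) := by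
  unfold s5Phase Phase.map
  congr 1
  · funext i
    cases i with
    | inl j => rfl
    | inr j => exact Rat.cast_one
  · funext i π
    cases i with
    | inl j => rfl
    | inr j => exact s5Zv_cast d n P j π

/-- the rational and the real run visit the same states -/
theorem s5Run_eq {ιs : Type} (d n : ℕ) (P : S5Par) (SA : Phase ℚ (PPair n d) ιs) :
    s5Run d n P SA = ((s5Phase ℝ d n P (SA.map (Rat.castHom ℝ))).run (PPair.empty n d) (s5T d n)).1 := by
  rw [← s5Phase_map, Phase.map_run (Rat.castHom ℝ) Rat.cast_strictMono]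
  rfl

/-! ## package S5-PHASE, part 2: combinatorics of the candidates, nonnegativity -/

namespace PPair

variable {n d : ℕ} (π : PPair n d)

theorem s5_mem_cands (g : ℕ) (π' : PPair n d) :
    π' ∈ π.s5cands g ↔ ∃ u v, π.Adm g u v ∧ π' = π.resolve u v := by
  unfold s5cands
  simp only [List.mem_flatMap, List.mem_map, List.mem_filter, decide_eq_true_eq]
  constructor
  · rintro ⟨u, _, v, ⟨_, h⟩, rfl⟩
    exact ⟨u, v, h, rfl⟩
  · rintro ⟨u, v, h, rfl⟩
    exact ⟨u, s6_mem_stubList u, v, ⟨s6_mem_stubList v, h⟩, rfl⟩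

/-- an admissible pair consists of two distinct stubs -/
theorem s5_adm_ne {g : ℕ} {u v : Stub n d} (h : π.Adm g u v) : u ≠ v ∧ u.1 ≠ v.1 := by
  have h0 : π.Nact ℚ 0 u.1 v.1 = 0 := h.2.2 0 (Nat.succ_pos g)
  have h1 : u.1 ≠ v.1 := by
    intro e
    have h2 : π.Nact ℚ 0 u.1 v.1 = (1 : Matrix (Fin n) (Fin n) ℚ) u.1 v.1 := rfl
    rw [h2, e, Matrix.one_apply_eq] at h0
    exact one_ne_zero h0
  exact ⟨fun e => h1 (by rw [e]), h1⟩

theorem s5p_Nact_symm (k : ℕ) (v w : Fin n) : π.Nact ℚ k v w = π.Nact ℚ k w v := by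
  have h : ((π.Nact ℚ k v w : ℚ) : ℝ) = ((π.Nact ℚ k w v : ℚ) : ℝ) := by
    rw [s43v_Nact_cast, s43v_Nact_cast, s43v_Nact_symm]
  exact_mod_cast h

theorem s5_adm_symm {g : ℕ} {u v : Stub n d} (h : π.Adm g u v) : π.Adm g v u :=
  ⟨h.2.1, h.1, fun k hk => by rw [s5p_Nact_symm]; exact h.2.2 k hk⟩

/-- the list of the admissible ordered pairs -/
theorem s5p_cands_eq (g : ℕ) :
    π.s5cands g = (((stubList n d) ×ˢ (stubList n d)).filter fun p => decide (π.Adm g p.1 p.2)).map
      fun p => π.resolve p.1 p.2 := by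
  unfold s5cands
  have e : (stubList n d) ×ˢ (stubList n d) =
      (stubList n d).flatMap fun u => (stubList n d).map fun v => (u, v) := rfl
  rw [e, List.filter_flatMap, List.map_flatMap]
  refine List.flatMap_congr fun u _ => ?_
  rw [List.filter_map, List.map_map]
  rfl

/-- list averages over the candidates as Finset averages over the admissible ordered pairs -/
theorem s5_lavg_cands (g : ℕ) (f : PPair n d → ℝ) :
    lavg (π.s5cands g) f =
      avgOn ((Finset.univ : Finset (Stub n d × Stub n d)).filter fun p => π.Adm g p.1 p.2)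
        (fun p => f (π.resolve p.1 p.2)) := by
  have hnd : (((stubList n d) ×ˢ (stubList n d)).filter fun p => decide (π.Adm g p.1 p.2)).Nodup :=
    ((s6_nodup_stubList (n := n) (d := d)).product s6_nodup_stubList).filter _
  have hfs : (((stubList n d) ×ˢ (stubList n d)).filter fun p => decide (π.Adm g p.1 p.2)).toFinset =
      (Finset.univ : Finset (Stub n d × Stub n d)).filter fun p => π.Adm g p.1 p.2 := by
    ext p
    simp only [List.mem_toFinset, List.mem_filter, decide_eq_true_eq, Finset.mem_filter, Finset.mem_univ,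
      true_and, and_iff_right_iff_imp]
    intro _
    exact List.mem_product.2 ⟨s6_mem_stubList p.1, s6_mem_stubList p.2⟩
  unfold lavg avgOn
  rw [s5p_cands_eq, List.map_map, List.length_map, ← hfs, List.toFinset_card_of_nodup hnd,
    List.sum_toFinset _ hnd]
  rfl

theorem s5_mem_aliveL (a : Label n d) : a ∈ π.s5aliveL ↔ π.Alive a := by
  unfold s5aliveL
  rw [List.mem_filter, decide_eq_true_eq]
  exact ⟨fun h => h.2, fun h => ⟨s6_mem_labelList a, h⟩⟩

theorem s5p_nodup_labelList : (labelList n d).Nodup := by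
  unfold labelList
  rw [List.nodup_append]
  refine ⟨(List.nodup_finRange n).map fun a b e => by injection e,
    (s6_nodup_stubList (n := n) (d := d)).map fun a b e => by injection e, ?_⟩
  intro a ha b hb
  obtain ⟨i, _, rfl⟩ := List.mem_map.1 ha
  obtain ⟨x, _, rfl⟩ := List.mem_map.1 hb
  exact fun e => by injection e

theorem s5_nodup_aliveL : π.s5aliveL.Nodup := s5p_nodup_labelList.filter _

theorem s5_nodup_unresL : π.unresL.Nodup := s6_nodup_stubList.filter _

theorem s5p_Wmat_transpose (σ h : ℝ) : (π.Wmat σ h)ᵀ = π.Wmat σ h := by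
  have e : π.Wmat σ h = (mh h)⁻¹ • ((compN (π.Mmat σ h))⁻¹ - J1 ℝ n) := rfl
  rw [e, Matrix.transpose_smul, Matrix.transpose_sub, Matrix.transpose_nonsing_inv,
    compN_transpose _ (π.Mmat_transpose σ h), J1_transpose]

/-- `𝒯 ≥ 0` at every state and every parameter (`W` is symmetric, also in the degenerate case) -/
theorem s5_Ttr_nonneg (σ h : ℝ) : 0 ≤ π.Ttr σ h := by
  have e : π.Qall σ h = (π.Wmat σ h * π.Xi ℝ)ᵀ * (π.Wmat σ h * π.Xi ℝ) := by
    rw [Qall, Matrix.transpose_mul, s5p_Wmat_transpose]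
    simp only [Matrix.mul_assoc]
  rw [Ttr, e, Matrix.trace]
  refine Finset.sum_nonneg fun x _ => ?_
  rw [Matrix.diag_apply, Matrix.mul_apply]
  refine Finset.sum_nonneg fun v _ => ?_
  rw [Matrix.transpose_apply]
  exact mul_self_nonneg _

theorem s5p_m_nonneg (a : Label n d) : 0 ≤ π.s5m ℝ a := by
  cases a <;> simp [s5m]

theorem s5p_zp_nonneg (p2 : ℕ) (σ h : ℝ) (a b : Label n d) : 0 ≤ π.s5zp p2 σ h a b := by
  unfold s5zp
  have h0 : (0 : ℝ) ≤ ((s5BeSq n : ℚ) : ℝ) := by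
    have : (0 : ℚ) ≤ s5BeSq n := div_nonneg (scQ_pos _ _).le (Nat.cast_nonneg _)
    exact_mod_cast this
  exact pow_nonneg (div_nonneg (sq_nonneg _) h0) _

theorem s5p_F_nonneg (p2 : ℕ) (σ h : ℝ) : 0 ≤ π.s5F p2 σ h := by
  unfold s5F
  refine List.sum_nonneg fun x hx => ?_
  obtain ⟨a, _, rfl⟩ := List.mem_map.1 hx
  refine List.sum_nonneg fun y hy => ?_
  obtain ⟨b, _, rfl⟩ := List.mem_map.1 hy
  exact mul_nonneg (mul_nonneg (π.s5p_m_nonneg a) (π.s5p_m_nonneg b)) (π.s5p_zp_nonneg p2 σ h a b)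

theorem s5p_N_nonneg (p2 k : ℕ) (σ h : ℝ) : 0 ≤ π.s5N p2 k σ h := by
  unfold s5N
  refine List.sum_nonneg fun x hx => ?_
  obtain ⟨a, _, rfl⟩ := List.mem_map.1 hx
  refine List.sum_nonneg fun y hy => ?_
  obtain ⟨b, _, rfl⟩ := List.mem_map.1 hy
  split_ifs
  · exact mul_nonneg (π.s5p_m_nonneg a) (π.s5p_zp_nonneg p2 σ h a _)
  · exact le_rfl

theorem s5p_Zhi_one_le (p2 R : ℕ) (kp : ℝ) (hkp : 0 ≤ kp) (σ h : ℝ) : 1 ≤ π.s5Zhi p2 R kp σ h := by
  unfold s5Zhi
  have h1 := π.s5p_F_nonneg p2 σ h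
  have h2 : 0 ≤ ((List.range (R + 1)).map fun k => kp ^ (k + 1) * π.s5N p2 k σ h).sum := by
    refine List.sum_nonneg fun x hx => ?_
    obtain ⟨k, _, rfl⟩ := List.mem_map.1 hx
    exact mul_nonneg (pow_nonneg hkp _) (π.s5p_N_nonneg p2 k σ h)
  linarith

theorem s5p_TS_nonneg (L : ℕ) (σ h : ℝ) : 0 ≤ π.TS L σ h :=
  Finset.sum_nonneg fun _ _ => sq_nonneg _

end PPair

/-- every analytic account is `≥ 1` provided `0 ≤ ϰ` -/
theorem s5Zv_one_le (d n : ℕ) (P : S5Par) (hkp : 0 ≤ P.kp) (j : S5Lab) (π : PPair n d) :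
    1 ≤ s5Zv ℝ d n P j π := by
  cases j with
  | trL1 h s =>
    simp only [s5Zv]
    exact le_add_of_nonneg_right (div_nonneg (sq_nonneg _) (sq_nonneg _))
  | trL0 h s =>
    simp only [s5Zv]
    exact le_add_of_nonneg_right (div_nonneg (sq_nonneg _) (sq_nonneg _))
  | recT h s =>
    simp only [s5Zv]
    exact le_add_of_nonneg_right (abs_nonneg _)
  | tS h s =>
    simp only [s5Zv]
    have h0 : (0 : ℝ) ≤ ((s5ST P n : ℚ) : ℝ) := by
      have : (0 : ℚ) ≤ s5ST P n := (scQ_pos _ _).le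
      exact_mod_cast this
    exact le_add_of_nonneg_right (div_nonneg (π.s5p_TS_nonneg _ _ _) h0)
  | hi h s =>
    simp only [s5Zv]
    exact π.s5p_Zhi_one_le _ _ _ (by exact_mod_cast hkp) _ _

/-- number of analytic accounts -/
theorem s5labels_length (d n : ℕ) (cp : ℚ) :
    (s5labels d n cp).length = 8 * (trackedList d n cp).length + 2 * (primList d n cp).length := by
  unfold s5labels
  rw [List.length_append, List.length_flatMap, List.length_flatMap]
  simp only [List.flatMap_cons, List.flatMap_nil, List.length_append, List.length_cons, List.length_nil,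
    List.map_cons, List.map_nil, List.map_const', List.sum_replicate, smul_eq_mul]
  ring

end Claimed.Agent.R275
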