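import Claimed.Agent.R275.S6Asym
import Claimed.Agent.R275.S4Cor

/-!
# Row 275, Sec 6, package S6-BRIDGE-A: the consequences of Sec 4 at a cleanup state, part A (`S6Facts`, range of the parameters, uniform part)

Owner of the statements: helper208.  No paper needed: every statement is a repackaging of statements of `Params`, `S43V`, `S43W`, `S4Cor`, `S6Asym`
(all of them may be assumed), eventually in `n`.

`S6Cl` = what the bridge uses of the invariant `S6Inv` (it does not mention the internal constants `C0, CK, CQ, CJ, C`).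

HAND PROOF of `s6br_facts` (`C0 := max 1 (max C_rows (2 CR + 2))`, `C_rows` from `s4c_rows d hd cp _ _ CR`), field by field:
`hn, hl, hL` : `n ≥ 1`, `64 ≤ l₀ ≤ l` (`S6NumOK.l0_ge` via `s6_asym`, or `s6_scales`), `0 < Lcut` (`pow_radius_bounds`: `q^{L+1} > n^{x}/2^{x+1} → ∞`);
`hh, hh1` : `s6br_range`;  `pos` : `cur.caps`;  `majP, majJ, majB` : `s43v_pAbs_le_Amaj, s43v_TAbs_self_le, s43v_TAbs_le_bmaj`;
`rowR, supR` : `s4c_rows`;  `sumJ2, sumJ1` : `s43v_sum_jmaj_sq_le, s43v_sum_jmaj_le` with `η := η0 < η' := η`;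
`rowB2, rowB1` : `s4c_bmaj_rows`, and `3 Cmaj (1 + L)² ≤ n^η` eventually (`L ≤ 1 + log n`, `s6_pow_absorb`);
`cap` : `lev` and `s6Bk k = 2 B_{min k 4} ≤ 2 B_4 = s6Bm` (`S6NumOK.B_mono`);  `hNe, hQa` : `n ≥ 1`, `η ≥ 0`, `√q ≥ 1`;
`he0` : `n^{-c0} → 0`;  `hBm` : `S6NumOK.XB` and `n^{.37a}/√l₀ → 0`;  `hBt` : positivity.
-/

set_option autoImplicit false

namespace Claimed.Agent.R275

open Matrix Filter

/-- what the bridge uses of the invariant -/
structure S6Cl {n d : ℕ} (P : S6Par) (CM CR η0 : ℝ) (Rc : ℕ) (π₁ π : PPair n d) : Prop where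
  cur : π.Cur P.cp CM CR η0 Rc
  le : π₁.Le π
  clean : ∀ x, π.Unres x → ¬ π₁.Bad (R0 d n) x → ¬ π.Bad (R0 d n) x
  lev : ∀ h ∈ trackedList d n P.cp, ∀ (s : Bool) (a b : Label n d), π.Alive a → π.Alive b →
    |π.Eent (Lcut d n) (sgn s) ((h : ℚ) : ℝ) a b| ≤ s6Bk n P (π₁.s6lev a + π₁.s6lev b)

theorem S6Inv.cur {n d : ℕ} {P : S6Par} {c : S6Cst} {C : ℝ} {π₁ π : PPair n d} {t : ℕ} (I : S6Inv P c C π₁ t π) :
    π.Cur P.cp c.CM c.CR c.η0 c.Rc :=
  ⟨by have h1 := I.l_eq; have h2 := I.t_le; unfold l1 at h1; omega, I.walk, I.caps⟩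

theorem S6Inv.cl {n d : ℕ} {P : S6Par} {c : S6Cst} {C : ℝ} {π₁ π : PPair n d} {t : ℕ} (I : S6Inv P c C π₁ t π) :
    S6Cl P c.CM c.CR c.η0 c.Rc π₁ π :=
  ⟨I.cur, I.le, I.clean, I.lev⟩

/-- range of the tracked parameters: `tracked_range`; every tracked `h` is `≤ prim d n 0` and `α` is decreasing on `h ≥ 0` -/
theorem s6br_range (d : ℕ) (hd : 3 ≤ d) (cp : ℚ) (hcp : 0 < cp) (hcp' : cp ≤ 1 / 4) :
    ∀ᶠ n : ℕ in atTop, ∀ h ∈ trackedList d n cp,
      0 < ((h : ℚ) : ℝ) ∧ ((h : ℚ) : ℝ) ≤ zq d ∧ ((h : ℚ) : ℝ) < 1 ∧ alphaS d n ≤ alphaf d ((h : ℚ) : ℝ) := by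
  obtain ⟨hr1, hr2⟩ := parF_sqrtq d hd
  have hd' : (3 : ℝ) ≤ (d : ℝ) := by exact_mod_cast hd
  filter_upwards [tracked_range d hd cp hcp hcp'] with n hrange h hh
  have hδ0 := parF_delta0_pos d hd n
  obtain ⟨r1, r2⟩ := hrange h hh
  obtain ⟨a0, a1, a2, a3, a4, a5, a6⟩ := s45j_alpha_facts d _ _ hr1 hr2 r1 r2
  have hr0 : 0 < Real.sqrt ((d : ℝ) - 1) := by linarith
  have hρ : 0 ≤ rhoQ d n := by
    unfold rhoQ
    exact div_nonneg (Nat.cast_nonneg _) (Nat.cast_nonneg _)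
  -- positivity of `α` at the primaries, in `ℚ`
  have hαQ : ∀ j, j < Nprim d n cp + 1 → 0 < alphaf d (prim d n j) := by
    intro j hj
    obtain ⟨s1, s2⟩ := hrange _ (s45j_prim_mem d n cp j hj)
    obtain ⟨-, -, -, -, b4, -, -⟩ := s45j_alpha_facts d _ _ hr1 hr2 s1 s2
    have e : ((alphaf d (prim d n j) : ℚ) : ℝ) = alphaf d ((prim d n j : ℚ) : ℝ) := by
      rw [parF_alphaf_real]
      rfl
    rw [← e] at b4
    exact_mod_cast b4
  have hprim : ∀ j, prim d n j ≤ prim d n 0 := by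
    intro j
    unfold prim
    refine mul_le_mul_of_nonneg_left ?_ hρ
    have : (1 : ℚ) ≤ 2 ^ j := one_le_pow₀ (by norm_num)
    nlinarith
  have hle : h ≤ prim d n 0 := by
    unfold trackedList primList at hh
    rw [List.mem_append, List.mem_append] at hh
    rcases hh with (hh | hh) | hh
    · obtain ⟨j, hj, rfl⟩ := List.mem_map.1 hh
      exact hprim j
    · obtain ⟨j, hj, rfl⟩ := List.mem_map.1 hh
      refine le_trans ?_ (hprim j)
      unfold aux1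
      have := mul_pos (scQ_pos (-(16 / 100) * aa) n) (hαQ j (List.mem_range.1 hj))
      linarith
    · obtain ⟨i, hi, rfl⟩ := List.mem_map.1 hh
      unfold aux2 bh
      have := mul_pos (scQ_pos (-(3 / 100) * aa) n) (hαQ 0 (by omega))
      have h2 : (0 : ℚ) ≤ ((i + 1 : ℕ) : ℚ) := by positivity
      nlinarith
  have hleR : ((h : ℚ) : ℝ) ≤ ((prim d n 0 : ℚ) : ℝ) := by exact_mod_cast hle
  refine ⟨a0, ?_, ?_, ?_⟩
  · rw [zq, ← one_div]
    exact r2.le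
  · nlinarith
  · rw [s45j_alphaS]
    unfold alphaf
    have : ((h : ℚ) : ℝ) ^ 2 ≤ ((prim d n 0 : ℚ) : ℝ) ^ 2 := pow_le_pow_left₀ a0.le hleR 2
    nlinarith

theorem s6br_prim_sub (d n : ℕ) (cp : ℚ) : ∀ h ∈ primList d n cp, h ∈ trackedList d n cp := by
  intro h hh
  unfold trackedList
  exact List.mem_append_left _ (List.mem_append_left _ hh)

/-- the uniform part: `s43v_Umaj_small`, monotone in `z`, nonnegative; `Cmaj/l ≤ Cmaj/l₀` -/
theorem s6br_umaj (d : ℕ) (hd : 3 ≤ d) :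
    ∀ᶠ n : ℕ in atTop, ∀ l : ℕ, l0 n ≤ l → ∀ z : ℝ, 0 ≤ z → z ≤ zq d →
      |Umaj d (Cmaj d) l (Lcut d n) z| + Cmaj d / (l : ℝ) ≤ s6Ub d n := by
  filter_upwards [s43v_Umaj_small d hd, eventually_ge_atTop 1] with n hU hn1 l hl z hz hz'
  have hl0 := s43w_l0_pos n hn1
  have hl' : (l0 n : ℝ) ≤ l := by exact_mod_cast hl
  rw [abs_of_nonneg (s43w_Umaj_nonneg d hd l (Lcut d n) z hz), s6Ub]
  have h1 : Umaj d (Cmaj d) l (Lcut d n) z ≤ Umaj d (Cmaj d) l (Lcut d n) (zq d) :=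
    s43v_sum_mono (fun k => s43v_UmajC_nonneg d hd _ (s43w_Cmaj_nonneg d) l k) hz hz'
  exact add_le_add (h1.trans (hU l hl)) (div_le_div_of_nonneg_left (s43w_Cmaj_nonneg d) hl0 hl')

theorem s6bra_Lcut_pos (d : ℕ) (hd : 3 ≤ d) : ∀ᶠ n : ℕ in atTop, 0 < Lcut d n := by
  have hx : (0 : ℚ) ≤ 2 / 3 + (15 / 100 - 58 / 100) * aa := by unfold aa; norm_num
  have hxR : (0 : ℝ) < (((2 / 3 + (15 / 100 - 58 / 100) * aa : ℚ)) : ℝ) := by unfold aa; norm_num
  filter_upwards [eventually_ge_atTop 1,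
    parF_ev_large _ hxR (2 ^ ((((2 / 3 + (15 / 100 - 58 / 100) * aa : ℚ)) : ℝ) + 1) * ((d : ℝ) - 1))] with n hn hbig
  have h2 := (pow_radius_bounds d hd _ hx n hn).2
  by_contra h0
  have h0' : Nat.log (d - 1) (scN (2 / 3 + (15 / 100 - 58 / 100) * aa) n) = 0 := by
    unfold Lcut at h0
    omega
  rw [h0', zero_add, pow_one, div_lt_iff₀ (by positivity)] at h2
  linarith

/-- ALL the one-parameter facts -/
theorem s6br_facts (d : ℕ) (hd : 3 ≤ d) (P : S6Par) (c : S6Cst) (G : S6Good P c) : ∃ C0 : ℝ, 1 ≤ C0 ∧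
    ∀ᶠ n : ℕ in atTop, ∀ π₁ π : PPair n d, S6Cl P c.CM c.CR c.η0 c.Rc π₁ π →
      ∀ h ∈ trackedList d n P.cp, ∀ s : Bool,
        π.S6Facts (Cmaj d) (Lcut d n) (sgn s) ((h : ℚ) : ℝ) C0 (s6N d n P c) := by
  obtain ⟨Cr, hCr0, hCr⟩ := s4c_rows d hd P.cp G.cp_pos G.cp_le c.CR
  obtain ⟨hs1, hs2, hs3⟩ := s43v_sqrt_facts d hd
  have hη : 0 < c.η := lt_of_le_of_lt G.η0_nonneg G.η0_lt
  refine ⟨max 1 (max Cr (2 * c.CR + 2)), le_max_left _ _, ?_⟩
  filter_upwards [eventually_ge_atTop 1, s6br_range d hd P.cp G.cp_pos G.cp_le, s6_asym d P c hd G 0,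
    hCr c.CM c.η0 c.Rc, s43v_sum_jmaj_sq_le d hd c.CM c.CR c.η0 c.η c.Rc G.η0_nonneg G.η0_lt,
    s43v_sum_jmaj_le d hd c.CM c.CR c.η0 c.η c.Rc G.η0_nonneg G.η0_lt,
    s4c_bmaj_rows d hd c.CM c.CR c.η0 c.Rc, s6_scales d hd,
    s6_pow_absorb (12 * Cmaj d) 0 c.η 2 hη,
    parF_ev_small (-c.c0) (by have := G.c0_pos; linarith) (1 / 64) (by norm_num),
    parF_ev_small ((37 / 100 : ℝ) * (aa : ℝ) - (2 / 3 + 15 / 100 * (aa : ℝ)) / 2) (by rw [parF_aa]; norm_num)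
      (1 / 128) (by norm_num),
    s6bra_Lcut_pos d hd]
    with n hn1 hrange hnum hrows hJ2 hJ1 hB hsc habs he0 hbm hL π₁ π hcl h hh s
  have hn0 : 0 < n := hn1
  have hnR : (0 : ℝ) < (n : ℝ) := by exact_mod_cast hn0
  have hnR1 : (1 : ℝ) ≤ (n : ℝ) := by exact_mod_cast hn1
  obtain ⟨g1, g2, g3, g4⟩ := hrange h hh
  have hl64 : 64 ≤ π.l := hnum.l0_ge.trans hcl.cur.l_ge
  have hl0 : 0 < π.l := by omega
  have hrL : 1 ≤ Real.sqrt ((d : ℝ) - 1) ^ Lcut d n := one_le_pow₀ hs1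
  have hNe : 1 ≤ (n : ℝ) ^ c.η := Real.one_le_rpow hnR1 hη.le
  exact
    { hn := hn0
      hd := hd
      hCm := s43w_Cmaj_nonneg d
      hL := hL
      hσ := by cases s <;> simp [sgn]
      hh := g1
      hh1 := g3
      hl := hl64
      pos := (hcl.cur.caps h hh s).pos
      majP := fun a x _ _ => π.s43v_pAbs_le_Amaj hd hn0 hl0 _ _ g1.le a x
      majJ := fun x _ => π.s43v_TAbs_self_le hd hn0 hl0 _ _ g1.le x
      majB := fun x y _ _ hxy => π.s43v_TAbs_le_bmaj hd hn0 hl0 _ _ g1.le x y hxy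
      rowR := fun a ha => ((hrows π hcl.cur h hh s a ha).2.1).trans
        ((le_max_left _ _).trans (le_max_right _ _))
      supR := fun a x ha hx => (hrows π hcl.cur h hh s a ha).2.2.1 x (by simpa [PPair.unres] using hx)
      sumJ2 := hJ2 π hcl.cur.l_ge hcl.cur.walk _ g1.le g2
      sumJ1 := hJ1 π hcl.cur.l_ge hcl.cur.walk _ g1.le g2
      rowB2 := fun x _ => ((hB π hcl.cur.l_ge hcl.cur.walk _ g1.le g2 x).1).trans
        ((le_max_right _ _).trans (le_max_right _ _))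
      rowB1 := fun x _ => by
        refine ((hB π hcl.cur.l_ge hcl.cur.walk _ g1.le g2 x).2).trans ?_
        show _ ≤ (n : ℝ) ^ c.η * Real.sqrt ((d : ℝ) - 1) ^ Lcut d n
        refine mul_le_mul_of_nonneg_right ?_ (by linarith)
        have hLl := hsc.2.2.2.2.2.2.1
        have hlog : 0 ≤ Real.log n := Real.log_nonneg hnR1
        have hC := s43w_Cmaj_nonneg d
        rw [Real.rpow_zero, mul_one] at habs
        refine le_trans ?_ habs
        have h1 : (1 + (Lcut d n : ℝ)) ^ 2 ≤ (2 * (1 + Real.log n)) ^ 2 :=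
          pow_le_pow_left₀ (by positivity) (by linarith) 2
        calc 3 * Cmaj d * (1 + (Lcut d n : ℝ)) ^ 2 ≤ 3 * Cmaj d * (2 * (1 + Real.log n)) ^ 2 :=
              mul_le_mul_of_nonneg_left h1 (by positivity)
          _ = _ := by ring
      cap := fun a b ha hb => by
        refine (hcl.lev h hh s a b ha hb).trans ?_
        show 2 * s6Brl n P (min _ 4) ≤ 2 * s6Brl n P 4
        exact mul_le_mul_of_nonneg_left (hnum.B_mono _ _ (min_le_right _ _)) (by norm_num)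
      hC0 := le_max_left _ _
      hNe := hNe
      hQa := by
        show 1 ≤ (n : ℝ) ^ c.η * Real.sqrt ((d : ℝ) - 1) ^ Lcut d n
        nlinarith
      he0 := he0
      hBm := by
        refine hnum.XB.trans ?_
        have h2 := s43w_sqrt_l0_ge n hn1
        have hp : 0 < (n : ℝ) ^ ((2 / 3 + 15 / 100 * (aa : ℝ)) / 2) := by positivity
        rw [Real.rpow_sub hnR] at hbm
        rw [div_le_iff₀ (lt_of_lt_of_le (by positivity) h2)]
        rw [div_le_iff₀ hp] at hbm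
        nlinarith
      hBt := by
        show 0 ≤ (n : ℝ) ^ ((30 / 100 : ℝ) * (aa : ℝ)) / Real.sqrt (l0 n)
        positivity }

end Claimed.Agent.R275
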