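import Claimed.Agent.R275.S6Ent

/-!
# Row 275, Sec 6 (cleanup.tex), package S6-TRACE: one step of the scalar traces `L_1`, `L_0`, `𝒯` (Lemma 6.3 `lem:cleanup-traces`)

Owner of the statements: helper208.  May assume every statement of `L41*.lean`, `TwoByTwo.lean`, `S6Step.lean`, `S6Ent.lean`.

EXACT UPDATE IDENTITIES ((5.15), (5.19) of the paper; checked in exact rational arithmetic).  With `G = Uᵀ W U`, `K = Uᵀ W 𝒟 W U`,
`Q = Uᵀ W² U`, `J = Uᵀ W 𝒟 W² U`, `B = B2 l`, `H = Hp`: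
  `ΔF_1 = - Tr(B G) - Tr(H K) + Tr(B G H G)`,  `ΔF_0 = - Tr(H Q)`,
  `Δ𝒯 = - Tr[B (1 - G H) Q (1 - H G)] - 2 Tr(H J) + Tr(H Q H K)`.
(From `W' = W - W U H Uᵀ W`, `𝒟' = 𝒟 - U B Uᵀ`, cyclicity of the trace.)   Sec 5 (helper11) may import this file for the identities.

SIMPLIFICATIONS w.r.t. the paper (exponents recomputed, see `S6Bud.lean`):
* only ENTRY bounds `|K_xy| ≤ CK`, `|Q_xy| ≤ CQ = C/α`, `|J_xy| ≤ CJ = C n^{v*}/α²` are used: the omitted-row sums are bounded by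
  `om * CK` (no row norms, no operator norms); second moments by the squares of the pointwise bounds;
* `𝒯` needs NO account in cleanup: `|Δ𝒯| ≤ C (CQ (1 + CK) + CJ)` for EVERY candidate and `b n^{v*}/α² = o(n^{-θ/2} l_0/α)`.

HAND PROOF of `s6_dL1_sum`:  `ΔL_1 = - Tr(B D_p) - Tr(H K) + Tr(B G H G)`, `G = G_0 + D_p`, `H = H_0 + N_1`, `Tr(H_0 G_0) = 0`,
`|N_1|, |Tr(B D_p)|, .. ≤ C (a + c + β + 1/l)` with `a = |D_uu| ≤ j_u + Bm`, `c = |D_vv| ≤ j_v + Bm`, `β = |D_uv| ≤ b_uv + Bm`;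
`- Tr(H_0 K) = σh [2 (1 + 1/(l-2)) K_uv + (K_uu + K_vv)/(l-2)]` and `∑_{v ∈ S} K_uv = 0`.
-/

set_option autoImplicit false

namespace Claimed.Agent.R275

open Matrix

namespace PPair

variable {n d : ℕ} (π : PPair n d)

/-- one-step increments of the scalar statistics -/
noncomputable def dL1 (σ h : ℝ) (u v : Stub n d) : ℝ := (π.resolve u v).L1 σ h - π.L1 σ h
noncomputable def dL0 (σ h : ℝ) (u v : Stub n d) : ℝ := (π.resolve u v).L0 σ h - π.L0 σ h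
noncomputable def dTtr (σ h : ℝ) (u v : Stub n d) : ℝ := (π.resolve u v).Ttr σ h - π.Ttr σ h

/-- the pair blocks -/
noncomputable def blkG (σ h : ℝ) (u v : Stub n d) : Matrix (Fin 2) (Fin 2) ℝ := π.blk (π.Wmat σ h) u v
noncomputable def blkK (σ h : ℝ) (u v : Stub n d) : Matrix (Fin 2) (Fin 2) ℝ :=
  π.blk (π.Wmat σ h * π.Dcal ℝ * π.Wmat σ h) u v
noncomputable def blkQ (σ h : ℝ) (u v : Stub n d) : Matrix (Fin 2) (Fin 2) ℝ :=
  π.blk (π.Wmat σ h * π.Wmat σ h) u v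
noncomputable def blkJ (σ h : ℝ) (u v : Stub n d) : Matrix (Fin 2) (Fin 2) ℝ :=
  π.blk (π.Wmat σ h * π.Dcal ℝ * (π.Wmat σ h * π.Wmat σ h)) u v

/-- hypotheses under which the update formulas of Lemma 4.1 hold -/
structure UpdOK (σ h : ℝ) (u v : Stub n d) : Prop where
  hn : 0 < n
  hu : π.Unres u
  hv : π.Unres v
  huv : u ≠ v
  hl : 2 < π.l
  hσ : σ ^ 2 = 1
  hh : h ≠ 0
  hh1 : h ^ 2 ≠ 1
  hU : IsUnit (compN (π.Mmat σ h))
  hH : IsUnit ((H0 π.l σ h)⁻¹ + π.Dp σ h u v)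

variable {π}

/-! ### algebra of the update -/

section Alg

variable {m : Type*} [Fintype m] [DecidableEq m]

omit [DecidableEq m] in
/-- cyclicity in the form used below -/
theorem s6tr_cyc (X Y : Matrix m m ℝ) (U : Matrix m (Fin 2) ℝ) (M : Matrix (Fin 2) (Fin 2) ℝ) :
    (X * U * M * Uᵀ * Y).trace = (M * (Uᵀ * (Y * X) * U)).trace := by
  rw [show X * U * M * Uᵀ * Y = (X * U) * (M * Uᵀ * Y) by simp only [Matrix.mul_assoc],
    Matrix.trace_mul_comm]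
  simp only [Matrix.mul_assoc]

/-- abstract form of `ΔF_1` -/
theorem s6tr_dF1_abs (Dc W : Matrix m m ℝ) (U : Matrix m (Fin 2) ℝ) (B H : Matrix (Fin 2) (Fin 2) ℝ) :
    ((Dc - U * B * Uᵀ) * (W - W * U * H * Uᵀ * W)).trace - (Dc * W).trace =
      -(B * (Uᵀ * W * U)).trace - (H * (Uᵀ * (W * Dc * W) * U)).trace
        + (B * (Uᵀ * W * U) * H * (Uᵀ * W * U)).trace := by
  have e1 : (Dc * (W * U * H * Uᵀ * W)).trace = (H * (Uᵀ * (W * Dc * W) * U)).trace := by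
    have := s6tr_cyc (Dc * W) W U H
    rw [show Dc * (W * U * H * Uᵀ * W) = Dc * W * U * H * Uᵀ * W by simp only [Matrix.mul_assoc], this]
    simp only [Matrix.mul_assoc]
  have e2 : (U * B * Uᵀ * W).trace = (B * (Uᵀ * W * U)).trace := by
    have := s6tr_cyc 1 W U B
    rw [Matrix.one_mul, Matrix.mul_one] at this
    exact this
  have e3 : (U * B * Uᵀ * (W * U * H * Uᵀ * W)).trace = (B * (Uᵀ * W * U) * H * (Uᵀ * W * U)).trace := by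
    have := s6tr_cyc 1 (W * U * H * Uᵀ * W) U B
    rw [Matrix.one_mul, Matrix.mul_one] at this
    rw [this]
    simp only [Matrix.mul_assoc]
  rw [Matrix.sub_mul, Matrix.mul_sub, Matrix.mul_sub, Matrix.trace_sub, Matrix.trace_sub, Matrix.trace_sub,
    e1, e2, e3]
  ring

/-- abstract form of `Δ𝒯` -/
theorem s6tr_dT_abs (Dc W : Matrix m m ℝ) (U : Matrix m (Fin 2) ℝ) (B H : Matrix (Fin 2) (Fin 2) ℝ)
    (hD : Dcᵀ = Dc) (hW : Wᵀ = W) (hH : Hᵀ = H) :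
    ((Dc - U * B * Uᵀ) * ((W - W * U * H * Uᵀ * W) * (W - W * U * H * Uᵀ * W))).trace
        - (Dc * (W * W)).trace =
      -(B * (1 - Uᵀ * W * U * H) * (Uᵀ * (W * W) * U) * (1 - H * (Uᵀ * W * U))).trace
        - 2 * (H * (Uᵀ * (W * Dc * (W * W)) * U)).trace
        + (H * (Uᵀ * (W * W) * U) * H * (Uᵀ * (W * Dc * W) * U)).trace := by
  set V := W * U * H * Uᵀ * W with hV
  have e1 : (Dc * (W * V)).trace = (H * (Uᵀ * (W * Dc * (W * W)) * U)).trace := by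
    have := s6tr_cyc (Dc * (W * W)) W U H
    rw [hV, show Dc * (W * (W * U * H * Uᵀ * W)) = Dc * (W * W) * U * H * Uᵀ * W by
      simp only [Matrix.mul_assoc], this]
    simp only [Matrix.mul_assoc]
  have e2 : (Dc * (V * W)).trace = (H * (Uᵀ * (W * Dc * (W * W)) * U)).trace := by
    have h1 := s6tr_cyc (Dc * W) (W * W) U H
    rw [hV, show Dc * (W * U * H * Uᵀ * W * W) = Dc * W * U * H * Uᵀ * (W * W) by
      simp only [Matrix.mul_assoc], h1, ← Matrix.trace_transpose]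
    have h2 : (H * (Uᵀ * (W * W * (Dc * W)) * U))ᵀ = (Uᵀ * (W * Dc * (W * W)) * U) * H := by
      simp only [Matrix.transpose_mul, Matrix.transpose_transpose, hD, hW, hH, Matrix.mul_assoc]
    rw [h2, Matrix.trace_mul_comm]
  have e3 : (Dc * (V * V)).trace = (H * (Uᵀ * (W * W) * U) * H * (Uᵀ * (W * Dc * W) * U)).trace := by
    have h1 := s6tr_cyc (Dc * W) W U (H * (Uᵀ * (W * W) * U) * H)
    rw [hV, show Dc * (W * U * H * Uᵀ * W * (W * U * H * Uᵀ * W)) =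
      Dc * W * U * (H * (Uᵀ * (W * W) * U) * H) * Uᵀ * W by simp only [Matrix.mul_assoc], h1]
    simp only [Matrix.mul_assoc]
  have e4 : (U * B * Uᵀ * ((W - V) * (W - V))).trace =
      (B * (1 - Uᵀ * W * U * H) * (Uᵀ * (W * W) * U) * (1 - H * (Uᵀ * W * U))).trace := by
    have h1 := s6tr_cyc 1 ((W - V) * (W - V)) U B
    rw [Matrix.one_mul, Matrix.mul_one] at h1
    rw [h1]
    congr 1
    have h2 : Uᵀ * (W - V) = (1 - Uᵀ * W * U * H) * (Uᵀ * W) := by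
      rw [hV, Matrix.mul_sub, Matrix.sub_mul, Matrix.one_mul]
      simp only [Matrix.mul_assoc]
    have h3 : (W - V) * U = (W * U) * (1 - H * (Uᵀ * W * U)) := by
      rw [hV, Matrix.sub_mul, Matrix.mul_sub, Matrix.mul_one]
      simp only [Matrix.mul_assoc]
    calc B * (Uᵀ * ((W - V) * (W - V)) * U) = B * ((Uᵀ * (W - V)) * ((W - V) * U)) := by
          simp only [Matrix.mul_assoc]
      _ = _ := by rw [h2, h3]; simp only [Matrix.mul_assoc]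
  have e5 : (W - V) * (W - V) = W * W - W * V - V * W + V * V := by
    rw [Matrix.sub_mul, Matrix.mul_sub, Matrix.mul_sub]; abel
  rw [Matrix.sub_mul, Matrix.trace_sub, e4, e5, Matrix.mul_add, Matrix.mul_sub, Matrix.mul_sub,
    Matrix.trace_add, Matrix.trace_sub, Matrix.trace_sub, e1, e2, e3]
  ring

end Alg

theorem s6tr_H0_transpose (l : ℕ) (σ h : ℝ) : (H0 l σ h)ᵀ = H0 l σ h := by
  rw [H0, F2_mul_B2]
  ext i j
  simp only [Matrix.transpose_apply, Matrix.smul_apply, Matrix.add_apply, F2, J2, eq_comm]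

theorem s6tr_G0_transpose (l : ℕ) : (G0 ℝ l)ᵀ = G0 ℝ l := by
  ext i j
  simp only [G0, J2, Matrix.transpose_apply, Matrix.sub_apply, Matrix.smul_apply, Matrix.one_apply, eq_comm]

theorem s6tr_blk_transpose (π : PPair n d) {X : Matrix (Fin n) (Fin n) ℝ} (hX : Xᵀ = X) (u v : Stub n d) :
    (π.blk X u v)ᵀ = π.blk X u v := by
  unfold blk
  rw [Matrix.transpose_mul, Matrix.transpose_mul, Matrix.transpose_transpose, hX, Matrix.mul_assoc]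

theorem s6tr_Dp_transpose (π : PPair n d) (σ h : ℝ) (u v : Stub n d) : (π.Dp σ h u v)ᵀ = π.Dp σ h u v := by
  unfold Dp
  rw [Matrix.transpose_sub, s6tr_blk_transpose π (π.s6_Wmat_transpose σ h), s6tr_G0_transpose]

theorem s6tr_Hp_transpose (π : PPair n d) (σ h : ℝ) (u v : Stub n d) : (π.Hp σ h u v)ᵀ = π.Hp σ h u v := by
  unfold Hp
  rw [Matrix.transpose_nonsing_inv, Matrix.transpose_add, Matrix.transpose_nonsing_inv, s6tr_H0_transpose,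
    s6tr_Dp_transpose]

theorem s6tr_Ttr_eq (π : PPair n d) (σ h : ℝ) :
    π.Ttr σ h = (π.Dcal ℝ * (π.Wmat σ h * π.Wmat σ h)).trace := by
  unfold Ttr Qall
  rw [Matrix.trace_mul_comm, ← Matrix.mul_assoc, ← Dcal_eq_Xi_mul]

theorem UpdOK.s6tr_W {σ h : ℝ} {u v : Stub n d} (O : π.UpdOK σ h u v) :
    (π.resolve u v).Wmat σ h =
      π.Wmat σ h - π.Wmat σ h * π.Upair ℝ u v * π.Hp σ h u v * (π.Upair ℝ u v)ᵀ * π.Wmat σ h :=
  (Wmat_resolve O.hn O.hu O.hv O.huv O.hl σ h O.hσ O.hh O.hh1 O.hU O.hH).2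

theorem UpdOK.s6tr_D {σ h : ℝ} {u v : Stub n d} (O : π.UpdOK σ h u v) :
    (π.resolve u v).Dcal ℝ = π.Dcal ℝ - π.Upair ℝ u v * B2 ℝ π.l * (π.Upair ℝ u v)ᵀ :=
  Dcal_resolve ℝ O.hu O.hv O.huv O.hl

theorem s6_dF1_eq {σ h : ℝ} {u v : Stub n d} (O : π.UpdOK σ h u v) :
    (π.resolve u v).F1 σ h - π.F1 σ h =
      -(B2 ℝ π.l * π.blkG σ h u v).trace - (π.Hp σ h u v * π.blkK σ h u v).trace
        + (B2 ℝ π.l * π.blkG σ h u v * π.Hp σ h u v * π.blkG σ h u v).trace := by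
  unfold F1
  rw [O.s6tr_W, O.s6tr_D]
  exact s6tr_dF1_abs _ _ _ _ _

theorem s6_dF0_eq {σ h : ℝ} {u v : Stub n d} (O : π.UpdOK σ h u v) :
    (π.resolve u v).F0 σ h - π.F0 σ h = -(π.Hp σ h u v * π.blkQ σ h u v).trace := by
  unfold F0
  rw [O.s6tr_W, Matrix.trace_sub, s6tr_cyc]
  unfold blkQ blk
  ring

theorem s6_dTtr_eq {σ h : ℝ} {u v : Stub n d} (O : π.UpdOK σ h u v) :
    π.dTtr σ h u v =
      -(B2 ℝ π.l * (1 - π.blkG σ h u v * π.Hp σ h u v) * π.blkQ σ h u v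
          * (1 - π.Hp σ h u v * π.blkG σ h u v)).trace
        - 2 * (π.Hp σ h u v * π.blkJ σ h u v).trace
        + (π.Hp σ h u v * π.blkQ σ h u v * π.Hp σ h u v * π.blkK σ h u v).trace := by
  unfold dTtr
  rw [s6tr_Ttr_eq, s6tr_Ttr_eq, O.s6tr_W, O.s6tr_D]
  exact s6tr_dT_abs _ _ _ _ _ (π.Dcal_transpose ℝ) (π.s6_Wmat_transpose σ h) (s6tr_Hp_transpose π σ h u v)

theorem s6tr_blkG_eq (π : PPair n d) (σ h : ℝ) (u v : Stub n d) :
    π.blkG σ h u v = G0 ℝ π.l + π.Dp σ h u v := by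
  unfold Dp blkG
  abel

/-- `ΔL_1 = - Tr(B D_p) - Tr(H K) + Tr(B G H G)` -/
theorem s6_dL1_eq {σ h : ℝ} {u v : Stub n d} (O : π.UpdOK σ h u v) :
    π.dL1 σ h u v =
      -(B2 ℝ π.l * π.Dp σ h u v).trace - (π.Hp σ h u v * π.blkK σ h u v).trace
        + (B2 ℝ π.l * π.blkG σ h u v * π.Hp σ h u v * π.blkG σ h u v).trace := by
  have h1 := s6_dF1_eq O
  have h2 : (B2 ℝ π.l * π.blkG σ h u v).trace = 2 + (B2 ℝ π.l * π.Dp σ h u v).trace := by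
    rw [s6tr_blkG_eq, Matrix.mul_add, B2_mul_G0 ℝ O.hl, Matrix.trace_add, Matrix.trace_one]
    simp
  have h3 := resolve_l_cast ℝ O.hu O.hv O.huv
  unfold dL1 L1
  rw [h3]
  linarith

theorem s6_dL0_eq {σ h : ℝ} {u v : Stub n d} (O : π.UpdOK σ h u v) :
    π.dL0 σ h u v = -(π.Hp σ h u v * π.blkQ σ h u v).trace := by
  have h1 := s6_dF0_eq O
  unfold dL0 L0
  linarith

variable (π)

/-- entries of a stub compression -/
theorem s6tr_comp_apply (X : Matrix (Fin n) (Fin n) ℝ) {x y : Stub n d} (hx : π.Unres x) (hy : π.Unres y) :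
    ((π.Xi ℝ)ᵀ * X * π.Xi ℝ) x y = π.xi ℝ x ⬝ᵥ (X *ᵥ π.xi ℝ y) := by
  rw [Matrix.dotProduct_mulVec, Matrix.mul_apply, dotProduct]
  refine Finset.sum_congr rfl fun b _ => ?_
  congr 1
  · rw [Matrix.mul_apply, Matrix.vecMul, dotProduct]
    refine Finset.sum_congr rfl fun a _ => ?_
    simp only [Matrix.transpose_apply, Xi, if_pos hx]
  · simp only [Xi, if_pos hy]

theorem s6tr_blk_comp (X : Matrix (Fin n) (Fin n) ℝ) {u v : Stub n d} (hu : π.Unres u) (hv : π.Unres v)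
    (s s' : Fin 2) : π.blk X u v s s' = ((π.Xi ℝ)ᵀ * X * π.Xi ℝ) (s6e u v s) (s6e u v s') := by
  have h1 : ∀ t : Fin 2, π.Unres (s6e u v t) := by
    intro t
    unfold s6e
    split_ifs
    · exact hu
    · exact hv
  rw [s6tr_comp_apply π X (h1 s) (h1 s'), blk_apply]
  unfold s6e
  split_ifs <;> rfl

theorem s6tr_Kall_eq (σ h : ℝ) :
    π.Kall σ h = (π.Xi ℝ)ᵀ * (π.Wmat σ h * π.Dcal ℝ * π.Wmat σ h) * π.Xi ℝ := by
  unfold Kall Gam
  rw [Dcal_eq_Xi_mul]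
  simp only [Matrix.mul_assoc]

theorem s6tr_Jall_eq (σ h : ℝ) :
    π.Jall σ h = (π.Xi ℝ)ᵀ * (π.Wmat σ h * π.Dcal ℝ * (π.Wmat σ h * π.Wmat σ h)) * π.Xi ℝ := by
  unfold Jall Gam Qall
  rw [Dcal_eq_Xi_mul]
  simp only [Matrix.mul_assoc]

/-- the pair blocks are blocks of the stub matrices -/
theorem s6_blkK_apply (σ h : ℝ) {u v : Stub n d} (hu : π.Unres u) (hv : π.Unres v) (s s' : Fin 2) :
    π.blkK σ h u v s s' = π.Kall σ h (s6e u v s) (s6e u v s') := by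
  rw [s6tr_Kall_eq]
  exact s6tr_blk_comp π _ hu hv s s'

theorem s6_blkQ_apply (σ h : ℝ) {u v : Stub n d} (hu : π.Unres u) (hv : π.Unres v) (s s' : Fin 2) :
    π.blkQ σ h u v s s' = π.Qall σ h (s6e u v s) (s6e u v s') :=
  s6tr_blk_comp π _ hu hv s s'

theorem s6_blkJ_apply (σ h : ℝ) {u v : Stub n d} (hu : π.Unres u) (hv : π.Unres v) (s s' : Fin 2) :
    π.blkJ σ h u v s s' = π.Jall σ h (s6e u v s) (s6e u v s') := by
  rw [s6tr_Jall_eq]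
  exact s6tr_blk_comp π _ hu hv s s'

/-- centring of the rows of any matrix `M Ξ` -/
theorem s6tr_sum_mul_Xi {κ : Type*} (M : Matrix κ (Fin n) ℝ) (x : κ) :
    ∑ y ∈ π.unres, (M * π.Xi ℝ) x y = 0 := by
  simp only [Matrix.mul_apply]
  rw [Finset.sum_comm]
  refine Finset.sum_eq_zero fun k _ => ?_
  rw [← Finset.mul_sum]
  have h1 : ∑ y ∈ π.unres, π.Xi ℝ k y = (∑ y ∈ π.unres, π.xi ℝ y) k := by
    rw [Finset.sum_apply]
    refine Finset.sum_congr rfl fun y hy => ?_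
    simp only [Xi, if_pos (s6en_mem_unres.1 hy)]
  rw [h1, sum_xi]
  simp

/-- centring of the rows of the stub matrices -/
theorem s6_sum_Kall (σ h : ℝ) (x : Stub n d) : ∑ y ∈ π.unres, π.Kall σ h x y = 0 := by
  rw [s6tr_Kall_eq]
  exact s6tr_sum_mul_Xi π _ x

theorem s6_sum_Qall (σ h : ℝ) (x : Stub n d) : ∑ y ∈ π.unres, π.Qall σ h x y = 0 :=
  s6tr_sum_mul_Xi π _ x

theorem s6tr_comp_symm {X : Matrix (Fin n) (Fin n) ℝ} (hX : Xᵀ = X) (x y : Stub n d) :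
    ((π.Xi ℝ)ᵀ * X * π.Xi ℝ) x y = ((π.Xi ℝ)ᵀ * X * π.Xi ℝ) y x := by
  have : ((π.Xi ℝ)ᵀ * X * π.Xi ℝ)ᵀ = (π.Xi ℝ)ᵀ * X * π.Xi ℝ := by
    rw [Matrix.transpose_mul, Matrix.transpose_mul, Matrix.transpose_transpose, hX, Matrix.mul_assoc]
  conv_lhs => rw [← this]
  rfl

theorem s6tr_Kall_symm (σ h : ℝ) (x y : Stub n d) : π.Kall σ h x y = π.Kall σ h y x := by
  rw [s6tr_Kall_eq]
  refine s6tr_comp_symm π ?_ x y
  rw [Matrix.transpose_mul, Matrix.transpose_mul, s6_Wmat_transpose, Dcal_transpose, Matrix.mul_assoc]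

theorem s6tr_Qall_symm (σ h : ℝ) (x y : Stub n d) : π.Qall σ h x y = π.Qall σ h y x := by
  refine s6tr_comp_symm π ?_ x y
  rw [Matrix.transpose_mul, s6_Wmat_transpose]

/-- entry bounds of the stub matrices ((4.10) and the norm bound of Lemma 4.5) -/
structure S6TrF (σ h CK CQ CJ : ℝ) : Prop where
  hK : ∀ x y : Stub n d, |π.Kall σ h x y| ≤ CK
  hQ : ∀ x y : Stub n d, |π.Qall σ h x y| ≤ CQ
  hJ : ∀ x y : Stub n d, |π.Jall σ h x y| ≤ CJ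

end PPair

open PPair

/-! ### entrywise bounds of `2 × 2` matrices -/

theorem s6tr_mul_le {A B : Matrix (Fin 2) (Fin 2) ℝ} {a b : ℝ} (hA : ∀ i j, |A i j| ≤ a)
    (hB : ∀ i j, |B i j| ≤ b) (i j : Fin 2) : |(A * B) i j| ≤ 2 * (a * b) := by
  have ha : 0 ≤ a := (abs_nonneg _).trans (hA 0 0)
  rw [Matrix.mul_apply, Fin.sum_univ_two]
  have h1 : |A i 0 * B 0 j| ≤ a * b := by
    rw [abs_mul]; exact mul_le_mul (hA _ _) (hB _ _) (abs_nonneg _) ha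
  have h2 : |A i 1 * B 1 j| ≤ a * b := by
    rw [abs_mul]; exact mul_le_mul (hA _ _) (hB _ _) (abs_nonneg _) ha
  linarith [abs_add_le (A i 0 * B 0 j) (A i 1 * B 1 j)]

theorem s6tr_trace_le {A : Matrix (Fin 2) (Fin 2) ℝ} {a : ℝ} (hA : ∀ i j, |A i j| ≤ a) : |A.trace| ≤ 2 * a := by
  rw [Matrix.trace, Fin.sum_univ_two]
  simp only [Matrix.diag_apply]
  linarith [abs_add_le (A 0 0) (A 1 1), hA 0 0, hA 1 1]

theorem s6tr_sub_le {A B : Matrix (Fin 2) (Fin 2) ℝ} {a b : ℝ} (hA : ∀ i j, |A i j| ≤ a)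
    (hB : ∀ i j, |B i j| ≤ b) (i j : Fin 2) : |(A - B) i j| ≤ a + b := by
  rw [Matrix.sub_apply]
  linarith [abs_sub (A i j) (B i j), hA i j, hB i j]

theorem s6tr_add_le {A B : Matrix (Fin 2) (Fin 2) ℝ} {a b : ℝ} (hA : ∀ i j, |A i j| ≤ a)
    (hB : ∀ i j, |B i j| ≤ b) (i j : Fin 2) : |(A + B) i j| ≤ a + b := by
  rw [Matrix.add_apply]
  linarith [abs_add_le (A i j) (B i j), hA i j, hB i j]

theorem s6tr_one_le (i j : Fin 2) : |(1 : Matrix (Fin 2) (Fin 2) ℝ) i j| ≤ 1 := by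
  rw [Matrix.one_apply]
  split_ifs <;> simp

theorem s6tr_B2_le {l : ℕ} (hl : 4 ≤ l) (i j : Fin 2) : |B2 ℝ l i j| ≤ 2 := by
  have hl' : (4 : ℝ) ≤ (l : ℝ) := by exact_mod_cast hl
  have h1 : 0 ≤ ((l : ℝ) - 2)⁻¹ := inv_nonneg.2 (by linarith)
  have h2 : ((l : ℝ) - 2)⁻¹ ≤ 1 := inv_le_one_of_one_le₀ (by linarith)
  simp only [B2, J2, Matrix.add_apply, Matrix.smul_apply, smul_eq_mul, mul_one]
  have := s6tr_one_le i j
  have h3 := abs_add_le ((1 : Matrix (Fin 2) (Fin 2) ℝ) i j) (((l : ℝ) - 2)⁻¹)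
  rw [abs_of_nonneg h1] at h3
  linarith

theorem s6tr_G0_le {l : ℕ} (hl : 4 ≤ l) (i j : Fin 2) : |G0 ℝ l i j| ≤ 1 := by
  have hl' : (4 : ℝ) ≤ (l : ℝ) := by exact_mod_cast hl
  have h1 : 0 ≤ (l : ℝ)⁻¹ := inv_nonneg.2 (by linarith)
  have h2 : (l : ℝ)⁻¹ ≤ 1 := inv_le_one_of_one_le₀ (by linarith)
  simp only [G0, J2, Matrix.sub_apply, Matrix.smul_apply, smul_eq_mul, mul_one, Matrix.one_apply]
  split_ifs
  · rw [abs_of_nonneg (by linarith)]; linarith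
  · rw [zero_sub, abs_neg, abs_of_nonneg h1]; exact h2

namespace PPair

variable {n d : ℕ} {π : PPair n d} {Cm : ℝ} {L : ℕ} {σ h C0 : ℝ} {N : S6Num}

theorem S6Facts.s6tr_upd (F : π.S6Facts Cm L σ h C0 N) {u v : Stub n d} (A : π.S6Adm Cm L h N u v) :
    π.UpdOK σ h u v := by
  obtain ⟨-, hH, hU⟩ := F.pos_next A
  refine ⟨F.hn, A.hu, A.hv, A.huv, lt_of_lt_of_le (by norm_num) F.hl, F.hσ, F.hh.ne', ?_, hU, hH⟩
  have := F.hh
  have := F.hh1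
  nlinarith

theorem S6Facts.s6tr_tb (F : π.S6Facts Cm L σ h C0 N) {u v : Stub n d} (A : π.S6Adm Cm L h N u v) :
    TBHyp π.l σ h (π.Dp σ h u v) := by
  rw [s6_Dp_eq_add L]
  exact (F.blk A).hTE

theorem S6Facts.s6tr_Hp_le (F : π.S6Facts Cm L σ h C0 N) {u v : Stub n d} (A : π.S6Adm Cm L h N u v)
    (i j : Fin 2) : |π.Hp σ h u v i j| ≤ 4 := tb_abs_le (F.s6tr_tb A) i j

theorem S6Facts.s6tr_G_le (F : π.S6Facts Cm L σ h C0 N) {u v : Stub n d} (A : π.S6Adm Cm L h N u v)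
    (i j : Fin 2) : |π.blkG σ h u v i j| ≤ 2 := by
  rw [s6tr_blkG_eq]
  have := s6tr_add_le (s6tr_G0_le (F.s6tr_tb A).hl) (F.s6tr_tb A).small i j
  linarith

theorem S6TrF.s6tr_K {CK CQ CJ : ℝ} (T : π.S6TrF σ h CK CQ CJ) {u v : Stub n d} (hu : π.Unres u)
    (hv : π.Unres v) (i j : Fin 2) : |π.blkK σ h u v i j| ≤ CK := by
  rw [s6_blkK_apply π σ h hu hv]; exact T.hK _ _

theorem S6TrF.s6tr_Q {CK CQ CJ : ℝ} (T : π.S6TrF σ h CK CQ CJ) {u v : Stub n d} (hu : π.Unres u)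
    (hv : π.Unres v) (i j : Fin 2) : |π.blkQ σ h u v i j| ≤ CQ := by
  rw [s6_blkQ_apply π σ h hu hv]; exact T.hQ _ _

theorem S6TrF.s6tr_J {CK CQ CJ : ℝ} (T : π.S6TrF σ h CK CQ CJ) {u v : Stub n d} (hu : π.Unres u)
    (hv : π.Unres v) (i j : Fin 2) : |π.blkJ σ h u v i j| ≤ CJ := by
  rw [s6_blkJ_apply π σ h hu hv]; exact T.hJ _ _

end PPair

/-- pointwise bounds, for EVERY admissible pair -/
theorem s6_dtrace_abs (C0 : ℝ) : ∃ C : ℝ, 0 < C ∧ ∀ {n d : ℕ} (π : PPair n d) (Cm : ℝ) (L : ℕ) (σ h : ℝ) (N : S6Num)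
    (CK CQ CJ : ℝ) (u v : Stub n d),
    π.S6Facts Cm L σ h C0 N → π.S6TrF σ h CK CQ CJ → π.S6Adm Cm L h N u v →
    |π.dL1 σ h u v| ≤ C * (1 + CK) ∧ |π.dL0 σ h u v| ≤ C * CQ ∧
      |π.dTtr σ h u v| ≤ C * (CQ * (1 + CK) + CJ) := by
  refine ⟨10000, by norm_num, ?_⟩
  intro n d π Cm L σ h N CK CQ CJ u v F T A
  have O := F.s6tr_upd A
  have tb := F.s6tr_tb A
  have hB := s6tr_B2_le (l := π.l) tb.hl
  have hH := F.s6tr_Hp_le A
  have hG := F.s6tr_G_le A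
  have hK := T.s6tr_K A.hu A.hv
  have hQ := T.s6tr_Q A.hu A.hv
  have hJ := T.s6tr_J A.hu A.hv
  have hD := tb.small
  have CK0 : 0 ≤ CK := (abs_nonneg _).trans (hK 0 0)
  have CQ0 : 0 ≤ CQ := (abs_nonneg _).trans (hQ 0 0)
  have CJ0 : 0 ≤ CJ := (abs_nonneg _).trans (hJ 0 0)
  refine ⟨?_, ?_, ?_⟩
  · rw [s6_dL1_eq O]
    have t1 := s6tr_trace_le (s6tr_mul_le hB hD)
    have t2 := s6tr_trace_le (s6tr_mul_le hH hK)
    have t3 := s6tr_trace_le (s6tr_mul_le (s6tr_mul_le (s6tr_mul_le hB hG) hH) hG)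
    have s1 := abs_add_le (-(B2 ℝ π.l * π.Dp σ h u v).trace - (π.Hp σ h u v * π.blkK σ h u v).trace)
      ((B2 ℝ π.l * π.blkG σ h u v * π.Hp σ h u v * π.blkG σ h u v).trace)
    have s2 := abs_sub (-(B2 ℝ π.l * π.Dp σ h u v).trace) ((π.Hp σ h u v * π.blkK σ h u v).trace)
    rw [abs_neg] at s2
    linarith
  · rw [s6_dL0_eq O, abs_neg]
    have t1 := s6tr_trace_le (s6tr_mul_le hH hQ)
    linarith
  · rw [s6_dTtr_eq O]
    have t1 := s6tr_trace_le (s6tr_mul_le (s6tr_mul_le (s6tr_mul_le hB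
      (s6tr_sub_le s6tr_one_le (s6tr_mul_le hG hH))) hQ) (s6tr_sub_le s6tr_one_le (s6tr_mul_le hH hG)))
    have t2 := s6tr_trace_le (s6tr_mul_le hH hJ)
    have t3 := s6tr_trace_le (s6tr_mul_le (s6tr_mul_le (s6tr_mul_le hH hQ) hH) hK)
    have s1 := abs_add_le (-(B2 ℝ π.l * (1 - π.blkG σ h u v * π.Hp σ h u v) * π.blkQ σ h u v
          * (1 - π.Hp σ h u v * π.blkG σ h u v)).trace
        - 2 * (π.Hp σ h u v * π.blkJ σ h u v).trace)
        ((π.Hp σ h u v * π.blkQ σ h u v * π.Hp σ h u v * π.blkK σ h u v).trace)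
    have s2 := abs_sub (-(B2 ℝ π.l * (1 - π.blkG σ h u v * π.Hp σ h u v) * π.blkQ σ h u v
          * (1 - π.Hp σ h u v * π.blkG σ h u v)).trace) (2 * (π.Hp σ h u v * π.blkJ σ h u v).trace)
    rw [abs_neg, abs_mul, abs_two] at s2
    have p1 : 0 ≤ CQ * CK := mul_nonneg CQ0 CK0
    linarith

/-! ### first-order expansion of the traces -/

theorem s6tr_trace_F2_mul (K : Matrix (Fin 2) (Fin 2) ℝ) : (F2 ℝ * K).trace = K 0 1 + K 1 0 := by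
  simp [Matrix.trace, Matrix.mul_apply, Fin.sum_univ_two, F2]
  ring

theorem s6tr_trace_F2_G0 (l : ℕ) : (F2 ℝ * G0 ℝ l).trace = -(2 * (1 / (l : ℝ))) := by
  rw [s6tr_trace_F2_mul]
  simp [G0, J2]
  ring

/-- `Tr(H K)` with `H = - x F + X` -/
theorem s6tr_trace_HK (x : ℝ) (H X K : Matrix (Fin 2) (Fin 2) ℝ) (hX : X = H + x • F2 ℝ) :
    (H * K).trace = -(x * (K 0 1 + K 1 0)) + (X * K).trace := by
  rw [hX, Matrix.add_mul, Matrix.trace_add, Matrix.smul_mul, Matrix.trace_smul, s6tr_trace_F2_mul, smul_eq_mul]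
  ring

/-- exact first-order form of `ΔL_1` -/
theorem s6tr_L1_abs (l : ℕ) (x : ℝ) (B G Dp H X K : Matrix (Fin 2) (Fin 2) ℝ) (hB : B * G0 ℝ l = 1)
    (hG : G = G0 ℝ l + Dp) (hX : X = H + x • F2 ℝ) :
    -(B * Dp).trace - (H * K).trace + (B * G * H * G).trace - x * (K 0 1 + K 1 0) =
      -(B * Dp).trace - (X * K).trace + x * (2 * (1 / (l : ℝ))) + (X * G0 ℝ l).trace + (H * Dp).trace
        + (B * Dp * H * G).trace := by
  have e1 : B * G = 1 + B * Dp := by rw [hG, Matrix.mul_add, hB]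
  have e2 : (B * G * H * G).trace = (H * G).trace + (B * Dp * H * G).trace := by
    rw [e1, Matrix.add_mul, Matrix.add_mul, Matrix.one_mul, Matrix.trace_add]
  have e3 : (H * G).trace = (H * G0 ℝ l).trace + (H * Dp).trace := by
    rw [hG, Matrix.mul_add, Matrix.trace_add]
  have e4 : (H * G0 ℝ l).trace = x * (2 * (1 / (l : ℝ))) + (X * G0 ℝ l).trace := by
    rw [hX, Matrix.add_mul, Matrix.trace_add, Matrix.smul_mul, Matrix.trace_smul, s6tr_trace_F2_G0, smul_eq_mul]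
    ring
  rw [e2, e3, e4, s6tr_trace_HK x H X K hX]
  ring

namespace PPair

variable {n d : ℕ} {π : PPair n d} {Cm : ℝ} {L : ℕ} {σ h C0 : ℝ} {N : S6Num}

/-- entries of `D_p` against the majorants -/
theorem S6Facts.s6tr_Dp_le (F : π.S6Facts Cm L σ h C0 N) {u v : Stub n d} (A : π.S6Adm Cm L h N u v) :
    |π.Dp σ h u v 0 0| ≤ π.jmaj Cm L h u + N.Bm ∧ |π.Dp σ h u v 1 1| ≤ π.jmaj Cm L h v + N.Bm ∧
      |π.Dp σ h u v 0 1| ≤ π.bmaj Cm L h u v + N.Bm ∧ |π.Dp σ h u v 1 0| ≤ π.bmaj Cm L h u v + N.Bm := by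
  obtain ⟨t00, t11, t01, t10⟩ := F.s6s_abs_Tp_le A
  have hE := F.s6s_abs_Epair_le A
  rw [s6_Dp_eq_add L]
  simp only [Matrix.add_apply]
  refine ⟨?_, ?_, ?_, ?_⟩
  · linarith [_root_.abs_add_le (π.Tp L σ h u v 0 0) (π.Epair L σ h u v 0 0), hE 0 0]
  · linarith [_root_.abs_add_le (π.Tp L σ h u v 1 1) (π.Epair L σ h u v 1 1), hE 1 1]
  · linarith [_root_.abs_add_le (π.Tp L σ h u v 0 1) (π.Epair L σ h u v 0 1), hE 0 1]
  · linarith [_root_.abs_add_le (π.Tp L σ h u v 1 0) (π.Epair L σ h u v 1 0), hE 1 0]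

end PPair

/-- the first-order scale of a pair -/
noncomputable def s6trDel {n d : ℕ} (π : PPair n d) (Cm : ℝ) (L : ℕ) (h : ℝ) (N : S6Num) (u v : Stub n d) : ℝ :=
  π.jmaj Cm L h u + π.jmaj Cm L h v + π.bmaj Cm L h u v + 3 * N.Bm + 1 / (π.l : ℝ)

/-- `H = - σh F + X`, `|X| ≤ C δ`, `|D_p| ≤ δ` -/
theorem s6tr_first : ∃ C : ℝ, 0 < C ∧ ∀ {n d : ℕ} (π : PPair n d) (Cm : ℝ) (L : ℕ) (σ h C0 : ℝ) (N : S6Num)
    (u v : Stub n d), π.S6Facts Cm L σ h C0 N → π.S6Adm Cm L h N u v →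
    (∀ i j, |(π.Hp σ h u v + (σ * h) • F2 ℝ) i j| ≤ C * s6trDel π Cm L h N u v) ∧
    (∀ i j, |π.Dp σ h u v i j| ≤ s6trDel π Cm L h N u v) ∧ 1 / (π.l : ℝ) ≤ s6trDel π Cm L h N u v := by
  obtain ⟨C, hC, hfo⟩ := tb_first_order
  refine ⟨C, hC, ?_⟩
  intro n d π Cm L σ h C0 N u v F A
  obtain ⟨d00, d11, d01, d10⟩ := F.s6tr_Dp_le A
  obtain ⟨⟨ju0, ju1⟩, ⟨jv0, jv1⟩, ⟨b0, b1⟩⟩ := F.s6s_maj A
  have hBm := F.Bm_nonneg
  have hBm1 := F.hBm
  obtain ⟨e0, e1⟩ := F.s6en_inv_l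
  obtain ⟨f00, f11, f01⟩ := hfo π.l σ h (π.Dp σ h u v) _ _ _ (F.s6tr_tb A) d00 d11 d01
  rw [← Hp_eq_Hgen] at f00 f11 f01
  have hsym : π.Hp σ h u v 1 0 = π.Hp σ h u v 0 1 := by
    have := congrFun (congrFun (s6tr_Hp_transpose π σ h u v) 0) 1
    rwa [Matrix.transpose_apply] at this
  have hac : (π.jmaj Cm L h u + N.Bm) * (π.jmaj Cm L h v + N.Bm) ≤ 1 * (π.jmaj Cm L h v + N.Bm) :=
    mul_le_mul_of_nonneg_right (by linarith) (by linarith)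
  unfold s6trDel
  refine ⟨?_, ?_, by linarith⟩
  · intro i j
    fin_cases i <;> fin_cases j <;>
      simp only [Fin.zero_eta, Fin.mk_one, Matrix.add_apply, Matrix.smul_apply, F2, smul_eq_mul, if_true,
        mul_zero, add_zero, zero_ne_one, one_ne_zero, if_false, mul_one]
    · exact f00.trans (mul_le_mul_of_nonneg_left (by linarith) hC.le)
    · exact f01.trans (mul_le_mul_of_nonneg_left (by linarith) hC.le)
    · rw [hsym]; exact f01.trans (mul_le_mul_of_nonneg_left (by linarith) hC.le)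
    · exact f11.trans (mul_le_mul_of_nonneg_left (by linarith) hC.le)
  · intro i j
    fin_cases i <;> fin_cases j <;> simp only [Fin.zero_eta, Fin.mk_one] <;> linarith

/-- pointwise first-order form of `ΔL_1` -/
theorem s6tr_dL1_point : ∃ C : ℝ, 0 < C ∧ ∀ {n d : ℕ} (π : PPair n d) (Cm : ℝ) (L : ℕ) (σ h C0 : ℝ) (N : S6Num)
    (CK CQ CJ : ℝ) (u v : Stub n d),
    π.S6Facts Cm L σ h C0 N → π.S6TrF σ h CK CQ CJ → π.S6Adm Cm L h N u v →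
    |π.dL1 σ h u v - σ * h * (2 * π.Kall σ h u v)| ≤ C * (1 + CK) * s6trDel π Cm L h N u v := by
  obtain ⟨C1, hC1, hf⟩ := s6tr_first
  refine ⟨282 + 4 * C1, by positivity, ?_⟩
  intro n d π Cm L σ h C0 N CK CQ CJ u v F T A
  obtain ⟨hX, hD, he⟩ := hf π Cm L σ h C0 N u v F A
  set δ := s6trDel π Cm L h N u v with hδ
  have O := F.s6tr_upd A
  have tb := F.s6tr_tb A
  have hB := s6tr_B2_le (l := π.l) tb.hl
  have hG0 := s6tr_G0_le (l := π.l) tb.hl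
  have hH := F.s6tr_Hp_le A
  have hG := F.s6tr_G_le A
  have hK := T.s6tr_K A.hu A.hv
  have CK0 : 0 ≤ CK := (abs_nonneg _).trans (hK 0 0)
  have δ0 : 0 ≤ δ := (abs_nonneg _).trans (hD 0 0)
  have hK01 : π.blkK σ h u v 0 1 + π.blkK σ h u v 1 0 = 2 * π.Kall σ h u v := by
    rw [s6_blkK_apply π σ h A.hu A.hv, s6_blkK_apply π σ h A.hu A.hv]
    have : π.Kall σ h (s6e u v 1) (s6e u v 0) = π.Kall σ h u v := s6tr_Kall_symm π σ h v u
    rw [this]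
    have : π.Kall σ h (s6e u v 0) (s6e u v 1) = π.Kall σ h u v := rfl
    rw [this]
    ring
  have key := s6tr_L1_abs π.l (σ * h) (B2 ℝ π.l) (π.blkG σ h u v) (π.Dp σ h u v) (π.Hp σ h u v)
    (π.Hp σ h u v + (σ * h) • F2 ℝ) (π.blkK σ h u v) (B2_mul_G0 ℝ O.hl) (s6tr_blkG_eq π σ h u v) rfl
  rw [s6_dL1_eq O, ← hK01, key]
  have t1 := s6tr_trace_le (s6tr_mul_le hB hD)
  have t2 := s6tr_trace_le (s6tr_mul_le hX hK)
  have t3 : |σ * h * (2 * (1 / (π.l : ℝ)))| ≤ 2 * δ := by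
    rw [abs_mul, abs_of_nonneg (by positivity : 0 ≤ 2 * (1 / (π.l : ℝ)))]
    have := mul_le_mul_of_nonneg_right F.s6en_abs_x (by positivity : 0 ≤ 2 * (1 / (π.l : ℝ)))
    linarith
  have t4 := s6tr_trace_le (s6tr_mul_le hX hG0)
  have t5 := s6tr_trace_le (s6tr_mul_le hH hD)
  have t6 := s6tr_trace_le (s6tr_mul_le (s6tr_mul_le (s6tr_mul_le hB hD) hH) hG)
  have s1 : ∀ a1 a2 a3 a4 a5 a6 : ℝ, |-a1 - a2 + a3 + a4 + a5 + a6| ≤ |a1| + |a2| + |a3| + |a4| + |a5| + |a6| := by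
    intro a1 a2 a3 a4 a5 a6
    have q1 := abs_add_le (-a1 - a2 + a3 + a4 + a5) a6
    have q2 := abs_add_le (-a1 - a2 + a3 + a4) a5
    have q3 := abs_add_le (-a1 - a2 + a3) a4
    have q4 := abs_add_le (-a1 - a2) a3
    have q5 := abs_sub (-a1) a2
    rw [abs_neg] at q5
    linarith
  refine (s1 _ _ _ _ _ _).trans ?_
  have p1 : 0 ≤ C1 * δ := mul_nonneg hC1.le δ0
  have p2 : 0 ≤ CK * δ := mul_nonneg CK0 δ0
  nlinarith

/-- pointwise first-order form of `ΔL_0` -/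
theorem s6tr_dL0_point : ∃ C : ℝ, 0 < C ∧ ∀ {n d : ℕ} (π : PPair n d) (Cm : ℝ) (L : ℕ) (σ h C0 : ℝ) (N : S6Num)
    (CK CQ CJ : ℝ) (u v : Stub n d),
    π.S6Facts Cm L σ h C0 N → π.S6TrF σ h CK CQ CJ → π.S6Adm Cm L h N u v →
    |π.dL0 σ h u v - σ * h * (2 * π.Qall σ h u v)| ≤ C * CQ * s6trDel π Cm L h N u v := by
  obtain ⟨C1, hC1, hf⟩ := s6tr_first
  refine ⟨4 * C1, by positivity, ?_⟩
  intro n d π Cm L σ h C0 N CK CQ CJ u v F T A
  obtain ⟨hX, -, -⟩ := hf π Cm L σ h C0 N u v F A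
  have O := F.s6tr_upd A
  have hQ := T.s6tr_Q A.hu A.hv
  have hQ01 : π.blkQ σ h u v 0 1 + π.blkQ σ h u v 1 0 = 2 * π.Qall σ h u v := by
    rw [s6_blkQ_apply π σ h A.hu A.hv, s6_blkQ_apply π σ h A.hu A.hv]
    have : π.Qall σ h (s6e u v 1) (s6e u v 0) = π.Qall σ h u v := s6tr_Qall_symm π σ h v u
    rw [this]
    have : π.Qall σ h (s6e u v 0) (s6e u v 1) = π.Qall σ h u v := rfl
    rw [this]
    ring
  rw [s6_dL0_eq O, s6tr_trace_HK (σ * h) _ _ _ rfl, hQ01]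
  have t2 := s6tr_trace_le (s6tr_mul_le hX hQ)
  have e : -(-(σ * h * (2 * π.Qall σ h u v)) + ((π.Hp σ h u v + (σ * h) • F2 ℝ) * π.blkQ σ h u v).trace)
      - σ * h * (2 * π.Qall σ h u v) = -((π.Hp σ h u v + (σ * h) • F2 ℝ) * π.blkQ σ h u v).trace := by ring
  rw [e, abs_neg]
  linarith

/-- sum of the first-order scales over the partners -/
theorem s6tr_sum_Del {n d : ℕ} {π : PPair n d} {Cm : ℝ} {L : ℕ} {σ h C0 : ℝ} {N : S6Num} {om : ℕ} {u : Stub n d}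
    {I : Finset (Stub n d)} (F : π.S6Facts Cm L σ h C0 N) (hS : π.S6Set Cm L h N om u I) :
    ∑ v ∈ I, s6trDel π Cm L h N u v ≤ 3 * (N.Qa + (π.l : ℝ) * (π.jmaj Cm L h u + N.Bm)) := by
  unfold s6trDel
  simp only [Finset.sum_add_distrib, Finset.sum_const, nsmul_eq_mul]
  have hsub := hS.s6en_sub
  have s1 : ∑ v ∈ I, π.jmaj Cm L h v ≤ N.Qa :=
    le_trans (Finset.sum_le_sum_of_subset_of_nonneg hsub fun v _ _ => F.s6en_j_nonneg v) F.sumJ1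
  have s2 : ∑ v ∈ I, π.bmaj Cm L h u v ≤ N.Qa :=
    le_trans (Finset.sum_le_sum_of_subset_of_nonneg hsub fun v _ _ => F.s6en_b_nonneg u v) (F.rowB1 u hS.hu)
  have hc1 := hS.s6en_card
  have hc2 := F.s6en_card_mul hS
  have t1 := mul_le_mul_of_nonneg_right hc1 (F.s6en_j_nonneg u)
  have t2 := mul_le_mul_of_nonneg_right hc1 (by linarith [F.Bm_nonneg] : 0 ≤ 3 * N.Bm)
  have t3 : 0 ≤ (π.l : ℝ) * π.jmaj Cm L h u := mul_nonneg (Nat.cast_nonneg _) (F.s6en_j_nonneg u)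
  have := F.hQa
  linarith

/-- summation of a statistic whose first-order part is a centred row -/
theorem s6tr_sum {n d : ℕ} {π : PPair n d} {Cm : ℝ} {L : ℕ} {σ h C0 : ℝ} {N : S6Num} {om : ℕ} {u : Stub n d}
    {I : Finset (Stub n d)} (F : π.S6Facts Cm L σ h C0 N) (hS : π.S6Set Cm L h N om u I)
    (f g : Stub n d → ℝ) (M c : ℝ) (hg0 : ∑ v ∈ π.unres, g v = 0) (hgM : ∀ v, |g v| ≤ M) (hc : 0 ≤ c)
    (hp : ∀ v ∈ I, |f v - σ * h * (2 * g v)| ≤ c * s6trDel π Cm L h N u v) :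
    |∑ v ∈ I, f v| ≤ 2 * ((om : ℝ) * M) + c * (3 * (N.Qa + (π.l : ℝ) * (π.jmaj Cm L h u + N.Bm))) := by
  have hM : 0 ≤ M := (abs_nonneg _).trans (hgM u)
  have e : ∑ v ∈ I, f v = σ * h * (2 * ∑ v ∈ I, g v) + ∑ v ∈ I, (f v - σ * h * (2 * g v)) := by
    rw [Finset.sum_sub_distrib, ← Finset.mul_sum, ← Finset.mul_sum]
    ring
  have h1 : |∑ v ∈ I, g v| ≤ (om : ℝ) * M := by
    rw [s6_sum_centred π I hS.s6en_sub g hg0, abs_neg]
    exact s6en_abs_sum_le_card _ _ om _ hS.card hM fun v _ => hgM v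
  have h2 : |∑ v ∈ I, (f v - σ * h * (2 * g v))| ≤
      c * (3 * (N.Qa + (π.l : ℝ) * (π.jmaj Cm L h u + N.Bm))) := by
    refine le_trans (Finset.abs_sum_le_sum_abs _ _) (le_trans (Finset.sum_le_sum hp) ?_)
    rw [← Finset.mul_sum]
    exact mul_le_mul_of_nonneg_left (s6tr_sum_Del F hS) hc
  have h3 : |σ * h * (2 * ∑ v ∈ I, g v)| ≤ 2 * ((om : ℝ) * M) := by
    rw [abs_mul (σ * h), abs_mul 2, abs_two]
    have := mul_le_mul_of_nonneg_right F.s6en_abs_x (by positivity : 0 ≤ 2 * |∑ v ∈ I, g v|)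
    linarith
  rw [e]
  linarith [abs_add_le (σ * h * (2 * ∑ v ∈ I, g v)) (∑ v ∈ I, (f v - σ * h * (2 * g v)))]

/-- signed sums over the partner -/
theorem s6_dL1_sum (C0 : ℝ) : ∃ C : ℝ, 0 < C ∧ ∀ {n d : ℕ} (π : PPair n d) (Cm : ℝ) (L : ℕ) (σ h : ℝ) (N : S6Num)
    (CK CQ CJ : ℝ) (om : ℕ) (u : Stub n d) (I : Finset (Stub n d)),
    π.S6Facts Cm L σ h C0 N → π.S6TrF σ h CK CQ CJ → π.S6Set Cm L h N om u I →
    |∑ v ∈ I, π.dL1 σ h u v| ≤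
      C * (1 + CK) * ((om : ℝ) + N.Qa + (π.l : ℝ) * (π.jmaj Cm L h u + N.Bm)) := by
  obtain ⟨C, hC, hp⟩ := s6tr_dL1_point
  refine ⟨2 + 3 * C, by positivity, ?_⟩
  intro n d π Cm L σ h N CK CQ CJ om u I F T hS
  have CK0 : 0 ≤ CK := (abs_nonneg _).trans (T.hK u u)
  have key := s6tr_sum F hS (fun v => π.dL1 σ h u v) (fun v => π.Kall σ h u v) CK (C * (1 + CK))
    (s6_sum_Kall π σ h u) (fun v => T.hK u v) (by positivity)
    (fun v hv => hp π Cm L σ h C0 N CK CQ CJ u v F T (hS.adm v hv))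
  refine key.trans ?_
  have hom : (0 : ℝ) ≤ (om : ℝ) := Nat.cast_nonneg _
  have hY : 0 ≤ N.Qa + (π.l : ℝ) * (π.jmaj Cm L h u + N.Bm) := by
    have := F.hQa
    have := mul_nonneg (Nat.cast_nonneg (α := ℝ) π.l) (add_nonneg (F.s6en_j_nonneg u) F.Bm_nonneg)
    linarith
  set Y := N.Qa + (π.l : ℝ) * (π.jmaj Cm L h u + N.Bm) with hYdef
  have e : (om : ℝ) + N.Qa + (π.l : ℝ) * (π.jmaj Cm L h u + N.Bm) = (om : ℝ) + Y := by rw [hYdef]; ring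
  rw [e]
  have p1 : 0 ≤ (om : ℝ) * CK := mul_nonneg hom CK0
  have p2 : 0 ≤ C * (om : ℝ) := mul_nonneg hC.le hom
  have p3 : 0 ≤ C * ((om : ℝ) * CK) := mul_nonneg hC.le p1
  have p4 : 0 ≤ Y * CK := mul_nonneg hY CK0
  nlinarith

theorem s6_dL0_sum (C0 : ℝ) : ∃ C : ℝ, 0 < C ∧ ∀ {n d : ℕ} (π : PPair n d) (Cm : ℝ) (L : ℕ) (σ h : ℝ) (N : S6Num)
    (CK CQ CJ : ℝ) (om : ℕ) (u : Stub n d) (I : Finset (Stub n d)),
    π.S6Facts Cm L σ h C0 N → π.S6TrF σ h CK CQ CJ → π.S6Set Cm L h N om u I →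
    |∑ v ∈ I, π.dL0 σ h u v| ≤
      C * CQ * ((om : ℝ) + N.Qa + (π.l : ℝ) * (π.jmaj Cm L h u + N.Bm)) := by
  obtain ⟨C, hC, hp⟩ := s6tr_dL0_point
  refine ⟨2 + 3 * C, by positivity, ?_⟩
  intro n d π Cm L σ h N CK CQ CJ om u I F T hS
  have CQ0 : 0 ≤ CQ := (abs_nonneg _).trans (T.hQ u u)
  have key := s6tr_sum F hS (fun v => π.dL0 σ h u v) (fun v => π.Qall σ h u v) CQ (C * CQ)
    (s6_sum_Qall π σ h u) (fun v => T.hQ u v) (by positivity)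
    (fun v hv => hp π Cm L σ h C0 N CK CQ CJ u v F T (hS.adm v hv))
  refine key.trans ?_
  have hom : (0 : ℝ) ≤ (om : ℝ) := Nat.cast_nonneg _
  have hY : 0 ≤ N.Qa + (π.l : ℝ) * (π.jmaj Cm L h u + N.Bm) := by
    have := F.hQa
    have := mul_nonneg (Nat.cast_nonneg (α := ℝ) π.l) (add_nonneg (F.s6en_j_nonneg u) F.Bm_nonneg)
    linarith
  set Y := N.Qa + (π.l : ℝ) * (π.jmaj Cm L h u + N.Bm) with hYdef
  have e : (om : ℝ) + N.Qa + (π.l : ℝ) * (π.jmaj Cm L h u + N.Bm) = (om : ℝ) + Y := by rw [hYdef]; ring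
  rw [e]
  have p1 : 0 ≤ (om : ℝ) * CQ := mul_nonneg hom CQ0
  have p3 : 0 ≤ C * ((om : ℝ) * CQ) := mul_nonneg hC.le p1
  have p4 : 0 ≤ Y * CQ := mul_nonneg hY CQ0
  nlinarith

/-- one step of a square account `1 + X² / S²` (sum form): pure algebra, `2 |y| ≤ 1 + y²` -/
theorem s6_square_step {ι : Type*} (I : Finset ι) (X S : ℝ) (hS : 0 < S) (Δ : ι → ℝ) :
    ∑ v ∈ I, (1 + (X + Δ v) ^ 2 / S ^ 2) ≤
      ((I.card : ℝ) + |∑ v ∈ I, Δ v| / S + (∑ v ∈ I, Δ v ^ 2) / S ^ 2) * (1 + X ^ 2 / S ^ 2) := by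
  have e : ∑ v ∈ I, (1 + (X + Δ v) ^ 2 / S ^ 2) =
      (I.card : ℝ) * (1 + X ^ 2 / S ^ 2) + 2 * (X / S) * ((∑ v ∈ I, Δ v) / S) + (∑ v ∈ I, Δ v ^ 2) / S ^ 2 := by
    have h1 : ∀ v ∈ I, 1 + (X + Δ v) ^ 2 / S ^ 2 =
        (1 + X ^ 2 / S ^ 2) + 2 * X / S ^ 2 * Δ v + Δ v ^ 2 / S ^ 2 := by
      intro v _
      field_simp
      ring
    rw [Finset.sum_congr rfl h1, Finset.sum_add_distrib, Finset.sum_add_distrib, Finset.sum_const,
      nsmul_eq_mul, ← Finset.mul_sum, ← Finset.sum_div]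
    field_simp
  rw [e]
  set y := X / S with hy
  set D := (∑ v ∈ I, Δ v) / S with hD
  set V := (∑ v ∈ I, Δ v ^ 2) / S ^ 2 with hV
  have hy2 : X ^ 2 / S ^ 2 = y ^ 2 := by rw [hy, div_pow]
  have hDa : |∑ v ∈ I, Δ v| / S = |D| := by rw [hD, abs_div, abs_of_pos hS]
  have hV0 : 0 ≤ V := div_nonneg (Finset.sum_nonneg fun _ _ => sq_nonneg _) (sq_nonneg _)
  rw [hy2, hDa]
  have h1 : 2 * y * D ≤ |D| * (1 + y ^ 2) := by
    have q1 : 2 * y * D ≤ |2 * y * D| := le_abs_self _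
    rw [abs_mul, abs_mul, abs_two] at q1
    have q2 : 2 * |y| ≤ 1 + y ^ 2 := by nlinarith [sq_nonneg (|y| - 1), sq_abs y]
    have q3 := mul_le_mul_of_nonneg_right q2 (abs_nonneg D)
    linarith
  have h2 : 0 ≤ V * y ^ 2 := mul_nonneg hV0 (sq_nonneg _)
  nlinarith

end Claimed.Agent.R275
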