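import Claimed.Agent.R275.S51Avg
import Claimed.Agent.R275.S5Phase
import Claimed.Agent.R275.S6Trace
import Claimed.Agent.R275.S4Cor
import Claimed.Agent.R275.S6BrA

/-!
# Row 275, Sec 5.1, package S51-BR: LAYER A (bridge `PPair` → blocks) and LAYER C (a current early state satisfies the hypotheses of `S51Avg`)

Blueprint: helper194.  Prefix `s51`.  May use every statement of L41*, TwoByTwo, FormalTail, S43V/W, S44B, S45G/I/K, S4Cor, S6Trace, S5Base, S5Phase, Params.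

DICTIONARY.  `S = π.unres`, `Vd = π.admF g₀` (ordered admissible pairs), `D = π.Dst σ h`, `K = π.Kall σ h = Γ²`, `Q = π.Qall σ h = (WΞ)ᵀ(WΞ)`, `J = π.Jall σ h = Γ Q`;
all four matrices vanish outside `S × S`, are centred on `S`; `Γ = D + Π_S`, `Π_S K = K`, `Π_S Q = Q`.
`Dg = d^(g₀+2)`: a stub has at most `d · #{w : ¬ Far g₀ v w} ≤ d · d^(g₀+1)` forbidden partners (`∑_w N_k(v,w) ≤ d q^{k-1}`, `N_k` integer valued).
-/

set_option autoImplicit false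

namespace Claimed.Agent.R275

open Matrix Finset Filter

namespace PPair

variable {n d : ℕ} (π : PPair n d)

/-- the ordered admissible pairs -/
def admF (g : ℕ) : Finset (Stub n d × Stub n d) := Finset.univ.filter fun p => π.Adm g p.1 p.2

/-- the majorant of the columns of `J`: `jr y = c √((Q²)_yy)` -/
noncomputable def s51jr (c σ h : ℝ) (y : Stub n d) : ℝ := c * Real.sqrt ((π.Qall σ h * π.Qall σ h) y y)

/-! ## Layer A -/

/-- a stub compression vanishes outside `S × S` -/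
theorem s51b_comp_zero_left (X : Matrix (Fin n) (Fin n) ℝ) {x : Stub n d} (hx : ¬ π.Unres x) (y : Stub n d) :
    ((π.Xi ℝ)ᵀ * X * π.Xi ℝ) x y = 0 := by
  rw [Matrix.mul_assoc, Matrix.mul_apply]
  refine Finset.sum_eq_zero fun k _ => ?_
  simp only [Matrix.transpose_apply, Xi, if_neg hx, zero_mul]

theorem s51b_comp_zero_right (X : Matrix (Fin n) (Fin n) ℝ) (x : Stub n d) {y : Stub n d} (hy : ¬ π.Unres y) :
    ((π.Xi ℝ)ᵀ * X * π.Xi ℝ) x y = 0 := by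
  rw [Matrix.mul_apply]
  refine Finset.sum_eq_zero fun k _ => ?_
  simp only [Xi, if_neg hy, mul_zero]

theorem s51b_pblk_comp (X : Matrix (Fin n) (Fin n) ℝ) {u v : Stub n d} (hu : π.Unres u) (hv : π.Unres v) :
    π.blk X u v = pblk ((π.Xi ℝ)ᵀ * X * π.Xi ℝ) u v := by
  ext i j
  rw [s6tr_blk_comp π X hu hv]
  fin_cases i <;> fin_cases j <;> rfl

theorem s51_Dp_eq (σ h : ℝ) {u v : Stub n d} (hu : π.Unres u) (hv : π.Unres v) (huv : u ≠ v) :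
    π.Dp σ h u v = pblk (π.Dst σ h) u v := by
  unfold Dp
  rw [s51b_pblk_comp π _ hu hv]
  ext i j
  fin_cases i <;> fin_cases j <;>
    simp [pblk, Dst, Gam, PiS, G0, J2, hu, hv, huv, huv.symm]

theorem s51b_blkK (σ h : ℝ) {u v : Stub n d} (hu : π.Unres u) (hv : π.Unres v) :
    π.blkK σ h u v = pblk (π.Kall σ h) u v := by
  rw [s6tr_Kall_eq]; exact s51b_pblk_comp π _ hu hv

theorem s51b_blkQ (σ h : ℝ) {u v : Stub n d} (hu : π.Unres u) (hv : π.Unres v) :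
    π.blkQ σ h u v = pblk (π.Qall σ h) u v := s51b_pblk_comp π _ hu hv

theorem s51b_blkJ (σ h : ℝ) {u v : Stub n d} (hu : π.Unres u) (hv : π.Unres v) :
    π.blkJ σ h u v = pblk (π.Jall σ h) u v := by
  rw [s6tr_Jall_eq]; exact s51b_pblk_comp π _ hu hv

theorem s51_dL1_bridge {σ h : ℝ} {u v : Stub n d} (O : π.UpdOK σ h u v) :
    π.dL1 σ h u v = s51dL1 π.l σ h (pblk (π.Dst σ h) u v) (pblk (π.Kall σ h) u v) := by
  rw [s6_dL1_eq O, s6tr_blkG_eq, Hp_eq_Hgen, s51b_blkK π σ h O.hu O.hv, s51_Dp_eq π σ h O.hu O.hv O.huv]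
  rfl

theorem s51_dL0_bridge {σ h : ℝ} {u v : Stub n d} (O : π.UpdOK σ h u v) :
    π.dL0 σ h u v = s51dL0 π.l σ h (pblk (π.Dst σ h) u v) (pblk (π.Qall σ h) u v) := by
  rw [s6_dL0_eq O, Hp_eq_Hgen, s51b_blkQ π σ h O.hu O.hv, s51_Dp_eq π σ h O.hu O.hv O.huv]
  rfl

theorem s51_dT_bridge {σ h : ℝ} {u v : Stub n d} (O : π.UpdOK σ h u v) :
    π.dTtr σ h u v = s51dT π.l σ h (pblk (π.Dst σ h) u v) (pblk (π.Kall σ h) u v) (pblk (π.Qall σ h) u v)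
      (pblk (π.Jall σ h) u v) := by
  rw [s6_dTtr_eq O, s6tr_blkG_eq, Hp_eq_Hgen, s51b_blkK π σ h O.hu O.hv, s51b_blkQ π σ h O.hu O.hv,
    s51b_blkJ π σ h O.hu O.hv, s51_Dp_eq π σ h O.hu O.hv O.huv]
  rfl

/-- sums over `S` of a function vanishing outside `S` -/
theorem s51b_sum_unres (f : Stub n d → ℝ) (hf : ∀ x, ¬ π.Unres x → f x = 0) :
    ∑ x ∈ π.unres, f x = ∑ x, f x := by
  refine Finset.sum_subset (Finset.subset_univ _) fun x _ hx => hf x fun h => hx (s6en_mem_unres.2 h)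

theorem s51b_trS_comp (X : Matrix (Fin n) (Fin n) ℝ) :
    trS π.unres ((π.Xi ℝ)ᵀ * X * π.Xi ℝ) = ((π.Xi ℝ)ᵀ * X * π.Xi ℝ).trace :=
  s51b_sum_unres π _ fun x hx => s51b_comp_zero_left π X hx x

theorem s51b_trS2_comp (X : Matrix (Fin n) (Fin n) ℝ) (B : Matrix (Stub n d) (Stub n d) ℝ) :
    trS2 π.unres ((π.Xi ℝ)ᵀ * X * π.Xi ℝ) B = (((π.Xi ℝ)ᵀ * X * π.Xi ℝ) * B).trace := by
  unfold trS2
  rw [s51b_sum_unres π _ fun x hx => Finset.sum_eq_zero fun y _ => by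
    rw [s51b_comp_zero_left π X hx y, zero_mul]]
  rw [Matrix.trace]
  refine Finset.sum_congr rfl fun x _ => ?_
  rw [Matrix.diag_apply, Matrix.mul_apply]
  exact s51b_sum_unres π _ fun y hy => by rw [s51b_comp_zero_right π X x hy, zero_mul]

theorem s51b_trS2_PiS (B : Matrix (Stub n d) (Stub n d) ℝ) (hB : ∀ y ∈ π.unres, ∑ x ∈ π.unres, B y x = 0) :
    trS2 π.unres (π.PiS ℝ) B = trS π.unres B := by
  unfold trS2 trS
  have h1 : ∀ x ∈ π.unres, ∀ y ∈ π.unres, π.PiS ℝ x y * B y x =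
      (if x = y then B y x else 0) - (π.l : ℝ)⁻¹ * B y x := by
    intro x hx y hy
    simp only [PiS, s6en_mem_unres.1 hx, s6en_mem_unres.1 hy, and_self, if_true]
    split_ifs <;> ring
  rw [Finset.sum_congr rfl fun x hx => Finset.sum_congr rfl fun y hy => h1 x hx y hy]
  simp only [Finset.sum_sub_distrib, ← Finset.mul_sum]
  rw [Finset.sum_comm (f := fun x y => B y x), Finset.sum_eq_zero hB, mul_zero, sub_zero]
  refine Finset.sum_congr rfl fun x hx => ?_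
  rw [Finset.sum_ite_eq π.unres x, if_pos hx]

theorem s51b_trS2_sub (S : Finset (Stub n d)) (A A' B : Matrix (Stub n d) (Stub n d) ℝ) :
    trS2 S (A - A') B = trS2 S A B - trS2 S A' B := by
  unfold trS2
  simp only [Matrix.sub_apply, sub_mul, Finset.sum_sub_distrib]

/-- rows of a stub compression are centred -/
theorem s51b_comp_row (X : Matrix (Fin n) (Fin n) ℝ) (x : Stub n d) :
    ∑ y ∈ π.unres, ((π.Xi ℝ)ᵀ * X * π.Xi ℝ) x y = 0 := s6tr_sum_mul_Xi π _ x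

theorem s51b_comp_col (X : Matrix (Fin n) (Fin n) ℝ) (y : Stub n d) :
    ∑ x ∈ π.unres, ((π.Xi ℝ)ᵀ * X * π.Xi ℝ) x y = 0 := by
  have h1 := s51b_comp_row π Xᵀ y
  have h2 : ((π.Xi ℝ)ᵀ * Xᵀ * π.Xi ℝ) = ((π.Xi ℝ)ᵀ * X * π.Xi ℝ)ᵀ := by
    rw [Matrix.transpose_mul, Matrix.transpose_mul, Matrix.transpose_transpose, Matrix.mul_assoc]
  rw [h2] at h1
  exact h1

theorem s51b_trace_Gam (σ h : ℝ) : (π.Gam σ h).trace = π.F1 σ h := by
  unfold Gam F1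
  rw [Matrix.trace_mul_comm, ← Matrix.mul_assoc, ← Dcal_eq_Xi_mul]

/-- traces over `S` are traces (`0 < l`: at `l = 0` the baseline `l - 1` of `L_1` is `-1`). -/
theorem s51_trS (hl : 0 < π.l) (σ h : ℝ) :
    trS π.unres (π.Dst σ h) = π.L1 σ h ∧ trS π.unres (π.Kall σ h) = (π.Kall σ h).trace ∧
      trS π.unres (π.Qall σ h) = π.Ttr σ h ∧ trS π.unres (π.Jall σ h) = (π.Gam σ h * π.Qall σ h).trace := by
  refine ⟨?_, ?_, s51b_trS_comp π _, ?_⟩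
  · have h1 : trS π.unres (π.Dst σ h) = trS π.unres (π.Gam σ h) - ∑ x ∈ π.unres, π.PiS ℝ x x := by
      unfold trS Dst
      simp only [Matrix.sub_apply, Finset.sum_sub_distrib]
    have h2 : ∑ x ∈ π.unres, π.PiS ℝ x x = (π.l : ℝ) - 1 := by
      have : ∀ x ∈ π.unres, π.PiS ℝ x x = 1 - (π.l : ℝ)⁻¹ := by
        intro x hx
        simp [PiS, s6en_mem_unres.1 hx]
      rw [Finset.sum_congr rfl this, Finset.sum_const, nsmul_eq_mul]
      have e3 : ((π.unres.card : ℕ) : ℝ) = (π.l : ℝ) := rfl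
      have hl' : (π.l : ℝ) ≠ 0 := Nat.cast_ne_zero.2 hl.ne'
      rw [e3]
      field_simp
    have h3 : trS π.unres (π.Gam σ h) = (π.Gam σ h).trace := s51b_trS_comp π _
    rw [h1, h2, h3, s51b_trace_Gam]
    rfl
  · rw [s6tr_Kall_eq]; exact s51b_trS_comp π _
  · have : π.Gam σ h * π.Qall σ h = π.Jall σ h := rfl
    rw [this, s6tr_Jall_eq]; exact s51b_trS_comp π _

theorem s51_trS2 (σ h : ℝ) :
    trS2 π.unres (π.Dst σ h) (π.Kall σ h) = (π.Gam σ h * π.Kall σ h).trace - (π.Kall σ h).trace ∧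
    trS2 π.unres (π.Kall σ h) (π.Kall σ h) = (π.Kall σ h * π.Kall σ h).trace ∧
    trS2 π.unres (π.Qall σ h) (π.Qall σ h) = (π.Qall σ h * π.Qall σ h).trace ∧
    trS2 π.unres (π.Dst σ h) (π.Qall σ h) = (π.Gam σ h * π.Qall σ h).trace - π.Ttr σ h ∧
    trS2 π.unres (π.Dst σ h) (π.Jall σ h) =
      (π.Kall σ h * π.Qall σ h).trace - (π.Gam σ h * π.Qall σ h).trace ∧
    trS2 π.unres (π.Qall σ h) (π.Kall σ h) = (π.Qall σ h * π.Kall σ h).trace := by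
  have hD : ∀ X : Matrix (Fin n) (Fin n) ℝ, trS2 π.unres (π.Dst σ h) ((π.Xi ℝ)ᵀ * X * π.Xi ℝ) =
      (π.Gam σ h * ((π.Xi ℝ)ᵀ * X * π.Xi ℝ)).trace - ((π.Xi ℝ)ᵀ * X * π.Xi ℝ).trace := by
    intro X
    unfold Dst
    rw [s51b_trS2_sub, s51b_trS2_PiS π _ fun y _ => s51b_comp_row π X y, s51b_trS_comp]
    congr 1
    exact s51b_trS2_comp π _ _
  refine ⟨?_, ?_, s51b_trS2_comp π _ _, hD _, ?_, s51b_trS2_comp π _ _⟩
  · rw [s6tr_Kall_eq]; exact hD _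
  · conv_lhs => rw [s6tr_Kall_eq]
    rw [s51b_trS2_comp, ← s6tr_Kall_eq]
  · have e1 : π.Gam σ h * π.Qall σ h = π.Jall σ h := rfl
    have e2 : π.Kall σ h * π.Qall σ h = π.Gam σ h * π.Jall σ h := by
      unfold Kall Jall
      rw [Matrix.mul_assoc]
    rw [e1, e2, s6tr_Jall_eq]
    exact hD _

/-! ## Layer C, structural part (no asymptotics) -/

/-- natural-number valued matrices -/
def s51bNat {a b : Type*} (M : Matrix a b ℚ) : Prop := ∀ i j, ∃ N : ℕ, M i j = (N : ℚ)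

theorem s51bNat.mul {a b c : Type*} [Fintype b] {M : Matrix a b ℚ} {M' : Matrix b c ℚ} (h : s51bNat M)
    (h' : s51bNat M') : s51bNat (M * M') := by
  intro i j
  choose f hf using h
  choose f' hf' using h'
  refine ⟨∑ k, f i k * f' k j, ?_⟩
  rw [Matrix.mul_apply]
  push_cast
  exact Finset.sum_congr rfl fun k _ => by rw [hf, hf']

theorem s51bNat.one {a : Type*} [DecidableEq a] : s51bNat (1 : Matrix a a ℚ) := by
  intro i j
  by_cases hij : i = j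
  · exact ⟨1, by rw [hij, Matrix.one_apply_eq]; simp⟩
  · exact ⟨0, by rw [Matrix.one_apply_ne hij]; simp⟩

theorem s51bNat.pow {a : Type*} [Fintype a] [DecidableEq a] {M : Matrix a a ℚ} (h : s51bNat M) (k : ℕ) :
    s51bNat (M ^ k) := by
  induction k with
  | zero => rw [pow_zero]; exact s51bNat.one
  | succ k ih => rw [pow_succ]; exact ih.mul h

theorem s51b_Nact_nat (k : ℕ) : s51bNat (π.Nact ℚ k) := by
  have hC : s51bNat (Cinc ℚ n d) := by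
    intro i j
    unfold Cinc
    split_ifs
    · exact ⟨1, by simp⟩
    · exact ⟨0, by simp⟩
  have hCt : s51bNat (Cinc ℚ n d)ᵀ := fun i j => hC j i
  have hP : s51bNat (π.Pact ℚ) := by
    intro i j
    unfold Pact
    split_ifs
    · exact ⟨0, by simp⟩
    · exact ⟨1, by simp⟩
    · exact ⟨0, by simp⟩
  have hN : s51bNat (NBm ℚ n d) := by
    intro i j
    unfold NBm
    split_ifs
    · exact ⟨1, by simp⟩
    · exact ⟨0, by simp⟩
  cases k with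
  | zero => exact s51bNat.one
  | succ j => exact ((hC.mul hP).mul ((hN.mul hP).pow j)).mul hCt

theorem s51b_one_le_Nact {k : ℕ} {v w : Fin n} (h : π.Nact ℚ k v w ≠ 0) : (1 : ℝ) ≤ π.Nact ℝ k v w := by
  obtain ⟨N, hN⟩ := s51b_Nact_nat π k v w
  rw [← s43v_Nact_cast, hN]
  rw [hN] at h
  have : N ≠ 0 := fun e => h (by rw [e]; simp)
  have : 1 ≤ N := Nat.one_le_iff_ne_zero.2 this
  exact_mod_cast this

theorem s51b_row_sum_le (hd : 3 ≤ d) (k : ℕ) (v : Fin n) : ∑ w, π.Nact ℝ k v w ≤ (d : ℝ) ^ k := by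
  cases k with
  | zero =>
    have : π.Nact ℝ 0 = 1 := rfl
    rw [this, pow_zero]
    simp [Matrix.one_apply]
  | succ j =>
    refine (π.s43v_Nact_row_sum_le j v).trans ?_
    have hd' : (3 : ℝ) ≤ (d : ℝ) := by exact_mod_cast hd
    rw [pow_succ, mul_comm]
    exact mul_le_mul_of_nonneg_right (pow_le_pow_left₀ (by linarith) (by linarith) j) (by linarith)

theorem s51b_geom (hd : 3 ≤ d) (m : ℕ) : ∑ k ∈ Finset.range m, (d : ℝ) ^ k ≤ (d : ℝ) ^ m := by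
  have hd' : (3 : ℝ) ≤ (d : ℝ) := by exact_mod_cast hd
  induction m with
  | zero => simp
  | succ m ih =>
    rw [Finset.sum_range_succ, pow_succ]
    have : 0 ≤ (d : ℝ) ^ m := by positivity
    nlinarith

/-- number of vertices at distance `≤ g` -/
theorem s51b_card_notFar (hd : 3 ≤ d) (g : ℕ) (v : Fin n) :
    (Finset.univ.filter fun w => ¬ π.Far g v w).card ≤ d ^ (g + 1) := by
  have h1 : (Finset.univ.filter fun w => ¬ π.Far g v w) ⊆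
      (Finset.range (g + 1)).biUnion fun k => Finset.univ.filter fun w => π.Nact ℚ k v w ≠ 0 := by
    intro w hw
    simp only [Finset.mem_filter, Finset.mem_univ, true_and, Far, not_forall] at hw
    obtain ⟨k, hk, hne⟩ := hw
    simp only [Finset.mem_biUnion, Finset.mem_range, Finset.mem_filter, Finset.mem_univ, true_and]
    exact ⟨k, hk, hne⟩
  have h2 : ∀ k, ((Finset.univ.filter fun w => π.Nact ℚ k v w ≠ 0).card : ℝ) ≤ (d : ℝ) ^ k := by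
    intro k
    refine le_trans ?_ (s51b_row_sum_le π hd k v)
    rw [Finset.card_eq_sum_ones, Nat.cast_sum, Finset.sum_filter]
    refine Finset.sum_le_sum fun w _ => ?_
    split_ifs with hw
    · simpa using s51b_one_le_Nact π hw
    · exact (π.Nact_le_Qmat k v w).1
  have h3 : ((Finset.univ.filter fun w => ¬ π.Far g v w).card : ℝ) ≤ (d : ℝ) ^ (g + 1) := by
    calc ((Finset.univ.filter fun w => ¬ π.Far g v w).card : ℝ)
        ≤ (((Finset.range (g + 1)).biUnion fun k =>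
            Finset.univ.filter fun w => π.Nact ℚ k v w ≠ 0).card : ℝ) := by
          exact_mod_cast Finset.card_le_card h1
      _ ≤ ((∑ k ∈ Finset.range (g + 1), (Finset.univ.filter fun w => π.Nact ℚ k v w ≠ 0).card : ℕ) : ℝ) := by
          exact_mod_cast Finset.card_biUnion_le
      _ ≤ ∑ k ∈ Finset.range (g + 1), (d : ℝ) ^ k := by
          rw [Nat.cast_sum]; exact Finset.sum_le_sum fun k _ => h2 k
      _ ≤ (d : ℝ) ^ (g + 1) := s51b_geom hd _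
  exact_mod_cast h3

theorem s51b_mem_admF {g : ℕ} {p : Stub n d × Stub n d} : p ∈ π.admF g ↔ π.Adm g p.1 p.2 := by
  simp [admF]

/-- valid pairs. -/
theorem s51_valid (hd : 3 ≤ d) (g : ℕ) : S5Valid π.unres (π.admF g) (d ^ (g + 2)) := by
  refine ⟨?_, ?_, ?_⟩
  · intro p hp
    obtain ⟨hu, hv, hF⟩ := (s51b_mem_admF π).1 hp
    rw [Finset.mem_offDiag]
    refine ⟨s6en_mem_unres.2 hu, s6en_mem_unres.2 hv, fun e => ?_⟩
    have h0 := hF 0 (Nat.succ_pos g)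
    have h1 : π.Nact ℚ 0 = 1 := rfl
    rw [h1, e, Matrix.one_apply_eq] at h0
    exact one_ne_zero h0
  · intro u v h
    exact (s51b_mem_admF π).2 (π.s5_adm_symm ((s51b_mem_admF π).1 h))
  · intro u hu
    have h1 : ((π.unres.erase u).filter fun v => (u, v) ∉ π.admF g) ⊆
        (Finset.univ.filter fun w => ¬ π.Far g u.1 w) ×ˢ (Finset.univ : Finset (Fin d)) := by
      intro v hv
      rw [Finset.mem_filter, Finset.mem_erase] at hv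
      obtain ⟨⟨-, hvS⟩, hna⟩ := hv
      rw [Finset.mem_product]
      refine ⟨?_, Finset.mem_univ _⟩
      rw [Finset.mem_filter]
      refine ⟨Finset.mem_univ _, fun hF => hna ?_⟩
      exact (s51b_mem_admF π).2 ⟨s6en_mem_unres.1 hu, s6en_mem_unres.1 hvS, hF⟩
    refine (Finset.card_le_card h1).trans ?_
    rw [Finset.card_product, Finset.card_univ, Fintype.card_fin, pow_succ]
    exact Nat.mul_le_mul_right d (s51b_card_notFar π hd g u.1)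

theorem s51_card_unres : π.unres.card = π.l := rfl

theorem s51b_Gam_symm (σ h : ℝ) (x y : Stub n d) : π.Gam σ h x y = π.Gam σ h y x :=
  s6tr_comp_symm π (π.s6_Wmat_transpose σ h) x y

theorem s51b_PiS_symm (x y : Stub n d) : π.PiS ℝ x y = π.PiS ℝ y x := by
  unfold PiS
  simp only [and_comm, eq_comm]

theorem s51b_PiS_row {x : Stub n d} (hx : x ∈ π.unres) : ∑ y ∈ π.unres, π.PiS ℝ x y = 0 := by
  have h1 : ∀ y ∈ π.unres, π.PiS ℝ x y = (if x = y then 1 else 0) - (π.l : ℝ)⁻¹ := by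
    intro y hy
    simp only [PiS, s6en_mem_unres.1 hx, s6en_mem_unres.1 hy, and_self, if_true]
  rw [Finset.sum_congr rfl h1, Finset.sum_sub_distrib, Finset.sum_ite_eq π.unres x, if_pos hx, Finset.sum_const,
    nsmul_eq_mul]
  have e3 : ((π.unres.card : ℕ) : ℝ) = (π.l : ℝ) := rfl
  have hl : (π.l : ℝ) ≠ 0 := Nat.cast_ne_zero.2 (Finset.card_pos.2 ⟨x, hx⟩).ne'
  rw [e3, mul_inv_cancel₀ hl, sub_self]

theorem s51b_centered_of_symm {S : Finset (Stub n d)} {A : Matrix (Stub n d) (Stub n d) ℝ}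
    (hs : ∀ x y, A x y = A y x) (hr : ∀ x ∈ S, ∑ y ∈ S, A x y = 0) : CenteredOn S A :=
  ⟨hr, fun y hy => by rw [← hr y hy]; exact Finset.sum_congr rfl fun x _ => hs x y⟩

/-- symmetry and centring. -/
theorem s51_struct (σ h : ℝ) :
    (∀ x y, π.Dst σ h x y = π.Dst σ h y x) ∧ CenteredOn π.unres (π.Dst σ h) ∧
    (∀ x y, π.Kall σ h x y = π.Kall σ h y x) ∧ CenteredOn π.unres (π.Kall σ h) ∧
    (∀ x y, π.Qall σ h x y = π.Qall σ h y x) ∧ CenteredOn π.unres (π.Qall σ h) ∧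
    CenteredOn π.unres (π.Jall σ h) := by
  have hD : ∀ x y, π.Dst σ h x y = π.Dst σ h y x := by
    intro x y
    unfold Dst
    rw [Matrix.sub_apply, Matrix.sub_apply, s51b_Gam_symm, s51b_PiS_symm]
  refine ⟨hD, s51b_centered_of_symm hD ?_, s6tr_Kall_symm π σ h,
    s51b_centered_of_symm (s6tr_Kall_symm π σ h) fun x _ => s6_sum_Kall π σ h x, s6tr_Qall_symm π σ h,
    s51b_centered_of_symm (s6tr_Qall_symm π σ h) fun x _ => s6_sum_Qall π σ h x, ?_⟩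
  · intro x hx
    unfold Dst
    simp only [Matrix.sub_apply, Finset.sum_sub_distrib]
    rw [s51b_PiS_row π hx, sub_zero]
    exact s51b_comp_row π _ x
  · rw [s6tr_Jall_eq]
    exact ⟨fun x _ => s51b_comp_row π _ x, fun y _ => s51b_comp_col π _ y⟩

/-- Cauchy-Schwarz with absolute value and square roots -/
theorem s51b_cs {ι : Type*} (s : Finset ι) (f g : ι → ℝ) :
    |∑ i ∈ s, f i * g i| ≤ Real.sqrt (∑ i ∈ s, f i ^ 2) * Real.sqrt (∑ i ∈ s, g i ^ 2) := by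
  rw [← Real.sqrt_mul (Finset.sum_nonneg fun _ _ => sq_nonneg _)]
  exact Real.abs_le_sqrt (Finset.sum_mul_sq_le_sq_mul_sq s f g)

/-- `Q = Yᵀ Y`, `Y = W Ξ` -/
theorem s51b_Qall_apply (σ h : ℝ) (x y : Stub n d) :
    π.Qall σ h x y = ∑ k, (π.Wmat σ h * π.Xi ℝ) k x * (π.Wmat σ h * π.Xi ℝ) k y := by
  have e : π.Qall σ h = (π.Wmat σ h * π.Xi ℝ)ᵀ * (π.Wmat σ h * π.Xi ℝ) := by
    unfold Qall
    rw [Matrix.transpose_mul, s6_Wmat_transpose]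
    simp only [Matrix.mul_assoc]
  rw [e, Matrix.mul_apply]
  rfl

/-- `Q` is a Gram matrix. -/
theorem s51_Q_gram (σ h : ℝ) (x y : Stub n d) :
    0 ≤ π.Qall σ h x x ∧ |π.Qall σ h x y| ≤ (π.Qall σ h x x + π.Qall σ h y y) / 2 := by
  constructor
  · rw [s51b_Qall_apply]
    exact Finset.sum_nonneg fun k _ => mul_self_nonneg _
  · rw [s51b_Qall_apply, s51b_Qall_apply, s51b_Qall_apply, ← Finset.sum_add_distrib, Finset.sum_div]
    refine le_trans (Finset.abs_sum_le_sum_abs _ _) (Finset.sum_le_sum fun k _ => ?_)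
    rw [abs_le]
    constructor <;>
      nlinarith [sq_nonneg ((π.Wmat σ h * π.Xi ℝ) k x - (π.Wmat σ h * π.Xi ℝ) k y),
        sq_nonneg ((π.Wmat σ h * π.Xi ℝ) k x + (π.Wmat σ h * π.Xi ℝ) k y)]

theorem s51b_Kall_diag (σ h : ℝ) (x : Stub n d) : π.Kall σ h x x = ∑ z, π.Gam σ h x z ^ 2 := by
  unfold Kall
  rw [Matrix.mul_apply]
  exact Finset.sum_congr rfl fun z _ => by rw [s51b_Gam_symm π σ h z x, sq]

theorem s51b_QQ_diag (σ h : ℝ) (y : Stub n d) :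
    (π.Qall σ h * π.Qall σ h) y y = ∑ z, π.Qall σ h z y ^ 2 := by
  rw [Matrix.mul_apply]
  exact Finset.sum_congr rfl fun z _ => by rw [s6tr_Qall_symm π σ h y z, sq]

/-- `|J_xy| ≤ √(K_xx) √((Q²)_yy)` (Cauchy-Schwarz in `J = Γ Q`, `K = Γ²`, `Γ, Q` symmetric). -/
theorem s51_J_le (σ h : ℝ) (x y : Stub n d) :
    |π.Jall σ h x y| ≤ Real.sqrt (π.Kall σ h x x) * Real.sqrt ((π.Qall σ h * π.Qall σ h) y y) := by
  rw [s51b_Kall_diag, s51b_QQ_diag]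
  unfold Jall
  rw [Matrix.mul_apply]
  exact s51b_cs _ _ _

theorem s51b_sum_ite {α : Type*} [Fintype α] [DecidableEq α] (S : Finset α) (f : α → ℝ) (g : α → ℝ) :
    ∑ x, (if x ∈ S then f x else 0) * g x = ∑ x ∈ S, f x * g x := by
  rw [← Finset.sum_subset (Finset.subset_univ S) fun x _ hx => by rw [if_neg hx, zero_mul]]
  exact Finset.sum_congr rfl fun x hx => by rw [if_pos hx]

theorem s51b_sq_eq {α : Type*} [Fintype α] (r : α → ℝ) : s7sq r = ∑ x, r x ^ 2 := by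
  unfold s7sq dotProduct
  exact Finset.sum_congr rfl fun x _ => (sq (r x)).symm

/-- the elementary operator norm on all stubs gives the bilinear form bound on `S`. -/
theorem s51_op_bridge {α : Type} [Fintype α] [DecidableEq α] (S : Finset α) (D : Matrix α α ℝ) (Z : ℝ) (h : s7opLE D Z) :
    S5OpLE S D Z := by
  obtain ⟨hZ, hD⟩ := h
  refine ⟨hZ, fun a c => ?_⟩
  set a' : α → ℝ := fun x => if x ∈ S then a x else 0 with ha'
  set c' : α → ℝ := fun x => if x ∈ S then c x else 0 with hc'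
  have e0 : ∀ x, (D *ᵥ c') x = ∑ y ∈ S, D x y * c y := by
    intro x
    have := s51b_sum_ite S c (fun y => D x y)
    rw [Matrix.mulVec, dotProduct]
    calc ∑ y, D x y * c' y = ∑ y, (if y ∈ S then c y else 0) * D x y :=
          Finset.sum_congr rfl fun y _ => mul_comm _ _
      _ = ∑ y ∈ S, c y * D x y := this
      _ = _ := Finset.sum_congr rfl fun y _ => mul_comm _ _
  have e1 : ∑ x ∈ S, ∑ y ∈ S, a x * D x y * c y = ∑ x, a' x * (D *ᵥ c') x := by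
    rw [s51b_sum_ite S a]
    refine Finset.sum_congr rfl fun x _ => ?_
    rw [e0, Finset.mul_sum]
    exact Finset.sum_congr rfl fun y _ => mul_assoc _ _ _
  have e2 : ∀ b : α → ℝ, ∑ x, (if x ∈ S then b x else 0) ^ 2 = ∑ x ∈ S, b x ^ 2 := by
    intro b
    have := s51b_sum_ite S b (fun x => if x ∈ S then b x else 0)
    calc ∑ x, (if x ∈ S then b x else 0) ^ 2
        = ∑ x, (if x ∈ S then b x else 0) * (if x ∈ S then b x else 0) :=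
          Finset.sum_congr rfl fun x _ => sq _
      _ = ∑ x ∈ S, b x * (if x ∈ S then b x else 0) := this
      _ = _ := Finset.sum_congr rfl fun x hx => by rw [if_pos hx, sq]
  rw [e1]
  refine (s51b_cs _ _ _).trans ?_
  have h1 := hD c'
  rw [s51b_sq_eq, s51b_sq_eq, e2 c] at h1
  rw [e2 a]
  have h2 : Real.sqrt (∑ x, (D *ᵥ c') x ^ 2) ≤ Z * Real.sqrt (∑ x ∈ S, c x ^ 2) := by
    calc Real.sqrt (∑ x, (D *ᵥ c') x ^ 2) ≤ Real.sqrt (Z ^ 2 * ∑ x ∈ S, c x ^ 2) := Real.sqrt_le_sqrt h1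
      _ = Z * Real.sqrt (∑ x ∈ S, c x ^ 2) := by
        rw [Real.sqrt_mul (sq_nonneg Z), Real.sqrt_sq hZ]
  calc Real.sqrt (∑ x ∈ S, a x ^ 2) * Real.sqrt (∑ x, (D *ᵥ c') x ^ 2)
      ≤ Real.sqrt (∑ x ∈ S, a x ^ 2) * (Z * Real.sqrt (∑ x ∈ S, c x ^ 2)) :=
        mul_le_mul_of_nonneg_left h2 (Real.sqrt_nonneg _)
    _ = _ := by ring

theorem s51b_Qall_eq (σ h : ℝ) : π.Qall σ h = (π.Wmat σ h * π.Xi ℝ)ᵀ * (π.Wmat σ h * π.Xi ℝ) := by
  unfold Qall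
  rw [Matrix.transpose_mul, s6_Wmat_transpose]
  simp only [Matrix.mul_assoc]

/-- `𝒯 = ∑_k ‖y_k‖²`, `y_k` = rows of `Y = W Ξ` -/
theorem s51b_Ttr_eq (σ h : ℝ) : π.Ttr σ h = ∑ k, s7sq ((π.Wmat σ h * π.Xi ℝ) k) := by
  unfold Ttr
  rw [Matrix.trace]
  simp only [Matrix.diag_apply, s51b_Qall_apply]
  rw [Finset.sum_comm]
  rfl

/-- `Tr(A Q) = ∑_k y_kᵀ A y_k` -/
theorem s51b_trace_mul_Q (σ h : ℝ) (A : Matrix (Stub n d) (Stub n d) ℝ) :
    (A * π.Qall σ h).trace =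
      ∑ k, (π.Wmat σ h * π.Xi ℝ) k ⬝ᵥ (A *ᵥ (π.Wmat σ h * π.Xi ℝ) k) := by
  set Y := π.Wmat σ h * π.Xi ℝ with hY
  have e1 : (A * π.Qall σ h).trace = ∑ x, ∑ z, ∑ k, A x z * (Y k z * Y k x) := by
    rw [Matrix.trace]
    refine Finset.sum_congr rfl fun x _ => ?_
    rw [Matrix.diag_apply, Matrix.mul_apply]
    refine Finset.sum_congr rfl fun z _ => ?_
    rw [s51b_Qall_apply, Finset.mul_sum]
  have e2 : ∑ k, Y k ⬝ᵥ (A *ᵥ Y k) = ∑ k, ∑ x, ∑ z, Y k x * (A x z * Y k z) := by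
    refine Finset.sum_congr rfl fun k _ => ?_
    rw [dotProduct]
    refine Finset.sum_congr rfl fun x _ => ?_
    rw [Matrix.mulVec, dotProduct, Finset.mul_sum]
  rw [e1, e2]
  calc ∑ x, ∑ z, ∑ k, A x z * (Y k z * Y k x) = ∑ x, ∑ k, ∑ z, A x z * (Y k z * Y k x) :=
        Finset.sum_congr rfl fun x _ => Finset.sum_comm
    _ = ∑ k, ∑ x, ∑ z, A x z * (Y k z * Y k x) := Finset.sum_comm
    _ = _ := Finset.sum_congr rfl fun k _ => Finset.sum_congr rfl fun x _ => Finset.sum_congr rfl fun z _ => by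
        ring

theorem s51b_sq_nonneg {α : Type*} [Fintype α] (r : α → ℝ) : 0 ≤ s7sq r := by
  rw [s51b_sq_eq]; exact Finset.sum_nonneg fun _ _ => sq_nonneg _

/-- quadratic form bound from the elementary operator norm -/
theorem s51b_quad_le {α : Type*} [Fintype α] {A : Matrix α α ℝ} {Z : ℝ} (hA : s7opLE A Z) (y : α → ℝ) :
    |y ⬝ᵥ (A *ᵥ y)| ≤ Z * s7sq y := by
  obtain ⟨hZ, hA⟩ := hA
  have h1 := s51b_cs Finset.univ y (A *ᵥ y)
  have h2 := hA y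
  rw [s51b_sq_eq, s51b_sq_eq] at h2
  rw [s51b_sq_eq]
  have h3 : Real.sqrt (∑ x, (A *ᵥ y) x ^ 2) ≤ Z * Real.sqrt (∑ x, y x ^ 2) := by
    calc Real.sqrt (∑ x, (A *ᵥ y) x ^ 2) ≤ Real.sqrt (Z ^ 2 * ∑ x, y x ^ 2) := Real.sqrt_le_sqrt h2
      _ = _ := by rw [Real.sqrt_mul (sq_nonneg Z), Real.sqrt_sq hZ]
  have h0 : 0 ≤ ∑ x, y x ^ 2 := Finset.sum_nonneg fun _ _ => sq_nonneg _
  calc |y ⬝ᵥ (A *ᵥ y)| ≤ Real.sqrt (∑ x, y x ^ 2) * Real.sqrt (∑ x, (A *ᵥ y) x ^ 2) := h1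
    _ ≤ Real.sqrt (∑ x, y x ^ 2) * (Z * Real.sqrt (∑ x, y x ^ 2)) :=
        mul_le_mul_of_nonneg_left h3 (Real.sqrt_nonneg _)
    _ = Z * (Real.sqrt (∑ x, y x ^ 2) * Real.sqrt (∑ x, y x ^ 2)) := by ring
    _ = _ := by rw [Real.mul_self_sqrt h0]

theorem s51b_Gam_transpose (σ h : ℝ) : (π.Gam σ h)ᵀ = π.Gam σ h := by
  ext x y
  exact s51b_Gam_symm π σ h y x

/-- `yᵀ K y = ‖Γ y‖²` -/
theorem s51b_quad_Kall (σ h : ℝ) (y : Stub n d → ℝ) :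
    y ⬝ᵥ (π.Kall σ h *ᵥ y) = s7sq (π.Gam σ h *ᵥ y) := by
  unfold Kall s7sq
  rw [← Matrix.mulVec_mulVec, Matrix.dotProduct_mulVec, ← Matrix.mulVec_transpose, s51b_Gam_transpose]

/-- `tᵀ Q t = ‖Y t‖²` -/
theorem s51b_quad_Qall (σ h : ℝ) (t : Stub n d → ℝ) :
    t ⬝ᵥ (π.Qall σ h *ᵥ t) = s7sq ((π.Wmat σ h * π.Xi ℝ) *ᵥ t) := by
  rw [s51b_Qall_eq]
  unfold s7sq
  rw [← Matrix.mulVec_mulVec, Matrix.dotProduct_mulVec, Matrix.vecMul_transpose]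

/-- `(Q²)_yy ≤ Z_Q Q_yy` -/
theorem s51b_QQ_le (σ h ZQ : ℝ) (hQ : s7opLE (π.Qall σ h) ZQ) (y : Stub n d) :
    (π.Qall σ h * π.Qall σ h) y y ≤ ZQ * π.Qall σ h y y := by
  set Y := π.Wmat σ h * π.Xi ℝ with hY
  set t : Stub n d → ℝ := fun z => π.Qall σ h z y with ht
  have hs : (π.Qall σ h * π.Qall σ h) y y = s7sq t := by
    rw [s51b_QQ_diag, s51b_sq_eq]
  have hq0 := (π.s51_Q_gram σ h y y).1
  have e1 : s7sq t = ∑ k, (Y *ᵥ t) k * Y k y := by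
    unfold s7sq dotProduct
    have : ∀ z, t z * t z = ∑ k, t z * (Y k z * Y k y) := by
      intro z
      conv_lhs => rw [show t z * t z = t z * π.Qall σ h z y from rfl, s51b_Qall_apply, Finset.mul_sum]
    rw [Finset.sum_congr rfl fun z _ => this z, Finset.sum_comm]
    refine Finset.sum_congr rfl fun k _ => ?_
    rw [Matrix.mulVec, dotProduct, Finset.sum_mul]
    exact Finset.sum_congr rfl fun z _ => by ring
  have e2 : (s7sq t) ^ 2 ≤ (t ⬝ᵥ (π.Qall σ h *ᵥ t)) * π.Qall σ h y y := by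
    rw [s51b_quad_Qall, e1, s51b_sq_eq, s51b_Qall_apply]
    have := Finset.sum_mul_sq_le_sq_mul_sq Finset.univ (Y *ᵥ t) (fun k => Y k y)
    refine this.trans (le_of_eq ?_)
    congr 1
    exact Finset.sum_congr rfl fun k _ => sq _
  have e3 : t ⬝ᵥ (π.Qall σ h *ᵥ t) ≤ ZQ * s7sq t := (le_abs_self _).trans (s51b_quad_le hQ t)
  have e4 : (s7sq t) ^ 2 ≤ ZQ * s7sq t * π.Qall σ h y y := e2.trans (mul_le_mul_of_nonneg_right e3 hq0)
  rw [hs]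
  rcases (s51b_sq_nonneg t).eq_or_lt with h0 | h0
  · rw [← h0]; exact mul_nonneg hQ.1 hq0
  · have : s7sq t * s7sq t ≤ s7sq t * (ZQ * π.Qall σ h y y) := by nlinarith
    exact le_of_mul_le_mul_left this h0

/-- traces of products with a positive semidefinite factor (`Q = Yᵀ Y`, `Y = W Ξ`):
`0 ≤ Tr(Q K)`, `|Tr(Γ Q)| ≤ Z_G 𝒯`, `Tr(K Q) ≤ Z_G² 𝒯`, `Tr(Q²) ≤ Z_Q 𝒯`, `(Q²)_yy ≤ Z_Q Q_yy`, `∑ J_xy² = Tr(Q K Q) ≤ Z_G² Tr Q²`. -/
theorem s51_psd_traces (σ h ZG ZQ : ℝ) (hG : s7opLE (π.Gam σ h) ZG) (hQ : s7opLE (π.Qall σ h) ZQ) :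
    0 ≤ (π.Qall σ h * π.Kall σ h).trace ∧
    |(π.Gam σ h * π.Qall σ h).trace| ≤ ZG * π.Ttr σ h ∧
    (π.Kall σ h * π.Qall σ h).trace ≤ ZG ^ 2 * π.Ttr σ h ∧ 0 ≤ (π.Kall σ h * π.Qall σ h).trace ∧
    (π.Qall σ h * π.Qall σ h).trace ≤ ZQ * π.Ttr σ h ∧
    (∀ y, (π.Qall σ h * π.Qall σ h) y y ≤ ZQ * π.Qall σ h y y) ∧
    ∑ x ∈ π.unres, ∑ y ∈ π.unres, π.Jall σ h x y ^ 2 ≤ ZG ^ 2 * (π.Qall σ h * π.Qall σ h).trace := by
  have hK0 : 0 ≤ (π.Kall σ h * π.Qall σ h).trace := by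
    rw [s51b_trace_mul_Q]
    exact Finset.sum_nonneg fun k _ => by rw [s51b_quad_Kall]; exact s51b_sq_nonneg _
  refine ⟨by rw [Matrix.trace_mul_comm]; exact hK0, ?_, ?_, hK0, ?_, s51b_QQ_le π σ h ZQ hQ, ?_⟩
  · rw [s51b_trace_mul_Q, s51b_Ttr_eq, Finset.mul_sum]
    exact (Finset.abs_sum_le_sum_abs _ _).trans (Finset.sum_le_sum fun k _ => s51b_quad_le hG _)
  · rw [s51b_trace_mul_Q, s51b_Ttr_eq, Finset.mul_sum]
    exact Finset.sum_le_sum fun k _ => by rw [s51b_quad_Kall]; exact hG.2 _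
  · rw [s51b_trace_mul_Q, s51b_Ttr_eq, Finset.mul_sum]
    exact Finset.sum_le_sum fun k _ => (le_abs_self _).trans (s51b_quad_le hQ _)
  · have h1 : ∑ x ∈ π.unres, ∑ y ∈ π.unres, π.Jall σ h x y ^ 2 ≤ ∑ x, ∑ y, π.Jall σ h x y ^ 2 := by
      refine le_trans (Finset.sum_le_sum fun x _ =>
        Finset.sum_le_sum_of_subset_of_nonneg (Finset.subset_univ _) fun y _ _ => sq_nonneg _) ?_
      exact Finset.sum_le_sum_of_subset_of_nonneg (Finset.subset_univ _) fun x _ _ =>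
        Finset.sum_nonneg fun y _ => sq_nonneg _
    refine h1.trans ?_
    rw [Finset.sum_comm, Matrix.trace, Finset.mul_sum]
    refine Finset.sum_le_sum fun y _ => ?_
    have h2 := hG.2 (fun z => π.Qall σ h z y)
    rw [s51b_sq_eq, s51b_sq_eq] at h2
    rw [Matrix.diag_apply, s51b_QQ_diag]
    refine le_trans (le_of_eq ?_) h2
    refine Finset.sum_congr rfl fun x _ => ?_
    unfold Jall
    rw [Matrix.mul_apply]
    rfl

/-- sums of the column majorant. -/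
theorem s51_jr_sums (c σ h : ℝ) (hc : 0 ≤ c) (a : Stub n d → ℝ) :
    ∑ y ∈ π.unres, π.s51jr c σ h y ≤ c * Real.sqrt ((π.l : ℝ) * (π.Qall σ h * π.Qall σ h).trace) ∧
    ∑ y ∈ π.unres, |a y| * π.s51jr c σ h y ≤
      c * Real.sqrt (∑ y ∈ π.unres, a y ^ 2) * Real.sqrt ((π.Qall σ h * π.Qall σ h).trace) ∧
    ∑ y ∈ π.unres, π.s51jr c σ h y ^ 2 ≤ c ^ 2 * (π.Qall σ h * π.Qall σ h).trace := by
  set q : Stub n d → ℝ := fun y => (π.Qall σ h * π.Qall σ h) y y with hq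
  have q0 : ∀ y, 0 ≤ q y := fun y => by
    rw [hq]
    simp only
    rw [s51b_QQ_diag]
    exact Finset.sum_nonneg fun _ _ => sq_nonneg _
  have hsum : ∑ y ∈ π.unres, q y ≤ (π.Qall σ h * π.Qall σ h).trace :=
    Finset.sum_le_sum_of_subset_of_nonneg (Finset.subset_univ _) fun y _ _ => q0 y
  have hsq : ∑ y ∈ π.unres, Real.sqrt (q y) ^ 2 = ∑ y ∈ π.unres, q y :=
    Finset.sum_congr rfl fun y _ => Real.sq_sqrt (q0 y)
  have key : ∀ b : Stub n d → ℝ, ∑ y ∈ π.unres, b y * Real.sqrt (q y) ≤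
      Real.sqrt (∑ y ∈ π.unres, b y ^ 2) * Real.sqrt ((π.Qall σ h * π.Qall σ h).trace) := by
    intro b
    refine (le_abs_self _).trans ((s51b_cs _ _ _).trans ?_)
    rw [hsq]
    exact mul_le_mul_of_nonneg_left (Real.sqrt_le_sqrt hsum) (Real.sqrt_nonneg _)
  refine ⟨?_, ?_, ?_⟩
  · have h1 := key (fun _ => 1)
    simp only [one_mul, one_pow, Finset.sum_const, nsmul_eq_mul, mul_one] at h1
    have e3 : ((π.unres.card : ℕ) : ℝ) = (π.l : ℝ) := rfl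
    rw [e3, ← Real.sqrt_mul (Nat.cast_nonneg _)] at h1
    unfold s51jr
    rw [← Finset.mul_sum]
    exact mul_le_mul_of_nonneg_left h1 hc
  · have h1 := key (fun y => |a y|)
    simp only [sq_abs] at h1
    have e : ∑ y ∈ π.unres, |a y| * π.s51jr c σ h y = c * ∑ y ∈ π.unres, |a y| * Real.sqrt (q y) := by
      rw [Finset.mul_sum]
      exact Finset.sum_congr rfl fun y _ => by unfold s51jr; ring
    rw [e, mul_assoc]
    exact mul_le_mul_of_nonneg_left h1 hc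
  · have e : ∑ y ∈ π.unres, π.s51jr c σ h y ^ 2 = c ^ 2 * ∑ y ∈ π.unres, q y := by
      rw [Finset.mul_sum]
      exact Finset.sum_congr rfl fun y _ => by unfold s51jr; rw [mul_pow, Real.sq_sqrt (q0 y)]
    rw [e]
    exact mul_le_mul_of_nonneg_left hsum (sq_nonneg c)

end PPair

/-! ## Layer C, asymptotic part -/

/-- `α(h) ≥ α_*` and `α(h) ≤ 1` at every tracked parameter; `α_* > 0`. -/
theorem s51_alpha_ge (d : ℕ) (hd : 3 ≤ d) (cp : ℚ) (hcp : 0 < cp) (hcp' : cp ≤ 1 / 4) :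
    ∀ᶠ n : ℕ in atTop, 0 < alphaS d n ∧ ∀ h ∈ trackedList d n cp,
      alphaS d n ≤ alphaf d ((h : ℚ) : ℝ) ∧ alphaf d ((h : ℚ) : ℝ) ≤ 1 := by
  filter_upwards [s6br_range d hd cp hcp hcp', s4c_basic d hd cp hcp hcp'] with n h1 h2
  refine ⟨?_, fun h hh => ⟨(h1 h hh).2.2.2, (h2 h hh).2.2.2.2.2.1⟩⟩
  rw [s45j_alphaS]
  exact (h2 _ (s45j_prim_mem d n cp 0 (Nat.succ_pos _))).2.2.2.2.1

/-- `Dg = d^(g₀+2) ≤ n^{.01a}`. -/
theorem s51_Dg_le (d : ℕ) (hd : 3 ≤ d) :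
    ∀ᶠ n : ℕ in atTop, ((d ^ (g0 d n + 2) : ℕ) : ℝ) ≤ (n : ℝ) ^ ((1 / 100 : ℝ) * (aa : ℝ)) := by
  have ha : (0 : ℝ) < (aa : ℝ) := by rw [parF_aa]; norm_num
  have hd' : (3 : ℝ) ≤ (d : ℝ) := by exact_mod_cast hd
  have hx : (0 : ℚ) ≤ 2 / 1000 * aa := by unfold aa; norm_num
  filter_upwards [eventually_ge_atTop 1, parF_ev_large ((6 / 1000 : ℝ) * (aa : ℝ)) (by positivity) ((d : ℝ) ^ 2)]
    with n hn hbig
  have hn0 : (0 : ℝ) < (n : ℝ) := by exact_mod_cast hn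
  have h1 := (pow_radius_bounds d hd _ hx n hn).1
  have h2 : (d : ℝ) ≤ ((d : ℝ) - 1) ^ 2 := by nlinarith
  have h3 : (d : ℝ) ^ g0 d n ≤ (n : ℝ) ^ ((4 / 1000 : ℝ) * (aa : ℝ)) := by
    calc (d : ℝ) ^ g0 d n ≤ (((d : ℝ) - 1) ^ 2) ^ g0 d n := pow_le_pow_left₀ (by linarith) h2 _
      _ = (((d : ℝ) - 1) ^ g0 d n) ^ 2 := by rw [← pow_mul, ← pow_mul, mul_comm]
      _ ≤ ((n : ℝ) ^ (((2 / 1000 * aa : ℚ)) : ℝ)) ^ 2 := pow_le_pow_left₀ (pow_nonneg (by linarith) _) h1 _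
      _ = (n : ℝ) ^ ((4 / 1000 : ℝ) * (aa : ℝ)) := by
        rw [← Real.rpow_natCast, ← Real.rpow_mul hn0.le]; congr 1; push_cast; ring
  push_cast
  rw [pow_add]
  calc (d : ℝ) ^ g0 d n * (d : ℝ) ^ 2 ≤ (n : ℝ) ^ ((4 / 1000 : ℝ) * (aa : ℝ)) * (n : ℝ) ^ ((6 / 1000 : ℝ) * (aa : ℝ)) :=
        mul_le_mul h3 hbig (by positivity) (by positivity)
    _ = (n : ℝ) ^ ((1 / 100 : ℝ) * (aa : ℝ)) := by rw [← Real.rpow_add hn0]; congr 1; ring

theorem s51brc_sizes (d : ℕ) (hd : 3 ≤ d) :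
    ∀ᶠ n : ℕ in atTop, 4 * d ^ (g0 d n + 2) ≤ l0 n ∧ 32 ≤ l0 n := by
  have hexp : (0 : ℝ) < 2 / 3 - (1 / 100 : ℝ) * (aa : ℝ) := by rw [parF_aa]; norm_num
  filter_upwards [s51_Dg_le d hd, eventually_ge_atTop 1, parF_ev_large _ hexp 8, s4c_l0_large 32]
    with n h1 hn h2 h3
  have hn0 : (0 : ℝ) < (n : ℝ) := by exact_mod_cast hn
  refine ⟨?_, by exact_mod_cast h3⟩
  have h4 := s4c_l0_ge n hn
  have h5 : (n : ℝ) ^ (2 / 3 : ℝ) = (n : ℝ) ^ (2 / 3 - (1 / 100 : ℝ) * (aa : ℝ)) * (n : ℝ) ^ ((1 / 100 : ℝ) * (aa : ℝ)) := by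
    rw [← Real.rpow_add hn0]; congr 1; ring
  have h6 : 0 < (n : ℝ) ^ ((1 / 100 : ℝ) * (aa : ℝ)) := Real.rpow_pos_of_pos hn0 _
  have h7 : 8 * (n : ℝ) ^ ((1 / 100 : ℝ) * (aa : ℝ)) ≤ (n : ℝ) ^ (2 / 3 : ℝ) := by
    rw [h5]; exact mul_le_mul_of_nonneg_right h2 h6.le
  have h8 : ((4 * d ^ (g0 d n + 2) : ℕ) : ℝ) ≤ (l0 n : ℝ) := by
    rw [Nat.cast_mul]
    push_cast at h1 ⊢
    linarith
  exact_mod_cast h8

/-- `|Vd| ≥ l²/2`, `l ≥ 32` at a current state -/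
theorem s51brc_card (d : ℕ) (hd : 3 ≤ d) :
    ∀ᶠ n : ℕ in atTop, ∀ π : PPair n d, l0 n ≤ π.l →
      32 ≤ π.l ∧ 4 * d ^ (g0 d n + 2) ≤ π.l ∧ (π.l : ℝ) ^ 2 / 2 ≤ ((π.admF (g0 d n)).card : ℝ) := by
  filter_upwards [s51brc_sizes d hd] with n h1 π hl
  have h2 : 32 ≤ π.l := h1.2.trans hl
  have h3 : 4 * d ^ (g0 d n + 2) ≤ π.l := h1.1.trans hl
  exact ⟨h2, h3, s5_card_valid_half (π.s51_valid hd (g0 d n)) (by show 8 ≤ π.l; omega) h3⟩

theorem PPair.s51brc_Ttr_nonneg {n d : ℕ} (π : PPair n d) (σ h : ℝ) : 0 ≤ π.Ttr σ h :=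
  Finset.sum_nonneg fun x _ => (π.s51_Q_gram σ h x x).1

/-- `D_xx = T_xx + E_xx`, `|T_xx| ≤ j_x` -/
theorem PPair.s51brc_diag {n d : ℕ} (π : PPair n d) (hd : 3 ≤ d) (hn : 0 < n) (hl : 2 ≤ π.l) (L : ℕ) (hL : 0 < L)
    (σ h : ℝ) (hσ : σ ^ 2 = 1) (hh : 0 ≤ h) {x : Stub n d} (hx : π.Unres x) :
    |π.Dst σ h x x| ≤ π.jmaj (Cmaj d) L h x + |π.eEnt L σ h (.stub x) x| := by
  have hl0 : 0 < π.l := by omega
  obtain ⟨v, hv, hvx⟩ := Finset.exists_mem_ne (s := π.unres) (by show 1 < π.l; omega) x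
  have hv' : π.Unres v := (Finset.mem_filter.1 hv).2
  have hxv : x ≠ v := fun e => hvx e.symm
  have h1 : π.Dst σ h x x = π.Dp σ h x v 0 0 := by
    rw [π.s51_Dp_eq σ h hx hv' hxv]; rfl
  have h2 : π.Dp σ h x v 0 0 = π.Tp L σ h x v 0 0 + π.eEnt L σ h (.stub x) x := by
    have e1 : π.eEnt L σ h (.stub x) x =
        π.ent (π.Wmat σ h) (.stub x) (.stub x) - π.ent (π.Pmat L σ h) (.stub x) (.stub x) :=
      π.ft_ent_sub _ _ _ _
    rw [e1]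
    unfold PPair.Dp PPair.Tp
    rw [Matrix.sub_apply, Matrix.sub_apply, π.blk_eq_ent, π.blk_eq_ent]
    simp only [if_true]
    ring
  have h3 := π.abs_Tp_le hn hl0 L hL σ h hσ hh hxv 0 0
  simp only [if_true] at h3
  have h4 := π.s43v_TAbs_self_le hd hn hl0 L h hh x
  rw [h1, h2]
  exact (abs_add_le _ _).trans (add_le_add (h3.trans h4) le_rfl)

/-- rows of `D = Γ - Π_S` -/
theorem PPair.s51brc_row {n d : ℕ} (π : PPair n d) (σ h : ℝ) (x : Stub n d) :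
    ∑ y ∈ π.unres, π.Dst σ h x y ^ 2 ≤ 2 * π.Kall σ h x x + 2 := by
  have hs := (π.s51_struct σ h).1
  have h1 : ∑ y ∈ π.unres, π.Dst σ h x y ^ 2 ≤ ∑ y, π.Dst σ h x y ^ 2 :=
    Finset.sum_le_univ_sum_of_nonneg fun y => sq_nonneg _
  have h2 : ∑ y, π.Dst σ h x y ^ 2 = ∑ y, (π.Gam σ h y x + -π.PiS ℝ y x) ^ 2 :=
    Finset.sum_congr rfl fun y _ => by rw [hs x y, PPair.Dst, Matrix.sub_apply, sub_eq_add_neg]
  have h3 := s4c_sum_sq_add Finset.univ (fun y => π.Gam σ h y x) (fun y => -π.PiS ℝ y x)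
  have h4 : ∑ y, π.Gam σ h y x ^ 2 = π.Kall σ h x x := by
    rw [π.s4c_Kall_apply, PPair.s4cA, Matrix.mulVec_single_one, dotProduct]
    exact Finset.sum_congr rfl fun y _ => by rw [sq]; rfl
  have h5 : ∑ y, (-π.PiS ℝ y x) ^ 2 ≤ 1 := by
    have e1 := π.s4c_PiS_opLE.2 (Pi.single x 1)
    rw [Matrix.mulVec_single_one] at e1
    have e2 : s7sq (Pi.single x (1 : ℝ) : Stub n d → ℝ) = 1 := by
      rw [s7sq, single_one_dotProduct, Pi.single_eq_same]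
    rw [e2] at e1
    have e3 : s7sq ((π.PiS ℝ).col x) = ∑ y, (-π.PiS ℝ y x) ^ 2 := by
      rw [s7sq, dotProduct]
      exact Finset.sum_congr rfl fun y _ => by rw [neg_sq, sq]; rfl
    rw [e3] at e1
    linarith
  rw [h4] at h3
  linarith

/-- the update formulas hold at every admissible pair. -/
theorem s51_updOK (d : ℕ) (hd : 3 ≤ d) (cp : ℚ) (hcp : 0 < cp) (hcp' : cp ≤ 1 / 4) (CM CR η : ℝ) (Rc : ℕ) :
    ∀ᶠ n : ℕ in atTop, ∀ π : PPair n d, π.Cur cp CM CR η Rc → ∀ h ∈ trackedList d n cp, ∀ s : Bool,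
      ∀ p ∈ π.admF (g0 d n), π.UpdOK (sgn s) ((h : ℚ) : ℝ) p.1 p.2 := by
  have ha : (0 : ℝ) < (aa : ℝ) := by rw [parF_aa]; norm_num
  filter_upwards [s4c_adm d hd cp hcp hcp' CM CR η Rc ((aa : ℝ) / 2000) (by linarith), s4c_basic d hd cp hcp hcp',
    eventually_ge_atTop 1, s4c_l0_large 4, parF_ev_small (-((aa : ℝ) / 2000)) (by linarith) (1 / 8) (by norm_num)]
    with n hadm hbas hn hl4 hsm π hcur h hh s p hp
  have hp' : π.Adm (g0 d n) p.1 p.2 := (Finset.mem_filter.1 hp).2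
  obtain ⟨hh0, hhz, hh1, -, -, -, -, -, -⟩ := hbas h hh
  obtain ⟨hD, -, -, -, -⟩ := hadm π hcur p.1 p.2 hp' h hh s
  have hl4' : 4 ≤ π.l := by
    have : 4 ≤ l0 n := by exact_mod_cast hl4
    exact this.trans hcur.l_ge
  have hpos := (hcur.caps h hh s).pos
  have huv := s4c_adm_ne π hp'
  exact ⟨hn, hp'.1, hp'.2.1, huv, by omega, s4c_sgn_sq s, hh0.ne', by nlinarith,
    (π.isUnit_of_posOn1 hn _ _ hpos).1,
    (π.posOn1_resolve hn hp'.1 hp'.2.1 huv hl4' _ _ (s4c_sgn_sq s) hh0 hh1 hpos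
      (fun i j => (hD i j).trans hsm)).2⟩

/-- **the standing hypotheses `S5R2` for `D = Γ - Π_l`** (shared with Secs 5.2-5.4).
`diag`: `D_xx = T_xx + E_xx`, `∑ T_xx² ≤ ∑ jmaj² ≤ n^{η₁}` (`s43v_sum_jmaj_sq_le`, `abs_Tp_le`/`s43v_TAbs_self_le`), `∑ E_xx² = T_S ≤ n^η`. -/
theorem s51_R2 (d : ℕ) (hd : 3 ≤ d) (cp : ℚ) (hcp : 0 < cp) (hcp' : cp ≤ 1 / 4) : ∃ C0 : ℝ, 0 < C0 ∧
    ∀ (CM CR η η' : ℝ) (Rc : ℕ), 0 ≤ η → η < η' → ∀ᶠ n : ℕ in atTop, ∀ π : PPair n d,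
      π.Cur cp CM CR η Rc → π.TSBd cp η → ∀ h ∈ trackedList d n cp, ∀ s : Bool,
        S5R2 C0 ((n : ℝ) ^ η') (2 * (n : ℝ) ^ ((125 / 1000 : ℝ) * (aa : ℝ)) / alphaf d ((h : ℚ) : ℝ))
          π.unres (π.admF (g0 d n)) (d ^ (g0 d n + 2)) (sgn s) ((h : ℚ) : ℝ) (π.Dst (sgn s) ((h : ℚ) : ℝ)) := by
  obtain ⟨C, hC, H⟩ := s45i_main d hd cp hcp hcp'
  have ha : (0 : ℝ) < (aa : ℝ) := by rw [parF_aa]; norm_num
  refine ⟨2 * C + 3, by positivity, fun CM CR η η' Rc hη hη' => ?_⟩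
  filter_upwards [H CM CR η Rc, s4c_basic d hd cp hcp hcp', s51brc_card d hd, eventually_ge_atTop 1,
    s4c_adm d hd cp hcp hcp' CM CR η Rc ((aa : ℝ) / 2000) (by linarith),
    s4c_opnorms d hd cp hcp hcp' CM CR η Rc, s4c_Lcut_pos d hd,
    s43v_sum_jmaj_sq_le d hd CM CR η ((η + η') / 2) Rc hη (by linarith),
    parF_ev_large ((η' - η) / 2) (by linarith) 4]
    with n hLL hbas hcard hn hadm hop hL hj hbig π hcur hTS h hh s
  obtain ⟨hh0, hhz, hh1, -, -, -, -, -, -⟩ := hbas h hh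
  obtain ⟨hl32, hDg, -⟩ := hcard π hcur.l_ge
  have hn0 : (0 : ℝ) < (n : ℝ) := by exact_mod_cast hn
  have hn1 : (1 : ℝ) ≤ (n : ℝ) := by exact_mod_cast hn
  have hLaw := hLL π hcur h hh s
  have hσ := s4c_sgn_sq s
  have hTS' := hTS h hh s
  have hj' := hj π hcur.l_ge hcur.walk _ hh0.le hhz
  have hop' := (hop π hcur h hh s).1
  have hrow : ∀ x, ∑ y ∈ π.unres, π.Dst (sgn s) ((h : ℚ) : ℝ) x y ^ 2 ≤ 2 * C + 2 := fun x => by
    have := π.s51brc_row (sgn s) ((h : ℚ) : ℝ) x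
    have := hLaw.Kdiag x
    linarith
  refine ⟨π.s51_valid hd (g0 d n), hl32, hDg, hσ, hh0, hh1.le, (π.s51_struct _ _).1, fun p hp => ?_,
    fun x _ y hy => ?_, fun x _ => (hrow x).trans (by linarith), ?_, PPair.s51_op_bridge _ _ _ hop'⟩
  · have hp' : π.Adm (g0 d n) p.1 p.2 := (Finset.mem_filter.1 hp).2
    rw [← π.s51_Dp_eq _ _ hp'.1 hp'.2.1 (s4c_adm_ne π hp')]
    exact (hadm π hcur p.1 p.2 hp' h hh s).2.2.1
  · have h1 : π.Dst (sgn s) ((h : ℚ) : ℝ) x y ^ 2 ≤ ∑ y ∈ π.unres, π.Dst (sgn s) ((h : ℚ) : ℝ) x y ^ 2 :=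
      Finset.single_le_sum (f := fun y => π.Dst (sgn s) ((h : ℚ) : ℝ) x y ^ 2) (fun y _ => sq_nonneg _) hy
    have h2 := hrow x
    have h3 : |π.Dst (sgn s) ((h : ℚ) : ℝ) x y| ≤ 1 + π.Dst (sgn s) ((h : ℚ) : ℝ) x y ^ 2 := by
      rw [← sq_abs]
      nlinarith [sq_nonneg (|π.Dst (sgn s) ((h : ℚ) : ℝ) x y| - 1), abs_nonneg (π.Dst (sgn s) ((h : ℚ) : ℝ) x y)]
    linarith
  · have h1 : ∑ x ∈ π.unres, π.Dst (sgn s) ((h : ℚ) : ℝ) x x ^ 2 ≤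
        ∑ x ∈ π.unres, (π.jmaj (Cmaj d) (Lcut d n) ((h : ℚ) : ℝ) x +
          |π.eEnt (Lcut d n) (sgn s) ((h : ℚ) : ℝ) (.stub x) x|) ^ 2 := by
      refine Finset.sum_le_sum fun x hx => ?_
      have := π.s51brc_diag hd hn (by omega) (Lcut d n) hL _ _ hσ hh0.le (Finset.mem_filter.1 hx).2
      rw [← sq_abs]
      exact pow_le_pow_left₀ (abs_nonneg _) this 2
    have h2 := s4c_sum_sq_add π.unres (fun x => π.jmaj (Cmaj d) (Lcut d n) ((h : ℚ) : ℝ) x)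
      (fun x => |π.eEnt (Lcut d n) (sgn s) ((h : ℚ) : ℝ) (.stub x) x|)
    have h3 : ∑ x ∈ π.unres, |π.eEnt (Lcut d n) (sgn s) ((h : ℚ) : ℝ) (.stub x) x| ^ 2 =
        π.TS (Lcut d n) (sgn s) ((h : ℚ) : ℝ) :=
      Finset.sum_congr rfl fun x _ => sq_abs _
    rw [h3] at h2
    have h4 : (n : ℝ) ^ η ≤ (n : ℝ) ^ ((η + η') / 2) := Real.rpow_le_rpow_of_exponent_le hn1 (by linarith)
    have h5 : (n : ℝ) ^ η' = (n : ℝ) ^ ((η' - η) / 2) * (n : ℝ) ^ ((η + η') / 2) := by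
      rw [← Real.rpow_add hn0]; congr 1; ring
    have h6 : 4 * (n : ℝ) ^ ((η + η') / 2) ≤ (n : ℝ) ^ η' := by
      rw [h5]; exact mul_le_mul_of_nonneg_right hbig (Real.rpow_pos_of_pos hn0 _).le
    linarith

/-- smallness on admissible pairs. -/
theorem s51_small (d : ℕ) (hd : 3 ≤ d) (cp : ℚ) (hcp : 0 < cp) (hcp' : cp ≤ 1 / 4) (CM CR η : ℝ) (Rc : ℕ) :
    ∀ᶠ n : ℕ in atTop, ∀ π : PPair n d, π.Cur cp CM CR η Rc → ∀ h ∈ trackedList d n cp, ∀ s : Bool,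
      ∀ p ∈ π.admF (g0 d n),
        s51m (pblk (π.Dst (sgn s) ((h : ℚ) : ℝ)) p.1 p.2) ≤ (n : ℝ) ^ (-((aa : ℝ) / 1100)) := by
  have ha : (0 : ℝ) < (aa : ℝ) := by rw [parF_aa]; norm_num
  filter_upwards [s4c_adm d hd cp hcp hcp' CM CR η Rc ((aa : ℝ) / 1050) (by linarith),
    eventually_ge_atTop 1,
    parF_ev_small (-((aa : ℝ) / 1050) + (aa : ℝ) / 1100) (by linarith) (1 / 3) (by norm_num)]
    with n hadm hn hsm π hcur h hh s p hp
  have hn0 : (0 : ℝ) < (n : ℝ) := by exact_mod_cast hn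
  have hp' : π.Adm (g0 d n) p.1 p.2 := (Finset.mem_filter.1 hp).2
  obtain ⟨hD, -, -, -, -⟩ := hadm π hcur p.1 p.2 hp' h hh s
  rw [← π.s51_Dp_eq _ _ hp'.1 hp'.2.1 (s4c_adm_ne π hp')]
  unfold s51m
  have h1 : (n : ℝ) ^ (-((aa : ℝ) / 1050)) =
      (n : ℝ) ^ (-((aa : ℝ) / 1100)) * (n : ℝ) ^ (-((aa : ℝ) / 1050) + (aa : ℝ) / 1100) := by
    rw [← Real.rpow_add hn0]; congr 1; ring
  have h2 : 0 < (n : ℝ) ^ (-((aa : ℝ) / 1100)) := Real.rpow_pos_of_pos hn0 _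
  have h3 : (n : ℝ) ^ (-((aa : ℝ) / 1050)) ≤ (n : ℝ) ^ (-((aa : ℝ) / 1100)) * (1 / 3) := by
    rw [h1]; exact mul_le_mul_of_nonneg_left hsm h2.le
  have := hD 0 0
  have := hD 1 1
  have := hD 0 1
  linarith

/-- the hypotheses on `K, Q, J`. -/
theorem s51_KQJ (d : ℕ) (hd : 3 ≤ d) (cp : ℚ) (hcp : 0 < cp) (hcp' : cp ≤ 1 / 4) : ∃ C0 : ℝ, 0 < C0 ∧
    ∀ (CM CR η : ℝ) (Rc : ℕ), ∀ᶠ n : ℕ in atTop, ∀ π : PPair n d, π.Cur cp CM CR η Rc →
      ∀ h ∈ trackedList d n cp, ∀ s : Bool,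
        S51K C0 π.unres (π.Kall (sgn s) ((h : ℚ) : ℝ)) ∧
        S51Q (C0 / alphaf d ((h : ℚ) : ℝ)) π.unres (π.Qall (sgn s) ((h : ℚ) : ℝ)) ∧
        S51J (C0 * (n : ℝ) ^ ((125 / 1000 : ℝ) * (aa : ℝ)) / alphaf d ((h : ℚ) : ℝ) ^ 2) π.unres
          (π.Jall (sgn s) ((h : ℚ) : ℝ)) (π.s51jr C0 (sgn s) ((h : ℚ) : ℝ)) := by
  obtain ⟨C, hC, H⟩ := s4c_entries d hd cp hcp hcp'
  obtain ⟨hr1, hr2⟩ := parF_sqrtq d hd
  have hd' : (3 : ℝ) ≤ (d : ℝ) := by exact_mod_cast hd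
  have ha : (0 : ℝ) < (aa : ℝ) := by rw [parF_aa]; norm_num
  refine ⟨C + 1, by positivity, fun CM CR η Rc => ?_⟩
  filter_upwards [H CM CR η Rc, s4c_basic d hd cp hcp hcp', tracked_range d hd cp hcp hcp',
    s45i_norm_all d hd cp hcp hcp', eventually_ge_atTop 1,
    parF_ev_large ((1 / 1000 : ℝ) * (aa : ℝ)) (by positivity) (4 * (d : ℝ) ^ 2 * C),
    parF_ev_large ((945 / 10000 : ℝ) * (aa : ℝ)) (by positivity) 3]
    with n hent hbas hrange hnorm hn hbig hbig3 π hcur h hh s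
  obtain ⟨hh0, hhz, hh1, hq, hα0, hα1, hβ0, hαβ, hinv⟩ := hbas h hh
  obtain ⟨r1, r2⟩ := hrange h hh
  obtain ⟨hm0, hminv, -, -⟩ := s45i_scalars d _ _ hr1 hr2 r1 r2
  obtain ⟨hN, hBT⟩ := hnorm π hcur.caps h hh s
  have hent' := hent π hcur h hh s
  have hpos := (hcur.caps h hh s).pos
  have hn0 : (0 : ℝ) < (n : ℝ) := by exact_mod_cast hn
  set σ : ℝ := sgn s with hσdef
  set z : ℝ := ((h : ℚ) : ℝ) with hz
  set α : ℝ := alphaf d z with hα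
  set X : ℝ := (n : ℝ) ^ ((1245 / 10000 : ℝ) * (aa : ℝ)) with hX
  have hX0 : 0 < X := Real.rpow_pos_of_pos hn0 _
  have hXinv : (n : ℝ) ^ (-(1245 / 10000 : ℝ) * (aa : ℝ)) = X⁻¹ := by
    rw [hX, ← Real.rpow_neg hn0.le]; congr 1; ring
  rw [hXinv] at hN
  obtain ⟨sD, cD, sK, cK, sQ, cQ, cJ⟩ := π.s51_struct σ z
  have hκ : 0 < α * X⁻¹ := by positivity
  have hτT : 3 * (n : ℝ) ^ ((3 / 100 : ℝ) * (aa : ℝ)) / α ≤ X / α := by
    apply div_le_div_of_nonneg_right _ hα0.le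
    have : X = (n : ℝ) ^ ((945 / 10000 : ℝ) * (aa : ℝ)) * (n : ℝ) ^ ((3 / 100 : ℝ) * (aa : ℝ)) := by
      rw [hX, ← Real.rpow_add hn0]; congr 1; ring
    rw [this]
    exact mul_le_mul_of_nonneg_right hbig3 (Real.rpow_pos_of_pos hn0 _).le
  obtain ⟨oG, oK, oQ, -⟩ := π.s45i_abs hn σ z _ _ _ hpos hβ0 hm0 hκ hN hBT (by positivity) hτT
  obtain ⟨-, -, -, -, -, hQ2, -⟩ := π.s51_psd_traces σ z _ _ oG oQ
  have hQQ : ∀ y, (π.Qall σ z * π.Qall σ z) y y ≤ ((n : ℝ) ^ ((125 / 1000 : ℝ) * (aa : ℝ)) / α ^ 2) ^ 2 := by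
    intro y
    have h1 : π.Qall σ z y y ≤ C / α := (le_abs_self _).trans (hent' y y).2.1
    have h2 : (mh z * (α * X⁻¹))⁻¹ ≤ 2 * (d : ℝ) * X / α := by
      have : (mh z * (α * X⁻¹))⁻¹ = (mh z)⁻¹ * X / α := by
        rw [mul_inv, mul_inv, inv_inv]; ring
      rw [this]
      apply div_le_div_of_nonneg_right _ hα0.le
      exact mul_le_mul_of_nonneg_right hminv hX0.le
    have h3 : (mh z * (α * X⁻¹))⁻¹ ^ 2 / betaf d z ≤ (2 * (d : ℝ) * X / α) ^ 2 / α :=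
      div_le_div₀ (by positivity) (pow_le_pow_left₀ (by positivity) h2 2) hα0 hαβ
    have h4 : ((n : ℝ) ^ ((125 / 1000 : ℝ) * (aa : ℝ))) ^ 2 = (n : ℝ) ^ ((1 / 1000 : ℝ) * (aa : ℝ)) * X ^ 2 := by
      rw [hX, ← Real.rpow_natCast, ← Real.rpow_natCast, ← Real.rpow_mul hn0.le, ← Real.rpow_mul hn0.le,
        ← Real.rpow_add hn0]
      congr 1; push_cast; ring
    calc (π.Qall σ z * π.Qall σ z) y y ≤ (mh z * (α * X⁻¹))⁻¹ ^ 2 / betaf d z * π.Qall σ z y y := hQ2 y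
      _ ≤ (2 * (d : ℝ) * X / α) ^ 2 / α * (C / α) :=
        mul_le_mul h3 h1 (π.s51_Q_gram σ z y y).1 (by positivity)
      _ = (4 * (d : ℝ) ^ 2 * C) * X ^ 2 / α ^ 4 := by field_simp; ring
      _ ≤ (n : ℝ) ^ ((1 / 1000 : ℝ) * (aa : ℝ)) * X ^ 2 / α ^ 4 := by
        apply div_le_div_of_nonneg_right _ (by positivity)
        exact mul_le_mul_of_nonneg_right hbig (by positivity)
      _ = ((n : ℝ) ^ ((125 / 1000 : ℝ) * (aa : ℝ)) / α ^ 2) ^ 2 := by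
        rw [div_pow, h4]; congr 1; ring
  refine ⟨⟨sK, cK, fun x _ y _ => (hent' x y).1.trans (by linarith)⟩,
    ⟨sQ, cQ, fun x _ => (π.s51_Q_gram σ z x x).1, fun x _ y _ => (π.s51_Q_gram σ z x y).2,
      fun x _ => ((le_abs_self _).trans (hent' x x).2.1).trans
        (div_le_div_of_nonneg_right (by linarith) hα0.le)⟩,
    ⟨cJ, fun x _ y _ => ?_, fun y _ => ?_⟩⟩
  · refine (π.s51_J_le σ z x y).trans ?_
    unfold PPair.s51jr
    apply mul_le_mul_of_nonneg_right _ (Real.sqrt_nonneg _)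
    rw [Real.sqrt_le_iff]
    refine ⟨by positivity, ?_⟩
    have := (le_abs_self _).trans (hent' x x).1
    nlinarith
  · unfold PPair.s51jr
    rw [mul_div_assoc]
    apply mul_le_mul_of_nonneg_left _ (by positivity)
    rw [Real.sqrt_le_iff]
    exact ⟨by positivity, hQQ y⟩

/-- upper bound of the drift coefficient, all tracked points ((4.10) summed over the stubs; `|Vd| ≥ l²/2`):
`a' ≤ (4/l)(n^{-a/2000} + 2 d / l)`. -/
theorem s51_a_le (d : ℕ) (hd : 3 ≤ d) (cp : ℚ) (hcp : 0 < cp) (hcp' : cp ≤ 1 / 4) (CM CR η : ℝ) (Rc : ℕ) :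
    ∀ᶠ n : ℕ in atTop, ∀ π : PPair n d, π.Cur cp CM CR η Rc → ∀ h ∈ trackedList d n cp, ∀ s : Bool,
      s51a π.unres (π.admF (g0 d n)) ((h : ℚ) : ℝ) (π.Kall (sgn s) ((h : ℚ) : ℝ)) ≤
        4 / (π.l : ℝ) * ((n : ℝ) ^ (-((aa : ℝ) / 2000)) + 2 * (d : ℝ) / (π.l : ℝ)) := by
  filter_upwards [s45i_quad_all d hd cp hcp hcp' CM CR η Rc, s4c_basic d hd cp hcp hcp', s51brc_card d hd,
    eventually_ge_atTop 1] with n hquad hbas hcard hn π hcur h hh s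
  obtain ⟨hh0, hhz, hh1, hq, hα0, hα1, hβ0, hαβ, hinv⟩ := hbas h hh
  obtain ⟨hl32, -, hV⟩ := hcard π hcur.l_ge
  have hn0 : (0 : ℝ) < (n : ℝ) := by exact_mod_cast hn
  have hl0 : 0 < π.l := by omega
  have hlR : (0 : ℝ) < (π.l : ℝ) := by exact_mod_cast hl0
  have hpos := (hcur.caps h hh s).pos
  have hq' := hquad π hcur h hh s
  set σ : ℝ := sgn s with hσdef
  set z : ℝ := ((h : ℚ) : ℝ) with hz
  set ε : ℝ := (n : ℝ) ^ (-((aa : ℝ) / 2000)) with hε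
  have hε0 : 0 < ε := Real.rpow_pos_of_pos hn0 _
  have hz2 : 0 < z ^ 2 := by positivity
  have h1 := (π.s45i_quad_cons hn σ z _ (1 + (z ^ 2)⁻¹) ε hpos hβ0 (by positivity) hε0.le hq' le_rfl).1
  have hT := π.s51brc_Ttr_nonneg σ z
  have h2 : (π.Kall σ z).trace ≤ (1 + (z ^ 2)⁻¹ + ε) * (π.l : ℝ) := by
    have : 0 ≤ betaf d z * π.Ttr σ z := mul_nonneg hβ0.le hT
    linarith
  have h3 : (π.Kall σ z).trace / (π.l : ℝ) ≤ 1 + (z ^ 2)⁻¹ + ε := by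
    rw [div_le_iff₀ hlR]; exact h2
  have h4 : z ^ 2 * ((π.Kall σ z).trace / (π.l : ℝ) - 1) - 1 ≤ ε := by
    have e1 : z ^ 2 * ((π.Kall σ z).trace / (π.l : ℝ) - 1) ≤ z ^ 2 * ((z ^ 2)⁻¹ + ε) :=
      mul_le_mul_of_nonneg_left (by linarith) hz2.le
    have e2 : z ^ 2 * ((z ^ 2)⁻¹ + ε) = 1 + z ^ 2 * ε := by
      rw [mul_add, mul_inv_cancel₀ hz2.ne']
    have e3 : z ^ 2 * ε ≤ 1 * ε := mul_le_mul_of_nonneg_right (by nlinarith) hε0.le
    linarith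
  have hl2 : (0 : ℝ) < (π.l : ℝ) ^ 2 / 2 := by positivity
  unfold s51a
  rw [(π.s51_trS hl0 σ z).2.1, PPair.s51_card_unres]
  calc 2 * (π.l : ℝ) * (z ^ 2 * ((π.Kall σ z).trace / (π.l : ℝ) - 1) - 1) / ((π.admF (g0 d n)).card : ℝ)
      ≤ 2 * (π.l : ℝ) * ε / ((π.admF (g0 d n)).card : ℝ) :=
        div_le_div_of_nonneg_right (mul_le_mul_of_nonneg_left h4 (by positivity)) (Nat.cast_nonneg _)
    _ ≤ 2 * (π.l : ℝ) * ε / ((π.l : ℝ) ^ 2 / 2) := div_le_div_of_nonneg_left (by positivity) hl2 hV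
    _ = 4 / (π.l : ℝ) * ε := by field_simp; ring
    _ ≤ 4 / (π.l : ℝ) * (ε + 2 * (d : ℝ) / (π.l : ℝ)) := by
        apply mul_le_mul_of_nonneg_left _ (by positivity)
        have : 0 ≤ 2 * (d : ℝ) / (π.l : ℝ) := by positivity
        linarith

/-- lower bound of the drift coefficient at the primaries ((4.11)): `a' ≥ - (4/l)(α 𝒯 / l + n^{-a/2000})`. -/
theorem s51_a_ge (d : ℕ) (hd : 3 ≤ d) (cp : ℚ) (hcp : 0 < cp) (hcp' : cp ≤ 1 / 4) (CM CR η : ℝ) (Rc : ℕ) :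
    ∀ᶠ n : ℕ in atTop, ∀ π : PPair n d, π.Cur cp CM CR η Rc → ∀ h ∈ primList d n cp, ∀ s : Bool,
      -(4 / (π.l : ℝ) * (alphaf d ((h : ℚ) : ℝ) * π.Ttr (sgn s) ((h : ℚ) : ℝ) / (π.l : ℝ)
          + (n : ℝ) ^ (-((aa : ℝ) / 2000)))) ≤
        s51a π.unres (π.admF (g0 d n)) ((h : ℚ) : ℝ) (π.Kall (sgn s) ((h : ℚ) : ℝ)) := by
  filter_upwards [s45i_trace_identity d hd cp hcp hcp' CM CR η Rc, s4c_basic d hd cp hcp hcp', s51brc_card d hd,
    eventually_ge_atTop 1] with n htr hbas hcard hn π hcur h hh s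
  obtain ⟨hh0, hhz, hh1, hq, hα0, hα1, hβ0, hαβ, hinv⟩ := hbas h (s6br_prim_sub d n cp h hh)
  obtain ⟨hl32, -, hV⟩ := hcard π hcur.l_ge
  have hn0 : (0 : ℝ) < (n : ℝ) := by exact_mod_cast hn
  have hl0 : 0 < π.l := by omega
  have hlR : (0 : ℝ) < (π.l : ℝ) := by exact_mod_cast hl0
  have h1 := htr π hcur h hh s
  set σ : ℝ := sgn s with hσdef
  set z : ℝ := ((h : ℚ) : ℝ) with hz
  set ε : ℝ := (n : ℝ) ^ (-((aa : ℝ) / 2000)) with hε
  set α : ℝ := alphaf d z with hα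
  have hε0 : 0 < ε := Real.rpow_pos_of_pos hn0 _
  have hz2 : 0 < z ^ 2 := by positivity
  have hT := π.s51brc_Ttr_nonneg σ z
  have hβ : z ^ 2 * betaf d z = α := by
    unfold betaf; rw [mul_div_cancel₀ _ hz2.ne']
  have h4 : -(α * π.Ttr σ z / (π.l : ℝ) + ε) ≤ z ^ 2 * ((π.Kall σ z).trace / (π.l : ℝ) - 1) - 1 := by
    have e0 := (abs_le.1 h1).1
    have e1 : z ^ 2 * ((z ^ 2)⁻¹ - ε - betaf d z * π.Ttr σ z / (π.l : ℝ)) ≤
        z ^ 2 * ((π.Kall σ z).trace / (π.l : ℝ) - 1) :=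
      mul_le_mul_of_nonneg_left (by linarith) hz2.le
    have e2 : z ^ 2 * ((z ^ 2)⁻¹ - ε - betaf d z * π.Ttr σ z / (π.l : ℝ)) =
        1 - z ^ 2 * ε - α * π.Ttr σ z / (π.l : ℝ) := by
      rw [← hβ, mul_sub, mul_sub, mul_inv_cancel₀ hz2.ne']; ring
    have e3 : z ^ 2 * ε ≤ 1 * ε := mul_le_mul_of_nonneg_right (by nlinarith) hε0.le
    linarith
  have hl2 : (0 : ℝ) < (π.l : ℝ) ^ 2 / 2 := by positivity
  have hY : 0 ≤ α * π.Ttr σ z / (π.l : ℝ) + ε := by positivity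
  unfold s51a
  rw [(π.s51_trS hl0 σ z).2.1, PPair.s51_card_unres]
  calc -(4 / (π.l : ℝ) * (α * π.Ttr σ z / (π.l : ℝ) + ε))
      = -(2 * (π.l : ℝ) * (α * π.Ttr σ z / (π.l : ℝ) + ε) / ((π.l : ℝ) ^ 2 / 2)) := by
        generalize α * π.Ttr σ z / (π.l : ℝ) + ε = Y
        field_simp; ring
    _ ≤ -(2 * (π.l : ℝ) * (α * π.Ttr σ z / (π.l : ℝ) + ε) / ((π.admF (g0 d n)).card : ℝ)) :=
        neg_le_neg (div_le_div_of_nonneg_left (by positivity) hl2 hV)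
    _ = 2 * (π.l : ℝ) * (-(α * π.Ttr σ z / (π.l : ℝ) + ε)) / ((π.admF (g0 d n)).card : ℝ) := by ring
    _ ≤ 2 * (π.l : ℝ) * (z ^ 2 * ((π.Kall σ z).trace / (π.l : ℝ) - 1) - 1) / ((π.admF (g0 d n)).card : ℝ) :=
        div_le_div_of_nonneg_right (mul_le_mul_of_nonneg_left h4 (by positivity)) (Nat.cast_nonneg _)

end Claimed.Agent.R275
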