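import Claimed.Agent.R275.S5Rank2

/-!
# Row 275, Sec 5.1 (early.tex l. 63-366), package S51-FUN: the trace increments as functions of `2 × 2` blocks (LAYER B, pointwise part)

Blueprint: helper194.  Prefix `s51`.  NO PAPER NEEDED.  Everything here is about FOUR real `2 × 2` matrices `D, K, Q, J` (the `{u,v}` blocks of
`D = Γ - Π_l`, `K_all = Γ²`, `Q_all = Ξᵀ W² Ξ`, `J_all = Γ Q_all`) and `H = Hgen l σ h D = (H_0⁻¹ + D)⁻¹`.

   `ΔL_1 = - Tr(B D) - Tr(H K) + Tr(B G H G)`,  `ΔL_0 = - Tr(H Q)`,  `G = G_0 + D`,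
   `Δ𝒯  = - Tr[B (1 - G H) Q (1 - H G)] - 2 Tr(H J) + Tr(H Q H K)`.
POLYNOMIAL PARTS (defined for every pair, used for the exact contractions of Lemma 5.2):
   `P_1 = 2 Tr(H_0 D) - (1 + h²) Tr(B D) - Tr(H_0 K) + Tr(H_0 D H_0 K)`                                   ((5.15))
   `P_0 = - Tr(H_0 Q) + Tr(H_0 D H_0 Q)`
   `P_T = - (1 + h²) Tr(B Q) + 2 Tr(H_0 Q) + Tr(H_0 Q H_0 K) - 2 Tr(H_0 J) + 2 Tr(H_0 D H_0 J)`.
ALGEBRA.  `B G_0 = G_0 B = 1`, `H_0 G_0 = G_0 H_0 = -σh F`, `H_0 G_0 H_0 = h² B` (`s5H0_G0`), `F B = B F`, `F B F = B`,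
`H = H_0 - H_0 D H = H_0 - H_0 D H_0 + R_2`, `R_2 = H_0 D H D H_0` (`s5_Hgen_second`), entries of `H_0, H, B, G_0` bounded by `4` (`tb_abs_le`).
 * `Tr(B G H G) = Tr(H G_0) + 2 Tr(H D) + Tr(B D H D)`, `Tr(H G_0) = - h² Tr(B D) + Tr(R_2 G_0)`, `Tr(H D) = Tr(H_0 D) - Tr(H_0 D H D)`.
 * `(1 + σh F) B (1 + σh F) = (1 + h²) B + 2 σh (F + J_2/(l-2))`, so `- Tr[B (1 - G_0 H_0) Q (1 - H_0 G_0)] = - (1+h²) Tr(B Q) + 2 Tr(H_0 Q)`.
Notation: `s51n D = D_00² + D_11² + D_01²`, `s51m D = |D_00| + |D_11| + |D_01|`.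
-/

set_option autoImplicit false
set_option linter.unusedSimpArgs false

namespace Claimed.Agent.R275

open Matrix Finset

/-- `ΔL_1` -/
noncomputable def s51dL1 (l : ℕ) (σ h : ℝ) (D K : Matrix (Fin 2) (Fin 2) ℝ) : ℝ :=
  -(B2 ℝ l * D).trace - (Hgen l σ h D * K).trace
    + (B2 ℝ l * (G0 ℝ l + D) * Hgen l σ h D * (G0 ℝ l + D)).trace

/-- `ΔL_0` -/
noncomputable def s51dL0 (l : ℕ) (σ h : ℝ) (D Q : Matrix (Fin 2) (Fin 2) ℝ) : ℝ :=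
  -(Hgen l σ h D * Q).trace

/-- `Δ𝒯` -/
noncomputable def s51dT (l : ℕ) (σ h : ℝ) (D K Q J : Matrix (Fin 2) (Fin 2) ℝ) : ℝ :=
  -(B2 ℝ l * (1 - (G0 ℝ l + D) * Hgen l σ h D) * Q * (1 - Hgen l σ h D * (G0 ℝ l + D))).trace
    - 2 * (Hgen l σ h D * J).trace + (Hgen l σ h D * Q * Hgen l σ h D * K).trace

/-- polynomial part of `ΔL_1` -/
noncomputable def s51P1 (l : ℕ) (σ h : ℝ) (D K : Matrix (Fin 2) (Fin 2) ℝ) : ℝ :=
  2 * (H0 l σ h * D).trace - (1 + h ^ 2) * (B2 ℝ l * D).trace - (H0 l σ h * K).trace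
    + (H0 l σ h * D * H0 l σ h * K).trace

/-- polynomial part of `ΔL_0` -/
noncomputable def s51P0 (l : ℕ) (σ h : ℝ) (D Q : Matrix (Fin 2) (Fin 2) ℝ) : ℝ :=
  -(H0 l σ h * Q).trace + (H0 l σ h * D * H0 l σ h * Q).trace

/-- polynomial part of `Δ𝒯` -/
noncomputable def s51PT (l : ℕ) (σ h : ℝ) (D K Q J : Matrix (Fin 2) (Fin 2) ℝ) : ℝ :=
  -(1 + h ^ 2) * (B2 ℝ l * Q).trace + 2 * (H0 l σ h * Q).trace + (H0 l σ h * Q * H0 l σ h * K).trace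
    - 2 * (H0 l σ h * J).trace + 2 * (H0 l σ h * D * H0 l σ h * J).trace

/-- `D_00² + D_11² + D_01²` -/
def s51n (D : Matrix (Fin 2) (Fin 2) ℝ) : ℝ := D 0 0 ^ 2 + D 1 1 ^ 2 + D 0 1 ^ 2

/-- `|D_00| + |D_11| + |D_01|` -/
def s51m (D : Matrix (Fin 2) (Fin 2) ℝ) : ℝ := |D 0 0| + |D 1 1| + |D 0 1|

/-- all entries bounded by `κ` -/
def s51Le (X : Matrix (Fin 2) (Fin 2) ℝ) (κ : ℝ) : Prop := ∀ i j, |X i j| ≤ κ

/-- a positive semidefinite-like block: symmetric, nonnegative diagonal, `|Q_01| ≤ (Q_00 + Q_11)/2` -/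
structure S51Psd (Q : Matrix (Fin 2) (Fin 2) ℝ) : Prop where
  symm : Q 1 0 = Q 0 1
  d0 : 0 ≤ Q 0 0
  d1 : 0 ≤ Q 1 1
  off : |Q 0 1| ≤ (Q 0 0 + Q 1 1) / 2

/-! ## exact algebra -/

/-- first order resolvent identity `H = H_0 - H_0 D H` -/
theorem s51f_first {l : ℕ} {σ h : ℝ} {D : Matrix (Fin 2) (Fin 2) ℝ} (H : TBHyp l σ h D) :
    Hgen l σ h D = H0 l σ h - H0 l σ h * D * Hgen l σ h D := by
  have h1 : ((H0 l σ h)⁻¹ + D) * Hgen l σ h D = 1 := by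
    rw [tb_Hgen_eq H]; exact tb_mul_tbN H
  have h2 : H0 l σ h * (((H0 l σ h)⁻¹ + D) * Hgen l σ h D) = H0 l σ h := by rw [h1, Matrix.mul_one]
  rw [Matrix.add_mul, Matrix.mul_add, ← Matrix.mul_assoc,
    Matrix.mul_nonsing_inv _ ((Matrix.isUnit_iff_isUnit_det _).1 H.isUnit_H0), Matrix.one_mul,
    ← Matrix.mul_assoc] at h2
  exact eq_sub_of_add_eq h2

/-- the other side: `H = H_0 - H D H_0` -/
theorem s51f_first' {l : ℕ} {σ h : ℝ} {D : Matrix (Fin 2) (Fin 2) ℝ} (H : TBHyp l σ h D) :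
    Hgen l σ h D = H0 l σ h - Hgen l σ h D * D * H0 l σ h := by
  have h1 : Hgen l σ h D * ((H0 l σ h)⁻¹ + D) = 1 :=
    Matrix.nonsing_inv_mul _ ((Matrix.isUnit_iff_isUnit_det _).1 (tb_isUnit H))
  have h2 : (Hgen l σ h D * ((H0 l σ h)⁻¹ + D)) * H0 l σ h = H0 l σ h := by rw [h1, Matrix.one_mul]
  rw [Matrix.mul_add, Matrix.add_mul, Matrix.mul_assoc,
    Matrix.nonsing_inv_mul _ ((Matrix.isUnit_iff_isUnit_det _).1 H.isUnit_H0), Matrix.mul_one] at h2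
  exact eq_sub_of_add_eq h2

theorem s51f_tr_F2 : (F2 ℝ).trace = 0 := by
  simp [Matrix.trace, F2, Fin.sum_univ_two]

/-- `Tr (B G H G) = Tr (H G_0) + 2 Tr (H D) + Tr (B D H D)` -/
theorem s51f_tr_BGHG {l : ℕ} (hl : 2 < l) (X D : Matrix (Fin 2) (Fin 2) ℝ) :
    (B2 ℝ l * (G0 ℝ l + D) * X * (G0 ℝ l + D)).trace =
      (X * G0 ℝ l).trace + 2 * (X * D).trace + (B2 ℝ l * D * X * D).trace := by
  have e1 : B2 ℝ l * (G0 ℝ l + D) = 1 + B2 ℝ l * D := by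
    rw [Matrix.mul_add, PPair.B2_mul_G0 ℝ hl]
  have e2 : (B2 ℝ l * D * X * G0 ℝ l).trace = (X * D).trace := by
    rw [Matrix.trace_mul_comm, ← Matrix.mul_assoc, ← Matrix.mul_assoc, PPair.G0_mul_B2 ℝ hl,
      Matrix.one_mul, Matrix.trace_mul_comm]
  rw [e1, Matrix.add_mul, Matrix.one_mul, Matrix.add_mul, Matrix.mul_add, Matrix.mul_add,
    Matrix.trace_add, Matrix.trace_add, Matrix.trace_add, e2]
  ring

/-- `ΔL_1 - P_1` as an explicit second-order expression. -/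
theorem s51_dL1_sub {l : ℕ} {σ h : ℝ} {D : Matrix (Fin 2) (Fin 2) ℝ} (H : TBHyp l σ h D)
    (K : Matrix (Fin 2) (Fin 2) ℝ) :
    s51dL1 l σ h D K - s51P1 l σ h D K =
      (H0 l σ h * D * Hgen l σ h D * D * H0 l σ h * G0 ℝ l).trace
        - 2 * (H0 l σ h * D * Hgen l σ h D * D).trace
        + (B2 ℝ l * D * Hgen l σ h D * D).trace
        - (H0 l σ h * D * Hgen l σ h D * D * H0 l σ h * K).trace := by
  have hl : 2 < l := by have := H.hl; omega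
  obtain ⟨g1, -, g3⟩ := s5H0_G0 hl σ h H.hσ
  have E1 := s5_Hgen_second H
  have E2 := s51f_first H
  have a1 : ∀ Y : Matrix (Fin 2) (Fin 2) ℝ, (Hgen l σ h D * Y).trace = (H0 l σ h * Y).trace
      - (H0 l σ h * D * H0 l σ h * Y).trace
      + (H0 l σ h * D * Hgen l σ h D * D * H0 l σ h * Y).trace := by
    intro Y
    conv_lhs => rw [E1]
    rw [Matrix.add_mul, Matrix.sub_mul, Matrix.trace_add, Matrix.trace_sub]
  have a4 : (Hgen l σ h D * D).trace = (H0 l σ h * D).trace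
      - (H0 l σ h * D * Hgen l σ h D * D).trace := by
    conv_lhs => rw [E2]
    rw [Matrix.sub_mul, Matrix.trace_sub]
  have a5 : (H0 l σ h * G0 ℝ l).trace = 0 := by
    rw [g1, Matrix.trace_smul, s51f_tr_F2, smul_zero]
  have a6 : (H0 l σ h * D * H0 l σ h * G0 ℝ l).trace = h ^ 2 * (B2 ℝ l * D).trace := by
    rw [Matrix.mul_assoc, Matrix.mul_assoc, Matrix.trace_mul_comm, Matrix.mul_assoc,
      Matrix.mul_assoc, ← Matrix.mul_assoc (H0 l σ h) (G0 ℝ l), g3, Matrix.mul_smul,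
      Matrix.trace_smul, Matrix.trace_mul_comm, smul_eq_mul]
  unfold s51dL1 s51P1
  rw [s51f_tr_BGHG hl, a1 K, a1 (G0 ℝ l), a4, a5, a6]
  ring

theorem s51_dL0_sub {l : ℕ} {σ h : ℝ} {D : Matrix (Fin 2) (Fin 2) ℝ} (H : TBHyp l σ h D)
    (Q : Matrix (Fin 2) (Fin 2) ℝ) :
    s51dL0 l σ h D Q - s51P0 l σ h D Q =
      -(H0 l σ h * D * Hgen l σ h D * D * H0 l σ h * Q).trace := by
  have E1 := s5_Hgen_second H
  unfold s51dL0 s51P0
  conv_lhs => rw [E1]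
  rw [Matrix.add_mul, Matrix.sub_mul, Matrix.trace_add, Matrix.trace_sub]
  ring

/-- the ideal first outer term of `Δ𝒯`. -/
theorem s51_outer_ideal {l : ℕ} (hl : 2 < l) (σ h : ℝ) (hσ : σ ^ 2 = 1) (Q : Matrix (Fin 2) (Fin 2) ℝ) :
    -(B2 ℝ l * (1 - G0 ℝ l * H0 l σ h) * Q * (1 - H0 l σ h * G0 ℝ l)).trace =
      -(1 + h ^ 2) * (B2 ℝ l * Q).trace + 2 * (H0 l σ h * Q).trace := by
  obtain ⟨g1, g2, -⟩ := s5H0_G0 hl σ h hσ
  rw [g1, g2]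
  simp only [H0, F2, B2, J2, Matrix.trace, Matrix.diag, Matrix.mul_apply, Fin.sum_univ_two,
    Matrix.sub_apply, Matrix.add_apply, Matrix.smul_apply, Matrix.one_apply, Matrix.neg_apply,
    smul_eq_mul]
  simp only [Fin.isValue, if_true, if_false, zero_ne_one, one_ne_zero, ↓reduceIte]
  linear_combination (-(h ^ 2) * ((1 + ((l : ℝ) - 2)⁻¹) * (Q 0 0 + Q 1 1)
    + ((l : ℝ) - 2)⁻¹ * (Q 0 1 + Q 1 0))) * hσ

/-- traces against `H_0` and `B` in coordinates (`ε = 1/(l-2)`). -/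
theorem s51_tr_H0 (l : ℕ) (σ h : ℝ) (X : Matrix (Fin 2) (Fin 2) ℝ) :
    (H0 l σ h * X).trace =
      -(σ * h) * ((1 + 1 / ((l : ℝ) - 2)) * (X 0 1 + X 1 0) + 1 / ((l : ℝ) - 2) * (X 0 0 + X 1 1)) := by
  simp only [H0, F2, B2, J2, Matrix.trace, Matrix.diag, Matrix.mul_apply, Fin.sum_univ_two,
    Matrix.sub_apply, Matrix.add_apply, Matrix.smul_apply, Matrix.one_apply, Matrix.neg_apply,
    smul_eq_mul, one_div]
  simp only [Fin.isValue, if_true, if_false, zero_ne_one, one_ne_zero, ↓reduceIte]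
  ring

theorem s51_tr_B (l : ℕ) (X : Matrix (Fin 2) (Fin 2) ℝ) :
    (B2 ℝ l * X).trace = (1 + 1 / ((l : ℝ) - 2)) * (X 0 0 + X 1 1) + 1 / ((l : ℝ) - 2) * (X 0 1 + X 1 0) := by
  simp only [B2, J2, Matrix.trace, Matrix.diag, Matrix.mul_apply, Fin.sum_univ_two,
    Matrix.sub_apply, Matrix.add_apply, Matrix.smul_apply, Matrix.one_apply, Matrix.neg_apply,
    smul_eq_mul, one_div]
  simp only [Fin.isValue, if_true, if_false, zero_ne_one, one_ne_zero, ↓reduceIte]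
  ring

/-! ## entrywise calculus -/

theorem s51f_nonneg {X : Matrix (Fin 2) (Fin 2) ℝ} {a : ℝ} (h : s51Le X a) : 0 ≤ a :=
  (abs_nonneg _).trans (h 0 0)

theorem s51f_mono {X : Matrix (Fin 2) (Fin 2) ℝ} {a b : ℝ} (h : s51Le X a) (hab : a ≤ b) : s51Le X b :=
  fun i j => (h i j).trans hab

theorem s51f_mul {X Y : Matrix (Fin 2) (Fin 2) ℝ} {a b : ℝ} (hX : s51Le X a) (hY : s51Le Y b) :
    s51Le (X * Y) (2 * (a * b)) := by
  intro i j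
  rw [Matrix.mul_apply, Fin.sum_univ_two]
  have ha := s51f_nonneg hX
  have h1 : |X i 0 * Y 0 j| ≤ a * b := by
    rw [abs_mul]; exact mul_le_mul (hX i 0) (hY 0 j) (abs_nonneg _) ha
  have h2 : |X i 1 * Y 1 j| ≤ a * b := by
    rw [abs_mul]; exact mul_le_mul (hX i 1) (hY 1 j) (abs_nonneg _) ha
  calc |X i 0 * Y 0 j + X i 1 * Y 1 j| ≤ |X i 0 * Y 0 j| + |X i 1 * Y 1 j| := abs_add_le _ _
    _ ≤ 2 * (a * b) := by linarith

theorem s51f_add {X Y : Matrix (Fin 2) (Fin 2) ℝ} {a b : ℝ} (hX : s51Le X a) (hY : s51Le Y b) :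
    s51Le (X + Y) (a + b) := fun i j =>
  (abs_add_le _ _).trans (add_le_add (hX i j) (hY i j))

theorem s51f_sub {X Y : Matrix (Fin 2) (Fin 2) ℝ} {a b : ℝ} (hX : s51Le X a) (hY : s51Le Y b) :
    s51Le (X - Y) (a + b) := fun i j =>
  (abs_sub _ _).trans (add_le_add (hX i j) (hY i j))

theorem s51f_tr {X : Matrix (Fin 2) (Fin 2) ℝ} {a : ℝ} (hX : s51Le X a) : |X.trace| ≤ 2 * a := by
  rw [Matrix.trace, Fin.sum_univ_two]
  have := (abs_add_le (X.diag 0) (X.diag 1)).trans (add_le_add (hX 0 0) (hX 1 1))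
  linarith

theorem s51f_one : s51Le (1 : Matrix (Fin 2) (Fin 2) ℝ) 1 := by
  intro i j
  rw [Matrix.one_apply]
  split_ifs <;> simp

theorem s51f_F : s51Le (F2 ℝ) 1 := by
  intro i j
  unfold F2
  split_ifs <;> simp

theorem s51f_J : s51Le (J2 ℝ) 1 := by
  intro i j
  simp [J2]

/-- `0 < ε = 1/(l-2) ≤ 2/l ≤ 1/2` -/
theorem s51f_eps {l : ℕ} (hl : 4 ≤ l) :
    0 < ((l : ℝ) - 2)⁻¹ ∧ ((l : ℝ) - 2)⁻¹ ≤ 2 / (l : ℝ) ∧ ((l : ℝ) - 2)⁻¹ ≤ 1 / 2 := by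
  have h4 : (4 : ℝ) ≤ l := by exact_mod_cast hl
  have h2 : (0 : ℝ) < (l : ℝ) - 2 := by linarith
  refine ⟨inv_pos.2 h2, ?_, ?_⟩
  · rw [← one_div, div_le_div_iff₀ h2 (by linarith)]
    linarith
  · rw [← one_div]
    exact one_div_le_one_div_of_le (by norm_num) (by linarith)

theorem s51f_absx {σ h : ℝ} (hσ : σ ^ 2 = 1) (hh : 0 < h) (hh1 : h ≤ 1) : |σ * h| ≤ 1 := by
  have h1 : |σ| = 1 := by
    rcases mul_self_eq_one_iff.1 ((sq σ).symm.trans hσ) with h | h <;> simp [h]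
  rw [abs_mul, h1, one_mul, abs_of_pos hh]
  exact hh1

theorem s51f_B {l : ℕ} (hl : 4 ≤ l) : s51Le (B2 ℝ l) 2 := by
  obtain ⟨e0, -, e2⟩ := s51f_eps hl
  intro i j
  simp only [B2, J2, Matrix.add_apply, Matrix.smul_apply, smul_eq_mul, mul_one]
  have := s51f_one i j
  calc |(1 : Matrix (Fin 2) (Fin 2) ℝ) i j + ((l : ℝ) - 2)⁻¹|
      ≤ |(1 : Matrix (Fin 2) (Fin 2) ℝ) i j| + |((l : ℝ) - 2)⁻¹| := abs_add_le _ _
    _ ≤ 2 := by rw [abs_of_pos e0]; linarith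

theorem s51f_G0 {l : ℕ} (hl : 4 ≤ l) : s51Le (G0 ℝ l) 2 := by
  have h4 : (4 : ℝ) ≤ l := by exact_mod_cast hl
  have e0 : 0 < (l : ℝ)⁻¹ := inv_pos.2 (by linarith)
  have e1 : (l : ℝ)⁻¹ ≤ 1 := inv_le_one_of_one_le₀ (by linarith)
  intro i j
  simp only [G0, J2, Matrix.sub_apply, Matrix.smul_apply, smul_eq_mul, mul_one]
  have := s51f_one i j
  calc |(1 : Matrix (Fin 2) (Fin 2) ℝ) i j - (l : ℝ)⁻¹|
      ≤ |(1 : Matrix (Fin 2) (Fin 2) ℝ) i j| + |(l : ℝ)⁻¹| := abs_sub _ _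
    _ ≤ 2 := by rw [abs_of_pos e0]; linarith

/-- `H_0 = -σh (F + ε J)` -/
theorem s51f_H0_eq (l : ℕ) (σ h : ℝ) :
    H0 l σ h = -(σ * h) • (F2 ℝ + ((l : ℝ) - 2)⁻¹ • J2 ℝ) := by
  rw [H0, PPair.F2_mul_B2]

theorem s51f_H0 {l : ℕ} {σ h : ℝ} (hl : 4 ≤ l) (hσ : σ ^ 2 = 1) (hh : 0 < h) (hh1 : h ≤ 1) :
    s51Le (H0 l σ h) 2 := by
  obtain ⟨e0, -, e2⟩ := s51f_eps hl
  have hx := s51f_absx hσ hh hh1
  intro i j
  rw [s51f_H0_eq]
  simp only [J2, Matrix.add_apply, Matrix.smul_apply, smul_eq_mul, mul_one]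
  rw [abs_mul, abs_neg]
  have h1 : |F2 ℝ i j + ((l : ℝ) - 2)⁻¹| ≤ 2 := by
    calc |F2 ℝ i j + ((l : ℝ) - 2)⁻¹| ≤ |F2 ℝ i j| + |((l : ℝ) - 2)⁻¹| := abs_add_le _ _
      _ ≤ 2 := by rw [abs_of_pos e0]; linarith [s51f_F i j]
  calc |σ * h| * |F2 ℝ i j + ((l : ℝ) - 2)⁻¹| ≤ 1 * 2 := mul_le_mul hx h1 (abs_nonneg _) (by norm_num)
    _ = 2 := by norm_num

theorem s51f_H0' {l : ℕ} {σ h : ℝ} {D : Matrix (Fin 2) (Fin 2) ℝ} (H : TBHyp l σ h D) :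
    s51Le (H0 l σ h) 2 := s51f_H0 H.hl H.hσ H.hh H.hh1

theorem s51f_Hgen {l : ℕ} {σ h : ℝ} {D : Matrix (Fin 2) (Fin 2) ℝ} (H : TBHyp l σ h D) :
    s51Le (Hgen l σ h D) 4 := tb_abs_le H

theorem s51f_m_nonneg (D : Matrix (Fin 2) (Fin 2) ℝ) : 0 ≤ s51m D := by
  unfold s51m; positivity

theorem s51f_n_nonneg (D : Matrix (Fin 2) (Fin 2) ℝ) : 0 ≤ s51n D := by
  unfold s51n; positivity

theorem s51f_D {D : Matrix (Fin 2) (Fin 2) ℝ} (hs : D 1 0 = D 0 1) : s51Le D (s51m D) := by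
  have h0 := abs_nonneg (D 0 0)
  have h1 := abs_nonneg (D 1 1)
  have h2 := abs_nonneg (D 0 1)
  intro i j
  unfold s51m
  fin_cases i <;> fin_cases j
  · show |D 0 0| ≤ _; linarith
  · show |D 0 1| ≤ _; linarith
  · show |D 1 0| ≤ _; rw [hs]; linarith
  · show |D 1 1| ≤ _; linarith

theorem s51f_D_sq {D : Matrix (Fin 2) (Fin 2) ℝ} (hs : D 1 0 = D 0 1) (i j : Fin 2) :
    D i j ^ 2 ≤ s51n D := by
  have h0 := sq_nonneg (D 0 0)
  have h1 := sq_nonneg (D 1 1)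
  have h2 := sq_nonneg (D 0 1)
  unfold s51n
  fin_cases i <;> fin_cases j
  · show D 0 0 ^ 2 ≤ _; linarith
  · show D 0 1 ^ 2 ≤ _; linarith
  · show D 1 0 ^ 2 ≤ _; rw [hs]; linarith
  · show D 1 1 ^ 2 ≤ _; linarith

/-- a sandwich `D X D` is quadratically small -/
theorem s51f_DXD {D X : Matrix (Fin 2) (Fin 2) ℝ} {a : ℝ} (hs : D 1 0 = D 0 1) (hX : s51Le X a) :
    s51Le (D * X * D) (4 * (a * s51n D)) := by
  have ha := s51f_nonneg hX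
  have key : ∀ i k m j : Fin 2, |D i k * X k m * D m j| ≤ a * s51n D := by
    intro i k m j
    have h1 : |D i k| * |D m j| ≤ s51n D := by
      have a1 := s51f_D_sq hs i k
      have a2 := s51f_D_sq hs m j
      have a3 : |D i k| ^ 2 = D i k ^ 2 := sq_abs _
      have a4 : |D m j| ^ 2 = D m j ^ 2 := sq_abs _
      nlinarith [sq_nonneg (|D i k| - |D m j|)]
    rw [abs_mul, abs_mul]
    calc |D i k| * |X k m| * |D m j| = |X k m| * (|D i k| * |D m j|) := by ring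
      _ ≤ a * s51n D := mul_le_mul (hX k m) h1 (by positivity) ha
  intro i j
  simp only [Matrix.mul_apply, Fin.sum_univ_two]
  have e : (D i 0 * X 0 0 + D i 1 * X 1 0) * D 0 j + (D i 0 * X 0 1 + D i 1 * X 1 1) * D 1 j
      = D i 0 * X 0 0 * D 0 j + D i 1 * X 1 0 * D 0 j + D i 0 * X 0 1 * D 1 j
        + D i 1 * X 1 1 * D 1 j := by ring
  rw [e]
  have k1 := key i 0 0 j
  have k2 := key i 1 0 j
  have k3 := key i 0 1 j
  have k4 := key i 1 1 j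
  calc _ ≤ |D i 0 * X 0 0 * D 0 j| + |D i 1 * X 1 0 * D 0 j| + |D i 0 * X 0 1 * D 1 j|
        + |D i 1 * X 1 1 * D 1 j| := by
        refine (abs_add_le _ _).trans (add_le_add ((abs_add_le _ _).trans
          (add_le_add (abs_add_le _ _) le_rfl)) le_rfl)
    _ ≤ 4 * (a * s51n D) := by linarith

theorem s51f_Q {Q : Matrix (Fin 2) (Fin 2) ℝ} (hQ : S51Psd Q) : s51Le Q (Q 0 0 + Q 1 1) := by
  have h0 := hQ.d0
  have h1 := hQ.d1
  have h2 := hQ.off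
  intro i j
  fin_cases i <;> fin_cases j
  · show |Q 0 0| ≤ _; rw [abs_of_nonneg h0]; linarith
  · show |Q 0 1| ≤ _; linarith
  · show |Q 1 0| ≤ _; rw [hQ.symm]; linarith
  · show |Q 1 1| ≤ _; rw [abs_of_nonneg h1]; linarith

/-- replacing `H_0` by the pure swap `-σh F` in a double contraction costs `O(1/l)`. -/
theorem s51_swap_corr : ∃ C : ℝ, 0 < C ∧ ∀ (l : ℕ) (σ h : ℝ) (X Y : Matrix (Fin 2) (Fin 2) ℝ) (a b : ℝ),
    4 ≤ l → σ ^ 2 = 1 → 0 < h → h ≤ 1 → s51Le X a → s51Le Y b →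
    |(H0 l σ h * X * H0 l σ h * Y).trace - h ^ 2 * (F2 ℝ * X * F2 ℝ * Y).trace| ≤ C * a * b / (l : ℝ) := by
  refine ⟨80, by norm_num, fun l σ h X Y a b hl hσ hh hh1 hX hY => ?_⟩
  obtain ⟨e0, e1, e2⟩ := s51f_eps hl
  have ha := s51f_nonneg hX
  have hb := s51f_nonneg hY
  have hab := mul_nonneg ha hb
  set ε := ((l : ℝ) - 2)⁻¹ with hε
  have e : (H0 l σ h * X * H0 l σ h * Y).trace - h ^ 2 * (F2 ℝ * X * F2 ℝ * Y).trace
      = h ^ 2 * (ε * (J2 ℝ * X * F2 ℝ * Y).trace + ε * (F2 ℝ * X * J2 ℝ * Y).trace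
        + ε ^ 2 * (J2 ℝ * X * J2 ℝ * Y).trace) := by
    rw [s51f_H0_eq]
    simp only [Matrix.smul_mul, Matrix.mul_smul, Matrix.add_mul, Matrix.mul_add, Matrix.trace_smul,
      Matrix.trace_add, smul_eq_mul]
    linear_combination (h ^ 2 * ((F2 ℝ * X * F2 ℝ * Y).trace + ε * (J2 ℝ * X * F2 ℝ * Y).trace
      + ε * (F2 ℝ * X * J2 ℝ * Y).trace + ε ^ 2 * (J2 ℝ * X * J2 ℝ * Y).trace)) * hσ
  rw [e]
  have t1 := s51f_tr (s51f_mul (s51f_mul (s51f_mul s51f_J hX) s51f_F) hY)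
  have t2 := s51f_tr (s51f_mul (s51f_mul (s51f_mul s51f_F hX) s51f_J) hY)
  have t3 := s51f_tr (s51f_mul (s51f_mul (s51f_mul s51f_J hX) s51f_J) hY)
  have hh2 : h ^ 2 ≤ 1 := pow_le_one₀ hh.le hh1
  have hh0 : 0 ≤ h ^ 2 := by positivity
  rw [abs_mul, abs_of_nonneg hh0]
  have s1 : |ε * (J2 ℝ * X * F2 ℝ * Y).trace| ≤ ε * (16 * (a * b)) := by
    rw [abs_mul, abs_of_pos e0]
    exact mul_le_mul_of_nonneg_left (by linarith) e0.le
  have s2 : |ε * (F2 ℝ * X * J2 ℝ * Y).trace| ≤ ε * (16 * (a * b)) := by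
    rw [abs_mul, abs_of_pos e0]
    exact mul_le_mul_of_nonneg_left (by linarith) e0.le
  have s3 : |ε ^ 2 * (J2 ℝ * X * J2 ℝ * Y).trace| ≤ ε * (8 * (a * b)) := by
    rw [abs_mul, abs_of_nonneg (by positivity)]
    calc ε ^ 2 * |(J2 ℝ * X * J2 ℝ * Y).trace| ≤ ε ^ 2 * (16 * (a * b)) :=
          mul_le_mul_of_nonneg_left (by linarith) (by positivity)
      _ = ε * (ε * (16 * (a * b))) := by ring
      _ ≤ ε * (1 / 2 * (16 * (a * b))) := by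
          apply mul_le_mul_of_nonneg_left _ e0.le
          exact mul_le_mul_of_nonneg_right e2 (by positivity)
      _ = ε * (8 * (a * b)) := by ring
  have s4 : |ε * (J2 ℝ * X * F2 ℝ * Y).trace + ε * (F2 ℝ * X * J2 ℝ * Y).trace
      + ε ^ 2 * (J2 ℝ * X * J2 ℝ * Y).trace| ≤ ε * (40 * (a * b)) := by
    refine ((abs_add_le _ _).trans (add_le_add (abs_add_le _ _) le_rfl)).trans ?_
    linarith
  calc h ^ 2 * _ ≤ 1 * (ε * (40 * (a * b))) := mul_le_mul hh2 s4 (abs_nonneg _) (by norm_num)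
    _ ≤ 2 / (l : ℝ) * (40 * (a * b)) := by
        rw [one_mul]
        exact mul_le_mul_of_nonneg_right e1 (by positivity)
    _ = 80 * a * b / (l : ℝ) := by ring

/-! ## pointwise bounds on valid pairs -/

theorem s51f_assoc4 (A D X : Matrix (Fin 2) (Fin 2) ℝ) : A * D * X * D = A * (D * X * D) := by
  simp only [Matrix.mul_assoc]

/-- (5.15): `|ΔL_1 - P_1| ≤ C (1 + κ) ‖D‖²`. -/
theorem s51_dL1_rem : ∃ C : ℝ, 0 < C ∧ ∀ (l : ℕ) (σ h : ℝ) (D K : Matrix (Fin 2) (Fin 2) ℝ) (κ : ℝ),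
    TBHyp l σ h D → s51Le K κ → |s51dL1 l σ h D K - s51P1 l σ h D K| ≤ C * (1 + κ) * s51n D := by
  refine ⟨4000, by norm_num, fun l σ h D K κ H hK => ?_⟩
  have hn := s51f_n_nonneg D
  have hκ := s51f_nonneg hK
  have hnκ := mul_nonneg hκ hn
  have hM := s51f_DXD H.sym (s51f_Hgen H)
  have h0 := s51f_H0' H
  rw [s51_dL1_sub H K, s51f_assoc4, s51f_assoc4]
  obtain ⟨l1, u1⟩ := abs_le.1 (s51f_tr (s51f_mul (s51f_mul (s51f_mul h0 hM) h0) (s51f_G0 H.hl)))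
  obtain ⟨l2, u2⟩ := abs_le.1 (s51f_tr (s51f_mul h0 hM))
  obtain ⟨l3, u3⟩ := abs_le.1 (s51f_tr (s51f_mul (s51f_B H.hl) hM))
  obtain ⟨l4, u4⟩ := abs_le.1 (s51f_tr (s51f_mul (s51f_mul (s51f_mul h0 hM) h0) hK))
  rw [abs_le]
  constructor <;> linarith

theorem s51_dL0_rem : ∃ C : ℝ, 0 < C ∧ ∀ (l : ℕ) (σ h : ℝ) (D Q : Matrix (Fin 2) (Fin 2) ℝ) (κ : ℝ),
    TBHyp l σ h D → s51Le Q κ → |s51dL0 l σ h D Q - s51P0 l σ h D Q| ≤ C * κ * s51n D := by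
  refine ⟨4000, by norm_num, fun l σ h D Q κ H hQ => ?_⟩
  have hn := s51f_n_nonneg D
  have hκ := s51f_nonneg hQ
  have hnκ := mul_nonneg hκ hn
  have hM := s51f_DXD H.sym (s51f_Hgen H)
  have h0 := s51f_H0' H
  rw [s51_dL0_sub H Q, s51f_assoc4, abs_neg]
  have t := s51f_tr (s51f_mul (s51f_mul (s51f_mul h0 hM) h0) hQ)
  linarith

/-- `Tr (H Y) = Tr (H_0 Y) - Tr (H_0 D H Y)` -/
theorem s51f_tr_first {l : ℕ} {σ h : ℝ} {D : Matrix (Fin 2) (Fin 2) ℝ} (H : TBHyp l σ h D)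
    (Y : Matrix (Fin 2) (Fin 2) ℝ) :
    (Hgen l σ h D * Y).trace = (H0 l σ h * Y).trace - (H0 l σ h * D * Hgen l σ h D * Y).trace := by
  conv_lhs => rw [s51f_first H]
  rw [Matrix.sub_mul, Matrix.trace_sub]

/-- `ΔL_1 = - Tr(H_0 K) + O((1 + κ) |D|)`. -/
theorem s51_dL1_first : ∃ C : ℝ, 0 < C ∧ ∀ (l : ℕ) (σ h : ℝ) (D K : Matrix (Fin 2) (Fin 2) ℝ) (κ : ℝ),
    TBHyp l σ h D → s51Le K κ → |s51dL1 l σ h D K + (H0 l σ h * K).trace| ≤ C * (1 + κ) * s51m D := by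
  refine ⟨4000, by norm_num, fun l σ h D K κ H hK => ?_⟩
  have hl : 2 < l := by have := H.hl; omega
  have hm := s51f_m_nonneg D
  have hκ := s51f_nonneg hK
  have hmκ := mul_nonneg hκ hm
  have h0 := s51f_H0' H
  have hH := s51f_Hgen H
  have hD := s51f_D H.sym
  have hD' : s51Le D (1 / 16) := H.small
  obtain ⟨g1, -, -⟩ := s5H0_G0 hl σ h H.hσ
  have a5 : (H0 l σ h * G0 ℝ l).trace = 0 := by
    rw [g1, Matrix.trace_smul, s51f_tr_F2, smul_zero]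
  have e : s51dL1 l σ h D K + (H0 l σ h * K).trace =
      -(B2 ℝ l * D).trace + (H0 l σ h * D * Hgen l σ h D * K).trace
        - (H0 l σ h * D * Hgen l σ h D * G0 ℝ l).trace + 2 * (Hgen l σ h D * D).trace
        + (B2 ℝ l * D * Hgen l σ h D * D).trace := by
    unfold s51dL1
    rw [s51f_tr_BGHG hl, s51f_tr_first H K, s51f_tr_first H (G0 ℝ l), a5]
    ring
  rw [e]
  obtain ⟨l1, u1⟩ := abs_le.1 (s51f_tr (s51f_mul (s51f_B H.hl) hD))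
  obtain ⟨l2, u2⟩ := abs_le.1 (s51f_tr (s51f_mul (s51f_mul (s51f_mul h0 hD) hH) hK))
  obtain ⟨l3, u3⟩ := abs_le.1 (s51f_tr (s51f_mul (s51f_mul (s51f_mul h0 hD) hH) (s51f_G0 H.hl)))
  obtain ⟨l4, u4⟩ := abs_le.1 (s51f_tr (s51f_mul hH hD))
  obtain ⟨l5, u5⟩ := abs_le.1 (s51f_tr (s51f_mul (s51f_mul (s51f_mul (s51f_B H.hl) hD) hH) hD'))
  rw [abs_le]
  constructor <;> linarith

theorem s51_dL0_first : ∃ C : ℝ, 0 < C ∧ ∀ (l : ℕ) (σ h : ℝ) (D Q : Matrix (Fin 2) (Fin 2) ℝ) (κ : ℝ),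
    TBHyp l σ h D → s51Le Q κ → |s51dL0 l σ h D Q + (H0 l σ h * Q).trace| ≤ C * κ * s51m D := by
  refine ⟨4000, by norm_num, fun l σ h D Q κ H hQ => ?_⟩
  have hm := s51f_m_nonneg D
  have hκ := s51f_nonneg hQ
  have hmκ := mul_nonneg hκ hm
  have e : s51dL0 l σ h D Q + (H0 l σ h * Q).trace = (H0 l σ h * D * Hgen l σ h D * Q).trace := by
    unfold s51dL0
    rw [s51f_tr_first H Q]
    ring
  rw [e]
  have t := s51f_tr (s51f_mul (s51f_mul (s51f_mul (s51f_H0' H) (s51f_D H.sym)) (s51f_Hgen H)) hQ)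
  linarith

/-- polynomial parts are bounded for EVERY pair (entries of `D` bounded by `a`, no smallness). -/
theorem s51_P_abs : ∃ C : ℝ, 0 < C ∧ ∀ (l : ℕ) (σ h : ℝ) (D K Q : Matrix (Fin 2) (Fin 2) ℝ) (a κ κQ : ℝ),
    4 ≤ l → σ ^ 2 = 1 → 0 < h → h ≤ 1 → s51Le D a → s51Le K κ → s51Le Q κQ →
    |s51P1 l σ h D K| ≤ C * (a + κ + a * κ) ∧ |s51P0 l σ h D Q| ≤ C * (1 + a) * κQ := by
  refine ⟨4000, by norm_num, fun l σ h D K Q a κ κQ hl hσ hh hh1 hD hK hQ => ?_⟩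
  have ha := s51f_nonneg hD
  have hκ := s51f_nonneg hK
  have hκQ := s51f_nonneg hQ
  have haκ := mul_nonneg ha hκ
  have haκQ := mul_nonneg ha hκQ
  have h0 := s51f_H0 hl hσ hh hh1
  have hh2 : h ^ 2 ≤ 1 := pow_le_one₀ hh.le hh1
  have hh0 : 0 ≤ h ^ 2 := by positivity
  constructor
  · unfold s51P1
    obtain ⟨l1, u1⟩ := abs_le.1 (s51f_tr (s51f_mul h0 hD))
    have t2 := s51f_tr (s51f_mul (s51f_B hl) hD)
    obtain ⟨l3, u3⟩ := abs_le.1 (s51f_tr (s51f_mul h0 hK))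
    obtain ⟨l4, u4⟩ := abs_le.1 (s51f_tr (s51f_mul (s51f_mul (s51f_mul h0 hD) h0) hK))
    have t2' : |(1 + h ^ 2) * (B2 ℝ l * D).trace| ≤ 2 * (2 * (2 * (2 * a))) := by
      rw [abs_mul, abs_of_nonneg (by linarith)]
      exact mul_le_mul (by linarith) t2 (abs_nonneg _) (by norm_num)
    obtain ⟨l2, u2⟩ := abs_le.1 t2'
    rw [abs_le]
    constructor <;> linarith
  · unfold s51P0
    obtain ⟨l1, u1⟩ := abs_le.1 (s51f_tr (s51f_mul h0 hQ))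
    obtain ⟨l2, u2⟩ := abs_le.1 (s51f_tr (s51f_mul (s51f_mul (s51f_mul h0 hD) h0) hQ))
    rw [abs_le]
    constructor <;> linarith

/-- `1 - G H = (1 - G_0 H_0) + (G_0 H_0 D H - D H)` -/
theorem s51f_A {l : ℕ} {σ h : ℝ} {D : Matrix (Fin 2) (Fin 2) ℝ} (H : TBHyp l σ h D) :
    1 - (G0 ℝ l + D) * Hgen l σ h D =
      (1 - G0 ℝ l * H0 l σ h) + (G0 ℝ l * (H0 l σ h * D * Hgen l σ h D) - D * Hgen l σ h D) := by
  have e : G0 ℝ l * Hgen l σ h D = G0 ℝ l * H0 l σ h - G0 ℝ l * (H0 l σ h * D * Hgen l σ h D) := by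
    conv_lhs => rw [s51f_first H]
    rw [Matrix.mul_sub]
  rw [Matrix.add_mul, e]
  abel

/-- `1 - H G = (1 - H_0 G_0) + (H D H_0 G_0 - H D)` -/
theorem s51f_A' {l : ℕ} {σ h : ℝ} {D : Matrix (Fin 2) (Fin 2) ℝ} (H : TBHyp l σ h D) :
    1 - Hgen l σ h D * (G0 ℝ l + D) =
      (1 - H0 l σ h * G0 ℝ l) + (Hgen l σ h D * D * H0 l σ h * G0 ℝ l - Hgen l σ h D * D) := by
  have e : Hgen l σ h D * G0 ℝ l = H0 l σ h * G0 ℝ l - Hgen l σ h D * D * H0 l σ h * G0 ℝ l := by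
    conv_lhs => rw [s51f_first' H]
    rw [Matrix.sub_mul]
  rw [Matrix.mul_add, e]
  abel

/-- telescoping of the outer term -/
theorem s51f_outer_tel (B A0 dA Q A0' dA' : Matrix (Fin 2) (Fin 2) ℝ) :
    (B * (A0 + dA) * Q * (A0' + dA')).trace - (B * A0 * Q * A0').trace =
      (B * dA * Q * (A0' + dA')).trace + (B * A0 * Q * dA').trace := by
  simp only [Matrix.mul_add, Matrix.add_mul, Matrix.trace_add]
  ring

/-- telescoping of the quadratic term -/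
theorem s51f_quad_tel (X X0 E Q K : Matrix (Fin 2) (Fin 2) ℝ) (hE : X = X0 - E) :
    (X * Q * X * K).trace - (X0 * Q * X0 * K).trace =
      -(E * Q * X * K).trace - (X0 * Q * E * K).trace := by
  obtain rfl : X0 = X + E := by rw [hE]; abel
  simp only [Matrix.mul_add, Matrix.add_mul, Matrix.trace_add]
  ring

/-- `Δ𝒯 - P_T`: the outer terms change by `O(δ (1 + κ) Tr Q)`, the `J` term by `O(κ_J ‖D‖²)`. -/
theorem s51_dT_rem : ∃ C : ℝ, 0 < C ∧ ∀ (l : ℕ) (σ h : ℝ) (D K Q J : Matrix (Fin 2) (Fin 2) ℝ) (κ κJ : ℝ),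
    TBHyp l σ h D → s51Le K κ → S51Psd Q → s51Le J κJ →
    |s51dT l σ h D K Q J - s51PT l σ h D K Q J| ≤
      C * (1 + κ) * s51m D * (Q 0 0 + Q 1 1) + C * κJ * s51n D := by
  refine ⟨1000000, by norm_num, fun l σ h D K Q J κ κJ H hK hQ hJ => ?_⟩
  have hl : 2 < l := by have := H.hl; omega
  have hm := s51f_m_nonneg D
  have hn := s51f_n_nonneg D
  have hκ := s51f_nonneg hK
  have hκJ := s51f_nonneg hJ
  have hq := s51f_Q hQ
  have hq0 := s51f_nonneg hq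
  set q := Q 0 0 + Q 1 1 with hqdef
  have hmq := mul_nonneg hm hq0
  have hκmq := mul_nonneg hκ hmq
  have hκJn := mul_nonneg hκJ hn
  have h0 := s51f_H0' H
  have hH := s51f_Hgen H
  have hD := s51f_D H.sym
  have hD' : s51Le D (1 / 16) := H.small
  have hB := s51f_B H.hl
  have hG := s51f_G0 H.hl
  have hM := s51f_DXD H.sym hH
  -- the pieces
  have hE : s51Le (H0 l σ h * D * Hgen l σ h D) _ := s51f_mul (s51f_mul h0 hD) hH
  have hdA : s51Le (G0 ℝ l * (H0 l σ h * D * Hgen l σ h D) - D * Hgen l σ h D) _ :=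
    s51f_sub (s51f_mul hG hE) (s51f_mul hD hH)
  have hdA' : s51Le (Hgen l σ h D * D * H0 l σ h * G0 ℝ l - Hgen l σ h D * D) _ :=
    s51f_sub (s51f_mul (s51f_mul (s51f_mul hH hD) h0) hG) (s51f_mul hH hD)
  have hdA'c : s51Le (Hgen l σ h D * D * H0 l σ h * G0 ℝ l - Hgen l σ h D * D) _ :=
    s51f_sub (s51f_mul (s51f_mul (s51f_mul hH hD') h0) hG) (s51f_mul hH hD')
  have hA0 : s51Le (1 - G0 ℝ l * H0 l σ h) _ := s51f_sub s51f_one (s51f_mul hG h0)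
  have hA0' : s51Le (1 - H0 l σ h * G0 ℝ l) _ := s51f_sub s51f_one (s51f_mul h0 hG)
  have E1 := s5_Hgen_second H
  have a1 : (Hgen l σ h D * J).trace = (H0 l σ h * J).trace
      - (H0 l σ h * D * H0 l σ h * J).trace
      + (H0 l σ h * (D * Hgen l σ h D * D) * H0 l σ h * J).trace := by
    conv_lhs => rw [E1]
    rw [Matrix.add_mul, Matrix.sub_mul, Matrix.trace_add, Matrix.trace_sub, s51f_assoc4]
  have tel1 := s51f_outer_tel (B2 ℝ l) (1 - G0 ℝ l * H0 l σ h)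
    (G0 ℝ l * (H0 l σ h * D * Hgen l σ h D) - D * Hgen l σ h D) Q (1 - H0 l σ h * G0 ℝ l)
    (Hgen l σ h D * D * H0 l σ h * G0 ℝ l - Hgen l σ h D * D)
  have tel2 := s51f_quad_tel (Hgen l σ h D) (H0 l σ h) (H0 l σ h * D * Hgen l σ h D) Q K
    (s51f_first H)
  have ideal := s51_outer_ideal hl σ h H.hσ Q
  obtain ⟨l1, u1⟩ := abs_le.1 (s51f_tr (s51f_mul (s51f_mul (s51f_mul hB hdA) hq)
    (s51f_add hA0' hdA'c)))
  obtain ⟨l2, u2⟩ := abs_le.1 (s51f_tr (s51f_mul (s51f_mul (s51f_mul hB hA0) hq) hdA'))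
  obtain ⟨l3, u3⟩ := abs_le.1 (s51f_tr (s51f_mul (s51f_mul (s51f_mul hE hq) hH) hK))
  obtain ⟨l4, u4⟩ := abs_le.1 (s51f_tr (s51f_mul (s51f_mul (s51f_mul h0 hq) hE) hK))
  obtain ⟨l5, u5⟩ := abs_le.1 (s51f_tr (s51f_mul (s51f_mul (s51f_mul h0 hM) h0) hJ))
  unfold s51dT s51PT
  rw [s51f_A H, s51f_A' H, a1]
  rw [abs_le]
  constructor <;> linarith

/-- the outer polynomial terms for EVERY pair. -/
theorem s51_PT_outer_abs : ∃ C : ℝ, 0 < C ∧ ∀ (l : ℕ) (σ h : ℝ) (K Q : Matrix (Fin 2) (Fin 2) ℝ) (κ : ℝ),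
    4 ≤ l → σ ^ 2 = 1 → 0 < h → h ≤ 1 → s51Le K κ → S51Psd Q →
    |-(1 + h ^ 2) * (B2 ℝ l * Q).trace + 2 * (H0 l σ h * Q).trace + (H0 l σ h * Q * H0 l σ h * K).trace| ≤
      C * (1 + κ) * (Q 0 0 + Q 1 1) := by
  refine ⟨4000, by norm_num, fun l σ h K Q κ hl hσ hh hh1 hK hQ => ?_⟩
  have hκ := s51f_nonneg hK
  have hq := s51f_Q hQ
  have hq0 := s51f_nonneg hq
  set q := Q 0 0 + Q 1 1 with hqdef
  have hκq := mul_nonneg hκ hq0
  have h0 := s51f_H0 hl hσ hh hh1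
  have hh2 : h ^ 2 ≤ 1 := pow_le_one₀ hh.le hh1
  have hh0 : 0 ≤ h ^ 2 := by positivity
  have t1 := s51f_tr (s51f_mul (s51f_B hl) hq)
  have t1' : |(1 + h ^ 2) * (B2 ℝ l * Q).trace| ≤ 2 * (2 * (2 * (2 * q))) := by
    rw [abs_mul, abs_of_nonneg (by linarith)]
    exact mul_le_mul (by linarith) t1 (abs_nonneg _) (by norm_num)
  obtain ⟨l1, u1⟩ := abs_le.1 t1'
  obtain ⟨l2, u2⟩ := abs_le.1 (s51f_tr (s51f_mul h0 hq))
  obtain ⟨l3, u3⟩ := abs_le.1 (s51f_tr (s51f_mul (s51f_mul (s51f_mul h0 hq) h0) hK))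
  rw [abs_le]
  constructor <;> linarith

/-- `Δ𝒯` pointwise, split for the second moment:
`|Δ𝒯| ≤ C (1 + κ)(Q_00 + Q_11) + C (|J_01| + |J_10|) + C (|D_11| + 1/l) |J_00| + C (|D_00| + 1/l) |J_11|`. -/
theorem s51_dT_abs : ∃ C : ℝ, 0 < C ∧ ∀ (l : ℕ) (σ h : ℝ) (D K Q J : Matrix (Fin 2) (Fin 2) ℝ) (κ : ℝ),
    TBHyp l σ h D → s51Le K κ → S51Psd Q →
    |s51dT l σ h D K Q J| ≤ C * (1 + κ) * (Q 0 0 + Q 1 1) + C * (|J 0 1| + |J 1 0|)
      + C * (|D 1 1| + 1 / (l : ℝ)) * |J 0 0| + C * (|D 0 0| + 1 / (l : ℝ)) * |J 1 1| := by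
  obtain ⟨C1, hC1, hfo⟩ := tb_first_order
  refine ⟨2 * C1 + 100000, by linarith, fun l σ h D K Q J κ H hK hQ => ?_⟩
  obtain ⟨f00, f11, -⟩ := hfo l σ h D _ _ _ H le_rfl le_rfl le_rfl
  have hκ := s51f_nonneg hK
  have hq := s51f_Q hQ
  have hq0 := s51f_nonneg hq
  set q := Q 0 0 + Q 1 1 with hqdef
  have hκq := mul_nonneg hκ hq0
  have hH := s51f_Hgen H
  have hD' : s51Le D (1 / 16) := H.small
  have hB := s51f_B H.hl
  have hG := s51f_G0 H.hl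
  have hA : s51Le (1 - (G0 ℝ l + D) * Hgen l σ h D) _ :=
    s51f_sub s51f_one (s51f_mul (s51f_add hG hD') hH)
  have hA' : s51Le (1 - Hgen l σ h D * (G0 ℝ l + D)) _ :=
    s51f_sub s51f_one (s51f_mul hH (s51f_add hG hD'))
  obtain ⟨l1, u1⟩ := abs_le.1 (s51f_tr (s51f_mul (s51f_mul (s51f_mul hB hA) hq) hA'))
  obtain ⟨l2, u2⟩ := abs_le.1 (s51f_tr (s51f_mul (s51f_mul (s51f_mul hH hq) hH) hK))
  have hinv := H.inv_l.1
  set e := 1 / (l : ℝ) with he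
  have eJ : (Hgen l σ h D * J).trace = Hgen l σ h D 0 0 * J 0 0 + Hgen l σ h D 0 1 * J 1 0
      + (Hgen l σ h D 1 0 * J 0 1 + Hgen l σ h D 1 1 * J 1 1) := by
    simp only [Matrix.trace, Matrix.diag, Matrix.mul_apply, Fin.sum_univ_two]
  have j00 := abs_nonneg (J 0 0)
  have j01 := abs_nonneg (J 0 1)
  have j10 := abs_nonneg (J 1 0)
  have j11 := abs_nonneg (J 1 1)
  have d00 := abs_nonneg (D 0 0)
  have d11 := abs_nonneg (D 1 1)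
  have b1 : |Hgen l σ h D 0 0 * J 0 0| ≤ C1 * (|D 1 1| + e) * |J 0 0| := by
    rw [abs_mul]; exact mul_le_mul_of_nonneg_right f00 j00
  have b2 : |Hgen l σ h D 0 1 * J 1 0| ≤ 4 * |J 1 0| := by
    rw [abs_mul]; exact mul_le_mul_of_nonneg_right (hH 0 1) j10
  have b3 : |Hgen l σ h D 1 0 * J 0 1| ≤ 4 * |J 0 1| := by
    rw [abs_mul]; exact mul_le_mul_of_nonneg_right (hH 1 0) j01
  have b4 : |Hgen l σ h D 1 1 * J 1 1| ≤ C1 * (|D 0 0| + e) * |J 1 1| := by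
    rw [abs_mul]; exact mul_le_mul_of_nonneg_right f11 j11
  obtain ⟨p1, q1⟩ := abs_le.1 b1
  obtain ⟨p2, q2⟩ := abs_le.1 b2
  obtain ⟨p3, q3⟩ := abs_le.1 b3
  obtain ⟨p4, q4⟩ := abs_le.1 b4
  have z1 : 0 ≤ (|D 1 1| + e) * |J 0 0| := by positivity
  have z2 : 0 ≤ (|D 0 0| + e) * |J 1 1| := by positivity
  have z3 : 0 ≤ C1 * ((1 + κ) * q) := by positivity
  have z4 : 0 ≤ C1 * (|J 0 1| + |J 1 0|) := by positivity
  unfold s51dT
  rw [eJ, abs_le]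
  constructor <;> nlinarith

end Claimed.Agent.R275
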