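/-
Row 275, Sec 5.1, package S51-STEP-N (helper269): the one-step cost `s51rho`, the error functions of Lemma 5.3 and the
ARITHMETIC OF EXPONENTS (Part 2 of the blueprint `S51Step.lean` of helper194; statements verbatim).  No pairing here.
Method: logarithmic coordinates (`S51Crd`) + the monomial tool `ExpMon.lean`.
-/
import Claimed.Agent.R275.S5Phase
import Claimed.Agent.R275.ExpMon

set_option autoImplicit false

namespace Claimed.Agent.R275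

open Filter

/-- the one-step cost of the trace accounts -/
noncomputable def s51rho (c0 : ℝ) (d n l : ℕ) : ℝ :=
  (n : ℝ) ^ (-c0) / (l : ℝ) + (n : ℝ) ^ ((4 / 10 : ℝ) * (aa : ℝ)) / (alphaS d n ^ 2 * (l : ℝ) ^ 2)

theorem s51rho_nonneg (c0 : ℝ) (d n l : ℕ) : 0 ≤ s51rho c0 d n l := by
  unfold s51rho
  positivity

theorem s51rho_mono {c0 c1 : ℝ} (h : c0 ≤ c1) (d n l : ℕ) (hn : 1 ≤ n) : s51rho c1 d n l ≤ s51rho c0 d n l := by
  unfold s51rho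
  have hn1 : (1 : ℝ) ≤ (n : ℝ) := by exact_mod_cast hn
  have h1 : (n : ℝ) ^ (-c1) ≤ (n : ℝ) ^ (-c0) := Real.rpow_le_rpow_of_exponent_le hn1 (by linarith)
  gcongr

/-- mean error of `ΔL_1` -/
noncomputable def s51er1 (η' : ℝ) (n l : ℕ) (α : ℝ) : ℝ :=
  ((n : ℝ) ^ η' + (n : ℝ) ^ ((1 / 100 : ℝ) * (aa : ℝ)) + 1) / (l : ℝ)
    + ((n : ℝ) ^ ((3 / 100 : ℝ) * (aa : ℝ)) * (l : ℝ) / α + (n : ℝ) ^ ((375 / 1000 : ℝ) * (aa : ℝ)) / α ^ 3 + (l : ℝ))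
        / (l : ℝ) ^ 2

/-- second moment of `ΔL_1` -/
noncomputable def s51V1 (η' : ℝ) (n l : ℕ) (α : ℝ) : ℝ :=
  ((n : ℝ) ^ ((6 / 100 : ℝ) * (aa : ℝ)) * (l : ℝ) / α ^ 2 + (n : ℝ) ^ ((5 / 10 : ℝ) * (aa : ℝ)) / α ^ 4) / (l : ℝ) ^ 2
    + ((n : ℝ) ^ η' + 1) / (l : ℝ)

/-- mean error of `ΔL_0` -/
noncomputable def s51er0 (η' : ℝ) (d n l : ℕ) (α : ℝ) : ℝ :=
  ((n : ℝ) ^ η' + (n : ℝ) ^ ((1 / 100 : ℝ) * (aa : ℝ)) + 1) / (α * (l : ℝ))
    + ((n : ℝ) ^ ((9 / 100 : ℝ) * (aa : ℝ)) / alphaS d n * ((l : ℝ) / α)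
        + (n : ℝ) ^ ((3 / 100 : ℝ) * (aa : ℝ)) * (l : ℝ) / α ^ 2 + (n : ℝ) ^ ((375 / 1000 : ℝ) * (aa : ℝ)) / α ^ 4
        + (l : ℝ) / α) / (l : ℝ) ^ 2

/-- second moment of `ΔL_0` -/
noncomputable def s51V0 (η' : ℝ) (n l : ℕ) (α : ℝ) : ℝ :=
  ((n : ℝ) ^ ((6 / 100 : ℝ) * (aa : ℝ)) * (l : ℝ) / α ^ 4 + (n : ℝ) ^ ((5 / 10 : ℝ) * (aa : ℝ)) / α ^ 6) / (l : ℝ) ^ 2
    + ((n : ℝ) ^ η' + 1) / (α ^ 2 * (l : ℝ))

/-- `Z_G`, `Z_Q`, `κ_J` -/
noncomputable def s51ZG (n : ℕ) (α : ℝ) : ℝ := (n : ℝ) ^ ((125 / 1000 : ℝ) * (aa : ℝ)) / α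
noncomputable def s51ZQ (n : ℕ) (α : ℝ) : ℝ := (n : ℝ) ^ ((250 / 1000 : ℝ) * (aa : ℝ)) / α ^ 3
noncomputable def s51kJ (n : ℕ) (α : ℝ) : ℝ := (n : ℝ) ^ ((125 / 1000 : ℝ) * (aa : ℝ)) / α ^ 2

/-- relative drift error of `𝒯` (without the coefficient `a'`) -/
noncomputable def s51uT (η' : ℝ) (d n l : ℕ) (α T : ℝ) : ℝ :=
  ((n : ℝ) ^ (-((aa : ℝ) / 1100)) + ((n : ℝ) ^ ((1 / 100 : ℝ) * (aa : ℝ)) + 1) / (l : ℝ)) / (l : ℝ)
    + (((n : ℝ) ^ ((1 / 100 : ℝ) * (aa : ℝ)) + 1) * Real.sqrt ((l : ℝ) * s51ZQ n α / T)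
        + (n : ℝ) ^ ((9 / 100 : ℝ) * (aa : ℝ)) / alphaS d n * s51ZG n α + s51ZG n α ^ 2 + s51ZG n α
        + Real.sqrt ((n : ℝ) ^ η' * s51ZQ n α / T)) / (l : ℝ) ^ 2
    + s51kJ n α * ((n : ℝ) ^ η' + 1) / ((l : ℝ) * T)

/-- relative second moment of `Δ𝒯` -/
noncomputable def s51wT (η' : ℝ) (n l : ℕ) (α T : ℝ) : ℝ :=
  1 / (α * (l : ℝ) * T) + s51ZG n α ^ 2 * s51ZQ n α / ((l : ℝ) ^ 2 * T)
    + ((n : ℝ) ^ η' + 1) * s51ZQ n α / ((l : ℝ) ^ 2 * T)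

/-! ## Part 2: arithmetic of exponents -/

theorem s51n_scQ_ge (x : ℚ) (hx : 0 ≤ x) (hx1 : x ≤ 1) (n : ℕ) (hn : 1 ≤ n) :
    (n : ℝ) ^ (x : ℝ) / 4 ≤ ((scQ x n : ℚ) : ℝ) := by
  refine le_trans ?_ (le_scQ_of_nonneg x hx n hn)
  have hx1' : (x : ℝ) ≤ 1 := by exact_mod_cast hx1
  have h2 : (2 : ℝ) ^ ((x : ℝ) + 1) ≤ 4 := by
    have h := Real.rpow_le_rpow_of_exponent_le (x := (2 : ℝ)) (by norm_num) (show (x : ℝ) + 1 ≤ (2 : ℕ) by push_cast; linarith)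
    rw [Real.rpow_natCast] at h
    linarith
  have h3 : (0 : ℝ) < (2 : ℝ) ^ ((x : ℝ) + 1) := by positivity
  exact div_le_div_of_nonneg_left (by positivity) h3 h2

/-- basic facts on the scales. -/
theorem s51n_scales (d : ℕ) (hd : 3 ≤ d) : ∀ᶠ n : ℕ in atTop,
    0 < alphaS d n ∧ alphaS d n ≤ 1 ∧
    (n : ℝ) ^ ((2 / 3 : ℝ) + (15 / 100 : ℝ) * (aa : ℝ)) / 2 ≤ (l0 n : ℝ) ∧
    (n : ℝ) ^ ((115 / 100 : ℝ) * (aa : ℝ)) / (512 * ((d : ℝ) - 1) ^ 2) ≤ alphaS d n ^ 2 * (l0 n : ℝ) ∧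
    (n : ℝ) ^ ((65 / 1000 : ℝ) * (aa : ℝ)) / (4 * alphaS d n) ≤ ((s5S1 d n : ℚ) : ℝ) ∧
    ((s5S1 d n : ℚ) : ℝ) ≤ (n : ℝ) ^ ((65 / 1000 : ℝ) * (aa : ℝ)) / alphaS d n ∧
    (n : ℝ) ^ ((95 / 1000 : ℝ) * (aa : ℝ)) / (4 * alphaS d n ^ 2) ≤ ((s5S0 d n : ℚ) : ℝ) ∧
    ((s5S0 d n : ℚ) : ℝ) ≤ (n : ℝ) ^ ((95 / 1000 : ℝ) * (aa : ℝ)) / alphaS d n ^ 2 := by
  filter_upwards [prim_zero_facts d hd, eventually_ge_atTop 1] with n hp hn
  obtain ⟨-, -, hA1, hA2⟩ := hp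
  have hn0 : (0 : ℝ) < (n : ℝ) := by exact_mod_cast hn
  have hn1 : (1 : ℝ) ≤ (n : ℝ) := by exact_mod_cast hn
  have hd' : (3 : ℝ) ≤ (d : ℝ) := by exact_mod_cast hd
  have hd1 : (0 : ℝ) < (d : ℝ) - 1 := by linarith
  have ha : (aa : ℝ) = 1 / 10000 := parF_aa
  have haq : aa = 1 / 10000 := rfl
  have hA0 : 0 < alphaS d n := lt_of_lt_of_le (by positivity) hA1
  have hA1' : alphaS d n ≤ 1 :=
    hA2.trans (Real.rpow_le_one_of_one_le_of_nonpos hn1 (by rw [ha]; norm_num))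
  have hl0 : (n : ℝ) ^ ((2 / 3 : ℝ) + (15 / 100 : ℝ) * (aa : ℝ)) / 2 ≤ (l0 n : ℝ) := by
    have h := s51n_scQ_ge (2 / 3 + 15 / 100 * aa) (by rw [haq]; norm_num) (by rw [haq]; norm_num) n hn
    have hc : ((l0 n : ℕ) : ℝ) = 2 * ((scQ (2 / 3 + 15 / 100 * aa) n : ℚ) : ℝ) := by
      rw [← scN_cast _ (by rw [haq]; norm_num) n]
      unfold l0
      push_cast
      ring
    have hx : (((2 / 3 + 15 / 100 * aa : ℚ) : ℚ) : ℝ) = (2 / 3 : ℝ) + (15 / 100 : ℝ) * (aa : ℝ) := by push_cast; ring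
    rw [hx] at h
    rw [hc]
    linarith
  have hS1 : ((s5S1 d n : ℚ) : ℝ) = ((scQ (65 / 1000 * aa) n : ℚ) : ℝ) / alphaS d n := by
    unfold s5S1 alphaS
    push_cast
    ring
  have hS0 : ((s5S0 d n : ℚ) : ℝ) = ((scQ (95 / 1000 * aa) n : ℚ) : ℝ) / alphaS d n ^ 2 := by
    unfold s5S0 alphaS
    push_cast
    ring
  have hx1 : (((65 / 1000 * aa : ℚ) : ℚ) : ℝ) = (65 / 1000 : ℝ) * (aa : ℝ) := by push_cast; ring
  have hx0 : (((95 / 1000 * aa : ℚ) : ℚ) : ℝ) = (95 / 1000 : ℝ) * (aa : ℝ) := by push_cast; ring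
  refine ⟨hA0, hA1', hl0, ?_, ?_, ?_, ?_, ?_⟩
  · have h1 : ((n : ℝ) ^ (-(1 / 3 : ℝ) + (aa : ℝ) / 2) / (16 * ((d : ℝ) - 1))) ^ 2 ≤ alphaS d n ^ 2 :=
      pow_le_pow_left₀ (by positivity) hA1 2
    have h2 : ((n : ℝ) ^ (-(1 / 3 : ℝ) + (aa : ℝ) / 2)) ^ 2 * (n : ℝ) ^ ((2 / 3 : ℝ) + (15 / 100 : ℝ) * (aa : ℝ))
        = (n : ℝ) ^ ((115 / 100 : ℝ) * (aa : ℝ)) := by
      rw [← Real.rpow_natCast, ← Real.rpow_mul hn0.le, ← Real.rpow_add hn0]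
      congr 1
      push_cast
      ring
    calc (n : ℝ) ^ ((115 / 100 : ℝ) * (aa : ℝ)) / (512 * ((d : ℝ) - 1) ^ 2)
        = ((n : ℝ) ^ (-(1 / 3 : ℝ) + (aa : ℝ) / 2) / (16 * ((d : ℝ) - 1))) ^ 2
            * ((n : ℝ) ^ ((2 / 3 : ℝ) + (15 / 100 : ℝ) * (aa : ℝ)) / 2) := by
          rw [← h2]; field_simp; ring
      _ ≤ alphaS d n ^ 2 * (l0 n : ℝ) := by gcongr
  · have h := s51n_scQ_ge (65 / 1000 * aa) (by rw [haq]; norm_num) (by rw [haq]; norm_num) n hn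
    rw [hx1] at h
    rw [hS1, ← div_div]
    exact div_le_div_of_nonneg_right h hA0.le
  · have h := scQ_le_of_nonneg (65 / 1000 * aa) (by rw [haq]; norm_num) n hn
    rw [hx1] at h
    rw [hS1]
    exact div_le_div_of_nonneg_right h hA0.le
  · have h := s51n_scQ_ge (95 / 1000 * aa) (by rw [haq]; norm_num) (by rw [haq]; norm_num) n hn
    rw [hx0] at h
    rw [hS0, ← div_div]
    exact div_le_div_of_nonneg_right h (by positivity)
  · have h := scQ_le_of_nonneg (95 / 1000 * aa) (by rw [haq]; norm_num) n hn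
    rw [hx0] at h
    rw [hS0]
    exact div_le_div_of_nonneg_right h (by positivity)

/-- logarithmic coordinates of the scales: `n = exp t`, `α_* = exp q`, `S_1 = exp s1`, `S_0 = exp s0`, `d = exp dd`;
all fixed constants are `≤ ε t`. -/
structure S51Crd (d n : ℕ) (ε t q s1 s0 dd : ℝ) : Prop where
  hN : ∀ x : ℝ, (n : ℝ) ^ x = Real.exp (t * x)
  hNc : (n : ℝ) = Real.exp t
  hA : alphaS d n = Real.exp q
  hS1 : ((s5S1 d n : ℚ) : ℝ) = Real.exp s1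
  hS0 : ((s5S0 d n : ℚ) : ℝ) = Real.exp s0
  hd : (d : ℝ) = Real.exp dd
  t0 : 0 ≤ t
  q_le : q ≤ t * (-(1 / 3) + 1 / 20000)
  le_q : t * (-(1 / 3) + 1 / 20000) - ε * t ≤ q
  le_s1 : t * (65 / 10000000) - q - ε * t ≤ s1
  le_s0 : t * (95 / 10000000) - 2 * q - ε * t ≤ s0
  dd0 : 0 ≤ dd
  dd_le : dd ≤ ε * t
  hl : ∀ l : ℕ, l0 n ≤ l → ∃ m : ℝ, (l : ℝ) = Real.exp m ∧ t * (2 / 3 + 15 / 1000000) - ε * t ≤ m

theorem s51n_crd (d : ℕ) (hd : 3 ≤ d) (ε K : ℝ) (hε : 0 < ε) : ∀ᶠ n : ℕ in atTop,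
    ∃ t q s1 s0 dd : ℝ, S51Crd d n ε t q s1 s0 dd ∧ K ≤ ε * t := by
  have hd' : (3 : ℝ) ≤ (d : ℝ) := by exact_mod_cast hd
  have hlog : ∀ᶠ n : ℕ in atTop,
      (max K (max (Real.log (16 * ((d : ℝ) - 1))) (max (Real.log 4) (Real.log d)))) / ε ≤ Real.log (n : ℝ) :=
    (Real.tendsto_log_atTop.comp tendsto_natCast_atTop_atTop).eventually_ge_atTop _
  filter_upwards [s51n_scales d hd, prim_zero_facts d hd, eventually_ge_atTop 1, hlog] with n hs hp hn hlg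
  obtain ⟨hA0, -, hl0, -, hS1, -, hS0, -⟩ := hs
  obtain ⟨-, -, hA1, hA2⟩ := hp
  have hn0 : (0 : ℝ) < (n : ℝ) := by exact_mod_cast hn
  have hn1 : (1 : ℝ) ≤ (n : ℝ) := by exact_mod_cast hn
  have hd1 : (0 : ℝ) < (d : ℝ) - 1 := by linarith
  have hd0 : (0 : ℝ) < (d : ℝ) := by linarith
  have ha : (aa : ℝ) = 1 / 10000 := parF_aa
  rw [div_le_iff₀ hε] at hlg
  have hK : K ≤ ε * Real.log n := by
    have := le_max_left K (max (Real.log (16 * ((d : ℝ) - 1))) (max (Real.log 4) (Real.log d)))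
    linarith
  have hk1 : Real.log (16 * ((d : ℝ) - 1)) ≤ ε * Real.log n := by
    have h1 := le_max_right K (max (Real.log (16 * ((d : ℝ) - 1))) (max (Real.log 4) (Real.log d)))
    have h2 := le_max_left (Real.log (16 * ((d : ℝ) - 1))) (max (Real.log 4) (Real.log d))
    linarith
  have hk2 : Real.log 4 ≤ ε * Real.log n := by
    have h1 := le_max_right K (max (Real.log (16 * ((d : ℝ) - 1))) (max (Real.log 4) (Real.log d)))
    have h2 := le_max_right (Real.log (16 * ((d : ℝ) - 1))) (max (Real.log 4) (Real.log d))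
    have h3 := le_max_left (Real.log 4) (Real.log d)
    linarith
  have hk3 : Real.log d ≤ ε * Real.log n := by
    have h1 := le_max_right K (max (Real.log (16 * ((d : ℝ) - 1))) (max (Real.log 4) (Real.log d)))
    have h2 := le_max_right (Real.log (16 * ((d : ℝ) - 1))) (max (Real.log 4) (Real.log d))
    have h3 := le_max_right (Real.log 4) (Real.log d)
    linarith
  have hk4 : Real.log 2 ≤ ε * Real.log n :=
    (Real.log_le_log (by norm_num) (by norm_num)).trans hk2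
  have hS1p : 0 < ((s5S1 d n : ℚ) : ℝ) := lt_of_lt_of_le (by positivity) hS1
  have hS0p : 0 < ((s5S0 d n : ℚ) : ℝ) := lt_of_lt_of_le (by positivity) hS0
  refine ⟨Real.log n, Real.log (alphaS d n), Real.log ((s5S1 d n : ℚ) : ℝ), Real.log ((s5S0 d n : ℚ) : ℝ),
    Real.log d, ⟨fun x => Real.rpow_def_of_pos hn0 x, (Real.exp_log hn0).symm, (Real.exp_log hA0).symm,
      (Real.exp_log hS1p).symm, (Real.exp_log hS0p).symm, (Real.exp_log hd0).symm, Real.log_nonneg hn1,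
      ?_, ?_, ?_, ?_, Real.log_nonneg (by linarith), hk3, ?_⟩, hK⟩
  · have h := Real.log_le_log hA0 hA2
    rw [Real.log_rpow hn0, ha] at h
    linarith
  · have h := Real.log_le_log (by positivity) hA1
    rw [Real.log_div (by positivity) (by positivity), Real.log_rpow hn0, ha] at h
    linarith
  · have h := Real.log_le_log (by positivity) hS1
    rw [Real.log_div (by positivity) (by positivity), Real.log_rpow hn0, Real.log_mul (by norm_num) hA0.ne', ha] at h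
    linarith
  · have h := Real.log_le_log (by positivity) hS0
    rw [Real.log_div (by positivity) (by positivity), Real.log_rpow hn0, Real.log_mul (by norm_num) (by positivity),
      Real.log_pow, ha] at h
    push_cast at h
    linarith
  · intro l hl
    have hl' : ((l0 n : ℕ) : ℝ) ≤ (l : ℝ) := by exact_mod_cast hl
    have hl1 := hl0.trans hl'
    have hlp : (0 : ℝ) < (l : ℝ) := lt_of_lt_of_le (by positivity) hl1
    refine ⟨Real.log l, (Real.exp_log hlp).symm, ?_⟩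
    have h := Real.log_le_log (by positivity) hl1
    rw [Real.log_div (by positivity) (by norm_num), Real.log_rpow hn0, ha] at h
    linarith

theorem S51Crd.rho {d n : ℕ} {ε t q s1 s0 dd : ℝ} (X : S51Crd d n ε t q s1 s0 dd) {l : ℕ} {m : ℝ}
    (hm : (l : ℝ) = Real.exp m) (c0 : ℝ) :
    s51rho c0 d n l = Real.exp (t * (-c0) - m) + Real.exp (t * (4 / 100000) - 2 * q - 2 * m) := by
  unfold s51rho
  rw [X.hN, X.hN, X.hA, hm, parF_aa, Real.exp_sub, Real.exp_sub, Real.exp_sub, ← Real.exp_nat_mul, ← Real.exp_nat_mul,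
    div_div]
  congr 3
  norm_num

theorem s51n_L1 (d : ℕ) (hd : 3 ≤ d) (C η' : ℝ) (hη' : η' ≤ (aa : ℝ) / 20) :
    ∀ᶠ n : ℕ in atTop, ∀ l : ℕ, l0 n ≤ l → ∀ α : ℝ, alphaS d n ≤ α → α ≤ 1 →
      2 * (4 / (l : ℝ) * ((n : ℝ) ^ (-((aa : ℝ) / 2000)) + 2 * (d : ℝ) / (l : ℝ)))
        + C * s51er1 η' n l α / ((s5S1 d n : ℚ) : ℝ) + C * s51V1 η' n l α / ((s5S1 d n : ℚ) : ℝ) ^ 2 ≤
      s51rho ((aa : ℝ) / 3000) d n l := by
  obtain ⟨c, hc0, hc⟩ : ∃ c : ℝ, 0 ≤ c ∧ C ≤ Real.exp c :=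
    ⟨|C|, abs_nonneg C, (le_abs_self C).trans (by linarith [Real.add_one_le_exp |C|])⟩
  filter_upwards [s51n_crd d hd (1 / 10 ^ 10) (max c 1000) (by norm_num)] with n hX l hl α hα1 hα2
  obtain ⟨t, q, s1, s0, dd, X, hK⟩ := hX
  obtain ⟨m, hm, hm1⟩ := X.hl l hl
  have hα0 : 0 < α := by rw [X.hA] at hα1; exact lt_of_lt_of_le (Real.exp_pos q) hα1
  obtain ⟨p, rfl⟩ : ∃ p, α = Real.exp p := ⟨Real.log α, (Real.exp_log hα0).symm⟩
  have hqp : q ≤ p := by rw [X.hA] at hα1; exact Real.exp_le_exp.1 hα1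
  have hp0 : p ≤ 0 := by rw [← Real.exp_zero] at hα2; exact Real.exp_le_exp.1 hα2
  have hcε : c ≤ 1 / 10 ^ 10 * t := (le_max_left _ _).trans hK
  have hbig : (1000 : ℝ) ≤ Real.exp (1 / 10 ^ 10 * t) := by
    have h1 := (le_max_right c 1000).trans hK
    have h2 := Real.add_one_le_exp (1 / 10 ^ 10 * t)
    linarith
  have hη : t * η' ≤ t * (1 / 200000) :=
    mul_le_mul_of_nonneg_left (by rw [parF_aa] at hη'; linarith) X.t0
  have e1 : 0 ≤ s51er1 η' n l (Real.exp p) := by unfold s51er1; positivity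
  have e2 : 0 ≤ s51V1 η' n l (Real.exp p) := by unfold s51V1; positivity
  have hS : 0 < ((s5S1 d n : ℚ) : ℝ) := by rw [X.hS1]; exact Real.exp_pos _
  refine le_trans (add_le_add (add_le_add le_rfl
    (div_le_div_of_nonneg_right (mul_le_mul_of_nonneg_right hc e1) hS.le))
    (div_le_div_of_nonneg_right (mul_le_mul_of_nonneg_right hc e2) (by positivity))) ?_
  rw [X.rho hm]
  unfold s51er1 s51V1
  simp only [X.hN, X.hS1, X.hd, hm, parF_aa]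
  have ht0 := X.t0
  have h1 := X.q_le
  have h2 := X.le_q
  have h3 := X.le_s1
  have h4 := X.dd_le
  refine xsum_le 40 (by norm_num) (by positivity) ?_ ?_
  · simp only [xscale, xmulL, List.cons_append, List.nil_append, List.length_cons, List.length_nil]
    norm_num
  · simp only [xall, xscale, xmulL, List.cons_append, List.nil_append, Nat.cast_ofNat, and_true]
    repeat' apply And.intro
    all_goals
      exact xleaf_l (w := 1 / 10 ^ 10 * t) (by norm_num) (le_trans (by norm_num) hbig) (by linarith)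

theorem s51n_L0 (d : ℕ) (hd : 3 ≤ d) (C η' : ℝ) (hη' : η' ≤ (aa : ℝ) / 20) :
    ∀ᶠ n : ℕ in atTop, ∀ l : ℕ, l0 n ≤ l → ∀ α : ℝ, alphaS d n ≤ α → α ≤ 1 →
      C * s51er0 η' d n l α / ((s5S0 d n : ℚ) : ℝ) + C * s51V0 η' n l α / ((s5S0 d n : ℚ) : ℝ) ^ 2 ≤
      s51rho ((aa : ℝ) / 3000) d n l := by
  obtain ⟨c, hc0, hc⟩ : ∃ c : ℝ, 0 ≤ c ∧ C ≤ Real.exp c :=
    ⟨|C|, abs_nonneg C, (le_abs_self C).trans (by linarith [Real.add_one_le_exp |C|])⟩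
  filter_upwards [s51n_crd d hd (1 / 10 ^ 10) (max c 1000) (by norm_num)] with n hX l hl α hα1 hα2
  obtain ⟨t, q, s1, s0, dd, X, hK⟩ := hX
  obtain ⟨m, hm, hm1⟩ := X.hl l hl
  have hα0 : 0 < α := by rw [X.hA] at hα1; exact lt_of_lt_of_le (Real.exp_pos q) hα1
  obtain ⟨p, rfl⟩ : ∃ p, α = Real.exp p := ⟨Real.log α, (Real.exp_log hα0).symm⟩
  have hqp : q ≤ p := by rw [X.hA] at hα1; exact Real.exp_le_exp.1 hα1
  have hp0 : p ≤ 0 := by rw [← Real.exp_zero] at hα2; exact Real.exp_le_exp.1 hα2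
  have hcε : c ≤ 1 / 10 ^ 10 * t := (le_max_left _ _).trans hK
  have hbig : (1000 : ℝ) ≤ Real.exp (1 / 10 ^ 10 * t) := by
    have h1 := (le_max_right c 1000).trans hK
    have h2 := Real.add_one_le_exp (1 / 10 ^ 10 * t)
    linarith
  have hη : t * η' ≤ t * (1 / 200000) :=
    mul_le_mul_of_nonneg_left (by rw [parF_aa] at hη'; linarith) X.t0
  have e1 : 0 ≤ s51er0 η' d n l (Real.exp p) := by unfold s51er0; rw [X.hA]; positivity
  have e2 : 0 ≤ s51V0 η' n l (Real.exp p) := by unfold s51V0; positivity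
  have hS : 0 < ((s5S0 d n : ℚ) : ℝ) := by rw [X.hS0]; exact Real.exp_pos _
  refine le_trans (add_le_add
    (div_le_div_of_nonneg_right (mul_le_mul_of_nonneg_right hc e1) hS.le)
    (div_le_div_of_nonneg_right (mul_le_mul_of_nonneg_right hc e2) (by positivity))) ?_
  rw [X.rho hm]
  unfold s51er0 s51V0
  simp only [X.hN, X.hS0, X.hA, hm, parF_aa]
  have ht0 := X.t0
  have h1 := X.q_le
  have h2 := X.le_q
  have h3 := X.le_s0
  refine xsum_le 40 (by norm_num) (by positivity) ?_ ?_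
  · simp only [xscale, xmulL, List.cons_append, List.nil_append, List.length_cons, List.length_nil]
    norm_num
  · simp only [xall, xscale, xmulL, List.cons_append, List.nil_append, Nat.cast_ofNat, and_true]
    repeat' apply And.intro
    all_goals
      exact xleaf_l (w := 1 / 10 ^ 10 * t) (by norm_num) (le_trans (by norm_num) hbig) (by linarith)

theorem s51n_T_low {ct x t p m τ μ : ℝ} (hμ1 : μ ≤ t) (hμ2 : μ ≤ m - p)
    (h : Real.exp ct * Real.exp x * ((Real.exp t)⁻¹ + Real.exp p / Real.exp m)⁻¹ ≤ Real.exp τ) :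
    ct + x + μ - Real.log 2 ≤ τ := by
  have h1 : (Real.exp t)⁻¹ ≤ Real.exp (-μ) := by
    rw [← Real.exp_neg]; exact Real.exp_le_exp.2 (by linarith)
  have h2 : Real.exp p / Real.exp m ≤ Real.exp (-μ) := by
    rw [← Real.exp_sub]; exact Real.exp_le_exp.2 (by linarith)
  have h3 : (Real.exp t)⁻¹ + Real.exp p / Real.exp m ≤ Real.exp (Real.log 2 - μ) := by
    rw [sub_eq_add_neg, Real.exp_add, Real.exp_log (by norm_num)]
    linarith
  have h4 : Real.exp (μ - Real.log 2) ≤ ((Real.exp t)⁻¹ + Real.exp p / Real.exp m)⁻¹ := by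
    have h5 := inv_anti₀ (by positivity) h3
    rw [← Real.exp_neg] at h5
    have h6 : -(Real.log 2 - μ) = μ - Real.log 2 := by ring
    rw [h6] at h5
    exact h5
  have h7 : Real.exp ct * Real.exp x * Real.exp (μ - Real.log 2) ≤ Real.exp τ :=
    (mul_le_mul_of_nonneg_left h4 (by positivity)).trans h
  rw [← Real.exp_add, ← Real.exp_add] at h7
  have h8 := Real.exp_le_exp.1 h7
  linarith

theorem s51n_T (d : ℕ) (hd : 3 ≤ d) (C cT η' θ' : ℝ) (hcT : 0 < cT) (hη' : η' ≤ (aa : ℝ) / 20)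
    (hθ' : θ' ≤ (aa : ℝ) / 10) :
    ∀ᶠ n : ℕ in atTop, ∀ l : ℕ, l0 n ≤ l → ∀ α : ℝ, alphaS d n ≤ α → α ≤ 1 → ∀ T : ℝ,
      cT * (n : ℝ) ^ (-θ') * ((n : ℝ)⁻¹ + α / (l : ℝ))⁻¹ ≤ T →
      0 < T ∧
      4 * (n : ℝ) ^ (-((aa : ℝ) / 2000)) / (l : ℝ) + C * s51uT η' d n l α T ≤ s51rho ((aa : ℝ) / 3000) d n l / 4 ∧
      C * s51wT η' n l α T ≤ s51rho ((aa : ℝ) / 3000) d n l / 4 ∧
      C * s51kJ n α ≤ T / 2 := by
  obtain ⟨c, hc0, hc⟩ : ∃ c : ℝ, 0 ≤ c ∧ C ≤ Real.exp c :=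
    ⟨|C|, abs_nonneg C, (le_abs_self C).trans (by linarith [Real.add_one_le_exp |C|])⟩
  obtain ⟨ct, hct⟩ : ∃ ct, cT = Real.exp ct := ⟨Real.log cT, (Real.exp_log hcT).symm⟩
  filter_upwards [s51n_crd d hd (1 / 10 ^ 10) (c + 100000 + |ct|) (by norm_num)] with n hX l hl α hα1 hα2 T hT
  obtain ⟨t, q, s1, s0, dd, X, hK⟩ := hX
  obtain ⟨m, hm, hm1⟩ := X.hl l hl
  have hα0 : 0 < α := by rw [X.hA] at hα1; exact lt_of_lt_of_le (Real.exp_pos q) hα1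
  obtain ⟨p, rfl⟩ : ∃ p, α = Real.exp p := ⟨Real.log α, (Real.exp_log hα0).symm⟩
  have hqp : q ≤ p := by rw [X.hA] at hα1; exact Real.exp_le_exp.1 hα1
  have hp0 : p ≤ 0 := by rw [← Real.exp_zero] at hα2; exact Real.exp_le_exp.1 hα2
  have hct0 := abs_nonneg ct
  have hct1 := le_abs_self ct
  have hct2 := neg_abs_le ct
  have hcε : c ≤ 1 / 10 ^ 10 * t := by linarith
  have hctε : -(1 / 10 ^ 10 * t) ≤ ct := by linarith
  have hbig : (100000 : ℝ) ≤ Real.exp (1 / 10 ^ 10 * t) := by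
    have h2 := Real.add_one_le_exp (1 / 10 ^ 10 * t)
    linarith
  have hlog2 : Real.log 2 ≤ 1 / 10 ^ 10 * t := by
    have h2 := Real.log_le_sub_one_of_pos (show (0 : ℝ) < 2 by norm_num)
    linarith
  have hη : t * η' ≤ t * (1 / 200000) :=
    mul_le_mul_of_nonneg_left (by rw [parF_aa] at hη'; linarith) X.t0
  have hθ : t * θ' ≤ t * (1 / 100000) :=
    mul_le_mul_of_nonneg_left (by rw [parF_aa] at hθ'; linarith) X.t0
  rw [X.hN, X.hNc, hm, hct] at hT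
  have hT0 : 0 < T := lt_of_lt_of_le (by positivity) hT
  obtain ⟨τ, rfl⟩ : ∃ τ, T = Real.exp τ := ⟨Real.log T, (Real.exp_log hT0).symm⟩
  obtain ⟨μ, hμ1, hμ2, hμ3⟩ : ∃ μ, μ ≤ t ∧ μ ≤ m - p ∧ (t ≤ μ ∨ m - p ≤ μ) := by
    refine ⟨min t (m - p), min_le_left _ _, min_le_right _ _, ?_⟩
    rcases le_total t (m - p) with h | h
    · left; rw [min_eq_left h]
    · right; rw [min_eq_right h]
  have hτ := s51n_T_low hμ1 hμ2 hT
  have e1 : 0 ≤ s51uT η' d n l (Real.exp p) (Real.exp τ) := by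
    unfold s51uT s51ZG s51ZQ s51kJ; rw [X.hA]; positivity
  have e2 : 0 ≤ s51wT η' n l (Real.exp p) (Real.exp τ) := by
    unfold s51wT s51ZG s51ZQ; positivity
  have e3 : 0 ≤ s51kJ n (Real.exp p) := by
    unfold s51kJ; positivity
  have ht0 := X.t0
  have h1 := X.q_le
  have h2 := X.le_q
  refine ⟨hT0, ?_, ?_, ?_⟩
  · refine le_trans (add_le_add le_rfl (mul_le_mul_of_nonneg_right hc e1)) ?_
    rw [le_div_iff₀ (by norm_num : (0 : ℝ) < 4), X.rho hm]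
    unfold s51uT s51ZG s51ZQ s51kJ
    simp only [X.hN, X.hA, hm, parF_aa]
    refine xsum_le 40 (by norm_num) (by positivity) ?_ ?_
    · simp only [xscale, xmulL, List.cons_append, List.nil_append, List.length_cons, List.length_nil]
      norm_num
    · simp only [xall, xscale, xmulL, List.cons_append, List.nil_append, Nat.cast_ofNat, and_true]
      repeat' apply And.intro
      all_goals
        rcases hμ3 with hμ3 | hμ3
      all_goals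
        exact xleaf_l (w := 1 / 10 ^ 10 * t) (by norm_num) (le_trans (by norm_num) hbig) (by linarith)
  · refine le_trans (mul_le_mul_of_nonneg_right hc e2) ?_
    rw [le_div_iff₀ (by norm_num : (0 : ℝ) < 4), X.rho hm]
    unfold s51wT s51ZG s51ZQ
    simp only [X.hN, hm, parF_aa]
    refine xsum_le 40 (by norm_num) (by positivity) ?_ ?_
    · simp only [xscale, xmulL, List.cons_append, List.nil_append, List.length_cons, List.length_nil]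
      norm_num
    · simp only [xall, xscale, xmulL, List.cons_append, List.nil_append, Nat.cast_ofNat, and_true]
      repeat' apply And.intro
      all_goals
        rcases hμ3 with hμ3 | hμ3
      all_goals
        exact xleaf_l (w := 1 / 10 ^ 10 * t) (by norm_num) (le_trans (by norm_num) hbig) (by linarith)
  · refine le_trans (mul_le_mul_of_nonneg_right hc e3) ?_
    rw [le_div_iff₀ (by norm_num : (0 : ℝ) < 2)]
    unfold s51kJ
    simp only [X.hN, parF_aa]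
    rcases hμ3 with hμ3 | hμ3
    all_goals
      exact xmon_le_exp (w := 1 / 10 ^ 10 * t) (le_trans (by norm_num) hbig) (by norm_num; linarith)

/-- the additive error of the reciprocal account: `κ A / f_l ≤ 4 κ / l`, `n^{-θ/4}/2 ≤ κ = scQ(-θ/4) ≤ 2^{θ/4} n^{-θ/4}` (`scQ_le_of_nonpos`, `le_scQ_of_nonpos`). -/
theorem s51n_recip (d : ℕ) (P : S5Par) (hθ : 0 < P.θ) (c0 : ℝ) (hc0 : c0 ≤ (aa : ℝ) / 3000) (hc0' : c0 ≤ (P.θ : ℝ) / 5) :
    ∀ᶠ n : ℕ in atTop, ∀ l : ℕ, 0 < l → ∀ α : ℝ, 0 < α →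
      3 / 4 * s51rho ((aa : ℝ) / 3000) d n l
        + ((s5cT P n : ℚ) : ℝ) * (4 * α / (l : ℝ) ^ 2) / ((n : ℝ)⁻¹ + α / (l : ℝ)) ≤ s51rho c0 d n l := by
  have hθ' : (0 : ℝ) < (P.θ : ℝ) := by exact_mod_cast hθ
  filter_upwards [eventually_ge_atTop 1,
    parF_ev_large ((P.θ : ℝ) / 20) (by positivity) (16 * (2 : ℝ) ^ ((P.θ : ℝ) / 4))] with n hn hbig l hl α hα
  have hn0 : (0 : ℝ) < (n : ℝ) := by exact_mod_cast hn
  have hn1 : (1 : ℝ) ≤ (n : ℝ) := by exact_mod_cast hn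
  have hl0 : (0 : ℝ) < (l : ℝ) := by exact_mod_cast hl
  have hκ0 : 0 ≤ ((s5cT P n : ℚ) : ℝ) := by
    have := scQ_pos (-(P.θ / 4)) n
    unfold s5cT
    exact_mod_cast this.le
  have hκ : ((s5cT P n : ℚ) : ℝ) ≤ (n : ℝ) ^ (-((P.θ : ℝ) / 4)) * (2 : ℝ) ^ ((P.θ : ℝ) / 4) := by
    have h := scQ_le_of_nonpos (-(P.θ / 4)) (by linarith) n hn
    push_cast at h
    rw [neg_neg] at h
    exact h
  have h1 : ((s5cT P n : ℚ) : ℝ) * (4 * α / (l : ℝ) ^ 2) / ((n : ℝ)⁻¹ + α / (l : ℝ)) ≤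
      ((s5cT P n : ℚ) : ℝ) * (4 / (l : ℝ)) := by
    rw [div_le_iff₀ (by positivity)]
    have h2 : 4 * α / (l : ℝ) ^ 2 ≤ 4 / (l : ℝ) * ((n : ℝ)⁻¹ + α / (l : ℝ)) := by
      have h3 : 4 / (l : ℝ) * ((n : ℝ)⁻¹ + α / (l : ℝ)) = 4 / (l : ℝ) * (n : ℝ)⁻¹ + 4 * α / (l : ℝ) ^ 2 := by
        field_simp
      rw [h3]
      have h4 : 0 ≤ 4 / (l : ℝ) * (n : ℝ)⁻¹ := by positivity
      linarith
    calc ((s5cT P n : ℚ) : ℝ) * (4 * α / (l : ℝ) ^ 2)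
        ≤ ((s5cT P n : ℚ) : ℝ) * (4 / (l : ℝ) * ((n : ℝ)⁻¹ + α / (l : ℝ))) :=
          mul_le_mul_of_nonneg_left h2 hκ0
      _ = ((s5cT P n : ℚ) : ℝ) * (4 / (l : ℝ)) * ((n : ℝ)⁻¹ + α / (l : ℝ)) := by ring
  have h5 : 16 * ((s5cT P n : ℚ) : ℝ) ≤ (n : ℝ) ^ (-c0) := by
    have h6 : (n : ℝ) ^ (-((P.θ : ℝ) / 4)) * (n : ℝ) ^ ((P.θ : ℝ) / 20) = (n : ℝ) ^ (-((P.θ : ℝ) / 5)) := by
      rw [← Real.rpow_add hn0]
      congr 1
      ring
    have h7 : (n : ℝ) ^ (-((P.θ : ℝ) / 5)) ≤ (n : ℝ) ^ (-c0) :=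
      Real.rpow_le_rpow_of_exponent_le hn1 (by linarith)
    have h8 : (0 : ℝ) ≤ (n : ℝ) ^ (-((P.θ : ℝ) / 4)) := by positivity
    calc 16 * ((s5cT P n : ℚ) : ℝ) ≤ 16 * ((n : ℝ) ^ (-((P.θ : ℝ) / 4)) * (2 : ℝ) ^ ((P.θ : ℝ) / 4)) := by linarith
      _ = (n : ℝ) ^ (-((P.θ : ℝ) / 4)) * (16 * (2 : ℝ) ^ ((P.θ : ℝ) / 4)) := by ring
      _ ≤ (n : ℝ) ^ (-((P.θ : ℝ) / 4)) * (n : ℝ) ^ ((P.θ : ℝ) / 20) := mul_le_mul_of_nonneg_left hbig h8
      _ = (n : ℝ) ^ (-((P.θ : ℝ) / 5)) := h6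
      _ ≤ (n : ℝ) ^ (-c0) := h7
  have h9 : ((s5cT P n : ℚ) : ℝ) * (4 / (l : ℝ)) ≤ 1 / 4 * s51rho c0 d n l := by
    have h10 : (n : ℝ) ^ (-c0) / (l : ℝ) ≤ s51rho c0 d n l := by
      unfold s51rho
      have : 0 ≤ (n : ℝ) ^ ((4 / 10 : ℝ) * (aa : ℝ)) / (alphaS d n ^ 2 * (l : ℝ) ^ 2) := by positivity
      linarith
    have h11 : ((s5cT P n : ℚ) : ℝ) * (4 / (l : ℝ)) = 1 / 4 * (16 * ((s5cT P n : ℚ) : ℝ) / (l : ℝ)) := by ring
    have h12 : 16 * ((s5cT P n : ℚ) : ℝ) / (l : ℝ) ≤ (n : ℝ) ^ (-c0) / (l : ℝ) :=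
      div_le_div_of_nonneg_right h5 hl0.le
    rw [h11]
    linarith
  have h13 := s51rho_mono hc0 d n l hn
  linarith

end Claimed.Agent.R275
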