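import Claimed.Agent.R275.S51Br
import Claimed.Agent.R275.S51StepN

/-!
# Row 275, Sec 5.1, package S51-STEP-C (helper199): Lemma 5.3 at a current early state (Part 1 of the blueprint `S51Step.lean` of helper194)

Statements `s51c_*` verbatim.  `S51Pack` = all facts on a current early state at one signed tracked parameter
(`S51Br` asymptotic part + `s45i_main`); then every statement is the abstract lemma of `S51Avg` + bookkeeping.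
-/

set_option autoImplicit false

namespace Claimed.Agent.R275

open Matrix Finset Filter

theorem s51c_avg_congr {ι : Type*} (I : Finset ι) (f g : ι → ℝ) (h : ∀ v ∈ I, f v = g v) :
    avgOn I f = avgOn I g := by
  unfold avgOn
  rw [Finset.sum_congr rfl h]

theorem s51c_R2_mono {α : Type} [DecidableEq α] {C0 C0' N Z : ℝ} {S : Finset α} {Vd : Finset (α × α)} {Dg : ℕ}
    {σ h : ℝ} {D : Matrix α α ℝ} (R : S5R2 C0 N Z S Vd Dg σ h D) (hC : C0 ≤ C0') :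
    S5R2 C0' N Z S Vd Dg σ h D :=
  { R with
    ent := fun x hx y hy => (R.ent x hx y hy).trans hC
    row := fun x hx => (R.row x hx).trans hC }

theorem s51c_K_mono {α : Type} {C0 C0' : ℝ} {S : Finset α} {K : Matrix α α ℝ} (R : S51K C0 S K) (hC : C0 ≤ C0') :
    S51K C0' S K :=
  { R with ent := fun x hx y hy => (R.ent x hx y hy).trans hC }

/-- `√(x/T) T = √(x T)` -/
theorem s51c_sqrt_div_mul (x T : ℝ) (hT : 0 < T) : Real.sqrt (x / T) * T = Real.sqrt (x * T) := by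
  have e : x * T = x / T * T ^ 2 := by field_simp
  rw [e, Real.sqrt_mul' _ (by positivity), Real.sqrt_sq hT.le]

/-- the arithmetic of the drift of `𝒯` -/
theorem s51c_drift_arith {a' T l α ν δ Dg ν1 Sj X2 X3 Sd C2 kJ N ZG L s1 s2 Ca avg uT : ℝ}
    (hT : 0 < T) (hl : 0 < l) (hC2 : 0 < C2) (hCa : 0 < Ca) (hDg0 : 0 ≤ Dg) (hdg : Dg ≤ ν1) (hδ0 : 0 ≤ δ)
    (hkJ0 : 0 ≤ kJ) (hN0 : 0 ≤ N) (hZG : 0 < ZG) (hL0 : 0 ≤ L) (hs10 : 0 ≤ s1) (hs20 : 0 ≤ s2) (hSj : 0 ≤ Sj)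
    (ha : -(4 / l * (α * T / l + ν)) ≤ a')
    (b1 : Sj ≤ C2 * s1) (b2 : X2 ≤ L * ZG * T) (b3 : X3 ≤ ZG ^ 2 * T + ZG * T) (b4 : Sd ≤ C2 * s2)
    (e : uT * T = (δ + (ν1 + 1) / l) * T / l
      + ((ν1 + 1) * s1 + L * ZG * T + (ZG ^ 2 * T + ZG * T) + s2) / l ^ 2 + kJ * (N + 1) / l)
    (H : a' * T - Ca * ((δ + (Dg + 1) / l) * T / l + ((Dg + 1) * Sj + X2 + X3 + Sd) / l ^ 2
      + C2 * (kJ * (N + 1) / l)) ≤ avg) :
    -(4 * α / l ^ 2 * T + (4 * ν / l + Ca * (1 + C2) * uT)) * T ≤ avg := by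
  refine le_trans ?_ H
  have hν10 : 0 ≤ ν1 := hDg0.trans hdg
  have c1 : (δ + (Dg + 1) / l) * T / l ≤ (δ + (ν1 + 1) / l) * T / l := by gcongr
  have c2 : ((Dg + 1) * Sj + X2 + X3 + Sd) / l ^ 2 ≤
      (1 + C2) * (((ν1 + 1) * s1 + L * ZG * T + (ZG ^ 2 * T + ZG * T) + s2) / l ^ 2) := by
    rw [← mul_div_assoc]
    gcongr
    have d1 : (Dg + 1) * Sj ≤ (ν1 + 1) * (C2 * s1) := mul_le_mul (by linarith) b1 hSj (by linarith)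
    have d2 : 0 ≤ C2 * (L * ZG * T) := by positivity
    have d3 : 0 ≤ C2 * (ZG ^ 2 * T + ZG * T) := by positivity
    have d4 : 0 ≤ (ν1 + 1) * s1 := by positivity
    have ex : (1 + C2) * ((ν1 + 1) * s1 + L * ZG * T + (ZG ^ 2 * T + ZG * T) + s2) =
        (ν1 + 1) * s1 + L * ZG * T + (ZG ^ 2 * T + ZG * T) + s2 + (ν1 + 1) * (C2 * s1) + C2 * (L * ZG * T)
          + C2 * (ZG ^ 2 * T + ZG * T) + C2 * s2 := by ring
    rw [ex]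
    linarith
  have u1 : 0 ≤ (δ + (ν1 + 1) / l) * T / l := by positivity
  have u3 : 0 ≤ kJ * (N + 1) / l := by positivity
  have haT := mul_le_mul_of_nonneg_right ha hT.le
  have e1 : -(4 * α / l ^ 2 * T + (4 * ν / l + Ca * (1 + C2) * uT)) * T =
      -(4 / l * (α * T / l + ν)) * T - Ca * ((1 + C2) * (uT * T)) := by
    field_simp
    ring
  rw [e1, e]
  have f : (δ + (Dg + 1) / l) * T / l + ((Dg + 1) * Sj + X2 + X3 + Sd) / l ^ 2 + C2 * (kJ * (N + 1) / l) ≤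
      (1 + C2) * ((δ + (ν1 + 1) / l) * T / l
        + ((ν1 + 1) * s1 + L * ZG * T + (ZG ^ 2 * T + ZG * T) + s2) / l ^ 2 + kJ * (N + 1) / l) := by
    have w1 := mul_nonneg hC2.le u1
    have ex : (1 + C2) * ((δ + (ν1 + 1) / l) * T / l
        + ((ν1 + 1) * s1 + L * ZG * T + (ZG ^ 2 * T + ZG * T) + s2) / l ^ 2 + kJ * (N + 1) / l) =
        (δ + (ν1 + 1) / l) * T / l + C2 * ((δ + (ν1 + 1) / l) * T / l)
        + (1 + C2) * (((ν1 + 1) * s1 + L * ZG * T + (ZG ^ 2 * T + ZG * T) + s2) / l ^ 2)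
        + kJ * (N + 1) / l + C2 * (kJ * (N + 1) / l) := by ring
    rw [ex]
    linarith
  have f' := mul_le_mul_of_nonneg_left f hCa.le
  linarith

/-- all facts on a current early state at one signed tracked parameter -/
structure S51Pack {n d : ℕ} (π : PPair n d) (C0 C2 CL η' σ h : ℝ) : Prop where
  hn : (1 : ℝ) ≤ (n : ℝ)
  hC0 : 0 < C0
  hC2 : 0 < C2
  hCL : 0 < CL
  hαS : 0 < alphaS d n
  hα0 : 0 < alphaf d h
  hα1 : alphaf d h ≤ 1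
  r2 : S5R2 C0 ((n : ℝ) ^ η') (2 * (n : ℝ) ^ ((125 / 1000 : ℝ) * (aa : ℝ)) / alphaf d h)
    π.unres (π.admF (g0 d n)) (d ^ (g0 d n + 2)) σ h (π.Dst σ h)
  k : S51K C0 π.unres (π.Kall σ h)
  q : S51Q (C2 / alphaf d h) π.unres (π.Qall σ h)
  j : S51J (C2 * (n : ℝ) ^ ((125 / 1000 : ℝ) * (aa : ℝ)) / alphaf d h ^ 2) π.unres (π.Jall σ h) (π.s51jr C2 σ h)
  ll : π.LocalLaw CL σ h
  dg : ((d ^ (g0 d n + 2) : ℕ) : ℝ) ≤ (n : ℝ) ^ ((1 / 100 : ℝ) * (aa : ℝ))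
  upd : ∀ p ∈ π.admF (g0 d n), π.UpdOK σ h p.1 p.2
  small : ∀ p ∈ π.admF (g0 d n), s51m (pblk (π.Dst σ h) p.1 p.2) ≤ (n : ℝ) ^ (-((aa : ℝ) / 1100))
  l1 : |π.L1 σ h| ≤ (n : ℝ) ^ ((9 / 100 : ℝ) * (aa : ℝ)) / alphaS d n

theorem s51c_pack (d : ℕ) (hd : 3 ≤ d) (cp : ℚ) (hcp : 0 < cp) (hcp' : cp ≤ 1 / 4) :
    ∃ C0 C2 CL : ℝ, 0 < C0 ∧ 0 < C2 ∧ 0 < CL ∧
    ∀ (CM CR η η' : ℝ) (Rc : ℕ), 0 ≤ η → η < η' → ∀ᶠ n : ℕ in atTop, ∀ π : PPair n d,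
      π.Cur cp CM CR η Rc → π.TSBd cp η → ∀ h ∈ trackedList d n cp, ∀ s : Bool,
        S51Pack π C0 C2 CL η' (sgn s) ((h : ℚ) : ℝ) := by
  obtain ⟨C1, hC1, H1⟩ := s51_R2 d hd cp hcp hcp'
  obtain ⟨C2, hC2, H2⟩ := s51_KQJ d hd cp hcp hcp'
  obtain ⟨CL, hCL, H3⟩ := s45i_main d hd cp hcp hcp'
  refine ⟨max C1 C2, C2, CL, lt_max_of_lt_left hC1, hC2, hCL, fun CM CR η η' Rc hη0 hη => ?_⟩
  filter_upwards [H1 CM CR η η' Rc hη0 hη, H2 CM CR η Rc, H3 CM CR η Rc, s51_alpha_ge d hd cp hcp hcp',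
    s51_Dg_le d hd, s51_updOK d hd cp hcp hcp' CM CR η Rc, s51_small d hd cp hcp hcp' CM CR η Rc,
    eventually_ge_atTop 1] with n h1 h2 h3 h4 h5 h6 h7 h8
  intro π hc ht h hh s
  obtain ⟨k, q, j⟩ := h2 π hc h hh s
  exact
    { hn := by exact_mod_cast h8
      hC0 := lt_max_of_lt_left hC1
      hC2 := hC2
      hCL := hCL
      hαS := h4.1
      hα0 := lt_of_lt_of_le h4.1 (h4.2 h hh).1
      hα1 := (h4.2 h hh).2
      r2 := s51c_R2_mono (h1 π hc ht h hh s) (le_max_left _ _)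
      k := s51c_K_mono k (le_max_right _ _)
      q := q
      j := j
      ll := h3 π hc h hh s
      dg := h5
      upd := h6 π hc h hh s
      small := h7 π hc h hh s
      l1 := (hc.caps h hh s).hL1 }

namespace S51Pack

variable {n d : ℕ} {π : PPair n d} {C0 C2 CL η' σ h : ℝ}

theorem hl (P : S51Pack π C0 C2 CL η' σ h) : 0 < π.l := by
  have := P.r2.hl
  rw [PPair.s51_card_unres] at this
  omega

theorem hlR (P : S51Pack π C0 C2 CL η' σ h) : (0 : ℝ) < (π.l : ℝ) := by exact_mod_cast P.hl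

theorem hn0 (P : S51Pack π C0 C2 CL η' σ h) : (0 : ℝ) < (n : ℝ) := lt_of_lt_of_le one_pos P.hn

theorem trD (P : S51Pack π C0 C2 CL η' σ h) : trS π.unres (π.Dst σ h) = π.L1 σ h := (π.s51_trS P.hl σ h).1

theorem trQ (P : S51Pack π C0 C2 CL η' σ h) : trS π.unres (π.Qall σ h) = π.Ttr σ h := (π.s51_trS P.hl σ h).2.2.1

theorem trJ (P : S51Pack π C0 C2 CL η' σ h) :
    trS π.unres (π.Jall σ h) = (π.Gam σ h * π.Qall σ h).trace := (π.s51_trS P.hl σ h).2.2.2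

/-- `0 ≤ Tr K ≤ C l` -/
theorem trK (P : S51Pack π C0 C2 CL η' σ h) :
    0 ≤ (π.Kall σ h).trace ∧ (π.Kall σ h).trace ≤ CL * (π.l : ℝ) := by
  rw [← (π.s51_trS P.hl σ h).2.1]
  unfold trS
  constructor
  · refine Finset.sum_nonneg fun x _ => ?_
    rw [PPair.s51b_Kall_diag]
    exact Finset.sum_nonneg fun _ _ => sq_nonneg _
  · refine (Finset.sum_le_card_nsmul _ _ _ fun x _ => P.ll.Kdiag x).trans (le_of_eq ?_)
    rw [nsmul_eq_mul, mul_comm]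
    rfl

/-- `0 ≤ Tr Γ³ ≤ C (n^{.03a} l/α + n^{.375a}/α³)` -/
theorem trGK (P : S51Pack π C0 C2 CL η' σ h) :
    0 ≤ (π.Gam σ h * π.Kall σ h).trace ∧ (π.Gam σ h * π.Kall σ h).trace ≤
      CL * ((n : ℝ) ^ ((3 / 100 : ℝ) * (aa : ℝ)) * (π.l : ℝ) / alphaf d h
        + (n : ℝ) ^ ((375 / 1000 : ℝ) * (aa : ℝ)) / alphaf d h ^ 3) := by
  refine ⟨P.ll.nonneg.2.2.1, ?_⟩
  have h1 := P.ll.mom2
  have h2 := mul_nonneg P.hα0.le P.ll.nonneg.2.2.2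
  linarith

/-- `0 ≤ Tr (Γ Q) ≤ C (n^{.03a} l/α² + n^{.375a}/α⁴)` -/
theorem trGQ (P : S51Pack π C0 C2 CL η' σ h) :
    0 ≤ (π.Gam σ h * π.Qall σ h).trace ∧ (π.Gam σ h * π.Qall σ h).trace ≤
      CL * ((n : ℝ) ^ ((3 / 100 : ℝ) * (aa : ℝ)) * (π.l : ℝ) / alphaf d h ^ 2
        + (n : ℝ) ^ ((375 / 1000 : ℝ) * (aa : ℝ)) / alphaf d h ^ 4) := by
  refine ⟨P.ll.nonneg.2.2.2, ?_⟩
  have h1 := P.ll.mom2
  have h2 := P.ll.nonneg.2.2.1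
  have h0 := P.hα0
  have h3 : alphaf d h * (π.Gam σ h * π.Qall σ h).trace ≤ alphaf d h *
      (CL * ((n : ℝ) ^ ((3 / 100 : ℝ) * (aa : ℝ)) * (π.l : ℝ) / alphaf d h ^ 2
        + (n : ℝ) ^ ((375 / 1000 : ℝ) * (aa : ℝ)) / alphaf d h ^ 4)) := by
    have e : alphaf d h * (CL * ((n : ℝ) ^ ((3 / 100 : ℝ) * (aa : ℝ)) * (π.l : ℝ) / alphaf d h ^ 2
        + (n : ℝ) ^ ((375 / 1000 : ℝ) * (aa : ℝ)) / alphaf d h ^ 4)) =
        CL * ((n : ℝ) ^ ((3 / 100 : ℝ) * (aa : ℝ)) * (π.l : ℝ) / alphaf d h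
        + (n : ℝ) ^ ((375 / 1000 : ℝ) * (aa : ℝ)) / alphaf d h ^ 3) := by
      field_simp
    rw [e]
    linarith
  exact le_of_mul_le_mul_left h3 h0

/-- `Tr K² ≤ C (n^{.06a} l/α² + n^{.5a}/α⁴)` -/
theorem trKK (P : S51Pack π C0 C2 CL η' σ h) :
    (π.Kall σ h * π.Kall σ h).trace ≤
      CL * ((n : ℝ) ^ ((6 / 100 : ℝ) * (aa : ℝ)) * (π.l : ℝ) / alphaf d h ^ 2
        + (n : ℝ) ^ ((5 / 10 : ℝ) * (aa : ℝ)) / alphaf d h ^ 4) := by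
  have h1 := P.ll.mom1
  have h2 := mul_nonneg (sq_nonneg (alphaf d h)) P.ll.nonneg.2.1
  have e : ((500 / 1000 : ℝ) * (aa : ℝ)) = ((5 / 10 : ℝ) * (aa : ℝ)) := by norm_num
  rw [e] at h1
  linarith

/-- `Tr Q² ≤ C (n^{.06a} l/α⁴ + n^{.5a}/α⁶)` -/
theorem trQQ (P : S51Pack π C0 C2 CL η' σ h) :
    (π.Qall σ h * π.Qall σ h).trace ≤
      CL * ((n : ℝ) ^ ((6 / 100 : ℝ) * (aa : ℝ)) * (π.l : ℝ) / alphaf d h ^ 4
        + (n : ℝ) ^ ((5 / 10 : ℝ) * (aa : ℝ)) / alphaf d h ^ 6) := by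
  have h1 := P.ll.mom1
  have h2 := P.ll.nonneg.1
  have h0 := P.hα0
  have e : ((500 / 1000 : ℝ) * (aa : ℝ)) = ((5 / 10 : ℝ) * (aa : ℝ)) := by norm_num
  rw [e] at h1
  have h3 : alphaf d h ^ 2 * (π.Qall σ h * π.Qall σ h).trace ≤ alphaf d h ^ 2 *
      (CL * ((n : ℝ) ^ ((6 / 100 : ℝ) * (aa : ℝ)) * (π.l : ℝ) / alphaf d h ^ 4
        + (n : ℝ) ^ ((5 / 10 : ℝ) * (aa : ℝ)) / alphaf d h ^ 6)) := by
    have e : alphaf d h ^ 2 * (CL * ((n : ℝ) ^ ((6 / 100 : ℝ) * (aa : ℝ)) * (π.l : ℝ) / alphaf d h ^ 4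
        + (n : ℝ) ^ ((5 / 10 : ℝ) * (aa : ℝ)) / alphaf d h ^ 6)) =
        CL * ((n : ℝ) ^ ((6 / 100 : ℝ) * (aa : ℝ)) * (π.l : ℝ) / alphaf d h ^ 2
        + (n : ℝ) ^ ((5 / 10 : ℝ) * (aa : ℝ)) / alphaf d h ^ 4) := by
      field_simp
    rw [e]
    linarith
  exact le_of_mul_le_mul_left h3 (by positivity)

/-- `0 ≤ 𝒯 ≤ C l/α` -/
theorem T_le (P : S51Pack π C0 C2 CL η' σ h) :
    0 ≤ π.Ttr σ h ∧ π.Ttr σ h ≤ CL * ((π.l : ℝ) / alphaf d h) := by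
  constructor
  · rw [← P.trQ]
    exact Finset.sum_nonneg fun x hx => P.q.diag0 x hx
  · exact P.ll.Tup.trans (mul_le_mul_of_nonneg_left (min_le_right _ _) P.hCL.le)

/-- the facts of `s51_psd_traces` with `Z_G`, `Z_Q` -/
theorem psd (P : S51Pack π C0 C2 CL η' σ h) :
    0 ≤ (π.Qall σ h * π.Kall σ h).trace ∧
    |(π.Gam σ h * π.Qall σ h).trace| ≤ s51ZG n (alphaf d h) * π.Ttr σ h ∧
    (π.Kall σ h * π.Qall σ h).trace ≤ s51ZG n (alphaf d h) ^ 2 * π.Ttr σ h ∧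
    0 ≤ (π.Kall σ h * π.Qall σ h).trace ∧
    (π.Qall σ h * π.Qall σ h).trace ≤ s51ZQ n (alphaf d h) * π.Ttr σ h ∧
    (∀ y, (π.Qall σ h * π.Qall σ h) y y ≤ s51ZQ n (alphaf d h) * π.Qall σ h y y) ∧
    ∑ x ∈ π.unres, ∑ y ∈ π.unres, π.Jall σ h x y ^ 2 ≤
      s51ZG n (alphaf d h) ^ 2 * (π.Qall σ h * π.Qall σ h).trace :=
  π.s51_psd_traces σ h _ _ P.ll.opG P.ll.opQ

theorem ZG_pos (P : S51Pack π C0 C2 CL η' σ h) : 0 < s51ZG n (alphaf d h) := by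
  have := P.hn0
  have := P.hα0
  unfold s51ZG
  positivity

theorem ZQ_pos (P : S51Pack π C0 C2 CL η' σ h) : 0 < s51ZQ n (alphaf d h) := by
  have := P.hn0
  have := P.hα0
  unfold s51ZQ
  positivity

theorem L1_mean (P : S51Pack π C0 C2 CL η' σ h) {Ca : ℝ} (hCa : 0 < Ca)
    (H : |avgOn (π.admF (g0 d n)) (fun p => s51dL1 π.unres.card σ h (pblk (π.Dst σ h) p.1 p.2)
          (pblk (π.Kall σ h) p.1 p.2)) - s51a π.unres (π.admF (g0 d n)) h (π.Kall σ h) * trS π.unres (π.Dst σ h)| ≤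
      Ca * (((n : ℝ) ^ η' + ((d ^ (g0 d n + 2) : ℕ) : ℝ) + 1) / (π.unres.card : ℝ)
        + |trS2 π.unres (π.Dst σ h) (π.Kall σ h)| / (π.unres.card : ℝ) ^ 2)) :
    |avgOn (π.admF (g0 d n)) (fun p => π.dL1 σ h p.1 p.2)
        - s51a π.unres (π.admF (g0 d n)) h (π.Kall σ h) * π.L1 σ h| ≤
      Ca * (1 + CL) * s51er1 η' n π.l (alphaf d h) := by
  rw [s51c_avg_congr _ _ _ fun p hp => PPair.s51_dL1_bridge π (P.upd p hp), ← P.trD]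
  rw [PPair.s51_card_unres] at H
  refine H.trans ?_
  have hl := P.hlR
  have hCL := P.hCL
  obtain ⟨k0, k1⟩ := P.trK
  obtain ⟨g0', g1⟩ := P.trGK
  have hdg := P.dg
  rw [(π.s51_trS2 σ h).1]
  set M2 := (n : ℝ) ^ ((3 / 100 : ℝ) * (aa : ℝ)) * (π.l : ℝ) / alphaf d h
        + (n : ℝ) ^ ((375 / 1000 : ℝ) * (aa : ℝ)) / alphaf d h ^ 3 with hM2
  have hM20 : 0 ≤ M2 := by
    have := P.hn0
    have := P.hα0
    positivity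
  have hab : |(π.Gam σ h * π.Kall σ h).trace - (π.Kall σ h).trace| ≤ CL * (M2 + (π.l : ℝ)) := by
    rw [abs_le]
    constructor <;> nlinarith
  have hN : 0 ≤ (n : ℝ) ^ η' := by have := P.hn0; positivity
  have hν : 0 ≤ (n : ℝ) ^ ((1 / 100 : ℝ) * (aa : ℝ)) := by have := P.hn0; positivity
  have e : s51er1 η' n π.l (alphaf d h) =
      ((n : ℝ) ^ η' + (n : ℝ) ^ ((1 / 100 : ℝ) * (aa : ℝ)) + 1) / (π.l : ℝ) + (M2 + (π.l : ℝ)) / (π.l : ℝ) ^ 2 := rfl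
  rw [e, mul_assoc]
  refine mul_le_mul_of_nonneg_left ?_ hCa.le
  have a1 : ((n : ℝ) ^ η' + ((d ^ (g0 d n + 2) : ℕ) : ℝ) + 1) / (π.l : ℝ) ≤
      ((n : ℝ) ^ η' + (n : ℝ) ^ ((1 / 100 : ℝ) * (aa : ℝ)) + 1) / (π.l : ℝ) := by gcongr
  have a2 : |(π.Gam σ h * π.Kall σ h).trace - (π.Kall σ h).trace| / (π.l : ℝ) ^ 2 ≤
      CL * ((M2 + (π.l : ℝ)) / (π.l : ℝ) ^ 2) := by
    rw [← mul_div_assoc]
    gcongr
  have a3 : 0 ≤ ((n : ℝ) ^ η' + (n : ℝ) ^ ((1 / 100 : ℝ) * (aa : ℝ)) + 1) / (π.l : ℝ) := by positivity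
  have a4 : 0 ≤ (M2 + (π.l : ℝ)) / (π.l : ℝ) ^ 2 := by positivity
  nlinarith

theorem L1_sq (P : S51Pack π C0 C2 CL η' σ h) {Ca : ℝ} (hCa : 0 < Ca)
    (H : avgOn (π.admF (g0 d n)) (fun p => s51dL1 π.unres.card σ h (pblk (π.Dst σ h) p.1 p.2)
          (pblk (π.Kall σ h) p.1 p.2) ^ 2) ≤
      Ca * (trS2 π.unres (π.Kall σ h) (π.Kall σ h) / (π.unres.card : ℝ) ^ 2
        + ((n : ℝ) ^ η' + 1) / (π.unres.card : ℝ))) :
    avgOn (π.admF (g0 d n)) (fun p => π.dL1 σ h p.1 p.2 ^ 2) ≤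
      Ca * (1 + CL) * s51V1 η' n π.l (alphaf d h) := by
  rw [s51c_avg_congr _ _ _ fun p hp => by rw [PPair.s51_dL1_bridge π (P.upd p hp)]]
  rw [PPair.s51_card_unres] at H
  refine H.trans ?_
  have hl := P.hlR
  have hCL := P.hCL
  have k1 := P.trKK
  rw [(π.s51_trS2 σ h).2.1]
  set M1 := (n : ℝ) ^ ((6 / 100 : ℝ) * (aa : ℝ)) * (π.l : ℝ) / alphaf d h ^ 2
        + (n : ℝ) ^ ((5 / 10 : ℝ) * (aa : ℝ)) / alphaf d h ^ 4 with hM1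
  have hM10 : 0 ≤ M1 := by
    have := P.hn0
    have := P.hα0
    positivity
  have hN : 0 ≤ (n : ℝ) ^ η' := by have := P.hn0; positivity
  have e : s51V1 η' n π.l (alphaf d h) = M1 / (π.l : ℝ) ^ 2 + ((n : ℝ) ^ η' + 1) / (π.l : ℝ) := rfl
  rw [e, mul_assoc]
  refine mul_le_mul_of_nonneg_left ?_ hCa.le
  have a2 : (π.Kall σ h * π.Kall σ h).trace / (π.l : ℝ) ^ 2 ≤ CL * (M1 / (π.l : ℝ) ^ 2) := by
    rw [← mul_div_assoc]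
    gcongr
  have a3 : 0 ≤ ((n : ℝ) ^ η' + 1) / (π.l : ℝ) := by positivity
  have a4 : 0 ≤ M1 / (π.l : ℝ) ^ 2 := by positivity
  nlinarith

theorem L0_mean (P : S51Pack π C0 C2 CL η' σ h) {Ca : ℝ} (hCa : 0 < Ca)
    (H : |avgOn (π.admF (g0 d n)) (fun p => s51dL0 π.unres.card σ h (pblk (π.Dst σ h) p.1 p.2)
          (pblk (π.Qall σ h) p.1 p.2))| ≤
      Ca * (C2 / alphaf d h * ((n : ℝ) ^ η' + ((d ^ (g0 d n + 2) : ℕ) : ℝ) + 1) / (π.unres.card : ℝ)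
        + (|trS π.unres (π.Dst σ h)| * trS π.unres (π.Qall σ h) + |trS2 π.unres (π.Dst σ h) (π.Qall σ h)|)
            / (π.unres.card : ℝ) ^ 2)) :
    |avgOn (π.admF (g0 d n)) (fun p => π.dL0 σ h p.1 p.2)| ≤
      Ca * (C2 + CL) * s51er0 η' d n π.l (alphaf d h) := by
  rw [s51c_avg_congr _ _ _ fun p hp => PPair.s51_dL0_bridge π (P.upd p hp)]
  rw [PPair.s51_card_unres, P.trD, P.trQ, (π.s51_trS2 σ h).2.2.2.1] at H
  refine H.trans ?_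
  have hl := P.hlR
  have hCL := P.hCL
  have hC2 := P.hC2
  have hα := P.hα0
  have hαS := P.hαS
  have hn0 := P.hn0
  obtain ⟨t0, t1⟩ := P.T_le
  obtain ⟨g0', g1⟩ := P.trGQ
  have hdg := P.dg
  have hl1 := P.l1
  set M2 := (n : ℝ) ^ ((3 / 100 : ℝ) * (aa : ℝ)) * (π.l : ℝ) / alphaf d h ^ 2
        + (n : ℝ) ^ ((375 / 1000 : ℝ) * (aa : ℝ)) / alphaf d h ^ 4 with hM2
  set L := (n : ℝ) ^ ((9 / 100 : ℝ) * (aa : ℝ)) / alphaS d n with hL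
  set A := ((n : ℝ) ^ η' + (n : ℝ) ^ ((1 / 100 : ℝ) * (aa : ℝ)) + 1) / (alphaf d h * (π.l : ℝ)) with hA
  have hM20 : 0 ≤ M2 := by positivity
  have hL0 : 0 ≤ L := by positivity
  have hA0 : 0 ≤ A := by positivity
  have hab : |(π.Gam σ h * π.Qall σ h).trace - π.Ttr σ h| ≤ CL * (M2 + (π.l : ℝ) / alphaf d h) := by
    rw [abs_le]
    constructor <;> nlinarith
  have hLT : |π.L1 σ h| * π.Ttr σ h ≤ CL * (L * ((π.l : ℝ) / alphaf d h)) := by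
    calc |π.L1 σ h| * π.Ttr σ h ≤ L * (CL * ((π.l : ℝ) / alphaf d h)) :=
          mul_le_mul hl1 t1 t0 hL0
      _ = CL * (L * ((π.l : ℝ) / alphaf d h)) := by ring
  have e : s51er0 η' d n π.l (alphaf d h) =
      A + (L * ((π.l : ℝ) / alphaf d h) + (n : ℝ) ^ ((3 / 100 : ℝ) * (aa : ℝ)) * (π.l : ℝ) / alphaf d h ^ 2
        + (n : ℝ) ^ ((375 / 1000 : ℝ) * (aa : ℝ)) / alphaf d h ^ 4 + (π.l : ℝ) / alphaf d h) / (π.l : ℝ) ^ 2 := rfl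
  have e' : s51er0 η' d n π.l (alphaf d h) =
      A + (L * ((π.l : ℝ) / alphaf d h) + (M2 + (π.l : ℝ) / alphaf d h)) / (π.l : ℝ) ^ 2 := by
    rw [e, hM2]
    ring
  rw [e', mul_assoc]
  refine mul_le_mul_of_nonneg_left ?_ hCa.le
  have a1 : C2 / alphaf d h * ((n : ℝ) ^ η' + ((d ^ (g0 d n + 2) : ℕ) : ℝ) + 1) / (π.l : ℝ) ≤ C2 * A := by
    have : C2 * A = C2 / alphaf d h * ((n : ℝ) ^ η' + (n : ℝ) ^ ((1 / 100 : ℝ) * (aa : ℝ)) + 1) / (π.l : ℝ) := by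
      rw [hA]
      field_simp
    rw [this]
    gcongr
  have a2 : (|π.L1 σ h| * π.Ttr σ h + |(π.Gam σ h * π.Qall σ h).trace - π.Ttr σ h|) / (π.l : ℝ) ^ 2 ≤
      CL * ((L * ((π.l : ℝ) / alphaf d h) + (M2 + (π.l : ℝ) / alphaf d h)) / (π.l : ℝ) ^ 2) := by
    rw [← mul_div_assoc]
    gcongr
    linarith
  have a4 : 0 ≤ (L * ((π.l : ℝ) / alphaf d h) + (M2 + (π.l : ℝ) / alphaf d h)) / (π.l : ℝ) ^ 2 := by positivity
  nlinarith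

theorem L0_sq (P : S51Pack π C0 C2 CL η' σ h) {Ca : ℝ} (hCa : 0 < Ca)
    (H : avgOn (π.admF (g0 d n)) (fun p => s51dL0 π.unres.card σ h (pblk (π.Dst σ h) p.1 p.2)
          (pblk (π.Qall σ h) p.1 p.2) ^ 2) ≤
      Ca * (trS2 π.unres (π.Qall σ h) (π.Qall σ h) / (π.unres.card : ℝ) ^ 2
        + (C2 / alphaf d h) ^ 2 * ((n : ℝ) ^ η' + 1) / (π.unres.card : ℝ))) :
    avgOn (π.admF (g0 d n)) (fun p => π.dL0 σ h p.1 p.2 ^ 2) ≤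
      Ca * (C2 ^ 2 + CL) * s51V0 η' n π.l (alphaf d h) := by
  rw [s51c_avg_congr _ _ _ fun p hp => by rw [PPair.s51_dL0_bridge π (P.upd p hp)]]
  rw [PPair.s51_card_unres] at H
  refine H.trans ?_
  have hl := P.hlR
  have hCL := P.hCL
  have hC2 := P.hC2
  have hα := P.hα0
  have hn0 := P.hn0
  have k1 := P.trQQ
  rw [(π.s51_trS2 σ h).2.2.1]
  set M1 := (n : ℝ) ^ ((6 / 100 : ℝ) * (aa : ℝ)) * (π.l : ℝ) / alphaf d h ^ 4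
        + (n : ℝ) ^ ((5 / 10 : ℝ) * (aa : ℝ)) / alphaf d h ^ 6 with hM1
  set A := ((n : ℝ) ^ η' + 1) / (alphaf d h ^ 2 * (π.l : ℝ)) with hA
  have hM10 : 0 ≤ M1 := by positivity
  have hA0 : 0 ≤ A := by positivity
  have e : s51V0 η' n π.l (alphaf d h) = M1 / (π.l : ℝ) ^ 2 + A := rfl
  rw [e, mul_assoc]
  refine mul_le_mul_of_nonneg_left ?_ hCa.le
  have a1 : (C2 / alphaf d h) ^ 2 * ((n : ℝ) ^ η' + 1) / (π.l : ℝ) = C2 ^ 2 * A := by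
    rw [hA]
    field_simp
  have a2 : (π.Qall σ h * π.Qall σ h).trace / (π.l : ℝ) ^ 2 ≤ CL * (M1 / (π.l : ℝ) ^ 2) := by
    rw [← mul_div_assoc]
    gcongr
  have a4 : 0 ≤ M1 / (π.l : ℝ) ^ 2 := by positivity
  rw [a1]
  nlinarith [mul_nonneg (sq_nonneg C2) a4, mul_nonneg hCL.le hA0]

theorem T_drift (P : S51Pack π C0 C2 CL η' σ h) {Ca : ℝ} (hCa : 0 < Ca) (hT : 0 < π.Ttr σ h)
    (ha : -(4 / (π.l : ℝ) * (alphaf d h * π.Ttr σ h / (π.l : ℝ) + (n : ℝ) ^ (-((aa : ℝ) / 2000)))) ≤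
        s51a π.unres (π.admF (g0 d n)) h (π.Kall σ h))
    (H : s51a π.unres (π.admF (g0 d n)) h (π.Kall σ h) * trS π.unres (π.Qall σ h)
      - Ca * (((n : ℝ) ^ (-((aa : ℝ) / 1100)) + (((d ^ (g0 d n + 2) : ℕ) : ℝ) + 1) / (π.unres.card : ℝ))
              * trS π.unres (π.Qall σ h) / (π.unres.card : ℝ)
          + ((((d ^ (g0 d n + 2) : ℕ) : ℝ) + 1) * ∑ y ∈ π.unres, π.s51jr C2 σ h y
              + |trS π.unres (π.Dst σ h)| * |trS π.unres (π.Jall σ h)| + |trS2 π.unres (π.Dst σ h) (π.Jall σ h)|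
              + ∑ x ∈ π.unres, |π.Dst σ h x x| * π.s51jr C2 σ h x) / (π.unres.card : ℝ) ^ 2
          + C2 * (n : ℝ) ^ ((125 / 1000 : ℝ) * (aa : ℝ)) / alphaf d h ^ 2 * ((n : ℝ) ^ η' + 1) / (π.unres.card : ℝ))
      ≤ avgOn (π.admF (g0 d n)) (fun p => s51dT π.unres.card σ h (pblk (π.Dst σ h) p.1 p.2)
          (pblk (π.Kall σ h) p.1 p.2) (pblk (π.Qall σ h) p.1 p.2) (pblk (π.Jall σ h) p.1 p.2))) :
    -(4 * alphaf d h / (π.l : ℝ) ^ 2 * π.Ttr σ h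
        + (4 * (n : ℝ) ^ (-((aa : ℝ) / 2000)) / (π.l : ℝ)
            + Ca * (1 + C2) * s51uT η' d n π.l (alphaf d h) (π.Ttr σ h))) * π.Ttr σ h ≤
      avgOn (π.admF (g0 d n)) (fun p => π.dTtr σ h p.1 p.2) := by
  rw [s51c_avg_congr _ _ _ fun p hp => PPair.s51_dT_bridge π (P.upd p hp)]
  rw [PPair.s51_card_unres, P.trD, P.trQ, P.trJ, (π.s51_trS2 σ h).2.2.2.2.1] at H
  have hl := P.hlR
  have hC2 := P.hC2
  have hα := P.hα0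
  have hαS := P.hαS
  have hn0 := P.hn0
  have hZG := P.ZG_pos
  have hZQ := P.ZQ_pos
  obtain ⟨-, p2, p3, p4, p5, -, -⟩ := P.psd
  obtain ⟨j1, j2, -⟩ := π.s51_jr_sums C2 σ h hC2.le (fun x => π.Dst σ h x x)
  have hdiag := P.r2.diag
  have hN0 : 0 ≤ (n : ℝ) ^ η' := by positivity
  -- the four sums
  have b1 : ∑ y ∈ π.unres, π.s51jr C2 σ h y ≤
      C2 * Real.sqrt ((π.l : ℝ) * s51ZQ n (alphaf d h) * π.Ttr σ h) := by
    refine j1.trans (mul_le_mul_of_nonneg_left (Real.sqrt_le_sqrt ?_) hC2.le)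
    rw [mul_assoc]
    exact mul_le_mul_of_nonneg_left p5 hl.le
  have b2 : |π.L1 σ h| * |(π.Gam σ h * π.Qall σ h).trace| ≤
      (n : ℝ) ^ ((9 / 100 : ℝ) * (aa : ℝ)) / alphaS d n * s51ZG n (alphaf d h) * π.Ttr σ h := by
    rw [mul_assoc]
    exact mul_le_mul P.l1 p2 (abs_nonneg _) (by positivity)
  have b3 : |(π.Kall σ h * π.Qall σ h).trace - (π.Gam σ h * π.Qall σ h).trace| ≤
      s51ZG n (alphaf d h) ^ 2 * π.Ttr σ h + s51ZG n (alphaf d h) * π.Ttr σ h := by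
    obtain ⟨q1, q2⟩ := abs_le.1 p2
    rw [abs_le]
    constructor <;> linarith
  have b4 : ∑ x ∈ π.unres, |π.Dst σ h x x| * π.s51jr C2 σ h x ≤
      C2 * Real.sqrt ((n : ℝ) ^ η' * s51ZQ n (alphaf d h) * π.Ttr σ h) := by
    refine j2.trans ?_
    rw [mul_assoc, mul_assoc ((n : ℝ) ^ η'), Real.sqrt_mul hN0]
    refine mul_le_mul_of_nonneg_left ?_ hC2.le
    exact mul_le_mul (Real.sqrt_le_sqrt hdiag) (Real.sqrt_le_sqrt p5) (Real.sqrt_nonneg _) (Real.sqrt_nonneg _)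
  have e : s51uT η' d n π.l (alphaf d h) (π.Ttr σ h) * π.Ttr σ h =
      ((n : ℝ) ^ (-((aa : ℝ) / 1100)) + ((n : ℝ) ^ ((1 / 100 : ℝ) * (aa : ℝ)) + 1) / (π.l : ℝ)) * π.Ttr σ h / (π.l : ℝ)
        + (((n : ℝ) ^ ((1 / 100 : ℝ) * (aa : ℝ)) + 1) * Real.sqrt ((π.l : ℝ) * s51ZQ n (alphaf d h) * π.Ttr σ h)
            + (n : ℝ) ^ ((9 / 100 : ℝ) * (aa : ℝ)) / alphaS d n * s51ZG n (alphaf d h) * π.Ttr σ h
            + (s51ZG n (alphaf d h) ^ 2 * π.Ttr σ h + s51ZG n (alphaf d h) * π.Ttr σ h)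
            + Real.sqrt ((n : ℝ) ^ η' * s51ZQ n (alphaf d h) * π.Ttr σ h)) / (π.l : ℝ) ^ 2
        + s51kJ n (alphaf d h) * ((n : ℝ) ^ η' + 1) / (π.l : ℝ) := by
    rw [← s51c_sqrt_div_mul _ _ hT, ← s51c_sqrt_div_mul _ _ hT]
    unfold s51uT
    generalize Real.sqrt ((π.l : ℝ) * s51ZQ n (alphaf d h) / π.Ttr σ h) = s1
    generalize Real.sqrt ((n : ℝ) ^ η' * s51ZQ n (alphaf d h) / π.Ttr σ h) = s2
    generalize s51ZG n (alphaf d h) = ZG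
    generalize s51kJ n (alphaf d h) = kJ
    generalize (n : ℝ) ^ ((9 / 100 : ℝ) * (aa : ℝ)) / alphaS d n = L
    field_simp
    ring
  have ekJ : C2 * (n : ℝ) ^ ((125 / 1000 : ℝ) * (aa : ℝ)) / alphaf d h ^ 2 * ((n : ℝ) ^ η' + 1) / (π.l : ℝ) =
      C2 * (s51kJ n (alphaf d h) * ((n : ℝ) ^ η' + 1) / (π.l : ℝ)) := by
    unfold s51kJ
    ring
  rw [ekJ] at H
  exact s51c_drift_arith hT hl hC2 hCa (Nat.cast_nonneg _) P.dg (by positivity)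
    (by unfold s51kJ; positivity) hN0 hZG (by positivity) (Real.sqrt_nonneg _) (Real.sqrt_nonneg _)
    (Finset.sum_nonneg fun y _ => by unfold PPair.s51jr; exact mul_nonneg hC2.le (Real.sqrt_nonneg _))
    ha b1 b2 b3 b4 e H

theorem T_sq (P : S51Pack π C0 C2 CL η' σ h) {Ca : ℝ} (hCa : 0 < Ca) (hT : 0 < π.Ttr σ h)
    (H : avgOn (π.admF (g0 d n)) (fun p => s51dT π.unres.card σ h (pblk (π.Dst σ h) p.1 p.2)
          (pblk (π.Kall σ h) p.1 p.2) (pblk (π.Qall σ h) p.1 p.2) (pblk (π.Jall σ h) p.1 p.2) ^ 2) ≤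
      Ca * (C2 / alphaf d h * trS π.unres (π.Qall σ h) / (π.unres.card : ℝ)
        + (∑ x ∈ π.unres, ∑ y ∈ π.unres, π.Jall σ h x y ^ 2) / (π.unres.card : ℝ) ^ 2
        + ((n : ℝ) ^ η' + 1) * (∑ x ∈ π.unres, π.Jall σ h x x ^ 2) / (π.unres.card : ℝ) ^ 2)) :
    avgOn (π.admF (g0 d n)) (fun p => π.dTtr σ h p.1 p.2 ^ 2) ≤
      Ca * (1 + C2 + C2 ^ 2) * s51wT η' n π.l (alphaf d h) (π.Ttr σ h) * π.Ttr σ h ^ 2 := by
  rw [s51c_avg_congr _ _ _ fun p hp => by rw [PPair.s51_dT_bridge π (P.upd p hp)]]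
  rw [PPair.s51_card_unres, P.trQ] at H
  refine H.trans ?_
  have hl := P.hlR
  have hC2 := P.hC2
  have hα := P.hα0
  have hn0 := P.hn0
  have hZG := P.ZG_pos
  have hZQ := P.ZQ_pos
  obtain ⟨-, -, -, -, p5, -, p7⟩ := P.psd
  obtain ⟨-, -, j3⟩ := π.s51_jr_sums C2 σ h hC2.le (fun _ => 0)
  have hJd : ∑ x ∈ π.unres, π.Jall σ h x x ^ 2 ≤ ∑ x ∈ π.unres, π.s51jr C2 σ h x ^ 2 := by
    refine Finset.sum_le_sum fun x hx => ?_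
    rw [← sq_abs]
    exact pow_le_pow_left₀ (abs_nonneg _) (P.j.ent x hx x hx) 2
  set T := π.Ttr σ h with hTdef
  set ZG := s51ZG n (alphaf d h) with hZGdef
  set ZQ := s51ZQ n (alphaf d h) with hZQdef
  set N := (n : ℝ) ^ η' with hN
  set l := (π.l : ℝ) with hldef
  have hN0 : 0 ≤ N := by positivity
  have b1 : ∑ x ∈ π.unres, ∑ y ∈ π.unres, π.Jall σ h x y ^ 2 ≤ ZG ^ 2 * ZQ * T := by
    refine p7.trans ?_
    rw [mul_assoc]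
    exact mul_le_mul_of_nonneg_left p5 (by positivity)
  have b2 : ∑ x ∈ π.unres, π.Jall σ h x x ^ 2 ≤ C2 ^ 2 * (ZQ * T) :=
    hJd.trans (j3.trans (mul_le_mul_of_nonneg_left p5 (by positivity)))
  have e : s51wT η' n π.l (alphaf d h) T * T ^ 2 =
      T / (alphaf d h * l) + ZG ^ 2 * ZQ * T / l ^ 2 + (N + 1) * (ZQ * T) / l ^ 2 := by
    have e0 : s51wT η' n π.l (alphaf d h) T = 1 / (alphaf d h * l * T) + ZG ^ 2 * ZQ / (l ^ 2 * T)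
        + (N + 1) * ZQ / (l ^ 2 * T) := rfl
    rw [e0]
    field_simp
  rw [mul_assoc, mul_assoc, e]
  refine mul_le_mul_of_nonneg_left ?_ hCa.le
  have c1 : C2 / alphaf d h * T / l = C2 * (T / (alphaf d h * l)) := by field_simp
  have c2 : (∑ x ∈ π.unres, ∑ y ∈ π.unres, π.Jall σ h x y ^ 2) / l ^ 2 ≤ ZG ^ 2 * ZQ * T / l ^ 2 := by gcongr
  have c3 : (N + 1) * (∑ x ∈ π.unres, π.Jall σ h x x ^ 2) / l ^ 2 ≤ C2 ^ 2 * ((N + 1) * (ZQ * T) / l ^ 2) := by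
    have : C2 ^ 2 * ((N + 1) * (ZQ * T) / l ^ 2) = (N + 1) * (C2 ^ 2 * (ZQ * T)) / l ^ 2 := by ring
    rw [this]
    gcongr
  have u1 : 0 ≤ T / (alphaf d h * l) := by positivity
  have u2 : 0 ≤ ZG ^ 2 * ZQ * T / l ^ 2 := by positivity
  have u3 : 0 ≤ (N + 1) * (ZQ * T) / l ^ 2 := by positivity
  rw [c1]
  nlinarith [mul_nonneg hC2.le u2, mul_nonneg hC2.le u3, mul_nonneg (sq_nonneg C2) u1,
    mul_nonneg (sq_nonneg C2) u2]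

theorem T_sup (P : S51Pack π C0 C2 CL η' σ h) {Ca : ℝ} (hCa : 0 < Ca) (p : Stub n d × Stub n d)
    (hp : p ∈ π.admF (g0 d n))
    (H : |s51dT π.unres.card σ h (pblk (π.Dst σ h) p.1 p.2)
          (pblk (π.Kall σ h) p.1 p.2) (pblk (π.Qall σ h) p.1 p.2) (pblk (π.Jall σ h) p.1 p.2)| ≤
      Ca * (C2 / alphaf d h + C2 * (n : ℝ) ^ ((125 / 1000 : ℝ) * (aa : ℝ)) / alphaf d h ^ 2)) :
    |π.dTtr σ h p.1 p.2| ≤ Ca * (2 * C2) * s51kJ n (alphaf d h) := by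
  rw [PPair.s51_dT_bridge π (P.upd p hp)]
  rw [PPair.s51_card_unres] at H
  refine H.trans ?_
  have hC2 := P.hC2
  have hα := P.hα0
  have hα1 := P.hα1
  have hn0 := P.hn0
  rw [mul_assoc]
  refine mul_le_mul_of_nonneg_left ?_ hCa.le
  unfold s51kJ
  have h1 : (1 : ℝ) ≤ (n : ℝ) ^ ((125 / 1000 : ℝ) * (aa : ℝ)) :=
    Real.one_le_rpow P.hn (by rw [parF_aa]; norm_num)
  have h2 : 1 / alphaf d h ≤ (n : ℝ) ^ ((125 / 1000 : ℝ) * (aa : ℝ)) / alphaf d h ^ 2 := by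
    rw [div_le_div_iff₀ hα (by positivity)]
    nlinarith
  have e1 : C2 / alphaf d h = C2 * (1 / alphaf d h) := by ring
  have e2 : C2 * (n : ℝ) ^ ((125 / 1000 : ℝ) * (aa : ℝ)) / alphaf d h ^ 2 =
      C2 * ((n : ℝ) ^ ((125 / 1000 : ℝ) * (aa : ℝ)) / alphaf d h ^ 2) := by ring
  rw [e1, e2]
  nlinarith

end S51Pack

theorem s51c_prim_tracked {d n : ℕ} {cp : ℚ} {h : ℚ} (hh : h ∈ primList d n cp) : h ∈ trackedList d n cp := by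
  unfold trackedList
  exact List.mem_append_left _ (List.mem_append_left _ hh)

/-! ## Part 1: Lemma 5.3 at a current early state -/

/-- the admissible pairs are nonempty. -/
theorem s51c_nonempty (d : ℕ) (hd : 3 ≤ d) :
    ∀ᶠ n : ℕ in atTop, ∀ π : PPair n d, l0 n ≤ π.l → (π.admF (g0 d n)).Nonempty := by
  filter_upwards [s51_Dg_le d hd, s51n_scales d hd,
    parF_ev_large ((2 / 3 : ℝ) + (14 / 100 : ℝ) * (aa : ℝ)) (by rw [parF_aa]; norm_num) 16,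
    eventually_ge_atTop 1] with n h1 h2 h3 h4
  intro π hl
  have hn1 : (1 : ℝ) ≤ (n : ℝ) := by exact_mod_cast h4
  have hn0 : (0 : ℝ) < (n : ℝ) := by linarith
  have hl0 := h2.2.2.1
  have hν : (1 : ℝ) ≤ (n : ℝ) ^ ((1 / 100 : ℝ) * (aa : ℝ)) :=
    Real.one_le_rpow hn1 (by rw [parF_aa]; norm_num)
  have e : (n : ℝ) ^ ((2 / 3 : ℝ) + (15 / 100 : ℝ) * (aa : ℝ)) =
      (n : ℝ) ^ ((1 / 100 : ℝ) * (aa : ℝ)) * (n : ℝ) ^ ((2 / 3 : ℝ) + (14 / 100 : ℝ) * (aa : ℝ)) := by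
    rw [← Real.rpow_add hn0]
    congr 1
    ring
  have hbig : 8 * (n : ℝ) ^ ((1 / 100 : ℝ) * (aa : ℝ)) ≤ (π.l : ℝ) := by
    have hl' : (l0 n : ℝ) ≤ (π.l : ℝ) := by exact_mod_cast hl
    rw [e] at hl0
    nlinarith
  have h8 : 8 ≤ π.unres.card := by
    have : (8 : ℝ) ≤ (π.l : ℝ) := by linarith
    rw [PPair.s51_card_unres]
    exact_mod_cast this
  have hDg : 4 * d ^ (g0 d n + 2) ≤ π.unres.card := by
    have : (4 : ℝ) * ((d ^ (g0 d n + 2) : ℕ) : ℝ) ≤ (π.l : ℝ) := by linarith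
    rw [PPair.s51_card_unres]
    exact_mod_cast this
  have half := s5_card_valid_half (π.s51_valid hd (g0 d n)) h8 hDg
  have h8' : (8 : ℝ) ≤ (π.unres.card : ℝ) := by exact_mod_cast h8
  have hpos : (0 : ℝ) < ((π.admF (g0 d n)).card : ℝ) := by nlinarith
  exact Finset.card_pos.1 (by exact_mod_cast hpos)

/-- **(5.16)**. -/
theorem s51c_L1_mean (d : ℕ) (hd : 3 ≤ d) (cp : ℚ) (hcp : 0 < cp) (hcp' : cp ≤ 1 / 4) : ∃ C : ℝ, 0 < C ∧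
    ∀ (CM CR η η' : ℝ) (Rc : ℕ), 0 ≤ η → η < η' → ∀ᶠ n : ℕ in atTop, ∀ π : PPair n d,
      π.Cur cp CM CR η Rc → π.TSBd cp η → ∀ h ∈ trackedList d n cp, ∀ s : Bool,
        |avgOn (π.admF (g0 d n)) (fun p => π.dL1 (sgn s) ((h : ℚ) : ℝ) p.1 p.2)
            - s51a π.unres (π.admF (g0 d n)) ((h : ℚ) : ℝ) (π.Kall (sgn s) ((h : ℚ) : ℝ)) * π.L1 (sgn s) ((h : ℚ) : ℝ)| ≤
          C * s51er1 η' n π.l (alphaf d ((h : ℚ) : ℝ)) := by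
  obtain ⟨C0, C2, CL, hC0, hC2, hCL, HP⟩ := s51c_pack d hd cp hcp hcp'
  obtain ⟨Ca, hCa, HA⟩ := s51_L1_mean C0
  refine ⟨Ca * (1 + CL), by positivity, fun CM CR η η' Rc hη0 hη => ?_⟩
  filter_upwards [HP CM CR η η' Rc hη0 hη] with n hn
  intro π hc ht h hh s
  have P := hn π hc ht h hh s
  exact P.L1_mean hCa (HA _ _ _ _ _ _ _ _ _ _ P.r2 (π.s51_struct _ _).2.1 P.k)

/-- **(5.17)**. -/
theorem s51c_L1_sq (d : ℕ) (hd : 3 ≤ d) (cp : ℚ) (hcp : 0 < cp) (hcp' : cp ≤ 1 / 4) : ∃ C : ℝ, 0 < C ∧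
    ∀ (CM CR η η' : ℝ) (Rc : ℕ), 0 ≤ η → η < η' → ∀ᶠ n : ℕ in atTop, ∀ π : PPair n d,
      π.Cur cp CM CR η Rc → π.TSBd cp η → ∀ h ∈ trackedList d n cp, ∀ s : Bool,
        avgOn (π.admF (g0 d n)) (fun p => π.dL1 (sgn s) ((h : ℚ) : ℝ) p.1 p.2 ^ 2) ≤
          C * s51V1 η' n π.l (alphaf d ((h : ℚ) : ℝ)) := by
  obtain ⟨C0, C2, CL, hC0, hC2, hCL, HP⟩ := s51c_pack d hd cp hcp hcp'
  obtain ⟨Ca, hCa, HA⟩ := s51_L1_sq C0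
  refine ⟨Ca * (1 + CL), by positivity, fun CM CR η η' Rc hη0 hη => ?_⟩
  filter_upwards [HP CM CR η η' Rc hη0 hη] with n hn
  intro π hc ht h hh s
  have P := hn π hc ht h hh s
  exact P.L1_sq hCa (HA _ _ _ _ _ _ _ _ _ _ P.r2 P.k)

/-- **(5.18)**, mean. -/
theorem s51c_L0_mean (d : ℕ) (hd : 3 ≤ d) (cp : ℚ) (hcp : 0 < cp) (hcp' : cp ≤ 1 / 4) : ∃ C : ℝ, 0 < C ∧
    ∀ (CM CR η η' : ℝ) (Rc : ℕ), 0 ≤ η → η < η' → ∀ᶠ n : ℕ in atTop, ∀ π : PPair n d,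
      π.Cur cp CM CR η Rc → π.TSBd cp η → ∀ h ∈ trackedList d n cp, ∀ s : Bool,
        |avgOn (π.admF (g0 d n)) (fun p => π.dL0 (sgn s) ((h : ℚ) : ℝ) p.1 p.2)| ≤
          C * s51er0 η' d n π.l (alphaf d ((h : ℚ) : ℝ)) := by
  obtain ⟨C0, C2, CL, hC0, hC2, hCL, HP⟩ := s51c_pack d hd cp hcp hcp'
  obtain ⟨Ca, hCa, HA⟩ := s51_L0_mean C0
  refine ⟨Ca * (C2 + CL), by positivity, fun CM CR η η' Rc hη0 hη => ?_⟩
  filter_upwards [HP CM CR η η' Rc hη0 hη] with n hn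
  intro π hc ht h hh s
  have P := hn π hc ht h hh s
  exact P.L0_mean hCa (HA _ _ _ _ _ _ _ _ _ _ _ P.r2 P.q)

/-- **(5.18)**, second moment. -/
theorem s51c_L0_sq (d : ℕ) (hd : 3 ≤ d) (cp : ℚ) (hcp : 0 < cp) (hcp' : cp ≤ 1 / 4) : ∃ C : ℝ, 0 < C ∧
    ∀ (CM CR η η' : ℝ) (Rc : ℕ), 0 ≤ η → η < η' → ∀ᶠ n : ℕ in atTop, ∀ π : PPair n d,
      π.Cur cp CM CR η Rc → π.TSBd cp η → ∀ h ∈ trackedList d n cp, ∀ s : Bool,
        avgOn (π.admF (g0 d n)) (fun p => π.dL0 (sgn s) ((h : ℚ) : ℝ) p.1 p.2 ^ 2) ≤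
          C * s51V0 η' n π.l (alphaf d ((h : ℚ) : ℝ)) := by
  obtain ⟨C0, C2, CL, hC0, hC2, hCL, HP⟩ := s51c_pack d hd cp hcp hcp'
  obtain ⟨Ca, hCa, HA⟩ := s51_L0_sq C0
  refine ⟨Ca * (C2 ^ 2 + CL), by positivity, fun CM CR η η' Rc hη0 hη => ?_⟩
  filter_upwards [HP CM CR η η' Rc hη0 hη] with n hn
  intro π hc ht h hh s
  have P := hn π hc ht h hh s
  exact P.L0_sq hCa (HA _ _ _ _ _ _ _ _ _ _ _ P.r2 P.q)

/-- **(5.20)**: lower drift of `𝒯` at the primaries (`T > 0` is the only hypothesis on `T`). -/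
theorem s51c_T_drift (d : ℕ) (hd : 3 ≤ d) (cp : ℚ) (hcp : 0 < cp) (hcp' : cp ≤ 1 / 4) : ∃ C : ℝ, 0 < C ∧
    ∀ (CM CR η η' : ℝ) (Rc : ℕ), 0 ≤ η → η < η' → ∀ᶠ n : ℕ in atTop, ∀ π : PPair n d,
      π.Cur cp CM CR η Rc → π.TSBd cp η → ∀ h ∈ primList d n cp, ∀ s : Bool, 0 < π.Ttr (sgn s) ((h : ℚ) : ℝ) →
        -(4 * alphaf d ((h : ℚ) : ℝ) / (π.l : ℝ) ^ 2 * π.Ttr (sgn s) ((h : ℚ) : ℝ)
            + (4 * (n : ℝ) ^ (-((aa : ℝ) / 2000)) / (π.l : ℝ)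
                + C * s51uT η' d n π.l (alphaf d ((h : ℚ) : ℝ)) (π.Ttr (sgn s) ((h : ℚ) : ℝ))))
            * π.Ttr (sgn s) ((h : ℚ) : ℝ) ≤
          avgOn (π.admF (g0 d n)) (fun p => π.dTtr (sgn s) ((h : ℚ) : ℝ) p.1 p.2) := by
  obtain ⟨C0, C2, CL, hC0, hC2, hCL, HP⟩ := s51c_pack d hd cp hcp hcp'
  obtain ⟨Ca, hCa, HA⟩ := s51_T_drift C0
  refine ⟨Ca * (1 + C2), by positivity, fun CM CR η η' Rc hη0 hη => ?_⟩
  filter_upwards [HP CM CR η η' Rc hη0 hη, s51_a_ge d hd cp hcp hcp' CM CR η Rc] with n hn hage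
  intro π hc ht h hh s hT
  have P := hn π hc ht h (s51c_prim_tracked hh) s
  refine P.T_drift hCa hT (hage π hc h hh s) (HA _ _ _ _ _ _ _ _ _ _ _ _ _ _ _ _ P.r2 P.k P.q P.j P.small ?_)
  rw [(π.s51_trS2 _ _).2.2.2.2.2]
  exact P.psd.1

/-- **(5.22)**: second moment of `Δ𝒯`. -/
theorem s51c_T_sq (d : ℕ) (hd : 3 ≤ d) (cp : ℚ) (hcp : 0 < cp) (hcp' : cp ≤ 1 / 4) : ∃ C : ℝ, 0 < C ∧
    ∀ (CM CR η η' : ℝ) (Rc : ℕ), 0 ≤ η → η < η' → ∀ᶠ n : ℕ in atTop, ∀ π : PPair n d,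
      π.Cur cp CM CR η Rc → π.TSBd cp η → ∀ h ∈ trackedList d n cp, ∀ s : Bool, 0 < π.Ttr (sgn s) ((h : ℚ) : ℝ) →
        avgOn (π.admF (g0 d n)) (fun p => π.dTtr (sgn s) ((h : ℚ) : ℝ) p.1 p.2 ^ 2) ≤
          C * s51wT η' n π.l (alphaf d ((h : ℚ) : ℝ)) (π.Ttr (sgn s) ((h : ℚ) : ℝ))
            * π.Ttr (sgn s) ((h : ℚ) : ℝ) ^ 2 := by
  obtain ⟨C0, C2, CL, hC0, hC2, hCL, HP⟩ := s51c_pack d hd cp hcp hcp'
  obtain ⟨Ca, hCa, HA⟩ := s51_T_sq C0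
  refine ⟨Ca * (1 + C2 + C2 ^ 2), by positivity, fun CM CR η η' Rc hη0 hη => ?_⟩
  filter_upwards [HP CM CR η η' Rc hη0 hη] with n hn
  intro π hc ht h hh s hT
  have P := hn π hc ht h hh s
  exact P.T_sq hCa hT (HA _ _ _ _ _ _ _ _ _ _ _ _ (π.Jall _ _) P.r2 P.k P.q)

/-- maximal increment of `𝒯`. -/
theorem s51c_T_sup (d : ℕ) (hd : 3 ≤ d) (cp : ℚ) (hcp : 0 < cp) (hcp' : cp ≤ 1 / 4) : ∃ C : ℝ, 0 < C ∧
    ∀ (CM CR η η' : ℝ) (Rc : ℕ), 0 ≤ η → η < η' → ∀ᶠ n : ℕ in atTop, ∀ π : PPair n d,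
      π.Cur cp CM CR η Rc → π.TSBd cp η → ∀ h ∈ trackedList d n cp, ∀ s : Bool, ∀ p ∈ π.admF (g0 d n),
        |π.dTtr (sgn s) ((h : ℚ) : ℝ) p.1 p.2| ≤ C * s51kJ n (alphaf d ((h : ℚ) : ℝ)) := by
  obtain ⟨C0, C2, CL, hC0, hC2, hCL, HP⟩ := s51c_pack d hd cp hcp hcp'
  obtain ⟨Ca, hCa, HA⟩ := s51_T_sup C0
  refine ⟨Ca * (2 * C2), by positivity, fun CM CR η η' Rc hη0 hη => ?_⟩
  filter_upwards [HP CM CR η η' Rc hη0 hη] with n hn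
  intro π hc ht h hh s p hp
  have P := hn π hc ht h hh s
  exact P.T_sup hCa p hp (HA _ _ _ _ _ _ _ _ _ _ _ _ _ _ _ P.r2 P.k P.q P.j p hp)

end Claimed.Agent.R275
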