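import Claimed.Agent.R275.S51Br
import Claimed.Agent.R275.S51StepN
import Claimed.Agent.R275.S51StepC

/-!
# Row 275, Sec 5.1, package S51-STEP: Lemma 5.3 at a current early state (concrete), Lemma 5.4 (one-step bounds, budget, extraction, initial values)

Blueprint: helper194.  Prefix `s51`.  The paper is NOT needed; every exponent below was re-derived by hand and checked by a script.
NOTATION.  `a = aa`, `l = π.l ≥ l₀`, `α = alphaf d h ∈ [α_*, 1]`, `α_* = alphaS d n ≍ n^{-1/3+a/2}`, `l₀ ≍ n^{2/3+.15a}`, `α_*² l₀ ≍ n^{1.15a}`,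
`Z_G = n^{.125a}/α`, `Z_Q = n^{.25a}/α³`, `κ_J = n^{.125a}/α²`, `N = n^{η'}`, `D_g = d^(g₀+2) ≤ n^{.01a}`, `T = 𝒯`.
`ρ(c₀) = s51rho c₀ d n l = n^{-c₀}/l + n^{.4a}/(α_*² l²)`: THE ONE-STEP COST of the three families of trace accounts.

PART 1 (`s51c_*`) = `S51Avg` (abstract) + `S51Br` (hypotheses) + `s45i_main` (`LocalLaw`: `mom1`, `mom2`, `nonneg`, `Tup`, `Kdiag`, `opG`, `opQ`).
  Take `C0 := max` of the constants of `s51_R2`, `s51_KQJ` (all structures are monotone in `C0`; prove the monotonicity remarks first).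
  * `Tr(DK) = Tr Γ³ - Tr K`, `0 ≤ Tr Γ³ ≤ C (n^{.03a} l/α + n^{.375a}/α³)` (`mom2`, both summands are `≥ 0`), `0 ≤ Tr K ≤ C l` (`Kdiag`, `s51_trS`).
  * `Tr K² ≤ C (n^{.06a} l/α² + n^{.5a}/α⁴)`, `Tr Q² ≤ (the same)/α²` (`mom1`).
  * `|Tr(DQ)| ≤ Tr(ΓQ) + T`, `Tr(ΓQ) ≤ C (n^{.03a} l/α² + n^{.375a}/α⁴)`, `T ≤ C l/α` (`Tup`), `|L_1| ≤ n^{.09a}/α_*` (`Cur.caps`).
  * `∑ jr ≤ C0 √(l Tr Q²) ≤ C0 √(l Z_Q T)`, `|Tr J| ≤ Z_G T`, `|Tr(DJ)| ≤ (Z_G² + Z_G) T`, `∑ |D_xx| jr_x ≤ C0 √N √(Z_Q T)`,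
    `∑∑ J² ≤ Z_G² Z_Q T`, `∑ J_xx² ≤ ∑ jr_x² ≤ C0² Z_Q T`   (`s51_psd_traces`, `s51_jr_sums`, `S51J.ent`).
PART 2 (`s51n_*`) = arithmetic of exponents: NO pairing, only `n, l, α, T`; each summand is a monomial `n^x α^y l^z α_*^w`; use `α_* ≤ α ≤ 1`, `l₀ ≤ l`,
  `prim_zero_facts` (`n^{-1/3+a/2}/(16 (d-1)) ≤ α_* ≤ n^{-1/3+a/2}`), `l₀ ≥ n^{2/3+.15a}/2`, `S_1 ≥ n^{.065a}/(4 α_*)`, `S_0 ≥ n^{.095a}/(4 α_*²)`
  (`le_scQ_of_nonneg`), and `C n^{-x} ≤ n^{-y}/k` for `y < x`, `n` large (`parF_ev_small`).  TABLE (each line: summand `≤` bound):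
  L1:  `2 ap`: `8 n^{-a/2000}/l`, `16 d/l²`;   `er/S_1`: `n^{η'-.065a}/l`, `n^{-.055a}/l`, `n^{-.035a}/l` [`α_*/α ≤ 1`], `n^{.31a}/(α_*² l²)`;
       `V/S_1²`: `n^{-.07a}/l`, `n^{.37a}/(α_*² l²)`, `n^{η'-.13a}/l`.
  L0:  `er/S_0`: `n^{η'-.095a}/l`, `n^{-.085a}/l`, `n^{-.005a}/l` [the `L_1` term: `α_*² n^{-.095a} n^{.09a}/(α_* α)`], `n^{-.065a}/l`, `n^{.28a}/(α_*² l²)`;
       `V/S_0²`: `n^{-.13a}/l`, `n^{.31a}/(α_*² l²)`, `n^{η'-.19a}/l`.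
  T:   `1/T ≤ n^{θ'} (1/n + α/l)/c_T`, `1/√T ≤ n^{θ'/2} (n^{-1/2} + √(α/l))/√c_T`;  `1/(n α_*²) ≤ C n^{-1/3-a}`, `1/(n α_*³) ≤ C n^{-1.5a}`, `1/(α_*² l) ≤ C n^{-1.15a}`.
PART 3 (`s51_step_*`) = `s51_square_step` / `s51_recip_account` with Parts 1, 2.   PART 4 = budget, extraction, initial values.
-/

set_option autoImplicit false

namespace Claimed.Agent.R275

open Matrix Finset Filter

/-! The definitions `s51rho`, `s51er1`, `s51V1`, `s51er0`, `s51V0`, `s51ZG`, `s51ZQ`, `s51kJ`, `s51uT`, `s51wT` and `s51rho_nonneg`,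
`s51rho_mono` are in `S51StepN.lean` (verbatim). -/

/-! ## Part 1: Lemma 5.3 at a current early state: PROVED in `S51StepC.lean` (`s51c_nonempty`, `s51c_L1_mean`, `s51c_L1_sq`,
`s51c_L0_mean`, `s51c_L0_sq`, `s51c_T_drift`, `s51c_T_sq`, `s51c_T_sup`, verbatim). -/

/-! ## Part 2: arithmetic of exponents: PROVED in `S51StepN.lean` (`s51n_scales`, `s51n_L1`, `s51n_L0`, `s51n_T`, `s51n_recip`). -/

/-! ## Part 3: the one-step inequalities of the accounts (Lemma 5.4) -/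

theorem s51d_prim_sub {d n : ℕ} {cp : ℚ} {h : ℚ} (hh : h ∈ primList d n cp) : h ∈ trackedList d n cp := by
  unfold trackedList
  exact List.mem_append_left _ (List.mem_append_left _ hh)

theorem s51d_mem_admF {n d : ℕ} (π : PPair n d) (g : ℕ) (p : Stub n d × Stub n d) :
    p ∈ π.admF g ↔ π.Adm g p.1 p.2 := by
  unfold PPair.admF
  simp

theorem s51d_er1_nonneg (η' : ℝ) (n l : ℕ) (α : ℝ) (hα : 0 < α) : 0 ≤ s51er1 η' n l α := by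
  unfold s51er1
  positivity

theorem s51d_V1_nonneg (η' : ℝ) (n l : ℕ) (α : ℝ) (hα : 0 < α) : 0 ≤ s51V1 η' n l α := by
  unfold s51V1
  positivity

theorem s51d_er0_nonneg (η' : ℝ) (d n l : ℕ) (α : ℝ) (hα : 0 < α) (hS : 0 < alphaS d n) :
    0 ≤ s51er0 η' d n l α := by
  unfold s51er0
  positivity

theorem s51d_V0_nonneg (η' : ℝ) (n l : ℕ) (α : ℝ) (hα : 0 < α) : 0 ≤ s51V0 η' n l α := by
  unfold s51V0
  positivity

theorem s51d_kJ_nonneg (n : ℕ) (α : ℝ) (hα : 0 < α) : 0 ≤ s51kJ n α := by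
  unfold s51kJ
  positivity

theorem s51d_uT_nonneg (η' : ℝ) (d n l : ℕ) (α T : ℝ) (hα : 0 < α) (hS : 0 < alphaS d n) (hT : 0 < T) :
    0 ≤ s51uT η' d n l α T := by
  unfold s51uT s51ZG s51ZQ s51kJ
  positivity

theorem s51d_wT_nonneg (η' : ℝ) (n l : ℕ) (α T : ℝ) (hα : 0 < α) (hT : 0 < T) :
    0 ≤ s51wT η' n l α T := by
  unfold s51wT s51ZG s51ZQ
  positivity

theorem s51d_S1_pos (d n : ℕ) (hS : 0 < alphaS d n) : 0 < ((s5S1 d n : ℚ) : ℝ) := by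
  have h1 : (0 : ℚ) < alphaf d (prim d n 0) := by
    unfold alphaS at hS
    exact_mod_cast hS
  have : (0 : ℚ) < s5S1 d n := div_pos (scQ_pos _ _) h1
  exact_mod_cast this

theorem s51d_S0_pos (d n : ℕ) (hS : 0 < alphaS d n) : 0 < ((s5S0 d n : ℚ) : ℝ) := by
  have h1 : (0 : ℚ) < alphaf d (prim d n 0) := by
    unfold alphaS at hS
    exact_mod_cast hS
  have : (0 : ℚ) < s5S0 d n := div_pos (scQ_pos _ _) (by positivity)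
  exact_mod_cast this

theorem s51_step_L1 (d : ℕ) (hd : 3 ≤ d) (P : S5Par) (hcp : 0 < P.cp) (hcp' : P.cp ≤ 1 / 4) (CM CR η : ℝ) (Rc : ℕ)
    (hη0 : 0 ≤ η) (hη : η < (aa : ℝ) / 20) :
    ∀ᶠ n : ℕ in atTop, ∀ π : PPair n d, π.Cur P.cp CM CR η Rc → π.TSBd P.cp η →
      ∀ h ∈ trackedList d n P.cp, ∀ s : Bool,
        avgOn (π.admF (g0 d n)) (fun p => s5Zv ℝ d n P (.trL1 h s) (π.resolve p.1 p.2)) ≤
          (1 + s51rho ((aa : ℝ) / 3000) d n π.l) * s5Zv ℝ d n P (.trL1 h s) π := by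
  obtain ⟨C1, hC1, H1⟩ := s51c_L1_mean d hd P.cp hcp hcp'
  obtain ⟨C2, hC2, H2⟩ := s51c_L1_sq d hd P.cp hcp hcp'
  filter_upwards [H1 CM CR η ((aa : ℝ) / 20) Rc hη0 hη, H2 CM CR η ((aa : ℝ) / 20) Rc hη0 hη,
    s51c_nonempty d hd, s51_alpha_ge d hd P.cp hcp hcp', s51_a_le d hd P.cp hcp hcp' CM CR η Rc,
    s51n_L1 d hd (max C1 C2) ((aa : ℝ) / 20) le_rfl] with n h1 h2 hne hα ha hN π hc hts h hh s
  have hI := hne π hc.l_ge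
  obtain ⟨hαS, hαh⟩ := hα
  obtain ⟨hα1, hα2⟩ := hαh h hh
  have hα0 : 0 < alphaf d ((h : ℚ) : ℝ) := lt_of_lt_of_le hαS hα1
  have hS := s51d_S1_pos d n hαS
  have hst := s51_square_step (π.admF (g0 d n)) hI (π.L1 (sgn s) ((h : ℚ) : ℝ)) ((s5S1 d n : ℚ) : ℝ)
    (s51a π.unres (π.admF (g0 d n)) ((h : ℚ) : ℝ) (π.Kall (sgn s) ((h : ℚ) : ℝ)))
    (4 / (π.l : ℝ) * ((n : ℝ) ^ (-((aa : ℝ) / 2000)) + 2 * (d : ℝ) / (π.l : ℝ)))
    (max C1 C2 * s51er1 ((aa : ℝ) / 20) n π.l (alphaf d ((h : ℚ) : ℝ)))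
    (max C1 C2 * s51V1 ((aa : ℝ) / 20) n π.l (alphaf d ((h : ℚ) : ℝ))) hS
    (fun p => π.dL1 (sgn s) ((h : ℚ) : ℝ) p.1 p.2) (by positivity) (ha π hc h hh s)
    ((h1 π hc hts h hh s).trans
      (mul_le_mul_of_nonneg_right (le_max_left _ _) (s51d_er1_nonneg _ _ _ _ hα0)))
    ((h2 π hc hts h hh s).trans
      (mul_le_mul_of_nonneg_right (le_max_right _ _) (s51d_V1_nonneg _ _ _ _ hα0)))
  have e : (fun p : Stub n d × Stub n d => s5Zv ℝ d n P (.trL1 h s) (π.resolve p.1 p.2)) =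
      fun p => 1 + (π.L1 (sgn s) ((h : ℚ) : ℝ) + π.dL1 (sgn s) ((h : ℚ) : ℝ) p.1 p.2) ^ 2
        / ((s5S1 d n : ℚ) : ℝ) ^ 2 := by
    funext p
    simp only [s5Zv, PPair.dL1, add_sub_cancel]
  rw [e]
  refine hst.trans ?_
  have hZ : s5Zv ℝ d n P (.trL1 h s) π =
      1 + π.L1 (sgn s) ((h : ℚ) : ℝ) ^ 2 / ((s5S1 d n : ℚ) : ℝ) ^ 2 := rfl
  rw [hZ]
  refine mul_le_mul_of_nonneg_right ?_ (by positivity)
  have := hN π.l hc.l_ge _ hα1 hα2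
  linarith

theorem s51_step_L0 (d : ℕ) (hd : 3 ≤ d) (P : S5Par) (hcp : 0 < P.cp) (hcp' : P.cp ≤ 1 / 4) (CM CR η : ℝ) (Rc : ℕ)
    (hη0 : 0 ≤ η) (hη : η < (aa : ℝ) / 20) :
    ∀ᶠ n : ℕ in atTop, ∀ π : PPair n d, π.Cur P.cp CM CR η Rc → π.TSBd P.cp η →
      ∀ h ∈ trackedList d n P.cp, ∀ s : Bool,
        avgOn (π.admF (g0 d n)) (fun p => s5Zv ℝ d n P (.trL0 h s) (π.resolve p.1 p.2)) ≤
          (1 + s51rho ((aa : ℝ) / 3000) d n π.l) * s5Zv ℝ d n P (.trL0 h s) π := by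
  obtain ⟨C1, hC1, H1⟩ := s51c_L0_mean d hd P.cp hcp hcp'
  obtain ⟨C2, hC2, H2⟩ := s51c_L0_sq d hd P.cp hcp hcp'
  filter_upwards [H1 CM CR η ((aa : ℝ) / 20) Rc hη0 hη, H2 CM CR η ((aa : ℝ) / 20) Rc hη0 hη,
    s51c_nonempty d hd, s51_alpha_ge d hd P.cp hcp hcp',
    s51n_L0 d hd (max C1 C2) ((aa : ℝ) / 20) le_rfl] with n h1 h2 hne hα hN π hc hts h hh s
  have hI := hne π hc.l_ge
  obtain ⟨hαS, hαh⟩ := hα
  obtain ⟨hα1, hα2⟩ := hαh h hh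
  have hα0 : 0 < alphaf d ((h : ℚ) : ℝ) := lt_of_lt_of_le hαS hα1
  have hS := s51d_S0_pos d n hαS
  have hst := s51_square_step (π.admF (g0 d n)) hI (π.L0 (sgn s) ((h : ℚ) : ℝ)) ((s5S0 d n : ℚ) : ℝ)
    0 0
    (max C1 C2 * s51er0 ((aa : ℝ) / 20) d n π.l (alphaf d ((h : ℚ) : ℝ)))
    (max C1 C2 * s51V0 ((aa : ℝ) / 20) n π.l (alphaf d ((h : ℚ) : ℝ))) hS
    (fun p => π.dL0 (sgn s) ((h : ℚ) : ℝ) p.1 p.2) le_rfl le_rfl
    (by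
      rw [zero_mul, sub_zero]
      exact (h1 π hc hts h hh s).trans
        (mul_le_mul_of_nonneg_right (le_max_left _ _) (s51d_er0_nonneg _ _ _ _ _ hα0 hαS)))
    ((h2 π hc hts h hh s).trans
      (mul_le_mul_of_nonneg_right (le_max_right _ _) (s51d_V0_nonneg _ _ _ _ hα0)))
  have e : (fun p : Stub n d × Stub n d => s5Zv ℝ d n P (.trL0 h s) (π.resolve p.1 p.2)) =
      fun p => 1 + (π.L0 (sgn s) ((h : ℚ) : ℝ) + π.dL0 (sgn s) ((h : ℚ) : ℝ) p.1 p.2) ^ 2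
        / ((s5S0 d n : ℚ) : ℝ) ^ 2 := by
    funext p
    simp only [s5Zv, PPair.dL0, add_sub_cancel]
  rw [e]
  refine hst.trans ?_
  have hZ : s5Zv ℝ d n P (.trL0 h s) π =
      1 + π.L0 (sgn s) ((h : ℚ) : ℝ) ^ 2 / ((s5S0 d n : ℚ) : ℝ) ^ 2 := rfl
  rw [hZ]
  refine mul_le_mul_of_nonneg_right ?_ (by positivity)
  have := hN π.l hc.l_ge _ hα1 hα2
  linarith

/-- every candidate keeps at least half of `𝒯` (so the reciprocal account never divides by `0`). -/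
theorem s51_T_next (d : ℕ) (hd : 3 ≤ d) (cp : ℚ) (hcp : 0 < cp) (hcp' : cp ≤ 1 / 4) (CM CR η cT θ' : ℝ) (Rc : ℕ)
    (hη0 : 0 ≤ η) (hη : η < (aa : ℝ) / 20) (hcT : 0 < cT) (hθ' : θ' ≤ (aa : ℝ) / 10) :
    ∀ᶠ n : ℕ in atTop, ∀ π : PPair n d, π.Cur cp CM CR η Rc → π.TSBd cp η → π.TLow cp cT θ' →
      ∀ h ∈ primList d n cp, ∀ s : Bool, 0 < π.Ttr (sgn s) ((h : ℚ) : ℝ) ∧ ∀ p ∈ π.admF (g0 d n),
        π.Ttr (sgn s) ((h : ℚ) : ℝ) / 2 ≤ (π.resolve p.1 p.2).Ttr (sgn s) ((h : ℚ) : ℝ) := by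
  obtain ⟨C, hC, H⟩ := s51c_T_sup d hd cp hcp hcp'
  filter_upwards [H CM CR η ((aa : ℝ) / 20) Rc hη0 hη, s51_alpha_ge d hd cp hcp hcp',
    s51n_T d hd C cT ((aa : ℝ) / 20) θ' hcT le_rfl hθ'] with n h1 hα hN π hc hts hlow h hh s
  have hht := s51d_prim_sub hh
  obtain ⟨hα1, hα2⟩ := hα.2 h hht
  obtain ⟨hT, -, -, hk⟩ := hN π.l hc.l_ge _ hα1 hα2 _ (hlow h hh s)
  refine ⟨hT, fun p hp => ?_⟩
  have h2 := (abs_le.1 ((h1 π hc hts h hht s p hp).trans hk)).1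
  unfold PPair.dTtr at h2
  linarith

theorem s51_step_T (d : ℕ) (hd : 3 ≤ d) (P : S5Par) (hcp : 0 < P.cp) (hcp' : P.cp ≤ 1 / 4) (CM CR η cT θ' c0 : ℝ) (Rc : ℕ)
    (hη0 : 0 ≤ η) (hη : η < (aa : ℝ) / 20) (hcT : 0 < cT) (hθ' : θ' ≤ (aa : ℝ) / 10) (hθ : 0 < P.θ)
    (hc0 : c0 ≤ (aa : ℝ) / 3000) (hc0' : c0 ≤ (P.θ : ℝ) / 5) :
    ∀ᶠ n : ℕ in atTop, ∀ π : PPair n d, π.Cur P.cp CM CR η Rc → π.TSBd P.cp η → π.TLow P.cp cT θ' →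
      ∀ h ∈ primList d n P.cp, ∀ s : Bool,
        avgOn (π.admF (g0 d n)) (fun p => s5Zv ℝ d n P (.recT h s) (π.resolve p.1 p.2)) ≤
          (1 + s51rho c0 d n π.l) * s5Zv ℝ d n P (.recT h s) π := by
  obtain ⟨C1, hC1, H1⟩ := s51c_T_drift d hd P.cp hcp hcp'
  obtain ⟨C2, hC2, H2⟩ := s51c_T_sq d hd P.cp hcp hcp'
  obtain ⟨C3, hC3, H3⟩ := s51c_T_sup d hd P.cp hcp hcp'
  have hx : (0 : ℝ) < (2 / 3 : ℝ) + (15 / 100 : ℝ) * (aa : ℝ) := by rw [parF_aa]; norm_num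
  filter_upwards [H1 CM CR η ((aa : ℝ) / 20) Rc hη0 hη, H2 CM CR η ((aa : ℝ) / 20) Rc hη0 hη,
    H3 CM CR η ((aa : ℝ) / 20) Rc hη0 hη, s51c_nonempty d hd, s51_alpha_ge d hd P.cp hcp hcp',
    s51n_T d hd (max C1 (max C2 C3)) cT ((aa : ℝ) / 20) θ' hcT le_rfl hθ',
    s51n_recip d P hθ c0 hc0 hc0', s51n_scales d hd, parF_ev_large _ hx 6, eventually_ge_atTop 1]
    with n h1 h2 h3 hne hα hN hR hsc hbig hn π hc hts hlow h hh s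
  set C := max C1 (max C2 C3) with hCdef
  have hC1' : C1 ≤ C := le_max_left _ _
  have hC2' : C2 ≤ C := (le_max_left _ _).trans (le_max_right _ _)
  have hC3' : C3 ≤ C := (le_max_right _ _).trans (le_max_right _ _)
  have hC0 : 0 < C := lt_of_lt_of_le hC1 hC1'
  have hht := s51d_prim_sub hh
  have hI := hne π hc.l_ge
  obtain ⟨hαS, hαh⟩ := hα
  obtain ⟨hα1, hα2⟩ := hαh h hht
  have hα0 : 0 < alphaf d ((h : ℚ) : ℝ) := lt_of_lt_of_le hαS hα1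
  obtain ⟨hT, hu, hw, hk⟩ := hN π.l hc.l_ge _ hα1 hα2 _ (hlow h hh s)
  have hn0 : (0 : ℝ) < (n : ℝ) := by exact_mod_cast hn
  -- the size of `l`
  have hl3 : (3 : ℝ) ≤ (π.l : ℝ) := by
    have a1 : (n : ℝ) ^ ((2 / 3 : ℝ) + (15 / 100 : ℝ) * (aa : ℝ)) / 2 ≤ (l0 n : ℝ) := hsc.2.2.1
    have a2 : (l0 n : ℝ) ≤ (π.l : ℝ) := by exact_mod_cast hc.l_ge
    linarith
  have hl0 : (0 : ℝ) < (π.l : ℝ) := by linarith
  set T := π.Ttr (sgn s) ((h : ℚ) : ℝ) with hTdef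
  set α := alphaf d ((h : ℚ) : ℝ) with hαdef
  set κ := ((s5cT P n : ℚ) : ℝ) with hκdef
  have hκ : 0 < κ := by
    have : (0 : ℚ) < s5cT P n := scQ_pos _ _
    rw [hκdef]
    exact_mod_cast this
  have hf : 0 < (n : ℝ)⁻¹ + α / (π.l : ℝ) := by positivity
  have hff : (n : ℝ)⁻¹ + α / (π.l : ℝ) ≤ (n : ℝ)⁻¹ + α / ((π.l : ℝ) - 2) := by
    have : α / (π.l : ℝ) ≤ α / ((π.l : ℝ) - 2) :=
      div_le_div_of_nonneg_left hα0.le (by linarith) (by linarith)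
    linarith
  have huT := s51d_uT_nonneg ((aa : ℝ) / 20) d n π.l α T hα0 hαS hT
  have hwT := s51d_wT_nonneg ((aa : ℝ) / 20) n π.l α T hα0 hT
  have hkJ := s51d_kJ_nonneg n α hα0
  have hsup : ∀ p ∈ π.admF (g0 d n), |π.dTtr (sgn s) ((h : ℚ) : ℝ) p.1 p.2| ≤ T / 2 := fun p hp =>
    ((h3 π hc hts h hht s p hp).trans (mul_le_mul_of_nonneg_right hC3' hkJ)).trans hk
  have hst := s51_recip_account (π.admF (g0 d n)) hI T (4 * α / (π.l : ℝ) ^ 2)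
    (4 * (n : ℝ) ^ (-((aa : ℝ) / 2000)) / (π.l : ℝ) + C * s51uT ((aa : ℝ) / 20) d n π.l α T)
    (C * s51wT ((aa : ℝ) / 20) n π.l α T) κ ((n : ℝ)⁻¹ + α / (π.l : ℝ)) ((n : ℝ)⁻¹ + α / ((π.l : ℝ) - 2)) hT
    (fun p => π.dTtr (sgn s) ((h : ℚ) : ℝ) p.1 p.2) (by positivity) (by positivity) (by positivity) hκ.le hf hff
    hsup
    (by
      refine le_trans ?_ (h1 π hc hts h hh s hT)
      have : C1 * s51uT ((aa : ℝ) / 20) d n π.l α T ≤ C * s51uT ((aa : ℝ) / 20) d n π.l α T :=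
        mul_le_mul_of_nonneg_right hC1' huT
      rw [neg_mul, neg_mul, neg_le_neg_iff]
      refine mul_le_mul_of_nonneg_right ?_ hT.le
      linarith)
    ((h2 π hc hts h hht s hT).trans (by
      refine mul_le_mul_of_nonneg_right ?_ (by positivity)
      exact mul_le_mul_of_nonneg_right hC2' hwT))
  have hle : avgOn (π.admF (g0 d n)) (fun p => s5Zv ℝ d n P (.recT h s) (π.resolve p.1 p.2)) ≤
      avgOn (π.admF (g0 d n)) (fun p => 1 + κ / ((T + π.dTtr (sgn s) ((h : ℚ) : ℝ) p.1 p.2)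
        * ((n : ℝ)⁻¹ + α / ((π.l : ℝ) - 2)))) := by
    refine s51sc_mono _ _ _ fun p hp => le_of_eq ?_
    have hadm := (s51d_mem_admF π _ p).1 hp
    have hne' := (π.s5_adm_ne hadm).1
    have hl' : ((π.resolve p.1 p.2).l : ℝ) = (π.l : ℝ) - 2 := PPair.resolve_l_cast ℝ hadm.1 hadm.2.1 hne'
    have hT' : (π.resolve p.1 p.2).Ttr (sgn s) ((h : ℚ) : ℝ) = T + π.dTtr (sgn s) ((h : ℚ) : ℝ) p.1 p.2 := by
      unfold PPair.dTtr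
      ring
    have hpos : 0 < T + π.dTtr (sgn s) ((h : ℚ) : ℝ) p.1 p.2 := by
      have := (abs_le.1 (hsup p hp)).1
      linarith
    have hf' : 0 < (n : ℝ)⁻¹ + α / ((π.l : ℝ) - 2) := lt_of_lt_of_le hf hff
    simp only [s5Zv]
    rw [hl', hT', abs_of_pos (by positivity)]
  refine hle.trans (hst.trans ?_)
  have hZ : s5Zv ℝ d n P (.recT h s) π = 1 + κ / (T * ((n : ℝ)⁻¹ + α / (π.l : ℝ))) := by
    simp only [s5Zv]
    rw [abs_of_pos (by positivity)]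
  rw [hZ]
  refine mul_le_mul_of_nonneg_right ?_ (by positivity)
  have := hR π.l (by exact_mod_cast hl0) α hα0
  have e : κ * (4 * α / (π.l : ℝ) ^ 2) / ((n : ℝ)⁻¹ + α / (π.l : ℝ)) =
      ((s5cT P n : ℚ) : ℝ) * (4 * α / (π.l : ℝ) ^ 2) / ((n : ℝ)⁻¹ + α / (π.l : ℝ)) := rfl
  linarith

/-! ## Part 4: budget, extraction, initial values -/

/-- sums over the sizes `N - 2 s`. -/
theorem s51d_sum_sizes (N m t : ℕ) (_hm : 1 ≤ m) (ht : m ≤ N - 2 * t) (g : ℕ → ℝ) (hg : ∀ l, 0 ≤ g l) :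
    ∑ s ∈ Finset.range (t + 1), g (N - 2 * s) ≤ ∑ l ∈ Finset.Ioo (m - 1) (N + 1), g l := by
  have hinj : Set.InjOn (fun s : ℕ => N - 2 * s) (Finset.range (t + 1) : Finset ℕ) := by
    intro a ha b hb hab
    have ha' : a < t + 1 := Finset.mem_range.1 ha
    have hb' : b < t + 1 := Finset.mem_range.1 hb
    simp only at hab
    omega
  rw [← Finset.sum_image (f := g) hinj]
  refine Finset.sum_le_sum_of_subset_of_nonneg ?_ fun l _ _ => hg l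
  intro l hl
  obtain ⟨s, hs, rfl⟩ := Finset.mem_image.1 hl
  have hs' : s < t + 1 := Finset.mem_range.1 hs
  rw [Finset.mem_Ioo]
  omega

theorem s51d_sum_inv (N m : ℕ) (_hm : 1 ≤ m) :
    ∑ l ∈ Finset.Ioo (m - 1) (N + 1), ((l : ℝ))⁻¹ ≤ 1 + Real.log N := by
  refine le_trans ?_ (harmonic_le_one_add_log N)
  rw [harmonic_eq_sum_Icc]
  push_cast
  refine Finset.sum_le_sum_of_subset_of_nonneg ?_ fun l _ _ => by positivity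
  intro l hl
  rw [Finset.mem_Ioo] at hl
  rw [Finset.mem_Icc]
  omega

theorem s51d_sum_inv_sq (N m : ℕ) (hm : 1 ≤ m) :
    ∑ l ∈ Finset.Ioo (m - 1) (N + 1), ((l : ℝ) ^ 2)⁻¹ ≤ 2 / (m : ℝ) := by
  refine (sum_Ioo_inv_sq_le (α := ℝ) (m - 1) (N + 1)).trans (le_of_eq ?_)
  congr 1
  have : ((m - 1 : ℕ) : ℝ) = (m : ℝ) - 1 := by
    rw [Nat.cast_sub hm]; norm_num
  rw [this]
  ring

/-- `∑_{l₀ ≤ l ≤ nd} 1/l ≤ 1 + log (nd)`, `∑_{l ≥ l₀} 1/l² ≤ 2/l₀`, `∏ (1 + x) ≤ exp ∑ x`. -/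
theorem s51_budget (d : ℕ) (hd : 3 ≤ d) (c0 : ℝ) (hc0 : 0 < c0) :
    ∀ᶠ n : ℕ in atTop, ∀ t : ℕ, l0 n ≤ n * d - 2 * t →
      ∏ s ∈ Finset.range (t + 1), (1 + s51rho c0 d n (n * d - 2 * s)) ≤ 2 := by
  have hd' : (3 : ℝ) ≤ (d : ℝ) := by exact_mod_cast hd
  have hlogd : 0 ≤ Real.log d := Real.log_nonneg (by linarith)
  filter_upwards [s51n_scales d hd, eventually_ge_atTop 1,
    parF_ev_small (-c0) (by linarith) (1 / (8 * (1 + Real.log d))) (by positivity),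
    parF_ev_small (-(c0 / 2)) (by linarith) (c0 / 16) (by positivity),
    parF_ev_small (-((75 / 100 : ℝ) * (aa : ℝ))) (by rw [parF_aa]; norm_num)
      (1 / (4096 * ((d : ℝ) - 1) ^ 2)) (by
        have : (0 : ℝ) < (d : ℝ) - 1 := by linarith
        positivity)] with n hsc hn hs1 hs2 hs3 t ht
  obtain ⟨hαS, -, hl0, hαl, -⟩ := hsc
  have hn0 : (0 : ℝ) < (n : ℝ) := by exact_mod_cast hn
  have hm : 1 ≤ l0 n := by
    unfold l0 scN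
    have : 0 < 2 ^ (scZ (2 / 3 + 15 / 100 * aa) n).toNat := by positivity
    omega
  have hl0pos : (0 : ℝ) < (l0 n : ℝ) := by exact_mod_cast hm
  have h1 : ∏ s ∈ Finset.range (t + 1), (1 + s51rho c0 d n (n * d - 2 * s)) ≤
      Real.exp (∑ s ∈ Finset.range (t + 1), s51rho c0 d n (n * d - 2 * s)) := by
    rw [Real.exp_sum]
    refine Finset.prod_le_prod (fun s _ => ?_) fun s _ => ?_
    · have := s51rho_nonneg c0 d n (n * d - 2 * s)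
      linarith
    · rw [add_comm]
      exact Real.add_one_le_exp _
  refine h1.trans ?_
  have h2 : ∑ s ∈ Finset.range (t + 1), s51rho c0 d n (n * d - 2 * s) ≤ 1 / 2 := by
    have e : ∀ s, s51rho c0 d n (n * d - 2 * s) =
        (n : ℝ) ^ (-c0) * (((n * d - 2 * s : ℕ) : ℝ))⁻¹ +
          (n : ℝ) ^ ((4 / 10 : ℝ) * (aa : ℝ)) / alphaS d n ^ 2 * ((((n * d - 2 * s : ℕ) : ℝ)) ^ 2)⁻¹ := by
      intro s
      unfold s51rho
      congr 1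
      rw [div_mul_eq_div_div, div_eq_mul_inv]
    simp only [e]
    rw [Finset.sum_add_distrib, ← Finset.mul_sum, ← Finset.mul_sum]
    have a1 : ∑ s ∈ Finset.range (t + 1), (((n * d - 2 * s : ℕ) : ℝ))⁻¹ ≤ 1 + Real.log ((n * d : ℕ) : ℝ) :=
      (s51d_sum_sizes (n * d) (l0 n) t hm ht (fun l => ((l : ℝ))⁻¹) fun l => by positivity).trans
        (s51d_sum_inv _ _ hm)
    have a2 : ∑ s ∈ Finset.range (t + 1), ((((n * d - 2 * s : ℕ) : ℝ)) ^ 2)⁻¹ ≤ 2 / (l0 n : ℝ) :=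
      (s51d_sum_sizes (n * d) (l0 n) t hm ht (fun l => ((l : ℝ) ^ 2)⁻¹) fun l => by positivity).trans
        (s51d_sum_inv_sq _ _ hm)
    have b1 : (n : ℝ) ^ (-c0) * (1 + Real.log ((n * d : ℕ) : ℝ)) ≤ 1 / 4 := by
      have l1 : Real.log ((n * d : ℕ) : ℝ) = Real.log n + Real.log d := by
        push_cast
        exact Real.log_mul hn0.ne' (by linarith)
      have l2 : Real.log n ≤ (n : ℝ) ^ (c0 / 2) / (c0 / 2) := Real.log_le_rpow_div hn0.le (by linarith)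
      have l3 : (n : ℝ) ^ (-c0) * ((n : ℝ) ^ (c0 / 2) / (c0 / 2)) = (n : ℝ) ^ (-(c0 / 2)) * (2 / c0) := by
        rw [← mul_div_assoc, ← Real.rpow_add hn0]
        have : -c0 + c0 / 2 = -(c0 / 2) := by ring
        rw [this]
        field_simp
      have l4 : (n : ℝ) ^ (-c0) * (1 + Real.log d) ≤ 1 / 8 := by
        have := mul_le_mul_of_nonneg_right hs1 (by positivity : 0 ≤ 1 + Real.log d)
        refine this.trans (le_of_eq ?_)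
        field_simp
      have l5 : (n : ℝ) ^ (-(c0 / 2)) * (2 / c0) ≤ 1 / 8 := by
        have := mul_le_mul_of_nonneg_right hs2 (by positivity : 0 ≤ 2 / c0)
        refine this.trans (le_of_eq ?_)
        field_simp
        norm_num
      have l6 : (n : ℝ) ^ (-c0) * Real.log n ≤ (n : ℝ) ^ (-c0) * ((n : ℝ) ^ (c0 / 2) / (c0 / 2)) :=
        mul_le_mul_of_nonneg_left l2 (by positivity)
      rw [l1]
      nlinarith
    have b2 : (n : ℝ) ^ ((4 / 10 : ℝ) * (aa : ℝ)) / alphaS d n ^ 2 * (2 / (l0 n : ℝ)) ≤ 1 / 4 := by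
      have hq : (0 : ℝ) < (d : ℝ) - 1 := by linarith
      have c1 : (n : ℝ) ^ ((4 / 10 : ℝ) * (aa : ℝ)) / alphaS d n ^ 2 * (2 / (l0 n : ℝ)) =
          2 * (n : ℝ) ^ ((4 / 10 : ℝ) * (aa : ℝ)) / (alphaS d n ^ 2 * (l0 n : ℝ)) := by
        field_simp
      rw [c1, div_le_iff₀ (by positivity)]
      have c2 : (n : ℝ) ^ ((4 / 10 : ℝ) * (aa : ℝ)) =
          (n : ℝ) ^ (-((75 / 100 : ℝ) * (aa : ℝ))) * (n : ℝ) ^ ((115 / 100 : ℝ) * (aa : ℝ)) := by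
        rw [← Real.rpow_add hn0]
        congr 1
        ring
      have c3 : (n : ℝ) ^ ((4 / 10 : ℝ) * (aa : ℝ)) ≤
          1 / (4096 * ((d : ℝ) - 1) ^ 2) * (n : ℝ) ^ ((115 / 100 : ℝ) * (aa : ℝ)) := by
        rw [c2]
        exact mul_le_mul_of_nonneg_right hs3 (by positivity)
      have c4 : 1 / (4096 * ((d : ℝ) - 1) ^ 2) * (n : ℝ) ^ ((115 / 100 : ℝ) * (aa : ℝ)) =
          (n : ℝ) ^ ((115 / 100 : ℝ) * (aa : ℝ)) / (512 * ((d : ℝ) - 1) ^ 2) / 8 := by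
        field_simp
        norm_num
      rw [c4] at c3
      linarith
    have d1 := mul_le_mul_of_nonneg_left a1 (by positivity : (0 : ℝ) ≤ (n : ℝ) ^ (-c0))
    have d2 := mul_le_mul_of_nonneg_left a2
      (by positivity : (0 : ℝ) ≤ (n : ℝ) ^ ((4 / 10 : ℝ) * (aa : ℝ)) / alphaS d n ^ 2)
    linarith
  have h3 : (1 / 2 : ℝ) ≤ Real.log 2 := by
    have := Real.log_two_gt_d9
    linarith
  calc Real.exp (∑ s ∈ Finset.range (t + 1), s51rho c0 d n (n * d - 2 * s))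
      ≤ Real.exp (Real.log 2) := Real.exp_le_exp.2 (h2.trans h3)
    _ = 2 := Real.exp_log (by norm_num)

/-- extraction from a square account. -/
theorem s51d_ext_sq (n : ℕ) (hn : 1 ≤ n) (X S x y B : ℝ) (hS : 0 < S) (_hB : 0 < B) (hSB : S ≤ (n : ℝ) ^ x / B)
    (hZ : 1 + X ^ 2 / S ^ 2 ≤ (n : ℝ) ^ (2 * y)) : |X| ≤ (n : ℝ) ^ (x + y) / B := by
  have hn0 : (0 : ℝ) < (n : ℝ) := by exact_mod_cast hn
  have h1 : X ^ 2 / S ^ 2 ≤ (n : ℝ) ^ (2 * y) := by linarith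
  rw [div_le_iff₀ (by positivity)] at h1
  have h2 : (n : ℝ) ^ (2 * y) = ((n : ℝ) ^ y) ^ 2 := by
    rw [← Real.rpow_natCast, ← Real.rpow_mul hn0.le]
    congr 1
    push_cast
    ring
  have h3 : X ^ 2 ≤ ((n : ℝ) ^ y * S) ^ 2 := by
    rw [mul_pow, ← h2]
    exact h1
  have h4 := abs_le_of_sq_le_sq h3 (by positivity)
  refine h4.trans ?_
  rw [Real.rpow_add hn0, mul_comm ((n : ℝ) ^ x), mul_div_assoc]
  exact mul_le_mul_of_nonneg_left hSB (by positivity)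

theorem s51_ext_L1 (d : ℕ) (hd : 3 ≤ d) (P : S5Par) :
    ∀ᶠ n : ℕ in atTop, ∀ π : PPair n d, ∀ (h : ℚ) (s : Bool),
      s5Zv ℝ d n P (.trL1 h s) π ≤ (n : ℝ) ^ ((2 / 100 : ℝ) * (aa : ℝ)) →
      |π.L1 (sgn s) ((h : ℚ) : ℝ)| ≤ (n : ℝ) ^ ((75 / 1000 : ℝ) * (aa : ℝ)) / alphaS d n := by
  filter_upwards [s51n_scales d hd, eventually_ge_atTop 1] with n hsc hn π h s hZ
  obtain ⟨hαS, -, -, -, -, hS1, -, -⟩ := hsc
  have := s51d_ext_sq n hn (π.L1 (sgn s) ((h : ℚ) : ℝ)) ((s5S1 d n : ℚ) : ℝ) ((65 / 1000 : ℝ) * (aa : ℝ))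
    ((1 / 100 : ℝ) * (aa : ℝ)) (alphaS d n) (s51d_S1_pos d n hαS) hαS hS1 (by
      refine le_trans (le_of_eq rfl) (hZ.trans (le_of_eq ?_))
      congr 1
      ring)
  refine this.trans (le_of_eq ?_)
  congr 2
  ring

theorem s51_ext_L0 (d : ℕ) (hd : 3 ≤ d) (P : S5Par) :
    ∀ᶠ n : ℕ in atTop, ∀ π : PPair n d, ∀ (h : ℚ) (s : Bool),
      s5Zv ℝ d n P (.trL0 h s) π ≤ (n : ℝ) ^ ((2 / 100 : ℝ) * (aa : ℝ)) →
      |π.L0 (sgn s) ((h : ℚ) : ℝ)| ≤ (n : ℝ) ^ ((105 / 1000 : ℝ) * (aa : ℝ)) / alphaS d n ^ 2 := by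
  filter_upwards [s51n_scales d hd, eventually_ge_atTop 1] with n hsc hn π h s hZ
  obtain ⟨hαS, -, -, -, -, -, -, hS0⟩ := hsc
  have := s51d_ext_sq n hn (π.L0 (sgn s) ((h : ℚ) : ℝ)) ((s5S0 d n : ℚ) : ℝ) ((95 / 1000 : ℝ) * (aa : ℝ))
    ((1 / 100 : ℝ) * (aa : ℝ)) (alphaS d n ^ 2) (s51d_S0_pos d n hαS) (by positivity) hS0 (by
      refine le_trans (le_of_eq rfl) (hZ.trans (le_of_eq ?_))
      congr 1
      ring)
  refine this.trans (le_of_eq ?_)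
  congr 2
  ring

/-- `1 + κ/(T f) ≤ n^{θ/4}`, `κ ≥ n^{-θ/4}/2`, `T > 0`, `f > 0`  ⟹  `T ≥ (1/2) n^{-θ/2} / f`. -/
theorem s51_ext_T (d n : ℕ) (hn : 1 ≤ n) (P : S5Par) (hθ : 0 ≤ P.θ) (π : PPair n d) (hl : 0 < π.l) (h : ℚ) (s : Bool)
    (hα : 0 < alphaf d ((h : ℚ) : ℝ)) (hT : 0 < π.Ttr (sgn s) ((h : ℚ) : ℝ))
    (hZ : s5Zv ℝ d n P (.recT h s) π ≤ (n : ℝ) ^ ((P.θ : ℝ) / 4)) :
    1 / 2 * (n : ℝ) ^ (-((P.θ : ℝ) / 2)) * ((n : ℝ)⁻¹ + alphaf d ((h : ℚ) : ℝ) / (π.l : ℝ))⁻¹ ≤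
      π.Ttr (sgn s) ((h : ℚ) : ℝ) := by
  have hn0 : (0 : ℝ) < (n : ℝ) := by exact_mod_cast hn
  have hl0 : (0 : ℝ) < (π.l : ℝ) := by exact_mod_cast hl
  have hκ : (n : ℝ) ^ (-((P.θ : ℝ) / 4)) / 2 ≤ ((s5cT P n : ℚ) : ℝ) := by
    have := le_scQ_of_nonpos (-(P.θ / 4)) (by linarith) n hn
    refine le_trans (le_of_eq ?_) this
    push_cast
    rfl
  set T := π.Ttr (sgn s) ((h : ℚ) : ℝ) with hTdef
  set f := (n : ℝ)⁻¹ + alphaf d ((h : ℚ) : ℝ) / (π.l : ℝ) with hfdef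
  set κ := ((s5cT P n : ℚ) : ℝ) with hκdef
  have hf : 0 < f := by positivity
  have hκ0 : 0 < κ := lt_of_lt_of_le (by positivity) hκ
  have hZ' : 1 + κ / (T * f) ≤ (n : ℝ) ^ ((P.θ : ℝ) / 4) := by
    have e : s5Zv ℝ d n P (.recT h s) π = 1 + |κ / (T * f)| := rfl
    rw [e, abs_of_pos (by positivity)] at hZ
    exact hZ
  have h1 : κ / (T * f) ≤ (n : ℝ) ^ ((P.θ : ℝ) / 4) := by linarith
  rw [div_le_iff₀ (by positivity)] at h1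
  have h2 : (n : ℝ) ^ (-((P.θ : ℝ) / 2)) = (n : ℝ) ^ (-((P.θ : ℝ) / 4)) * (n : ℝ) ^ (-((P.θ : ℝ) / 4)) := by
    rw [← Real.rpow_add hn0]
    congr 1
    ring
  have h3 : (n : ℝ) ^ (-((P.θ : ℝ) / 4)) * (n : ℝ) ^ ((P.θ : ℝ) / 4) = 1 := by
    rw [← Real.rpow_add hn0]
    simp
  rw [← div_eq_mul_inv, div_le_iff₀ hf, h2]
  have h4 : (n : ℝ) ^ (-((P.θ : ℝ) / 4)) * ((n : ℝ) ^ (-((P.θ : ℝ) / 4)) / 2) ≤
      (n : ℝ) ^ (-((P.θ : ℝ) / 4)) * ((n : ℝ) ^ ((P.θ : ℝ) / 4) * (T * f)) :=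
    mul_le_mul_of_nonneg_left (hκ.trans h1) (by positivity)
  rw [← mul_assoc, h3, one_mul] at h4
  linarith

theorem s51d_trace_Pi1 (n : ℕ) (hn : 0 < n) : (Pi1 ℝ n).trace = (n : ℝ) - 1 := by
  rw [Pi1, Matrix.trace_sub, Matrix.trace_one, s45g_trace_J1 hn, Fintype.card_fin]

theorem s51d_Dcal_empty (n d : ℕ) (hn : 0 < n) (hd : 0 < d) :
    (PPair.empty n d).Dcal ℝ = (d : ℝ) • Pi1 ℝ n := by
  have hnK : (n : ℝ) ≠ 0 := Nat.cast_ne_zero.2 hn.ne'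
  have hdK : (d : ℝ) ≠ 0 := Nat.cast_ne_zero.2 hd.ne'
  ext a b
  rw [PPair.Dcal_eq]
  simp only [Matrix.sub_apply, Matrix.smul_apply, vecMulVec_apply, PPair.tvec, PPair.tcount_empty,
    PPair.l_empty, J1, Pi1, smul_eq_mul, Matrix.diagonal_apply, Matrix.one_apply]
  push_cast
  by_cases hab : a = b
  · simp [hab]; field_simp
  · simp [hab]; field_simp

/-- the empty state: `W = Π`, `L_1 = 1 - d`, `L_0 = 0`, `𝒯 = d (n - 1)`. -/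
theorem s51_init (n d : ℕ) (hn : 0 < n) (hd : 0 < d) (σ h : ℝ) (h0 : 0 < h) (h1 : h < 1) :
    (PPair.empty n d).l = n * d ∧ (PPair.empty n d).Wmat σ h = Pi1 ℝ n ∧
    (PPair.empty n d).L1 σ h = 1 - (d : ℝ) ∧ (PPair.empty n d).L0 σ h = 0 ∧
    (PPair.empty n d).Ttr σ h = (d : ℝ) * ((n : ℝ) - 1) := by
  have hW : (PPair.empty n d).Wmat σ h = Pi1 ℝ n :=
    PPair.Wmat_empty hn hd σ h h0.ne' (by nlinarith)
  have hD := s51d_Dcal_empty n d hn hd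
  have hl : (PPair.empty n d).l = n * d := PPair.l_empty
  refine ⟨hl, hW, ?_, ?_, ?_⟩
  · rw [PPair.L1, PPair.F1, hW, hD, Matrix.smul_mul, Pi1_mul_Pi1 ℝ hn, Matrix.trace_smul, s51d_trace_Pi1 n hn, hl]
    push_cast
    rw [smul_eq_mul]
    ring
  · rw [PPair.L0, PPair.F0, hW, s51d_trace_Pi1 n hn]
    ring
  · rw [PPair.Ttr, PPair.Qall, hW, Pi1_mul_Pi1 ℝ hn, Matrix.mul_assoc, Matrix.trace_mul_comm, Matrix.mul_assoc,
      ← PPair.Dcal_eq_Xi_mul, hD, Matrix.mul_smul, Pi1_mul_Pi1 ℝ hn, Matrix.trace_smul, s51d_trace_Pi1 n hn,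
      smul_eq_mul]

theorem s51d_range (d : ℕ) (hd : 3 ≤ d) (h : ℝ) (h1 : 1 / (2 * Real.sqrt ((d : ℝ) - 1)) ≤ h)
    (h2 : h < 1 / Real.sqrt ((d : ℝ) - 1)) : 0 < h ∧ h < 1 := by
  obtain ⟨hr1, -⟩ := parF_sqrtq d hd
  constructor
  · exact lt_of_lt_of_le (by positivity) h1
  · refine h2.trans ?_
    rw [div_lt_one (by linarith)]
    exact hr1

theorem s51_init_acc (d : ℕ) (hd : 3 ≤ d) (P : S5Par) (hcp : 0 < P.cp) (hcp' : P.cp ≤ 1 / 4) (hθ : 0 ≤ P.θ) :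
    ∀ᶠ n : ℕ in atTop, ∀ h ∈ trackedList d n P.cp, ∀ s : Bool,
      s5Zv ℝ d n P (.trL1 h s) (PPair.empty n d) ≤ 2 ∧ s5Zv ℝ d n P (.trL0 h s) (PPair.empty n d) = 1 ∧
      s5Zv ℝ d n P (.recT h s) (PPair.empty n d) ≤ 2 := by
  have hd' : (3 : ℝ) ≤ (d : ℝ) := by exact_mod_cast hd
  filter_upwards [tracked_range d hd P.cp hcp hcp', s51_alpha_ge d hd P.cp hcp hcp', s51n_scales d hd,
    eventually_ge_atTop 2,
    parF_ev_large ((65 / 1000 : ℝ) * (aa : ℝ)) (by rw [parF_aa]; norm_num) (4 * (d : ℝ))]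
    with n hr hα hsc hn hbig h hh s
  obtain ⟨h0, h1⟩ := s51d_range d hd _ (hr h hh).1 (hr h hh).2
  obtain ⟨hl, -, hL1, hL0, hT⟩ := s51_init n d (by omega) (by omega) (sgn s) ((h : ℚ) : ℝ) h0 h1
  obtain ⟨hαS, hαh⟩ := hα
  obtain ⟨hα1, hα2⟩ := hαh h hh
  have hα0 : 0 < alphaf d ((h : ℚ) : ℝ) := lt_of_lt_of_le hαS hα1
  have hn2 : (2 : ℝ) ≤ (n : ℝ) := by exact_mod_cast hn
  refine ⟨?_, ?_, ?_⟩
  · have e : s5Zv ℝ d n P (.trL1 h s) (PPair.empty n d) =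
        1 + (PPair.empty n d).L1 (sgn s) ((h : ℚ) : ℝ) ^ 2 / ((s5S1 d n : ℚ) : ℝ) ^ 2 := rfl
    rw [e, hL1]
    have hS := s51d_S1_pos d n hαS
    have hS1 : (d : ℝ) ≤ ((s5S1 d n : ℚ) : ℝ) := by
      refine le_trans ?_ hsc.2.2.2.2.1
      rw [le_div_iff₀ (by positivity)]
      have : alphaS d n ≤ 1 := hsc.2.1
      nlinarith
    have : (1 - (d : ℝ)) ^ 2 / ((s5S1 d n : ℚ) : ℝ) ^ 2 ≤ 1 := by
      rw [div_le_one (by positivity)]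
      nlinarith
    linarith
  · have e : s5Zv ℝ d n P (.trL0 h s) (PPair.empty n d) =
        1 + (PPair.empty n d).L0 (sgn s) ((h : ℚ) : ℝ) ^ 2 / ((s5S0 d n : ℚ) : ℝ) ^ 2 := rfl
    rw [e, hL0]
    simp
  · have e : s5Zv ℝ d n P (.recT h s) (PPair.empty n d) =
        1 + |((s5cT P n : ℚ) : ℝ) / ((PPair.empty n d).Ttr (sgn s) ((h : ℚ) : ℝ) *
          ((n : ℝ)⁻¹ + alphaf d ((h : ℚ) : ℝ) / ((PPair.empty n d).l : ℝ)))| := rfl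
    rw [e, hT, hl]
    have hκ0 : (0 : ℝ) < ((s5cT P n : ℚ) : ℝ) := by
      have : (0 : ℚ) < s5cT P n := scQ_pos _ _
      exact_mod_cast this
    have hκ1 : ((s5cT P n : ℚ) : ℝ) ≤ 1 := by
      have h5 : scZ (-(P.θ / 4)) n ≤ 0 := by
        unfold scZ
        rw [← Int.cast_le (R := ℚ)]
        refine (Int.floor_le _).trans ?_
        push_cast
        have : (0 : ℚ) ≤ (Nat.log 2 n : ℚ) := by positivity
        nlinarith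
      have : s5cT P n ≤ 1 := by
        unfold s5cT scQ
        exact zpow_le_one_of_nonpos₀ (by norm_num) h5
      exact_mod_cast this
    have hnd : (0 : ℝ) < ((n * d : ℕ) : ℝ) := by
      push_cast
      positivity
    have hden : 1 ≤ (d : ℝ) * ((n : ℝ) - 1) * ((n : ℝ)⁻¹ + alphaf d ((h : ℚ) : ℝ) / ((n * d : ℕ) : ℝ)) := by
      have a1 : (n : ℝ)⁻¹ ≤ (n : ℝ)⁻¹ + alphaf d ((h : ℚ) : ℝ) / ((n * d : ℕ) : ℝ) := by
        have : 0 ≤ alphaf d ((h : ℚ) : ℝ) / ((n * d : ℕ) : ℝ) := by positivity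
        linarith
      have a2 : 1 ≤ (d : ℝ) * ((n : ℝ) - 1) * (n : ℝ)⁻¹ := by
        rw [← div_eq_mul_inv, le_div_iff₀ (by linarith)]
        nlinarith
      refine a2.trans (mul_le_mul_of_nonneg_left a1 ?_)
      have : 0 ≤ (n : ℝ) - 1 := by linarith
      positivity
    rw [abs_of_pos (div_pos hκ0 (by linarith))]
    have : ((s5cT P n : ℚ) : ℝ) /
        ((d : ℝ) * ((n : ℝ) - 1) * ((n : ℝ)⁻¹ + alphaf d ((h : ℚ) : ℝ) / ((n * d : ℕ) : ℝ))) ≤ 1 := by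
      rw [div_le_one (by linarith)]
      linarith
    linarith

theorem s51_init_TLow (d : ℕ) (hd : 3 ≤ d) (cp : ℚ) (hcp : 0 < cp) (hcp' : cp ≤ 1 / 4) (cT θ' : ℝ) (hcT : cT ≤ 1)
    (hθ' : 0 ≤ θ') : ∀ᶠ n : ℕ in atTop, (PPair.empty n d).TLow cp cT θ' := by
  have hd' : (3 : ℝ) ≤ (d : ℝ) := by exact_mod_cast hd
  filter_upwards [tracked_range d hd cp hcp hcp', s51_alpha_ge d hd cp hcp hcp', eventually_ge_atTop 2]
    with n hr hα hn h hh s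
  have hht := s51d_prim_sub hh
  obtain ⟨h0, h1⟩ := s51d_range d hd _ (hr h hht).1 (hr h hht).2
  obtain ⟨hl, -, -, -, hT⟩ := s51_init n d (by omega) (by omega) (sgn s) ((h : ℚ) : ℝ) h0 h1
  obtain ⟨hαS, hαh⟩ := hα
  obtain ⟨hα1, hα2⟩ := hαh h hht
  have hα0 : 0 < alphaf d ((h : ℚ) : ℝ) := lt_of_lt_of_le hαS hα1
  have hn2 : (2 : ℝ) ≤ (n : ℝ) := by exact_mod_cast hn
  have hn0 : (0 : ℝ) < (n : ℝ) := by linarith
  rw [hT, hl]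
  have hnd : (0 : ℝ) < ((n * d : ℕ) : ℝ) := by
    push_cast
    positivity
  have a1 : ((n : ℝ)⁻¹ + alphaf d ((h : ℚ) : ℝ) / ((n * d : ℕ) : ℝ))⁻¹ ≤ (n : ℝ) := by
    rw [inv_le_comm₀ (by positivity) hn0]
    have : 0 ≤ alphaf d ((h : ℚ) : ℝ) / ((n * d : ℕ) : ℝ) := by positivity
    linarith
  have a0 : 0 ≤ ((n : ℝ)⁻¹ + alphaf d ((h : ℚ) : ℝ) / ((n * d : ℕ) : ℝ))⁻¹ := by positivity
  have a2 : (n : ℝ) ^ (-θ') ≤ 1 := Real.rpow_le_one_of_one_le_of_nonpos (by linarith) (by linarith)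
  have a3 : 0 ≤ (n : ℝ) ^ (-θ') := by positivity
  have a4 : cT * (n : ℝ) ^ (-θ') ≤ 1 := by nlinarith
  have a5 : cT * (n : ℝ) ^ (-θ') * ((n : ℝ)⁻¹ + alphaf d ((h : ℚ) : ℝ) / ((n * d : ℕ) : ℝ))⁻¹ ≤
      1 * ((n : ℝ)⁻¹ + alphaf d ((h : ℚ) : ℝ) / ((n * d : ℕ) : ℝ))⁻¹ := mul_le_mul_of_nonneg_right a4 a0
  nlinarith

end Claimed.Agent.R275
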