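import Claimed.Agent.R275.S5Base

/-!
# Row 275, Sec 5.3 (early.tex l. 640-760), package S53-ABS: the drift of `T_S`, abstract averaging layer (layer B of `S5Base.lean`)

Owner: helper114.  Prefix `s53`.  ONLY finite sums and Young's inequality.  No graph, no `n`, no asymptotics, no paper needed.

SETTING.  `α` any type, `S` the unresolved stubs, `l = |S|`, `Vd` the valid ordered pairs (`S5Valid`), `N = |Vd|`.
* `e x` the diagonal errors, `T = ∑_S e²`, `Δ p x` = increment of `e x` when the pair `p = (u, v)` is resolved, `Z p x` = copy increment.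

HAND PROOF of `s53_abs_core` (all sums over `p = (u,v) ∈ Vd`, `x ∈ S \ {u,v}`; `l(l-1-Dg) ≤ N ≤ l(l-1)`; `η = (Dg+1)/l ≤ δ/32`):
`∑_p ∑_x (e_x + Δ)² = ∑∑ e_x² + 2 ∑∑ e_x Δ + ∑∑ Δ²`.
1. (`s53_abs_del`) `∑_p ∑_x e_x² = ∑_x e_x² #Surv_x ≤ (N - 2 (l-1-Dg)) T`   (`s5_card_hit`).
2. (`s53_abs_first`) `2 ∑_p ∑_x e_x Δ = 2 ∑_x e_x ∑_{Surv_x} Δ ≤ N ∑_x 2 mu |e_x| ≤ N (c T / l + l² mu² / c)`, `c = δ/4`.
3. `Δ² ≤ (1+ε) Z² + (1+1/ε) (Δ - Z)²`, `ε = δ/2`.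
4. Divide by `N`: coefficient of `T`: `1 - (2/l)(1-η) + (1+δ/2)(1-δ)(2/l)(1+2η) + δ/(4l) ≤ 1 - 13δ/(16 l) + 4δ/(16 l) ≤ 1 - δ/(2l)`.
-/

set_option autoImplicit false

namespace Claimed.Agent.R275

open Finset

variable {α : Type} [DecidableEq α]

/-- the remainder majorant of `Δ - Z` -/
noncomputable def s53G (l : ℕ) (dm : ℝ) (r : α → α → ℝ) (j : α → ℝ) (B : α → α → ℝ) (ρ : α × α → α → ℝ)
    (p : α × α) (x : α) : ℝ :=
  r x p.1 * r x p.2 + r x p.1 ^ 2 * (j p.2 + B p.1 p.2) + r x p.2 ^ 2 * (j p.1 + B p.1 p.2)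
    + (dm ^ 2 + 1 / (l : ℝ)) * (r x p.1 + r x p.2) + (1 / (l : ℝ)) ^ 2 + ρ p x

section

variable {S : Finset α} {Vd : Finset (α × α)} {Dg : ℕ}

/-- exchange of the order of summation: `∑_{p ∈ Vd} ∑_{x ∈ S \ {u,v}} f = ∑_{x ∈ S} ∑_{p ∈ s5Surv Vd {x}} f` -/
theorem s53_abs_swap (S : Finset α) (Vd : Finset (α × α)) (f : α × α → α → ℝ) :
    ∑ p ∈ Vd, ∑ x ∈ (S.erase p.1).erase p.2, f p x = ∑ x ∈ S, ∑ p ∈ s5Surv Vd {x}, f p x := by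
  apply Finset.sum_comm'
  intro p x
  simp only [s5Surv, mem_erase, mem_filter, mem_singleton]
  constructor
  · rintro ⟨hp, h2, h1, hx⟩
    exact ⟨⟨hp, fun h => h1 h.symm, fun h => h2 h.symm⟩, hx⟩
  · rintro ⟨⟨hp, h1, h2⟩, hx⟩
    exact ⟨hp, fun h => h2 h.symm, fun h => h1 h.symm, hx⟩

/-- step 1 (deletion) and step 2 (first order term, Young form) -/
theorem s53_abs_del (hV : S5Valid S Vd Dg) (e : α → ℝ) :
    ∑ p ∈ Vd, ∑ x ∈ (S.erase p.1).erase p.2, e x ^ 2 ≤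
      ((Vd.card : ℝ) - 2 * ((S.card : ℝ) - 1 - Dg)) * ∑ x ∈ S, e x ^ 2 := by
  rw [s53_abs_swap S Vd (fun _ x => e x ^ 2), mul_sum]
  apply sum_le_sum
  intro x hx
  rw [sum_const, nsmul_eq_mul]
  have := s5_card_hit hV hx
  exact mul_le_mul_of_nonneg_right (by linarith) (sq_nonneg _)

theorem s53_abs_first (e : α → ℝ) (Δ : α × α → α → ℝ) (mu c : ℝ) (hc : 0 < c) (hS : 0 < S.card)
    (hm : ∀ x ∈ S, |∑ p ∈ s5Surv Vd {x}, Δ p x| ≤ mu * (Vd.card : ℝ)) :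
    2 * ∑ p ∈ Vd, ∑ x ∈ (S.erase p.1).erase p.2, e x * Δ p x ≤
      (Vd.card : ℝ) * (c / (S.card : ℝ) * ∑ x ∈ S, e x ^ 2 + (S.card : ℝ) ^ 2 * mu ^ 2 / c) := by
  have hl : (0 : ℝ) < S.card := by exact_mod_cast hS
  rw [s53_abs_swap S Vd (fun p x => e x * Δ p x)]
  have h1 : ∀ x ∈ S, 2 * ∑ p ∈ s5Surv Vd {x}, e x * Δ p x ≤
      (Vd.card : ℝ) * (c / (S.card : ℝ) * e x ^ 2 + (S.card : ℝ) * mu ^ 2 / c) := by
    intro x hx
    rw [← mul_sum]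
    have h2 : e x * ∑ p ∈ s5Surv Vd {x}, Δ p x ≤ |e x| * (mu * (Vd.card : ℝ)) := by
      calc e x * ∑ p ∈ s5Surv Vd {x}, Δ p x ≤ |e x * ∑ p ∈ s5Surv Vd {x}, Δ p x| := le_abs_self _
        _ = |e x| * |∑ p ∈ s5Surv Vd {x}, Δ p x| := abs_mul _ _
        _ ≤ _ := mul_le_mul_of_nonneg_left (hm x hx) (abs_nonneg _)
    have h3 : 2 * (|e x| * mu) ≤ c / (S.card : ℝ) * e x ^ 2 + (S.card : ℝ) * mu ^ 2 / c := by
      have ha : 0 < c / (S.card : ℝ) := div_pos hc hl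
      have h4 : (S.card : ℝ) * mu ^ 2 / c = mu ^ 2 / (c / (S.card : ℝ)) := by
        field_simp
      rw [h4, ← sq_abs (e x)]
      set a := c / (S.card : ℝ)
      have h5 : a * |e x| ^ 2 + mu ^ 2 / a - 2 * (|e x| * mu) = (a * |e x| - mu) ^ 2 / a := by
        field_simp; ring
      have h6 : 0 ≤ (a * |e x| - mu) ^ 2 / a := by positivity
      linarith
    have hN : (0 : ℝ) ≤ Vd.card := Nat.cast_nonneg _
    calc 2 * (e x * ∑ p ∈ s5Surv Vd {x}, Δ p x) ≤ 2 * (|e x| * (mu * (Vd.card : ℝ))) := by linarith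
      _ = (Vd.card : ℝ) * (2 * (|e x| * mu)) := by ring
      _ ≤ _ := mul_le_mul_of_nonneg_left h3 hN
  calc 2 * ∑ x ∈ S, ∑ p ∈ s5Surv Vd {x}, e x * Δ p x = ∑ x ∈ S, 2 * ∑ p ∈ s5Surv Vd {x}, e x * Δ p x := by
        rw [mul_sum]
    _ ≤ ∑ x ∈ S, (Vd.card : ℝ) * (c / (S.card : ℝ) * e x ^ 2 + (S.card : ℝ) * mu ^ 2 / c) := sum_le_sum h1
    _ = _ := by
        rw [← mul_sum, sum_add_distrib, ← mul_sum, sum_const, nsmul_eq_mul]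
        ring
/-- THE DRIFT OF `T_S`, abstract core -/
theorem s53_abs_core (hV : S5Valid S Vd Dg) (e : α → ℝ) (Δ Z : α × α → α → ℝ) (δ κ mu Xc Rm : ℝ)
    (hδ : 0 < δ) (hδ1 : δ ≤ 1) (hκ : κ ≤ 1 - δ) (hDg : 32 * ((Dg : ℝ) + 1) ≤ δ * (S.card : ℝ))
    (hXc : 0 ≤ Xc)
    (mean : ∀ x ∈ S, |∑ p ∈ s5Surv Vd {x}, Δ p x| ≤ mu * (Vd.card : ℝ))
    (copy : ∑ p ∈ Vd, ∑ x ∈ (S.erase p.1).erase p.2, Z p x ^ 2 ≤ 2 * (S.card : ℝ) * κ * ∑ x ∈ S, e x ^ 2 + Xc)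
    (rem : ∑ p ∈ Vd, ∑ x ∈ (S.erase p.1).erase p.2, (Δ p x - Z p x) ^ 2 ≤ Rm) :
    avgOn Vd (fun p => ∑ x ∈ (S.erase p.1).erase p.2, (e x + Δ p x) ^ 2) ≤
      (1 - δ / (2 * (S.card : ℝ))) * ∑ x ∈ S, e x ^ 2 + 4 / δ * ((S.card : ℝ) ^ 2 * mu ^ 2)
        + 3 * Xc / (S.card : ℝ) ^ 2 + (2 + 4 / δ) * Rm / (S.card : ℝ) ^ 2 := by
  have hD0 : (0 : ℝ) ≤ Dg := Nat.cast_nonneg _
  have hl32 : (32 : ℝ) ≤ S.card := by nlinarith
  have hl : (0 : ℝ) < S.card := by linarith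
  have hS : 0 < S.card := by exact_mod_cast hl
  obtain ⟨hN1, hN2⟩ := s5_card_valid hV
  set l : ℝ := (S.card : ℝ) with hldef
  set N : ℝ := (Vd.card : ℝ) with hNdef
  set D : ℝ := (Dg : ℝ) with hDdef
  set T : ℝ := ∑ x ∈ S, e x ^ 2 with hTdef
  have hT : 0 ≤ T := sum_nonneg (fun x _ => sq_nonneg _)
  have hRm : 0 ≤ Rm := le_trans (sum_nonneg (fun p _ => sum_nonneg (fun x _ => sq_nonneg _))) rem
  have hNl : l ^ 2 / 2 ≤ N := by nlinarith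
  have hN : 0 < N := by nlinarith
  -- pointwise Young
  have hpt : ∀ p x, (e x + Δ p x) ^ 2 ≤ e x ^ 2 + 2 * (e x * Δ p x) + (1 + δ / 2) * Z p x ^ 2
      + (1 + 2 / δ) * (Δ p x - Z p x) ^ 2 := by
    intro p x
    set w := Δ p x - Z p x with hw
    have h1 : Δ p x = Z p x + w := by rw [hw]; ring
    have h2 : 2 * (Z p x * w) ≤ δ / 2 * Z p x ^ 2 + 2 / δ * w ^ 2 := by
      have h3 : δ / 2 * Z p x ^ 2 + 2 / δ * w ^ 2 - 2 * (Z p x * w) = (δ / 2 * Z p x - w) ^ 2 / (δ / 2) := by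
        field_simp; ring
      have h4 : 0 ≤ (δ / 2 * Z p x - w) ^ 2 / (δ / 2) := by positivity
      linarith
    rw [h1]
    nlinarith
  have hsum : ∑ p ∈ Vd, ∑ x ∈ (S.erase p.1).erase p.2, (e x + Δ p x) ^ 2 ≤
      (N - 2 * (l - 1 - D)) * T + N * ((δ / 4) / l * T + l ^ 2 * mu ^ 2 / (δ / 4))
        + (1 + δ / 2) * (2 * l * κ * T + Xc) + (1 + 2 / δ) * Rm := by
    calc ∑ p ∈ Vd, ∑ x ∈ (S.erase p.1).erase p.2, (e x + Δ p x) ^ 2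
        ≤ ∑ p ∈ Vd, ∑ x ∈ (S.erase p.1).erase p.2, (e x ^ 2 + 2 * (e x * Δ p x) + (1 + δ / 2) * Z p x ^ 2
      + (1 + 2 / δ) * (Δ p x - Z p x) ^ 2) := sum_le_sum (fun p _ => sum_le_sum (fun x _ => hpt p x))
      _ = ∑ p ∈ Vd, ∑ x ∈ (S.erase p.1).erase p.2, e x ^ 2
          + 2 * ∑ p ∈ Vd, ∑ x ∈ (S.erase p.1).erase p.2, e x * Δ p x
          + (1 + δ / 2) * ∑ p ∈ Vd, ∑ x ∈ (S.erase p.1).erase p.2, Z p x ^ 2
          + (1 + 2 / δ) * ∑ p ∈ Vd, ∑ x ∈ (S.erase p.1).erase p.2, (Δ p x - Z p x) ^ 2 := by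
        simp only [sum_add_distrib, mul_sum]
      _ ≤ _ := by
        have a1 := s53_abs_del hV e
        have a2 := s53_abs_first (S := S) (Vd := Vd) e Δ mu (δ / 4) (by positivity) hS mean
        have a3 := mul_le_mul_of_nonneg_left copy (show (0 : ℝ) ≤ 1 + δ / 2 by positivity)
        have a4 := mul_le_mul_of_nonneg_left rem (show (0 : ℝ) ≤ 1 + 2 / δ by positivity)
        linarith
  rw [avgOn, div_le_iff₀ hN]
  refine hsum.trans ?_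
  have hm : N / l ≤ l - 1 := by
    rw [div_le_iff₀ hl]; linarith
  have hν : 1 / 2 ≤ N / l ^ 2 := by
    rw [le_div_iff₀ (by positivity)]; linarith
  -- (a)
  have ha : (N - 2 * (l - 1 - D)) + N * ((δ / 4) / l) + (1 + δ / 2) * (2 * l * κ) ≤ (1 - δ / (2 * l)) * N := by
    have e1 : N * ((δ / 4) / l) = δ / 4 * (N / l) := by ring
    have e2 : (1 - δ / (2 * l)) * N = N - δ / 2 * (N / l) := by field_simp
    rw [e1, e2]
    have h5 : (1 + δ / 2) * (2 * l * κ) ≤ (1 + δ / 2) * (2 * l * (1 - δ)) := by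
      apply mul_le_mul_of_nonneg_left _ (by positivity)
      apply mul_le_mul_of_nonneg_left hκ (by positivity)
    have h6 : δ * (N / l) ≤ δ * (l - 1) := mul_le_mul_of_nonneg_left hm hδ.le
    nlinarith
  have ha' := mul_le_mul_of_nonneg_right ha hT
  have hb : (1 + δ / 2) * Xc ≤ 3 * Xc / l ^ 2 * N := by
    have e1 : 3 * Xc / l ^ 2 * N = 3 * Xc * (N / l ^ 2) := by ring
    rw [e1]
    nlinarith
  have hc : (1 + 2 / δ) * Rm ≤ (2 + 4 / δ) * Rm / l ^ 2 * N := by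
    have e1 : (2 + 4 / δ) * Rm / l ^ 2 * N = (1 + 2 / δ) * Rm * (2 * (N / l ^ 2)) := by ring
    rw [e1]
    have : 0 ≤ (1 + 2 / δ) * Rm := by positivity
    nlinarith
  have hd : N * (l ^ 2 * mu ^ 2 / (δ / 4)) = 4 / δ * (l ^ 2 * mu ^ 2) * N := by
    field_simp
  calc (N - 2 * (l - 1 - D)) * T + N * ((δ / 4) / l * T + l ^ 2 * mu ^ 2 / (δ / 4))
        + (1 + δ / 2) * (2 * l * κ * T + Xc) + (1 + 2 / δ) * Rm
      = ((N - 2 * (l - 1 - D)) + N * ((δ / 4) / l) + (1 + δ / 2) * (2 * l * κ)) * T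
        + N * (l ^ 2 * mu ^ 2 / (δ / 4)) + (1 + δ / 2) * Xc + (1 + 2 / δ) * Rm := by ring
    _ ≤ (1 - δ / (2 * l)) * N * T + 4 / δ * (l ^ 2 * mu ^ 2) * N + 3 * Xc / l ^ 2 * N
        + (2 + 4 / δ) * Rm / l ^ 2 * N := by linarith
    _ = _ := by ring
/-- enlarging the range of nonnegative triple sums; (5.25), sum form: the copy increments `Z = h² (P_xu² e_v + P_xv² e_u)` -/
theorem s53_abs_sub_prod (hV : S5Valid S Vd Dg) : Vd ⊆ S ×ˢ S := by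
  intro p hp
  have := hV.sub hp
  rw [mem_offDiag] at this
  exact mem_product.2 ⟨this.1, this.2.1⟩

theorem s53_abs_enlarge (hV : S5Valid S Vd Dg) (f : α → α → α → ℝ) (hf : ∀ u v x, 0 ≤ f u v x) :
    ∑ p ∈ Vd, ∑ x ∈ (S.erase p.1).erase p.2, f p.1 p.2 x ≤ ∑ u ∈ S, ∑ v ∈ S, ∑ x ∈ S.erase u, f u v x := by
  calc ∑ p ∈ Vd, ∑ x ∈ (S.erase p.1).erase p.2, f p.1 p.2 x 
      ≤ ∑ p ∈ Vd, ∑ x ∈ S.erase p.1, f p.1 p.2 x := by
        apply sum_le_sum; intro p _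
        exact sum_le_sum_of_subset_of_nonneg (erase_subset _ _) (fun x _ _ => hf _ _ _)
    _ ≤ ∑ p ∈ S ×ˢ S, ∑ x ∈ S.erase p.1, f p.1 p.2 x := by
        apply sum_le_sum_of_subset_of_nonneg (s53_abs_sub_prod hV)
        intro p _ _; exact sum_nonneg (fun x _ => hf _ _ _)
    _ = _ := by rw [sum_product]

theorem s53_abs_enlarge' (hV : S5Valid S Vd Dg) (f : α → α → α → ℝ) (hf : ∀ u v x, 0 ≤ f u v x) :
    ∑ p ∈ Vd, ∑ x ∈ (S.erase p.1).erase p.2, f p.1 p.2 x ≤ ∑ u ∈ S, ∑ v ∈ S, ∑ x ∈ S.erase v, f u v x := by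
  calc ∑ p ∈ Vd, ∑ x ∈ (S.erase p.1).erase p.2, f p.1 p.2 x 
      ≤ ∑ p ∈ Vd, ∑ x ∈ S.erase p.2, f p.1 p.2 x := by
        apply sum_le_sum; intro p _
        exact sum_le_sum_of_subset_of_nonneg (erase_subset_erase _ (erase_subset _ _)) (fun x _ _ => hf _ _ _)
    _ ≤ ∑ p ∈ S ×ˢ S, ∑ x ∈ S.erase p.2, f p.1 p.2 x := by
        apply sum_le_sum_of_subset_of_nonneg (s53_abs_sub_prod hV)
        intro p _ _; exact sum_nonneg (fun x _ => hf _ _ _)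
    _ = _ := by rw [sum_product]

theorem s53_abs_enlarge_full (hV : S5Valid S Vd Dg) (f : α → α → α → ℝ) (hf : ∀ u v x, 0 ≤ f u v x) :
    ∑ p ∈ Vd, ∑ x ∈ (S.erase p.1).erase p.2, f p.1 p.2 x ≤ ∑ x ∈ S, ∑ u ∈ S, ∑ v ∈ S, f u v x := by
  calc ∑ p ∈ Vd, ∑ x ∈ (S.erase p.1).erase p.2, f p.1 p.2 x 
      ≤ ∑ u ∈ S, ∑ v ∈ S, ∑ x ∈ S.erase u, f u v x := s53_abs_enlarge hV f hf
    _ ≤ ∑ u ∈ S, ∑ v ∈ S, ∑ x ∈ S, f u v x := by
        apply sum_le_sum; intro u _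
        apply sum_le_sum; intro v _
        exact sum_le_sum_of_subset_of_nonneg (erase_subset _ _) (fun x _ _ => hf _ _ _)
    _ = ∑ u ∈ S, ∑ x ∈ S, ∑ v ∈ S, f u v x := by
        apply sum_congr rfl; intro u _
        exact sum_comm
    _ = _ := sum_comm

theorem s53_abs_copy (hV : S5Valid S Vd Dg) (h C0 C4 dm : ℝ) (e : α → ℝ) (P : α → α → ℝ)
    (he : ∀ x ∈ S, |e x| ≤ dm) (hrow : ∀ x ∈ S, ∑ u ∈ S, P x u ^ 2 ≤ C0)
    (P4 : ∀ u ∈ S, ∑ x ∈ S.erase u, P x u ^ 4 ≤ C4) :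
    ∑ p ∈ Vd, ∑ x ∈ (S.erase p.1).erase p.2, (h ^ 2 * (P x p.1 ^ 2 * e p.2 + P x p.2 ^ 2 * e p.1)) ^ 2 ≤
      2 * (S.card : ℝ) * (h ^ 4 * C4) * ∑ x ∈ S, e x ^ 2 + 2 * h ^ 4 * dm ^ 2 * (S.card : ℝ) * C0 ^ 2 := by
  set T : ℝ := ∑ x ∈ S, e x ^ 2 with hTdef
  have hT : 0 ≤ T := sum_nonneg (fun x _ => sq_nonneg _)
  have hpt : ∀ p ∈ Vd, ∀ x, (h ^ 2 * (P x p.1 ^ 2 * e p.2 + P x p.2 ^ 2 * e p.1)) ^ 2 ≤
      h ^ 4 * (P x p.1 ^ 4 * e p.2 ^ 2) + h ^ 4 * (P x p.2 ^ 4 * e p.1 ^ 2)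
        + 2 * h ^ 4 * dm ^ 2 * (P x p.1 ^ 2 * P x p.2 ^ 2) := by
    intro p hp x
    have hp' := mem_product.1 (s53_abs_sub_prod hV hp)
    have h1 : e p.1 * e p.2 ≤ dm ^ 2 := by
      have a1 := he _ hp'.1
      have a2 := he _ hp'.2
      calc e p.1 * e p.2 ≤ |e p.1 * e p.2| := le_abs_self _
        _ = |e p.1| * |e p.2| := abs_mul _ _
        _ ≤ dm * dm := mul_le_mul a1 a2 (abs_nonneg _) ((abs_nonneg _).trans a1)
        _ = dm ^ 2 := by ring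
    have h2 : 0 ≤ h ^ 4 * (P x p.1 ^ 2 * P x p.2 ^ 2) := by positivity
    have h3 := mul_le_mul_of_nonneg_left h1 h2
    nlinarith
  have s1 : ∑ p ∈ Vd, ∑ x ∈ (S.erase p.1).erase p.2, P x p.1 ^ 4 * e p.2 ^ 2 ≤ (S.card : ℝ) * C4 * T := by
    refine (s53_abs_enlarge hV (fun u v x => P x u ^ 4 * e v ^ 2) (fun u v x => by positivity)).trans ?_
    calc ∑ u ∈ S, ∑ v ∈ S, ∑ x ∈ S.erase u, P x u ^ 4 * e v ^ 2
        = ∑ u ∈ S, (∑ x ∈ S.erase u, P x u ^ 4) * T := by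
          apply sum_congr rfl; intro u _
          rw [hTdef, mul_sum]
          apply sum_congr rfl; intro v _
          rw [sum_mul]
      _ ≤ ∑ u ∈ S, C4 * T := sum_le_sum (fun u hu => mul_le_mul_of_nonneg_right (P4 u hu) hT)
      _ = _ := by rw [sum_const, nsmul_eq_mul]; ring
  have s2 : ∑ p ∈ Vd, ∑ x ∈ (S.erase p.1).erase p.2, P x p.2 ^ 4 * e p.1 ^ 2 ≤ (S.card : ℝ) * C4 * T := by
    refine (s53_abs_enlarge' hV (fun u v x => P x v ^ 4 * e u ^ 2) (fun u v x => by positivity)).trans ?_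
    calc ∑ u ∈ S, ∑ v ∈ S, ∑ x ∈ S.erase v, P x v ^ 4 * e u ^ 2
        = ∑ u ∈ S, (∑ v ∈ S, ∑ x ∈ S.erase v, P x v ^ 4) * e u ^ 2 := by
          apply sum_congr rfl; intro u _
          rw [sum_mul]
          apply sum_congr rfl; intro v _
          rw [sum_mul]
      _ = (∑ v ∈ S, ∑ x ∈ S.erase v, P x v ^ 4) * T := by rw [hTdef, mul_sum]
      _ ≤ (∑ v ∈ S, C4) * T := mul_le_mul_of_nonneg_right (sum_le_sum P4) hT
      _ = _ := by rw [sum_const, nsmul_eq_mul]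
  have s3 : ∑ p ∈ Vd, ∑ x ∈ (S.erase p.1).erase p.2, P x p.1 ^ 2 * P x p.2 ^ 2 ≤ (S.card : ℝ) * C0 ^ 2 := by
    refine (s53_abs_enlarge_full hV (fun u v x => P x u ^ 2 * P x v ^ 2) (fun u v x => by positivity)).trans ?_
    calc ∑ x ∈ S, ∑ u ∈ S, ∑ v ∈ S, P x u ^ 2 * P x v ^ 2
        = ∑ x ∈ S, (∑ u ∈ S, P x u ^ 2) ^ 2 := by
          apply sum_congr rfl; intro x _
          rw [sq, sum_mul_sum]
      _ ≤ ∑ x ∈ S, C0 ^ 2 := by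
          apply sum_le_sum; intro x hx
          exact pow_le_pow_left₀ (sum_nonneg (fun u _ => sq_nonneg _)) (hrow x hx) 2
      _ = _ := by rw [sum_const, nsmul_eq_mul]
  have hh4 : 0 ≤ h ^ 4 := by positivity
  calc ∑ p ∈ Vd, ∑ x ∈ (S.erase p.1).erase p.2, (h ^ 2 * (P x p.1 ^ 2 * e p.2 + P x p.2 ^ 2 * e p.1)) ^ 2
      ≤ ∑ p ∈ Vd, ∑ x ∈ (S.erase p.1).erase p.2, (h ^ 4 * (P x p.1 ^ 4 * e p.2 ^ 2) + h ^ 4 * (P x p.2 ^ 4 * e p.1 ^ 2)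
        + 2 * h ^ 4 * dm ^ 2 * (P x p.1 ^ 2 * P x p.2 ^ 2)) :=
        sum_le_sum (fun p hp => sum_le_sum (fun x _ => hpt p hp x))
    _ = h ^ 4 * ∑ p ∈ Vd, ∑ x ∈ (S.erase p.1).erase p.2, P x p.1 ^ 4 * e p.2 ^ 2
        + h ^ 4 * ∑ p ∈ Vd, ∑ x ∈ (S.erase p.1).erase p.2, P x p.2 ^ 4 * e p.1 ^ 2
        + 2 * h ^ 4 * dm ^ 2 * ∑ p ∈ Vd, ∑ x ∈ (S.erase p.1).erase p.2, P x p.1 ^ 2 * P x p.2 ^ 2 := by
        simp only [sum_add_distrib, mul_sum]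
    _ ≤ h ^ 4 * ((S.card : ℝ) * C4 * T) + h ^ 4 * ((S.card : ℝ) * C4 * T)
        + 2 * h ^ 4 * dm ^ 2 * ((S.card : ℝ) * C0 ^ 2) := by
        have b1 := mul_le_mul_of_nonneg_left s1 hh4
        have b2 := mul_le_mul_of_nonneg_left s2 hh4
        have b3 := mul_le_mul_of_nonneg_left s3 (show 0 ≤ 2 * h ^ 4 * dm ^ 2 by positivity)
        linarith
    _ = _ := by ring
/-- (5.26), sum form: nine squares -/
theorem s53_sq3 (a b c : ℝ) : (a + b + c) ^ 2 ≤ 3 * (a ^ 2 + b ^ 2 + c ^ 2) := by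
  nlinarith [sq_nonneg (a - b), sq_nonneg (b - c), sq_nonneg (a - c)]

theorem s53_sq9 (a1 a2 a3 a4 a5 a6 a7 a8 a9 : ℝ) :
    (a1 + a2 + a3 + a4 + a5 + a6 + a7 + a8 + a9) ^ 2 ≤
      9 * (a1 ^ 2 + a2 ^ 2 + a3 ^ 2 + a4 ^ 2 + a5 ^ 2 + a6 ^ 2 + a7 ^ 2 + a8 ^ 2 + a9 ^ 2) := by
  have h0 := s53_sq3 (a1 + a2 + a3) (a4 + a5 + a6) (a7 + a8 + a9)
  have h1 := s53_sq3 a1 a2 a3
  have h2 := s53_sq3 a4 a5 a6
  have h3 := s53_sq3 a7 a8 a9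
  calc (a1 + a2 + a3 + a4 + a5 + a6 + a7 + a8 + a9) ^ 2
      = ((a1 + a2 + a3) + (a4 + a5 + a6) + (a7 + a8 + a9)) ^ 2 := by ring
    _ ≤ _ := by linarith

theorem s53_abs_rem (hV : S5Valid S Vd Dg) (C0 Ne dm VT : ℝ) (r : α → α → ℝ) (j : α → ℝ) (B : α → α → ℝ)
    (ρ : α × α → α → ℝ) (hS : 0 < S.card)
    (r0 : ∀ x ∈ S, ∀ u ∈ S, 0 ≤ r x u) (rsup : ∀ x ∈ S, ∀ u ∈ S, r x u ≤ C0)
    (rrow : ∀ x ∈ S, ∑ u ∈ S, r x u ^ 2 ≤ C0) (sumJ2 : ∑ u ∈ S, j u ^ 2 ≤ Ne)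
    (Bsymm : ∀ u v, B u v = B v u) (rowB2 : ∀ u ∈ S, ∑ v ∈ S, B u v ^ 2 ≤ C0)
    (tail : ∀ x ∈ S, ∑ p ∈ s5Surv Vd {x}, ρ p x ^ 2 ≤ VT * (S.card : ℝ) ^ 2) :
    ∑ p ∈ Vd, ∑ x ∈ (S.erase p.1).erase p.2, s53G S.card dm r j B ρ p x ^ 2 ≤
      9 * ((S.card : ℝ) * C0 ^ 2 + 2 * C0 ^ 3 * (S.card : ℝ) * Ne + 2 * C0 ^ 4 * (S.card : ℝ)
        + 4 * C0 * ((S.card : ℝ) ^ 2 * dm ^ 4 + 1) + 1 / (S.card : ℝ) + VT * (S.card : ℝ) ^ 3) := by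
  have hl : (0 : ℝ) < S.card := by exact_mod_cast hS
  set l : ℝ := (S.card : ℝ) with hldef
  set c : ℝ := dm ^ 2 + 1 / l with hcdef
  obtain ⟨x0, hx0⟩ := card_pos.1 hS
  have hC0 : 0 ≤ C0 := (r0 x0 hx0 x0 hx0).trans (rsup x0 hx0 x0 hx0)
  have hNe : 0 ≤ Ne := (sum_nonneg (fun u _ => sq_nonneg _)).trans sumJ2
  have r4 : ∀ x ∈ S, ∀ u ∈ S, (r x u ^ 2) ^ 2 ≤ C0 ^ 2 * r x u ^ 2 := by
    intro x hx u hu
    have h1 : r x u ^ 2 ≤ C0 ^ 2 := pow_le_pow_left₀ (r0 x hx u hu) (rsup x hx u hu) 2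
    calc (r x u ^ 2) ^ 2 = r x u ^ 2 * r x u ^ 2 := by ring
      _ ≤ C0 ^ 2 * r x u ^ 2 := mul_le_mul_of_nonneg_right h1 (sq_nonneg _)
  have rr0 : ∀ x, 0 ≤ ∑ u ∈ S, r x u ^ 2 := fun x => sum_nonneg (fun u _ => sq_nonneg _)
  -- the nine sums
  have t1 : ∑ p ∈ Vd, ∑ x ∈ (S.erase p.1).erase p.2, (r x p.1 * r x p.2) ^ 2 ≤ l * C0 ^ 2 := by
    refine (s53_abs_enlarge_full hV (fun u v x => (r x u * r x v) ^ 2) (fun u v x => by positivity)).trans ?_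
    calc ∑ x ∈ S, ∑ u ∈ S, ∑ v ∈ S, (r x u * r x v) ^ 2
        = ∑ x ∈ S, (∑ u ∈ S, r x u ^ 2) ^ 2 := by
          apply sum_congr rfl; intro x _
          rw [sq, sum_mul_sum]
          apply sum_congr rfl; intro u _
          apply sum_congr rfl; intro v _
          ring
      _ ≤ ∑ x ∈ S, C0 ^ 2 := by
          apply sum_le_sum; intro x hx
          exact pow_le_pow_left₀ (rr0 x) (rrow x hx) 2
      _ = _ := by rw [sum_const, nsmul_eq_mul]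
  have t2 : ∑ p ∈ Vd, ∑ x ∈ (S.erase p.1).erase p.2, (r x p.1 ^ 2 * j p.2) ^ 2 ≤ C0 ^ 3 * l * Ne := by
    refine (s53_abs_enlarge_full hV (fun u v x => (r x u ^ 2 * j v) ^ 2) (fun u v x => by positivity)).trans ?_
    calc ∑ x ∈ S, ∑ u ∈ S, ∑ v ∈ S, (r x u ^ 2 * j v) ^ 2
        ≤ ∑ x ∈ S, ∑ u ∈ S, ∑ v ∈ S, C0 ^ 2 * r x u ^ 2 * j v ^ 2 := by
          apply sum_le_sum; intro x hx
          apply sum_le_sum; intro u hu
          apply sum_le_sum; intro v _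
          rw [mul_pow]
          exact mul_le_mul_of_nonneg_right (r4 x hx u hu) (sq_nonneg _)
      _ = ∑ x ∈ S, C0 ^ 2 * ((∑ u ∈ S, r x u ^ 2) * ∑ v ∈ S, j v ^ 2) := by
          apply sum_congr rfl; intro x _
          rw [sum_mul_sum, mul_sum]
          apply sum_congr rfl; intro u _
          rw [mul_sum]
          apply sum_congr rfl; intro v _
          ring
      _ ≤ ∑ x ∈ S, C0 ^ 2 * (C0 * Ne) := by
          apply sum_le_sum; intro x hx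
          apply mul_le_mul_of_nonneg_left _ (sq_nonneg _)
          exact mul_le_mul (rrow x hx) sumJ2 (sum_nonneg (fun u _ => sq_nonneg _)) hC0
      _ = _ := by rw [sum_const, nsmul_eq_mul]; ring
  have t4 : ∑ p ∈ Vd, ∑ x ∈ (S.erase p.1).erase p.2, (r x p.2 ^ 2 * j p.1) ^ 2 ≤ C0 ^ 3 * l * Ne := by
    refine (s53_abs_enlarge_full hV (fun u v x => (r x v ^ 2 * j u) ^ 2) (fun u v x => by positivity)).trans ?_
    calc ∑ x ∈ S, ∑ u ∈ S, ∑ v ∈ S, (r x v ^ 2 * j u) ^ 2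
        ≤ ∑ x ∈ S, ∑ u ∈ S, ∑ v ∈ S, C0 ^ 2 * r x v ^ 2 * j u ^ 2 := by
          apply sum_le_sum; intro x hx
          apply sum_le_sum; intro u _
          apply sum_le_sum; intro v hv
          rw [mul_pow]
          exact mul_le_mul_of_nonneg_right (r4 x hx v hv) (sq_nonneg _)
      _ = ∑ x ∈ S, C0 ^ 2 * ((∑ u ∈ S, j u ^ 2) * ∑ v ∈ S, r x v ^ 2) := by
          apply sum_congr rfl; intro x _
          rw [sum_mul_sum, mul_sum]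
          apply sum_congr rfl; intro u _
          rw [mul_sum]
          apply sum_congr rfl; intro v _
          ring
      _ ≤ ∑ x ∈ S, C0 ^ 2 * (Ne * C0) := by
          apply sum_le_sum; intro x hx
          apply mul_le_mul_of_nonneg_left _ (sq_nonneg _)
          exact mul_le_mul sumJ2 (rrow x hx) (rr0 x) hNe
      _ = _ := by rw [sum_const, nsmul_eq_mul]; ring
  have t3 : ∑ p ∈ Vd, ∑ x ∈ (S.erase p.1).erase p.2, (r x p.1 ^ 2 * B p.1 p.2) ^ 2 ≤ C0 ^ 4 * l := by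
    refine (s53_abs_enlarge_full hV (fun u v x => (r x u ^ 2 * B u v) ^ 2) (fun u v x => by positivity)).trans ?_
    calc ∑ x ∈ S, ∑ u ∈ S, ∑ v ∈ S, (r x u ^ 2 * B u v) ^ 2
        ≤ ∑ x ∈ S, ∑ u ∈ S, ∑ v ∈ S, C0 ^ 2 * r x u ^ 2 * B u v ^ 2 := by
          apply sum_le_sum; intro x hx
          apply sum_le_sum; intro u hu
          apply sum_le_sum; intro v _
          rw [mul_pow]
          exact mul_le_mul_of_nonneg_right (r4 x hx u hu) (sq_nonneg _)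
      _ = ∑ x ∈ S, ∑ u ∈ S, C0 ^ 2 * r x u ^ 2 * ∑ v ∈ S, B u v ^ 2 := by
          apply sum_congr rfl; intro x _
          apply sum_congr rfl; intro u _
          rw [mul_sum]
      _ ≤ ∑ x ∈ S, ∑ u ∈ S, C0 ^ 2 * r x u ^ 2 * C0 := by
          apply sum_le_sum; intro x _
          apply sum_le_sum; intro u hu
          exact mul_le_mul_of_nonneg_left (rowB2 u hu) (by positivity)
      _ = ∑ x ∈ S, C0 ^ 3 * ∑ u ∈ S, r x u ^ 2 := by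
          apply sum_congr rfl; intro x _
          rw [mul_sum]
          apply sum_congr rfl; intro u _
          ring
      _ ≤ ∑ x ∈ S, C0 ^ 3 * C0 := by
          apply sum_le_sum; intro x hx
          exact mul_le_mul_of_nonneg_left (rrow x hx) (by positivity)
      _ = _ := by rw [sum_const, nsmul_eq_mul]; ring
  have t5 : ∑ p ∈ Vd, ∑ x ∈ (S.erase p.1).erase p.2, (r x p.2 ^ 2 * B p.1 p.2) ^ 2 ≤ C0 ^ 4 * l := by
    refine (s53_abs_enlarge_full hV (fun u v x => (r x v ^ 2 * B u v) ^ 2) (fun u v x => by positivity)).trans ?_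
    calc ∑ x ∈ S, ∑ u ∈ S, ∑ v ∈ S, (r x v ^ 2 * B u v) ^ 2
        ≤ ∑ x ∈ S, ∑ u ∈ S, ∑ v ∈ S, C0 ^ 2 * r x v ^ 2 * B v u ^ 2 := by
          apply sum_le_sum; intro x hx
          apply sum_le_sum; intro u _
          apply sum_le_sum; intro v hv
          rw [mul_pow, Bsymm u v]
          exact mul_le_mul_of_nonneg_right (r4 x hx v hv) (sq_nonneg _)
      _ = ∑ x ∈ S, ∑ v ∈ S, C0 ^ 2 * r x v ^ 2 * ∑ u ∈ S, B v u ^ 2 := by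
          apply sum_congr rfl; intro x _
          rw [sum_comm]
          apply sum_congr rfl; intro v _
          rw [mul_sum]
      _ ≤ ∑ x ∈ S, ∑ u ∈ S, C0 ^ 2 * r x u ^ 2 * C0 := by
          apply sum_le_sum; intro x _
          apply sum_le_sum; intro u hu
          exact mul_le_mul_of_nonneg_left (rowB2 u hu) (by positivity)
      _ = ∑ x ∈ S, C0 ^ 3 * ∑ u ∈ S, r x u ^ 2 := by
          apply sum_congr rfl; intro x _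
          rw [mul_sum]
          apply sum_congr rfl; intro u _
          ring
      _ ≤ ∑ x ∈ S, C0 ^ 3 * C0 := by
          apply sum_le_sum; intro x hx
          exact mul_le_mul_of_nonneg_left (rrow x hx) (by positivity)
      _ = _ := by rw [sum_const, nsmul_eq_mul]; ring
  have hc2 : c ^ 2 * l ^ 2 ≤ 2 * (l ^ 2 * dm ^ 4 + 1) := by
    have e1 : c ^ 2 * l ^ 2 = (dm ^ 2 * l + 1) ^ 2 := by
      rw [hcdef]; field_simp
    rw [e1]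
    nlinarith [sq_nonneg (dm ^ 2 * l - 1)]
  have t6 : ∑ p ∈ Vd, ∑ x ∈ (S.erase p.1).erase p.2, (c * r x p.1) ^ 2 ≤ 2 * C0 * (l ^ 2 * dm ^ 4 + 1) := by
    refine (s53_abs_enlarge_full hV (fun u v x => (c * r x u) ^ 2) (fun u v x => by positivity)).trans ?_
    calc ∑ x ∈ S, ∑ u ∈ S, ∑ v ∈ S, (c * r x u) ^ 2
        = ∑ x ∈ S, c ^ 2 * l * ∑ u ∈ S, r x u ^ 2 := by
          apply sum_congr rfl; intro x _
          rw [mul_sum]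
          apply sum_congr rfl; intro u _
          rw [sum_const, nsmul_eq_mul]; ring
      _ ≤ ∑ x ∈ S, c ^ 2 * l * C0 := by
          apply sum_le_sum; intro x hx
          exact mul_le_mul_of_nonneg_left (rrow x hx) (by positivity)
      _ = c ^ 2 * l ^ 2 * C0 := by rw [sum_const, nsmul_eq_mul]; ring
      _ ≤ 2 * (l ^ 2 * dm ^ 4 + 1) * C0 := mul_le_mul_of_nonneg_right hc2 hC0
      _ = _ := by ring
  have t7 : ∑ p ∈ Vd, ∑ x ∈ (S.erase p.1).erase p.2, (c * r x p.2) ^ 2 ≤ 2 * C0 * (l ^ 2 * dm ^ 4 + 1) := by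
    refine (s53_abs_enlarge_full hV (fun u v x => (c * r x v) ^ 2) (fun u v x => by positivity)).trans ?_
    calc ∑ x ∈ S, ∑ u ∈ S, ∑ v ∈ S, (c * r x v) ^ 2
        = ∑ x ∈ S, c ^ 2 * l * ∑ u ∈ S, r x u ^ 2 := by
          apply sum_congr rfl; intro x _
          rw [sum_const, nsmul_eq_mul, mul_sum, mul_sum]
          apply sum_congr rfl; intro u _
          ring
      _ ≤ ∑ x ∈ S, c ^ 2 * l * C0 := by
          apply sum_le_sum; intro x hx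
          exact mul_le_mul_of_nonneg_left (rrow x hx) (by positivity)
      _ = c ^ 2 * l ^ 2 * C0 := by rw [sum_const, nsmul_eq_mul]; ring
      _ ≤ 2 * (l ^ 2 * dm ^ 4 + 1) * C0 := mul_le_mul_of_nonneg_right hc2 hC0
      _ = _ := by ring
  have t8 : ∑ p ∈ Vd, ∑ x ∈ (S.erase p.1).erase p.2, ((1 / l) ^ 2) ^ 2 ≤ 1 / l := by
    refine (s53_abs_enlarge_full hV (fun _ _ _ => ((1 / l) ^ 2) ^ 2) (fun u v x => by positivity)).trans ?_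
    simp only [sum_const, nsmul_eq_mul]
    rw [← hldef]
    apply le_of_eq
    field_simp
  have t9 : ∑ p ∈ Vd, ∑ x ∈ (S.erase p.1).erase p.2, ρ p x ^ 2 ≤ VT * l ^ 3 := by
    rw [s53_abs_swap S Vd (fun p x => ρ p x ^ 2)]
    calc ∑ x ∈ S, ∑ p ∈ s5Surv Vd {x}, ρ p x ^ 2 ≤ ∑ x ∈ S, VT * l ^ 2 := sum_le_sum tail
      _ = _ := by rw [sum_const, nsmul_eq_mul]; ring
  have hpt : ∀ p x, s53G S.card dm r j B ρ p x ^ 2 ≤
      9 * ((r x p.1 * r x p.2) ^ 2 + (r x p.1 ^ 2 * j p.2) ^ 2 + (r x p.1 ^ 2 * B p.1 p.2) ^ 2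
        + (r x p.2 ^ 2 * j p.1) ^ 2 + (r x p.2 ^ 2 * B p.1 p.2) ^ 2 + (c * r x p.1) ^ 2 + (c * r x p.2) ^ 2
        + ((1 / l) ^ 2) ^ 2 + ρ p x ^ 2) := by
    intro p x
    have := s53_sq9 (r x p.1 * r x p.2) (r x p.1 ^ 2 * j p.2) (r x p.1 ^ 2 * B p.1 p.2)
      (r x p.2 ^ 2 * j p.1) (r x p.2 ^ 2 * B p.1 p.2) (c * r x p.1) (c * r x p.2) ((1 / l) ^ 2) (ρ p x)
    refine le_trans (le_of_eq ?_) this
    rw [s53G]
    ring
  calc ∑ p ∈ Vd, ∑ x ∈ (S.erase p.1).erase p.2, s53G S.card dm r j B ρ p x ^ 2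
      ≤ ∑ p ∈ Vd, ∑ x ∈ (S.erase p.1).erase p.2, 9 * ((r x p.1 * r x p.2) ^ 2 + (r x p.1 ^ 2 * j p.2) ^ 2 + (r x p.1 ^ 2 * B p.1 p.2) ^ 2
        + (r x p.2 ^ 2 * j p.1) ^ 2 + (r x p.2 ^ 2 * B p.1 p.2) ^ 2 + (c * r x p.1) ^ 2 + (c * r x p.2) ^ 2
        + ((1 / l) ^ 2) ^ 2 + ρ p x ^ 2) := sum_le_sum (fun p _ => sum_le_sum (fun x _ => hpt p x))
    _ = 9 * (∑ p ∈ Vd, ∑ x ∈ (S.erase p.1).erase p.2, (r x p.1 * r x p.2) ^ 2
        + ∑ p ∈ Vd, ∑ x ∈ (S.erase p.1).erase p.2, (r x p.1 ^ 2 * j p.2) ^ 2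
        + ∑ p ∈ Vd, ∑ x ∈ (S.erase p.1).erase p.2, (r x p.1 ^ 2 * B p.1 p.2) ^ 2
        + ∑ p ∈ Vd, ∑ x ∈ (S.erase p.1).erase p.2, (r x p.2 ^ 2 * j p.1) ^ 2
        + ∑ p ∈ Vd, ∑ x ∈ (S.erase p.1).erase p.2, (r x p.2 ^ 2 * B p.1 p.2) ^ 2
        + ∑ p ∈ Vd, ∑ x ∈ (S.erase p.1).erase p.2, (c * r x p.1) ^ 2
        + ∑ p ∈ Vd, ∑ x ∈ (S.erase p.1).erase p.2, (c * r x p.2) ^ 2
        + ∑ p ∈ Vd, ∑ x ∈ (S.erase p.1).erase p.2, ((1 / l) ^ 2) ^ 2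
        + ∑ p ∈ Vd, ∑ x ∈ (S.erase p.1).erase p.2, ρ p x ^ 2) := by
        simp only [← mul_sum, sum_add_distrib]
    _ ≤ _ := by linarith
end

end Claimed.Agent.R275
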