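import Claimed.Agent.R275.S43X

/-!
# Row 275, Sec 5.3, package S53-C4: the fourth-power column bound (5.24) of `early.tex` (= (W5) of helper11's memo)

Owner: helper114.  Prefix `s53c_`.  FINAL STATEMENT `s53_C4`: eventually in `n`, at every state with `WalkOK` and `l ≥ l₀`, for `0 ≤ z ≤ q^{-1/2}` and
every unresolved `u`:   `z⁴ ∑_{x ∈ S, x ≠ u} A_x(u)⁴ ≤ 7/8`   (`A` = the outer majorant `Amaj (Cmaj d) (Lcut d n) z`), so `γ = 1/8` in `s5_ts_step`.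

PROOF.  `A_x(u) = A_u(x) ≤ Ashort_K + B`, `B = (walks of length > K) + 𝖴`, `K` a FIXED radius, `2 K < g₀` eventually.
* `(a+b)⁴ ≤ (41/40)³ a⁴ + 41³ b⁴`;
* short part: `∑_{k ≤ K} N_k ≤ 1` (`WalkOK.short`), so `Ashort⁴ ≤ ∑_k N_k z^{4k}` (Cauchy-Schwarz twice);  `∑_{x ≠ u} N_0 = t_u - 1`,
  `∑_x N_{k+1}(u, x) ≤ d (d - t_u) q^k` (SHARP row sum `s53c_Nact_row_sum`: the first step leaves through a resolved stub);
  `q⁻² [(t-1) + d (d-t)/(q (q-1))] ≤ 3/4` for `q ≥ 2`, `1 ≤ t ≤ d` (equality at `q = 2`, `t = 1`);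
* long part: `B ≤ ε = CM zq^{K+1}/(1-zq) + 𝖴` and `B ≤ A`, so `∑ B⁴ ≤ ε² ∑ A² ≤ ε² (2 CR + 1)` (`s43v_sum_Amaj_sq_le`).
Black boxes (S43W, sorried there): `s43v_sum_Amaj_sq_le`, `s43v_Umaj_small`.
-/

set_option autoImplicit false

namespace Claimed.Agent.R275

open Matrix Finset Filter

/-- Cauchy-Schwarz with a sub-probability weight -/
theorem s53c_cs (s : Finset ℕ) (p a : ℕ → ℝ) (hp : ∀ k ∈ s, 0 ≤ p k) (hs : ∑ k ∈ s, p k ≤ 1) :
    (∑ k ∈ s, p k * a k) ^ 2 ≤ ∑ k ∈ s, p k * a k ^ 2 := by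
  have h := Finset.sum_sq_le_sum_mul_sum_of_sq_le_mul s (r := fun k => p k * a k) (f := p)
    (g := fun k => p k * a k ^ 2) hp (fun k hk => mul_nonneg (hp k hk) (sq_nonneg _)) (fun k _ => le_of_eq (by ring))
  refine h.trans ?_
  have h0 : 0 ≤ ∑ k ∈ s, p k * a k ^ 2 := Finset.sum_nonneg fun k hk => mul_nonneg (hp k hk) (sq_nonneg _)
  calc (∑ k ∈ s, p k) * ∑ k ∈ s, p k * a k ^ 2 ≤ 1 * ∑ k ∈ s, p k * a k ^ 2 :=
        mul_le_mul_of_nonneg_right hs h0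
    _ = _ := one_mul _

/-- fourth powers -/
theorem s53c_pow4 (s : Finset ℕ) (p a : ℕ → ℝ) (hp : ∀ k ∈ s, 0 ≤ p k) (hs : ∑ k ∈ s, p k ≤ 1) :
    (∑ k ∈ s, p k * a k) ^ 4 ≤ ∑ k ∈ s, p k * a k ^ 4 := by
  have h1 := s53c_cs s p a hp hs
  have h2 := s53c_cs s p (fun k => a k ^ 2) hp hs
  calc (∑ k ∈ s, p k * a k) ^ 4 = ((∑ k ∈ s, p k * a k) ^ 2) ^ 2 := by ring
    _ ≤ (∑ k ∈ s, p k * a k ^ 2) ^ 2 := pow_le_pow_left₀ (sq_nonneg _) h1 2
    _ ≤ ∑ k ∈ s, p k * (a k ^ 2) ^ 2 := h2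
    _ = _ := by
        refine Finset.sum_congr rfl fun k _ => ?_
        ring

/-- `(a + b)⁴ ≤ (41/40)³ a⁴ + 41³ b⁴` -/
theorem s53c_add4 (a b : ℝ) : (a + b) ^ 4 ≤ (41 / 40) ^ 3 * a ^ 4 + 41 ^ 3 * b ^ 4 := by
  have sq : ∀ x y : ℝ, (x + y) ^ 2 ≤ 41 / 40 * x ^ 2 + 41 * y ^ 2 := fun x y => by
    nlinarith [sq_nonneg (x - 40 * y)]
  calc (a + b) ^ 4 = ((a + b) ^ 2) ^ 2 := by ring
    _ ≤ (41 / 40 * a ^ 2 + 41 * b ^ 2) ^ 2 := pow_le_pow_left₀ (sq_nonneg _) (sq a b) 2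
    _ ≤ 41 / 40 * (41 / 40 * a ^ 2) ^ 2 + 41 * (41 * b ^ 2) ^ 2 := sq _ _
    _ = _ := by ring

/-- the numerical margin of (5.24): `q⁻² [(t-1) + d (d-t) / (q (q-1))] ≤ 3/4` -/
theorem s53c_num (q t : ℝ) (hq : 2 ≤ q) (ht1 : 1 ≤ t) (ht : t ≤ q + 1) :
    1 / q ^ 2 * ((t - 1) + (q + 1) * ((q + 1 - t) * (1 / (q * (q - 1))))) ≤ 3 / 4 := by
  have hq0 : 0 < q := by linarith
  have hq1 : 0 < q - 1 := by linarith
  have e : 1 / q ^ 2 * ((t - 1) + (q + 1) * ((q + 1 - t) * (1 / (q * (q - 1)))))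
      = ((t - 1) * (q * (q - 1)) + (q + 1 - t) * (q + 1)) / (q ^ 3 * (q - 1)) := by
    field_simp
  rw [e, div_le_iff₀ (by positivity)]
  have A : q + 1 ≤ 3 / 4 * (q ^ 2 * (q - 1)) := by nlinarith [mul_nonneg (sub_nonneg.2 hq) (sub_nonneg.2 hq), mul_nonneg (mul_nonneg (sub_nonneg.2 hq) (sub_nonneg.2 hq)) (sub_nonneg.2 hq)]
  have B : q * (q - 1) ≤ 3 / 4 * (q ^ 2 * (q - 1)) := by nlinarith [mul_pos hq0 hq1]
  have a1 := mul_le_mul_of_nonneg_left B (sub_nonneg.2 ht1)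
  have a2 := mul_le_mul_of_nonneg_left A (show 0 ≤ q + 1 - t by linarith)
  nlinarith

/-- geometric sum -/
theorem s53c_geom (y : ℝ) (hy0 : 0 ≤ y) (hy1 : y < 1) (K : ℕ) : ∑ k ∈ Finset.range K, y ^ k ≤ 1 / (1 - y) := by
  rw [le_div_iff₀ (by linarith)]
  have := geom_sum_mul_neg y K
  have h0 : 0 ≤ y ^ K := by positivity
  linarith

theorem s53c_zq4 (d : ℕ) (hd : 3 ≤ d) : zq d ^ 4 = 1 / ((d : ℝ) - 1) ^ 2 := by
  have hd' : (3 : ℝ) ≤ d := by exact_mod_cast hd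
  have h : Real.sqrt ((d : ℝ) - 1) ^ 2 = (d : ℝ) - 1 := Real.sq_sqrt (by linarith)
  unfold zq
  rw [inv_pow, one_div]
  congr 1
  calc Real.sqrt ((d : ℝ) - 1) ^ 4 = (Real.sqrt ((d : ℝ) - 1) ^ 2) ^ 2 := by ring
    _ = _ := by rw [h]

namespace PPair

variable {n d : ℕ} (π : PPair n d)

/-- row sums of `P_act`: `0` at an unresolved stub, `1` at a resolved one -/
theorem s53c_rowsum_Pact (x : Stub n d) : ∑ y, π.Pact ℝ x y = if π.Unres x then 0 else 1 := by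
  by_cases hx : π.Unres x
  · simp [Pact, hx]
  · simp [Pact, hx]

/-- row sums of `P_act (N P_act)^k Cᵀ` -/
theorem s53c_rowsum_F (hd : 3 ≤ d) (k : ℕ) (x : Stub n d) :
    ∑ w, π.s43vF k x w ≤ ((d : ℝ) - 1) ^ k * (if π.Unres x then 0 else 1) := by
  have hd' : (3 : ℝ) ≤ d := by exact_mod_cast hd
  have hq : (0 : ℝ) ≤ (d : ℝ) - 1 := by linarith
  induction k generalizing x with
  | zero =>
    have e : ∑ w, π.s43vF 0 x w = ∑ y, π.Pact ℝ x y := by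
      simp only [s43vF, pow_zero, Matrix.mul_one, Matrix.mul_apply, Matrix.transpose_apply]
      rw [Finset.sum_comm]
      refine Finset.sum_congr rfl fun y _ => ?_
      rw [← Finset.mul_sum]
      have : ∑ w, Cinc ℝ n d w y = 1 := by simp [Cinc]
      rw [this, mul_one]
    rw [e, s53c_rowsum_Pact]; simp
  | succ k ih =>
    have e : ∑ w, π.s43vF (k + 1) x w = ∑ y, π.Pact ℝ x y * ∑ z, NBm ℝ n d y z * ∑ w, π.s43vF k z w := by
      rw [s43vF_succ]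
      simp only [Matrix.mul_apply, Finset.mul_sum]
      rw [Finset.sum_comm]
      refine Finset.sum_congr rfl fun y _ => ?_
      rw [Finset.sum_comm]
    rw [e]
    have h1 : ∀ y, ∑ z, NBm ℝ n d y z * ∑ w, π.s43vF k z w ≤ ((d : ℝ) - 1) ^ (k + 1) := by
      intro y
      calc ∑ z, NBm ℝ n d y z * ∑ w, π.s43vF k z w ≤ ∑ z, NBm ℝ n d y z * ((d : ℝ) - 1) ^ k := by
            refine Finset.sum_le_sum fun z _ => mul_le_mul_of_nonneg_left ?_ (s43v_NBm_nonneg y z)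
            refine (ih z).trans ?_
            split_ifs
            · simp; positivity
            · simp
        _ = ((d : ℝ) - 1) ^ (k + 1) := by
            rw [← Finset.sum_mul, s43v_rowsum_NBm]; ring
    calc ∑ y, π.Pact ℝ x y * ∑ z, NBm ℝ n d y z * ∑ w, π.s43vF k z w
        ≤ ∑ y, π.Pact ℝ x y * ((d : ℝ) - 1) ^ (k + 1) :=
          Finset.sum_le_sum fun y _ => mul_le_mul_of_nonneg_left (h1 y) (π.s43v_Pact_nonneg x y)
      _ = _ := by rw [← Finset.sum_mul, s53c_rowsum_Pact]; ring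

/-- number of resolved stubs at a vertex -/
theorem s53c_sum_Cinc_res (v : Fin n) :
    ∑ x, Cinc ℝ n d v x * (if π.Unres x then 0 else 1) = (d : ℝ) - (π.tcount v : ℝ) := by
  have h1 : ∑ x, Cinc ℝ n d v x * (if π.Unres x then (0 : ℝ) else 1)
      = ∑ x, Cinc ℝ n d v x - ∑ x, Cinc ℝ n d v x * (if π.Unres x then (1 : ℝ) else 0) := by
    rw [← Finset.sum_sub_distrib]
    refine Finset.sum_congr rfl fun x _ => ?_
    split_ifs <;> ring
  rw [h1, s43v_rowsum_Cinc]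
  congr 1
  rw [tcount, Finset.card_filter, unres, Finset.sum_filter]
  push_cast
  refine Finset.sum_congr rfl fun x _ => ?_
  simp only [Cinc]
  split_ifs <;> simp

/-- SHARP actual row sums: the first step leaves `v` through a RESOLVED stub -/
theorem s53c_Nact_row_sum (hd : 3 ≤ d) (k : ℕ) (v : Fin n) :
    ∑ w, π.Nact ℝ (k + 1) v w ≤ ((d : ℝ) - (π.tcount v : ℝ)) * ((d : ℝ) - 1) ^ k := by
  have e : ∀ w, π.Nact ℝ (k + 1) v w = ∑ x, Cinc ℝ n d v x * π.s43vF k x w := by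
    intro w
    rw [Nact, s43vF, ← Matrix.mul_apply]; simp only [Matrix.mul_assoc]
  simp only [e]
  rw [Finset.sum_comm]
  calc ∑ x, ∑ w, Cinc ℝ n d v x * π.s43vF k x w = ∑ x, Cinc ℝ n d v x * ∑ w, π.s43vF k x w := by
        refine Finset.sum_congr rfl fun x _ => ?_
        rw [Finset.mul_sum]
    _ ≤ ∑ x, Cinc ℝ n d v x * (((d : ℝ) - 1) ^ k * (if π.Unres x then 0 else 1)) :=
        Finset.sum_le_sum fun x _ => mul_le_mul_of_nonneg_left (π.s53c_rowsum_F hd k x) (s43v_Cinc_nonneg v x)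
    _ = ((d : ℝ) - 1) ^ k * ∑ x, Cinc ℝ n d v x * (if π.Unres x then 0 else 1) := by
        rw [Finset.mul_sum]
        refine Finset.sum_congr rfl fun x _ => ?_
        ring
    _ = _ := by rw [s53c_sum_Cinc_res]; ring

/-- sum over the unresolved stubs, positive lengths -/
theorem s53c_sum_unres_Nact (hd : 3 ≤ d) (k : ℕ) (v : Fin n) (T : Finset (Stub n d)) :
    ∑ x ∈ T, π.Nact ℝ (k + 1) v x.1 ≤ (d : ℝ) * (((d : ℝ) - (π.tcount v : ℝ)) * ((d : ℝ) - 1) ^ k) := by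
  calc ∑ x ∈ T, π.Nact ℝ (k + 1) v x.1 ≤ ∑ x : Stub n d, π.Nact ℝ (k + 1) v x.1 :=
        Finset.sum_le_sum_of_subset_of_nonneg (Finset.subset_univ _)
          fun x _ _ => (π.Nact_le_Qmat (k + 1) v x.1).1
    _ = (d : ℝ) * ∑ w, π.Nact ℝ (k + 1) v w := by
        rw [Fintype.sum_prod_type, Finset.mul_sum]
        refine Finset.sum_congr rfl fun w _ => ?_
        simp
    _ ≤ _ := mul_le_mul_of_nonneg_left (π.s53c_Nact_row_sum hd k v) (Nat.cast_nonneg d)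

/-- length zero: the other unresolved stubs at the vertex of `u` -/
theorem s53c_sum_Nact_zero {u : Stub n d} (hu : π.Unres u) :
    ∑ x ∈ π.unres.erase u, π.Nact ℝ 0 u.1 x.1 = (π.tcount u.1 : ℝ) - 1 := by
  have hmem : u ∈ π.unres := by simp [unres, hu]
  have h1 : ∑ x ∈ π.unres, π.Nact ℝ 0 u.1 x.1 = (π.tcount u.1 : ℝ) := by
    rw [tcount, Finset.card_filter]
    push_cast
    refine Finset.sum_congr rfl fun x _ => ?_
    simp only [Nact, Matrix.one_apply]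
    by_cases h : u.1 = x.1
    · simp [h]
    · have h' : ¬ x.1 = u.1 := fun e => h e.symm
      simp [h, h']
  have h2 := Finset.add_sum_erase π.unres (fun x => π.Nact ℝ 0 u.1 x.1) hmem
  have h3 : π.Nact ℝ 0 u.1 u.1 = 1 := by simp [Nact]
  simp only [h3] at h2
  linarith

/-- THE SHORT PART of (5.24) -/
theorem s53c_short (hd : 3 ≤ d) {CM CR η : ℝ} {Rc : ℕ} (hW : π.WalkOK CM CR η Rc) (K : ℕ) (hK : 2 * K < g0 d n)
    (z : ℝ) (hz : 0 ≤ z) (hz' : z ≤ zq d) {u : Stub n d} (hu : π.Unres u) :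
    z ^ 4 * ∑ x ∈ π.unres.erase u, π.Ashort K z u.1 x.1 ^ 4 ≤ 3 / 4 := by
  have hd' : (3 : ℝ) ≤ d := by exact_mod_cast hd
  set q : ℝ := (d : ℝ) - 1 with hq
  have hq2 : 2 ≤ q := by rw [hq]; linarith
  have hq0 : 0 < q := by linarith
  set t : ℝ := (π.tcount u.1 : ℝ) with ht
  have ht1 : 1 ≤ t := by
    have : 0 < π.tcount u.1 := by
      rw [tcount, Finset.card_pos]
      exact ⟨u, by simp [unres, hu]⟩
    rw [ht]; exact_mod_cast this
  have htd : t ≤ q + 1 := by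
    have := π.s43v_tcount_le u.1
    rw [ht, hq]
    have : (π.tcount u.1 : ℝ) ≤ d := by exact_mod_cast this
    linarith
  set w : ℝ := z ^ 4 with hw
  have hw0 : 0 ≤ w := by positivity
  have hw1 : w ≤ 1 / q ^ 2 := by
    rw [hw, hq, ← s53c_zq4 d hd]
    exact pow_le_pow_left₀ hz hz' 4
  set y : ℝ := 1 / q with hy
  have hy0 : 0 ≤ y := by positivity
  have hy1 : y < 1 := by rw [hy, div_lt_one hq0]; linarith
  -- pointwise
  have h1 : ∀ x : Stub n d, π.Ashort K z u.1 x.1 ^ 4 ≤ ∑ k ∈ Finset.range (K + 1), π.Nact ℝ k u.1 x.1 * (z ^ k) ^ 4 := by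
    intro x
    exact s53c_pow4 _ (fun k => π.Nact ℝ k u.1 x.1) (fun k => z ^ k) (fun k _ => (π.Nact_le_Qmat k u.1 x.1).1)
      (hW.short u.1 x.1 K hK)
  have h2 : ∑ x ∈ π.unres.erase u, π.Ashort K z u.1 x.1 ^ 4 ≤
      (t - 1) + (q + 1) * ((q + 1 - t) * (1 / (q * (q - 1)))) := by
    calc ∑ x ∈ π.unres.erase u, π.Ashort K z u.1 x.1 ^ 4
        ≤ ∑ x ∈ π.unres.erase u, ∑ k ∈ Finset.range (K + 1), π.Nact ℝ k u.1 x.1 * (z ^ k) ^ 4 :=
          Finset.sum_le_sum fun x _ => h1 x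
      _ = ∑ k ∈ Finset.range (K + 1), (∑ x ∈ π.unres.erase u, π.Nact ℝ k u.1 x.1) * (z ^ k) ^ 4 := by
          rw [Finset.sum_comm]
          refine Finset.sum_congr rfl fun k _ => ?_
          rw [Finset.sum_mul]
      _ = ∑ k ∈ Finset.range K, (∑ x ∈ π.unres.erase u, π.Nact ℝ (k + 1) u.1 x.1) * (z ^ (k + 1)) ^ 4
            + (t - 1) := by
          rw [Finset.sum_range_succ', π.s53c_sum_Nact_zero hu]
          simp only [pow_zero, one_pow, mul_one]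
          rfl
      _ ≤ ∑ k ∈ Finset.range K, ((q + 1) * ((q + 1 - t) * q ^ k)) * (y ^ 2 * y ^ k * (1 / q ^ k)) + (t - 1) := by
          gcongr with k _
          · have := π.s53c_sum_unres_Nact hd k u.1 (π.unres.erase u)
            have e1 : (d : ℝ) = q + 1 := by rw [hq]; ring
            rw [← hq, e1] at this
            exact this
          · calc (z ^ (k + 1)) ^ 4 = w ^ (k + 1) := by rw [hw]; ring
              _ ≤ (1 / q ^ 2) ^ (k + 1) := pow_le_pow_left₀ hw0 hw1 _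
              _ = 1 / (q ^ 2 * q ^ k * q ^ k) := by
                  rw [_root_.one_div_pow, show (q ^ 2) ^ (k + 1) = q ^ 2 * q ^ k * q ^ k by ring_nf]
              _ = y ^ 2 * y ^ k * (1 / q ^ k) := by
                  rw [hy, _root_.one_div_pow, _root_.one_div_pow]; field_simp
      _ = (q + 1) * ((q + 1 - t) * (y ^ 2 * ∑ k ∈ Finset.range K, y ^ k)) + (t - 1) := by
          congr 1
          rw [Finset.mul_sum, Finset.mul_sum, Finset.mul_sum]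
          refine Finset.sum_congr rfl fun k _ => ?_
          field_simp
      _ ≤ (q + 1) * ((q + 1 - t) * (y ^ 2 * (1 / (1 - y)))) + (t - 1) := by
          have := s53c_geom y hy0 hy1 K
          have h3 : 0 ≤ q + 1 - t := by linarith
          gcongr
      _ = _ := by
          have hq1 : q - 1 ≠ 0 := by linarith
          rw [hy]; field_simp; ring
  have h3 : 0 ≤ (t - 1) + (q + 1) * ((q + 1 - t) * (1 / (q * (q - 1)))) := by
    have a1 : 0 ≤ t - 1 := by linarith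
    have a2 : 0 ≤ q + 1 - t := by linarith
    have a3 : 0 < q - 1 := by linarith
    positivity
  calc w * ∑ x ∈ π.unres.erase u, π.Ashort K z u.1 x.1 ^ 4
      ≤ 1 / q ^ 2 * ((t - 1) + (q + 1) * ((q + 1 - t) * (1 / (q * (q - 1))))) :=
        mul_le_mul hw1 h2 (Finset.sum_nonneg fun x _ => by positivity) (by positivity)
    _ ≤ 3 / 4 := s53c_num q t hq2 ht1 htd

/-- the long part of the actual-walk series -/
noncomputable def s53cLong (K L : ℕ) (z : ℝ) (v w : Fin n) : ℝ :=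
  ∑ k ∈ Finset.range L, (if K < k then π.Nact ℝ k v w else 0) * z ^ k

theorem s53c_long_nonneg (K L : ℕ) (z : ℝ) (hz : 0 ≤ z) (v w : Fin n) : 0 ≤ π.s53cLong K L z v w := by
  refine Finset.sum_nonneg fun k _ => mul_nonneg ?_ (pow_nonneg hz k)
  split_ifs
  · exact (π.Nact_le_Qmat k v w).1
  · exact le_rfl

theorem s53c_long_le_Aact (K L : ℕ) (z : ℝ) (hz : 0 ≤ z) (v w : Fin n) : π.s53cLong K L z v w ≤ π.Aact L z v w := by
  refine Finset.sum_le_sum fun k _ => mul_le_mul_of_nonneg_right ?_ (pow_nonneg hz k)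
  split_ifs
  · exact le_rfl
  · exact (π.Nact_le_Qmat k v w).1

theorem s53c_Aact_le (K L : ℕ) (z : ℝ) (hz : 0 ≤ z) (v w : Fin n) :
    π.Aact L z v w ≤ π.Ashort K z v w + π.s53cLong K L z v w := by
  have h1 : π.Aact L z v w = ∑ k ∈ Finset.range L, (if K < k then 0 else π.Nact ℝ k v w * z ^ k)
      + π.s53cLong K L z v w := by
    rw [Aact, s53cLong, ← Finset.sum_add_distrib]
    refine Finset.sum_congr rfl fun k _ => ?_
    split_ifs <;> ring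
  rw [h1]
  gcongr
  have h2 : ∑ k ∈ Finset.range L, (if K < k then 0 else π.Nact ℝ k v w * z ^ k)
      = ∑ k ∈ (Finset.range L).filter (fun k => ¬ K < k), π.Nact ℝ k v w * z ^ k := by
    rw [Finset.sum_filter]
    refine Finset.sum_congr rfl fun k _ => ?_
    split_ifs <;> rfl
  rw [h2, Ashort]
  refine Finset.sum_le_sum_of_subset_of_nonneg ?_ fun k _ _ =>
    mul_nonneg (π.Nact_le_Qmat k v w).1 (pow_nonneg hz k)
  intro k hk
  have := (Finset.mem_filter.1 hk).2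
  exact Finset.mem_range.2 (by omega)

theorem s53c_long_le (hd : 3 ≤ d) {CM CR η : ℝ} {Rc : ℕ} (hW : π.WalkOK CM CR η Rc) (z : ℝ) (hz : 0 ≤ z)
    (hz' : z ≤ zq d) (K : ℕ) (v w : Fin n) :
    π.s53cLong K (Lcut d n) z v w ≤ CM * zq d ^ (K + 1) / (1 - zq d) := by
  have hCM : 0 ≤ CM := by have := π.s43x_one_le_CM hW v; linarith
  refine s43x_sum_le (fun k => if K < k then π.Nact ℝ k v w else 0) CM z (zq d) K (Lcut d n) hCM hz hz'
    (s43x_zq_bounds d hd).2 ?_ ?_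
  · intro k hk _
    have : ¬ K < k := by omega
    simp [this]
  · intro k hk
    show (if K < k then π.Nact ℝ k v w else 0) ≤ CM
    split_ifs
    · exact hW.mult v w k hk.le
    · exact hCM

theorem s53c_Amaj_symm (Cm : ℝ) (L : ℕ) (z : ℝ) (x u : Stub n d) :
    π.Amaj Cm L z (.stub x) u = π.Amaj Cm L z (.stub u) x := by
  unfold Amaj Aact
  congr 1
  refine Finset.sum_congr rfl fun k _ => ?_
  rw [show (Label.stub x : Label n d).vtx = x.1 from rfl, show (Label.stub u : Label n d).vtx = u.1 from rfl,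
    π.s43v_Nact_symm k x.1 u.1]

/-- (5.24), NON-ASYMPTOTIC FORM -/
theorem s53c_fin (hd : 3 ≤ d) {CM CR η : ℝ} {Rc : ℕ} (hW : π.WalkOK CM CR η Rc) (K : ℕ) (hK : 2 * K < g0 d n)
    (z : ℝ) (hz : 0 ≤ z) (hz' : z ≤ zq d) {u : Stub n d} (hu : π.Unres u) (S2 ε : ℝ)
    (hS2 : ∑ x ∈ π.unres, π.Amaj (Cmaj d) (Lcut d n) z (.stub u) x ^ 2 ≤ S2)
    (hε : CM * zq d ^ (K + 1) / (1 - zq d) + Umaj d (Cmaj d) π.l (Lcut d n) z ≤ ε) :
    z ^ 4 * ∑ x ∈ π.unres.erase u, π.Amaj (Cmaj d) (Lcut d n) z (.stub x) u ^ 4 ≤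
      (41 / 40) ^ 3 * (3 / 4) + 41 ^ 3 * (ε ^ 2 * S2) := by
  have hC : 0 ≤ Cmaj d := by linarith [s43v_one_le_Cmaj hd]
  set L := Lcut d n with hL
  set U := Umaj d (Cmaj d) π.l L z with hU
  have hU0 : 0 ≤ U := s43v_sum_nonneg (fun k => s43v_UmajC_nonneg d hd _ hC π.l k) hz
  have hz1 : z ≤ 1 := hz'.trans (s43x_zq_bounds d hd).2.le
  have hz4 : z ^ 4 ≤ 1 := pow_le_one₀ hz hz1
  have hz40 : 0 ≤ z ^ 4 := by positivity
  -- pointwise
  have hpt : ∀ x : Stub n d, π.Amaj (Cmaj d) L z (.stub x) u ^ 4 ≤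
      (41 / 40) ^ 3 * π.Ashort K z u.1 x.1 ^ 4 + 41 ^ 3 * (ε ^ 2 * π.Amaj (Cmaj d) L z (.stub u) x ^ 2) := by
    intro x
    rw [π.s53c_Amaj_symm (Cmaj d) L z x u]
    set B := π.s53cLong K L z u.1 x.1 + U with hB
    have hB0 : 0 ≤ B := add_nonneg (π.s53c_long_nonneg K L z hz _ _) hU0
    have hBε : B ≤ ε := by
      have := π.s53c_long_le hd hW z hz hz' K u.1 x.1
      rw [hB]; linarith
    have hA : π.Amaj (Cmaj d) L z (.stub u) x = π.Aact L z u.1 x.1 + U := rfl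
    have hBA : B ≤ π.Amaj (Cmaj d) L z (.stub u) x := by
      rw [hA, hB]
      have := π.s53c_long_le_Aact K L z hz u.1 x.1
      linarith
    have hA0 : 0 ≤ π.Amaj (Cmaj d) L z (.stub u) x := hB0.trans hBA
    have hAle : π.Amaj (Cmaj d) L z (.stub u) x ≤ π.Ashort K z u.1 x.1 + B := by
      rw [hA, hB]
      have := π.s53c_Aact_le K L z hz u.1 x.1
      linarith
    calc π.Amaj (Cmaj d) L z (.stub u) x ^ 4 ≤ (π.Ashort K z u.1 x.1 + B) ^ 4 := pow_le_pow_left₀ hA0 hAle 4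
      _ ≤ (41 / 40) ^ 3 * π.Ashort K z u.1 x.1 ^ 4 + 41 ^ 3 * B ^ 4 := s53c_add4 _ _
      _ ≤ _ := by
          have h1 : B ^ 4 ≤ ε ^ 2 * π.Amaj (Cmaj d) L z (.stub u) x ^ 2 := by
            calc B ^ 4 = B ^ 2 * B ^ 2 := by ring
              _ ≤ ε ^ 2 * π.Amaj (Cmaj d) L z (.stub u) x ^ 2 :=
                mul_le_mul (pow_le_pow_left₀ hB0 hBε 2) (pow_le_pow_left₀ hB0 hBA 2) (sq_nonneg _) (sq_nonneg _)
          linarith
  have hsub : ∑ x ∈ π.unres.erase u, π.Amaj (Cmaj d) L z (.stub u) x ^ 2 ≤ S2 :=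
    (Finset.sum_le_sum_of_subset_of_nonneg (Finset.erase_subset _ _) fun x _ _ => sq_nonneg _).trans hS2
  have hS20 : 0 ≤ ∑ x ∈ π.unres.erase u, π.Amaj (Cmaj d) L z (.stub u) x ^ 2 :=
    Finset.sum_nonneg fun x _ => sq_nonneg _
  have hsh := π.s53c_short hd hW K hK z hz hz' hu
  calc z ^ 4 * ∑ x ∈ π.unres.erase u, π.Amaj (Cmaj d) L z (.stub x) u ^ 4
      ≤ z ^ 4 * ∑ x ∈ π.unres.erase u, ((41 / 40) ^ 3 * π.Ashort K z u.1 x.1 ^ 4
          + 41 ^ 3 * (ε ^ 2 * π.Amaj (Cmaj d) L z (.stub u) x ^ 2)) :=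
        mul_le_mul_of_nonneg_left (Finset.sum_le_sum fun x _ => hpt x) hz40
    _ = (41 / 40) ^ 3 * (z ^ 4 * ∑ x ∈ π.unres.erase u, π.Ashort K z u.1 x.1 ^ 4)
          + z ^ 4 * (41 ^ 3 * (ε ^ 2 * ∑ x ∈ π.unres.erase u, π.Amaj (Cmaj d) L z (.stub u) x ^ 2)) := by
        rw [Finset.sum_add_distrib, ← Finset.mul_sum, ← Finset.mul_sum, ← Finset.mul_sum]
        ring
    _ ≤ (41 / 40) ^ 3 * (3 / 4) + 1 * (41 ^ 3 * (ε ^ 2 * S2)) := by
        have a1 : (41 / 40 : ℝ) ^ 3 * (z ^ 4 * ∑ x ∈ π.unres.erase u, π.Ashort K z u.1 x.1 ^ 4)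
            ≤ (41 / 40) ^ 3 * (3 / 4) := mul_le_mul_of_nonneg_left hsh (by norm_num)
        have a2 : (41 : ℝ) ^ 3 * (ε ^ 2 * ∑ x ∈ π.unres.erase u, π.Amaj (Cmaj d) L z (.stub u) x ^ 2)
            ≤ 41 ^ 3 * (ε ^ 2 * S2) :=
          mul_le_mul_of_nonneg_left (mul_le_mul_of_nonneg_left hsub (sq_nonneg _)) (by norm_num)
        have a3 : z ^ 4 * (41 ^ 3 * (ε ^ 2 * ∑ x ∈ π.unres.erase u, π.Amaj (Cmaj d) L z (.stub u) x ^ 2))
            ≤ 1 * (41 ^ 3 * (ε ^ 2 * S2)) :=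
          mul_le_mul hz4 a2 (by positivity) (by norm_num)
        linarith
    _ = _ := by ring

end PPair

/-- the girth radius tends to infinity -/
theorem s53c_g0_large (d : ℕ) (hd : 3 ≤ d) (K : ℕ) : ∀ᶠ n : ℕ in atTop, K < g0 d n := by
  have hd' : (3 : ℝ) ≤ d := by exact_mod_cast hd
  have hx : (0 : ℚ) < 2 / 1000 * aa := by unfold aa; norm_num
  have hx' : (0 : ℝ) < ((2 / 1000 * aa : ℚ) : ℝ) := by exact_mod_cast hx
  filter_upwards [parF_ev_large _ hx' (((d : ℝ) - 1) ^ (K + 1) * 2 ^ (((2 / 1000 * aa : ℚ) : ℝ) + 1)),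
    eventually_ge_atTop 1] with n hn hn1
  have h := (pow_radius_bounds d hd (2 / 1000 * aa) hx.le n hn1).2
  by_contra hc
  have hg : g0 d n + 1 ≤ K + 1 := by omega
  have h1 : ((d : ℝ) - 1) ^ (g0 d n + 1) ≤ ((d : ℝ) - 1) ^ (K + 1) := pow_le_pow_right₀ (by linarith) hg
  have h2 : ((d : ℝ) - 1) ^ (K + 1) ≤ (n : ℝ) ^ ((2 / 1000 * aa : ℚ) : ℝ) / 2 ^ (((2 / 1000 * aa : ℚ) : ℝ) + 1) := by
    rw [le_div_iff₀ (by positivity)]; exact hn
  have h3 : ((d : ℝ) - 1) ^ (Nat.log (d - 1) (scN (2 / 1000 * aa) n) + 1) = ((d : ℝ) - 1) ^ (g0 d n + 1) := rfl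
  rw [h3] at h
  linarith

/-- the uniform part tends to zero -/
theorem s53c_Umaj_small (d : ℕ) (hd : 3 ≤ d) (ε : ℝ) (hε : 0 < ε) :
    ∀ᶠ n : ℕ in atTop, ∀ l : ℕ, l0 n ≤ l → ∀ z : ℝ, 0 ≤ z → z ≤ zq d → Umaj d (Cmaj d) l (Lcut d n) z ≤ ε := by
  have hC : 0 ≤ Cmaj d := by linarith [PPair.s43v_one_le_Cmaj hd]
  have hc : -(28 / 100 : ℝ) * (aa : ℝ) < 0 := by rw [parF_aa]; norm_num
  filter_upwards [s43v_Umaj_small d hd, parF_ev_small _ hc ε hε] with n h1 h2 l hl z hz hz'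
  have h3 : Umaj d (Cmaj d) l (Lcut d n) z ≤ Umaj d (Cmaj d) l (Lcut d n) (zq d) :=
    s43v_sum_mono (fun k => s43v_UmajC_nonneg d hd _ hC l k) hz hz'
  refine h3.trans ((h1 l hl).trans ?_)
  have hl0 : 1 ≤ l0 n := by
    unfold l0 scN
    have : 0 < 2 ^ (scZ (2 / 3 + 15 / 100 * aa) n).toNat := by positivity
    omega
  have hs : 1 ≤ Real.sqrt (l0 n) := by
    rw [Real.one_le_sqrt]; exact_mod_cast hl0
  calc (n : ℝ) ^ (-(28 / 100 : ℝ) * (aa : ℝ)) / Real.sqrt (l0 n) ≤ (n : ℝ) ^ (-(28 / 100 : ℝ) * (aa : ℝ)) :=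
        div_le_self (by positivity) hs
    _ ≤ ε := h2

/-- (5.24) = (W5): `z⁴ ∑_{x ∈ S, x ≠ u} A_x(u)⁴ ≤ 7/8` at every state with the walk facts and `l ≥ l₀`, eventually in `n`. -/
theorem s53_C4 (d : ℕ) (hd : 3 ≤ d) (CM CR η : ℝ) (Rc : ℕ) :
    ∀ᶠ n : ℕ in atTop, ∀ π : PPair n d, l0 n ≤ π.l → π.WalkOK CM CR η Rc →
      ∀ z : ℝ, 0 ≤ z → z ≤ zq d → ∀ u : Stub n d, π.Unres u →
        z ^ 4 * ∑ x ∈ π.unres.erase u, π.Amaj (Cmaj d) (Lcut d n) z (.stub x) u ^ 4 ≤ 7 / 8 := by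
  obtain ⟨hzq0, hzq1⟩ := s43x_zq_bounds d hd
  set S2 : ℝ := 2 * |CR| + 1 with hS2
  have hS21 : 1 ≤ S2 := by rw [hS2]; linarith [abs_nonneg CR]
  set ε : ℝ := 1 / (1100 * S2) with hε
  have hε0 : 0 < ε := by positivity
  -- the fixed radius
  have hthr : 0 < ε * (1 - zq d) / (2 * (|CM| + 1)) := by
    have : 0 < 1 - zq d := by linarith
    positivity
  obtain ⟨K0, hK0⟩ := exists_pow_lt_of_lt_one hthr hzq1
  filter_upwards [s53c_g0_large d hd (2 * K0), s53c_Umaj_small d hd (ε / 2) (by positivity),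
    s43v_sum_Amaj_sq_le d hd CM CR η Rc] with n hg hU hsq π hl hW z hz hz' u hu
  have h1 : ∑ x ∈ π.unres, π.Amaj (Cmaj d) (Lcut d n) z (.stub u) x ^ 2 ≤ S2 := by
    refine (hsq π hl hW z hz hz' (.stub u)).trans ?_
    rw [hS2]; linarith [le_abs_self CR]
  have h2 : CM * zq d ^ (K0 + 1) / (1 - zq d) + Umaj d (Cmaj d) π.l (Lcut d n) z ≤ ε := by
    have a1 := hU π.l hl z hz hz'
    have a2 : CM * zq d ^ (K0 + 1) / (1 - zq d) ≤ ε / 2 := by
      have hpos : 0 < 1 - zq d := by linarith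
      rw [div_le_iff₀ hpos]
      have b1 : zq d ^ (K0 + 1) ≤ zq d ^ K0 := pow_le_pow_of_le_one hzq0.le hzq1.le (Nat.le_succ _)
      have b2 : zq d ^ (K0 + 1) ≤ ε * (1 - zq d) / (2 * (|CM| + 1)) := b1.trans hK0.le
      have b3 : 0 ≤ zq d ^ (K0 + 1) := by positivity
      have b4 : CM ≤ |CM| + 1 := by linarith [le_abs_self CM]
      have b5 : (0 : ℝ) < |CM| + 1 := by positivity
      calc CM * zq d ^ (K0 + 1) ≤ (|CM| + 1) * zq d ^ (K0 + 1) := mul_le_mul_of_nonneg_right b4 b3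
        _ ≤ (|CM| + 1) * (ε * (1 - zq d) / (2 * (|CM| + 1))) := mul_le_mul_of_nonneg_left b2 b5.le
        _ = ε / 2 * (1 - zq d) := by field_simp
    linarith
  have h3 := π.s53c_fin hd hW K0 hg z hz hz' hu S2 ε h1 h2
  refine h3.trans ?_
  have h4 : ε ^ 2 * S2 ≤ 1 / 1210000 := by
    have e : ε ^ 2 * S2 = 1 / (1210000 * S2) := by
      rw [hε]; field_simp; ring
    rw [e]
    apply div_le_div_of_nonneg_left (by norm_num) (by norm_num)
    linarith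
  have h5 : (41 : ℝ) ^ 3 * (ε ^ 2 * S2) ≤ 41 ^ 3 * (1 / 1210000) := mul_le_mul_of_nonneg_left h4 (by norm_num)
  norm_num at h5 ⊢
  linarith

end Claimed.Agent.R275
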