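import Mathlib

/-!
# Row 275, Sec 5.3, package S53-SCALAR: the pointwise remainder of `T_S` as an inequality between real numbers

Owner: helper114.  No paper, no definitions: triangle inequality and products of bounds.  Derivation (`θ_0 = a00 p0 + a01 p1`, `θ_1 = a01 p0 + a11 p1`,
`ẽ_0 = e0 - (E00 θ_0 + E01 θ_1)`, `ẽ_1 = e1 - (E01 θ_0 + E11 θ_1)`):
 (i)   `|2 θ·e| ≤ 2 K1 (jv + il) r0² + 16 r0 r1 + 2 K1 (ju + il) r1²`;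
 (ii)  `θᵀ D_E θ - Zc = (θ_0² - x² p1²) E00 + (θ_1² - x² p0²) E11 + 2 θ_0 θ_1 E01`, `θ_0² - x² p1² = (θ_0 + x p1)(θ_0 - x p1)`,
       `|θ_0 + x p1| ≤ K1 (jv + il) |p0| + K1 (b + ju jv + il) |p1|`, `|θ_0 - x p1| ≤ 4 |p0| + 5 |p1|`, `|θ_0 θ_1 E01| ≤ 32 (r0² + r1²) B`;
 (iii) `|ẽ_i| ≤ |e_i| + 8 dm (r0 + r1)`;  `|ẽ_0 ẽ_1| ≤ r0 r1 + C dm² (r0 + r1)`;  `|c00| ẽ_0² ≤ 2 K1 (jv + il) r0² + C dm² (r0 + r1)`;
 and `il r_i² ≤ R il r_i`.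
-/

set_option autoImplicit false

namespace Claimed.Agent.R275

theorem s53sc_M {a b A B : ℝ} (ha : |a| ≤ A) (hb : |b| ≤ B) : |a * b| ≤ A * B := by
  rw [abs_mul]; exact mul_le_mul ha hb (abs_nonneg _) ((abs_nonneg _).trans ha)

theorem s53sc_A {a b A B : ℝ} (ha : |a| ≤ A) (hb : |b| ≤ B) : |a + b| ≤ A + B :=
  (abs_add_le _ _).trans (add_le_add ha hb)

theorem s53sc_S {a b A B : ℝ} (ha : |a| ≤ A) (hb : |b| ≤ B) : |a - b| ≤ A + B :=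
  (abs_sub _ _).trans (add_le_add ha hb)

/-- the elementary facts on `G` -/
theorem s53sc_facts (R ju jv b B il dm r0 r1 G : ℝ) (hR : 0 ≤ R) (hju0 : 0 ≤ ju) (hju1 : ju ≤ 1) (hjv0 : 0 ≤ jv)
    (hjv1 : jv ≤ 1) (hb0 : 0 ≤ b) (hbB : b ≤ B) (hil0 : 0 ≤ il) (hr00 : 0 ≤ r0) (hr10 : 0 ≤ r1)
    (hr0R : r0 ≤ R) (hr1R : r1 ≤ R)
    (hG : G = r0 * r1 + r0 ^ 2 * (jv + B) + r1 ^ 2 * (ju + B) + (dm ^ 2 + il) * (r0 + r1)) :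
    0 ≤ G ∧ (jv + il) * r0 ^ 2 ≤ (1 + R) * G ∧ (ju + il) * r1 ^ 2 ≤ (1 + R) * G ∧
    (b + ju * jv + il) * r1 ^ 2 ≤ (1 + R) * G ∧ (b + ju * jv + il) * r0 ^ 2 ≤ (1 + R) * G ∧ r0 * r1 ≤ G ∧
    dm ^ 2 * (r0 + r1) ≤ G ∧ (r0 ^ 2 + r1 ^ 2) * B ≤ G ∧ dm ^ 2 * (r0 + r1) ^ 2 ≤ 2 * R * G ∧
    dm ^ 2 * r0 ≤ G ∧ dm ^ 2 * r1 ≤ G ∧ r0 ^ 2 * jv ≤ G ∧ r1 ^ 2 * ju ≤ G ∧ il * r0 ^ 2 ≤ R * G ∧
    il * r1 ^ 2 ≤ R * G := by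
  have hB0 : 0 ≤ B := hb0.trans hbB
  have g1 : 0 ≤ r0 * r1 := by positivity
  have g2a : 0 ≤ r0 ^ 2 * jv := by positivity
  have g2b : 0 ≤ r0 ^ 2 * B := by positivity
  have g3a : 0 ≤ r1 ^ 2 * ju := by positivity
  have g3b : 0 ≤ r1 ^ 2 * B := by positivity
  have g4a : 0 ≤ dm ^ 2 * r0 := by positivity
  have g4b : 0 ≤ dm ^ 2 * r1 := by positivity
  have g4c : 0 ≤ il * r0 := by positivity
  have g4d : 0 ≤ il * r1 := by positivity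
  have hGe : G = r0 * r1 + r0 ^ 2 * jv + r0 ^ 2 * B + r1 ^ 2 * ju + r1 ^ 2 * B + dm ^ 2 * r0 + dm ^ 2 * r1
      + il * r0 + il * r1 := by rw [hG]; ring
  have hG0 : 0 ≤ G := by linarith
  have ilr0 : il * r0 ^ 2 ≤ R * G := by
    calc il * r0 ^ 2 = (il * r0) * r0 := by ring
      _ ≤ (il * r0) * R := mul_le_mul_of_nonneg_left hr0R g4c
      _ = R * (il * r0) := by ring
      _ ≤ R * G := mul_le_mul_of_nonneg_left (by linarith) hR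
  have ilr1 : il * r1 ^ 2 ≤ R * G := by
    calc il * r1 ^ 2 = (il * r1) * r1 := by ring
      _ ≤ (il * r1) * R := mul_le_mul_of_nonneg_left hr1R g4d
      _ = R * (il * r1) := by ring
      _ ≤ R * G := mul_le_mul_of_nonneg_left (by linarith) hR
  have hjj0 : ju * jv ≤ jv := by
    calc ju * jv ≤ 1 * jv := mul_le_mul_of_nonneg_right hju1 hjv0
      _ = jv := one_mul _
  have hjj1 : ju * jv ≤ ju := by
    calc ju * jv ≤ ju * 1 := mul_le_mul_of_nonneg_left hjv1 hju0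
      _ = ju := mul_one _
  have F6 : dm ^ 2 * (r0 + r1) ≤ G := by linarith
  refine ⟨hG0, by linarith, by linarith, ?_, ?_, by linarith, F6, by linarith, ?_, by linarith, by linarith,
    by linarith, by linarith, ilr0, ilr1⟩
  · have h1 : r1 ^ 2 * b ≤ r1 ^ 2 * B := mul_le_mul_of_nonneg_left hbB (sq_nonneg _)
    have h2 : r1 ^ 2 * (ju * jv) ≤ r1 ^ 2 * ju := mul_le_mul_of_nonneg_left hjj1 (sq_nonneg _)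
    linarith
  · have h1 : r0 ^ 2 * b ≤ r0 ^ 2 * B := mul_le_mul_of_nonneg_left hbB (sq_nonneg _)
    have h2 : r0 ^ 2 * (ju * jv) ≤ r0 ^ 2 * jv := mul_le_mul_of_nonneg_left hjj0 (sq_nonneg _)
    linarith
  · calc dm ^ 2 * (r0 + r1) ^ 2 = (r0 + r1) * (dm ^ 2 * (r0 + r1)) := by ring
      _ ≤ (2 * R) * G := mul_le_mul (by linarith) F6 (by positivity) (by positivity)

/-- term (i) -/
theorem s53sc_T1 (K1 R a00 a01 a11 p0 p1 e0 e1 α0 α1 r0 r1 G : ℝ) (hK1 : 0 ≤ K1)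
    (hp0 : |p0| ≤ r0) (hp1 : |p1| ≤ r1) (he0 : |e0| ≤ r0) (he1 : |e1| ≤ r1)
    (ha00 : |a00| ≤ K1 * α0) (ha11 : |a11| ≤ K1 * α1) (ha01 : |a01| ≤ 4)
    (F1 : α0 * r0 ^ 2 ≤ (1 + R) * G) (F2 : α1 * r1 ^ 2 ≤ (1 + R) * G) (F5 : r0 * r1 ≤ G) :
    |(a00 * p0 + a01 * p1) * e0 + (a01 * p0 + a11 * p1) * e1| ≤ (2 * K1 * (1 + R) + 8) * G := by
  have h1 : |(a00 * p0 + a01 * p1) * e0| ≤ (K1 * α0 * r0 + 4 * r1) * r0 :=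
    s53sc_M (s53sc_A (s53sc_M ha00 hp0) (s53sc_M ha01 hp1)) he0
  have h2 : |(a01 * p0 + a11 * p1) * e1| ≤ (4 * r0 + K1 * α1 * r1) * r1 :=
    s53sc_M (s53sc_A (s53sc_M ha01 hp0) (s53sc_M ha11 hp1)) he1
  refine (s53sc_A h1 h2).trans ?_
  have k1 := mul_le_mul_of_nonneg_left F1 hK1
  have k2 := mul_le_mul_of_nonneg_left F2 hK1
  linarith

/-- term (ii), diagonal part -/
theorem s53sc_T2 (K1 R a00 a01 p0 p1 x E00 α0 β r0 r1 G : ℝ) (hK1 : 0 ≤ K1) (hx : |x| ≤ 1)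
    (hp0 : |p0| ≤ r0) (hp1 : |p1| ≤ r1) (hE : |E00| ≤ 1)
    (ha00 : |a00| ≤ K1 * α0) (ha01 : |a01 + x| ≤ K1 * β) (ha00' : |a00| ≤ 4) (ha01' : |a01| ≤ 4)
    (hα : α0 ≤ 2) (hβ : β ≤ 3)
    (F1 : α0 * r0 ^ 2 ≤ (1 + R) * G) (F3 : β * r1 ^ 2 ≤ (1 + R) * G) (F5 : r0 * r1 ≤ G) :
    |((a00 * p0 + a01 * p1) + x * p1) * ((a00 * p0 + a01 * p1) - x * p1) * E00| ≤ K1 * (31 + 9 * R) * G := by
  have hr00 : 0 ≤ r0 := (abs_nonneg _).trans hp0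
  have hr10 : 0 ≤ r1 := (abs_nonneg _).trans hp1
  have g1 : 0 ≤ r0 * r1 := by positivity
  have e1 : (a00 * p0 + a01 * p1) + x * p1 = a00 * p0 + (a01 + x) * p1 := by ring
  have h1 : |(a00 * p0 + a01 * p1) + x * p1| ≤ K1 * α0 * r0 + K1 * β * r1 := by
    rw [e1]; exact s53sc_A (s53sc_M ha00 hp0) (s53sc_M ha01 hp1)
  have h2 : |(a00 * p0 + a01 * p1) - x * p1| ≤ (4 * r0 + 4 * r1) + 1 * r1 :=
    s53sc_S (s53sc_A (s53sc_M ha00' hp0) (s53sc_M ha01' hp1)) (s53sc_M hx hp1)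
  refine (s53sc_M (s53sc_M h1 h2) hE).trans ?_
  have q1 : α0 * (r0 * r1) ≤ 2 * G := (mul_le_mul_of_nonneg_right hα g1).trans (by linarith)
  have q2 : β * (r0 * r1) ≤ 3 * G := (mul_le_mul_of_nonneg_right hβ g1).trans (by linarith)
  have k1 := mul_le_mul_of_nonneg_left F1 hK1
  have k3 := mul_le_mul_of_nonneg_left F3 hK1
  have k4 := mul_le_mul_of_nonneg_left q1 hK1
  have k5 := mul_le_mul_of_nonneg_left q2 hK1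
  linarith

/-- term (ii), cross part -/
theorem s53sc_T2c (θ0 θ1 E01 B r0 r1 G : ℝ) (h0 : |θ0| ≤ 4 * (r0 + r1)) (h1 : |θ1| ≤ 4 * (r0 + r1))
    (hE : |E01| ≤ B) (F7 : (r0 ^ 2 + r1 ^ 2) * B ≤ G) : |2 * θ0 * θ1 * E01| ≤ 64 * G := by
  have h2 : |(2 : ℝ)| ≤ 2 := by norm_num
  refine (s53sc_M (s53sc_M (s53sc_M h2 h0) h1) hE).trans ?_
  have hB0 : 0 ≤ B := (abs_nonneg _).trans hE
  have h3 : (r0 + r1) ^ 2 ≤ 2 * (r0 ^ 2 + r1 ^ 2) := by nlinarith [sq_nonneg (r0 - r1)]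
  have h4 := mul_le_mul_of_nonneg_right h3 hB0
  linarith

/-- term (iii), cross part -/
theorem s53sc_T3a (R c01 f0 f1 E0 E1 dm r0 r1 G : ℝ) (hc : |c01| ≤ 4) (hdm0 : 0 ≤ dm) (hE0n : 0 ≤ E0) (hE1n : 0 ≤ E1)
    (hr00 : 0 ≤ r0) (hr10 : 0 ≤ r1)
    (bf0 : |f0| ≤ E0 + 8 * (dm * (r0 + r1))) (bf1 : |f1| ≤ E1 + 8 * (dm * (r0 + r1)))
    (he0 : E0 ≤ dm) (he1 : E1 ≤ dm) (he0r : E0 ≤ r0) (he1r : E1 ≤ r1)
    (F5 : r0 * r1 ≤ G) (F6 : dm ^ 2 * (r0 + r1) ≤ G) (F8 : dm ^ 2 * (r0 + r1) ^ 2 ≤ 2 * R * G) :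
    |2 * c01 * f0 * f1| ≤ (136 + 1024 * R) * G := by
  have h2 : |(2 : ℝ)| ≤ 2 := by norm_num
  refine (s53sc_M (s53sc_M (s53sc_M h2 hc) bf0) bf1).trans ?_
  have hds : 0 ≤ dm * (r0 + r1) := by positivity
  have q1 : E0 * E1 ≤ G := (mul_le_mul he0r he1r hE1n hr00).trans F5
  have q2 : E0 * (dm * (r0 + r1)) ≤ G := (mul_le_mul_of_nonneg_right he0 hds).trans (by linarith)
  have q3 : E1 * (dm * (r0 + r1)) ≤ G := (mul_le_mul_of_nonneg_right he1 hds).trans (by linarith)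
  linarith

/-- term (iii), diagonal part -/
theorem s53sc_T3b (K1 R c00 f0 E0 E11 jv il dm r0 r1 G : ℝ) (hK1 : 0 ≤ K1) (hdm0 : 0 ≤ dm) (hE0n : 0 ≤ E0)
    (hjv0 : 0 ≤ jv) (hil0 : 0 ≤ il)
    (hc00 : |c00| ≤ K1 * (jv + |E11| + il)) (hc00' : |c00| ≤ 4) (hE11 : |E11| ≤ dm)
    (bf0 : |f0| ≤ E0 + 8 * (dm * (r0 + r1))) (he0 : E0 ≤ dm) (he0r : E0 ≤ r0)
    (F8 : dm ^ 2 * (r0 + r1) ^ 2 ≤ 2 * R * G) (F9 : dm ^ 2 * r0 ≤ G) (F11 : r0 ^ 2 * jv ≤ G)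
    (F13 : il * r0 ^ 2 ≤ R * G) :
    |c00 * f0 ^ 2| ≤ (2 * K1 * (2 + R) + 1024 * R) * G := by
  rw [abs_mul, abs_of_nonneg (sq_nonneg f0), ← sq_abs f0]
  have h1 : |f0| ^ 2 ≤ 2 * E0 ^ 2 + 128 * (dm ^ 2 * (r0 + r1) ^ 2) := by
    calc |f0| ^ 2 ≤ (E0 + 8 * (dm * (r0 + r1))) ^ 2 := pow_le_pow_left₀ (abs_nonneg _) bf0 2
      _ ≤ 2 * E0 ^ 2 + 2 * (8 * (dm * (r0 + r1))) ^ 2 := by
          nlinarith [sq_nonneg (E0 - 8 * (dm * (r0 + r1)))]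
      _ = _ := by ring
  have h2 := mul_le_mul_of_nonneg_left h1 (abs_nonneg c00)
  have h3 : |c00| * (2 * E0 ^ 2) ≤ K1 * (jv + |E11| + il) * (2 * E0 ^ 2) :=
    mul_le_mul_of_nonneg_right hc00 (by positivity)
  have h4 : |c00| * (128 * (dm ^ 2 * (r0 + r1) ^ 2)) ≤ 4 * (128 * (dm ^ 2 * (r0 + r1) ^ 2)) :=
    mul_le_mul_of_nonneg_right hc00' (by positivity)
  have hE0sq : E0 ^ 2 ≤ r0 ^ 2 := pow_le_pow_left₀ hE0n he0r 2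
  have q1 : jv * E0 ^ 2 ≤ G := (mul_le_mul_of_nonneg_left hE0sq hjv0).trans (by linarith)
  have q2 : |E11| * E0 ^ 2 ≤ G := by
    have a1 : E0 ^ 2 ≤ dm * r0 := by
      rw [sq]; exact mul_le_mul he0 he0r hE0n hdm0
    have a2 : |E11| * E0 ^ 2 ≤ dm * (dm * r0) := mul_le_mul hE11 a1 (sq_nonneg _) hdm0
    linarith
  have q3 : il * E0 ^ 2 ≤ R * G := (mul_le_mul_of_nonneg_left hE0sq hil0).trans (by linarith)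
  have q4 : (jv + |E11| + il) * (2 * E0 ^ 2) ≤ 2 * (2 + R) * G := by linarith
  have q5 := mul_le_mul_of_nonneg_left q4 hK1
  linarith

/-- SCALAR FORM of the pointwise remainder (steps (i)-(iii) of the header): pure inequalities between real numbers.
`a..` = entries of `H_P`, `c..` = entries of `H_W`, `x = σ h`. -/
theorem s53_scalar (K1 R : ℝ) (hK1 : 0 ≤ K1) (hR : 0 ≤ R) : ∃ K : ℝ, 0 < K ∧
    ∀ (a00 a01 a11 c00 c01 c11 E00 E01 E11 p0 p1 e0 e1 x ju jv b B il dm r0 r1 : ℝ),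
    |x| ≤ 1 → 0 ≤ ju → ju ≤ 1 → 0 ≤ jv → jv ≤ 1 → 0 ≤ b → b ≤ 1 → 0 ≤ il → il ≤ 1 → dm ≤ 1 →
    b + |E01| ≤ B → |E00| ≤ dm → |E01| ≤ dm → |E11| ≤ dm → |e0| ≤ dm → |e1| ≤ dm →
    |p0| + |e0| ≤ r0 → |p1| + |e1| ≤ r1 → r0 ≤ R → r1 ≤ R →
    |a00| ≤ K1 * (jv + il) → |a11| ≤ K1 * (ju + il) → |a01 + x| ≤ K1 * (b + ju * jv + il) →
    |a00| ≤ 4 → |a01| ≤ 4 → |a11| ≤ 4 →
    |c00| ≤ K1 * (jv + |E11| + il) → |c11| ≤ K1 * (ju + |E00| + il) → |c00| ≤ 4 → |c01| ≤ 4 → |c11| ≤ 4 →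
    |-(2 * ((a00 * p0 + a01 * p1) * e0 + (a01 * p0 + a11 * p1) * e1))
      + ((a00 * p0 + a01 * p1) ^ 2 * E00 + 2 * (a00 * p0 + a01 * p1) * (a01 * p0 + a11 * p1) * E01
          + (a01 * p0 + a11 * p1) ^ 2 * E11)
      - (c00 * (e0 - (E00 * (a00 * p0 + a01 * p1) + E01 * (a01 * p0 + a11 * p1))) ^ 2
          + 2 * c01 * (e0 - (E00 * (a00 * p0 + a01 * p1) + E01 * (a01 * p0 + a11 * p1)))
              * (e1 - (E01 * (a00 * p0 + a01 * p1) + E11 * (a01 * p0 + a11 * p1)))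
          + c11 * (e1 - (E01 * (a00 * p0 + a01 * p1) + E11 * (a01 * p0 + a11 * p1))) ^ 2)
      - x ^ 2 * (p0 ^ 2 * E11 + p1 ^ 2 * E00)| ≤
      K * (r0 * r1 + r0 ^ 2 * (jv + B) + r1 ^ 2 * (ju + B) + (dm ^ 2 + il) * (r0 + r1)) := by
  refine ⟨74 * K1 + 26 * K1 * R + 216 + 3072 * R, by positivity, ?_⟩
  intro a00 a01 a11 c00 c01 c11 E00 E01 E11 p0 p1 e0 e1 x ju jv b B il dm r0 r1
    hx hju0 hju1 hjv0 hjv1 hb0 hb1 hil0 hil1 hdm1 hB hE00 hE01 hE11 he0 he1 hr0 hr1 hr0R hr1R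
    ha00 ha11 ha01 ha00' ha01' ha11' hc00 hc11 hc00' hc01' hc11'
  have hdm0 : 0 ≤ dm := (abs_nonneg _).trans hE00
  have hp0 : |p0| ≤ r0 := by linarith [abs_nonneg e0]
  have hp1 : |p1| ≤ r1 := by linarith [abs_nonneg e1]
  have he0r : |e0| ≤ r0 := by linarith [abs_nonneg p0]
  have he1r : |e1| ≤ r1 := by linarith [abs_nonneg p1]
  have hr00 : 0 ≤ r0 := (abs_nonneg _).trans hp0
  have hr10 : 0 ≤ r1 := (abs_nonneg _).trans hp1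
  have hE01B : |E01| ≤ B := by linarith
  have hbB : b ≤ B := by linarith [abs_nonneg E01]
  obtain ⟨G, hG⟩ : ∃ G, G = r0 * r1 + r0 ^ 2 * (jv + B) + r1 ^ 2 * (ju + B) + (dm ^ 2 + il) * (r0 + r1) := ⟨_, rfl⟩
  rw [← hG]
  obtain ⟨hG0, F1, F2, F3, F4, F5, F6, F7, F8, F9, F10, F11, F12, F13, F14⟩ :=
    s53sc_facts R ju jv b B il dm r0 r1 G hR hju0 hju1 hjv0 hjv1 hb0 hbB hil0 hr00 hr10 hr0R hr1R hG
  have hjj : ju * jv ≤ 1 := by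
    calc ju * jv ≤ 1 * 1 := mul_le_mul hju1 hjv1 hjv0 (by norm_num)
      _ = 1 := one_mul _
  obtain ⟨θ0, hθ0⟩ : ∃ θ0, θ0 = a00 * p0 + a01 * p1 := ⟨_, rfl⟩
  obtain ⟨θ1, hθ1⟩ : ∃ θ1, θ1 = a01 * p0 + a11 * p1 := ⟨_, rfl⟩
  have T1 := s53sc_T1 K1 R a00 a01 a11 p0 p1 e0 e1 (jv + il) (ju + il) r0 r1 G hK1 hp0 hp1 he0r he1r ha00 ha11 ha01'
    F1 F2 F5
  have T2a := s53sc_T2 K1 R a00 a01 p0 p1 x E00 (jv + il) (b + ju * jv + il) r0 r1 G hK1 hx hp0 hp1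
    (hE00.trans hdm1) ha00 ha01 ha00' ha01' (by linarith) (by linarith) F1 F3 F5
  have T2b := s53sc_T2 K1 R a11 a01 p1 p0 x E11 (ju + il) (b + ju * jv + il) r1 r0 G hK1 hx hp1 hp0
    (hE11.trans hdm1) ha11 ha01 ha11' ha01' (by linarith) (by linarith) F2 F4 (by linarith)
  have bθ0 : |θ0| ≤ 4 * (r0 + r1) := by
    rw [hθ0]
    exact (s53sc_A (s53sc_M ha00' hp0) (s53sc_M ha01' hp1)).trans (le_of_eq (by ring))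
  have bθ1 : |θ1| ≤ 4 * (r0 + r1) := by
    rw [hθ1]
    exact (s53sc_A (s53sc_M ha01' hp0) (s53sc_M ha11' hp1)).trans (le_of_eq (by ring))
  have T2c := s53sc_T2c θ0 θ1 E01 B r0 r1 G bθ0 bθ1 hE01B F7
  rw [← hθ0, ← hθ1] at T1
  rw [← hθ0] at T2a
  have hθ1' : a11 * p1 + a01 * p0 = θ1 := by rw [hθ1]; ring
  rw [hθ1'] at T2b
  rw [← hθ0, ← hθ1]
  obtain ⟨f0, hf0⟩ : ∃ f0, f0 = e0 - (E00 * θ0 + E01 * θ1) := ⟨_, rfl⟩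
  obtain ⟨f1, hf1⟩ : ∃ f1, f1 = e1 - (E01 * θ0 + E11 * θ1) := ⟨_, rfl⟩
  rw [← hf0, ← hf1]
  have bf0 : |f0| ≤ |e0| + 8 * (dm * (r0 + r1)) := by
    rw [hf0]
    exact (s53sc_S (le_refl |e0|) (s53sc_A (s53sc_M hE00 bθ0) (s53sc_M hE01 bθ1))).trans (le_of_eq (by ring))
  have bf1 : |f1| ≤ |e1| + 8 * (dm * (r0 + r1)) := by
    rw [hf1]
    exact (s53sc_S (le_refl |e1|) (s53sc_A (s53sc_M hE01 bθ0) (s53sc_M hE11 bθ1))).trans (le_of_eq (by ring))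
  have T3a := s53sc_T3a R c01 f0 f1 |e0| |e1| dm r0 r1 G hc01' hdm0 (abs_nonneg _) (abs_nonneg _) hr00 hr10 bf0 bf1
    he0 he1 he0r he1r F5 F6 F8
  have T3b := s53sc_T3b K1 R c00 f0 |e0| E11 jv il dm r0 r1 G hK1 hdm0 (abs_nonneg _) hjv0 hil0 hc00 hc00' hE11 bf0
    he0 he0r F8 F9 F11 F13
  have bf1' : |f1| ≤ |e1| + 8 * (dm * (r1 + r0)) := by rw [add_comm r1 r0]; exact bf1
  have F8' : dm ^ 2 * (r1 + r0) ^ 2 ≤ 2 * R * G := by rw [add_comm r1 r0]; exact F8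
  have T3c := s53sc_T3b K1 R c11 f1 |e1| E00 ju il dm r1 r0 G hK1 hdm0 (abs_nonneg _) hju0 hil0 hc11 hc11' hE00 bf1'
    he1 he1r F8' F10 F12 F14
  have dec : -(2 * (θ0 * e0 + θ1 * e1)) + (θ0 ^ 2 * E00 + 2 * θ0 * θ1 * E01 + θ1 ^ 2 * E11)
      - (c00 * f0 ^ 2 + 2 * c01 * f0 * f1 + c11 * f1 ^ 2) - x ^ 2 * (p0 ^ 2 * E11 + p1 ^ 2 * E00)
      = (-2) * (θ0 * e0 + θ1 * e1) + (θ0 + x * p1) * (θ0 - x * p1) * E00 + (θ1 + x * p0) * (θ1 - x * p0) * E11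
        + 2 * θ0 * θ1 * E01 - c00 * f0 ^ 2 - 2 * c01 * f0 * f1 - c11 * f1 ^ 2 := by ring
  rw [dec]
  have hm2 : |(-2 : ℝ)| ≤ 2 := by norm_num
  have tot := s53sc_S (s53sc_S (s53sc_S (s53sc_A (s53sc_A (s53sc_A (s53sc_M hm2 T1) T2a) T2b) T2c) T3b) T3a) T3c
  refine tot.trans (le_of_eq ?_)
  ring
end Claimed.Agent.R275
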