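import Claimed.Agent.R275.S5En
import Claimed.Agent.R275.S53Abs
import Claimed.Agent.R275.S53Scalar

/-!
# Row 275, Sec 5, package S5TS: the stub diagonal-square statistic `T_S` (LAYER B, abstract).  First part of Lemma 5.7 of `early.tex`.

Interface (`TS`, `TSnext`, `Zc`, shape of `s5_ts_step`): helper11; owner of the file, of the sub-lemmas (prefix `s53_`) and of the proofs: helper114.
`T_V`, `T_{XS,k}`, Lemma 5.6 and (5.27) are NOT needed (see `S5Hi.lean`).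

`TS = ∑_{x∈S} E_xx²`, increment `Δ_x = E2 p x x - E x x`, copy increment `Zc p x = h² (P_xu² E_vv + P_xv² E_uu)`.
The averaging part (deletion, first order, Young, copy (5.25), nine squares (5.26)) is in `S53Abs.lean` (no tables).  Here:

POINTWISE REMAINDER (`s53_point`), WITHOUT words.  `p = (u,v)` valid, `x ∈ S \ {u,v}`, `r_i = A_x(i) + |E_x(i)|`, `B = b_uv + |E_uv|`, `il = 1/l`.
By `s5_update_identity`, with `θ = H_P p_x`, `ẽ = e_x - D_E θ`: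
    `E1 p x x - E x x = - 2 θ·e_x + θᵀ D_E θ - ẽᵀ H_W ẽ - Rt p x x`.
`tb_first_order`, `tb_abs_le`: `|(H_P)_00| ≤ K1 (j_v + il)`, `|(H_P)_11| ≤ K1 (j_u + il)`, `|(H_P)_01 + σh| ≤ K1 (b_uv + j_u j_v + il)`,
`|(H_W)_00| ≤ K1 (j_v + |E_vv| + il)`, `|(H_W)_11| ≤ K1 (j_u + |E_uu| + il)`, all entries `≤ 4`.
 (i)   `|2 θ·e| ≤ 2 K1 (j_v + il) r_0² + 16 r_0 r_1 + 2 K1 (j_u + il) r_1²`;
 (ii)  `θᵀ D_E θ - Zc = (θ_0² - h² p_1²) E_uu + (θ_1² - h² p_0²) E_vv + 2 θ_0 θ_1 E_uv`, `θ_0² - h² p_1² = (θ_0 + σh p_1)(θ_0 - σh p_1)`,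
       `|θ_0 + σh p_1| ≤ K1 (j_v + il) |p_0| + K1 (b + j_u j_v + il) |p_1|`, `|θ_0 - σh p_1| ≤ 4 |p_0| + 5 |p_1|`, `|θ_0 θ_1 E_uv| ≤ 32 (r_0² + r_1²) B`;
 (iii) `|ẽ_i| ≤ |e_i| + 8 dm (r_0 + r_1)`;  `|ẽ_0 ẽ_1| ≤ r_0 r_1 + C dm² (r_0 + r_1)`;  `|(H_W)_00| ẽ_0² ≤ 2 K1 (j_v + il) r_0² + C dm² (r_0 + r_1)`;
 (iv)  recentring: `E2 - E1 = 2 (l-2)⁻¹ (E1 x u + E1 x v) + (l-2)⁻² (..)`, `|E1 p a s| ≤ C (r_a(u) + r_a(v))` (`s5_en_sel_abs`).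
Total: `|Δ_x - Zc| ≤ K s53G` with `ρ = |Rt p x x|`.
CAUTION (circularity): additive errors contain only the STRUCTURAL `N = ∑ j_x²`; the only term with `TS` is the copy term.
-/

set_option autoImplicit false

namespace Claimed.Agent.R275

open Matrix Finset

namespace S5Tab

variable {α : Type} [DecidableEq α] (t : S5Tab α)

/-- `T_S` -/
def TS : ℝ := ∑ x ∈ t.S, t.E x x ^ 2

/-- `T_S` after the exposure `p` -/
noncomputable def TSnext (p : α × α) : ℝ := ∑ x ∈ (t.S.erase p.1).erase p.2, t.E2 p x x ^ 2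

/-- the copy increment -/
def Zc (p : α × α) (x : α) : ℝ := t.h ^ 2 * (t.P x p.1 ^ 2 * t.E p.2 p.2 + t.P x p.2 ^ 2 * t.E p.1 p.1)

/-- row majorant `r_x(u) = A_x(u) + |E_x(u)|` -/
def s53r (A : α → α → ℝ) (x u : α) : ℝ := A x u + |t.E x u|

/-- cross majorant `B_uv = b_uv + |E_uv|` -/
def s53B (b : α → α → ℝ) (u v : α) : ℝ := b u v + |t.E u v|

end S5Tab

section

variable {α : Type} [DecidableEq α]

/-- `E1` is symmetric in its two labels; the update identity in entries, diagonal case (from `s5_update_identity`) -/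
theorem s53_E1_symm {C0 N ND Qa ZW ZP trW dm εs Bt μT VT : ℝ} {t : S5Tab α} {Vd : Finset (α × α)} {Dg : ℕ}
    {A : α → α → ℝ} {j : α → ℝ} {b : α → α → ℝ}
    (H : S5TabOK C0 N ND Qa ZW ZP trW dm εs Bt μT VT t Vd Dg A j b) {p : α × α} (hp : p ∈ Vd) (a c : α) :
    t.E1 p a c = t.E1 p c a := by
  obtain ⟨hT, hD, _⟩ := H.tb hp
  have hP10 : t.HP p 1 0 = t.HP p 0 1 := (tb_formula hT).2.2.2
  have hW10 : t.HW p 1 0 = t.HW p 0 1 := (tb_formula hD).2.2.2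
  unfold S5Tab.E1
  rw [s5q_apply, s5q_apply, s5q_apply, s5q_apply, H.Esymm a c, H.tailSymm p a c, hP10, hW10]
  ring

theorem s53_E1_diag {C0 N ND Qa ZW ZP trW dm εs Bt μT VT : ℝ} {t : S5Tab α} {Vd : Finset (α × α)} {Dg : ℕ}
    {A : α → α → ℝ} {j : α → ℝ} {b : α → α → ℝ}
    (H : S5TabOK C0 N ND Qa ZW ZP trW dm εs Bt μT VT t Vd Dg A j b) {p : α × α} (hp : p ∈ Vd) (x : α) :
    t.E1 p x x - t.E x x + t.Rt p x x =
      -(2 * ((t.HP p 0 0 * t.P x p.1 + t.HP p 0 1 * t.P x p.2) * t.E x p.1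
          + (t.HP p 0 1 * t.P x p.1 + t.HP p 1 1 * t.P x p.2) * t.E x p.2))
      + ((t.HP p 0 0 * t.P x p.1 + t.HP p 0 1 * t.P x p.2) ^ 2 * t.E p.1 p.1
          + 2 * (t.HP p 0 0 * t.P x p.1 + t.HP p 0 1 * t.P x p.2)
              * (t.HP p 0 1 * t.P x p.1 + t.HP p 1 1 * t.P x p.2) * t.E p.1 p.2
          + (t.HP p 0 1 * t.P x p.1 + t.HP p 1 1 * t.P x p.2) ^ 2 * t.E p.2 p.2)
      - (t.HW p 0 0 * (t.E x p.1 - (t.E p.1 p.1 * (t.HP p 0 0 * t.P x p.1 + t.HP p 0 1 * t.P x p.2)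
              + t.E p.1 p.2 * (t.HP p 0 1 * t.P x p.1 + t.HP p 1 1 * t.P x p.2))) ^ 2
          + 2 * t.HW p 0 1 * (t.E x p.1 - (t.E p.1 p.1 * (t.HP p 0 0 * t.P x p.1 + t.HP p 0 1 * t.P x p.2)
              + t.E p.1 p.2 * (t.HP p 0 1 * t.P x p.1 + t.HP p 1 1 * t.P x p.2)))
              * (t.E x p.2 - (t.E p.1 p.2 * (t.HP p 0 0 * t.P x p.1 + t.HP p 0 1 * t.P x p.2)
              + t.E p.2 p.2 * (t.HP p 0 1 * t.P x p.1 + t.HP p 1 1 * t.P x p.2)))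
          + t.HW p 1 1 * (t.E x p.2 - (t.E p.1 p.2 * (t.HP p 0 0 * t.P x p.1 + t.HP p 0 1 * t.P x p.2)
              + t.E p.2 p.2 * (t.HP p 0 1 * t.P x p.1 + t.HP p 1 1 * t.P x p.2))) ^ 2) := by
  obtain ⟨hT, hD, hTD⟩ := H.tb hp
  have hP10 : t.HP p 1 0 = t.HP p 0 1 := (tb_formula hT).2.2.2
  have hW10 : t.HW p 1 0 = t.HW p 0 1 := (tb_formula hD).2.2.2
  rw [hTD] at hD
  have key := s5_update_identity hT hD (pvec (t.P x) p.1 p.2) (pvec (t.E x) p.1 p.2)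
    (pvec (t.P x) p.1 p.2) (pvec (t.E x) p.1 p.2)
  rw [← hTD] at key
  have hHW : Hgen t.l t.σ t.h (pblk t.Dm p.1 p.2) = t.HW p := rfl
  have hHP : Hgen t.l t.σ t.h (pblk t.Tm p.1 p.2) = t.HP p := rfl
  rw [hHW, hHP] at key
  have hE10 : t.E p.2 p.1 = t.E p.1 p.2 := H.Esymm _ _
  simp only [dotProduct, mulVec, Fin.sum_univ_two, pvec, pblk, S5Tab.Em, Pi.add_apply, Pi.sub_apply,
    Matrix.cons_val_zero, Matrix.cons_val_one, Matrix.of_apply, Matrix.cons_val', hP10, hW10, hE10] at key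
  unfold S5Tab.E1
  rw [s5q_apply, s5q_apply, hP10, hW10]
  unfold S5Tab.W
  linear_combination (-1 : ℝ) * key
/-- basic consequences of `S5TabOK` used everywhere below -/
theorem s53_basic {C0 N ND Qa ZW ZP trW dm εs Bt μT VT : ℝ} {t : S5Tab α} {Vd : Finset (α × α)} {Dg : ℕ}
    {A : α → α → ℝ} {j : α → ℝ} {b : α → α → ℝ}
    (H : S5TabOK C0 N ND Qa ZW ZP trW dm εs Bt μT VT t Vd Dg A j b) :
    (∀ x ∈ t.S, x ∈ t.Al) ∧ (∀ p ∈ Vd, p.1 ∈ t.S ∧ p.2 ∈ t.S ∧ p.1 ≠ p.2) ∧ dm ≤ 1 / 16 ∧ εs ≤ 1 / 16 ∧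
      (32 : ℝ) ≤ t.l ∧ 0 ≤ C0 ∧
      (∀ x ∈ t.S, ∀ u ∈ t.S, 0 ≤ t.s53r A x u ∧ t.s53r A x u ≤ C0 + 1 ∧ |t.P x u| + |t.E x u| ≤ t.s53r A x u) := by
  have hAl : ∀ x ∈ t.S, x ∈ t.Al := fun x hx => mem_union_right _ hx
  have hdm : dm ≤ 1 / 16 := by linarith [H.hsmall, H.hεs]
  have hl : (32 : ℝ) ≤ t.l := by
    have := H.hl
    unfold S5Tab.l
    exact_mod_cast this
  have hne : t.S.Nonempty := card_pos.1 (by linarith [H.hl])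
  obtain ⟨x0, hx0⟩ := hne
  have hC0 : 0 ≤ C0 := (abs_nonneg _).trans ((H.A_arr x0 (hAl x0 hx0)).sup x0 hx0)
  refine ⟨hAl, ?_, hdm, by linarith [H.hsmall, H.hdm], hl, hC0, ?_⟩
  · intro p hp
    have := H.valid.sub hp
    rw [mem_offDiag] at this
    exact this
  · intro x hx u hu
    have h1 := H.P_le x (hAl x hx) u hu
    have h2 := (H.A_arr x (hAl x hx)).sup u hu
    have h3 := H.E_le x (hAl x hx) u (hAl u hu)
    have h4 := le_abs_self (A x u)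
    have h5 := abs_nonneg (t.P x u)
    have h6 := abs_nonneg (t.E x u)
    unfold S5Tab.s53r
    refine ⟨by linarith, by linarith, by linarith⟩

end

/-- old axes: `|E1 p x x - E x x - Zc p x + Rt p x x| ≤ K (first four groups of s53G)` -/
theorem s53_point_old (C0 : ℝ) : ∃ K : ℝ, 0 < K ∧ ∀ (α : Type) [DecidableEq α]
    (N ND Qa ZW ZP trW dm εs Bt μT VT : ℝ) (t : S5Tab α) (Vd : Finset (α × α)) (Dg : ℕ)
    (A : α → α → ℝ) (j : α → ℝ) (b : α → α → ℝ),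
    S5TabOK C0 N ND Qa ZW ZP trW dm εs Bt μT VT t Vd Dg A j b →
    ∀ p ∈ Vd, ∀ x ∈ t.S,
      |t.E1 p x x - t.E x x - t.Zc p x + t.Rt p x x| ≤
        K * (t.s53r A x p.1 * t.s53r A x p.2 + t.s53r A x p.1 ^ 2 * (j p.2 + t.s53B b p.1 p.2)
          + t.s53r A x p.2 ^ 2 * (j p.1 + t.s53B b p.1 p.2)
          + (dm ^ 2 + 1 / (t.l : ℝ)) * (t.s53r A x p.1 + t.s53r A x p.2)) := by
  obtain ⟨K1, hK1, hfo⟩ := tb_first_order
  obtain ⟨K, hK, hsc⟩ := s53_scalar K1 (|C0| + 1) hK1.le (by positivity)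
  refine ⟨K, hK, ?_⟩
  intro α _ N ND Qa ZW ZP trW dm εs Bt μT VT t Vd Dg A j b H p hp x hx
  obtain ⟨hAl, hmem, hdm, hεs, hl, hC0, hr⟩ := s53_basic H
  obtain ⟨hu, hv, huv⟩ := hmem p hp
  obtain ⟨hT, hD, hTD⟩ := H.tb hp
  have hju := H.maj.j_nonneg _ hu
  have hjv := H.maj.j_nonneg _ hv
  have hb := H.maj.b_nonneg _ hu _ hv
  have hsm := H.small p hp
  have f1 := hfo t.l t.σ t.h _ (j p.1) (j p.2) (b p.1 p.2) hT (H.Tdiag_le _ hu) (H.Tdiag_le _ hv)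
    (H.Toff_le _ hu _ hv huv)
  have dD : ∀ y ∈ t.S, |t.Dm y y| ≤ j y + |t.E y y| := by
    intro y hy
    have : t.Dm y y = t.Tm y y + t.E y y := rfl
    rw [this]
    exact (abs_add_le _ _).trans (by linarith [H.Tdiag_le y hy])
  have f2 := hfo t.l t.σ t.h _ (j p.1 + |t.E p.1 p.1|) (j p.2 + |t.E p.2 p.2|) _ hD (dD _ hu) (dD _ hv) le_rfl
  have hil0 : 0 ≤ 1 / (t.l : ℝ) := by positivity
  have hil1 : 1 / (t.l : ℝ) ≤ 1 := by
    rw [div_le_one (by linarith)]; linarith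
  have hR : C0 + 1 ≤ |C0| + 1 := by linarith [le_abs_self C0]
  have main := hsc (t.HP p 0 0) (t.HP p 0 1) (t.HP p 1 1) (t.HW p 0 0) (t.HW p 0 1) (t.HW p 1 1)
    (t.E p.1 p.1) (t.E p.1 p.2) (t.E p.2 p.2) (t.P x p.1) (t.P x p.2) (t.E x p.1) (t.E x p.2) (t.σ * t.h)
    (j p.1) (j p.2) (b p.1 p.2) (t.s53B b p.1 p.2) (1 / (t.l : ℝ)) dm (t.s53r A x p.1) (t.s53r A x p.2)
    hT.abs_x hju (by linarith) hjv (by linarith) hb (by linarith) hil0 hil1 (by linarith)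
    le_rfl (H.E_le _ (hAl _ hu) _ (hAl _ hu)) (H.E_le _ (hAl _ hu) _ (hAl _ hv)) (H.E_le _ (hAl _ hv) _ (hAl _ hv))
    (H.E_le _ (hAl _ hx) _ (hAl _ hu)) (H.E_le _ (hAl _ hx) _ (hAl _ hv))
    (hr x hx _ hu).2.2 (hr x hx _ hv).2.2 ((hr x hx _ hu).2.1.trans hR) ((hr x hx _ hv).2.1.trans hR)
    f1.1 f1.2.1 f1.2.2 (tb_abs_le hT 0 0) (tb_abs_le hT 0 1) (tb_abs_le hT 1 1)
    (by have := f2.1; rwa [add_assoc] at this ⊢) (by have := f2.2.1; rwa [add_assoc] at this ⊢)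
    (tb_abs_le hD 0 0) (tb_abs_le hD 0 1) (tb_abs_le hD 1 1)
  have e1 := s53_E1_diag H hp x
  have e2 : t.E1 p x x - t.E x x - t.Zc p x + t.Rt p x x
      = (t.E1 p x x - t.E x x + t.Rt p x x) - (t.σ * t.h) ^ 2 * (t.P x p.1 ^ 2 * t.E p.2 p.2 + t.P x p.2 ^ 2 * t.E p.1 p.1) := by
    rw [hT.x_sq, S5Tab.Zc]; ring
  rw [e2, e1]
  exact main
/-- recentring: `|E2 p x x - E1 p x x| ≤ K ((r_0 + r_1)/l + 1/l²)` -/
theorem s53_point_rec (C0 : ℝ) : ∃ K : ℝ, 0 < K ∧ ∀ (α : Type) [DecidableEq α]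
    (N ND Qa ZW ZP trW dm εs Bt μT VT : ℝ) (t : S5Tab α) (Vd : Finset (α × α)) (Dg : ℕ)
    (A : α → α → ℝ) (j : α → ℝ) (b : α → α → ℝ),
    S5TabOK C0 N ND Qa ZW ZP trW dm εs Bt μT VT t Vd Dg A j b →
    ∀ p ∈ Vd, ∀ x ∈ t.S,
      |t.E2 p x x - t.E1 p x x| ≤
        K * (1 / (t.l : ℝ) * (t.s53r A x p.1 + t.s53r A x p.2) + (1 / (t.l : ℝ)) ^ 2) := by
  obtain ⟨C, hC, hsel⟩ := s5_en_sel_abs C0
  refine ⟨8 * C + 32 * C * (|C0| + 1), by positivity, ?_⟩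
  intro α _ N ND Qa ZW ZP trW dm εs Bt μT VT t Vd Dg A j b H p hp x hx
  obtain ⟨hAl, hmem, hdm, hεs, hl, hC0, hr⟩ := s53_basic H
  obtain ⟨hu, hv, huv⟩ := hmem p hp
  have hs := hsel α N ND Qa ZW ZP trW dm εs Bt μT VT t Vd Dg A j b H p hp
  have sel : ∀ a ∈ t.S, ∀ s, (s = p.1 ∨ s = p.2) → |t.E1 p a s| ≤ C * (t.s53r A a p.1 + t.s53r A a p.2) := by
    intro a ha s hs'
    have := hs a (hAl a ha) s hs'
    unfold S5Tab.s53r
    calc |t.E1 p a s| ≤ _ := this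
      _ = _ := by ring
  have hR : C0 + 1 ≤ |C0| + 1 := by linarith [le_abs_self C0]
  have sel2 : ∀ a ∈ t.S, ∀ s, (s = p.1 ∨ s = p.2) → |t.E1 p a s| ≤ C * (2 * (|C0| + 1)) := by
    intro a ha s hs'
    refine (sel a ha s hs').trans (mul_le_mul_of_nonneg_left ?_ hC.le)
    linarith [(hr a ha _ hu).2.1, (hr a ha _ hv).2.1]
  set il : ℝ := 1 / (t.l : ℝ) with hil
  set w : ℝ := ((t.l : ℝ) - 2)⁻¹ with hw
  have hw0 : 0 ≤ w := inv_nonneg.2 (by linarith)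
  have hw1 : w ≤ 2 * il := by
    rw [hw, hil, inv_eq_one_div, div_le_iff₀ (by linarith)]
    have : (0 : ℝ) < t.l := by linarith
    field_simp
    linarith
  have hil0 : 0 ≤ il := by positivity
  have hkap : t.kap x = 1 := by unfold S5Tab.kap; rw [if_pos hx]
  have e1 : t.E2 p x x - t.E1 p x x = 2 * w * (t.E1 p x p.1 + t.E1 p x p.2)
      + w ^ 2 * (t.E1 p p.1 p.1 + t.E1 p p.1 p.2 + t.E1 p p.2 p.1 + t.E1 p p.2 p.2) := by
    unfold S5Tab.E2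
    rw [hkap, s53_E1_symm H hp p.1 x, s53_E1_symm H hp p.2 x]
    ring
  set rr := t.s53r A x p.1 + t.s53r A x p.2 with hrr
  have hrr0 : 0 ≤ rr := by linarith [(hr x hx _ hu).1, (hr x hx _ hv).1]
  have a1 := sel x hx p.1 (Or.inl rfl)
  have a2 := sel x hx p.2 (Or.inr rfl)
  have b1 := sel2 _ hu p.1 (Or.inl rfl)
  have b2 := sel2 _ hu p.2 (Or.inr rfl)
  have b3 := sel2 _ hv p.1 (Or.inl rfl)
  have b4 := sel2 _ hv p.2 (Or.inr rfl)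
  rw [e1]
  have c1 : |2 * w * (t.E1 p x p.1 + t.E1 p x p.2)| ≤ 2 * (2 * il) * (2 * (C * rr)) := by
    rw [abs_mul, abs_of_nonneg (by positivity : (0 : ℝ) ≤ 2 * w)]
    apply mul_le_mul (by linarith) _ (abs_nonneg _) (by positivity)
    exact (abs_add_le _ _).trans (by linarith)
  have c2 : |w ^ 2 * (t.E1 p p.1 p.1 + t.E1 p p.1 p.2 + t.E1 p p.2 p.1 + t.E1 p p.2 p.2)| ≤
      (2 * il) ^ 2 * (4 * (C * (2 * (|C0| + 1)))) := by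
    rw [abs_mul, abs_of_nonneg (by positivity : (0 : ℝ) ≤ w ^ 2)]
    apply mul_le_mul (pow_le_pow_left₀ hw0 hw1 2) _ (abs_nonneg _) (by positivity)
    have := abs_add_le (t.E1 p p.1 p.1 + t.E1 p p.1 p.2 + t.E1 p p.2 p.1) (t.E1 p p.2 p.2)
    have := abs_add_le (t.E1 p p.1 p.1 + t.E1 p p.1 p.2) (t.E1 p p.2 p.1)
    have := abs_add_le (t.E1 p p.1 p.1) (t.E1 p p.1 p.2)
    linarith
  refine (abs_add_le _ _).trans ?_
  have d1 : 0 ≤ C * (|C0| + 1) * (il * rr) := by positivity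
  have d2 : 0 ≤ C * il ^ 2 := by positivity
  nlinarith
/-- POINTWISE REMAINDER -/
theorem s53_point (C0 : ℝ) : ∃ K : ℝ, 0 < K ∧ ∀ (α : Type) [DecidableEq α]
    (N ND Qa ZW ZP trW dm εs Bt μT VT : ℝ) (t : S5Tab α) (Vd : Finset (α × α)) (Dg : ℕ)
    (A : α → α → ℝ) (j : α → ℝ) (b : α → α → ℝ),
    S5TabOK C0 N ND Qa ZW ZP trW dm εs Bt μT VT t Vd Dg A j b →
    ∀ p ∈ Vd, ∀ x ∈ t.S,
      |t.E2 p x x - t.E x x - t.Zc p x| ≤
        K * s53G t.l dm (t.s53r A) j (t.s53B b) (fun p x => |t.Rt p x x|) p x := by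
  obtain ⟨K1, hK1, h1⟩ := s53_point_old C0
  obtain ⟨K2, hK2, h2⟩ := s53_point_rec C0
  refine ⟨K1 + K2 + 1, by positivity, ?_⟩
  intro α _ N ND Qa ZW ZP trW dm εs Bt μT VT t Vd Dg A j b H p hp x hx
  obtain ⟨hAl, hmem, hdm, hεs, hl, hC0, hr⟩ := s53_basic H
  obtain ⟨hu, hv, huv⟩ := hmem p hp
  have a1 := h1 α N ND Qa ZW ZP trW dm εs Bt μT VT t Vd Dg A j b H p hp x hx
  have a2 := h2 α N ND Qa ZW ZP trW dm εs Bt μT VT t Vd Dg A j b H p hp x hx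
  have hju := H.maj.j_nonneg _ hu
  have hjv := H.maj.j_nonneg _ hv
  have hb := H.maj.b_nonneg _ hu _ hv
  have hB : 0 ≤ t.s53B b p.1 p.2 := by unfold S5Tab.s53B; positivity
  have hr0 := (hr x hx _ hu).1
  have hr1 := (hr x hx _ hv).1
  unfold s53G
  set r0 := t.s53r A x p.1
  set r1 := t.s53r A x p.2
  set B := t.s53B b p.1 p.2
  set il : ℝ := 1 / (t.l : ℝ) with hil
  have hil0 : 0 ≤ il := by positivity
  have e : t.E2 p x x - t.E x x - t.Zc p x =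
      (t.E1 p x x - t.E x x - t.Zc p x + t.Rt p x x) + (t.E2 p x x - t.E1 p x x) + (-t.Rt p x x) := by ring
  rw [e]
  have b1 := abs_add_le ((t.E1 p x x - t.E x x - t.Zc p x + t.Rt p x x) + (t.E2 p x x - t.E1 p x x)) (-t.Rt p x x)
  have b2 := abs_add_le (t.E1 p x x - t.E x x - t.Zc p x + t.Rt p x x) (t.E2 p x x - t.E1 p x x)
  rw [abs_neg] at b1
  set g1 := r0 * r1 + r0 ^ 2 * (j p.2 + B) + r1 ^ 2 * (j p.1 + B) + (dm ^ 2 + il) * (r0 + r1) with hg1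
  have hg1' : 0 ≤ r0 * r1 + r0 ^ 2 * (j p.2 + B) + r1 ^ 2 * (j p.1 + B) := by positivity
  have hg2 : il * (r0 + r1) ≤ g1 := by
    have : 0 ≤ dm ^ 2 * (r0 + r1) := by positivity
    rw [hg1]; nlinarith
  have hg0 : 0 ≤ g1 := le_trans (by positivity) hg2
  have hR := abs_nonneg (t.Rt p x x)
  have c1 : K2 * (il * (r0 + r1) + il ^ 2) ≤ K2 * (g1 + il ^ 2) := mul_le_mul_of_nonneg_left (by linarith) hK2.le
  have c2 : 0 ≤ K1 * il ^ 2 := by positivity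
  have c3 : 0 ≤ (K1 + K2) * |t.Rt p x x| := by positivity
  have c4 : 0 ≤ g1 + il ^ 2 := by positivity
  nlinarith

theorem s53_rem_num (R l N d4 VT : ℝ) (hR : 1 ≤ R) (hl : 1 ≤ l) (hN : 0 ≤ N) (hd : 0 ≤ d4) (hVT : 0 ≤ VT) :
    l * R ^ 2 + 2 * R ^ 3 * l * N + 2 * R ^ 4 * l + 4 * R * (l ^ 2 * d4 + 1) + 1 / l + VT * l ^ 3 ≤
      (R ^ 2 + 2 * R ^ 3 + 2 * R ^ 4 + 8 * R + 1) * (l * N + l + l ^ 2 * d4 + l ^ 3 * VT) := by
  have hl0 : 0 < l := by linarith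
  have hR0 : 0 < R := by linarith
  have h1l : 1 / l ≤ l := by
    rw [div_le_iff₀ hl0]; nlinarith
  have p1 : 0 ≤ l * N := by positivity
  have p2 : 0 ≤ l ^ 2 * d4 := by positivity
  have p3 : 0 ≤ l ^ 3 * VT := by positivity
  have r2 := pow_pos hR0 2
  have r3 := pow_pos hR0 3
  have r4 := pow_pos hR0 4
  have m1 : 2 * R ^ 3 * (l * N) ≤ (R ^ 2 + 2 * R ^ 3 + 2 * R ^ 4 + 8 * R + 1) * (l * N) :=
    mul_le_mul_of_nonneg_right (by linarith) p1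
  have m2 : (R ^ 2 + 2 * R ^ 4 + 4 * R + 1) * l ≤ (R ^ 2 + 2 * R ^ 3 + 2 * R ^ 4 + 8 * R + 1) * l :=
    mul_le_mul_of_nonneg_right (by linarith) hl0.le
  have m3 : 4 * R * (l ^ 2 * d4) ≤ (R ^ 2 + 2 * R ^ 3 + 2 * R ^ 4 + 8 * R + 1) * (l ^ 2 * d4) :=
    mul_le_mul_of_nonneg_right (by linarith) p2
  have m4 : 1 * (l ^ 3 * VT) ≤ (R ^ 2 + 2 * R ^ 3 + 2 * R ^ 4 + 8 * R + 1) * (l ^ 3 * VT) :=
    mul_le_mul_of_nonneg_right (by linarith) p3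
  have m5 : 4 * R * 1 ≤ 4 * R * l := mul_le_mul_of_nonneg_left hl (by positivity)
  calc l * R ^ 2 + 2 * R ^ 3 * l * N + 2 * R ^ 4 * l + 4 * R * (l ^ 2 * d4 + 1) + 1 / l + VT * l ^ 3
      = 2 * R ^ 3 * (l * N) + (R ^ 2 + 2 * R ^ 4) * l + 4 * R * (l ^ 2 * d4) + 4 * R * 1 + 1 / l
        + 1 * (l ^ 3 * VT) := by ring
    _ ≤ (R ^ 2 + 2 * R ^ 3 + 2 * R ^ 4 + 8 * R + 1) * (l * N) + (R ^ 2 + 2 * R ^ 3 + 2 * R ^ 4 + 8 * R + 1) * l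
        + (R ^ 2 + 2 * R ^ 3 + 2 * R ^ 4 + 8 * R + 1) * (l ^ 2 * d4)
        + (R ^ 2 + 2 * R ^ 3 + 2 * R ^ 4 + 8 * R + 1) * (l ^ 3 * VT) := by linarith
    _ = _ := by ring

/-- (5.26'): the remainder, second moment -/
theorem s5_ts_rem (C0 : ℝ) : ∃ C : ℝ, 0 < C ∧ ∀ (α : Type) [DecidableEq α]
    (N ND Qa ZW ZP trW dm εs Bt μT VT : ℝ) (t : S5Tab α) (Vd : Finset (α × α)) (Dg : ℕ)
    (A : α → α → ℝ) (j : α → ℝ) (b : α → α → ℝ),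
    S5TabOK C0 N ND Qa ZW ZP trW dm εs Bt μT VT t Vd Dg A j b →
    ∑ p ∈ Vd, ∑ x ∈ (t.S.erase p.1).erase p.2, (t.E2 p x x - t.E x x - t.Zc p x) ^ 2 ≤
      C * (t.l : ℝ) ^ 2 * ((N + 1) / t.l + dm ^ 4 + t.l * VT) := by
  obtain ⟨K, hK, hpt⟩ := s53_point C0
  set R : ℝ := 4 * |C0| + 4 with hRdef
  have hR0 : 0 < R := by positivity
  refine ⟨K ^ 2 * (9 * (R ^ 2 + 2 * R ^ 3 + 2 * R ^ 4 + 8 * R + 1)), by positivity, ?_⟩
  intro α _ N ND Qa ZW ZP trW dm εs Bt μT VT t Vd Dg A j b H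
  obtain ⟨hAl, hmem, hdm, hεs, hl, hC0, hr⟩ := s53_basic H
  have hC0R : 4 * C0 ≤ R := by rw [hRdef, abs_of_nonneg hC0]; linarith
  have hC0R' : C0 + 1 ≤ R := by rw [hRdef, abs_of_nonneg hC0]; linarith
  have hS : 0 < t.S.card := by linarith [H.hl]
  have hlS : (t.l : ℝ) = (t.S.card : ℝ) := rfl
  have hl0 : (0 : ℝ) < t.l := by linarith
  have sq2 : ∀ a c : ℝ, (a + c) ^ 2 ≤ 2 * a ^ 2 + 2 * c ^ 2 := fun a c => by nlinarith [sq_nonneg (a - c)]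
  have rrow : ∀ x ∈ t.S, ∑ u ∈ t.S, t.s53r A x u ^ 2 ≤ R := by
    intro x hx
    calc ∑ u ∈ t.S, t.s53r A x u ^ 2 ≤ ∑ u ∈ t.S, (2 * A x u ^ 2 + 2 * t.E x u ^ 2) := by
          apply sum_le_sum; intro u _
          have := sq2 (A x u) |t.E x u|
          rwa [sq_abs] at this
      _ = 2 * ∑ u ∈ t.S, A x u ^ 2 + 2 * ∑ u ∈ t.S, t.E x u ^ 2 := by
          rw [sum_add_distrib, mul_sum, mul_sum]
      _ ≤ R := by linarith [(H.A_arr x (hAl x hx)).sq, H.E_row x (hAl x hx)]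
  have rowB : ∀ u ∈ t.S, ∑ v ∈ t.S, t.s53B b u v ^ 2 ≤ R := by
    intro x hx
    calc ∑ u ∈ t.S, t.s53B b x u ^ 2 ≤ ∑ u ∈ t.S, (2 * b x u ^ 2 + 2 * t.E x u ^ 2) := by
          apply sum_le_sum; intro u _
          have := sq2 (b x u) |t.E x u|
          rwa [sq_abs] at this
      _ = 2 * ∑ u ∈ t.S, b x u ^ 2 + 2 * ∑ u ∈ t.S, t.E x u ^ 2 := by
          rw [sum_add_distrib, mul_sum, mul_sum]
      _ ≤ R := by linarith [H.maj.b_sq x hx, H.E_row x (hAl x hx)]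
  have Bsymm : ∀ u v, t.s53B b u v = t.s53B b v u := by
    intro u v; unfold S5Tab.s53B; rw [H.maj.b_symm u v, H.Esymm u v]
  have hcardV : (Vd.card : ℝ) ≤ (t.l : ℝ) ^ 2 := by
    have := (s5_card_valid H.valid).2
    rw [← hlS] at this
    nlinarith
  have tail : ∀ x ∈ t.S, ∑ p ∈ s5Surv Vd {x}, (fun p x => |t.Rt p x x|) p x ^ 2 ≤ VT * (t.S.card : ℝ) ^ 2 := by
    intro x hx
    have h1 := H.tailSq x (hAl x hx) x (hAl x hx)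
    have hX : t.X0 x x = {x} := by
      unfold S5Tab.X0
      ext y
      simp only [mem_inter, mem_insert, mem_singleton, or_self]
      exact ⟨fun h => h.1, fun h => ⟨h, h ▸ hx⟩⟩
    rw [hX, avgOn] at h1
    have hs0 : 0 ≤ ∑ p ∈ s5Surv Vd {x}, t.Rt p x x ^ 2 := sum_nonneg (fun p _ => sq_nonneg _)
    have hVT : 0 ≤ VT := le_trans (div_nonneg hs0 (Nat.cast_nonneg _)) h1
    have hc : ((s5Surv Vd {x}).card : ℝ) ≤ (t.l : ℝ) ^ 2 := by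
      refine le_trans ?_ hcardV
      exact_mod_cast card_le_card (filter_subset _ _)
    simp only [sq_abs]
    rw [← hlS]
    rcases Nat.eq_zero_or_pos (s5Surv Vd {x}).card with h0 | h0
    · rw [card_eq_zero.1 h0, sum_empty]; positivity
    · have h0' : (0 : ℝ) < (s5Surv Vd {x}).card := by exact_mod_cast h0
      rw [div_le_iff₀ h0'] at h1
      exact h1.trans (mul_le_mul_of_nonneg_left hc hVT)
  have hrem := s53_abs_rem H.valid R N dm VT (t.s53r A) j (t.s53B b) (fun p x => |t.Rt p x x|) hS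
    (fun x hx u hu => (hr x hx u hu).1) (fun x hx u hu => (hr x hx u hu).2.1.trans hC0R') rrow H.maj.j_sq Bsymm rowB tail
  have hN : 0 ≤ N := (sum_nonneg (fun u _ => sq_nonneg _)).trans H.maj.j_sq
  have hVT : 0 ≤ VT := by
    obtain ⟨x0, hx0⟩ := card_pos.1 hS
    have h1 := H.tailSq x0 (hAl x0 hx0) x0 (hAl x0 hx0)
    exact le_trans (div_nonneg (sum_nonneg (fun p _ => sq_nonneg _)) (Nat.cast_nonneg _)) h1
  calc ∑ p ∈ Vd, ∑ x ∈ (t.S.erase p.1).erase p.2, (t.E2 p x x - t.E x x - t.Zc p x) ^ 2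
      ≤ ∑ p ∈ Vd, ∑ x ∈ (t.S.erase p.1).erase p.2,
          K ^ 2 * s53G t.l dm (t.s53r A) j (t.s53B b) (fun p x => |t.Rt p x x|) p x ^ 2 := by
        apply sum_le_sum; intro p hp
        apply sum_le_sum; intro x hx
        have hx' : x ∈ t.S := mem_of_mem_erase (mem_of_mem_erase hx)
        have := hpt α N ND Qa ZW ZP trW dm εs Bt μT VT t Vd Dg A j b H p hp x hx'
        rw [← mul_pow, ← sq_abs (t.E2 p x x - t.E x x - t.Zc p x)]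
        exact pow_le_pow_left₀ (abs_nonneg _) this 2
    _ = K ^ 2 * ∑ p ∈ Vd, ∑ x ∈ (t.S.erase p.1).erase p.2,
          s53G t.l dm (t.s53r A) j (t.s53B b) (fun p x => |t.Rt p x x|) p x ^ 2 := by
        simp only [mul_sum]
    _ ≤ K ^ 2 * (9 * ((t.S.card : ℝ) * R ^ 2 + 2 * R ^ 3 * (t.S.card : ℝ) * N + 2 * R ^ 4 * (t.S.card : ℝ)
        + 4 * R * ((t.S.card : ℝ) ^ 2 * dm ^ 4 + 1) + 1 / (t.S.card : ℝ) + VT * (t.S.card : ℝ) ^ 3)) :=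
        mul_le_mul_of_nonneg_left hrem (sq_nonneg _)
    _ ≤ _ := by
        rw [← hlS]
        have e0 : K ^ 2 * (9 * (R ^ 2 + 2 * R ^ 3 + 2 * R ^ 4 + 8 * R + 1)) * (t.l : ℝ) ^ 2
            * ((N + 1) / t.l + dm ^ 4 + t.l * VT) = K ^ 2 * (9 * ((R ^ 2 + 2 * R ^ 3 + 2 * R ^ 4 + 8 * R + 1)
            * ((t.l : ℝ) ^ 2 * ((N + 1) / t.l + dm ^ 4 + t.l * VT)))) := by ring
        rw [e0]
        apply mul_le_mul_of_nonneg_left _ (sq_nonneg _)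
        apply mul_le_mul_of_nonneg_left _ (by norm_num)
        have e1 : (t.l : ℝ) ^ 2 * ((N + 1) / t.l + dm ^ 4 + t.l * VT)
            = t.l * N + t.l + (t.l : ℝ) ^ 2 * dm ^ 4 + (t.l : ℝ) ^ 3 * VT := by
          field_simp
        rw [e1]
        have hR1 : 1 ≤ R := by rw [hRdef]; linarith [abs_nonneg C0]
        exact s53_rem_num R t.l N (dm ^ 4) VT hR1 (by linarith) hN (by positivity) hVT
/-- ONE STEP OF `T_S`, with the negative drift: deletion outweighs the copy (`h⁴ C4 ≤ 1 - γ`). -/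
theorem s5_ts_drift (C0 γ : ℝ) (hγ : 0 < γ) (hγ1 : γ ≤ 1) : ∃ C : ℝ, 0 < C ∧ ∀ (α : Type) [DecidableEq α]
    (N ND Qa ZW ZP trW dm εs Bt μT VT C4 μ : ℝ) (t : S5Tab α) (Vd : Finset (α × α)) (Dg : ℕ)
    (A : α → α → ℝ) (j : α → ℝ) (b : α → α → ℝ),
    S5TabOK C0 N ND Qa ZW ZP trW dm εs Bt μT VT t Vd Dg A j b →
    (∀ u ∈ t.S, ∑ x ∈ t.S.erase u, t.P x u ^ 4 ≤ C4) → t.h ^ 4 * C4 ≤ 1 - γ →
    (∀ x ∈ t.S, |avgOn (s5Surv Vd {x}) (fun p => t.E2 p x x - t.E x x)| ≤ μ) →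
    32 * ((Dg : ℝ) + 1) ≤ γ * t.l →
    avgOn Vd t.TSnext ≤ (1 - γ / (2 * (t.l : ℝ))) * t.TS
      + C * ((N + 1) / t.l + (t.l : ℝ) ^ 2 * μ ^ 2 + dm ^ 2 / t.l + dm ^ 4 + t.l * VT) := by
  obtain ⟨Cr, hCr, hrem⟩ := s5_ts_rem C0
  refine ⟨4 / γ + 6 * C0 ^ 2 + (2 + 4 / γ) * Cr, by positivity, ?_⟩
  intro α _ N ND Qa ZW ZP trW dm εs Bt μT VT C4 μ t Vd Dg A j b H P4 hκ hmean hDg
  obtain ⟨hAl, hmem, hdm, hεs, hl, hC0, hr⟩ := s53_basic H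
  have hl0 : (0 : ℝ) < t.l := by linarith
  have hlS : (t.l : ℝ) = (t.S.card : ℝ) := rfl
  have hS : 0 < t.S.card := by linarith [H.hl]
  obtain ⟨x0, hx0⟩ := card_pos.1 hS
  have hμ : 0 ≤ μ := (abs_nonneg _).trans (hmean x0 hx0)
  have hN : 0 ≤ N := (sum_nonneg (fun u _ => sq_nonneg _)).trans H.maj.j_sq
  have hVT : 0 ≤ VT := by
    have h1 := H.tailSq x0 (hAl x0 hx0) x0 (hAl x0 hx0)
    exact le_trans (div_nonneg (sum_nonneg (fun p _ => sq_nonneg _)) (Nat.cast_nonneg _)) h1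
  have mean : ∀ x ∈ t.S, |∑ p ∈ s5Surv Vd {x}, (t.E2 p x x - t.E x x)| ≤ μ * (Vd.card : ℝ) := by
    intro x hx
    have h1 := hmean x hx
    rw [avgOn, abs_div, Nat.abs_cast] at h1
    have hc : ((s5Surv Vd {x}).card : ℝ) ≤ (Vd.card : ℝ) := by
      exact_mod_cast card_le_card (filter_subset _ _)
    rcases Nat.eq_zero_or_pos (s5Surv Vd {x}).card with h0 | h0
    · rw [card_eq_zero.1 h0, sum_empty, abs_zero]; positivity
    · have h0' : (0 : ℝ) < (s5Surv Vd {x}).card := by exact_mod_cast h0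
      rw [div_le_iff₀ h0'] at h1
      exact h1.trans (mul_le_mul_of_nonneg_left hc hμ)
  have hrow : ∀ x ∈ t.S, ∑ u ∈ t.S, t.P x u ^ 2 ≤ C0 := by
    intro x hx
    refine le_trans (sum_le_sum ?_) (H.A_arr x (hAl x hx)).sq
    intro u hu
    have := H.P_le x (hAl x hx) u hu
    rw [← sq_abs (t.P x u)]
    exact pow_le_pow_left₀ (abs_nonneg _) this 2
  have copy := s53_abs_copy H.valid t.h C0 C4 dm (fun x => t.E x x) t.P
    (fun x hx => H.E_le x (hAl x hx) x (hAl x hx)) hrow P4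
  have rem := hrem α N ND Qa ZW ZP trW dm εs Bt μT VT t Vd Dg A j b H
  have core := s53_abs_core H.valid (fun x => t.E x x) (fun p x => t.E2 p x x - t.E x x) t.Zc γ (t.h ^ 4 * C4) μ
    (2 * t.h ^ 4 * dm ^ 2 * (t.S.card : ℝ) * C0 ^ 2) (Cr * (t.l : ℝ) ^ 2 * ((N + 1) / t.l + dm ^ 4 + t.l * VT))
    hγ hγ1 hκ hDg (by have := H.hh; positivity) mean copy rem
  have e1 : avgOn Vd t.TSnext = avgOn Vd (fun p => ∑ x ∈ (t.S.erase p.1).erase p.2,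
      (t.E x x + (t.E2 p x x - t.E x x)) ^ 2) := by
    unfold S5Tab.TSnext
    congr 1
    funext p
    apply sum_congr rfl
    intro x _
    congr 1
    ring
  rw [e1]
  refine core.trans ?_
  rw [← hlS]
  have hTS : ∑ x ∈ t.S, t.E x x ^ 2 = t.TS := rfl
  rw [hTS]
  set l : ℝ := (t.l : ℝ)
  have hh4 : t.h ^ 4 ≤ 1 := pow_le_one₀ H.hh.le H.hh1
  have c1 : 3 * (2 * t.h ^ 4 * dm ^ 2 * l * C0 ^ 2) / l ^ 2 ≤ 6 * C0 ^ 2 * (dm ^ 2 / l) := by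
    have e2 : 3 * (2 * t.h ^ 4 * dm ^ 2 * l * C0 ^ 2) / l ^ 2 = t.h ^ 4 * (6 * C0 ^ 2 * (dm ^ 2 / l)) := by
      field_simp; ring
    rw [e2]
    exact mul_le_of_le_one_left (by positivity) hh4
  have c2 : (2 + 4 / γ) * (Cr * l ^ 2 * ((N + 1) / l + dm ^ 4 + l * VT)) / l ^ 2
      = (2 + 4 / γ) * Cr * ((N + 1) / l + dm ^ 4 + l * VT) := by
    field_simp
  rw [c2]
  have p1 : 0 ≤ (N + 1) / l := by positivity
  have p2 : 0 ≤ l ^ 2 * μ ^ 2 := by positivity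
  have p3 : 0 ≤ dm ^ 2 / l := by positivity
  have p4 : 0 ≤ dm ^ 4 := by positivity
  have p5 : 0 ≤ l * VT := by positivity
  have k1 : 0 ≤ 4 / γ := by positivity
  have k2 : 0 ≤ 6 * C0 ^ 2 := by positivity
  have k3 : 0 ≤ (2 + 4 / γ) * Cr := by positivity
  set a1 := (N + 1) / l
  set a2 := l ^ 2 * μ ^ 2
  set a3 := dm ^ 2 / l
  set a4 := dm ^ 4
  set a5 := l * VT
  set K1 := 4 / γ
  set K2 := 6 * C0 ^ 2
  set K3 := (2 + K1) * Cr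
  have : K1 * a2 + K2 * a3 + K3 * (a1 + a4 + a5) ≤ (K1 + K2 + K3) * (a1 + a2 + a3 + a4 + a5) := by
    have q1 : 0 ≤ K1 * (a1 + a3 + a4 + a5) := by positivity
    have q2 : 0 ≤ K2 * (a1 + a2 + a4 + a5) := by positivity
    have q3 : 0 ≤ K3 * (a2 + a3) := by positivity
    nlinarith
  linarith

/-- ONE STEP OF `T_S` (shape fixed by helper11).  `μ` = any bound of the survival-conditional means. -/
theorem s5_ts_step (C0 γ : ℝ) (hγ : 0 < γ) : ∃ C δ0 : ℝ, 0 < C ∧ 0 < δ0 ∧ ∀ (α : Type) [DecidableEq α]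
    (N ND Qa ZW ZP trW dm εs Bt μT VT C4 μ : ℝ) (t : S5Tab α) (Vd : Finset (α × α)) (Dg : ℕ)
    (A : α → α → ℝ) (j : α → ℝ) (b : α → α → ℝ),
    S5TabOK C0 N ND Qa ZW ZP trW dm εs Bt μT VT t Vd Dg A j b →
    (∀ u ∈ t.S, ∑ x ∈ t.S.erase u, t.P x u ^ 4 ≤ C4) → t.h ^ 4 * C4 ≤ 1 - γ →
    (∀ x ∈ t.S, |avgOn (s5Surv Vd {x}) (fun p => t.E2 p x x - t.E x x)| ≤ μ) →
    εs + dm + ((Dg : ℝ) + 1) / t.l ≤ δ0 →
    avgOn Vd t.TSnext ≤ t.TS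
      + C * ((N + 1) / t.l + (t.l : ℝ) ^ 2 * μ ^ 2 + dm ^ 2 / t.l + dm ^ 4 + t.l * VT) := by
  have hg0 : 0 < min γ 1 := lt_min hγ one_pos
  obtain ⟨C, hC, hd⟩ := s5_ts_drift C0 (min γ 1) hg0 (min_le_right _ _)
  refine ⟨C, min γ 1 / 32, hC, by positivity, ?_⟩
  intro α _ N ND Qa ZW ZP trW dm εs Bt μT VT C4 μ t Vd Dg A j b H P4 hκ hmean hsm
  obtain ⟨hAl, hmem, hdm, hεs, hl, hC0, hr⟩ := s53_basic H
  have hl0 : (0 : ℝ) < t.l := by linarith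
  have h1 : ((Dg : ℝ) + 1) / t.l ≤ min γ 1 / 32 := by linarith [H.hεs, H.hdm]
  rw [div_le_iff₀ hl0] at h1
  have := hd α N ND Qa ZW ZP trW dm εs Bt μT VT C4 μ t Vd Dg A j b H P4
    (hκ.trans (by linarith [min_le_left γ 1])) hmean (by linarith)
  refine this.trans ?_
  have hTS : 0 ≤ t.TS := sum_nonneg (fun x _ => sq_nonneg _)
  have : 0 ≤ min γ 1 / (2 * (t.l : ℝ)) * t.TS := by positivity
  linarith
end Claimed.Agent.R275
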