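import Claimed.Agent.R275.S5Acc
import Claimed.Agent.R275.S53C4
import Claimed.Agent.R275.S5TS

/-!
# Row 275, Sec 5.3, package S53Acct: the contract `StS5TS` of the account `T_S`

Owner: helper114.  NO paper.

* STEP (`s53_step`): `s5_ts_step` (abstract drift of `T_S`, `γ = 1/8`) at the table of a current early state (`s5_cur_tab`), with the fourth-power
  bound `s53_C4`, the signed entry mean `s5_en_mean` at the diagonal, translation by `s5tab_TS`, `s5tab_TSnext`, `s5_avg_Vd`.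
* NUMERICS (`s53a_num`): with `S_T ≍ n^{xT}`, `η1 = (ηs + xT)/2 < xT`, `δ = (xT - η1)/2`:
  `C ((1+C0)(n^{η1}+1) + 2 C'^2 + d_m² + d_m⁴ n d) ≤ n^{-δ} S_T`,  `C 2 C'^2 X² ≤ n^{-δ} S_T l₀` (`X = O(n^{1/3-.115a})`, `l₀ ≍ n^{2/3+.15a}`).
* BUDGET: `s5_acct_of_std` with `A = 0`.
* EXTRACTION (`s53_extract`): `T_S ≤ S_T (2 n^{ηK} - 1) ≤ 2 n^{xT+ηK} ≤ n^η`.
-/

set_option autoImplicit false

namespace Claimed.Agent.R275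

open Matrix Finset Filter

/-! ## 1. abstract assembly of the error coefficient -/

theorem s53a_mu_sq (Cm C0 X Y lR sl : ℝ) (hCm : 0 ≤ Cm) (hC0 : 0 ≤ C0) (hY : 0 ≤ Y) (hYX : Y ≤ X)
    (hl : 0 < lR) (hsl : 0 < sl) (hsl2 : sl ^ 2 = lR) :
    lR ^ 2 * (Cm * (X / lR ^ 2 + 1 / (lR * sl)) + C0 * Y / lR ^ 2) ^ 2
      ≤ 2 * (Cm + C0) ^ 2 * (X ^ 2 / lR ^ 2 + 1 / lR) := by
  obtain ⟨p, hp⟩ : ∃ p, p = X / lR ^ 2 := ⟨_, rfl⟩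
  obtain ⟨q, hq⟩ : ∃ q, q = 1 / (lR * sl) := ⟨_, rfl⟩
  obtain ⟨r, hr⟩ : ∃ r, r = Y / lR ^ 2 := ⟨_, rfl⟩
  have hX : 0 ≤ X := hY.trans hYX
  have hp0 : 0 ≤ p := by rw [hp]; positivity
  have hq0 : 0 ≤ q := by rw [hq]; positivity
  have hr0 : 0 ≤ r := by rw [hr]; positivity
  have hrp : r ≤ p := by
    rw [hr, hp]
    exact div_le_div_of_nonneg_right hYX (by positivity)
  have e1 : lR ^ 2 * p ^ 2 = X ^ 2 / lR ^ 2 := by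
    rw [hp]
    field_simp
  have e2 : lR ^ 2 * q ^ 2 = 1 / lR := by
    rw [hq, div_pow, mul_pow, hsl2]
    field_simp
  have e3 : C0 * Y / lR ^ 2 = C0 * r := by rw [hr]; ring
  rw [← hp, ← hq, e3]
  have h1 : Cm * (p + q) + C0 * r ≤ (Cm + C0) * (p + q) := by
    have : C0 * r ≤ C0 * (p + q) := mul_le_mul_of_nonneg_left (by linarith) hC0
    linarith
  have h0 : 0 ≤ Cm * (p + q) + C0 * r := by positivity
  have h2 : (Cm * (p + q) + C0 * r) ^ 2 ≤ ((Cm + C0) * (p + q)) ^ 2 := pow_le_pow_left₀ h0 h1 2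
  have h3 : (p + q) ^ 2 ≤ 2 * (p ^ 2 + q ^ 2) := by nlinarith [sq_nonneg (p - q)]
  have h4 : ((Cm + C0) * (p + q)) ^ 2 ≤ (Cm + C0) ^ 2 * (2 * (p ^ 2 + q ^ 2)) := by
    rw [mul_pow]
    exact mul_le_mul_of_nonneg_left h3 (by positivity)
  calc lR ^ 2 * (Cm * (p + q) + C0 * r) ^ 2 ≤ lR ^ 2 * ((Cm + C0) ^ 2 * (2 * (p ^ 2 + q ^ 2))) :=
        mul_le_mul_of_nonneg_left (h2.trans h4) (by positivity)
    _ = 2 * (Cm + C0) ^ 2 * (lR ^ 2 * p ^ 2 + lR ^ 2 * q ^ 2) := by ring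
    _ = _ := by rw [e1, e2]

theorem s53a_assemble (Ct Cm C0 N X Y dm nd ST D L0 lR sl : ℝ) (hCt : 0 ≤ Ct) (hCm : 0 ≤ Cm) (hC0 : 0 ≤ C0)
    (hY : 0 ≤ Y) (hYX : Y ≤ X) (hl : 0 < lR) (hsl : 0 < sl) (hsl2 : sl ^ 2 = lR) (hnd : lR ≤ nd)
    (a1 : Ct * ((1 + C0) * (N + 1) + 2 * (Cm + C0) ^ 2 + dm ^ 2 + dm ^ 4 * nd) ≤ D * ST)
    (a2 : Ct * (2 * (Cm + C0) ^ 2 * X ^ 2) ≤ D * ST * L0) :
    Ct * ((N + 1) / lR + lR ^ 2 * (Cm * (X / lR ^ 2 + 1 / (lR * sl)) + C0 * Y / lR ^ 2) ^ 2 + dm ^ 2 / lR + dm ^ 4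
        + lR * (C0 * (N + 1) / lR ^ 2))
      ≤ ST * (D * (1 / lR + L0 / lR ^ 2)) := by
  have h1 := s53a_mu_sq Cm C0 X Y lR sl hCm hC0 hY hYX hl hsl hsl2
  have h2 : dm ^ 4 ≤ dm ^ 4 * nd / lR := by
    rw [le_div_iff₀ hl]
    exact mul_le_mul_of_nonneg_left hnd (by positivity)
  have h3 : lR * (C0 * (N + 1) / lR ^ 2) = C0 * (N + 1) / lR := by
    field_simp
  have h4 : (N + 1) / lR + lR ^ 2 * (Cm * (X / lR ^ 2 + 1 / (lR * sl)) + C0 * Y / lR ^ 2) ^ 2 + dm ^ 2 / lR + dm ^ 4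
        + lR * (C0 * (N + 1) / lR ^ 2)
      ≤ ((1 + C0) * (N + 1) + 2 * (Cm + C0) ^ 2 + dm ^ 2 + dm ^ 4 * nd) / lR
        + (2 * (Cm + C0) ^ 2 * X ^ 2) / lR ^ 2 := by
    rw [h3]
    have e : ((1 + C0) * (N + 1) + 2 * (Cm + C0) ^ 2 + dm ^ 2 + dm ^ 4 * nd) / lR
        + (2 * (Cm + C0) ^ 2 * X ^ 2) / lR ^ 2
        = (N + 1) / lR + 2 * (Cm + C0) ^ 2 * (X ^ 2 / lR ^ 2 + 1 / lR) + dm ^ 2 / lR + dm ^ 4 * nd / lR
          + C0 * (N + 1) / lR := by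
      ring
    rw [e]
    linarith
  have f1 : Ct * ((1 + C0) * (N + 1) + 2 * (Cm + C0) ^ 2 + dm ^ 2 + dm ^ 4 * nd) / lR ≤ D * ST / lR :=
    div_le_div_of_nonneg_right a1 hl.le
  have f2 : Ct * (2 * (Cm + C0) ^ 2 * X ^ 2) / lR ^ 2 ≤ D * ST * L0 / lR ^ 2 :=
    div_le_div_of_nonneg_right a2 (by positivity)
  calc _ ≤ Ct * (((1 + C0) * (N + 1) + 2 * (Cm + C0) ^ 2 + dm ^ 2 + dm ^ 4 * nd) / lR
        + (2 * (Cm + C0) ^ 2 * X ^ 2) / lR ^ 2) := mul_le_mul_of_nonneg_left h4 hCt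
    _ = Ct * ((1 + C0) * (N + 1) + 2 * (Cm + C0) ^ 2 + dm ^ 2 + dm ^ 4 * nd) / lR
        + Ct * (2 * (Cm + C0) ^ 2 * X ^ 2) / lR ^ 2 := by ring
    _ ≤ D * ST / lR + D * ST * L0 / lR ^ 2 := add_le_add f1 f2
    _ = _ := by ring

/-! ## 2. numerics -/

/-- `n^{xT}/4 ≤ S_T ≤ n^{xT}` -/
theorem s53a_ST (P : S5Par) (hx0 : 0 ≤ P.xT) (hx1 : (P.xT : ℝ) ≤ 1) (n : ℕ) (hn : 1 ≤ n) :
    (n : ℝ) ^ (P.xT : ℝ) / 4 ≤ ((s5ST P n : ℚ) : ℝ) ∧ ((s5ST P n : ℚ) : ℝ) ≤ (n : ℝ) ^ (P.xT : ℝ) := by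
  have h1 := le_scQ_of_nonneg _ hx0 n hn
  have h2 := scQ_le_of_nonneg _ hx0 n hn
  have h4 := s43w_two_rpow_le (P.xT : ℝ) hx1
  have hN : 0 ≤ (n : ℝ) ^ (P.xT : ℝ) := by positivity
  have h3 : (n : ℝ) ^ (P.xT : ℝ) / 4 ≤ (n : ℝ) ^ (P.xT : ℝ) / 2 ^ ((P.xT : ℝ) + 1) :=
    div_le_div_of_nonneg_left hN (by positivity) h4
  exact ⟨h3.trans h1, h2⟩

/-- the entry cap: `d_m² ≤ 2 n^{-2/3+.51a}` -/
theorem s53a_dm_sq (n : ℕ) (hn : 1 ≤ n) :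
    s5cdm n ^ 2 ≤ 2 * (n : ℝ) ^ (-(2 / 3 : ℝ) + 51 / 100 * (aa : ℝ)) := by
  have hn0 : (0 : ℝ) < (n : ℝ) := by exact_mod_cast hn
  have hl0 : (0 : ℝ) < (l0 n : ℝ) := by exact_mod_cast s54n_l0_pos n
  unfold s5cdm
  rw [div_pow, Real.sq_sqrt hl0.le, s54n_rpow_sq _ _ hn0, div_le_iff₀ hl0]
  have h1 := (s43w_l0 n hn).1
  have h2 : 0 < (n : ℝ) ^ (-(2 / 3 : ℝ) + 51 / 100 * (aa : ℝ)) := Real.rpow_pos_of_pos hn0 _
  calc (n : ℝ) ^ (2 * ((33 / 100 : ℝ) * (aa : ℝ)))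
      = 2 * (n : ℝ) ^ (-(2 / 3 : ℝ) + 51 / 100 * (aa : ℝ)) * ((n : ℝ) ^ (2 / 3 + 15 / 100 * (aa : ℝ)) / 2) := by
        rw [mul_div_assoc', mul_assoc, ← Real.rpow_add hn0, mul_div_cancel_left₀ _ (by norm_num)]
        congr 1
        ring
    _ ≤ _ := mul_le_mul_of_nonneg_left h1 (by positivity)

theorem s53a_dm (d : ℕ) (ε : ℝ) (hε : 0 < ε) :
    ∀ᶠ n : ℕ in atTop, 0 ≤ s5cdm n ∧ s5cdm n ≤ ε ∧ s5cdm n ^ 2 ≤ 1 ∧ s5cdm n ^ 4 * ((n : ℝ) * (d : ℝ)) ≤ 1 := by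
  have ha := parF_aa
  filter_upwards [eventually_ge_atTop 1,
    parF_ev_small (-(2 / 3 : ℝ) + 51 / 100 * (aa : ℝ)) (by rw [ha]; norm_num) (min 1 (ε ^ 2) / 2) (by positivity),
    parF_ev_small (-(1 / 3 : ℝ) + 102 / 100 * (aa : ℝ)) (by rw [ha]; norm_num) (1 / (4 * ((d : ℝ) + 1)))
      (by positivity)] with n hn h1 h2
  have hn0 : (0 : ℝ) < (n : ℝ) := by exact_mod_cast hn
  have h0 : 0 ≤ s5cdm n := by unfold s5cdm; positivity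
  have hsq := s53a_dm_sq n hn
  have hsq1 : s5cdm n ^ 2 ≤ min 1 (ε ^ 2) := by linarith
  refine ⟨h0, ?_, hsq1.trans (min_le_left _ _), ?_⟩
  · exact le_of_pow_le_pow_left₀ (by norm_num) hε.le (hsq1.trans (min_le_right _ _))
  · have e : s5cdm n ^ 4 = (s5cdm n ^ 2) ^ 2 := by ring
    have h3 : (s5cdm n ^ 2) ^ 2 ≤ (2 * (n : ℝ) ^ (-(2 / 3 : ℝ) + 51 / 100 * (aa : ℝ))) ^ 2 :=
      pow_le_pow_left₀ (by positivity) hsq 2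
    have h4 : (2 * (n : ℝ) ^ (-(2 / 3 : ℝ) + 51 / 100 * (aa : ℝ))) ^ 2 * (n : ℝ)
        = 4 * (n : ℝ) ^ (-(1 / 3 : ℝ) + 102 / 100 * (aa : ℝ)) := by
      rw [mul_pow, s54n_rpow_sq _ _ hn0]
      have : (n : ℝ) ^ (2 * (-(2 / 3 : ℝ) + 51 / 100 * (aa : ℝ))) * (n : ℝ)
          = (n : ℝ) ^ (-(1 / 3 : ℝ) + 102 / 100 * (aa : ℝ)) := by
        nth_rewrite 2 [← Real.rpow_one (n : ℝ)]
        rw [← Real.rpow_add hn0]
        congr 1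
        ring
      rw [mul_assoc, this]
      norm_num
    have hd0 : (0 : ℝ) ≤ (d : ℝ) := Nat.cast_nonneg d
    rw [e]
    calc (s5cdm n ^ 2) ^ 2 * ((n : ℝ) * (d : ℝ))
        ≤ (2 * (n : ℝ) ^ (-(2 / 3 : ℝ) + 51 / 100 * (aa : ℝ))) ^ 2 * ((n : ℝ) * (d : ℝ)) :=
          mul_le_mul_of_nonneg_right h3 (by positivity)
      _ = 4 * (n : ℝ) ^ (-(1 / 3 : ℝ) + 102 / 100 * (aa : ℝ)) * (d : ℝ) := by rw [← h4]; ring
      _ ≤ 4 * (1 / (4 * ((d : ℝ) + 1))) * (d : ℝ) := by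
          exact mul_le_mul_of_nonneg_right (mul_le_mul_of_nonneg_left h2 (by norm_num)) hd0
      _ ≤ 1 := by
          have : 4 * (1 / (4 * ((d : ℝ) + 1))) * (d : ℝ) = (d : ℝ) / ((d : ℝ) + 1) := by
            field_simp
          rw [this, div_le_one (by positivity)]
          linarith

/-- the numerators are ordered and nonnegative -/
theorem s53a_X_ge (d : ℕ) (hd : 3 ≤ d) (cp : ℚ) (hcp : 0 < cp) (hcp' : cp ≤ 1 / 4) (η1 η : ℝ) :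
    ∀ᶠ n : ℕ in atTop, ∀ h ∈ trackedList d n cp,
      0 ≤ s5cQa d n η1 + (s42Dg d n : ℝ) + (n : ℝ) ^ η1 + 1 ∧
      s5cQa d n η1 + (s42Dg d n : ℝ) + (n : ℝ) ^ η1 + 1 ≤ s5cX d n η1 η ((h : ℚ) : ℝ) := by
  filter_upwards [s54n_alpha_ge d hd cp hcp hcp'] with n hα h hh
  have h1 : 0 ≤ s5cQa d n η1 := by unfold s5cQa; positivity
  have h2 : 0 ≤ s5ctr d n := by
    unfold s5ctr
    exact div_nonneg (by positivity) hα.1.le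
  have h3 : 0 ≤ s5cZW d n ((h : ℚ) : ℝ) := by
    unfold s5cZW
    exact div_nonneg (by positivity) (hα.1.le.trans (hα.2 h hh).1)
  have h4 : 0 ≤ s5cZP d n := by unfold s5cZP; positivity
  have h5 : 0 ≤ (n : ℝ) ^ η1 := by positivity
  have h6 : 0 ≤ (n : ℝ) ^ η := by positivity
  have h7 : (0 : ℝ) ≤ (s42Dg d n : ℝ) := Nat.cast_nonneg _
  constructor
  · linarith
  · unfold s5cX
    linarith

/-- NUMERICS of the error coefficient of `T_S` -/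
theorem s53a_num (d : ℕ) (hd : 3 ≤ d) (P : S5Par) (hcp : 0 < P.cp) (hcp' : P.cp ≤ 1 / 4) (Ct Cm C0 η1 η : ℝ)
    (hCt : 0 ≤ Ct) (hC0 : 0 ≤ C0) (hη1 : 0 ≤ η1) (hη1x : η1 < (P.xT : ℝ)) (hx1 : (P.xT : ℝ) ≤ (aa : ℝ) / 10)
    (hη' : η ≤ (aa : ℝ) / 10) :
    ∃ δ : ℝ, 0 < δ ∧ ∀ᶠ n : ℕ in atTop,
      Ct * ((1 + C0) * ((n : ℝ) ^ η1 + 1) + 2 * (Cm + C0) ^ 2 + s5cdm n ^ 2 + s5cdm n ^ 4 * ((n : ℝ) * (d : ℝ)))
        ≤ (n : ℝ) ^ (-δ) * ((s5ST P n : ℚ) : ℝ) ∧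
      ∀ h ∈ trackedList d n P.cp,
        Ct * (2 * (Cm + C0) ^ 2 * s5cX d n η1 η ((h : ℚ) : ℝ) ^ 2)
          ≤ (n : ℝ) ^ (-δ) * ((s5ST P n : ℚ) : ℝ) * (l0 n : ℝ) := by
  have ha := parF_aa
  have hx0R : (0 : ℝ) ≤ (P.xT : ℝ) := hη1.trans hη1x.le
  have hx0 : (0 : ℚ) ≤ P.xT := by exact_mod_cast hx0R
  have hx1' : (P.xT : ℝ) ≤ 1 := by rw [ha] at hx1; linarith
  obtain ⟨δ, hδdef⟩ : ∃ δ : ℝ, δ = ((P.xT : ℝ) - η1) / 2 := ⟨_, rfl⟩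
  have hδ : 0 < δ := by rw [hδdef]; linarith
  obtain ⟨K1, hK1⟩ : ∃ K1 : ℝ, K1 = 48 * ((d : ℝ) - 1) + 2 * (d : ℝ) ^ 2 + 8 := ⟨_, rfl⟩
  refine ⟨δ, hδ, ?_⟩
  filter_upwards [eventually_ge_atTop 1, s53a_dm d 1 one_pos,
    s54n_X_le d hd P.cp hcp hcp' η1 η (by linarith) hη', s53a_X_ge d hd P.cp hcp hcp' η1 η,
    parF_ev_large δ hδ (4 * (Ct * (2 * (1 + C0) + 2 * (Cm + C0) ^ 2 + 2))),
    parF_ev_large ((38 / 100 : ℝ) * (aa : ℝ)) (by rw [ha]; norm_num) (8 * (Ct * (2 * (Cm + C0) ^ 2 * K1 ^ 2)))]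
    with n hn hdm hX hX0 b1 b2
  have hn1 : (1 : ℝ) ≤ (n : ℝ) := by exact_mod_cast hn
  have hn0 : (0 : ℝ) < (n : ℝ) := by linarith
  have hpos : ∀ e : ℝ, 0 < (n : ℝ) ^ e := fun e => Real.rpow_pos_of_pos hn0 e
  obtain ⟨hST, -⟩ := s53a_ST P hx0 hx1' n hn
  have hN1 : (1 : ℝ) ≤ (n : ℝ) ^ η1 := Real.one_le_rpow hn1 hη1
  constructor
  · obtain ⟨-, -, d2, d4⟩ := hdm
    have hC2 : 0 ≤ 2 * (Cm + C0) ^ 2 := by positivity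
    have h1 : (1 + C0) * ((n : ℝ) ^ η1 + 1) + 2 * (Cm + C0) ^ 2 + s5cdm n ^ 2 + s5cdm n ^ 4 * ((n : ℝ) * (d : ℝ))
        ≤ (2 * (1 + C0) + 2 * (Cm + C0) ^ 2 + 2) * (n : ℝ) ^ η1 := by
      have e1 : (1 + C0) * ((n : ℝ) ^ η1 + 1) ≤ (1 + C0) * (2 * (n : ℝ) ^ η1) :=
        mul_le_mul_of_nonneg_left (by linarith) (by linarith)
      have e2 : 2 * (Cm + C0) ^ 2 * 1 ≤ 2 * (Cm + C0) ^ 2 * (n : ℝ) ^ η1 := mul_le_mul_of_nonneg_left hN1 hC2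
      linarith
    calc _ ≤ Ct * ((2 * (1 + C0) + 2 * (Cm + C0) ^ 2 + 2) * (n : ℝ) ^ η1) := mul_le_mul_of_nonneg_left h1 hCt
      _ = (4 * (Ct * (2 * (1 + C0) + 2 * (Cm + C0) ^ 2 + 2))) * (n : ℝ) ^ η1 / 4 := by ring
      _ ≤ (n : ℝ) ^ δ * (n : ℝ) ^ η1 / 4 := by
          have := mul_le_mul_of_nonneg_right b1 (hpos η1).le
          linarith
      _ = (n : ℝ) ^ (-δ) * ((n : ℝ) ^ (P.xT : ℝ) / 4) := by
          rw [← Real.rpow_add hn0, mul_div_assoc', ← Real.rpow_add hn0]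
          congr 2
          rw [hδdef]
          ring
      _ ≤ _ := mul_le_mul_of_nonneg_left hST (hpos _).le
  · intro h hh
    have hXn : 0 ≤ s5cX d n η1 η ((h : ℚ) : ℝ) := (hX0 h hh).1.trans (hX0 h hh).2
    have hXle := hX h hh
    rw [← hK1] at hXle
    have h2 : s5cX d n η1 η ((h : ℚ) : ℝ) ^ 2 ≤ K1 ^ 2 * (n : ℝ) ^ (2 / 3 - 23 / 100 * (aa : ℝ)) := by
      calc s5cX d n η1 η ((h : ℚ) : ℝ) ^ 2 ≤ (K1 * (n : ℝ) ^ (1 / 3 - 115 / 1000 * (aa : ℝ))) ^ 2 :=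
            pow_le_pow_left₀ hXn hXle 2
        _ = _ := by
            rw [mul_pow, s54n_rpow_sq _ _ hn0]
            congr 2
            ring
    have hC2 : 0 ≤ 2 * (Cm + C0) ^ 2 := by positivity
    have hxδ : (1 : ℝ) ≤ (n : ℝ) ^ ((P.xT : ℝ) - δ) := Real.one_le_rpow hn1 (by rw [hδdef]; linarith)
    calc Ct * (2 * (Cm + C0) ^ 2 * s5cX d n η1 η ((h : ℚ) : ℝ) ^ 2)
        ≤ Ct * (2 * (Cm + C0) ^ 2 * (K1 ^ 2 * (n : ℝ) ^ (2 / 3 - 23 / 100 * (aa : ℝ)))) :=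
          mul_le_mul_of_nonneg_left (mul_le_mul_of_nonneg_left h2 hC2) hCt
      _ = (8 * (Ct * (2 * (Cm + C0) ^ 2 * K1 ^ 2))) * (n : ℝ) ^ (2 / 3 - 23 / 100 * (aa : ℝ)) / 8 := by ring
      _ ≤ (n : ℝ) ^ ((38 / 100 : ℝ) * (aa : ℝ)) * (n : ℝ) ^ (2 / 3 - 23 / 100 * (aa : ℝ)) / 8 := by
          have := mul_le_mul_of_nonneg_right b2 (hpos (2 / 3 - 23 / 100 * (aa : ℝ))).le
          linarith
      _ = 1 * (n : ℝ) ^ (2 / 3 + 15 / 100 * (aa : ℝ)) / 8 := by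
          rw [← Real.rpow_add hn0, one_mul]
          congr 2
          ring
      _ ≤ (n : ℝ) ^ ((P.xT : ℝ) - δ) * (n : ℝ) ^ (2 / 3 + 15 / 100 * (aa : ℝ)) / 8 := by
          have := mul_le_mul_of_nonneg_right hxδ (hpos (2 / 3 + 15 / 100 * (aa : ℝ))).le
          linarith
      _ = (n : ℝ) ^ (-δ) * ((n : ℝ) ^ (P.xT : ℝ) / 4) * ((n : ℝ) ^ (2 / 3 + 15 / 100 * (aa : ℝ)) / 2) := by
          have : (n : ℝ) ^ ((P.xT : ℝ) - δ) = (n : ℝ) ^ (-δ) * (n : ℝ) ^ (P.xT : ℝ) := by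
            rw [← Real.rpow_add hn0]
            congr 1
            ring
          rw [this]
          ring
      _ ≤ _ := by
          refine mul_le_mul (mul_le_mul_of_nonneg_left hST (hpos _).le) (s43w_l0 n hn).1 (by have := hpos (2 / 3 + 15 / 100 * (aa : ℝ)); positivity) ?_
          have : 0 < ((s5ST P n : ℚ) : ℝ) := lt_of_lt_of_le (by have := hpos (P.xT : ℝ); positivity) hST
          have := hpos (-δ)
          positivity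

/-- `(D_g + 1)/l₀` is small -/
theorem s53a_Dg_small (d : ℕ) (hd : 3 ≤ d) (ε : ℝ) (hε : 0 < ε) :
    ∀ᶠ n : ℕ in atTop, ((s42Dg d n : ℝ) + 1) ≤ ε * (l0 n : ℝ) := by
  have ha := parF_aa
  filter_upwards [eventually_ge_atTop 1,
    parF_ev_large ((2 / 3 : ℝ) - 2 / 1000 * (aa : ℝ)) (by rw [ha]; norm_num) (2 * (2 * (d : ℝ) ^ 2 + 1) / ε)]
    with n hn hbig
  have hn1 : (1 : ℝ) ≤ (n : ℝ) := by exact_mod_cast hn
  have hn0 : (0 : ℝ) < (n : ℝ) := by linarith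
  have h1 := s54n_Dg_le d hd n hn
  have h2 := s4c_l0_ge n hn
  have h3 : (1 : ℝ) ≤ (n : ℝ) ^ (2 / 1000 * (aa : ℝ)) := Real.one_le_rpow hn1 (by rw [ha]; norm_num)
  have h4 : (n : ℝ) ^ (2 / 3 : ℝ) = (n : ℝ) ^ (2 / 1000 * (aa : ℝ)) * (n : ℝ) ^ ((2 / 3 : ℝ) - 2 / 1000 * (aa : ℝ)) := by
    rw [← Real.rpow_add hn0]; congr 1; ring
  rw [div_le_iff₀ hε] at hbig
  have h5 : (n : ℝ) ^ (2 / 1000 * (aa : ℝ)) * (2 * (2 * (d : ℝ) ^ 2 + 1))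
      ≤ (n : ℝ) ^ (2 / 1000 * (aa : ℝ)) * ((n : ℝ) ^ ((2 / 3 : ℝ) - 2 / 1000 * (aa : ℝ)) * ε) :=
    mul_le_mul_of_nonneg_left hbig (by positivity)
  have h6 : ε * ((n : ℝ) ^ (2 / 3 : ℝ) / 2) ≤ ε * (l0 n : ℝ) := mul_le_mul_of_nonneg_left h2 hε.le
  rw [h4] at h6
  nlinarith

/-! ## 3. the step -/

theorem s53a_avg_affine {ι : Type*} (I : Finset ι) (hI : I.Nonempty) (f : ι → ℝ) (S : ℝ) :
    avgOn I (fun p => 1 + f p / S) = 1 + avgOn I f / S := by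
  have hc : (I.card : ℝ) ≠ 0 := by
    have := Finset.card_pos.2 hI
    exact_mod_cast this.ne'
  unfold avgOn
  rw [Finset.sum_add_distrib, Finset.sum_const, ← Finset.sum_div, nsmul_eq_mul, mul_one, add_div, div_self hc]
  congr 1
  ring

theorem s53a_avg_congr {ι : Type*} (I : Finset ι) (f g : ι → ℝ) (h : ∀ p ∈ I, f p = g p) : avgOn I f = avgOn I g := by
  unfold avgOn
  rw [Finset.sum_congr rfl h]

/-- the fourth-power hypothesis of `s5_ts_step` at the table of a state -/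
theorem s53a_P4 {n d : ℕ} (π : PPair n d) (L : ℕ) (σ z : ℝ) (hz : 0 < z)
    (hP : ∀ a ∈ (π.s5tab L σ z).Al, ∀ x ∈ (π.s5tab L σ z).S, |(π.s5tab L σ z).P a x| ≤ π.s5A L z a x)
    (hC4 : ∀ u : Stub n d, π.Unres u → z ^ 4 * ∑ x ∈ π.unres.erase u, π.Amaj (Cmaj d) L z (.stub x) u ^ 4 ≤ 7 / 8) :
    ∀ u ∈ (π.s5tab L σ z).S, ∑ x ∈ (π.s5tab L σ z).S.erase u, (π.s5tab L σ z).P x u ^ 4 ≤ 7 / 8 / z ^ 4 := by
  intro u hu
  have hu' : u ∈ π.s5S := hu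
  obtain ⟨u', hu'', rfl⟩ := Finset.mem_image.1 hu'
  have hinj : Function.Injective (Label.stub : Stub n d → Label n d) := fun x y h => by cases h; rfl
  have hS : (π.s5tab L σ z).S.erase (Label.stub u') = (π.unres.erase u').image Label.stub := by
    show (π.unres.image Label.stub).erase (Label.stub u') = _
    exact (Finset.image_erase hinj _ _).symm
  rw [hS, Finset.sum_image fun x _ y _ h => hinj h, le_div_iff₀ (by positivity), mul_comm]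
  refine le_trans (mul_le_mul_of_nonneg_left (Finset.sum_le_sum fun x hx => ?_) (by positivity))
    (hC4 u' (by simpa [PPair.unres] using hu''))
  have hx' : Label.stub x ∈ (π.s5tab L σ z).S :=
    Finset.mem_image.2 ⟨x, (Finset.mem_erase.1 hx).2, rfl⟩
  have h1 := hP (.stub x) (Finset.mem_union_right _ hx') (.stub u') hu
  have h2 : π.s5A L z (.stub x) (.stub u') = π.Amaj (Cmaj d) L z (.stub x) u' := rfl
  rw [h2] at h1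
  have h3 : (π.s5tab L σ z).P (.stub x) (.stub u') ^ 4 = |(π.s5tab L σ z).P (.stub x) (.stub u')| ^ 4 :=
    ((even_two_mul 2).pow_abs _).symm
  rw [h3]
  exact pow_le_pow_left₀ (abs_nonneg _) h1 4

/-- last scalar step: from the additive drift to the multiplicative one -/
theorem s53a_close (av TS Err ST c' c : ℝ) (hST : 0 < ST) (hTS : 0 ≤ TS) (h1 : av ≤ TS + Err) (h2 : Err ≤ ST * c')
    (h3 : c' ≤ c) (hc : 0 ≤ c) : 1 + av / ST ≤ (1 + c) * (1 + TS / ST) := by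
  have h4 : av / ST ≤ TS / ST + c' := by
    rw [div_le_iff₀ hST, add_mul, div_mul_cancel₀ _ hST.ne']
    linarith
  have h5 : 0 ≤ TS / ST := by positivity
  nlinarith [mul_nonneg hc h5]

theorem s53a_std_ge (n : ℕ) (δ : ℝ) (l : ℕ) :
    (n : ℝ) ^ (-δ) * (1 / (l : ℝ) + (l0 n : ℝ) / (l : ℝ) ^ 2) ≤ s5cStd n 0 δ l := by
  unfold s5cStd
  have e : (n : ℝ) ^ (-δ) * (1 / (l : ℝ) + Real.sqrt (l0 n) / ((l : ℝ) * Real.sqrt l) + (l0 n : ℝ) / (l : ℝ) ^ 2)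
      = (n : ℝ) ^ (-δ) * (1 / (l : ℝ) + (l0 n : ℝ) / (l : ℝ) ^ 2)
        + (n : ℝ) ^ (-δ) * (Real.sqrt (l0 n) / ((l : ℝ) * Real.sqrt l)) := by ring
  have h1 : 0 ≤ (n : ℝ) ^ (-δ) * (Real.sqrt (l0 n) / ((l : ℝ) * Real.sqrt l)) := by positivity
  have h2 : 0 ≤ (n : ℝ) ^ (-(3 / 2 : ℝ)) := by positivity
  rw [e, zero_div]
  linarith

/-- ONE STEP of the account `T_S` at a current early state. -/
theorem s53_step (d : ℕ) (hd : 3 ≤ d) (P : S5Par) (hcp : 0 < P.cp) (hcp' : P.cp ≤ 1 / 4) (CM CR ηs η cT : ℝ) (Rc : ℕ)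
    (hηs : 0 ≤ ηs) (hs' : ηs < (P.xT : ℝ)) (hx : (P.xT : ℝ) ≤ (aa : ℝ) / 10) (hη : η ≤ (aa : ℝ) / 10) :
    ∃ δ : ℝ, 0 < δ ∧ ∀ᶠ n : ℕ in atTop, ∀ h ∈ trackedList d n P.cp, ∀ s : Bool, ∀ π : PPair n d,
      π.S5St P CM CR ηs η Rc cT → l1 n < π.l →
      avgOn (π.admSet (g0 d n)) (fun pr => s5Zv ℝ d n P (.tS h s) (π.resolve pr.1 pr.2)) ≤
        (1 + s5cStd n 0 δ π.l) * s5Zv ℝ d n P (.tS h s) π := by
  have ha := parF_aa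
  obtain ⟨C0, hC0, Htab⟩ := s5_cur_tab d hd P.cp hcp hcp' CR
  obtain ⟨Cm, hCm, Hmean⟩ := s5_en_mean C0
  obtain ⟨Ct, δ0, hCt, hδ0, Hts⟩ := s5_ts_step C0 (1 / 8) (by norm_num)
  obtain ⟨η1, hη1def⟩ : ∃ η1 : ℝ, η1 = (ηs + (P.xT : ℝ)) / 2 := ⟨_, rfl⟩
  have hη1a : ηs < η1 := by rw [hη1def]; linarith
  have hη1b : η1 < (P.xT : ℝ) := by rw [hη1def]; linarith
  have hx0R : (0 : ℝ) ≤ (P.xT : ℝ) := hηs.trans hs'.le
  have hx0 : (0 : ℚ) ≤ P.xT := by exact_mod_cast hx0R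
  have hx1' : (P.xT : ℝ) ≤ 1 := by rw [ha] at hx; linarith
  obtain ⟨δ, hδ, Hnum⟩ := s53a_num d hd P hcp hcp' Ct Cm C0 η1 η hCt.le (by linarith) (by linarith) hη1b hx hη
  refine ⟨δ, hδ, ?_⟩
  filter_upwards [Htab P rfl CM ηs η1 η ((aa : ℝ) / 2000) cT Rc hηs hη1a (by rw [ha]; norm_num)
      (by rw [ha]; norm_num),
    s5_cur_upd d hd P hcp hcp' CM CR ηs η cT Rc, s53_C4 d hd CM CR ηs Rc, s4c_basic d hd P.cp hcp hcp', Hnum,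
    s53a_X_ge d hd P.cp hcp hcp' η1 η, s53a_dm d (δ0 / 3) (by positivity),
    parF_ev_small (-((aa : ℝ) / 2000)) (by rw [ha]; norm_num) (δ0 / 3) (by positivity),
    s53a_Dg_small d hd (δ0 / 3) (by positivity), eventually_ge_atTop 1]
    with n htab hupd hC4 hbas hnum hXge hdm hsm1 hsm2 hn h hh s π hSt hl
  obtain ⟨hh0, hhz, -⟩ := hbas h hh
  have H := htab π hSt h hh s
  have hl0l : l0 n ≤ π.l := by
    have := hSt.l_ge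
    unfold l1 at this
    omega
  have hl0pos : (0 : ℝ) < (l0 n : ℝ) := by exact_mod_cast s54n_l0_pos n
  have hl0R : (l0 n : ℝ) ≤ (π.l : ℝ) := by exact_mod_cast hl0l
  have hlR : (0 : ℝ) < (π.l : ℝ) := by linarith
  have htl : (π.s5tab (Lcut d n) (sgn s) ((h : ℚ) : ℝ)).l = π.l := π.s5tab_l _ _ _
  have P4 := s53a_P4 π (Lcut d n) (sgn s) ((h : ℚ) : ℝ) hh0 H.P_le (hC4 π hl0l hSt.walk _ hh0.le hhz)
  have hκ : (π.s5tab (Lcut d n) (sgn s) ((h : ℚ) : ℝ)).h ^ 4 * (7 / 8 / ((h : ℚ) : ℝ) ^ 4) ≤ 1 - 1 / 8 := by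
    show ((h : ℚ) : ℝ) ^ 4 * (7 / 8 / ((h : ℚ) : ℝ) ^ 4) ≤ _
    rw [mul_div_cancel₀ _ (by positivity)]
    norm_num
  have eX : s5ctr d n + s5cZW d n ((h : ℚ) : ℝ) + s5cZP d n + s5cQa d n η1 + (s42Dg d n : ℝ) + (n : ℝ) ^ η1
      + (2 * (n : ℝ) ^ η1 + 2 * (n : ℝ) ^ η) + 1 = s5cX d n η1 η ((h : ℚ) : ℝ) := by
    unfold s5cX
    ring
  have hmean : ∀ x ∈ (π.s5tab (Lcut d n) (sgn s) ((h : ℚ) : ℝ)).S,
      |avgOn (s5Surv (π.s5Vd (g0 d n)) {x}) (fun p => (π.s5tab (Lcut d n) (sgn s) ((h : ℚ) : ℝ)).E2 p x x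
        - (π.s5tab (Lcut d n) (sgn s) ((h : ℚ) : ℝ)).E x x)| ≤
      Cm * (s5cX d n η1 η ((h : ℚ) : ℝ) / (π.l : ℝ) ^ 2 + 1 / ((π.l : ℝ) * Real.sqrt π.l))
        + C0 * (s5cQa d n η1 + (s42Dg d n : ℝ) + (n : ℝ) ^ η1 + 1) / (π.l : ℝ) ^ 2 := by
    intro x hx
    have h1 := Hmean (Label n d) _ _ _ _ _ _ _ _ _ _ _ _ _ _ _ _ _ H x (Finset.mem_union_right _ hx) x
      (Finset.mem_union_right _ hx)
    have hX0 : (π.s5tab (Lcut d n) (sgn s) ((h : ℚ) : ℝ)).X0 x x = {x} := by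
      unfold S5Tab.X0
      rw [Finset.pair_eq_singleton, Finset.singleton_inter_of_mem hx]
    rw [hX0, htl, eX] at h1
    exact h1
  have hsm : (n : ℝ) ^ (-((aa : ℝ) / 2000)) + s5cdm n
      + ((s42Dg d n : ℝ) + 1) / ((π.s5tab (Lcut d n) (sgn s) ((h : ℚ) : ℝ)).l : ℝ) ≤ δ0 := by
    rw [htl]
    have h1 : ((s42Dg d n : ℝ) + 1) / (π.l : ℝ) ≤ δ0 / 3 := by
      rw [div_le_iff₀ hlR]
      exact hsm2.trans (mul_le_mul_of_nonneg_left hl0R (by positivity))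
    linarith [hdm.2.1]
  have K := Hts (Label n d) _ _ _ _ _ _ _ _ _ _ _ _ _ _ _ _ _ _ _ H P4 hκ hmean hsm
  rw [htl] at K
  have hnd : (π.l : ℝ) ≤ (n : ℝ) * (d : ℝ) := by exact_mod_cast π.l_parity.2
  have hErr := s53a_assemble Ct Cm C0 ((n : ℝ) ^ η1) (s5cX d n η1 η ((h : ℚ) : ℝ))
    (s5cQa d n η1 + (s42Dg d n : ℝ) + (n : ℝ) ^ η1 + 1) (s5cdm n) ((n : ℝ) * (d : ℝ)) ((s5ST P n : ℚ) : ℝ)
    ((n : ℝ) ^ (-δ)) (l0 n : ℝ) (π.l : ℝ) (Real.sqrt π.l) hCt.le hCm.le (by linarith) (hXge h hh).1 (hXge h hh).2 hlR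
    (Real.sqrt_pos.2 hlR) (Real.sq_sqrt hlR.le) hnd hnum.1 (hnum.2 h hh)
  have hn0 : (0 : ℝ) < (n : ℝ) := by exact_mod_cast hn
  have hST0 : 0 < ((s5ST P n : ℚ) : ℝ) :=
    lt_of_lt_of_le (by have := Real.rpow_pos_of_pos hn0 (P.xT : ℝ); positivity) (s53a_ST P hx0 hx1' n hn).1
  have hne : (π.admSet (g0 d n)).Nonempty := by
    have hl32 : 32 ≤ π.unres.card := by
      have := H.hl
      rwa [show (π.s5tab (Lcut d n) (sgn s) ((h : ℚ) : ℝ)).S.card = π.unres.card from π.s5_card_S] at this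
    have hDg4 : 4 * s42Dg d n ≤ π.unres.card := by
      have := H.hDg
      rwa [show (π.s5tab (Lcut d n) (sgn s) ((h : ℚ) : ℝ)).S.card = π.unres.card from π.s5_card_S] at this
    have h1 := s5_card_valid_half hSt.valid (le_trans (by norm_num) hl32) hDg4
    have h2 : (0 : ℝ) < (π.unres.card : ℝ) ^ 2 / 2 := by
      have : (0 : ℝ) < (π.unres.card : ℝ) := by
        have : 0 < π.unres.card := lt_of_lt_of_le (by norm_num) hl32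
        exact_mod_cast this
      positivity
    have h3 : 0 < (π.admSet (g0 d n)).card := by
      have : (0 : ℝ) < ((π.admSet (g0 d n)).card : ℝ) := lt_of_lt_of_le h2 h1
      exact_mod_cast this
    exact Finset.card_pos.1 h3
  have hA : avgOn (π.admSet (g0 d n)) (fun pr => s5Zv ℝ d n P (.tS h s) (π.resolve pr.1 pr.2))
      = 1 + avgOn (π.s5Vd (g0 d n)) (π.s5tab (Lcut d n) (sgn s) ((h : ℚ) : ℝ)).TSnext / ((s5ST P n : ℚ) : ℝ) := by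
    rw [π.s5_avg_Vd, ← s53a_avg_affine _ hne]
    refine s53a_avg_congr _ _ _ fun p hp => ?_
    have hadm : π.Adm (g0 d n) p.1 p.2 := (Finset.mem_filter.1 hp).2
    have h1 := PPair.s5tab_TSnext (hupd π hSt p.1 p.2 hadm h hh s) (Lcut d n)
    show 1 + (π.resolve p.1 p.2).TS (Lcut d n) (sgn s) ((h : ℚ) : ℝ) / ((s5ST P n : ℚ) : ℝ) = _
    rw [← h1]
  have hZ : s5Zv ℝ d n P (.tS h s) π
      = 1 + (π.s5tab (Lcut d n) (sgn s) ((h : ℚ) : ℝ)).TS / ((s5ST P n : ℚ) : ℝ) := by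
    rw [π.s5tab_TS]
    rfl
  have hTS0 : 0 ≤ (π.s5tab (Lcut d n) (sgn s) ((h : ℚ) : ℝ)).TS := Finset.sum_nonneg fun x _ => sq_nonneg _
  rw [hA, hZ]
  exact s53a_close _ _ _ _ _ _ hST0 hTS0 K hErr (s53a_std_ge n δ π.l) (s5cStd_nonneg n 0 δ le_rfl π.l)

/-! ## 4. extraction and the contract -/

/-- EXTRACTION of the cap of `T_S` -/
theorem s53_extract (d : ℕ) (P : S5Par) (hx0 : 0 ≤ P.xT) (η ηK : ℝ) (hx : (P.xT : ℝ) + ηK < η) :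
    ∀ᶠ n : ℕ in atTop, ∀ (h : ℚ) (s : Bool) (π' : PPair n d),
      s5Zv ℝ d n P (.tS h s) π' ≤ (n : ℝ) ^ ηK * 2 →
      π'.TS (Lcut d n) (sgn s) ((h : ℚ) : ℝ) ≤ (n : ℝ) ^ η := by
  filter_upwards [eventually_ge_atTop 1, parF_ev_large (η - ((P.xT : ℝ) + ηK)) (by linarith) 2]
    with n hn hbig h s π' hZ
  have hn0 : (0 : ℝ) < (n : ℝ) := by exact_mod_cast hn
  have hST0 : 0 < ((s5ST P n : ℚ) : ℝ) := by
    have : (0 : ℚ) < s5ST P n := scQ_pos _ n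
    exact_mod_cast this
  have hST1 : ((s5ST P n : ℚ) : ℝ) ≤ (n : ℝ) ^ (P.xT : ℝ) := scQ_le_of_nonneg _ hx0 n hn
  have hZ' : 1 + π'.TS (Lcut d n) (sgn s) ((h : ℚ) : ℝ) / ((s5ST P n : ℚ) : ℝ) ≤ (n : ℝ) ^ ηK * 2 := hZ
  have h1 : π'.TS (Lcut d n) (sgn s) ((h : ℚ) : ℝ) / ((s5ST P n : ℚ) : ℝ) ≤ (n : ℝ) ^ ηK * 2 := by linarith
  rw [div_le_iff₀ hST0] at h1
  have hK : 0 < (n : ℝ) ^ ηK := Real.rpow_pos_of_pos hn0 _
  calc π'.TS (Lcut d n) (sgn s) ((h : ℚ) : ℝ) ≤ (n : ℝ) ^ ηK * 2 * ((s5ST P n : ℚ) : ℝ) := h1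
    _ ≤ (n : ℝ) ^ ηK * 2 * (n : ℝ) ^ (P.xT : ℝ) := mul_le_mul_of_nonneg_left hST1 (by positivity)
    _ = 2 * (n : ℝ) ^ ((P.xT : ℝ) + ηK) := by
        rw [Real.rpow_add hn0]
        ring
    _ ≤ (n : ℝ) ^ (η - ((P.xT : ℝ) + ηK)) * (n : ℝ) ^ ((P.xT : ℝ) + ηK) :=
        mul_le_mul_of_nonneg_right hbig (Real.rpow_pos_of_pos hn0 _).le
    _ = _ := by
        rw [← Real.rpow_add hn0]
        congr 1
        ring

/-- **THE CONTRACT `StS5TS` of Sec 5.3** -/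
theorem s53_contract (d : ℕ) (hd : 3 ≤ d) (P : S5Par) (hcp : 0 < P.cp) (hcp' : P.cp ≤ 1 / 4) (CM CR ηs η cT ηK : ℝ)
    (Rc : ℕ) (hηs : 0 ≤ ηs) (hs' : ηs < (P.xT : ℝ)) (hx : (P.xT : ℝ) + ηK < η) (hK : 0 ≤ ηK)
    (hη : η ≤ (aa : ℝ) / 10) : StS5TS d P CM CR ηs η Rc cT ηK := by
  have hx0R : (0 : ℝ) ≤ (P.xT : ℝ) := hηs.trans hs'.le
  have hx0 : (0 : ℚ) ≤ P.xT := by exact_mod_cast hx0R
  obtain ⟨δ, hδ, Hev⟩ := s53_step d hd P hcp hcp' CM CR ηs η cT Rc hηs hs' (by linarith) hη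
  unfold StS5TS
  filter_upwards [Hev, s5_acct_of_std d hd 0 δ le_rfl hδ, s53_extract d P hx0 η ηK hx] with n h1 h2 h3 h hh s
  refine ⟨⟨s5cStd n 0 δ, ?_⟩, fun π' hZ => h3 h s π' hZ⟩
  have h4 := h2 P (fun π => π.S5St P CM CR ηs η Rc cT) (.tS h s) fun π hSt hl => h1 h hh s π hSt hl
  rw [Real.rpow_zero, mul_one] at h4
  exact h4

end Claimed.Agent.R275
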