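import Claimed.Agent.R275.S5T5
import Claimed.Agent.R275.S53Acct

/-!
# Row 275: the contract `StS53` of `S5T5.lean` and hence the contract `StT5` of `Final.lean`

Owner: helper114.  No sorry of its own.
-/

set_option autoImplicit false

namespace Claimed.Agent.R275

theorem s53_StS53 : StS53 := by
  intro d hd cp hcp hcp' CM CR Rc η _ hη P ηs ηK hP hs hs' hx hK
  have ha := s5f_aa_pos
  exact s53_contract d hd P (by rw [hP]; exact hcp) (by rw [hP]; exact hcp') CM CR ηs η (1 / 2) ηK Rc hs.le hs' hx
    hK.le (by linarith)

theorem s53_StT5 : StT5 := s5_t5 s53_StS53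

end Claimed.Agent.R275
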