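/-
Row 275, Sec 5.4 (helper46): every tracked parameter is `≤ h_*`, hence `α(h) ≥ α_*`.  Imports Params only.
`s54n_alpha_ge` has exactly the statement of `s51_alpha_ge` (S51Br.lean).
-/
import Claimed.Agent.R275.Params

set_option autoImplicit false

namespace Claimed.Agent.R275

open Filter

theorem s54n_rhoQ_nonneg (d n : ℕ) : 0 ≤ rhoQ d n := by
  unfold rhoQ
  positivity

/-- every tracked parameter is `≤ h_*`. -/
theorem s54n_tracked_le (d : ℕ) (hd : 3 ≤ d) (cp : ℚ) (hcp : 0 < cp) (hcp' : cp ≤ 1 / 4) :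
    ∀ᶠ n : ℕ in atTop, ∀ h ∈ trackedList d n cp, h ≤ prim d n 0 := by
  obtain ⟨hr1, hr2⟩ := parF_sqrtq d hd
  have hd' : (3 : ℝ) ≤ (d : ℝ) := by exact_mod_cast hd
  have hr0 : 0 < Real.sqrt ((d : ℝ) - 1) := by linarith
  filter_upwards [tracked_range d hd cp hcp hcp'] with n hrange
  have hδ0 := parF_delta0_pos d hd n
  have hρ := s54n_rhoQ_nonneg d n
  have hprim : ∀ j : ℕ, prim d n j ≤ prim d n 0 := by
    intro j
    unfold prim
    refine mul_le_mul_of_nonneg_left ?_ hρ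
    have h1 : (1 : ℚ) ≤ 2 ^ j := one_le_pow₀ (by norm_num)
    rw [pow_zero]
    nlinarith
  -- `α ≥ 0` at the primaries of the list
  have hα : ∀ j : ℕ, j < Nprim d n cp + 1 → 0 ≤ alphaf d (prim d n j) := by
    intro j hj
    have hmem : prim d n j ∈ trackedList d n cp := by
      unfold trackedList primList
      rw [List.mem_append, List.mem_append]
      exact Or.inl (Or.inl (List.mem_map.2 ⟨j, List.mem_range.2 hj, rfl⟩))
    obtain ⟨h1, h2⟩ := hrange _ hmem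
    have h3 : (0 : ℝ) ≤ ((alphaf d (prim d n j) : ℚ) : ℝ) := by
      rw [parF_alphaf_real]
      have h4 : 0 < ((prim d n j : ℚ) : ℝ) := lt_of_lt_of_le (by positivity) h1
      rw [lt_div_iff₀ hr0] at h2
      have h5 : (((prim d n j : ℚ) : ℝ) * Real.sqrt ((d : ℝ) - 1)) ^ 2 ≤ 1 := by
        have h6 : 0 ≤ ((prim d n j : ℚ) : ℝ) * Real.sqrt ((d : ℝ) - 1) := by positivity
        nlinarith
      rw [mul_pow, hr2] at h5
      linarith
    exact_mod_cast h3
  intro h hh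
  unfold trackedList primList at hh
  rw [List.mem_append, List.mem_append] at hh
  rcases hh with (hh | hh) | hh
  · obtain ⟨j, -, rfl⟩ := List.mem_map.1 hh
    exact hprim j
  · obtain ⟨j, hj, rfl⟩ := List.mem_map.1 hh
    have h1 := hα j (List.mem_range.1 hj)
    have h2 := (scQ_pos (-(16 / 100) * aa) n).le
    have h3 := hprim j
    unfold aux1
    nlinarith [mul_nonneg h2 h1]
  · obtain ⟨i, -, rfl⟩ := List.mem_map.1 hh
    have h1 := hα 0 (by omega)
    have h2 := (scQ_pos (-(3 / 100) * aa) n).le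
    unfold aux2 bh
    have h3 : (0 : ℚ) ≤ ((i + 1 : ℕ) : ℚ) := Nat.cast_nonneg _
    nlinarith [mul_nonneg h3 (mul_nonneg h2 h1)]

/-- `α(h) ≥ α_*` and `α(h) ≤ 1` at every tracked parameter; `α_* > 0`  (same statement as `s51_alpha_ge`). -/
theorem s54n_alpha_ge (d : ℕ) (hd : 3 ≤ d) (cp : ℚ) (hcp : 0 < cp) (hcp' : cp ≤ 1 / 4) :
    ∀ᶠ n : ℕ in atTop, 0 < alphaS d n ∧ ∀ h ∈ trackedList d n cp,
      alphaS d n ≤ alphaf d ((h : ℚ) : ℝ) ∧ alphaf d ((h : ℚ) : ℝ) ≤ 1 := by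
  have hd' : (3 : ℝ) ≤ (d : ℝ) := by exact_mod_cast hd
  filter_upwards [tracked_range d hd cp hcp hcp', s54n_tracked_le d hd cp hcp hcp', prim_zero_facts d hd,
    eventually_ge_atTop 1] with n hrange hle hzero hn
  have hn0 : (0 : ℝ) < (n : ℝ) := by exact_mod_cast hn
  refine ⟨lt_of_lt_of_le (div_pos (Real.rpow_pos_of_pos hn0 _) (by linarith)) hzero.2.2.1, ?_⟩
  intro h hh
  obtain ⟨h1, -⟩ := hrange h hh
  have h0 : 0 ≤ ((h : ℚ) : ℝ) := le_trans (by positivity) h1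
  have h2 : ((h : ℚ) : ℝ) ≤ ((prim d n 0 : ℚ) : ℝ) := by exact_mod_cast hle h hh
  unfold alphaS
  rw [parF_alphaf_real]
  unfold alphaf
  constructor
  · have h3 : ((h : ℚ) : ℝ) ^ 2 ≤ ((prim d n 0 : ℚ) : ℝ) ^ 2 := pow_le_pow_left₀ h0 h2 2
    nlinarith
  · nlinarith [sq_nonneg ((h : ℚ) : ℝ)]

end Claimed.Agent.R275
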