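import Claimed.Agent.R275.S5Cur
import Claimed.Agent.R275.S54Alpha

/-!
# Row 275, Sec 5.4, package S5Acc (LAYERS D, E, F for the high-moment account): the contract `StS5Hi`

Owner of the statements: helper11.  NO paper.

`p = 2 p2`, `Be = √(s5BeSq n) ≍ n^{.31a}/√l₀`, `s = n^γ`.
* STEP (`s54_step`):  `s5_hi_step` (abstract, `C_*` independent of `p`) at `dd = d`, `CR = 4 d^{12}`, `R = s5R = 11`, hypotheses from `s5_cur_hi`, translation by `s5Zhi_eq`, `s5_avg_Zhi`,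
  numerics `s54_num`:  `C_p * s5HiErr ≤ n^{-δ} (1/l + √l₀/l^{3/2} + l₀/l²) + n^{-3/2}`.
  EXPONENTS (`l₀ ≍ n^{2/3+.15a}`, `α_* ≍ n^{-1/3+a/2}`, `q^L ≤ n^{2/3-.43a}`, `l₀ Be ≍ n^{1/3+.385a}`, `l₀ Be² ≍ n^{.62a}`):
    `n^{.075a}/α_* / (l₀ Be) = n^{-.81a}`, `n^{.125a}/α / (l₀ Be) ≤ n^{-.76a}`, `Q_a/(l₀ Be) = n^{η1-.60a}`, `1/(√l₀ Be) = n^{-.31a}`,
    `s^{p-3} n^{η}/(l₀ Be²) = n^{γ(p-3)+η-.62a}`, `ρ = C (d_m² + B_t)/Be ≤ n^{-.009a}`, so `ρ^p ≤ n^{-2}` if `.009 a p ≥ 2`; `εs^p = n^{-cp} ≤ n^{-2}` if `c p ≥ 2`.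
* BUDGET: `s5_acct_of_std` with `A = C_*`: discount loss `2 n^{C_*}`.
* EXTRACTION (`s54_extract`): `z_ab^p ≤ (n d)² Z` (`s5_hi_extract`), `Z ≤ 2 n^{ηK + C_*}`, `(3 + ηK + C_*)/p ≤ .02a`, `Be ≤ n^{.31a}/√l₀`.
-/

set_option autoImplicit false

namespace Claimed.Agent.R275

open Matrix Finset Filter

/-- `B_e` -/
noncomputable def s5Be (n : ℕ) : ℝ := Real.sqrt ((s5BeSq n : ℚ) : ℝ)

/-! ### numerics: helper lemmas (helper46) -/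

theorem s54n_l0_pos (n : ℕ) : 0 < l0 n := by
  unfold l0 scN
  positivity

/-- `n^{2x} = (n^x)²` -/
theorem s54n_rpow_sq (N x : ℝ) (hN : 0 < N) : (N ^ x) ^ 2 = N ^ (2 * x) := by
  rw [← Real.rpow_natCast, ← Real.rpow_mul hN.le]
  congr 1
  push_cast
  ring

theorem s54n_BeSq_real (n : ℕ) :
    ((s5BeSq n : ℚ) : ℝ) = ((scQ (62 / 100 * aa) n : ℚ) : ℝ) / (l0 n : ℝ) := by
  unfold s5BeSq
  push_cast
  rfl

/-- `n^{.62a}/4 ≤ scQ(.62a) ≤ n^{.62a}` -/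
theorem s54n_sc62 (n : ℕ) (hn : 1 ≤ n) :
    (n : ℝ) ^ ((62 / 100 : ℝ) * (aa : ℝ)) / 4 ≤ ((scQ (62 / 100 * aa) n : ℚ) : ℝ) ∧
      ((scQ (62 / 100 * aa) n : ℚ) : ℝ) ≤ (n : ℝ) ^ ((62 / 100 : ℝ) * (aa : ℝ)) := by
  have hx : (0 : ℚ) ≤ 62 / 100 * aa := by norm_num [aa]
  have e : (((62 / 100 * aa : ℚ)) : ℝ) = (62 / 100 : ℝ) * (aa : ℝ) := by push_cast; ring
  have h1 := le_scQ_of_nonneg _ hx n hn
  have h2 := scQ_le_of_nonneg _ hx n hn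
  rw [e] at h1 h2
  have h4 := s43w_two_rpow_le ((62 / 100 : ℝ) * (aa : ℝ)) (by rw [parF_aa]; norm_num)
  have hN : 0 ≤ (n : ℝ) ^ ((62 / 100 : ℝ) * (aa : ℝ)) := by positivity
  have h3 : (n : ℝ) ^ ((62 / 100 : ℝ) * (aa : ℝ)) / 4 ≤
      (n : ℝ) ^ ((62 / 100 : ℝ) * (aa : ℝ)) / 2 ^ (((62 / 100 : ℝ) * (aa : ℝ)) + 1) :=
    div_le_div_of_nonneg_left hN (by positivity) h4
  exact ⟨h3.trans h1, h2⟩

theorem s5Be_facts (n : ℕ) (hn : 1 ≤ n) :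
    0 < s5Be n ∧ s5Be n ^ 2 = ((s5BeSq n : ℚ) : ℝ) ∧
      s5Be n ≤ (n : ℝ) ^ ((31 / 100 : ℝ) * (aa : ℝ)) / Real.sqrt (l0 n) ∧
      (n : ℝ) ^ ((31 / 100 : ℝ) * (aa : ℝ)) / Real.sqrt (l0 n) ≤ 2 * s5Be n := by
  have hn0 : (0 : ℝ) < (n : ℝ) := by exact_mod_cast hn
  have hl0 : (0 : ℝ) < (l0 n : ℝ) := by exact_mod_cast s54n_l0_pos n
  have hsl : 0 < Real.sqrt (l0 n) := Real.sqrt_pos.2 hl0
  obtain ⟨h1, h2⟩ := s54n_sc62 n hn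
  have hS0 : (0 : ℝ) < ((scQ (62 / 100 * aa) n : ℚ) : ℝ) := by exact_mod_cast scQ_pos _ n
  have hB0 : (0 : ℝ) < ((s5BeSq n : ℚ) : ℝ) := by
    rw [s54n_BeSq_real]
    positivity
  have hsq : ((n : ℝ) ^ ((31 / 100 : ℝ) * (aa : ℝ))) ^ 2 = (n : ℝ) ^ ((62 / 100 : ℝ) * (aa : ℝ)) := by
    rw [s54n_rpow_sq _ _ hn0]
    congr 1
    ring
  have hN31 : 0 < (n : ℝ) ^ ((31 / 100 : ℝ) * (aa : ℝ)) := Real.rpow_pos_of_pos hn0 _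
  have hBe : s5Be n = Real.sqrt ((scQ (62 / 100 * aa) n : ℚ) : ℝ) / Real.sqrt (l0 n) := by
    unfold s5Be
    rw [s54n_BeSq_real, Real.sqrt_div hS0.le]
  refine ⟨Real.sqrt_pos.2 hB0, Real.sq_sqrt hB0.le, ?_, ?_⟩
  · rw [hBe]
    refine div_le_div_of_nonneg_right ?_ hsl.le
    rw [Real.sqrt_le_left hN31.le, hsq]
    exact h2
  · rw [hBe, ← mul_div_assoc]
    refine div_le_div_of_nonneg_right ?_ hsl.le
    have h3 : (n : ℝ) ^ ((31 / 100 : ℝ) * (aa : ℝ)) / 2 ≤ Real.sqrt ((scQ (62 / 100 * aa) n : ℚ) : ℝ) := by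
      apply Real.le_sqrt_of_sq_le
      rw [div_pow, hsq]
      refine le_trans (le_of_eq ?_) h1
      norm_num
    linarith

/-- the four lower bounds for products of `l₀` and `B_e`. -/
theorem s54n_scales (n : ℕ) (hn : 1 ≤ n) :
    (n : ℝ) ^ (1 / 3 + 75 / 1000 * (aa : ℝ)) / 2 ≤ Real.sqrt (l0 n) ∧
    (n : ℝ) ^ ((31 / 100 : ℝ) * (aa : ℝ)) / 2 ≤ Real.sqrt (l0 n) * s5Be n ∧
    (n : ℝ) ^ ((62 / 100 : ℝ) * (aa : ℝ)) / 4 ≤ (l0 n : ℝ) * s5Be n ^ 2 ∧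
    (n : ℝ) ^ (1 / 3 + 385 / 1000 * (aa : ℝ)) / 4 ≤ (l0 n : ℝ) * s5Be n := by
  have hn0 : (0 : ℝ) < (n : ℝ) := by exact_mod_cast hn
  have hl0 : (0 : ℝ) < (l0 n : ℝ) := by exact_mod_cast s54n_l0_pos n
  have hsl : 0 < Real.sqrt (l0 n) := Real.sqrt_pos.2 hl0
  obtain ⟨hB0, hB2, -, hB4⟩ := s5Be_facts n hn
  have h1 : (n : ℝ) ^ (1 / 3 + 75 / 1000 * (aa : ℝ)) / 2 ≤ Real.sqrt (l0 n) := by
    apply Real.le_sqrt_of_sq_le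
    rw [div_pow, s54n_rpow_sq _ _ hn0]
    have h := (s43w_l0 n hn).1
    have e : 2 * (1 / 3 + 75 / 1000 * (aa : ℝ)) = 2 / 3 + 15 / 100 * (aa : ℝ) := by ring
    rw [e]
    have hp : 0 < (n : ℝ) ^ (2 / 3 + 15 / 100 * (aa : ℝ)) := Real.rpow_pos_of_pos hn0 _
    linarith
  have h2 : (n : ℝ) ^ ((31 / 100 : ℝ) * (aa : ℝ)) / 2 ≤ Real.sqrt (l0 n) * s5Be n := by
    rw [div_le_iff₀ hsl] at hB4
    linarith
  refine ⟨h1, h2, ?_, ?_⟩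
  · rw [hB2, s54n_BeSq_real, mul_div_cancel₀ _ hl0.ne']
    exact (s54n_sc62 n hn).1
  · have e1 : (l0 n : ℝ) * s5Be n = Real.sqrt (l0 n) * (Real.sqrt (l0 n) * s5Be n) := by
      rw [← mul_assoc, Real.mul_self_sqrt hl0.le]
    have e2 : (n : ℝ) ^ (1 / 3 + 385 / 1000 * (aa : ℝ)) / 4
        = ((n : ℝ) ^ (1 / 3 + 75 / 1000 * (aa : ℝ)) / 2) * ((n : ℝ) ^ ((31 / 100 : ℝ) * (aa : ℝ)) / 2) := by
      rw [div_mul_div_comm, ← Real.rpow_add hn0]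
      congr 2
      · ring
      · norm_num
    rw [e1, e2]
    exact mul_le_mul h1 h2 (by positivity) hsl.le

/-- `n^e/α ≤ 16 q n^{1/3-.115a}` for `e ≤ .385a`, `α ≥ α_*`. -/
theorem s54n_div_alpha (d : ℕ) (hd : 3 ≤ d) (n : ℕ) (hn : 1 ≤ n) (αs α e : ℝ)
    (h1 : (n : ℝ) ^ (-(1 / 3 : ℝ) + (aa : ℝ) / 2) / (16 * ((d : ℝ) - 1)) ≤ αs) (h2 : αs ≤ α)
    (he : e ≤ 385 / 1000 * (aa : ℝ)) :
    (n : ℝ) ^ e / α ≤ 16 * ((d : ℝ) - 1) * (n : ℝ) ^ (1 / 3 - 115 / 1000 * (aa : ℝ)) := by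
  have hd' : (3 : ℝ) ≤ (d : ℝ) := by exact_mod_cast hd
  have hn1 : (1 : ℝ) ≤ (n : ℝ) := by exact_mod_cast hn
  have hn0 : (0 : ℝ) < (n : ℝ) := by linarith
  have hq : 0 < 16 * ((d : ℝ) - 1) := by linarith
  have h3 : 0 < (n : ℝ) ^ (-(1 / 3 : ℝ) + (aa : ℝ) / 2) / (16 * ((d : ℝ) - 1)) :=
    div_pos (Real.rpow_pos_of_pos hn0 _) hq
  have hα : 0 < α := by linarith
  rw [div_le_iff₀ hα]
  have hE : 0 < (n : ℝ) ^ (1 / 3 - 115 / 1000 * (aa : ℝ)) := Real.rpow_pos_of_pos hn0 _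
  calc (n : ℝ) ^ e ≤ (n : ℝ) ^ (385 / 1000 * (aa : ℝ)) := Real.rpow_le_rpow_of_exponent_le hn1 he
    _ = 16 * ((d : ℝ) - 1) * (n : ℝ) ^ (1 / 3 - 115 / 1000 * (aa : ℝ)) *
        ((n : ℝ) ^ (-(1 / 3 : ℝ) + (aa : ℝ) / 2) / (16 * ((d : ℝ) - 1))) := by
        rw [mul_div_assoc', mul_assoc, ← Real.rpow_add hn0, mul_div_cancel_left₀ _ hq.ne']
        congr 1
        ring
    _ ≤ _ := mul_le_mul_of_nonneg_left (h1.trans h2) (by positivity)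

/-- `√q^L ≤ n^{1/3-.215a}` -/
theorem s54n_sqrtq_pow (d : ℕ) (hd : 3 ≤ d) (n : ℕ) (hn : 1 ≤ n) :
    Real.sqrt ((d : ℝ) - 1) ^ Lcut d n ≤ (n : ℝ) ^ (1 / 3 - 215 / 1000 * (aa : ℝ)) := by
  have hd' : (3 : ℝ) ≤ (d : ℝ) := by exact_mod_cast hd
  have hn0 : (0 : ℝ) < (n : ℝ) := by exact_mod_cast hn
  have hq : (0 : ℝ) ≤ (d : ℝ) - 1 := by linarith
  rw [Real.sqrt_eq_rpow, s43w_rpow_pow _ hq]
  calc (((d : ℝ) - 1) ^ Lcut d n) ^ (1 / 2 : ℝ)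
      ≤ ((n : ℝ) ^ (2 / 3 - 43 / 100 * (aa : ℝ))) ^ (1 / 2 : ℝ) :=
        Real.rpow_le_rpow (by positivity) (s43w_qL d hd n hn).1 (by norm_num)
    _ = _ := by
        rw [← Real.rpow_mul hn0.le]
        congr 1
        ring

theorem s54n_Dg_le (d : ℕ) (hd : 3 ≤ d) (n : ℕ) (hn : 1 ≤ n) :
    (s42Dg d n : ℝ) ≤ 2 * (d : ℝ) ^ 2 * (n : ℝ) ^ (2 / 1000 * (aa : ℝ)) := by
  have hq : ((d - 1 : ℕ) : ℝ) = (d : ℝ) - 1 := by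
    rw [Nat.cast_sub (by omega)]; norm_num
  unfold s42Dg
  push_cast
  rw [hq]
  exact mul_le_mul_of_nonneg_left (s43w_qg d hd n hn).1 (by positivity)

/-- the numerator `X` of the mean is `O(n^{1/3-.115a})`. -/
theorem s54n_X_le (d : ℕ) (hd : 3 ≤ d) (cp : ℚ) (hcp : 0 < cp) (hcp' : cp ≤ 1 / 4) (η1 η : ℝ)
    (hη1' : η1 ≤ (aa : ℝ) / 10) (hη' : η ≤ (aa : ℝ) / 10) :
    ∀ᶠ n : ℕ in atTop, ∀ h ∈ trackedList d n cp,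
      s5cX d n η1 η ((h : ℚ) : ℝ) ≤
        (48 * ((d : ℝ) - 1) + 2 * (d : ℝ) ^ 2 + 8) * (n : ℝ) ^ (1 / 3 - 115 / 1000 * (aa : ℝ)) := by
  have hE0 : (0 : ℝ) < 1 / 3 - 115 / 1000 * (aa : ℝ) := by rw [parF_aa]; norm_num
  filter_upwards [eventually_ge_atTop 1, s54n_alpha_ge d hd cp hcp hcp', prim_zero_facts d hd,
    s43w_master d hd (7 * (d : ℝ)) 3 0 _ hE0] with n hn hα hzero hZP h hh
  have hn1 : (1 : ℝ) ≤ (n : ℝ) := by exact_mod_cast hn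
  have hn0 : (0 : ℝ) < (n : ℝ) := by linarith
  have hmono : ∀ e : ℝ, e ≤ 1 / 3 - 115 / 1000 * (aa : ℝ) →
      (n : ℝ) ^ e ≤ (n : ℝ) ^ (1 / 3 - 115 / 1000 * (aa : ℝ)) :=
    fun e he => Real.rpow_le_rpow_of_exponent_le hn1 he
  have ha := parF_aa
  have t1 : s5ctr d n ≤ 16 * ((d : ℝ) - 1) * (n : ℝ) ^ (1 / 3 - 115 / 1000 * (aa : ℝ)) := by
    unfold s5ctr
    exact s54n_div_alpha d hd n hn _ _ _ hzero.2.2.1 le_rfl (by rw [ha]; norm_num)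
  have t2 : s5cZW d n ((h : ℚ) : ℝ) ≤ 32 * ((d : ℝ) - 1) * (n : ℝ) ^ (1 / 3 - 115 / 1000 * (aa : ℝ)) := by
    unfold s5cZW
    have := s54n_div_alpha d hd n hn _ _ ((125 / 1000 : ℝ) * (aa : ℝ)) hzero.2.2.1 (hα.2 h hh).1
      (by rw [ha]; norm_num)
    rw [mul_div_assoc]
    linarith
  have t3 : s5cZP d n ≤ (n : ℝ) ^ (1 / 3 - 115 / 1000 * (aa : ℝ)) := by
    unfold s5cZP
    rw [Real.rpow_zero, mul_one] at hZP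
    exact hZP
  have t4 : s5cQa d n η1 ≤ (n : ℝ) ^ (1 / 3 - 115 / 1000 * (aa : ℝ)) := by
    unfold s5cQa
    calc (n : ℝ) ^ η1 * Real.sqrt ((d : ℝ) - 1) ^ Lcut d n
        ≤ (n : ℝ) ^ η1 * (n : ℝ) ^ (1 / 3 - 215 / 1000 * (aa : ℝ)) :=
          mul_le_mul_of_nonneg_left (s54n_sqrtq_pow d hd n hn) (by positivity)
      _ = (n : ℝ) ^ (η1 + (1 / 3 - 215 / 1000 * (aa : ℝ))) := (Real.rpow_add hn0 _ _).symm
      _ ≤ _ := hmono _ (by linarith)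
  have t5 : (s42Dg d n : ℝ) ≤ 2 * (d : ℝ) ^ 2 * (n : ℝ) ^ (1 / 3 - 115 / 1000 * (aa : ℝ)) :=
    (s54n_Dg_le d hd n hn).trans
      (mul_le_mul_of_nonneg_left (hmono _ (by rw [ha]; norm_num)) (by positivity))
  have t6 : (n : ℝ) ^ η1 ≤ (n : ℝ) ^ (1 / 3 - 115 / 1000 * (aa : ℝ)) :=
    hmono _ (by rw [ha] at hη1' ⊢; linarith)
  have t7 : (n : ℝ) ^ η ≤ (n : ℝ) ^ (1 / 3 - 115 / 1000 * (aa : ℝ)) :=
    hmono _ (by rw [ha] at hη' ⊢; linarith)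
  have t8 : (1 : ℝ) ≤ (n : ℝ) ^ (1 / 3 - 115 / 1000 * (aa : ℝ)) := Real.one_le_rpow hn1 hE0.le
  unfold s5cX
  linarith

/-- the column constant is `≤ n^{1/10}`. -/
theorem s54n_col_le (d : ℕ) (hd : 3 ≤ d) (C0 : ℝ) (hC0 : 0 ≤ C0) :
    ∀ᶠ n : ℕ in atTop, 0 ≤ s5cCol d n C0 ∧ s5cCol d n C0 ≤ (n : ℝ) ^ (1 / 10 : ℝ) := by
  filter_upwards [s43w_master d hd (72 * (1 + (d : ℝ))) 6 0 (1 / 10) (by norm_num),
    parF_ev_large (1 / 10) (by norm_num) (2 * C0)] with n h1 h2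
  rw [Real.rpow_zero, mul_one] at h1
  unfold s5cCol
  constructor
  · positivity
  · linarith

/-- the residual is `≤ n^{-.009a}`. -/
theorem s54n_rho_le (C1 : ℝ) (hC1 : 0 ≤ C1) :
    ∀ᶠ n : ℕ in atTop, 0 ≤ s5cRho n C1 (s5Be n) ∧
      s5cRho n C1 (s5Be n) ≤ (n : ℝ) ^ (-((9 / 1000 : ℝ) * (aa : ℝ))) := by
  have ha := parF_aa
  filter_upwards [eventually_ge_atTop 1,
    parF_ev_large ((1 / 1000 : ℝ) * (aa : ℝ)) (by rw [ha]; norm_num) (6 * C1)] with n hn hbig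
  have hn1 : (1 : ℝ) ≤ (n : ℝ) := by exact_mod_cast hn
  have hn0 : (0 : ℝ) < (n : ℝ) := by linarith
  have hl0 : (0 : ℝ) < (l0 n : ℝ) := by exact_mod_cast s54n_l0_pos n
  have hsl : 0 < Real.sqrt (l0 n) := Real.sqrt_pos.2 hl0
  obtain ⟨hB0, -, -, -⟩ := s5Be_facts n hn
  obtain ⟨s1, s2, -, -⟩ := s54n_scales n hn
  unfold s5cRho s5cdm s5cBt
  constructor
  · positivity
  -- multiply by `√l₀`
  have e1 : C1 * (((n : ℝ) ^ ((33 / 100 : ℝ) * (aa : ℝ)) / Real.sqrt (l0 n)) ^ 2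
        + (n : ℝ) ^ ((30 / 100 : ℝ) * (aa : ℝ)) / Real.sqrt (l0 n)) / s5Be n
      = C1 * (((n : ℝ) ^ ((33 / 100 : ℝ) * (aa : ℝ))) ^ 2 / Real.sqrt (l0 n)
        + (n : ℝ) ^ ((30 / 100 : ℝ) * (aa : ℝ))) / (Real.sqrt (l0 n) * s5Be n) := by
    field_simp
  rw [e1, s54n_rpow_sq _ _ hn0, div_le_iff₀ (by positivity)]
  have h1 : (n : ℝ) ^ (2 * ((33 / 100 : ℝ) * (aa : ℝ))) / Real.sqrt (l0 n)
      ≤ 2 * (n : ℝ) ^ ((30 / 100 : ℝ) * (aa : ℝ)) := by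
    rw [div_le_iff₀ hsl]
    have h2 : (n : ℝ) ^ (2 * ((33 / 100 : ℝ) * (aa : ℝ)))
        ≤ (n : ℝ) ^ ((30 / 100 : ℝ) * (aa : ℝ)) * (n : ℝ) ^ (1 / 3 + 75 / 1000 * (aa : ℝ)) := by
      rw [← Real.rpow_add hn0]
      exact Real.rpow_le_rpow_of_exponent_le hn1 (by rw [ha]; norm_num)
    have h3 : 0 < (n : ℝ) ^ ((30 / 100 : ℝ) * (aa : ℝ)) := Real.rpow_pos_of_pos hn0 _
    nlinarith
  have h30 : 0 < (n : ℝ) ^ ((30 / 100 : ℝ) * (aa : ℝ)) := Real.rpow_pos_of_pos hn0 _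
  calc C1 * ((n : ℝ) ^ (2 * ((33 / 100 : ℝ) * (aa : ℝ))) / Real.sqrt (l0 n)
        + (n : ℝ) ^ ((30 / 100 : ℝ) * (aa : ℝ)))
      ≤ C1 * (3 * (n : ℝ) ^ ((30 / 100 : ℝ) * (aa : ℝ))) :=
        mul_le_mul_of_nonneg_left (by linarith) hC1
    _ = (6 * C1) * (n : ℝ) ^ ((30 / 100 : ℝ) * (aa : ℝ)) / 2 := by ring
    _ ≤ (n : ℝ) ^ ((1 / 1000 : ℝ) * (aa : ℝ)) * (n : ℝ) ^ ((30 / 100 : ℝ) * (aa : ℝ)) / 2 := by
        have := mul_le_mul_of_nonneg_right hbig h30.le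
        linarith
    _ = (n : ℝ) ^ (-((9 / 1000 : ℝ) * (aa : ℝ))) * ((n : ℝ) ^ ((31 / 100 : ℝ) * (aa : ℝ)) / 2) := by
        rw [← Real.rpow_add hn0, mul_div_assoc', ← Real.rpow_add hn0]
        congr 2
        ring
    _ ≤ _ := mul_le_mul_of_nonneg_left s2 (by positivity)

/-- abstract assembly of the five estimates. -/
theorem s54n_assemble (Cp C1 X W S Ccol ρp εp Be lR sl L0 sL0 D T : ℝ)
    (hl : 0 < lR) (hsl : 0 < sl) (hBe : 0 < Be) (hD : 0 ≤ D)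
    (a1 : Cp * C1 * X ≤ D / 3 * (L0 * Be))
    (a2 : Cp * S * C1 * W ≤ D / 3 * (L0 * Be ^ 2))
    (a3 : Cp * Ccol ^ 2 ≤ D / 3 * L0)
    (b : Cp * C1 ≤ D * (sL0 * Be))
    (c : Cp * (ρp + εp) ≤ T) :
    Cp * (C1 * (X / lR ^ 2 + 1 / (lR * sl)) / Be + S * (C1 * W / (lR ^ 2 * Be ^ 2)) + Ccol ^ 2 / lR ^ 2
        + ρp + εp)
      ≤ D * (1 / lR + sL0 / (lR * sl) + L0 / lR ^ 2) + T := by
  have e : Cp * (C1 * (X / lR ^ 2 + 1 / (lR * sl)) / Be + S * (C1 * W / (lR ^ 2 * Be ^ 2)) + Ccol ^ 2 / lR ^ 2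
        + ρp + εp)
      = (Cp * C1 * X / Be + Cp * S * C1 * W / Be ^ 2 + Cp * Ccol ^ 2) / lR ^ 2 + (Cp * C1 / Be) / (lR * sl)
        + Cp * (ρp + εp) := by
    field_simp
    ring
  rw [e]
  have a1' : Cp * C1 * X / Be ≤ D / 3 * L0 := by
    rw [div_le_iff₀ hBe]
    linarith
  have a2' : Cp * S * C1 * W / Be ^ 2 ≤ D / 3 * L0 := by
    rw [div_le_iff₀ (by positivity)]
    linarith
  have b' : Cp * C1 / Be ≤ D * sL0 := by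
    rw [div_le_iff₀ hBe]
    linarith
  have f1 : (Cp * C1 * X / Be + Cp * S * C1 * W / Be ^ 2 + Cp * Ccol ^ 2) / lR ^ 2 ≤ D * L0 / lR ^ 2 :=
    div_le_div_of_nonneg_right (by linarith) (by positivity)
  have f2 : (Cp * C1 / Be) / (lR * sl) ≤ D * sL0 / (lR * sl) :=
    div_le_div_of_nonneg_right b' (by positivity)
  have f3 : 0 ≤ D * (1 / lR) := by positivity
  have e2 : D * (1 / lR + sL0 / (lR * sl) + L0 / lR ^ 2)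
      = D * (1 / lR) + D * sL0 / (lR * sl) + D * L0 / lR ^ 2 := by ring
  rw [e2]
  linarith

/-- NUMERICS of the error coefficient -/
theorem s54_num (d : ℕ) (hd : 3 ≤ d) (cp : ℚ) (hcp : 0 < cp) (hcp' : cp ≤ 1 / 4) (C0 C1 Cp η1 η c : ℝ) (p : ℕ)
    (hC0 : 0 ≤ C0) (hC1 : 0 ≤ C1) (hCp : 0 ≤ Cp) (hp : 4 ≤ p) (hη1 : 0 ≤ η1) (hη1' : η1 ≤ (aa : ℝ) / 10) (hη : 0 ≤ η)
    (hη' : η ≤ (aa : ℝ) / 10) (hc : 2 ≤ c * p) (hρ : 2 ≤ (9 / 1000 : ℝ) * (aa : ℝ) * p) :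
    ∃ γ δ : ℝ, 0 < γ ∧ 0 < δ ∧ ∀ᶠ n : ℕ in atTop, (2 : ℝ) ^ p ≤ (n : ℝ) ^ γ ∧
      ∀ h ∈ trackedList d n cp, ∀ l : ℕ, l1 n ≤ l →
        Cp * s5HiErr p l (s5cCol d n C0) (s5cMu d n C1 η1 η ((h : ℚ) : ℝ) (s5Be n) l) (s5cV n C1 η1 η (s5Be n) l)
            (s5cRho n C1 (s5Be n)) ((n : ℝ) ^ (-c)) ((n : ℝ) ^ γ) ≤
          (n : ℝ) ^ (-δ) * (1 / (l : ℝ) + Real.sqrt (l0 n) / ((l : ℝ) * Real.sqrt l) + (l0 n : ℝ) / (l : ℝ) ^ 2)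
            + (n : ℝ) ^ (-(3 / 2 : ℝ)) := by
  have ha := parF_aa
  have ha0 : (0 : ℝ) < (aa : ℝ) := by rw [ha]; norm_num
  have hpR : (4 : ℝ) ≤ (p : ℝ) := by exact_mod_cast hp
  have hγ0 : 0 < (aa : ℝ) / (10 * (p : ℝ)) := by positivity
  refine ⟨(aa : ℝ) / (10 * (p : ℝ)), (aa : ℝ) / 10, hγ0, by positivity, ?_⟩
  filter_upwards [eventually_ge_atTop 1, parF_ev_large _ hγ0 ((2 : ℝ) ^ p),
    s54n_X_le d hd cp hcp hcp' η1 η hη1' hη', s54n_col_le d hd C0 hC0, s54n_rho_le C1 hC1,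
    parF_ev_large ((4 / 10 : ℝ) * (aa : ℝ)) (by positivity)
      (12 * Cp * C1 * (48 * ((d : ℝ) - 1) + 2 * (d : ℝ) ^ 2 + 8)),
    parF_ev_large ((32 / 100 : ℝ) * (aa : ℝ)) (by positivity) (36 * Cp * C1),
    parF_ev_large (1 / 3 : ℝ) (by norm_num) (6 * Cp),
    parF_ev_large ((21 / 100 : ℝ) * (aa : ℝ)) (by positivity) (2 * Cp * C1),
    parF_ev_large (1 / 2 : ℝ) (by norm_num) (2 * Cp)] with n hn h2p hX hcol hrho b1 b2 b3 b4 b5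
  refine ⟨h2p, ?_⟩
  intro h hh l hl
  have hn1 : (1 : ℝ) ≤ (n : ℝ) := by exact_mod_cast hn
  have hn0 : (0 : ℝ) < (n : ℝ) := by linarith
  have hl0' := s54n_l0_pos n
  have hlpos : 0 < l := by
    unfold l1 at hl
    omega
  have hlR : (0 : ℝ) < (l : ℝ) := by exact_mod_cast hlpos
  obtain ⟨hB0, -, -, -⟩ := s5Be_facts n hn
  obtain ⟨-, s2, s3, s4⟩ := s54n_scales n hn
  have hpos : ∀ e : ℝ, 0 < (n : ℝ) ^ e := fun e => Real.rpow_pos_of_pos hn0 e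
  have hCC : 0 ≤ Cp * C1 := mul_nonneg hCp hC1
  unfold s5HiErr s5cMu s5cV
  refine s54n_assemble Cp C1 _ _ _ _ _ _ _ _ _ _ _ _ _ hlR (Real.sqrt_pos.2 hlR) hB0 (hpos _).le ?_ ?_ ?_ ?_ ?_
  · -- mean, `1/l²` part
    calc Cp * C1 * s5cX d n η1 η ((h : ℚ) : ℝ)
        ≤ Cp * C1 * ((48 * ((d : ℝ) - 1) + 2 * (d : ℝ) ^ 2 + 8) * (n : ℝ) ^ (1 / 3 - 115 / 1000 * (aa : ℝ))) :=
          mul_le_mul_of_nonneg_left (hX h hh) hCC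
      _ = (12 * Cp * C1 * (48 * ((d : ℝ) - 1) + 2 * (d : ℝ) ^ 2 + 8)) *
            (n : ℝ) ^ (1 / 3 - 115 / 1000 * (aa : ℝ)) / 12 := by ring
      _ ≤ (n : ℝ) ^ ((4 / 10 : ℝ) * (aa : ℝ)) * (n : ℝ) ^ (1 / 3 - 115 / 1000 * (aa : ℝ)) / 12 := by
          have := mul_le_mul_of_nonneg_right b1 (hpos (1 / 3 - 115 / 1000 * (aa : ℝ))).le
          linarith
      _ = (n : ℝ) ^ (-((aa : ℝ) / 10)) / 3 * ((n : ℝ) ^ (1 / 3 + 385 / 1000 * (aa : ℝ)) / 4) := by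
          rw [← Real.rpow_add hn0, div_mul_div_comm, ← Real.rpow_add hn0]
          congr 2
          · ring
          · norm_num
      _ ≤ _ := mul_le_mul_of_nonneg_left s4 (by have := hpos (-((aa : ℝ) / 10)); positivity)
  · -- second moment
    have hS : ((n : ℝ) ^ ((aa : ℝ) / (10 * (p : ℝ)))) ^ (p - 3) ≤ (n : ℝ) ^ ((aa : ℝ) / 10) := by
      rw [← Real.rpow_natCast, ← Real.rpow_mul hn0.le]
      refine Real.rpow_le_rpow_of_exponent_le hn1 ?_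
      have h3 : ((p - 3 : ℕ) : ℝ) ≤ (p : ℝ) := by exact_mod_cast Nat.sub_le p 3
      calc (aa : ℝ) / (10 * (p : ℝ)) * ((p - 3 : ℕ) : ℝ) ≤ (aa : ℝ) / (10 * (p : ℝ)) * (p : ℝ) :=
            mul_le_mul_of_nonneg_left h3 hγ0.le
        _ = (aa : ℝ) / 10 := by field_simp
    have hW : (n : ℝ) ^ η1 + (n : ℝ) ^ η + 1 ≤ 3 * (n : ℝ) ^ ((aa : ℝ) / 10) := by
      have w1 := Real.rpow_le_rpow_of_exponent_le hn1 hη1'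
      have w2 := Real.rpow_le_rpow_of_exponent_le hn1 hη'
      have w3 : (1 : ℝ) ≤ (n : ℝ) ^ ((aa : ℝ) / 10) := Real.one_le_rpow hn1 (by positivity)
      linarith
    have hS0 : 0 ≤ ((n : ℝ) ^ ((aa : ℝ) / (10 * (p : ℝ)))) ^ (p - 3) := by
      have := hpos ((aa : ℝ) / (10 * (p : ℝ)))
      positivity
    have hW0 : 0 ≤ (n : ℝ) ^ η1 + (n : ℝ) ^ η + 1 := by
      have := hpos η1
      have := hpos η
      positivity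
    have hSW : ((n : ℝ) ^ ((aa : ℝ) / (10 * (p : ℝ)))) ^ (p - 3) * ((n : ℝ) ^ η1 + (n : ℝ) ^ η + 1)
        ≤ (n : ℝ) ^ ((aa : ℝ) / 10) * (3 * (n : ℝ) ^ ((aa : ℝ) / 10)) :=
      mul_le_mul hS hW hW0 (hpos _).le
    calc Cp * ((n : ℝ) ^ ((aa : ℝ) / (10 * (p : ℝ)))) ^ (p - 3) * C1 * ((n : ℝ) ^ η1 + (n : ℝ) ^ η + 1)
        = Cp * C1 * (((n : ℝ) ^ ((aa : ℝ) / (10 * (p : ℝ)))) ^ (p - 3) * ((n : ℝ) ^ η1 + (n : ℝ) ^ η + 1)) := by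
          ring
      _ ≤ Cp * C1 * ((n : ℝ) ^ ((aa : ℝ) / 10) * (3 * (n : ℝ) ^ ((aa : ℝ) / 10))) :=
          mul_le_mul_of_nonneg_left hSW hCC
      _ = (36 * Cp * C1) * ((n : ℝ) ^ ((aa : ℝ) / 10) * (n : ℝ) ^ ((aa : ℝ) / 10)) / 12 := by ring
      _ ≤ (n : ℝ) ^ ((32 / 100 : ℝ) * (aa : ℝ)) * ((n : ℝ) ^ ((aa : ℝ) / 10) * (n : ℝ) ^ ((aa : ℝ) / 10)) / 12 := by
          have := mul_le_mul_of_nonneg_right b2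
            (mul_pos (hpos ((aa : ℝ) / 10)) (hpos ((aa : ℝ) / 10))).le
          linarith
      _ = (n : ℝ) ^ (-((aa : ℝ) / 10)) / 3 * ((n : ℝ) ^ ((62 / 100 : ℝ) * (aa : ℝ)) / 4) := by
          rw [← Real.rpow_add hn0, ← Real.rpow_add hn0, div_mul_div_comm, ← Real.rpow_add hn0]
          congr 2
          · ring
          · norm_num
      _ ≤ _ := mul_le_mul_of_nonneg_left s3 (by have := hpos (-((aa : ℝ) / 10)); positivity)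
  · -- columns
    have hc2 : s5cCol d n C0 ^ 2 ≤ (n : ℝ) ^ (1 / 5 : ℝ) := by
      calc s5cCol d n C0 ^ 2 ≤ ((n : ℝ) ^ (1 / 10 : ℝ)) ^ 2 := pow_le_pow_left₀ hcol.1 hcol.2 2
        _ = _ := by
            rw [s54n_rpow_sq _ _ hn0]
            norm_num
    calc Cp * s5cCol d n C0 ^ 2 ≤ Cp * (n : ℝ) ^ (1 / 5 : ℝ) := mul_le_mul_of_nonneg_left hc2 hCp
      _ = (6 * Cp) * (n : ℝ) ^ (1 / 5 : ℝ) / 6 := by ring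
      _ ≤ (n : ℝ) ^ (1 / 3 : ℝ) * (n : ℝ) ^ (1 / 5 : ℝ) / 6 := by
          have := mul_le_mul_of_nonneg_right b3 (hpos (1 / 5 : ℝ)).le
          linarith
      _ ≤ (n : ℝ) ^ (-((aa : ℝ) / 10)) * (n : ℝ) ^ (2 / 3 + 15 / 100 * (aa : ℝ)) / 6 := by
          rw [← Real.rpow_add hn0, ← Real.rpow_add hn0]
          refine div_le_div_of_nonneg_right (Real.rpow_le_rpow_of_exponent_le hn1 ?_) (by norm_num)
          rw [ha]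
          norm_num
      _ = (n : ℝ) ^ (-((aa : ℝ) / 10)) / 3 * ((n : ℝ) ^ (2 / 3 + 15 / 100 * (aa : ℝ)) / 2) := by ring
      _ ≤ _ := mul_le_mul_of_nonneg_left (s43w_l0 n hn).1 (by have := hpos (-((aa : ℝ) / 10)); positivity)
  · -- mean, `1/l^{3/2}` part
    calc Cp * C1 = (2 * Cp * C1) / 2 := by ring
      _ ≤ (n : ℝ) ^ ((21 / 100 : ℝ) * (aa : ℝ)) / 2 := by linarith
      _ = (n : ℝ) ^ (-((aa : ℝ) / 10)) * ((n : ℝ) ^ ((31 / 100 : ℝ) * (aa : ℝ)) / 2) := by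
          rw [mul_div_assoc', ← Real.rpow_add hn0]
          congr 2
          ring
      _ ≤ _ := mul_le_mul_of_nonneg_left s2 (hpos _).le
  · -- pure powers
    have r1 : s5cRho n C1 (s5Be n) ^ p ≤ (n : ℝ) ^ (-2 : ℝ) := by
      calc s5cRho n C1 (s5Be n) ^ p ≤ ((n : ℝ) ^ (-((9 / 1000 : ℝ) * (aa : ℝ)))) ^ p :=
            pow_le_pow_left₀ hrho.1 hrho.2 p
        _ = (n : ℝ) ^ (-((9 / 1000 : ℝ) * (aa : ℝ)) * (p : ℝ)) := by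
            rw [← Real.rpow_natCast, ← Real.rpow_mul hn0.le]
        _ ≤ _ := Real.rpow_le_rpow_of_exponent_le hn1 (by linarith)
    have r2 : ((n : ℝ) ^ (-c)) ^ p ≤ (n : ℝ) ^ (-2 : ℝ) := by
      calc ((n : ℝ) ^ (-c)) ^ p = (n : ℝ) ^ (-c * (p : ℝ)) := by
            rw [← Real.rpow_natCast, ← Real.rpow_mul hn0.le]
        _ ≤ _ := Real.rpow_le_rpow_of_exponent_le hn1 (by linarith)
    calc Cp * (s5cRho n C1 (s5Be n) ^ p + ((n : ℝ) ^ (-c)) ^ p)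
        ≤ Cp * ((n : ℝ) ^ (-2 : ℝ) + (n : ℝ) ^ (-2 : ℝ)) := mul_le_mul_of_nonneg_left (by linarith) hCp
      _ = (2 * Cp) * (n : ℝ) ^ (-2 : ℝ) := by ring
      _ ≤ (n : ℝ) ^ (1 / 2 : ℝ) * (n : ℝ) ^ (-2 : ℝ) := mul_le_mul_of_nonneg_right b5 (hpos _).le
      _ = _ := by
          rw [← Real.rpow_add hn0]
          norm_num

/-- ONE STEP of the high-moment account at a current early state.  `Cstar` depends only on `d, cp, CR`. -/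
theorem s54_step (d : ℕ) (hd : 3 ≤ d) (cp : ℚ) (hcp : 0 < cp) (hcp' : cp ≤ 1 / 4) (CR : ℝ) : ∃ Cstar : ℝ, 0 < Cstar ∧
    ∀ p2 : ℕ, 2 ≤ p2 → ∃ kp0 : ℝ, 0 < kp0 ∧ ∀ P : S5Par, P.cp = cp → P.p2 = p2 → P.R = s5R → 0 < P.kp → (P.kp : ℝ) ≤ kp0 →
    ∀ (CM ηs η c cT : ℝ) (Rc : ℕ), 0 ≤ ηs → ηs < η → η ≤ (aa : ℝ) / 10 → 0 < c → c < (aa : ℝ) / 2000 →
      2 ≤ c * (2 * p2 : ℕ) → 2 ≤ (9 / 1000 : ℝ) * (aa : ℝ) * (2 * p2 : ℕ) →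
    ∃ δ : ℝ, 0 < δ ∧ ∀ᶠ n : ℕ in atTop, ∀ h ∈ trackedList d n cp, ∀ s : Bool, ∀ π : PPair n d,
      π.S5St P CM CR ηs η Rc cT → l1 n < π.l →
      avgOn (π.admSet (g0 d n)) (fun pr => s5Zv ℝ d n P (.hi h s) (π.resolve pr.1 pr.2)) ≤
        (1 + s5cStd n Cstar δ π.l) * s5Zv ℝ d n P (.hi h s) π := by
  have hdR : (1 : ℝ) ≤ (d : ℝ) := by
    have : 1 ≤ d := by omega
    exact_mod_cast this
  obtain ⟨C0, C1, hC0, hC1, Hcur⟩ := s5_cur_hi d hd cp hcp hcp' CR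
  have hCR4 : (1 : ℝ) ≤ 4 * (d : ℝ) ^ (s5R + 1) := by
    have := one_le_pow₀ hdR (n := s5R + 1)
    linarith
  obtain ⟨Cstar, hCs, Hstep⟩ := s5_hi_step (d : ℝ) C0 (4 * (d : ℝ) ^ (s5R + 1)) s5R hdR hC0 hCR4
  refine ⟨Cstar, hCs, fun p2 hp2 => ?_⟩
  obtain ⟨kp0, hkp0, _, Hkp⟩ := Hstep (2 * p2) (even_two_mul p2) (by omega)
  refine ⟨kp0, hkp0, fun P hPcp hPp2 hPR hkp hkple CM ηs η c cT Rc hηs hηsη hη hc0 hc hcp2 hρ => ?_⟩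
  have hkpR : (0 : ℝ) < (P.kp : ℝ) := by exact_mod_cast hkp
  obtain ⟨Cp, hCp, Habs⟩ := Hkp (P.kp : ℝ) hkpR hkple
  have hη0 : 0 ≤ η := hηs.trans hηsη.le
  obtain ⟨γ, δ, _, hδ, Hnum⟩ := s54_num d hd cp hcp hcp' C0 C1 Cp η η c (2 * p2) (by linarith) hC1.le hCp.le
    (by omega) hη0 hη hη0 hη hcp2 hρ
  refine ⟨δ, hδ, ?_⟩
  filter_upwards [Hcur P hPcp CM ηs η η c cT Rc hηs hηsη hη0 hc0 hc, Hnum, eventually_ge_atTop 1]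
    with n h1 h2 hn h hh s π hSt hl
  obtain ⟨hBe, hBe2, _, _⟩ := s5Be_facts n hn
  have H := h1 π hSt h hh s (s5Be n) hBe
  have K := Habs (Label n d) _ _ _ _ _ _ _ ((n : ℝ) ^ γ) _ _ _ _ _ H h2.1
  have hcard : (π.s5mom (Lcut d n) (sgn s) ((h : ℚ) : ℝ) (s5Be n)).S.card = π.l := π.s5_card_S
  rw [hcard] at K
  have hnum := h2.2 h hh π.l hl.le
  have hZ : s5Zv ℝ d n P (.hi h s) π
      = (π.s5mom (Lcut d n) (sgn s) ((h : ℚ) : ℝ) (s5Be n)).Z (2 * p2) s5R (P.kp : ℝ) := by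
    show π.s5Zhi P.p2 P.R ((P.kp : ℚ) : ℝ) (sgn s) ((h : ℚ) : ℝ) = _
    rw [hPp2, hPR]
    exact π.s5Zhi_eq p2 s5R _ _ _ _ hBe hBe2
  have hA : avgOn (π.admSet (g0 d n)) (fun pr => s5Zv ℝ d n P (.hi h s) (π.resolve pr.1 pr.2))
      = avgOn (π.s5Vd (g0 d n))
        (fun pr => (π.s5nxt (Lcut d n) (sgn s) ((h : ℚ) : ℝ) (s5Be n) pr).Z (2 * p2) s5R (P.kp : ℝ)) := by
    show avgOn (π.admSet (g0 d n))
      (fun pr => (π.resolve pr.1 pr.2).s5Zhi P.p2 P.R ((P.kp : ℚ) : ℝ) (sgn s) ((h : ℚ) : ℝ)) = _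
    rw [hPp2, hPR]
    exact π.s5_avg_Zhi (g0 d n) p2 s5R _ _ _ _ hBe hBe2
  have hZ0 : 0 ≤ (π.s5mom (Lcut d n) (sgn s) ((h : ℚ) : ℝ) (s5Be n)).Z (2 * p2) s5R (P.kp : ℝ) := by
    obtain ⟨hF, hN, _⟩ := s5_mom_facts H (2 * p2) (even_two_mul p2)
    unfold S5Mom.Z
    have : 0 ≤ ∑ k ∈ range (s5R + 1), (P.kp : ℝ) ^ (k + 1)
        * (π.s5mom (Lcut d n) (sgn s) ((h : ℚ) : ℝ) (s5Be n)).N (2 * p2) k :=
      Finset.sum_nonneg fun k _ => mul_nonneg (pow_nonneg hkpR.le _) (hN k)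
    linarith
  rw [hA, hZ]
  refine K.trans (mul_le_mul_of_nonneg_right ?_ hZ0)
  unfold s5cStd
  linarith

/-- EXTRACTION of the entry cap -/
theorem s54_extract (d : ℕ) (hd : 3 ≤ d) (P : S5Par) (hkp : 0 ≤ P.kp) (hp2 : 1 ≤ P.p2) (ηK Bhi : ℝ)
    (hB : 3 + ηK + Bhi ≤ (2 / 100 : ℝ) * (aa : ℝ) * (2 * P.p2 : ℕ)) :
    ∀ᶠ n : ℕ in atTop, ∀ (h : ℚ) (s : Bool) (π' : PPair n d),
      s5Zv ℝ d n P (.hi h s) π' ≤ (n : ℝ) ^ ηK * (2 * (n : ℝ) ^ Bhi) →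
      ∀ a b : Label n d, π'.Alive a → π'.Alive b →
        |π'.Eent (Lcut d n) (sgn s) ((h : ℚ) : ℝ) a b| ≤ (n : ℝ) ^ ((33 / 100 : ℝ) * (aa : ℝ)) / Real.sqrt (l0 n) := by
  filter_upwards [eventually_ge_atTop 1, parF_ev_large 1 one_pos (2 * (d : ℝ) ^ 2)] with n hn hbig h s π' hZ a b ha hb
  have hn1 : (1 : ℝ) ≤ (n : ℝ) := by exact_mod_cast hn
  have hn0 : (0 : ℝ) < (n : ℝ) := by linarith
  have hd1 : (1 : ℝ) ≤ (d : ℝ) := by exact_mod_cast (by omega : 1 ≤ d)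
  have hl0 : (0 : ℝ) < (l0 n : ℝ) := by exact_mod_cast s54n_l0_pos n
  have hsl : 0 < Real.sqrt (l0 n) := Real.sqrt_pos.2 hl0
  obtain ⟨hB0, hB2, hB3, -⟩ := s5Be_facts n hn
  have hkp' : (0 : ℝ) ≤ ((P.kp : ℚ) : ℝ) := by exact_mod_cast hkp
  have hZ' : (π'.s5mom (Lcut d n) (sgn s) ((h : ℚ) : ℝ) (s5Be n)).Z (2 * P.p2) P.R ((P.kp : ℚ) : ℝ)
      ≤ (n : ℝ) ^ ηK * (2 * (n : ℝ) ^ Bhi) := by
    rw [← π'.s5Zhi_eq P.p2 P.R _ _ _ (s5Be n) hB0 hB2]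
    exact hZ
  have hS : ((π'.s5mom (Lcut d n) (sgn s) ((h : ℚ) : ℝ) (s5Be n)).S.card : ℝ) ≤ (n : ℝ) * (d : ℝ) := by
    show ((π'.s5S.card : ℕ) : ℝ) ≤ _
    rw [π'.s5_card_S]
    exact_mod_cast π'.l_parity.2
  have hG : ((π'.s5mom (Lcut d n) (sgn s) ((h : ℚ) : ℝ) (s5Be n)).G.card : ℝ) ≤ (n : ℝ) * (d : ℝ) := by
    show ((π'.s5G.card : ℕ) : ℝ) ≤ _
    rw [π'.s5_card_G]
    nlinarith
  have hex := s5_hi_extract (π'.s5mom (Lcut d n) (sgn s) ((h : ℚ) : ℝ) (s5Be n)) (2 * P.p2) P.R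
    (even_two_mul _) _ hkp' (a := a) (b := b) ((π'.s5_mem_union a).2 ha) ((π'.s5_mem_union b).2 hb)
    ((n : ℝ) * (d : ℝ)) hS hG
  have hz : (π'.s5mom (Lcut d n) (sgn s) ((h : ℚ) : ℝ) (s5Be n)).z a b
      = π'.Eent (Lcut d n) (sgn s) ((h : ℚ) : ℝ) a b / s5Be n := rfl
  rw [hz] at hex
  generalize π'.Eent (Lcut d n) (sgn s) ((h : ℚ) : ℝ) a b = E at hex ⊢
  generalize (π'.s5mom (Lcut d n) (sgn s) ((h : ℚ) : ℝ) (s5Be n)).Z (2 * P.p2) P.R ((P.kp : ℚ) : ℝ) = Z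
    at hex hZ'
  -- `(E/Be)^p ≤ (n^{.02a})^p`
  have hpow : |E / s5Be n| ^ (2 * P.p2) ≤ ((n : ℝ) ^ ((2 / 100 : ℝ) * (aa : ℝ))) ^ (2 * P.p2) := by
    rw [(even_two_mul P.p2).pow_abs]
    calc (E / s5Be n) ^ (2 * P.p2) ≤ ((n : ℝ) * (d : ℝ)) ^ 2 * Z := hex
      _ ≤ ((n : ℝ) * (d : ℝ)) ^ 2 * ((n : ℝ) ^ ηK * (2 * (n : ℝ) ^ Bhi)) :=
          mul_le_mul_of_nonneg_left hZ' (by positivity)
      _ = (2 * (d : ℝ) ^ 2) * ((n : ℝ) ^ (2 : ℝ) * ((n : ℝ) ^ ηK * (n : ℝ) ^ Bhi)) := by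
          rw [Real.rpow_two]
          ring
      _ ≤ (n : ℝ) ^ (1 : ℝ) * ((n : ℝ) ^ (2 : ℝ) * ((n : ℝ) ^ ηK * (n : ℝ) ^ Bhi)) :=
          mul_le_mul_of_nonneg_right hbig (by positivity)
      _ = (n : ℝ) ^ (3 + ηK + Bhi) := by
          rw [← Real.rpow_add hn0, ← Real.rpow_add hn0, ← Real.rpow_add hn0]
          congr 1
          ring
      _ ≤ (n : ℝ) ^ ((2 / 100 : ℝ) * (aa : ℝ) * (2 * P.p2 : ℕ)) := Real.rpow_le_rpow_of_exponent_le hn1 hB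
      _ = _ := by
          rw [Real.rpow_mul hn0.le, Real.rpow_natCast]
  have habs : |E / s5Be n| ≤ (n : ℝ) ^ ((2 / 100 : ℝ) * (aa : ℝ)) :=
    le_of_pow_le_pow_left₀ (by omega) (by positivity) hpow
  rw [abs_div, abs_of_pos hB0, div_le_iff₀ hB0] at habs
  calc |E| ≤ (n : ℝ) ^ ((2 / 100 : ℝ) * (aa : ℝ)) * s5Be n := habs
    _ ≤ (n : ℝ) ^ ((2 / 100 : ℝ) * (aa : ℝ)) * ((n : ℝ) ^ ((31 / 100 : ℝ) * (aa : ℝ)) / Real.sqrt (l0 n)) :=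
        mul_le_mul_of_nonneg_left hB3 (by positivity)
    _ = _ := by
        rw [mul_div_assoc', ← Real.rpow_add hn0]
        congr 2
        ring

/-- THE CONTRACT `StS5Hi` -/
theorem s54_contract (d : ℕ) (hd : 3 ≤ d) (cp : ℚ) (hcp : 0 < cp) (hcp' : cp ≤ 1 / 4) (CR : ℝ) : ∃ Cstar : ℝ, 0 < Cstar ∧
    ∀ p2 : ℕ, 2 ≤ p2 → ∃ kp0 : ℝ, 0 < kp0 ∧ ∀ P : S5Par, P.cp = cp → P.p2 = p2 → P.R = s5R → 0 < P.kp → (P.kp : ℝ) ≤ kp0 →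
    ∀ (CM ηs η cT ηK : ℝ) (Rc : ℕ), 0 ≤ ηs → ηs < η → η ≤ (aa : ℝ) / 10 →
      8000 ≤ (aa : ℝ) * (2 * p2 : ℕ) → 3 + ηK + Cstar ≤ (2 / 100 : ℝ) * (aa : ℝ) * (2 * p2 : ℕ) →
      StS5Hi d P CM CR ηs η Rc cT ηK Cstar := by
  obtain ⟨Cstar, hCs, Hstep⟩ := s54_step d hd cp hcp hcp' CR
  refine ⟨Cstar, hCs, fun p2 hp2 => ?_⟩
  obtain ⟨kp0, hkp0, Hkp⟩ := Hstep p2 hp2
  refine ⟨kp0, hkp0, fun P hPcp hPp2 hPR hkp hkple CM ηs η cT ηK Rc hηs hηsη hη hap hB => ?_⟩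
  have hpR : (0 : ℝ) < ((2 * p2 : ℕ) : ℝ) := by
    have : 0 < 2 * p2 := by omega
    exact_mod_cast this
  have hc0 : (0 : ℝ) < 2 / ((2 * p2 : ℕ) : ℝ) := by positivity
  have hc1 : 2 / ((2 * p2 : ℕ) : ℝ) < (aa : ℝ) / 2000 := by
    rw [div_lt_div_iff₀ hpR (by norm_num)]
    linarith
  have hc2 : 2 ≤ 2 / ((2 * p2 : ℕ) : ℝ) * ((2 * p2 : ℕ) : ℝ) := by
    rw [div_mul_cancel₀ _ hpR.ne']
  have hc3 : 2 ≤ (9 / 1000 : ℝ) * (aa : ℝ) * ((2 * p2 : ℕ) : ℝ) := by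
    rw [mul_assoc]
    linarith
  obtain ⟨δ, hδ, Hev⟩ := Hkp P hPcp hPp2 hPR hkp hkple CM ηs η (2 / ((2 * p2 : ℕ) : ℝ)) cT Rc hηs hηsη hη hc0 hc1
    hc2 hc3
  have hB' : 3 + ηK + Cstar ≤ (2 / 100 : ℝ) * (aa : ℝ) * ((2 * P.p2 : ℕ) : ℝ) := by
    rw [hPp2]
    exact hB
  unfold StS5Hi
  rw [hPcp]
  filter_upwards [Hev, s5_acct_of_std d hd Cstar δ hCs.le hδ,
    s54_extract d hd P hkp.le (by omega) ηK Cstar hB'] with n h1 h2 h3 h hh s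
  exact ⟨⟨_, h2 P _ (.hi h s) fun π hSt hl => h1 h hh s π hSt hl⟩, fun π' hZ => h3 h s π' hZ⟩

end Claimed.Agent.R275
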