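import Claimed.Agent.R275.TwoByTwo
import Claimed.Agent.R275.Maj

/-!
# Row 275, Sec 5 (early.tex), package S5Base: the abstract pair-averaging setting

Owner of the Sec 5 blueprint: helper11.  DESIGN (read before proving anything of Sec 5).

* LAYER A = exact identities: the increment of every statistic when `{u,v}` is resolved is an EXPLICIT function of `2 × 2` pair blocks
  of stub-space matrices and of two-entry arrays (on the objects of `Defs.lean`).
* LAYER B = abstract averaging estimates: `α` any type, `S : Finset α` the unresolved stubs, `l = S.card`,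
  `Vd ⊆ S.offDiag` the valid ordered pairs (`S5Valid`), matrices/arrays on `α` (only their values on `S` matter),
  all bounds are HYPOTHESES with explicit numbers; constants are bound as `∀ C0, ∃ C, ∀ data`.  No graph, no `n`, no asymptotics.
* LAYER C = "caps imply the hypotheses of layer B" (from the exports of Sec 4).   LAYER D = one-step inequality of every account.
* LAYER E = budgets (sums over `l`).   LAYER F = extraction.   Assembly with `Phase.invariant_run` of `Accounts.lean`.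

NO WORD EXPANSIONS (Lemma 5.4 of the paper is not used).  `H = Hgen l σ h D_p` of `TwoByTwo.lean` (closed form, `tb_first_order`,
`tb_second_order`, `tb_abs_le`) and the exact identity `H = H_0 - H_0 D_p H_0 + H_0 D_p H D_p H_0` (`s5_Hgen_second`).
-/

set_option autoImplicit false

namespace Claimed.Agent.R275

open Matrix Finset

/-- pair block of a stub-space matrix -/
def pblk {α K : Type*} (X : Matrix α α K) (u v : α) : Matrix (Fin 2) (Fin 2) K :=
  !![X u u, X u v; X v u, X v v]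

/-- two-entry array -/
def pvec {α K : Type*} (a : α → K) (u v : α) : Fin 2 → K := ![a u, a v]

/-- the valid ordered pairs: a symmetric subset of the ordered distinct pairs; every stub has at most `Dg` forbidden partners -/
structure S5Valid {α : Type*} [DecidableEq α] (S : Finset α) (Vd : Finset (α × α)) (Dg : ℕ) : Prop where
  sub : Vd ⊆ S.offDiag
  symm : ∀ u v, (u, v) ∈ Vd → (v, u) ∈ Vd
  forb : ∀ u ∈ S, ((S.erase u).filter fun v => (u, v) ∉ Vd).card ≤ Dg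

/-- valid pairs avoiding the labels in `X0` (survival of one or two stub outputs) -/
def s5Surv {α : Type*} [DecidableEq α] (Vd : Finset (α × α)) (X0 : Finset α) : Finset (α × α) :=
  Vd.filter fun p => p.1 ∉ X0 ∧ p.2 ∉ X0

/-- trace over `S` -/
def trS {α : Type*} (S : Finset α) (A : Matrix α α ℝ) : ℝ := ∑ x ∈ S, A x x

/-- `Tr (A C)` over `S` -/
def trS2 {α : Type*} (S : Finset α) (A C : Matrix α α ℝ) : ℝ := ∑ x ∈ S, ∑ y ∈ S, A x y * C y x

/-- rows and columns sum to zero over `S` -/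
def CenteredOn {α : Type*} (S : Finset α) (A : Matrix α α ℝ) : Prop :=
  (∀ x ∈ S, ∑ y ∈ S, A x y = 0) ∧ ∀ y ∈ S, ∑ x ∈ S, A x y = 0

/-- operator norm `≤ Z` of the compression to `S` (bilinear form) -/
def S5OpLE {α : Type*} (S : Finset α) (D : Matrix α α ℝ) (Z : ℝ) : Prop :=
  0 ≤ Z ∧ ∀ a c : α → ℝ, |∑ x ∈ S, ∑ y ∈ S, a x * D x y * c y| ≤
    Z * Real.sqrt (∑ x ∈ S, a x ^ 2) * Real.sqrt (∑ x ∈ S, c x ^ 2)

/-! ## 1. counting valid pairs -/

section count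

variable {α : Type} [DecidableEq α] {S : Finset α} {Vd : Finset (α × α)} {Dg : ℕ}

/-- sums over the forbidden pairs, by first coordinate -/
theorem s5c_sum_forb (S : Finset α) (Vd : Finset (α × α)) (g : α → α → ℝ) :
    ∑ p ∈ S.offDiag \ Vd, g p.1 p.2 =
      ∑ u ∈ S, ∑ v ∈ (S.erase u).filter (fun v => (u, v) ∉ Vd), g u v := by
  refine Finset.sum_finset_product' _ _ _ fun p => ?_
  simp only [Finset.mem_sdiff, Finset.mem_offDiag, Finset.mem_filter, Finset.mem_erase]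
  constructor
  · rintro ⟨⟨h1, h2, h3⟩, h4⟩
    exact ⟨h1, ⟨fun e => h3 e.symm, h2⟩, h4⟩
  · rintro ⟨h1, ⟨h3, h2⟩, h4⟩
    exact ⟨⟨h1, h2, fun e => h3 e.symm⟩, h4⟩

/-- the forbidden pairs are symmetric -/
theorem s5c_sum_forb_swap (hV : S5Valid S Vd Dg) (g : α → α → ℝ) :
    ∑ p ∈ S.offDiag \ Vd, g p.2 p.1 = ∑ p ∈ S.offDiag \ Vd, g p.1 p.2 := by
  refine Finset.sum_nbij' Prod.swap Prod.swap ?_ ?_ (fun _ _ => rfl) (fun _ _ => rfl) (fun _ _ => rfl)
  all_goals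
    intro p hp
    simp only [Finset.mem_sdiff, Finset.mem_offDiag, Prod.fst_swap, Prod.snd_swap] at hp ⊢
    exact ⟨⟨hp.1.2.1, hp.1.1, fun e => hp.1.2.2 e.symm⟩, fun h => hp.2 (hV.symm _ _ h)⟩

/-- one-endpoint sums over the forbidden pairs -/
theorem s5_sum_forb_one (hV : S5Valid S Vd Dg) (a : α → ℝ) (ha : ∀ x ∈ S, 0 ≤ a x) :
    ∑ p ∈ S.offDiag \ Vd, a p.1 ≤ Dg * ∑ x ∈ S, a x ∧
      ∑ p ∈ S.offDiag \ Vd, a p.2 ≤ Dg * ∑ x ∈ S, a x := by
  have h1 : ∑ p ∈ S.offDiag \ Vd, a p.1 ≤ Dg * ∑ x ∈ S, a x := by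
    rw [s5c_sum_forb S Vd fun u _ => a u, Finset.mul_sum]
    refine Finset.sum_le_sum fun u hu => ?_
    rw [Finset.sum_const, nsmul_eq_mul]
    exact mul_le_mul_of_nonneg_right (by exact_mod_cast hV.forb u hu) (ha u hu)
  exact ⟨h1, (s5c_sum_forb_swap hV fun u _ => a u).le.trans h1⟩

/-- number of forbidden ordered distinct pairs -/
theorem s5_card_forb (hV : S5Valid S Vd Dg) :
    ((S.offDiag \ Vd).card : ℝ) ≤ (S.card : ℝ) * Dg := by
  have := (s5_sum_forb_one hV (fun _ => 1) fun _ _ => zero_le_one).1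
  simp only [Finset.sum_const, nsmul_eq_mul, mul_one] at this
  rw [mul_comm]; exact this

omit [DecidableEq α] in
theorem s5c_card_offDiag (S : Finset α) : (S.offDiag.card : ℝ) = (S.card : ℝ) * ((S.card : ℝ) - 1) := by
  rw [Finset.offDiag_card, Nat.cast_sub (Nat.le_mul_self _)]
  push_cast; ring

theorem s5c_card_add (hV : S5Valid S Vd Dg) :
    ((S.offDiag \ Vd).card : ℝ) + (Vd.card : ℝ) = (S.card : ℝ) * ((S.card : ℝ) - 1) := by
  rw [← s5c_card_offDiag]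
  exact_mod_cast Finset.card_sdiff_add_card_eq_card hV.sub

theorem s5_card_valid (hV : S5Valid S Vd Dg) :
    (S.card : ℝ) * ((S.card : ℝ) - 1 - Dg) ≤ (Vd.card : ℝ) ∧
      (Vd.card : ℝ) ≤ (S.card : ℝ) * ((S.card : ℝ) - 1) := by
  have h1 := s5c_card_add hV
  have h2 := s5_card_forb hV
  have h3 : (0 : ℝ) ≤ ((S.offDiag \ Vd).card : ℝ) := Nat.cast_nonneg _
  constructor <;> nlinarith

theorem s5c_surv_sub (Vd : Finset (α × α)) (X0 : Finset α) : s5Surv Vd X0 ⊆ Vd :=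
  Finset.filter_subset _ _

theorem s5_card_surv (hV : S5Valid S Vd Dg) (X0 : Finset α) :
    (Vd.card : ℝ) - 2 * X0.card * S.card ≤ ((s5Surv Vd X0).card : ℝ) := by
  have hsub : Vd ⊆ s5Surv Vd X0 ∪ (X0 ×ˢ S ∪ S ×ˢ X0) := by
    intro p hp
    have hp' := Finset.mem_offDiag.1 (hV.sub hp)
    simp only [Finset.mem_union, Finset.mem_product, s5Surv, Finset.mem_filter]
    by_cases h1 : p.1 ∈ X0
    · exact Or.inr (Or.inl ⟨h1, hp'.2.1⟩)
    · by_cases h2 : p.2 ∈ X0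
      · exact Or.inr (Or.inr ⟨hp'.1, h2⟩)
      · exact Or.inl ⟨hp, h1, h2⟩
  have h1 := (Finset.card_le_card hsub).trans ((Finset.card_union_le _ _).trans
    (Nat.add_le_add_left (Finset.card_union_le _ _) _))
  rw [Finset.card_product, Finset.card_product] at h1
  have h2 : (Vd.card : ℝ) ≤ ((s5Surv Vd X0).card : ℝ) + ((X0.card : ℝ) * S.card + (S.card : ℝ) * X0.card) := by
    exact_mod_cast h1
  linarith

/-- number of valid pairs containing a given stub (deletion probability) -/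
theorem s5_card_hit (hV : S5Valid S Vd Dg) {x : α} (hx : x ∈ S) :
    2 * ((S.card : ℝ) - 1 - Dg) ≤ (Vd.card : ℝ) - ((s5Surv Vd {x}).card : ℝ) := by
  set G : Finset α := (S.erase x).filter fun v => (x, v) ∈ Vd with hG
  have hGcard : (S.card : ℝ) - 1 - Dg ≤ (G.card : ℝ) := by
    have h1 := Finset.card_filter_add_card_filter_not (s := S.erase x) (fun v => (x, v) ∈ Vd)
    rw [Finset.card_erase_of_mem hx, ← hG] at h1
    have h2 := hV.forb x hx
    have h3 : 1 ≤ S.card := Finset.card_pos.2 ⟨x, hx⟩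
    have h4 : S.card ≤ G.card + 1 + Dg := by omega
    have h5 : (S.card : ℝ) ≤ (G.card : ℝ) + 1 + Dg := by exact_mod_cast h4
    linarith
  have hdisj : Disjoint (G.image fun v => (x, v)) (G.image fun v => (v, x)) := by
    rw [Finset.disjoint_left]
    intro p hp1 hp2
    obtain ⟨v, hv, rfl⟩ := Finset.mem_image.1 hp1
    obtain ⟨w, hw, hwe⟩ := Finset.mem_image.1 hp2
    have e1 : w = x := congrArg Prod.fst hwe
    rw [e1] at hw
    exact (Finset.mem_erase.1 (Finset.mem_filter.1 hw).1).1 rfl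
  have hsub : (G.image fun v => (x, v)) ∪ (G.image fun v => (v, x)) ⊆ Vd \ s5Surv Vd {x} := by
    intro p hp
    rw [Finset.mem_sdiff]
    rcases Finset.mem_union.1 hp with h | h
    · obtain ⟨v, hv, rfl⟩ := Finset.mem_image.1 h
      refine ⟨(Finset.mem_filter.1 hv).2, fun hs => ?_⟩
      exact (Finset.mem_filter.1 hs).2.1 (Finset.mem_singleton_self _)
    · obtain ⟨v, hv, rfl⟩ := Finset.mem_image.1 h
      refine ⟨hV.symm _ _ (Finset.mem_filter.1 hv).2, fun hs => ?_⟩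
      exact (Finset.mem_filter.1 hs).2.2 (Finset.mem_singleton_self _)
  have h1 := Finset.card_le_card hsub
  rw [Finset.card_union_of_disjoint hdisj,
    Finset.card_image_of_injective _ (fun a b h => congrArg Prod.snd h),
    Finset.card_image_of_injective _ (fun a b h => congrArg Prod.fst h)] at h1
  have h2 := Finset.card_sdiff_add_card_eq_card (s5c_surv_sub Vd {x})
  have h3 : ((Vd \ s5Surv Vd {x}).card : ℝ) + ((s5Surv Vd {x}).card : ℝ) = (Vd.card : ℝ) := by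
    exact_mod_cast h2
  have h4 : (G.card : ℝ) + (G.card : ℝ) ≤ ((Vd \ s5Surv Vd {x}).card : ℝ) := by exact_mod_cast h1
  linarith

/-- `|Vd| ≥ l² / 2` -/
theorem s5_card_valid_half (hV : S5Valid S Vd Dg) (hl : 8 ≤ S.card) (hDg : 4 * Dg ≤ S.card) :
    (S.card : ℝ) ^ 2 / 2 ≤ (Vd.card : ℝ) := by
  have h1 := (s5_card_valid hV).1
  have h2 : (8 : ℝ) ≤ S.card := by exact_mod_cast hl
  have h3 : 4 * (Dg : ℝ) ≤ S.card := by exact_mod_cast hDg
  nlinarith

/-- `|Vd ∖ labels| ≥ l² / 4` for at most two labels -/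
theorem s5_card_surv_quarter (hV : S5Valid S Vd Dg) (hl : 32 ≤ S.card) (hDg : 4 * Dg ≤ S.card)
    (X0 : Finset α) (hX : X0.card ≤ 2) : (S.card : ℝ) ^ 2 / 4 ≤ ((s5Surv Vd X0).card : ℝ) := by
  have h1 := s5_card_valid_half hV (by omega) hDg
  have h2 := s5_card_surv hV X0
  have h3 : (32 : ℝ) ≤ S.card := by exact_mod_cast hl
  have h4 : (X0.card : ℝ) ≤ 2 := by exact_mod_cast hX
  nlinarith

theorem s5c_sum_surv_le (hV : S5Valid S Vd Dg) (X0 : Finset α) (f : α × α → ℝ)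
    (hf : ∀ p ∈ S.offDiag, 0 ≤ f p) : ∑ p ∈ s5Surv Vd X0, f p ≤ ∑ p ∈ S.offDiag, f p :=
  Finset.sum_le_sum_of_subset_of_nonneg ((s5c_surv_sub Vd X0).trans hV.sub) fun p hp _ => hf p hp

/-- nonnegative summands: restriction costs a bounded density factor -/
theorem s5_avg_le_of_nonneg (hV : S5Valid S Vd Dg) (hl : 32 ≤ S.card) (hDg : 4 * Dg ≤ S.card)
    (X0 : Finset α) (hX : X0.card ≤ 2) (f : α × α → ℝ) (hf : ∀ p ∈ S.offDiag, 0 ≤ f p) :
    avgOn (s5Surv Vd X0) f ≤ 4 / (S.card : ℝ) ^ 2 * ∑ p ∈ S.offDiag, f p := by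
  have h1 := s5_card_surv_quarter hV hl hDg X0 hX
  have h2 := s5c_sum_surv_le hV X0 f hf
  have h3 : (0 : ℝ) < S.card := by exact_mod_cast (show 0 < S.card by omega)
  have h0 : 0 ≤ ∑ p ∈ S.offDiag, f p := Finset.sum_nonneg hf
  have h4 : (0 : ℝ) < (S.card : ℝ) ^ 2 / 4 := by positivity
  unfold avgOn
  calc (∑ p ∈ s5Surv Vd X0, f p) / ((s5Surv Vd X0).card : ℝ)
      ≤ (∑ p ∈ S.offDiag, f p) / ((s5Surv Vd X0).card : ℝ) :=
        div_le_div_of_nonneg_right h2 (Nat.cast_nonneg _)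
    _ ≤ (∑ p ∈ S.offDiag, f p) / ((S.card : ℝ) ^ 2 / 4) := div_le_div_of_nonneg_left h0 h4 h1
    _ = 4 / (S.card : ℝ) ^ 2 * ∑ p ∈ S.offDiag, f p := by field_simp

/-- the same with the denominator `|Vd|` (this is the form in which survival enters an account) -/
theorem s5_sum_surv_le_of_nonneg (hV : S5Valid S Vd Dg) (hl : 8 ≤ S.card) (hDg : 4 * Dg ≤ S.card)
    (X0 : Finset α) (f : α × α → ℝ) (hf : ∀ p ∈ S.offDiag, 0 ≤ f p) :
    (∑ p ∈ s5Surv Vd X0, f p) / (Vd.card : ℝ) ≤ 2 / (S.card : ℝ) ^ 2 * ∑ p ∈ S.offDiag, f p := by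
  have h1 := s5_card_valid_half hV hl hDg
  have h2 := s5c_sum_surv_le hV X0 f hf
  have h3 : (0 : ℝ) < S.card := by exact_mod_cast (show 0 < S.card by omega)
  have h0 : 0 ≤ ∑ p ∈ S.offDiag, f p := Finset.sum_nonneg hf
  have h4 : (0 : ℝ) < (S.card : ℝ) ^ 2 / 2 := by positivity
  calc (∑ p ∈ s5Surv Vd X0, f p) / (Vd.card : ℝ)
      ≤ (∑ p ∈ S.offDiag, f p) / (Vd.card : ℝ) :=
        div_le_div_of_nonneg_right h2 (Nat.cast_nonneg _)
    _ ≤ (∑ p ∈ S.offDiag, f p) / ((S.card : ℝ) ^ 2 / 2) := div_le_div_of_nonneg_left h0 h4 h1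
    _ = 2 / (S.card : ℝ) ^ 2 * ∑ p ∈ S.offDiag, f p := by field_simp

/-- sharp density factor `1 + 4 (Dg + 4) / l` -/
theorem s5_avg_le_of_nonneg_sharp (hV : S5Valid S Vd Dg) (hl : 32 ≤ S.card) (hDg : 4 * Dg ≤ S.card)
    (X0 : Finset α) (hX : X0.card ≤ 2) (f : α × α → ℝ) (hf : ∀ p ∈ S.offDiag, 0 ≤ f p) :
    avgOn (s5Surv Vd X0) f ≤ (1 + 4 * ((Dg : ℝ) + 4) / S.card) * avgOn S.offDiag f := by
  have h1 := (s5_card_valid hV).1
  have h1' := s5_card_surv hV X0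
  have h2 := s5c_sum_surv_le hV X0 f hf
  have h3 : (32 : ℝ) ≤ S.card := by exact_mod_cast hl
  have h5 : 4 * (Dg : ℝ) ≤ S.card := by exact_mod_cast hDg
  have h6 : (X0.card : ℝ) ≤ 2 := by exact_mod_cast hX
  have hD0 : (0 : ℝ) ≤ Dg := Nat.cast_nonneg _
  have h0 : 0 ≤ ∑ p ∈ S.offDiag, f p := Finset.sum_nonneg hf
  set l : ℝ := (S.card : ℝ) with hl'
  have h7 : l * (l - 5 - Dg) ≤ ((s5Surv Vd X0).card : ℝ) := by nlinarith
  have h8 : 0 < l * (l - 5 - Dg) := by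
    have : 0 < l - 5 - Dg := by linarith
    have : 0 < l := by linarith
    positivity
  unfold avgOn
  rw [s5c_card_offDiag, ← hl']
  calc (∑ p ∈ s5Surv Vd X0, f p) / ((s5Surv Vd X0).card : ℝ)
      ≤ (∑ p ∈ S.offDiag, f p) / ((s5Surv Vd X0).card : ℝ) :=
        div_le_div_of_nonneg_right h2 (Nat.cast_nonneg _)
    _ ≤ (∑ p ∈ S.offDiag, f p) / (l * (l - 5 - Dg)) := div_le_div_of_nonneg_left h0 h8 h7
    _ ≤ (1 + 4 * ((Dg : ℝ) + 4) / l) * ((∑ p ∈ S.offDiag, f p) / (l * (l - 1))) := by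
        have hl0 : 0 < l := by linarith
        have hl1 : 0 < l - 1 := by linarith
        have hl5 : 0 < l - 5 - Dg := by linarith
        have key : 1 / (l * (l - 5 - Dg)) ≤ (1 + 4 * ((Dg : ℝ) + 4) / l) * (1 / (l * (l - 1))) := by
          rw [div_le_iff₀ h8]
          have e : (1 + 4 * ((Dg : ℝ) + 4) / l) * (1 / (l * (l - 1))) * (l * (l - 5 - Dg))
              = (l + 4 * ((Dg : ℝ) + 4)) * (l - 5 - Dg) / (l * (l - 1)) := by
            field_simp
          rw [e, le_div_iff₀ (by positivity)]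
          nlinarith
        calc (∑ p ∈ S.offDiag, f p) / (l * (l - 5 - Dg))
            = (∑ p ∈ S.offDiag, f p) * (1 / (l * (l - 5 - Dg))) := by ring
          _ ≤ (∑ p ∈ S.offDiag, f p) * ((1 + 4 * ((Dg : ℝ) + 4) / l) * (1 / (l * (l - 1)))) :=
              mul_le_mul_of_nonneg_left key h0
          _ = _ := by ring

/-- Schur test on the forbidden pairs -/
theorem s5_sum_forb_le (hV : S5Valid S Vd Dg) (a c : α → ℝ) :
    ∑ p ∈ S.offDiag \ Vd, |a p.1| * |c p.2| ≤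
      Dg * Real.sqrt (∑ x ∈ S, a x ^ 2) * Real.sqrt (∑ x ∈ S, c x ^ 2) := by
  have h1 := Real.sum_mul_le_sqrt_mul_sqrt (S.offDiag \ Vd) (fun p => |a p.1|) (fun p => |c p.2|)
  simp only [sq_abs] at h1
  have h2 := (s5_sum_forb_one hV (fun x => a x ^ 2) fun _ _ => sq_nonneg _).1
  have h3 := (s5_sum_forb_one hV (fun x => c x ^ 2) fun _ _ => sq_nonneg _).2
  have hD0 : (0 : ℝ) ≤ Dg := Nat.cast_nonneg _
  calc _ ≤ Real.sqrt (∑ p ∈ S.offDiag \ Vd, a p.1 ^ 2) * Real.sqrt (∑ p ∈ S.offDiag \ Vd, c p.2 ^ 2) := h1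
    _ ≤ Real.sqrt (Dg * ∑ x ∈ S, a x ^ 2) * Real.sqrt (Dg * ∑ x ∈ S, c x ^ 2) :=
        mul_le_mul (Real.sqrt_le_sqrt h2) (Real.sqrt_le_sqrt h3) (Real.sqrt_nonneg _) (Real.sqrt_nonneg _)
    _ = Dg * Real.sqrt (∑ x ∈ S, a x ^ 2) * Real.sqrt (∑ x ∈ S, c x ^ 2) := by
        rw [Real.sqrt_mul hD0, Real.sqrt_mul hD0]
        have := Real.mul_self_sqrt hD0
        calc _ = (Real.sqrt Dg * Real.sqrt Dg) * Real.sqrt (∑ x ∈ S, a x ^ 2)
              * Real.sqrt (∑ x ∈ S, c x ^ 2) := by ring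
          _ = _ := by rw [this]

end count

/-! ## 2. the `2 × 2` algebra (complements to `TwoByTwo.lean`) -/

section twobytwo

/-- entries of `H_0 = -σ h (F + J/(l-2))` -/
theorem s5H0_entries (l : ℕ) (σ h : ℝ) :
    H0 l σ h = !![-(σ * h) / ((l : ℝ) - 2), -(σ * h) * (1 + 1 / ((l : ℝ) - 2));
                  -(σ * h) * (1 + 1 / ((l : ℝ) - 2)), -(σ * h) / ((l : ℝ) - 2)] := by
  ext i j
  fin_cases i <;> fin_cases j <;>
    simp [H0, F2, B2, J2, Matrix.mul_apply, Fin.sum_univ_two, Matrix.one_apply] <;> ring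

/-- `H_0 G_0 = G_0 H_0 = -σ h F`, `H_0 G_0 H_0 = h² B` -/
theorem s5H0_G0 {l : ℕ} (hl : 2 < l) (σ h : ℝ) (hσ : σ ^ 2 = 1) :
    H0 l σ h * G0 ℝ l = -(σ * h) • F2 ℝ ∧ G0 ℝ l * H0 l σ h = -(σ * h) • F2 ℝ ∧
      H0 l σ h * G0 ℝ l * H0 l σ h = h ^ 2 • B2 ℝ l := by
  have h1 : ((l : ℝ) - 2) ≠ 0 := PPair.l_sub_two_ne ℝ hl
  have h0 : (l : ℝ) ≠ 0 := by
    have : (0 : ℝ) < l := by exact_mod_cast (by omega : 0 < l)
    exact this.ne'
  have e1 : H0 l σ h * G0 ℝ l = -(σ * h) • F2 ℝ := by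
    rw [H0, Matrix.smul_mul, Matrix.mul_assoc, PPair.B2_mul_G0 ℝ hl, Matrix.mul_one]
  have e2 : G0 ℝ l * H0 l σ h = -(σ * h) • F2 ℝ := by
    ext i j
    fin_cases i <;> fin_cases j <;>
      simp [H0, F2, B2, J2, G0, Matrix.mul_apply, Fin.sum_univ_two, Matrix.one_apply] <;> field_simp <;> ring
  refine ⟨e1, e2, ?_⟩
  rw [e1, H0, Matrix.smul_mul, Matrix.mul_smul, smul_smul, ← Matrix.mul_assoc, PPair.F2_mul_F2, Matrix.one_mul]
  congr 1
  linear_combination h ^ 2 * hσ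

/-- symmetric second order resolvent identity -/
theorem s5_Hgen_second {l : ℕ} {σ h : ℝ} {D : Matrix (Fin 2) (Fin 2) ℝ} (H : TBHyp l σ h D) :
    Hgen l σ h D = H0 l σ h - H0 l σ h * D * H0 l σ h
      + H0 l σ h * D * Hgen l σ h D * D * H0 l σ h := by
  have dA := (Matrix.isUnit_iff_isUnit_det _).1 (tb_isUnit H)
  have d0 := (Matrix.isUnit_iff_isUnit_det _).1 H.isUnit_H0
  set X := Hgen l σ h D with hX
  set Y := H0 l σ h with hY
  have hr : X * (Y⁻¹ + D) = 1 := Matrix.nonsing_inv_mul _ dA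
  have hl' : (Y⁻¹ + D) * X = 1 := Matrix.mul_nonsing_inv _ dA
  have r1 : X + X * D * Y = Y := by
    have := congrArg (fun M => M * Y) hr
    simp only [Matrix.mul_add, Matrix.add_mul, Matrix.one_mul] at this
    rwa [Matrix.mul_assoc X Y⁻¹ Y, Matrix.nonsing_inv_mul _ d0, Matrix.mul_one] at this
  have r2 : X + Y * D * X = Y := by
    have := congrArg (fun M => Y * M) hl'
    simp only [Matrix.mul_add, Matrix.add_mul, Matrix.mul_one] at this
    rwa [← Matrix.mul_assoc Y Y⁻¹ X, Matrix.mul_nonsing_inv _ d0, Matrix.one_mul, ← Matrix.mul_assoc] at this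
  have r1' : X = Y - X * D * Y := eq_sub_of_add_eq r1
  have r2' : X = Y - Y * D * X := eq_sub_of_add_eq r2
  calc X = Y - Y * D * X := r2'
    _ = Y - Y * D * (Y - X * D * Y) := by rw [← r1']
    _ = _ := by
        rw [Matrix.mul_sub]
        simp only [Matrix.mul_assoc]
        abel

/-- `H` is symmetric -/
theorem s5_Hgen_symm {l : ℕ} {σ h : ℝ} {D : Matrix (Fin 2) (Fin 2) ℝ} (H : TBHyp l σ h D) :
    (Hgen l σ h D)ᵀ = Hgen l σ h D := by
  have h10 := (tb_formula H).2.2.2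
  ext i j
  fin_cases i <;> fin_cases j <;> simp [Matrix.transpose_apply, h10]

/-- `I - H G = H (H_0⁻¹ - G_0)` for `G = G_0 + D` (selected columns after the update) -/
theorem s5_one_sub_HG {l : ℕ} {σ h : ℝ} {D : Matrix (Fin 2) (Fin 2) ℝ} (H : TBHyp l σ h D) :
    1 - Hgen l σ h D * (G0 ℝ l + D) = Hgen l σ h D * ((H0 l σ h)⁻¹ - G0 ℝ l) := by
  have dA := (Matrix.isUnit_iff_isUnit_det _).1 (tb_isUnit H)
  have hr : Hgen l σ h D * ((H0 l σ h)⁻¹ + D) = 1 := Matrix.nonsing_inv_mul _ dA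
  rw [← hr]
  simp only [Matrix.mul_add, Matrix.mul_sub]
  abel

end twobytwo

/-! ## 3. Lemma 5.2 (uniform pair contractions), in sum form over all ordered distinct pairs -/

section contractions

variable {α : Type} [DecidableEq α] (S : Finset α)

theorem s5b_sum_offDiag (f : α → α → ℝ) :
    ∑ p ∈ S.offDiag, f p.1 p.2 = ∑ u ∈ S, ∑ v ∈ S, f u v - ∑ u ∈ S, f u u := by
  have h := Finset.sum_union (Finset.disjoint_diag_offDiag S) (f := fun p : α × α => f p.1 p.2)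
  rw [Finset.diag_union_offDiag, Finset.sum_product, Finset.sum_diag] at h
  linarith

theorem s5b_sum_offDiag_erase (f : α → α → ℝ) :
    ∑ p ∈ S.offDiag, f p.1 p.2 = ∑ u ∈ S, ∑ v ∈ S.erase u, f u v := by
  rw [s5b_sum_offDiag, ← Finset.sum_sub_distrib]
  refine Finset.sum_congr rfl fun u hu => ?_
  rw [← Finset.add_sum_erase S _ hu]
  ring

/-- the four elementary sums for a centred matrix -/
theorem s5b_sums (A : Matrix α α ℝ) (hA : CenteredOn S A) :
    ∑ p ∈ S.offDiag, A p.1 p.1 = ((S.card : ℝ) - 1) * trS S A ∧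
    ∑ p ∈ S.offDiag, A p.2 p.2 = ((S.card : ℝ) - 1) * trS S A ∧
    ∑ p ∈ S.offDiag, A p.1 p.2 = - trS S A ∧
    ∑ p ∈ S.offDiag, A p.2 p.1 = - trS S A := by
  unfold trS
  refine ⟨?_, ?_, ?_, ?_⟩
  · rw [s5b_sum_offDiag S fun u _ => A u u]
    simp only [Finset.sum_const, nsmul_eq_mul, ← Finset.mul_sum]
    ring
  · rw [s5b_sum_offDiag S fun _ v => A v v]
    simp only [Finset.sum_const, nsmul_eq_mul]
    ring
  · rw [s5b_sum_offDiag S fun u v => A u v, Finset.sum_eq_zero fun u hu => hA.1 u hu]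
    ring
  · rw [s5b_sum_offDiag S fun u v => A v u, Finset.sum_eq_zero fun u hu => hA.2 u hu]
    ring

/-- `𝔼 Tr (H_0 A_p) = 0` (no symmetry needed) -/
theorem s5_sum_H0 (hl : 2 < S.card) (σ h : ℝ) (A : Matrix α α ℝ) (hA : CenteredOn S A) :
    ∑ p ∈ S.offDiag, (H0 S.card σ h * pblk A p.1 p.2).trace = 0 := by
  have h1 : ((S.card : ℝ) - 2) ≠ 0 := PPair.l_sub_two_ne ℝ hl
  obtain ⟨s1, s2, s3, s4⟩ := s5b_sums S A hA
  have e : ∀ p : α × α, (H0 S.card σ h * pblk A p.1 p.2).trace =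
      -(σ * h) / ((S.card : ℝ) - 2) * (A p.1 p.1 + A p.2 p.2) +
        -(σ * h) * (1 + 1 / ((S.card : ℝ) - 2)) * (A p.1 p.2 + A p.2 p.1) := by
    intro p
    rw [s5H0_entries]
    simp [pblk, Matrix.trace, Fin.sum_univ_two]
    ring
  simp only [e, Finset.sum_add_distrib, ← Finset.mul_sum, s1, s2, s3, s4]
  field_simp
  ring

/-- `𝔼 Tr (B A_p) = 2 Tr A / (l - 1)` -/
theorem s5_sum_B (hl : 2 < S.card) (A : Matrix α α ℝ) (hA : CenteredOn S A) :
    ∑ p ∈ S.offDiag, (B2 ℝ S.card * pblk A p.1 p.2).trace = 2 * S.card * trS S A := by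
  have h1 : ((S.card : ℝ) - 2) ≠ 0 := PPair.l_sub_two_ne ℝ hl
  obtain ⟨s1, s2, s3, s4⟩ := s5b_sums S A hA
  have e : ∀ p : α × α, (B2 ℝ S.card * pblk A p.1 p.2).trace =
      (1 + ((S.card : ℝ) - 2)⁻¹) * (A p.1 p.1 + A p.2 p.2) +
        ((S.card : ℝ) - 2)⁻¹ * (A p.1 p.2 + A p.2 p.1) := by
    intro p
    simp [B2, J2, pblk, Matrix.trace, Matrix.mul_apply, Fin.sum_univ_two, Matrix.one_apply]
    ring
  simp only [e, Finset.sum_add_distrib, ← Finset.mul_sum, s1, s2, s3, s4]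
  field_simp
  ring

/-- `𝔼 Tr (F A_p F C_p)`, `A` symmetric, `C` arbitrary, no centring needed -/
theorem s5_sum_FF (A C : Matrix α α ℝ) (hA : ∀ x y, A x y = A y x) :
    ∑ p ∈ S.offDiag, (F2 ℝ * pblk A p.1 p.2 * F2 ℝ * pblk C p.1 p.2).trace =
      2 * (trS S A * trS S C + trS2 S A C - 2 * ∑ x ∈ S, A x x * C x x) := by
  have e : ∀ p : α × α, (F2 ℝ * pblk A p.1 p.2 * F2 ℝ * pblk C p.1 p.2).trace =
      A p.2 p.2 * C p.1 p.1 + A p.2 p.1 * C p.2 p.1 + (A p.1 p.2 * C p.1 p.2 + A p.1 p.1 * C p.2 p.2) := by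
    intro p
    simp [F2, pblk, Matrix.trace, Matrix.mul_apply, Fin.sum_univ_two]
  simp only [e, Finset.sum_add_distrib]
  rw [s5b_sum_offDiag S fun u v => A v v * C u u, s5b_sum_offDiag S fun u v => A v u * C v u,
    s5b_sum_offDiag S fun u v => A u v * C u v, s5b_sum_offDiag S fun u v => A u u * C v v]
  have t1 : ∑ u ∈ S, ∑ v ∈ S, A v v * C u u = trS S A * trS S C := by
    unfold trS
    rw [Finset.sum_mul_sum, Finset.sum_comm]
  have t2 : ∑ u ∈ S, ∑ v ∈ S, A v u * C v u = trS2 S A C := by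
    unfold trS2
    exact Finset.sum_congr rfl fun u _ => Finset.sum_congr rfl fun v _ => by rw [hA v u]
  have t3 : ∑ u ∈ S, ∑ v ∈ S, A u v * C u v = trS2 S A C := by
    unfold trS2
    rw [Finset.sum_comm]
    exact Finset.sum_congr rfl fun u _ => Finset.sum_congr rfl fun v _ => by rw [hA v u]
  have t4 : ∑ u ∈ S, ∑ v ∈ S, A u u * C v v = trS S A * trS S C := by
    unfold trS
    rw [Finset.sum_mul_sum]
  rw [t1, t2, t3, t4]
  ring

/-- bilinear version of (4.2) on `I = S ∖ X0` for arrays centred on `S` -/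
theorem s5_sum_H0_arrays (hl : 2 < S.card) (σ h : ℝ) (a c : α → ℝ) (ha : ∑ x ∈ S, a x = 0)
    (hc : ∑ x ∈ S, c x = 0) (X0 : Finset α) (hX : X0 ⊆ S) :
    ∑ p ∈ (S \ X0).offDiag, pvec a p.1 p.2 ⬝ᵥ (H0 S.card σ h *ᵥ pvec c p.1 p.2) =
      -(σ * h) * (2 * (1 + ((S.card : ℝ) - 2)⁻¹) * ((∑ x ∈ X0, a x) * ∑ x ∈ X0, c x)
        - 2 * (X0.card : ℝ) * ((S.card : ℝ) - 2)⁻¹ * ∑ x ∈ S \ X0, a x * c x) := by
  have hpc := pair_contraction (S \ X0) a c hl
  have e : ∀ p : α × α, pvec a p.1 p.2 ⬝ᵥ (H0 S.card σ h *ᵥ pvec c p.1 p.2) =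
      -(σ * h) * (![a p.1, a p.2] ⬝ᵥ ((F2 ℝ * B2 ℝ S.card) *ᵥ ![c p.1, c p.2])) := by
    intro p
    rw [H0, Matrix.smul_mulVec, dotProduct_smul, smul_eq_mul]
    rfl
  simp only [e, ← Finset.mul_sum]
  rw [s5b_sum_offDiag_erase (S \ X0) fun u v => ![a u, a v] ⬝ᵥ ((F2 ℝ * B2 ℝ S.card) *ᵥ ![c u, c v]), hpc]
  have ha' : ∑ x ∈ S \ X0, a x = - ∑ x ∈ X0, a x := by
    have := Finset.sum_sdiff hX (f := a)
    linarith
  have hc' : ∑ x ∈ S \ X0, c x = - ∑ x ∈ X0, c x := by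
    have := Finset.sum_sdiff hX (f := c)
    linarith
  have hcard : ((S \ X0).card : ℝ) = (S.card : ℝ) - X0.card := by
    rw [Finset.card_sdiff_of_subset hX, Nat.cast_sub (Finset.card_le_card hX)]
  rw [ha', hc', hcard]
  ring

end contractions

end Claimed.Agent.R275
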