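import Claimed.Agent.R275.S5EnA
import Claimed.Agent.R275.NbWalk2

/-!
# Row 275, Sec 5, package S5Near: the near relation `dist ≤ k` (pure graph theory, NO paper, NO analysis)

Owner of the statements: helper11.  `π.Far k v w` (Stage.lean) says that there is no actual nonbacktracking stub walk of length `≤ k` from `v` to `w`.
ONE BRIDGE (`s5_not_far_iff`): `¬ Far k v w ↔` there is a walk of length `≤ k` in the simple graph `π.graph`.  It holds for EVERY partial pairing
(loops and multiple edges allowed):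
 (⇒) `Nact j v w ≠ 0` gives stubs `x_1, y_1 = mate x_1, x_2, …` (expand the matrix product `C Pact (N Pact)^{j-1} Cᵀ`, all entries are `0/1`-sums), i.e. a
     sequence of vertices in which consecutive vertices are equal (loop) or adjacent in `π.graph`; delete the loops.
 (⇐) take a shortest walk: it is a path (`SimpleGraph.Walk.toPath` / `bypass`), choose for every edge a resolved stub at its first vertex whose mate sits at the second one
     (`0 < acount`); consecutive edges of a path are different, so the stub by which the walk leaves a vertex differs from the stub by which it entered: the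
     product of the entries of `C, Pact, N` along this stub sequence is `1` and all other terms are `≥ 0`.
Everything else follows from the bridge and Mathlib's `SimpleGraph.Walk` API (`append`, `reverse`, `length_append`, …).
-/

set_option autoImplicit false

namespace Claimed.Agent.R275

open Finset

/-- geometric sums -/
theorem s5n_geom_le {d : ℕ} (hd : 2 ≤ d) (R : ℕ) : ∑ j ∈ range (R + 1), d ^ j ≤ 2 * d ^ R := by
  induction R with
  | zero => simp
  | succ R ih =>
    rw [Finset.sum_range_succ, pow_succ]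
    nlinarith [Nat.mul_le_mul_left (d ^ R) hd]

namespace PPair

variable {n d : ℕ} (π : PPair n d)

/-! ## 1. the bridge -/

theorem s5_not_far_iff (k : ℕ) (v w : Fin n) : ¬ π.Far k v w ↔ ∃ p : π.graph.Walk v w, p.length ≤ k := by
  exact π.nbw_not_far_iff k v w

/-! ## 2. vertex level -/

theorem s5_far_mono {k k' : ℕ} (h : k ≤ k') {v w : Fin n} (hf : π.Far k' v w) : π.Far k v w := by
  exact π.nbw_far_mono h hf

theorem s5_not_far_self (k : ℕ) (v : Fin n) : ¬ π.Far k v v := by
  exact (π.nbw_not_far_iff k v v).2 (nbwReach.refl k v)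

theorem s5_far_symm {k : ℕ} {v w : Fin n} (h : π.Far k v w) : π.Far k w v := by
  exact π.nbw_far_symm h

theorem s5_not_far_trans {k k' : ℕ} {v w y : Fin n} (h : ¬ π.Far k v w) (h' : ¬ π.Far k' w y) :
    ¬ π.Far (k + k') v y := by
  rw [nbw_not_far_iff] at h h' ⊢
  exact h.trans h'

/-- if `a` is within `k` of `u` and `u, v` are at distance `> g` then `a, v` are at distance `> g - k` -/
theorem s5_far_sub {g k : ℕ} (hk : k ≤ g) {a u v : Fin n} (h : ¬ π.Far k a u) (hf : π.Far g u v) : π.Far (g - k) a v := by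
  by_contra hcon
  rw [nbw_not_far_iff] at h hcon
  apply (π.nbw_not_far_iff g u v).2 _ hf
  exact (h.symm.trans hcon).mono (by omega)

/-- every vertex has at most `d` neighbours -/
theorem s5_card_adj_le (v : Fin n) : (univ.filter fun w => ¬ π.Far 1 v w ∧ w ≠ v).card ≤ d := by
  classical
  refine le_trans (Finset.card_le_card ?_) (π.nbw_card_adj_le v)
  intro w hw
  obtain ⟨-, h1, h2⟩ := Finset.mem_filter.1 hw
  rw [nbw_not_far_iff] at h1
  exact Finset.mem_filter.2 ⟨Finset.mem_univ _, (π.nbw_reach_one_iff h2).1 h1⟩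

/-- balls -/
theorem s5_card_ball_le (k : ℕ) (v : Fin n) : (univ.filter fun w => ¬ π.Far k v w).card ≤ ∑ j ∈ range (k + 1), d ^ j := by
  classical
  refine le_trans (Finset.card_le_card ?_) (π.nbw_card_ball_le k v)
  intro w hw
  obtain ⟨-, h1⟩ := Finset.mem_filter.1 hw
  rw [nbw_not_far_iff] at h1
  exact Finset.mem_filter.2 ⟨Finset.mem_univ _, h1⟩

/-- the graph after an exposure -/
theorem s5_graph_resolve {u v : Stub n d} (hu : π.Unres u) (hv : π.Unres v) (huv : u ≠ v) :
    (π.resolve u v).graph = π.graph ⊔ SimpleGraph.edge u.1 v.1 := by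
  exact π.nbw_graph_resolve hu hv huv

/-- NEW EDGE RULE: a short connection of the new graph is old or uses the new edge exactly once (take a path) -/
theorem s5_near_resolve {u v : Stub n d} (hu : π.Unres u) (hv : π.Unres v) (huv : u ≠ v) (k : ℕ) (a x : Fin n)
    (h : ¬ (π.resolve u v).Far k a x) :
    ¬ π.Far k a x ∨ ∃ k1 k2 : ℕ, k1 + 1 + k2 ≤ k ∧
      ((¬ π.Far k1 a u.1 ∧ ¬ π.Far k2 x v.1) ∨ (¬ π.Far k1 a v.1 ∧ ¬ π.Far k2 x u.1)) := by
  rw [nbw_not_far_iff] at h
  rcases π.nbw_reach_resolve hu hv huv h with h | ⟨k1, k2, hk, ⟨h1, h2⟩ | ⟨h1, h2⟩⟩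
  · exact Or.inl ((π.nbw_not_far_iff _ _ _).2 h)
  · exact Or.inr ⟨k1, k2, hk, Or.inl ⟨(π.nbw_not_far_iff _ _ _).2 h1, (π.nbw_not_far_iff _ _ _).2 h2.symm⟩⟩
  · exact Or.inr ⟨k1, k2, hk, Or.inr ⟨(π.nbw_not_far_iff _ _ _).2 h1, (π.nbw_not_far_iff _ _ _).2 h2.symm⟩⟩

/-! ## 3. label level: the fields of `S5HiHyp` -/

theorem s5nr_iff (k : ℕ) (a b : Label n d) : π.s5nr k a b = true ↔ ¬ π.Far k a.vtx b.vtx := by
  unfold s5nr
  rw [Bool.not_eq_true', decide_eq_false_iff_not]

theorem s5nr_false_iff (k : ℕ) (a b : Label n d) : π.s5nr k a b = false ↔ π.Far k a.vtx b.vtx := by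
  unfold s5nr
  rw [Bool.not_eq_false', decide_eq_true_iff]

theorem s5nr_mono (k k' : ℕ) (a x : Label n d) (h : k ≤ k') (hn : π.s5nr k a x = true) : π.s5nr k' a x = true := by
  rw [s5nr_iff] at hn ⊢
  exact fun hf => hn (π.nbw_far_mono h hf)

theorem s5nr_refl (k : ℕ) (x : Label n d) : π.s5nr k x x = true := by
  rw [s5nr_iff]
  exact π.s5_not_far_self k _

theorem s5nr_symm (k : ℕ) (a b : Label n d) : π.s5nr k a b = π.s5nr k b a := by
  rw [Bool.eq_iff_iff, s5nr_iff, s5nr_iff]
  exact ⟨fun h hf => h (π.nbw_far_symm hf), fun h hf => h (π.nbw_far_symm hf)⟩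

theorem s5nr_tri1 (k k' : ℕ) (a x y : Label n d) (h : π.s5nr k a x = true) (h' : π.s5nr k' x y = true) :
    π.s5nr (k + k') a y = true := by
  rw [s5nr_iff] at h h' ⊢
  exact π.s5_not_far_trans h h'

theorem s5nr_tri2 (k k' : ℕ) (a x y : Label n d) (h : π.s5nr k a x = true) (h' : π.s5nr k' a y = true) :
    π.s5nr (k + k') x y = true := by
  rw [s5nr_symm] at h
  exact π.s5nr_tri1 k k' x a y h h'

theorem s5nr_ball1 (hd : 2 ≤ d) (R : ℕ) (a : Label n d) :
    ((π.s5S.filter fun x => π.s5nr R a x = true).card : ℝ) ≤ 4 * (d : ℝ) ^ (R + 1) := by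
  classical
  have hsub : (π.s5S.filter fun x => π.s5nr R a x = true) ⊆
      ((univ.filter fun w => ¬ π.Far R a.vtx w) ×ˢ (univ : Finset (Fin d))).image
        fun p => Label.stub (p.1, p.2) := by
    intro x hx
    obtain ⟨hx1, hx2⟩ := Finset.mem_filter.1 hx
    obtain ⟨y, -, rfl⟩ := Finset.mem_image.1 hx1
    rw [s5nr_iff] at hx2
    exact Finset.mem_image.2 ⟨(y.1, y.2), Finset.mem_product.2
      ⟨Finset.mem_filter.2 ⟨Finset.mem_univ _, hx2⟩, Finset.mem_univ _⟩, rfl⟩
  have h1 := (Finset.card_le_card hsub).trans Finset.card_image_le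
  rw [Finset.card_product, Finset.card_univ, Fintype.card_fin] at h1
  have h2 := (π.s5_card_ball_le R a.vtx).trans (s5n_geom_le hd R)
  have h3 : (π.s5S.filter fun x => π.s5nr R a x = true).card ≤ 4 * d ^ (R + 1) := by
    refine h1.trans ((Nat.mul_le_mul_right d h2).trans ?_)
    rw [pow_succ]
    nlinarith [Nat.zero_le (d ^ R * d)]
  exact_mod_cast h3

theorem s5nr_ball2 (hd : 2 ≤ d) (R : ℕ) (x : Label n d) :
    (((π.s5G ∪ π.s5S).filter fun a => π.s5nr R a x = true).card : ℝ) ≤ 4 * (d : ℝ) ^ (R + 1) := by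
  classical
  have hsub : ((π.s5G ∪ π.s5S).filter fun a => π.s5nr R a x = true) ⊆
      (univ.filter fun w => ¬ π.Far R x.vtx w).image Label.glob ∪
      ((univ.filter fun w => ¬ π.Far R x.vtx w) ×ˢ (univ : Finset (Fin d))).image
        fun p => Label.stub (p.1, p.2) := by
    intro a ha
    obtain ⟨ha1, ha2⟩ := Finset.mem_filter.1 ha
    rw [s5nr_symm, s5nr_iff] at ha2
    rcases Finset.mem_union.1 ha1 with h | h
    · obtain ⟨y, -, rfl⟩ := Finset.mem_image.1 h
      exact Finset.mem_union_left _ (Finset.mem_image.2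
        ⟨y, Finset.mem_filter.2 ⟨Finset.mem_univ _, ha2⟩, rfl⟩)
    · obtain ⟨y, -, rfl⟩ := Finset.mem_image.1 h
      exact Finset.mem_union_right _ (Finset.mem_image.2 ⟨(y.1, y.2), Finset.mem_product.2
        ⟨Finset.mem_filter.2 ⟨Finset.mem_univ _, ha2⟩, Finset.mem_univ _⟩, rfl⟩)
  have h1 := (Finset.card_le_card hsub).trans ((Finset.card_union_le _ _).trans
    (Nat.add_le_add Finset.card_image_le Finset.card_image_le))
  rw [Finset.card_product, Finset.card_univ, Fintype.card_fin] at h1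
  have h2 := (π.s5_card_ball_le R x.vtx).trans (s5n_geom_le hd R)
  have h3 : ((π.s5G ∪ π.s5S).filter fun a => π.s5nr R a x = true).card ≤ 4 * d ^ (R + 1) := by
    refine h1.trans ((Nat.add_le_add h2 (Nat.mul_le_mul_right d h2)).trans ?_)
    rw [pow_succ]
    nlinarith [Nat.zero_le (d ^ R * d), Nat.mul_le_mul_left (d ^ R) hd]
  exact_mod_cast h3

theorem s5nr_excl {g R : ℕ} (hR : 2 * R ≤ g) {u v : Stub n d} (h : π.Adm g u v) (a : Label n d)
    (ha : π.s5nr R a (.stub u) = true) : π.s5nr R a (.stub v) = false := by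
  rw [s5nr_iff] at ha
  rw [s5nr_false_iff]
  have h1 := π.s5_far_sub (g := g) (k := R) (by omega) ha h.2.2
  exact π.nbw_far_mono (by omega) h1

theorem s5nr_new {g : ℕ} {u v : Stub n d} (h : π.Adm g u v) (k : ℕ) (a x : Label n d)
    (hn : (π.resolve u v).s5nr k a x = true) : π.s5nr k a x = true ∨ s5New π.s5nr k (lblP (u, v)) a x := by
  have huv : u ≠ v := by
    rintro rfl
    exact π.s5_not_far_self g u.1 h.2.2
  rw [s5nr_iff] at hn
  rcases π.s5_near_resolve h.1 h.2.1 huv k a.vtx x.vtx hn with h1 | ⟨k1, k2, hk, h1⟩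
  · exact Or.inl ((π.s5nr_iff _ _ _).2 h1)
  · refine Or.inr ⟨k1, k2, hk, ?_⟩
    simp only [s5nr_iff, lblP]
    exact h1

end PPair

end Claimed.Agent.R275
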