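import Claimed.Agent.R275.S5EnA
import Claimed.Agent.R275.S43W

/-!
# Row 275, Sec 5, package S5Tail: the four tail fields of `S5TabOK` (`tailRow`, `tailMean`, `tailSq`; `tailSup` is (4.6) = `s43t_tail_le`)

Owner of the statements: helper11.  Replaces the treatment of the formal tail in Lemma 5.5 of `early.tex` (l. 560-600).  No paper needed.

`𝓡_P(a,b) = TZ + Rem`:  `TZ = ∑_{k ∈ T} (f_k(a,u) g_k(b,v) + f_k(a,v) g_k(b,u))` is a finite sum of pure-swap products of arrays that are centred TERM BY TERM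
(`sum_qEnt`), and `|Rem| ≤ C * s5TailMaj` (`tail_decomp` + `s5_tailMaj_le`).
* PART 1 (abstract, `s5_tail_abs`): mean by `s5_swap_family_mean` + `s5_tailMaj_mean`, second moment by `(x+y)² ≤ 2x²+2y²`, `s5_tailMaj_sq`,
  `∑_{u≠v} (A_a(u) A_b(v))² ≤ C0²`; averages over `s5Surv Vd X0` of nonnegative functions by `s5_avg_le_of_nonneg`.
* PART 2 (concrete, `s5_tail_decomp`): the decomposition at a pairing.
-/

set_option autoImplicit false

namespace Claimed.Agent.R275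

open Matrix Finset

/-- the majorant part of `S5TabOK` -/
structure S5MajOK {α : Type} [DecidableEq α] (C0 N Qa εs : ℝ) (S Al : Finset α) (Vd : Finset (α × α)) (Dg : ℕ)
    (A : α → α → ℝ) (j : α → ℝ) (b : α → α → ℝ) : Prop where
  valid : S5Valid S Vd Dg
  hl : 32 ≤ S.card
  hDg : 4 * Dg ≤ S.card
  A_arr : ∀ a ∈ Al, S5Arr C0 S (A a)
  A_nonneg : ∀ a ∈ Al, ∀ x ∈ S, 0 ≤ A a x
  maj : S5Maj C0 N Qa S j b
  small : ∀ p ∈ Vd, j p.1 + j p.2 + b p.1 p.2 ≤ εs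
  hεs : εs ≤ 1 / 16

/-! ### auxiliary lemmas for `s5_tail_abs` (prefix `s5ta_`) -/

theorem s5ta_avg_add {ι : Type} (I : Finset ι) (F G : ι → ℝ) :
    avgOn I (fun p => F p + G p) = avgOn I F + avgOn I G := by
  unfold avgOn
  rw [Finset.sum_add_distrib, add_div]

theorem s5ta_avg_mono {ι : Type} (I : Finset ι) (F G : ι → ℝ) (h : ∀ p ∈ I, F p ≤ G p) :
    avgOn I F ≤ avgOn I G := by
  unfold avgOn
  exact div_le_div_of_nonneg_right (Finset.sum_le_sum h) (Nat.cast_nonneg _)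

theorem s5ta_abs_avg_le {ι : Type} (I : Finset ι) (F : ι → ℝ) :
    |avgOn I F| ≤ avgOn I (fun p => |F p|) := by
  unfold avgOn
  rw [abs_div, Nat.abs_cast]
  exact div_le_div_of_nonneg_right (Finset.abs_sum_le_sum_abs _ _) (Nat.cast_nonneg _)

/-- scalar bound of the tail majorant -/
theorem s5ta_maj_le {C0 a1 a2 c1 c2 j1 j2 b12 il : ℝ} (ha1 : 0 ≤ a1) (ha2 : 0 ≤ a2) (hc1 : 0 ≤ c1)
    (hc2 : 0 ≤ c2) (hc1' : c1 ≤ C0) (hc2' : c2 ≤ C0) (hj1 : 0 ≤ j1) (hj2 : 0 ≤ j2) (hb : 0 ≤ b12)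
    (hs : j1 + j2 + b12 ≤ 1 / 16) (hil : 0 ≤ il) (hil' : il ≤ 1 / 32) :
    a1 * c1 * (j2 + il) + a2 * c2 * (j1 + il) + (a1 * c2 + a2 * c1) * (b12 + j1 * j2 + il) ≤
      2 * C0 * (a1 + a2) := by
  have hC : 0 ≤ C0 := hc1.trans hc1'
  have hjj : j1 * j2 ≤ j1 := by
    have : j1 * j2 ≤ j1 * 1 := mul_le_mul_of_nonneg_left (by linarith) hj1
    linarith
  have h1 : a1 * c1 * (j2 + il) ≤ a1 * C0 * 1 :=
    mul_le_mul (mul_le_mul_of_nonneg_left hc1' ha1) (by linarith) (by linarith) (mul_nonneg ha1 hC)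
  have h2 : a2 * c2 * (j1 + il) ≤ a2 * C0 * 1 :=
    mul_le_mul (mul_le_mul_of_nonneg_left hc2' ha2) (by linarith) (by linarith) (mul_nonneg ha2 hC)
  have h3 : (a1 * c2 + a2 * c1) * (b12 + j1 * j2 + il) ≤ (a1 * C0 + a2 * C0) * 1 :=
    mul_le_mul (add_le_add (mul_le_mul_of_nonneg_left hc2' ha1) (mul_le_mul_of_nonneg_left hc1' ha2))
      (by linarith) (by have := mul_nonneg hj1 hj2; linarith)
      (add_nonneg (mul_nonneg ha1 hC) (mul_nonneg ha2 hC))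
  linarith

/-- pointwise bound of a swap family -/
theorem s5ta_swap_le {α ι : Type} (T : Finset ι) (f g : ι → α → ℝ) (x y : α) (P Q : ℝ)
    (h1 : ∑ k ∈ T, |f k x| * |g k y| ≤ P) (h2 : ∑ k ∈ T, |f k y| * |g k x| ≤ Q) :
    |∑ k ∈ T, (f k x * g k y + f k y * g k x)| ≤ P + Q := by
  refine (Finset.abs_sum_le_sum_abs _ _).trans ?_
  refine le_trans (Finset.sum_le_sum fun k _ => ?_) (le_trans (le_of_eq Finset.sum_add_distrib) (add_le_add h1 h2))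
  refine (abs_add_le _ _).trans ?_
  rw [abs_mul, abs_mul]

/-- `∑_{u ≠ v} (a_u c_v)² ≤ (∑ a²)(∑ c²)` -/
theorem s5ta_sum_sq_le {α : Type} [DecidableEq α] (S : Finset α) (a c : α → ℝ) :
    ∑ p ∈ S.offDiag, (a p.1 * c p.2) ^ 2 ≤ (∑ x ∈ S, a x ^ 2) * ∑ x ∈ S, c x ^ 2 := by
  rw [Finset.sum_mul_sum, ← Finset.sum_product']
  refine le_trans (le_of_eq (Finset.sum_congr rfl fun p _ => mul_pow _ _ _)) ?_
  refine Finset.sum_le_sum_of_subset_of_nonneg ?_ fun p _ _ => by positivity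
  intro p hp
  have := Finset.mem_offDiag.1 hp
  exact Finset.mem_product.2 ⟨this.1, this.2.1⟩

/-- PART 1: row bound, mean and second moment of a table `Rt` with a swap-family decomposition -/
theorem s5_tail_abs (C0 : ℝ) : ∃ C : ℝ, 0 < C ∧ ∀ (α ι : Type) [DecidableEq α] (N Qa εs : ℝ) (S Al : Finset α)
    (Vd : Finset (α × α)) (Dg : ℕ) (A : α → α → ℝ) (j : α → ℝ) (b : α → α → ℝ)
    (Rt : α × α → α → α → ℝ) (T : Finset ι) (f g : ι → α → α → ℝ),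
    S5MajOK C0 N Qa εs S Al Vd Dg A j b →
    (∀ k ∈ T, ∀ a ∈ Al, ∑ x ∈ S, f k a x = 0) → (∀ k ∈ T, ∀ a ∈ Al, ∑ x ∈ S, g k a x = 0) →
    (∀ a ∈ Al, ∀ c ∈ Al, ∀ x ∈ S, ∀ y ∈ S, ∑ k ∈ T, |f k a x| * |g k c y| ≤ A a x * A c y) →
    (∀ p ∈ Vd, ∀ a ∈ Al, ∀ c ∈ Al,
      |Rt p a c - ∑ k ∈ T, (f k a p.1 * g k c p.2 + f k a p.2 * g k c p.1)| ≤
        C0 * s5TailMaj S.card (A a) (A c) j b p) →
    (∀ p ∈ Vd, ∀ a ∈ Al, ∀ c ∈ Al, |Rt p a c| ≤ C * (A a p.1 + A a p.2)) ∧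
    (∀ a ∈ Al, ∀ c ∈ Al, ∀ X0 : Finset α, X0 ⊆ S → X0.card ≤ 2 →
      |avgOn (s5Surv Vd X0) (fun p => Rt p a c)| ≤ C * (Qa + Dg + N + 1) / (S.card : ℝ) ^ 2) ∧
    (∀ a ∈ Al, ∀ c ∈ Al, ∀ X0 : Finset α, X0.card ≤ 2 →
      avgOn (s5Surv Vd X0) (fun p => Rt p a c ^ 2) ≤ C * (N + 1) / (S.card : ℝ) ^ 2) := by
  obtain ⟨C1, hC1, H1⟩ := s5_swap_family_mean C0
  obtain ⟨C2, hC2, H2⟩ := s5_tailMaj_mean C0
  obtain ⟨C3, hC3, H3⟩ := s5_tailMaj_sq C0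
  obtain ⟨C, hCdef⟩ : ∃ C : ℝ, C = |C0| + 2 * C0 ^ 2 + C1 + 4 * |C0| * C2 + 32 * C0 ^ 2
      + 8 * C0 ^ 2 * C3 + 1 := ⟨_, rfl⟩
  have hCpos : 0 < C := by rw [hCdef]; positivity
  have hCa : 0 ≤ C0 → C0 + 2 * C0 ^ 2 ≤ C := by
    intro h
    rw [hCdef, abs_of_nonneg h]
    have : 0 ≤ C1 + 4 * C0 * C2 + 32 * C0 ^ 2 + 8 * C0 ^ 2 * C3 + 1 := by positivity
    linarith
  have hCb : 0 ≤ C0 → C1 + 4 * C0 * C2 ≤ C := by
    intro h
    rw [hCdef, abs_of_nonneg h]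
    have : 0 ≤ C0 + 2 * C0 ^ 2 + 32 * C0 ^ 2 + 8 * C0 ^ 2 * C3 + 1 := by positivity
    linarith
  have hCc : 0 ≤ C0 → 32 * C0 ^ 2 + 8 * C0 ^ 2 * C3 ≤ C := by
    intro h
    rw [hCdef, abs_of_nonneg h]
    have : 0 ≤ C0 + 2 * C0 ^ 2 + C1 + 4 * C0 * C2 + 1 := by positivity
    linarith
  refine ⟨C, hCpos, ?_⟩
  intro α ι _ N Qa εs S Al Vd Dg A j b Rt T f g hM hf hg hfg hR
  have hl32 : (32 : ℝ) ≤ S.card := by exact_mod_cast hM.hl
  have hl0 : (0 : ℝ) < S.card := by linarith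
  have hL2 : (0 : ℝ) < (S.card : ℝ) ^ 2 := by positivity
  have hil : (0 : ℝ) ≤ 1 / (S.card : ℝ) := by positivity
  have hil' : 1 / (S.card : ℝ) ≤ 1 / 32 := one_div_le_one_div_of_le (by norm_num) hl32
  have hN : 0 ≤ N := le_trans (Finset.sum_nonneg fun x _ => sq_nonneg _) hM.maj.j_sq
  have hQ : 0 ≤ Qa := le_trans (Finset.sum_nonneg hM.maj.j_nonneg) hM.maj.j_sum
  have hD : (0 : ℝ) ≤ Dg := Nat.cast_nonneg _
  have hC0 : ∀ a ∈ Al, 0 ≤ C0 := fun a ha =>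
    le_trans (Finset.sum_nonneg fun x _ => sq_nonneg _) (hM.A_arr a ha).sq
  have hmem : ∀ p ∈ Vd, p.1 ∈ S ∧ p.2 ∈ S := fun p hp => by
    have := Finset.mem_offDiag.1 (hM.valid.sub hp)
    exact ⟨this.1, this.2.1⟩
  have hAle : ∀ a ∈ Al, ∀ x ∈ S, A a x ≤ C0 := fun a ha x hx =>
    (le_abs_self _).trans ((hM.A_arr a ha).sup x hx)
  have hTZ : ∀ p ∈ Vd, ∀ a ∈ Al, ∀ c ∈ Al,
      |∑ k ∈ T, (f k a p.1 * g k c p.2 + f k a p.2 * g k c p.1)| ≤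
        A a p.1 * A c p.2 + A a p.2 * A c p.1 := by
    intro p hp a ha c hc
    obtain ⟨h1, h2⟩ := hmem p hp
    exact s5ta_swap_le T (fun k => f k a) (fun k => g k c) p.1 p.2 _ _
      (hfg a ha c hc p.1 h1 p.2 h2) (hfg a ha c hc p.2 h2 p.1 h1)
  have hTM0 : ∀ a ∈ Al, ∀ c ∈ Al, ∀ p ∈ S.offDiag, 0 ≤ s5TailMaj S.card (A a) (A c) j b p := by
    intro a ha c hc p hp
    obtain ⟨h1, h2, -⟩ := Finset.mem_offDiag.1 hp
    have a1 := hM.A_nonneg a ha _ h1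
    have a2 := hM.A_nonneg a ha _ h2
    have c1 := hM.A_nonneg c hc _ h1
    have c2 := hM.A_nonneg c hc _ h2
    have j1 := hM.maj.j_nonneg _ h1
    have j2 := hM.maj.j_nonneg _ h2
    have b12 := hM.maj.b_nonneg _ h1 _ h2
    unfold s5TailMaj
    positivity
  have hTM1 : ∀ p ∈ Vd, ∀ a ∈ Al, ∀ c ∈ Al,
      s5TailMaj S.card (A a) (A c) j b p ≤ 2 * C0 * (A a p.1 + A a p.2) := by
    intro p hp a ha c hc
    obtain ⟨h1, h2⟩ := hmem p hp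
    unfold s5TailMaj
    exact s5ta_maj_le (hM.A_nonneg a ha _ h1) (hM.A_nonneg a ha _ h2) (hM.A_nonneg c hc _ h1)
      (hM.A_nonneg c hc _ h2) (hAle c hc _ h1) (hAle c hc _ h2) (hM.maj.j_nonneg _ h1)
      (hM.maj.j_nonneg _ h2) (hM.maj.b_nonneg _ h1 _ h2) ((hM.small p hp).trans hM.hεs) hil hil'
  have hsplit : ∀ p ∈ Vd, ∀ a ∈ Al, ∀ c ∈ Al, |Rt p a c| ≤
      C0 * s5TailMaj S.card (A a) (A c) j b p + (A a p.1 * A c p.2 + A a p.2 * A c p.1) := by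
    intro p hp a ha c hc
    have e1 := hR p hp a ha c hc
    have e2 := hTZ p hp a ha c hc
    have e3 := abs_add_le (Rt p a c - ∑ k ∈ T, (f k a p.1 * g k c p.2 + f k a p.2 * g k c p.1))
      (∑ k ∈ T, (f k a p.1 * g k c p.2 + f k a p.2 * g k c p.1))
    rw [sub_add_cancel] at e3
    linarith
  refine ⟨?_, ?_, ?_⟩
  · intro p hp a ha c hc
    obtain ⟨h1, h2⟩ := hmem p hp
    have hc0 := hC0 a ha
    have a1 := hM.A_nonneg a ha _ h1
    have a2 := hM.A_nonneg a ha _ h2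
    have hs : 0 ≤ A a p.1 + A a p.2 := add_nonneg a1 a2
    have e0 := hsplit p hp a ha c hc
    have e3 := mul_le_mul_of_nonneg_left (hTM1 p hp a ha c hc) hc0
    have e4 := mul_le_mul_of_nonneg_left (hAle c hc _ h2) a1
    have e5 := mul_le_mul_of_nonneg_left (hAle c hc _ h1) a2
    have e6 := mul_le_mul_of_nonneg_right (hCa hc0) hs
    nlinarith
  · intro a ha c hc X0 hX0 hX
    have hc0 := hC0 a ha
    have m1 := H1 α ι T S Vd Dg (fun k => f k a) (fun k => g k c) (A a) (A c) X0 hM.valid hM.hl hM.hDg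
      (fun k hk => hf k hk a ha) (fun k hk => hg k hk c hc)
      (fun x hx y hy => hfg a ha c hc x hx y hy) (hM.A_arr a ha) (hM.A_arr c hc) hX0 hX
    have m2 := H2 α N Qa S (A a) (A c) j b hM.hl hM.maj (hM.A_arr a ha) (hM.A_arr c hc)
      (hM.A_nonneg a ha) (hM.A_nonneg c hc)
    have m3 := s5_avg_le_of_nonneg hM.valid hM.hl hM.hDg X0 hX
      (fun p => C0 * s5TailMaj S.card (A a) (A c) j b p)
      (fun p hp => mul_nonneg hc0 (hTM0 a ha c hc p hp))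
    rw [← Finset.mul_sum] at m3
    have d1 : avgOn (s5Surv Vd X0) (fun p => Rt p a c) =
        avgOn (s5Surv Vd X0) (fun p => ∑ k ∈ T, (f k a p.1 * g k c p.2 + f k a p.2 * g k c p.1)) +
        avgOn (s5Surv Vd X0) (fun p => Rt p a c -
          ∑ k ∈ T, (f k a p.1 * g k c p.2 + f k a p.2 * g k c p.1)) := by
      rw [← s5ta_avg_add]
      congr 1
      funext p
      ring
    have d2 : |avgOn (s5Surv Vd X0) (fun p => Rt p a c -
          ∑ k ∈ T, (f k a p.1 * g k c p.2 + f k a p.2 * g k c p.1))| ≤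
        avgOn (s5Surv Vd X0) (fun p => C0 * s5TailMaj S.card (A a) (A c) j b p) :=
      (s5ta_abs_avg_le _ _).trans (s5ta_avg_mono _ _ _ fun p hp =>
        hR p (s5c_surv_sub Vd X0 hp) a ha c hc)
    have d3 : 4 / (S.card : ℝ) ^ 2 * (C0 * ∑ p ∈ S.offDiag, s5TailMaj S.card (A a) (A c) j b p) ≤
        4 / (S.card : ℝ) ^ 2 * (C0 * (C2 * (Qa + N + 1))) :=
      mul_le_mul_of_nonneg_left (mul_le_mul_of_nonneg_left m2 hc0) (by positivity)
    have d4 : |avgOn (s5Surv Vd X0) (fun p => Rt p a c)| ≤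
        C1 * (Dg + 1) / (S.card : ℝ) ^ 2 + 4 / (S.card : ℝ) ^ 2 * (C0 * (C2 * (Qa + N + 1))) := by
      rw [d1]
      refine (abs_add_le _ _).trans (add_le_add m1 ?_)
      exact d2.trans (m3.trans d3)
    refine d4.trans ?_
    have d5 : C1 * (Dg + 1) / (S.card : ℝ) ^ 2 + 4 / (S.card : ℝ) ^ 2 * (C0 * (C2 * (Qa + N + 1))) =
        (C1 * (Dg + 1) + 4 * C0 * C2 * (Qa + N + 1)) / (S.card : ℝ) ^ 2 := by
      ring
    rw [d5]
    refine div_le_div_of_nonneg_right ?_ hL2.le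
    have t1 : C1 * ((Dg : ℝ) + 1) ≤ C1 * (Qa + Dg + N + 1) :=
      mul_le_mul_of_nonneg_left (by linarith) hC1.le
    have t2 : 4 * C0 * C2 * (Qa + N + 1) ≤ 4 * C0 * C2 * (Qa + Dg + N + 1) :=
      mul_le_mul_of_nonneg_left (by linarith) (by positivity)
    have t3 := mul_le_mul_of_nonneg_right (hCb hc0) (show 0 ≤ Qa + Dg + N + 1 by positivity)
    nlinarith
  · intro a ha c hc X0 hX
    have hc0 := hC0 a ha
    have q := s5_card_surv_quarter hM.valid hM.hl hM.hDg X0 hX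
    have m3 := H3 α N Qa S Vd (A a) (A c) j b hM.hl hM.valid.sub hM.maj (hM.A_arr a ha) (hM.A_arr c hc)
      (hM.A_nonneg a ha) (hM.A_nonneg c hc) (fun p hp => by
        obtain ⟨h1, h2⟩ := hmem p hp
        have j1 := hM.maj.j_nonneg _ h1
        have j2 := hM.maj.j_nonneg _ h2
        have b12 := hM.maj.b_nonneg _ h1 _ h2
        have hs := (hM.small p hp).trans hM.hεs
        have : j p.1 * j p.2 ≤ j p.1 * 1 := mul_le_mul_of_nonneg_left (by linarith) j1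
        linarith)
    have pw : ∀ p ∈ Vd, Rt p a c ^ 2 ≤ 4 * (A a p.1 * A c p.2) ^ 2 + 4 * (A c p.1 * A a p.2) ^ 2
        + 2 * C0 ^ 2 * s5TailMaj S.card (A a) (A c) j b p ^ 2 := by
      intro p hp
      have e0 := hsplit p hp a ha c hc
      have e1 := pow_le_pow_left₀ (abs_nonneg _) e0 2
      rw [sq_abs] at e1
      refine e1.trans ?_
      nlinarith [sq_nonneg (C0 * s5TailMaj S.card (A a) (A c) j b p - A a p.1 * A c p.2
        - A a p.2 * A c p.1), sq_nonneg (A a p.1 * A c p.2 - A a p.2 * A c p.1)]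
    have s1 : ∑ p ∈ s5Surv Vd X0, Rt p a c ^ 2 ≤ ∑ p ∈ Vd, (4 * (A a p.1 * A c p.2) ^ 2
        + 4 * (A c p.1 * A a p.2) ^ 2 + 2 * C0 ^ 2 * s5TailMaj S.card (A a) (A c) j b p ^ 2) := by
      refine le_trans (Finset.sum_le_sum fun p hp => pw p (s5c_surv_sub Vd X0 hp)) ?_
      exact Finset.sum_le_sum_of_subset_of_nonneg (s5c_surv_sub Vd X0) fun p _ _ => by positivity
    have s2 : ∑ p ∈ Vd, (A a p.1 * A c p.2) ^ 2 ≤ C0 * C0 :=
      le_trans (Finset.sum_le_sum_of_subset_of_nonneg hM.valid.sub fun p _ _ => by positivity)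
        ((s5ta_sum_sq_le S (A a) (A c)).trans (mul_le_mul (hM.A_arr a ha).sq (hM.A_arr c hc).sq
          (Finset.sum_nonneg fun x _ => sq_nonneg _) hc0))
    have s3 : ∑ p ∈ Vd, (A c p.1 * A a p.2) ^ 2 ≤ C0 * C0 :=
      le_trans (Finset.sum_le_sum_of_subset_of_nonneg hM.valid.sub fun p _ _ => by positivity)
        ((s5ta_sum_sq_le S (A c) (A a)).trans (mul_le_mul (hM.A_arr c hc).sq (hM.A_arr a ha).sq
          (Finset.sum_nonneg fun x _ => sq_nonneg _) hc0))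
    have s4 : ∑ p ∈ s5Surv Vd X0, Rt p a c ^ 2 ≤ 8 * C0 ^ 2 + 2 * C0 ^ 2 * (C3 * (N + 1)) := by
      refine s1.trans ?_
      rw [Finset.sum_add_distrib, Finset.sum_add_distrib, ← Finset.mul_sum, ← Finset.mul_sum,
        ← Finset.mul_sum]
      have := mul_le_mul_of_nonneg_left m3 (show 0 ≤ 2 * C0 ^ 2 by positivity)
      nlinarith
    have hq0 : (0 : ℝ) < (S.card : ℝ) ^ 2 / 4 := by positivity
    have hnum : 0 ≤ 8 * C0 ^ 2 + 2 * C0 ^ 2 * (C3 * (N + 1)) := by positivity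
    unfold avgOn
    calc (∑ p ∈ s5Surv Vd X0, Rt p a c ^ 2) / ((s5Surv Vd X0).card : ℝ)
        ≤ (8 * C0 ^ 2 + 2 * C0 ^ 2 * (C3 * (N + 1))) / ((s5Surv Vd X0).card : ℝ) :=
          div_le_div_of_nonneg_right s4 (Nat.cast_nonneg _)
      _ ≤ (8 * C0 ^ 2 + 2 * C0 ^ 2 * (C3 * (N + 1))) / ((S.card : ℝ) ^ 2 / 4) :=
          div_le_div_of_nonneg_left hnum hq0 q
      _ = (32 * C0 ^ 2 + 8 * C0 ^ 2 * C3 * (N + 1)) / (S.card : ℝ) ^ 2 := by
          field_simp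
          ring
      _ ≤ C * (N + 1) / (S.card : ℝ) ^ 2 := by
          refine div_le_div_of_nonneg_right ?_ hL2.le
          have t1 : 32 * C0 ^ 2 ≤ 32 * C0 ^ 2 * (N + 1) := by
            have : 32 * C0 ^ 2 * 1 ≤ 32 * C0 ^ 2 * (N + 1) :=
              mul_le_mul_of_nonneg_left (by linarith) (by positivity)
            linarith
          have t3 := mul_le_mul_of_nonneg_right (hCc hc0) (show 0 ≤ N + 1 by positivity)
          nlinarith

namespace PPair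

variable {n d : ℕ} (π : PPair n d)

/-- index set of `TZ` -/
def s5TZidx (L : ℕ) : Finset (ℕ × ℕ) := (range L ×ˢ range L).filter fun k => L ≤ k.1 + k.2 + 1

/-- the two families of arrays of `TZ` -/
noncomputable def s5TZf (σ h : ℝ) (k : ℕ × ℕ) (a x : Label n d) : ℝ := -(σ * h) * (σ * h) ^ (k.1 + k.2) * π.qEnt k.1 a x
noncomputable def s5TZg (k : ℕ × ℕ) (c y : Label n d) : ℝ := π.qEnt k.2 y c

theorem s5_TZ_eq (L : ℕ) (σ h : ℝ) (u v : Stub n d) (a c : Label n d) :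
    π.TZ L σ h u v a c = ∑ k ∈ s5TZidx L, (π.s5TZf σ h k a (.stub u) * π.s5TZg k c (.stub v)
      + π.s5TZf σ h k a (.stub v) * π.s5TZg k c (.stub u)) := by
  unfold TZ s5TZidx s5TZf s5TZg
  rw [Finset.sum_filter, Finset.sum_product, Finset.mul_sum]
  refine Finset.sum_congr rfl fun k₁ _ => ?_
  rw [Finset.mul_sum]
  refine Finset.sum_congr rfl fun k₂ _ => ?_
  split_ifs
  · ring
  · ring

theorem s5_TZf_cent (σ h : ℝ) (k : ℕ × ℕ) (a : Label n d) : ∑ x ∈ π.s5S, π.s5TZf σ h k a x = 0 := by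
  unfold s5S s5TZf
  rw [Finset.sum_image (fun x _ y _ hxy => by cases hxy; rfl), ← Finset.mul_sum, sum_qEnt, mul_zero]

theorem s5_TZg_cent (k : ℕ × ℕ) (c : Label n d) : ∑ y ∈ π.s5S, π.s5TZg k c y = 0 := by
  unfold s5S s5TZg
  rw [Finset.sum_image (fun x _ y _ hxy => by cases hxy; rfl)]
  simp only [π.ft_qEnt_comm k.2 _ c]
  exact π.sum_qEnt k.2 c

/-- `∑_k |f_k(a,x)| |g_k(c,y)| ≤ pAbs(a,x) pAbs(c,y) ≤ A_a(x) A_c(y)` (`h ≤ 1`) -/
theorem s5_TZ_maj (hd : 3 ≤ d) (hn : 0 < n) (hl : 0 < π.l) (L : ℕ) (σ h : ℝ) (hσ : σ ^ 2 = 1) (hh : 0 ≤ h) (hh1 : h ≤ 1)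
    (a c : Label n d) (x y : Stub n d) :
    ∑ k ∈ s5TZidx L, |π.s5TZf σ h k a (.stub x)| * |π.s5TZg k c (.stub y)| ≤
      π.s5A L h a (.stub x) * π.s5A L h c (.stub y) := by
  have hA : π.pAbs L h a (.stub x) ≤ π.s5A L h a (.stub x) := π.s43v_pAbs_le_Amaj hd hn hl L h hh a x
  have hC : π.pAbs L h c (.stub y) ≤ π.s5A L h c (.stub y) := π.s43v_pAbs_le_Amaj hd hn hl L h hh c y
  refine le_trans ?_ (mul_le_mul hA hC (π.ft_pAbs_nonneg L hh _ _)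
    ((π.ft_pAbs_nonneg L hh _ _).trans hA))
  unfold pAbs
  rw [Finset.sum_mul_sum, ← Finset.sum_product']
  unfold s5TZidx
  refine le_trans (Finset.sum_le_sum_of_subset_of_nonneg (Finset.filter_subset _ _)
    (fun k _ _ => mul_nonneg (abs_nonneg _) (abs_nonneg _))) (Finset.sum_le_sum fun k _ => ?_)
  unfold s5TZf s5TZg
  rw [abs_mul, abs_mul, abs_neg, abs_pow, ft_abs_sigma_mul σ h hσ hh, π.ft_qEnt_comm k.2 (.stub y) c,
    pow_add]
  have h1 : 0 ≤ h ^ k.1 * h ^ k.2 * |π.qEnt k.1 a (.stub x)| * |π.qEnt k.2 c (.stub y)| := by positivity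
  calc h * (h ^ k.1 * h ^ k.2) * |π.qEnt k.1 a (.stub x)| * |π.qEnt k.2 c (.stub y)|
      = h * (h ^ k.1 * h ^ k.2 * |π.qEnt k.1 a (.stub x)| * |π.qEnt k.2 c (.stub y)|) := by ring
    _ ≤ 1 * (h ^ k.1 * h ^ k.2 * |π.qEnt k.1 a (.stub x)| * |π.qEnt k.2 c (.stub y)|) :=
        mul_le_mul_of_nonneg_right hh1 h1
    _ = h ^ k.1 * |π.qEnt k.1 a (.stub x)| * (h ^ k.2 * |π.qEnt k.2 c (.stub y)|) := by ring

/-- PART 2: the decomposition.  `C` = the constant of `s5_tailMaj_le`. -/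
theorem s5_tail_decomp : ∃ C : ℝ, 0 < C ∧ ∀ {n d : ℕ} (π : PPair n d) (L : ℕ) (σ h : ℝ) (u v : Stub n d) (a c : Label n d),
    3 ≤ d → 0 < n → 4 ≤ π.l → σ ^ 2 = 1 → 0 < h → h ≤ 1 → π.Unres u → π.Unres v → u ≠ v →
    π.jmaj (Cmaj d) L h u + π.jmaj (Cmaj d) L h v + π.bmaj (Cmaj d) L h u v ≤ 1 / 16 →
    |π.s5Rt L σ h (lblP (u, v)) a c - π.TZ L σ h u v a c| ≤
      C * s5TailMaj π.l (π.s5A L h a) (π.s5A L h c) (π.s5j L h) (π.s5b L h) (lblP (u, v)) := by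
  obtain ⟨C, hC, hmaj⟩ := s5_tailMaj_le
  refine ⟨C, hC, ?_⟩
  intro n d π L σ h u v a c hd hn hl4 hσ hh hh1 hu hv huv hsm
  have hl : 0 < π.l := by omega
  have hju : 0 ≤ π.jmaj (Cmaj d) L h u :=
    (π.ft_TAbs_nonneg L hh.le u u).trans (π.s43v_TAbs_self_le hd hn hl L h hh.le u)
  have hjv : 0 ≤ π.jmaj (Cmaj d) L h v :=
    (π.ft_TAbs_nonneg L hh.le v v).trans (π.s43v_TAbs_self_le hd hn hl L h hh.le v)
  have hb : 0 ≤ π.bmaj (Cmaj d) L h u v :=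
    (π.ft_TAbs_nonneg L hh.le u v).trans (π.s43v_TAbs_le_bmaj hd hn hl L h hh.le u v huv)
  have hAn : ∀ (e : Label n d) (x : Stub n d), 0 ≤ π.Amaj (Cmaj d) L h e x := fun e x =>
    (π.ft_pAbs_nonneg L hh.le e (.stub x)).trans (π.s43v_pAbs_le_Amaj hd hn hl L h hh.le e x)
  have hT : TBHyp π.l (-1) h (-(!![π.s5j L h (lblP (u, v)).1, π.s5b L h (lblP (u, v)).1 (lblP (u, v)).2;
      π.s5b L h (lblP (u, v)).1 (lblP (u, v)).2, π.s5j L h (lblP (u, v)).2])) :=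
    { hl := hl4
      hσ := by norm_num
      hh := hh
      hh1 := hh1
      sym := by simp
      small := by
        intro i j
        rw [Matrix.neg_apply, abs_neg]
        fin_cases i <;> fin_cases j <;>
          simp only [lblP, s5j, s5b, Fin.zero_eta, Fin.mk_one, Matrix.of_apply, Matrix.cons_val_zero,
            Matrix.cons_val_one, Matrix.cons_val', Matrix.cons_val_fin_one] <;>
          rw [abs_of_nonneg (by assumption)] <;> linarith }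
  have h1 := tail_decomp hu hv huv hn L σ h hσ a c
    (pvec (π.s5A L h a) (lblP (u, v)).1 (lblP (u, v)).2)
    (pvec (π.s5A L h c) (lblP (u, v)).1 (lblP (u, v)).2) _ hT
    (fun s => by
      fin_cases s
      · exact π.s43v_pAbs_le_Amaj hd hn hl L h hh.le a u
      · exact π.s43v_pAbs_le_Amaj hd hn hl L h hh.le a v)
    (fun s => by
      fin_cases s
      · exact π.s43v_pAbs_le_Amaj hd hn hl L h hh.le c u
      · exact π.s43v_pAbs_le_Amaj hd hn hl L h hh.le c v)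
    (fun s s' => by
      fin_cases s <;> fin_cases s'
      · exact π.s43v_TAbs_self_le hd hn hl L h hh.le u
      · exact π.s43v_TAbs_le_bmaj hd hn hl L h hh.le u v huv
      · have e : π.TAbs L h v u = π.TAbs L h u v :=
          Finset.sum_congr rfl fun k _ => by rw [ft_tCoef_comm]
        exact e.le.trans (π.s43v_TAbs_le_bmaj hd hn hl L h hh.le u v huv)
      · exact π.s43v_TAbs_self_le hd hn hl L h hh.le v)
  exact h1.trans (hmaj (Label n d) π.l h (π.s5A L h a) (π.s5A L h c) (π.s5j L h) (π.s5b L h)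
    (lblP (u, v)) hT (hAn a u) (hAn a v) (hAn c u) (hAn c v) hju hjv hb)

end PPair

theorem s5tl_arr_mono {α : Type} {C0 C1 : ℝ} {S : Finset α} {a : α → ℝ} (h : S5Arr C0 S a) (hC : C0 ≤ C1) :
    S5Arr C1 S a :=
  ⟨h.sq.trans hC, fun x hx => (h.sup x hx).trans hC⟩

theorem s5tl_maj_mono {α : Type} {C0 C1 N Qa : ℝ} {S : Finset α} {j : α → ℝ} {b : α → α → ℝ}
    (h : S5Maj C0 N Qa S j b) (hC : C0 ≤ C1) : S5Maj C1 N Qa S j b :=
  { j_nonneg := h.j_nonneg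
    b_nonneg := h.b_nonneg
    b_symm := h.b_symm
    j_sq := h.j_sq
    j_sum := h.j_sum
    b_sq := fun x hx => (h.b_sq x hx).trans hC
    b_sum := h.b_sum }

theorem s5tl_majOK_mono {α : Type} [DecidableEq α] {C0 C1 N Qa εs : ℝ} {S Al : Finset α} {Vd : Finset (α × α)}
    {Dg : ℕ} {A : α → α → ℝ} {j : α → ℝ} {b : α → α → ℝ} (h : S5MajOK C0 N Qa εs S Al Vd Dg A j b)
    (hC : C0 ≤ C1) : S5MajOK C1 N Qa εs S Al Vd Dg A j b :=
  { valid := h.valid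
    hl := h.hl
    hDg := h.hDg
    A_arr := fun a ha => s5tl_arr_mono (h.A_arr a ha) hC
    A_nonneg := h.A_nonneg
    maj := s5tl_maj_mono h.maj hC
    small := h.small
    hεs := h.hεs }

theorem s5tl_tailMaj_nonneg {α : Type} (l : ℕ) (A B j : α → ℝ) (b : α → α → ℝ) (p : α × α)
    (hA1 : 0 ≤ A p.1) (hA2 : 0 ≤ A p.2) (hB1 : 0 ≤ B p.1) (hB2 : 0 ≤ B p.2) (hj1 : 0 ≤ j p.1) (hj2 : 0 ≤ j p.2)
    (hb : 0 ≤ b p.1 p.2) : 0 ≤ s5TailMaj l A B j b p := by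
  unfold s5TailMaj
  positivity

/-- THE TAIL FIELDS at a pairing whose majorants satisfy `S5MajOK` -/
theorem s5_tail_fields (C0 : ℝ) : ∃ C : ℝ, 0 < C ∧ ∀ {n d : ℕ} (π : PPair n d) (L g Dg : ℕ) (σ h N Qa εs : ℝ),
    3 ≤ d → 0 < n → σ ^ 2 = 1 → 0 < h → h ≤ 1 →
    S5MajOK C0 N Qa εs π.s5S (π.s5G ∪ π.s5S) (π.s5Vd g) Dg (π.s5A L h) (π.s5j L h) (π.s5b L h) →
    (∀ p ∈ π.s5Vd g, ∀ a ∈ π.s5G ∪ π.s5S, ∀ c ∈ π.s5G ∪ π.s5S,
      |π.s5Rt L σ h p a c| ≤ C * (π.s5A L h a p.1 + π.s5A L h a p.2)) ∧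
    (∀ a ∈ π.s5G ∪ π.s5S, ∀ c ∈ π.s5G ∪ π.s5S, ∀ X0 : Finset (Label n d), X0 ⊆ π.s5S → X0.card ≤ 2 →
      |avgOn (s5Surv (π.s5Vd g) X0) (fun p => π.s5Rt L σ h p a c)| ≤ C * (Qa + Dg + N + 1) / (π.l : ℝ) ^ 2) ∧
    (∀ a ∈ π.s5G ∪ π.s5S, ∀ c ∈ π.s5G ∪ π.s5S, ∀ X0 : Finset (Label n d), X0.card ≤ 2 →
      avgOn (s5Surv (π.s5Vd g) X0) (fun p => π.s5Rt L σ h p a c ^ 2) ≤ C * (N + 1) / (π.l : ℝ) ^ 2) := by
  obtain ⟨Cd, hCd, hdec⟩ := PPair.s5_tail_decomp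
  obtain ⟨C, hC, habs⟩ := s5_tail_abs (max C0 Cd)
  refine ⟨C, hC, ?_⟩
  intro n d π L g Dg σ h N Qa εs hd hn hσ hh hh1 H
  have hcard : π.s5S.card = π.l := π.s5_card_S
  have hl32 : 32 ≤ π.l := hcard ▸ H.hl
  have H' := s5tl_majOK_mono H (le_max_left C0 Cd)
  have key := habs (Label n d) (ℕ × ℕ) N Qa εs π.s5S (π.s5G ∪ π.s5S) (π.s5Vd g) Dg (π.s5A L h) (π.s5j L h)
    (π.s5b L h) (π.s5Rt L σ h) (PPair.s5TZidx L) (π.s5TZf σ h) π.s5TZg H'
    (fun k _ a _ => π.s5_TZf_cent σ h k a) (fun k _ a _ => π.s5_TZg_cent k a) ?_ ?_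
  · rw [hcard] at key; exact key
  · intro a _ c _ x hx y hy
    obtain ⟨x', -, rfl⟩ := Finset.mem_image.1 hx
    obtain ⟨y', -, rfl⟩ := Finset.mem_image.1 hy
    exact π.s5_TZ_maj hd hn (by omega) L σ h hσ hh.le hh1 a c x' y'
  · intro p hp a ha c hc
    obtain ⟨⟨u, v⟩, huv, rfl⟩ := Finset.mem_image.1 hp
    have hoff := H.valid.sub hp
    rw [Finset.mem_offDiag] at hoff
    have hu : π.Unres u := (π.s5_stub_mem_S u).1 hoff.1
    have hv : π.Unres v := (π.s5_stub_mem_S v).1 hoff.2.1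
    have hne : u ≠ v := fun e => hoff.2.2 (by rw [e]; rfl)
    have hsm := (H.small _ hp).trans H.hεs
    have h1 := hdec π L σ h u v a c hd hn (by omega) hσ hh hh1 hu hv hne hsm
    rw [π.s5_TZ_eq] at h1
    rw [hcard]
    refine h1.trans (mul_le_mul_of_nonneg_right (le_max_right _ _) ?_)
    exact s5tl_tailMaj_nonneg _ _ _ _ _ _ (H.A_nonneg a ha _ hoff.1) (H.A_nonneg a ha _ hoff.2.1)
      (H.A_nonneg c hc _ hoff.1) (H.A_nonneg c hc _ hoff.2.1) (H.maj.j_nonneg _ hoff.1)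
      (H.maj.j_nonneg _ hoff.2.1) (H.maj.b_nonneg _ hoff.1 _ hoff.2.1)

end Claimed.Agent.R275
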