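import Claimed.Agent.R275.S5Main
import Claimed.Agent.R275.S5Near
import Claimed.Agent.R275.S5Tail

/-!
# Row 275, Sec 5, package S5Cur (LAYER C): a current early state satisfies the hypotheses of the abstract layer B

Owner of the statements: helper11.  NO paper: every field is a citation of an export of Sec 4 (S43V, S43W, S43T, S44B, S4Cor), of `S5EnA` (bridge),
`S5Near` (graph facts), `S5Tail`, or of the caps in `PPair.S5St`.  "Eventually in `n`" is handled by `filter_upwards`.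

SOURCES, field by field.
`S5MajOK`   valid: `S5St.valid` + `s5_valid_lbl`;  hl, hDg: `l ≥ l₀ → ∞`, `s42Dg ≤ 2 d² n^{.002a}`;  A_arr: `s43v_sum_Amaj_sq_le`, `s43v_Amaj_le_one_add`;
            maj: `s43v_sum_jmaj_sq_le`, `s43v_sum_jmaj_le`, `s4c_bmaj_rows` (`3 Cmaj (1+L)² ≤ n^{η1}`), `s6_bmaj_symm`, `s43v_maj_nonneg`;  small: `s43v_adm_decay`.
`S5TabOK`   symmetry/centring: `S5EnA`;  P_le: `abs_pEnt_le` + `s43v_pAbs_le_Amaj`;  Tdiag/Toff: `s5tab_Tm_abs_le` + `s43v_TAbs_self_le`, `s43v_TAbs_le_bmaj`;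
            E_le: caps;  E_row: `s4c_rows`;  diagD: `(T+E)² ≤ 2T²+2E²`, `j_sq`, `TSBd`;  opW, opP: `s4c_opnorms` + `s5_opLE_of_s7` + `s5tab_Dm_apply`, `s5tab_Tm_apply`;
            trD: `s5tab_trS_Dm` + caps;  tailSup: `s43t_tail_le`;  tailRow/Mean/Sq: `s5_tail_fields`.
`S5HiHyp`   kernels: Prow from `P_le`, `A_arr`; Pcol: `s44b_col_sq` (global labels; positivity at both signs from the caps) + Prow of the label `x` (stub labels, symmetry);
            Psup1/2: `s4c_rows` (`|p| ≤ 1 + n^{-a/4000}`), `h < q^{-1/2} ≤ 2^{-1/2}`;  far: `s44b_far_small` with `R = 11` (`2^{-13/2} < 1/60`);  opp: `s5_far_sub` + `s5_far_decay`;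
            near relation: `S5Near`;  next states: `s5_S_resolve`, `s5nxt_lblP`;  increments: `s5_hi_incr` + `s5tab_E2` + `s5_cur_upd`.
-/

set_option autoImplicit false

namespace Claimed.Agent.R275

open Matrix Finset Filter

/-! ## scales -/

/-- `Q_a = n^{η1} q^{L/2}` -/
noncomputable def s5cQa (d n : ℕ) (η1 : ℝ) : ℝ := (n : ℝ) ^ η1 * Real.sqrt ((d : ℝ) - 1) ^ Lcut d n
/-- `d_m = n^{.33a}/√l₀` -/
noncomputable def s5cdm (n : ℕ) : ℝ := (n : ℝ) ^ ((33 / 100 : ℝ) * (aa : ℝ)) / Real.sqrt (l0 n)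
/-- tail bound `n^{.30a}/√l₀` -/
noncomputable def s5cBt (n : ℕ) : ℝ := (n : ℝ) ^ ((30 / 100 : ℝ) * (aa : ℝ)) / Real.sqrt (l0 n)
/-- `‖Γ - Π‖ ≤ 2 n^{v_*}/α` -/
noncomputable def s5cZW (d n : ℕ) (h : ℝ) : ℝ := 2 * (n : ℝ) ^ ((125 / 1000 : ℝ) * (aa : ℝ)) / alphaf d h
/-- `‖Ξᵀ P Ξ - Π‖ ≤ 7 d (1+L)³` -/
noncomputable def s5cZP (d n : ℕ) : ℝ := 7 * (d : ℝ) * (1 + (Lcut d n : ℝ)) ^ 3
/-- `|L_1| ≤ n^{.075a}/α_*` -/
noncomputable def s5ctr (d n : ℕ) : ℝ := (n : ℝ) ^ ((75 / 1000 : ℝ) * (aa : ℝ)) / alphaS d n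
/-- the sum of all `O(1/l²)` numerators of the entry mean -/
noncomputable def s5cX (d n : ℕ) (η1 η h : ℝ) : ℝ :=
  s5ctr d n + s5cZW d n h + s5cZP d n + s5cQa d n η1 + (s42Dg d n : ℝ) + 3 * (n : ℝ) ^ η1 + 2 * (n : ℝ) ^ η + 1
/-- column squares of `P` -/
noncomputable def s5cCol (d n : ℕ) (C0 : ℝ) : ℝ := 36 * (1 + (d : ℝ)) * (1 + (Lcut d n : ℝ)) ^ 6 + C0

/-! ## 1. one more decay estimate of Sec 4 type -/

/-- `C n^x ≤ n^y / 2` eventually, `x < y`. -/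
theorem s5c_const_rpow (C x y : ℝ) (h : x < y) : ∀ᶠ n : ℕ in atTop, C * (n : ℝ) ^ x ≤ (n : ℝ) ^ y / 2 := by
  filter_upwards [parF_ev_large (y - x) (by linarith) (2 * C), eventually_ge_atTop 1] with n hn h1
  have hn0 : (0 : ℝ) < (n : ℝ) := by exact_mod_cast h1
  have : (n : ℝ) ^ y = (n : ℝ) ^ x * (n : ℝ) ^ (y - x) := by
    rw [← Real.rpow_add hn0]; congr 1; ring
  rw [this]
  have hx : 0 < (n : ℝ) ^ x := Real.rpow_pos_of_pos hn0 x
  nlinarith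

/-- entries at distance `> g₀ - K` (`K` fixed) are power small: `A ≤ CM z^{g₀-K+1}/(1-z) + 𝖴` (`WalkOK.mult`, `s43v_Umaj_small`, `s43v_Nact_cast`). -/
theorem s5_far_decay (d : ℕ) (hd : 3 ≤ d) (CM CR η : ℝ) (Rc K : ℕ) (c : ℝ) (hc : c < (aa : ℝ) / 1000) :
    ∀ᶠ n : ℕ in atTop, ∀ π : PPair n d, l0 n ≤ π.l → π.WalkOK CM CR η Rc →
      ∀ z : ℝ, 0 ≤ z → z ≤ zq d → ∀ (i : Label n d) (x : Stub n d), π.Far (g0 d n - K) i.vtx x.1 →
        π.Amaj (Cmaj d) (Lcut d n) z i x ≤ (n : ℝ) ^ (-c) := by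
  obtain ⟨hz0, hz1⟩ := s43w_zq_lt_one d hd
  have ha : (0 : ℝ) < (aa : ℝ) := by rw [parF_aa]; norm_num
  filter_upwards [s43w_U_bundle d hd, eventually_ge_atTop 1,
    s5c_const_rpow (|CM| * ((4 * ((d : ℝ) - 1)) ^ (1 / 2 : ℝ) / zq d ^ K / (1 - zq d))) (-((aa : ℝ) / 1000)) (-c)
      (by linarith),
    s4c_rpow_half (-(28 / 100 : ℝ) * (aa : ℝ)) (-c) (by linarith)] with n hU hn hs1 hs2 π hl hW z hz hz' i x hF
  have h1 := PPair.s43w_Aact_far_le hW z (zq d) hz hz' hz1 hF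
  have h2 := (hU π.l hl z hz hz').1
  have h3 := s43w_zq_decay d hd n hn (g0 d n - K + 1 + K) (by omega)
  have hK : 0 < zq d ^ K := pow_pos hz0 K
  have h4 : zq d ^ (g0 d n - K + 1) ≤
      (4 * ((d : ℝ) - 1)) ^ (1 / 2 : ℝ) / zq d ^ K * (n : ℝ) ^ (-((aa : ℝ) / 1000)) := by
    rw [pow_add] at h3
    rw [div_mul_eq_mul_div, le_div_iff₀ hK]
    exact h3
  have h5 : 0 < 1 - zq d := by linarith
  have h6 : 0 ≤ zq d ^ (g0 d n - K + 1) / (1 - zq d) := by positivity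
  have h7 : CM * (zq d ^ (g0 d n - K + 1) / (1 - zq d)) ≤
      |CM| * ((4 * ((d : ℝ) - 1)) ^ (1 / 2 : ℝ) / zq d ^ K / (1 - zq d)) * (n : ℝ) ^ (-((aa : ℝ) / 1000)) := by
    calc CM * (zq d ^ (g0 d n - K + 1) / (1 - zq d)) ≤ |CM| * (zq d ^ (g0 d n - K + 1) / (1 - zq d)) :=
          mul_le_mul_of_nonneg_right (le_abs_self CM) h6
      _ ≤ |CM| * ((4 * ((d : ℝ) - 1)) ^ (1 / 2 : ℝ) / zq d ^ K * (n : ℝ) ^ (-((aa : ℝ) / 1000)) / (1 - zq d)) :=
          mul_le_mul_of_nonneg_left (div_le_div_of_nonneg_right h4 h5.le) (abs_nonneg CM)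
      _ = _ := by ring
  unfold PPair.Amaj
  linarith

/-! ## 2. majorants -/

/-- `4 D_g ≤ l₀` eventually. -/
theorem s5c_Dg_le (d : ℕ) (hd : 3 ≤ d) : ∀ᶠ n : ℕ in atTop, 4 * s42Dg d n ≤ l0 n := by
  have hexp : (2 / 1000 * (aa : ℝ)) < (2 / 3 : ℝ) := by rw [parF_aa]; norm_num
  filter_upwards [parF_ev_large ((2 / 3 : ℝ) - 2 / 1000 * (aa : ℝ)) (by linarith) (16 * (d : ℝ) ^ 2),
    eventually_ge_atTop 1] with n hn h1
  have hn0 : (0 : ℝ) < (n : ℝ) := by exact_mod_cast h1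
  have h2 := (s43w_qg d hd n h1).1
  have h3 := s4c_l0_ge n h1
  have h4 : (n : ℝ) ^ (2 / 3 : ℝ) = (n : ℝ) ^ (2 / 1000 * (aa : ℝ)) * (n : ℝ) ^ ((2 / 3 : ℝ) - 2 / 1000 * (aa : ℝ)) := by
    rw [← Real.rpow_add hn0]; congr 1; ring
  have h5 : 0 < (n : ℝ) ^ (2 / 1000 * (aa : ℝ)) := Real.rpow_pos_of_pos hn0 _
  have h6 : ((4 * s42Dg d n : ℕ) : ℝ) = 8 * (d : ℝ) ^ 2 * ((d : ℝ) - 1) ^ g0 d n := by
    unfold s42Dg
    have : ((d - 1 : ℕ) : ℝ) = (d : ℝ) - 1 := by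
      rw [Nat.cast_sub (by omega)]; simp
    push_cast
    rw [this]; ring
  have h7 : ((4 * s42Dg d n : ℕ) : ℝ) ≤ (l0 n : ℝ) := by
    rw [h6]
    have h8 : 8 * (d : ℝ) ^ 2 * ((d : ℝ) - 1) ^ g0 d n ≤ 8 * (d : ℝ) ^ 2 * (n : ℝ) ^ (2 / 1000 * (aa : ℝ)) :=
      mul_le_mul_of_nonneg_left h2 (by positivity)
    have h9 : (n : ℝ) ^ (2 / 1000 * (aa : ℝ)) * (16 * (d : ℝ) ^ 2) ≤ (n : ℝ) ^ (2 / 3 : ℝ) := by
      rw [h4]; exact mul_le_mul_of_nonneg_left hn h5.le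
    linarith
  exact_mod_cast h7

theorem s5_cur_maj (d : ℕ) (hd : 3 ≤ d) (CM CR ηs η1 c : ℝ) (Rc : ℕ) (hηs : 0 ≤ ηs) (hη1 : ηs < η1) (hc0 : 0 < c)
    (hc : c < (aa : ℝ) / 1000) :
    ∀ᶠ n : ℕ in atTop, ∀ π : PPair n d, l0 n ≤ π.l → π.WalkOK CM CR ηs Rc →
      S5Valid π.unres (π.admSet (g0 d n)) (s42Dg d n) → ∀ z : ℝ, 0 ≤ z → z ≤ zq d →
      S5MajOK (2 * CR + 2) ((n : ℝ) ^ η1) (s5cQa d n η1) ((n : ℝ) ^ (-c)) π.s5S (π.s5G ∪ π.s5S) (π.s5Vd (g0 d n))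
        (s42Dg d n) (π.s5A (Lcut d n) z) (π.s5j (Lcut d n) z) (π.s5b (Lcut d n) z) := by
  have ha : (0 : ℝ) < (aa : ℝ) := by rw [parF_aa]; norm_num
  filter_upwards [s43v_sum_Amaj_sq_le d hd CM CR ηs Rc,
    s43v_Amaj_le_one_add d hd CM CR ηs Rc ((aa : ℝ) / 3000) (by linarith),
    parF_ev_small (-((aa : ℝ) / 3000)) (by linarith) 1 (by norm_num),
    s43v_sum_jmaj_sq_le d hd CM CR ηs η1 Rc hηs hη1, s43v_sum_jmaj_le d hd CM CR ηs η1 Rc hηs hη1,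
    s4c_bmaj_rows d hd CM CR ηs Rc, s43w_master d hd (3 * Cmaj d) 2 0 η1 (by linarith),
    s43v_adm_decay d hd CM CR ηs Rc c hc, parF_ev_small (-c) (by linarith) (1 / 16) (by norm_num),
    s4c_l0_large 32, s5c_Dg_le d hd, eventually_ge_atTop 1]
    with n hA2 hA1 hs1 hj2 hj1 hb hmas hdec hs2 hl32 hDg hn π hl hW hval z hz hz'
  have hC0 : 0 ≤ Cmaj d := s43w_Cmaj_nonneg d
  have hCR : 0 ≤ CR := by
    refine le_trans ?_ (hW.rowsq ⟨0, hn⟩)
    exact Finset.sum_nonneg fun x _ => sq_nonneg _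
  have hnn := fun (i : Label n d) (x y : Stub n d) =>
    π.s43v_maj_nonneg (Cmaj d) hC0 hd (Lcut d n) z hz i x y x.1 y.1
  exact
    { valid := π.s5_valid_lbl hval
      hl := by
        rw [π.s5_card_S]
        have : 32 ≤ l0 n := by exact_mod_cast hl32
        exact this.trans hl
      hDg := by
        rw [π.s5_card_S]
        exact hDg.trans hl
      A_arr := by
        intro a _
        refine ⟨?_, ?_⟩
        · rw [π.s5_sum_S]
          have := hA2 π hl hW z hz hz' a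
          exact this.trans (by linarith)
        · intro x hx
          obtain ⟨x', -, rfl⟩ := Finset.mem_image.1 hx
          have h1 := hA1 π hl hW z hz hz' a x'
          have h2 := (hnn a x' x').2.2.2.1
          show |π.Amaj (Cmaj d) (Lcut d n) z a x'| ≤ _
          rw [abs_of_nonneg h2]
          linarith
      A_nonneg := by
        intro a _ x hx
        obtain ⟨x', -, rfl⟩ := Finset.mem_image.1 hx
        exact (hnn a x' x').2.2.2.1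
      maj :=
        { j_nonneg := by
            intro x hx
            obtain ⟨x', -, rfl⟩ := Finset.mem_image.1 hx
            exact (hnn (.stub x') x' x').2.2.2.2.1
          b_nonneg := by
            intro x hx y hy
            obtain ⟨x', -, rfl⟩ := Finset.mem_image.1 hx
            obtain ⟨y', -, rfl⟩ := Finset.mem_image.1 hy
            exact (hnn (.stub x') x' y').2.2.2.2.2
          b_symm := by
            intro x y
            cases x <;> cases y <;> try rfl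
            exact π.s6_bmaj_symm _ _ _ _ _
          j_sq := by
            rw [π.s5_sum_S]
            exact hj2 π hl hW z hz hz'
          j_sum := by
            rw [π.s5_sum_S]
            exact hj1 π hl hW z hz hz'
          b_sq := by
            intro x hx
            obtain ⟨x', -, rfl⟩ := Finset.mem_image.1 hx
            rw [π.s5_sum_S]
            exact (hb π hl hW z hz hz' x').1
          b_sum := by
            intro x hx
            obtain ⟨x', -, rfl⟩ := Finset.mem_image.1 hx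
            rw [π.s5_sum_S]
            refine ((hb π hl hW z hz hz' x').2).trans ?_
            unfold s5cQa
            rw [Real.rpow_zero, mul_one] at hmas
            exact mul_le_mul_of_nonneg_right hmas (by positivity) }
      small := by
        intro p hp
        obtain ⟨u, v, huv, rfl⟩ := (π.s5_mem_Vd' _ p).1 hp
        exact hdec π hl hW u v huv z hz hz'
      hεs := hs2 }

/-! ## 3. the update formulas apply at every valid pair -/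

theorem s5_cur_upd (d : ℕ) (hd : 3 ≤ d) (P : S5Par) (hcp : 0 < P.cp) (hcp' : P.cp ≤ 1 / 4) (CM CR ηs η cT : ℝ) (Rc : ℕ) :
    ∀ᶠ n : ℕ in atTop, ∀ π : PPair n d, π.S5St P CM CR ηs η Rc cT → ∀ u v : Stub n d, π.Adm (g0 d n) u v →
      ∀ h ∈ trackedList d n P.cp, ∀ s : Bool, π.UpdOK (sgn s) ((h : ℚ) : ℝ) u v := by
  have ha : (0 : ℝ) < (aa : ℝ) := by rw [parF_aa]; norm_num
  filter_upwards [s4c_adm d hd P.cp hcp hcp' CM CR ηs Rc 0 (by positivity), s4c_basic d hd P.cp hcp hcp',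
    s45h_basic d hd 0] with n hadm hbas hα π hSt u v huv h hh s
  obtain ⟨hh0, -, hh1, -, -, -, -, -, -⟩ := hbas h hh
  obtain ⟨-, -, -, hαpos, -, -, -, -, -, -, -, -, hn⟩ := hα
  have hcur : π.Cur P.cp CM CR ηs Rc := hSt.cur hn hαpos
  obtain ⟨-, -, hTB, -, -⟩ := hadm π hcur u v huv h hh s
  exact
    { hn := hn
      hu := huv.1
      hv := huv.2.1
      huv := s4c_adm_ne π huv
      hl := lt_of_lt_of_le (by norm_num) hTB.hl
      hσ := s4c_sgn_sq s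
      hh := hh0.ne'
      hh1 := by nlinarith
      hU := (π.isUnit_of_posOn1 hn _ _ (hcur.caps h hh s).pos).1
      hH := tb_isUnit hTB }

/-! ## 4. the tables -/

theorem s5_cur_tab (d : ℕ) (hd : 3 ≤ d) (cp : ℚ) (hcp : 0 < cp) (hcp' : cp ≤ 1 / 4) (CR : ℝ) : ∃ C0 : ℝ, 1 ≤ C0 ∧
    ∀ (P : S5Par), P.cp = cp → ∀ (CM ηs η1 η c cT : ℝ) (Rc : ℕ), 0 ≤ ηs → ηs < η1 → 0 < c → c < (aa : ℝ) / 1000 →
    ∀ᶠ n : ℕ in atTop, ∀ π : PPair n d, π.S5St P CM CR ηs η Rc cT → ∀ h ∈ trackedList d n cp, ∀ s : Bool,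
      S5TabOK C0 ((n : ℝ) ^ η1) (2 * (n : ℝ) ^ η1 + 2 * (n : ℝ) ^ η) (s5cQa d n η1) (s5cZW d n ((h : ℚ) : ℝ)) (s5cZP d n)
        (s5ctr d n) (s5cdm n) ((n : ℝ) ^ (-c)) (s5cBt n)
        (C0 * (s5cQa d n η1 + (s42Dg d n : ℝ) + (n : ℝ) ^ η1 + 1) / (π.l : ℝ) ^ 2)
        (C0 * ((n : ℝ) ^ η1 + 1) / (π.l : ℝ) ^ 2)
        (π.s5tab (Lcut d n) (sgn s) ((h : ℚ) : ℝ)) (π.s5Vd (g0 d n)) (s42Dg d n)
        (π.s5A (Lcut d n) ((h : ℚ) : ℝ)) (π.s5j (Lcut d n) ((h : ℚ) : ℝ)) (π.s5b (Lcut d n) ((h : ℚ) : ℝ)) := by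
  obtain ⟨Cr, hCr, Hr⟩ := s4c_rows d hd cp hcp hcp' CR
  obtain ⟨Ct, hCt, Ht⟩ := s5_tail_fields (2 * CR + 2)
  obtain ⟨C0, hC0def⟩ : ∃ C0 : ℝ, C0 = max 1 (max (2 * CR + 2) (max Cr Ct)) := ⟨_, rfl⟩
  have hC1 : 2 * CR + 2 ≤ C0 := by
    rw [hC0def]; exact (le_max_left _ _).trans (le_max_right _ _)
  have hC2 : Cr ≤ C0 := by
    rw [hC0def]; exact (le_max_left _ _).trans ((le_max_right _ _).trans (le_max_right _ _))
  have hC3 : Ct ≤ C0 := by
    rw [hC0def]; exact (le_max_right _ _).trans ((le_max_right _ _).trans (le_max_right _ _))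
  refine ⟨C0, by rw [hC0def]; exact le_max_left _ _, ?_⟩
  intro P hP CM ηs η1 η c cT Rc hηs hη1 hc0 hc
  subst hP
  have ha : (0 : ℝ) < (aa : ℝ) := by rw [parF_aa]; norm_num
  filter_upwards [Hr CM ηs Rc, s5_cur_maj d hd CM CR ηs η1 c Rc hηs hη1 hc0 hc, s4c_basic d hd P.cp hcp hcp',
    s4c_opnorms d hd P.cp hcp hcp' CM CR ηs Rc, s43t_tail_le d hd CM CR ηs Rc, s45h_basic d hd 0,
    s4c_Lcut_pos d hd, s4c_E_small (1 / 5) (by norm_num), parF_ev_small (-c) (by linarith) (1 / 32) (by norm_num),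
    parF_ev_small (-(1 / 5 : ℝ)) (by norm_num) (1 / 32) (by norm_num)]
    with n hrow hmaj hbas hop htail hα hLpos hE hs1 hs2 π hSt h hh s
  obtain ⟨hh0, hhz, hh1, -, -, -, -, -, -⟩ := hbas h hh
  obtain ⟨-, -, -, hαpos, -, -, -, -, -, -, -, -, hn⟩ := hα
  have hn1 : (1 : ℝ) ≤ (n : ℝ) := by exact_mod_cast hn
  have hn0 : (0 : ℝ) < (n : ℝ) := by linarith
  have hcur : π.Cur P.cp CM CR ηs Rc := hSt.cur hn hαpos
  have hl : 0 < π.l := lt_of_lt_of_le (s44b_l0_pos n) hcur.l_ge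
  have hσ := s4c_sgn_sq s
  have hM := hmaj π hcur.l_ge hSt.walk hSt.valid _ hh0.le hhz
  obtain ⟨tR, tM, tS⟩ := Ht π (Lcut d n) (g0 d n) (s42Dg d n) (sgn s) ((h : ℚ) : ℝ) ((n : ℝ) ^ η1)
    (s5cQa d n η1) ((n : ℝ) ^ (-c)) hd (by omega) hσ hh0 hh1.le hM
  have hQa : 0 ≤ s5cQa d n η1 := by unfold s5cQa; positivity
  have hNn : 0 ≤ (n : ℝ) ^ η1 := by positivity
  have hTd : ∀ x ∈ π.s5S, |(π.s5tab (Lcut d n) (sgn s) ((h : ℚ) : ℝ)).Tm x x| ≤
      π.s5j (Lcut d n) ((h : ℚ) : ℝ) x := by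
    intro x hx
    obtain ⟨x', -, rfl⟩ := Finset.mem_image.1 hx
    exact (π.s5tab_Tm_abs_le hn hl _ hLpos _ _ hσ hh0.le x' x').trans
      (π.s43v_TAbs_self_le hd hn hl _ _ hh0.le x')
  have hdm : s5cdm n ≤ 1 / 32 := by
    refine le_trans ?_ (hE.trans hs2)
    unfold s5cdm
    exact div_le_div_of_nonneg_right (Real.rpow_le_rpow_of_exponent_le hn1
      (mul_le_mul_of_nonneg_right (by norm_num) ha.le)) (Real.sqrt_nonneg _)
  exact
    { valid := hM.valid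
      hl := hM.hl
      hDg := hM.hDg
      disj := π.s5_disj
      hσ := hσ
      hh := hh0
      hh1 := hh1.le
      Psymm := π.s5tab_Psymm _ _ _
      Esymm := π.s5tab_Esymm _ _ _
      Pcent := fun a _ => π.s5tab_Pcent _ _ _ a
      Ecent := fun a _ => π.s5tab_Ecent _ _ _ a
      P_le := by
        intro a _ x hx
        obtain ⟨x', -, rfl⟩ := Finset.mem_image.1 hx
        exact (π.abs_pEnt_le hn hl _ _ _ hσ hh0.le a x').trans (π.s43v_pAbs_le_Amaj hd hn hl _ _ hh0.le a x')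
      A_arr := fun a ha' => ⟨(hM.A_arr a ha').sq.trans hC1, fun x hx => ((hM.A_arr a ha').sup x hx).trans hC1⟩
      Tdiag_le := hTd
      Toff_le := by
        intro x hx y hy hxy
        obtain ⟨x', -, rfl⟩ := Finset.mem_image.1 hx
        obtain ⟨y', -, rfl⟩ := Finset.mem_image.1 hy
        exact (π.s5tab_Tm_abs_le hn hl _ hLpos _ _ hσ hh0.le x' y').trans
          (π.s43v_TAbs_le_bmaj hd hn hl _ _ hh0.le x' y' fun e => hxy (by rw [e]))
      maj :=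
        { j_nonneg := hM.maj.j_nonneg
          b_nonneg := hM.maj.b_nonneg
          b_symm := hM.maj.b_symm
          j_sq := hM.maj.j_sq
          j_sum := hM.maj.j_sum
          b_sq := fun x hx => (hM.maj.b_sq x hx).trans hC1
          b_sum := hM.maj.b_sum }
      small := hM.small
      E_le := fun a ha' b hb' =>
        (hSt.caps h hh s).hE a b ((π.s5_mem_union a).1 ha') ((π.s5_mem_union b).1 hb')
      E_row := by
        intro a ha'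
        refine le_trans (le_of_eq ?_) (((hrow π hcur h hh s a ((π.s5_mem_union a).1 ha')).1).trans hC2)
        exact π.s5_sum_S fun x => π.Eent (Lcut d n) (sgn s) ((h : ℚ) : ℝ) a x ^ 2
      hsmall := by linarith
      hεs := by positivity
      hdm := by unfold s5cdm; positivity
      diagD := by
        have e1 := s4c_sum_sq_add π.s5S
          (fun x => (π.s5tab (Lcut d n) (sgn s) ((h : ℚ) : ℝ)).Tm x x)
          (fun x => (π.s5tab (Lcut d n) (sgn s) ((h : ℚ) : ℝ)).Em x x)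
        have e2 : ∑ x ∈ π.s5S, (π.s5tab (Lcut d n) (sgn s) ((h : ℚ) : ℝ)).Tm x x ^ 2 ≤ (n : ℝ) ^ η1 := by
          refine le_trans (Finset.sum_le_sum fun x hx => ?_) hM.maj.j_sq
          rw [← sq_abs]
          exact pow_le_pow_left₀ (abs_nonneg _) (hTd x hx) 2
        have e3 : ∑ x ∈ π.s5S, (π.s5tab (Lcut d n) (sgn s) ((h : ℚ) : ℝ)).Em x x ^ 2 ≤ (n : ℝ) ^ η :=
          le_trans (le_of_eq (π.s5tab_TS _ _ _)) (hSt.ts h hh s)
        exact e1.trans (by linarith)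
      opW := π.s5_opLE_of_s7 (hop π hcur h hh s).1 _ fun x y hx hy => π.s5tab_Dm_apply _ _ _ hx hy
      opP := π.s5_opLE_of_s7 (hop π hcur h hh s).2.1 _ fun x y hx hy => π.s5tab_Tm_apply _ _ _ hx hy
      trD := by
        rw [π.s5tab_trS_Dm hl]
        exact (hSt.caps h hh s).hL1
      tailSup := by
        intro p hp a _ b _
        obtain ⟨u, v, huv, rfl⟩ := (π.s5_mem_Vd' _ p).1 hp
        exact htail π hcur.l_ge hSt.walk u v huv _ _ hσ hh0 hhz a b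
      tailRow := by
        intro p hp a ha' b hb'
        have hp' := Finset.mem_offDiag.1 (hM.valid.sub hp)
        exact (tR p hp a ha' b hb').trans (mul_le_mul_of_nonneg_right hC3
          (add_nonneg (hM.A_nonneg a ha' _ hp'.1) (hM.A_nonneg a ha' _ hp'.2.1)))
      tailSymm := π.s5tab_tailSymm _ _ _
      tailMean := by
        intro a ha' b hb'
        refine (tM a ha' b hb' _ Finset.inter_subset_right
          ((Finset.card_le_card Finset.inter_subset_left).trans Finset.card_le_two)).trans ?_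
        exact div_le_div_of_nonneg_right (mul_le_mul_of_nonneg_right hC3 (by positivity)) (by positivity)
      tailSq := by
        intro a ha' b hb'
        refine (tS a ha' b hb' _
          ((Finset.card_le_card Finset.inter_subset_left).trans Finset.card_le_two)).trans ?_
        exact div_le_div_of_nonneg_right (mul_le_mul_of_nonneg_right hC3 (by positivity)) (by positivity) }

/-! ## 5. increments in units of `Be` (abstract) -/

/-- a sum over a subset, divided by the cardinality of the larger set, is bounded by the average -/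
theorem s5ci_sum_div_le {ι : Type} (I J : Finset ι) (hIJ : I ⊆ J) (f : ι → ℝ) (B : ℝ)
    (hB : |avgOn I f| ≤ B) : |∑ p ∈ I, f p| / (J.card : ℝ) ≤ B := by
  have hB0 : 0 ≤ B := (abs_nonneg _).trans hB
  rcases Nat.eq_zero_or_pos I.card with h0 | h0
  · rw [Finset.card_eq_zero.1 h0]
    simpa using hB0
  · have hI : (0 : ℝ) < I.card := by exact_mod_cast h0
    have hJ : (I.card : ℝ) ≤ J.card := by exact_mod_cast Finset.card_le_card hIJ
    have h1 : |∑ p ∈ I, f p| = |avgOn I f| * I.card := by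
      unfold avgOn
      rw [abs_div, abs_of_pos hI]
      field_simp
    rw [h1, div_le_iff₀ (by linarith)]
    calc |avgOn I f| * (I.card : ℝ) ≤ B * I.card := mul_le_mul_of_nonneg_right hB hI.le
      _ ≤ B * J.card := mul_le_mul_of_nonneg_left hJ hB0

theorem s5ci_lin_div {α : Type} (σ h : ℝ) (P z : α → α → ℝ) (Be : ℝ) (p : α × α) (a b : α) :
    s5Lin σ h P (fun x y => z x y / Be) p a b = s5Lin σ h P z p a b / Be := by
  unfold s5Lin
  ring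

theorem s5ci_in_div {α : Type} (z : α → α → ℝ) (Be : ℝ) (hBe : 0 < Be) (p : α × α) (a b : α) :
    s5In (fun x y => z x y / Be) p a b = s5In z p a b / Be := by
  unfold s5In
  simp only [abs_div, abs_of_pos hBe]
  ring

theorem s5ci_in_nonneg {α : Type} (z : α → α → ℝ) (p : α × α) (a b : α) : 0 ≤ s5In z p a b := by
  unfold s5In
  positivity

/-- mean / second moment / linearisation of `z = E / Be`, with the denominator `|Vd|` of the accounts -/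
theorem s5_hi_incr (C0 : ℝ) : ∃ C1 : ℝ, 0 < C1 ∧ ∀ (α : Type) [DecidableEq α]
    (N ND Qa ZW ZP trW dm εs Bt μT VT Be : ℝ) (t : S5Tab α) (Vd : Finset (α × α)) (Dg : ℕ)
    (A : α → α → ℝ) (j : α → ℝ) (b : α → α → ℝ),
    S5TabOK C0 N ND Qa ZW ZP trW dm εs Bt μT VT t Vd Dg A j b → Bt ≤ 1 → 0 < Be →
    ∀ a ∈ t.Al, ∀ c ∈ t.Al,
      |∑ pr ∈ s5Surv Vd (({a, c} : Finset α) ∩ t.S), (t.E2 pr a c / Be - t.E a c / Be)| / (Vd.card : ℝ) ≤
        (C1 * ((trW + ZW + ZP + Qa + Dg + N + ND + 1) / (t.l : ℝ) ^ 2 + 1 / ((t.l : ℝ) * Real.sqrt t.l)) + μT) / Be ∧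
      (∑ pr ∈ s5Surv Vd (({a, c} : Finset α) ∩ t.S), (t.E2 pr a c / Be - t.E a c / Be) ^ 2) / (Vd.card : ℝ) ≤
        C1 * ((N + ND + 1) / (t.l : ℝ) ^ 2 + VT) / Be ^ 2 ∧
      ∀ pr ∈ s5Surv Vd (({a, c} : Finset α) ∩ t.S),
        |t.E2 pr a c / Be - t.E a c / Be - s5Lin t.σ t.h t.P (fun x y => t.E x y / Be) pr a c| ≤
          C1 * (dm ^ 2 + Bt + dm / (t.l : ℝ)) / Be
            + C1 * (εs + 1 / (t.l : ℝ)) * s5In (fun x y => t.E x y / Be) pr a c := by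
  obtain ⟨Cm, hCm, Hm⟩ := s5_en_mean C0
  obtain ⟨Cs, hCs, Hs⟩ := s5_en_sq C0
  obtain ⟨Cl, hCl, Hl⟩ := s5_en_lin C0
  refine ⟨Cm + Cs + Cl, by positivity, ?_⟩
  intro α _ N ND Qa ZW ZP trW dm εs Bt μT VT Be t Vd Dg A j b H hBt hBe a ha c hc
  have hsub : s5Surv Vd (({a, c} : Finset α) ∩ t.S) ⊆ Vd := s5c_surv_sub _ _
  have hl0 : (0 : ℝ) ≤ (t.l : ℝ) := Nat.cast_nonneg _
  have hN : 0 ≤ N := (Finset.sum_nonneg fun x _ => sq_nonneg _).trans H.maj.j_sq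
  have hND : 0 ≤ ND := (Finset.sum_nonneg fun x _ => sq_nonneg _).trans H.diagD
  have hQa : 0 ≤ Qa := (Finset.sum_nonneg fun x hx => H.maj.j_nonneg x hx).trans H.maj.j_sum
  have hZW : 0 ≤ ZW := H.opW.1
  have hZP : 0 ≤ ZP := H.opP.1
  have htr : 0 ≤ trW := (abs_nonneg _).trans H.trD
  have hDg : (0 : ℝ) ≤ (Dg : ℝ) := Nat.cast_nonneg _
  have hsq0 : 0 ≤ avgOn (s5Surv Vd (t.X0 a c)) (fun p => (t.E2 p a c - t.E a c) ^ 2) := by
    unfold avgOn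
    exact div_nonneg (Finset.sum_nonneg fun x _ => sq_nonneg _) (Nat.cast_nonneg _)
  have hVT : 0 ≤ VT := by
    refine le_trans ?_ (H.tailSq a ha c hc)
    unfold avgOn
    exact div_nonneg (Finset.sum_nonneg fun x _ => sq_nonneg _) (Nat.cast_nonneg _)
  refine ⟨?_, ?_, ?_⟩
  · have h1 := Hm α N ND Qa ZW ZP trW dm εs Bt μT VT t Vd Dg A j b H a ha c hc
    have h2 := s5ci_sum_div_le _ Vd hsub _ _ h1
    have e1 : ∑ pr ∈ s5Surv Vd (({a, c} : Finset α) ∩ t.S), (t.E2 pr a c / Be - t.E a c / Be) =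
        (∑ pr ∈ s5Surv Vd (({a, c} : Finset α) ∩ t.S), (t.E2 pr a c - t.E a c)) / Be := by
      rw [Finset.sum_div]
      exact Finset.sum_congr rfl fun pr _ => (sub_div _ _ _).symm
    rw [e1, abs_div, abs_of_pos hBe, div_right_comm]
    refine div_le_div_of_nonneg_right (h2.trans ?_) hBe.le
    have hX : 0 ≤ (trW + ZW + ZP + Qa + Dg + N + ND + 1) / (t.l : ℝ) ^ 2 +
        1 / ((t.l : ℝ) * Real.sqrt t.l) := by positivity
    have : Cm * ((trW + ZW + ZP + Qa + Dg + N + ND + 1) / (t.l : ℝ) ^ 2 +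
        1 / ((t.l : ℝ) * Real.sqrt t.l)) ≤ (Cm + Cs + Cl) * ((trW + ZW + ZP + Qa + Dg + N + ND + 1) / (t.l : ℝ) ^ 2 +
        1 / ((t.l : ℝ) * Real.sqrt t.l)) := mul_le_mul_of_nonneg_right (by linarith) hX
    linarith
  · have h1 := Hs α N ND Qa ZW ZP trW dm εs Bt μT VT t Vd Dg A j b H hBt a ha c hc
    have h2 := s5ci_sum_div_le _ Vd hsub _ _ ((abs_of_nonneg hsq0).le.trans h1)
    have e1 : ∑ pr ∈ s5Surv Vd (({a, c} : Finset α) ∩ t.S), (t.E2 pr a c / Be - t.E a c / Be) ^ 2 =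
        (∑ pr ∈ s5Surv Vd (({a, c} : Finset α) ∩ t.S), (t.E2 pr a c - t.E a c) ^ 2) / Be ^ 2 := by
      rw [Finset.sum_div]
      refine Finset.sum_congr rfl fun pr _ => ?_
      rw [← sub_div, div_pow]
    rw [e1, div_right_comm]
    refine div_le_div_of_nonneg_right (le_trans ?_ (h2.trans ?_)) (by positivity)
    · exact div_le_div_of_nonneg_right (le_abs_self _) (Nat.cast_nonneg _)
    · have hX : 0 ≤ (N + ND + 1) / (t.l : ℝ) ^ 2 + VT := by positivity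
      exact mul_le_mul_of_nonneg_right (by linarith) hX
  · intro pr hpr
    have hprV := hsub hpr
    have h1 := Hl α N ND Qa ZW ZP trW dm εs Bt μT VT t Vd Dg A j b H pr hprV a ha c hc
    have hBt0 : 0 ≤ Bt := (abs_nonneg _).trans (H.tailSup pr hprV a ha c hc)
    have hdm := H.hdm
    have hεs := H.hεs
    have hIn := s5ci_in_nonneg t.E pr a c
    rw [s5ci_lin_div, s5ci_in_div _ _ hBe, ← sub_div, ← sub_div, abs_div, abs_of_pos hBe]
    have e2 : (Cm + Cs + Cl) * (dm ^ 2 + Bt + dm / (t.l : ℝ)) / Be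
        + (Cm + Cs + Cl) * (εs + 1 / (t.l : ℝ)) * (s5In t.E pr a c / Be) =
        ((Cm + Cs + Cl) * (dm ^ 2 + Bt + dm / (t.l : ℝ))
          + (Cm + Cs + Cl) * (εs + 1 / (t.l : ℝ)) * s5In t.E pr a c) / Be := by ring
    rw [e2]
    refine div_le_div_of_nonneg_right (h1.trans ?_) hBe.le
    have hX1 : 0 ≤ dm ^ 2 + Bt + dm / (t.l : ℝ) := by positivity
    have hX2 : 0 ≤ (εs + 1 / (t.l : ℝ)) * s5In t.E pr a c := by positivity
    have g1 : Cl * (dm ^ 2 + Bt + dm / (t.l : ℝ)) ≤ (Cm + Cs + Cl) * (dm ^ 2 + Bt + dm / (t.l : ℝ)) :=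
      mul_le_mul_of_nonneg_right (by linarith) hX1
    have g2 : Cl * ((εs + 1 / (t.l : ℝ)) * s5In t.E pr a c) ≤
        (Cm + Cs + Cl) * ((εs + 1 / (t.l : ℝ)) * s5In t.E pr a c) :=
      mul_le_mul_of_nonneg_right (by linarith) hX2
    linarith

/-! ## 6. the hypotheses of the high-moment step -/

/-- the near radius: `q^{-13/2} ≤ 2^{-13/2} < 1/60` -/
def s5R : ℕ := 11

/-- mean, second moment, residual in units of `Be` at `(n, h, l)` -/
noncomputable def s5cMu (d n : ℕ) (C1 η1 η h Be : ℝ) (l : ℕ) : ℝ :=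
  C1 * (s5cX d n η1 η h / (l : ℝ) ^ 2 + 1 / ((l : ℝ) * Real.sqrt l)) / Be
noncomputable def s5cV (n : ℕ) (C1 η1 η Be : ℝ) (l : ℕ) : ℝ :=
  C1 * ((n : ℝ) ^ η1 + (n : ℝ) ^ η + 1) / ((l : ℝ) ^ 2 * Be ^ 2)
noncomputable def s5cRho (n : ℕ) (C1 Be : ℝ) : ℝ := C1 * (s5cdm n ^ 2 + s5cBt n) / Be

/-- the girth radius tends to infinity (same proof as `s53c_g0_large`, which is not imported here) -/
theorem s5ch_g0_large (d : ℕ) (hd : 3 ≤ d) (K : ℕ) : ∀ᶠ n : ℕ in atTop, K < g0 d n := by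
  have hd' : (3 : ℝ) ≤ d := by exact_mod_cast hd
  have hx : (0 : ℚ) < 2 / 1000 * aa := by unfold aa; norm_num
  have hx' : (0 : ℝ) < ((2 / 1000 * aa : ℚ) : ℝ) := by exact_mod_cast hx
  filter_upwards [parF_ev_large _ hx' (((d : ℝ) - 1) ^ (K + 1) * 2 ^ (((2 / 1000 * aa : ℚ) : ℝ) + 1)),
    eventually_ge_atTop 1] with n hn hn1
  have h := (pow_radius_bounds d hd (2 / 1000 * aa) hx.le n hn1).2
  by_contra hc
  have hg : g0 d n + 1 ≤ K + 1 := by omega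
  have h1 : ((d : ℝ) - 1) ^ (g0 d n + 1) ≤ ((d : ℝ) - 1) ^ (K + 1) := pow_le_pow_right₀ (by linarith) hg
  have h2 : ((d : ℝ) - 1) ^ (K + 1) ≤ (n : ℝ) ^ ((2 / 1000 * aa : ℚ) : ℝ) / 2 ^ (((2 / 1000 * aa : ℚ) : ℝ) + 1) := by
    rw [le_div_iff₀ (by positivity)]; exact hn
  have h3 : ((d : ℝ) - 1) ^ (Nat.log (d - 1) (scN (2 / 1000 * aa) n) + 1) = ((d : ℝ) - 1) ^ (g0 d n + 1) := rfl
  rw [h3] at h
  linarith

/-- `1/l ≤ Bt` -/
theorem s5ch_inv_le_Bt (n l : ℕ) (hn : 1 ≤ n) (hl : l0 n ≤ l) : 1 / (l : ℝ) ≤ s5cBt n := by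
  have hl0 : (1 : ℝ) ≤ l0 n := by exact_mod_cast s44b_l0_pos n
  have hll : (l0 n : ℝ) ≤ l := by exact_mod_cast hl
  have hx : (1 : ℝ) ≤ (n : ℝ) ^ ((30 / 100 : ℝ) * (aa : ℝ)) :=
    Real.one_le_rpow (by exact_mod_cast hn) (by rw [parF_aa]; norm_num)
  have hs0 : 0 < Real.sqrt (l0 n) := Real.sqrt_pos.2 (by linarith)
  have hs : Real.sqrt (l0 n) ≤ l0 n := by
    rw [Real.sqrt_le_left (by linarith)]
    nlinarith
  unfold s5cBt
  calc 1 / (l : ℝ) ≤ 1 / Real.sqrt (l0 n) := one_div_le_one_div_of_le hs0 (hs.trans hll)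
    _ ≤ (n : ℝ) ^ ((30 / 100 : ℝ) * (aa : ℝ)) / Real.sqrt (l0 n) := div_le_div_of_nonneg_right hx hs0.le

/-- `dm/l ≤ dm² + Bt` -/
theorem s5ch_dm_div (n l : ℕ) (hn : 1 ≤ n) (hl : l0 n ≤ l) :
    s5cdm n / (l : ℝ) ≤ s5cdm n ^ 2 + s5cBt n := by
  have h1 := s5ch_inv_le_Bt n l hn hl
  have hl0 : (1 : ℝ) ≤ l0 n := by exact_mod_cast s44b_l0_pos n
  have hll : (l0 n : ℝ) ≤ l := by exact_mod_cast hl
  have hl1 : (1 : ℝ) ≤ l := hl0.trans hll
  have h2 : 1 / (l : ℝ) ≤ 1 := by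
    rw [div_le_one (by linarith)]
    exact hl1
  have h3 : 0 < 1 / (l : ℝ) := by positivity
  have e : s5cdm n / (l : ℝ) = s5cdm n * (1 / (l : ℝ)) := by ring
  rw [e]
  nlinarith [sq_nonneg (s5cdm n - 1 / (l : ℝ))]

/-- `Bt ≤ dm` -/
theorem s5ch_Bt_le_dm (n : ℕ) (hn : 1 ≤ n) : s5cBt n ≤ s5cdm n := by
  unfold s5cBt s5cdm
  refine div_le_div_of_nonneg_right ?_ (Real.sqrt_nonneg _)
  refine Real.rpow_le_rpow_of_exponent_le (by exact_mod_cast hn) ?_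
  rw [parF_aa]
  norm_num

/-- `1/l ≤ 2 n^{-2c}` -/
theorem s5ch_inv_le_pow (n l : ℕ) (hn : 1 ≤ n) (hl : l0 n ≤ l) (c : ℝ) (hc : 2 * c ≤ 2 / 3) :
    1 / (l : ℝ) ≤ 2 * (n : ℝ) ^ (-(2 * c)) := by
  have hn' : (1 : ℝ) ≤ n := by exact_mod_cast hn
  have hn0 : (0 : ℝ) < n := by linarith
  have h1 := s4c_l0_ge n hn
  have hll : (l0 n : ℝ) ≤ l := by exact_mod_cast hl
  have hp : 0 < (n : ℝ) ^ (2 / 3 : ℝ) / 2 := by positivity
  calc 1 / (l : ℝ) ≤ 1 / ((n : ℝ) ^ (2 / 3 : ℝ) / 2) := one_div_le_one_div_of_le hp (h1.trans hll)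
    _ = 2 * (n : ℝ) ^ (-(2 / 3 : ℝ)) := by
        rw [Real.rpow_neg hn0.le]
        field_simp
    _ ≤ 2 * (n : ℝ) ^ (-(2 * c)) := by
        refine mul_le_mul_of_nonneg_left ?_ (by norm_num)
        exact Real.rpow_le_rpow_of_exponent_le hn' (by linarith)

theorem s5ch_num_mean (C0 C1 U Y K : ℝ) (hC0 : 0 < C0) (hC1 : 0 < C1) (hU : 0 ≤ U) (hY : 0 ≤ Y)
    (hK : K ≤ C0 * U) : C1 * (U + Y) + K ≤ (3 * C1 + C1 * C0 + C0) * (U + Y) := by
  have p1 : 0 ≤ C1 * (U + Y) := by positivity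
  have p2 : 0 ≤ C1 * C0 * (U + Y) := by positivity
  have p3 : 0 ≤ C0 * Y := by positivity
  nlinarith

theorem s5ch_num_second (C0 C1 N1 Ne il : ℝ) (hC0 : 0 < C0) (hC1 : 0 < C1) (hN1 : 0 ≤ N1) (hNe : 0 ≤ Ne)
    (hil : 0 ≤ il) :
    C1 * ((N1 + (2 * N1 + 2 * Ne) + 1) * il + C0 * (N1 + 1) * il) ≤
      (3 * C1 + C1 * C0 + C0) * (N1 + Ne + 1) * il := by
  have p1 : 0 ≤ C1 * Ne * il := by positivity
  have p2 : 0 ≤ C1 * il := by positivity
  have p3 : 0 ≤ C1 * C0 * Ne * il := by positivity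
  have p4 : 0 ≤ C0 * (N1 + Ne + 1) * il := by positivity
  nlinarith

theorem s5ch_num_rho (C0 C1 Y D : ℝ) (hC0 : 0 < C0) (hC1 : 0 < C1) (hY : 0 ≤ Y) (hD : D ≤ Y) :
    C1 * (Y + D) ≤ (3 * C1 + C1 * C0 + C0) * Y := by
  have p1 : 0 ≤ C1 * (Y - D) := mul_nonneg hC1.le (by linarith)
  have p2 : 0 ≤ C1 * Y := by positivity
  have p3 : 0 ≤ C1 * C0 * Y := by positivity
  have p4 : 0 ≤ C0 * Y := by positivity
  nlinarith

theorem s5ch_num_eps (C1 w il : ℝ) (hC1 : 0 < C1) (hw : 0 < w) (hil : il ≤ 2 * (w * w))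
    (h3 : w ≤ 1 / (3 * C1)) : C1 * (w * w + il) ≤ w := by
  have k4 : 3 * C1 * w ≤ 1 := by
    rw [le_div_iff₀ (by positivity)] at h3
    linarith
  have p1 : C1 * (w * w + il) ≤ C1 * (3 * (w * w)) := mul_le_mul_of_nonneg_left (by linarith) hC1.le
  have p2 : (3 * C1 * w) * w ≤ 1 * w := mul_le_mul_of_nonneg_right k4 hw.le
  nlinarith

/-- the three increment fields of `S5HiHyp` at a current state (fixed `n`) -/
theorem s5ch_incr (C0 : ℝ) (hC0 : 0 < C0) : ∃ C1 K : ℝ, 0 < C1 ∧ 0 < K ∧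
    ∀ (d n : ℕ) (π : PPair n d) (η1 η c Be hr σ : ℝ), 1 ≤ n → l0 n ≤ π.l → 0 < Be → 2 * c ≤ 2 / 3 →
      (n : ℝ) ^ (-c) ≤ K →
      S5TabOK C0 ((n : ℝ) ^ η1) (2 * (n : ℝ) ^ η1 + 2 * (n : ℝ) ^ η) (s5cQa d n η1) (s5cZW d n hr) (s5cZP d n)
        (s5ctr d n) (s5cdm n) ((n : ℝ) ^ (-(2 * c))) (s5cBt n)
        (C0 * (s5cQa d n η1 + (s42Dg d n : ℝ) + (n : ℝ) ^ η1 + 1) / (π.l : ℝ) ^ 2)
        (C0 * ((n : ℝ) ^ η1 + 1) / (π.l : ℝ) ^ 2)
        (π.s5tab (Lcut d n) σ hr) (π.s5Vd (g0 d n)) (s42Dg d n)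
        (π.s5A (Lcut d n) hr) (π.s5j (Lcut d n) hr) (π.s5b (Lcut d n) hr) →
      (∀ u v : Stub n d, π.Adm (g0 d n) u v → π.UpdOK σ hr u v) →
      ∀ a ∈ π.s5G ∪ π.s5S, ∀ b ∈ π.s5G ∪ π.s5S,
        |∑ pr ∈ s5Surv (π.s5Vd (g0 d n)) (({a, b} : Finset (Label n d)) ∩ π.s5S),
          ((π.s5nxt (Lcut d n) σ hr Be pr).z a b - (π.s5mom (Lcut d n) σ hr Be).z a b)| /
            ((π.s5Vd (g0 d n)).card : ℝ) ≤ s5cMu d n C1 η1 η hr Be π.l ∧
        (∑ pr ∈ s5Surv (π.s5Vd (g0 d n)) (({a, b} : Finset (Label n d)) ∩ π.s5S),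
          ((π.s5nxt (Lcut d n) σ hr Be pr).z a b - (π.s5mom (Lcut d n) σ hr Be).z a b) ^ 2) /
            ((π.s5Vd (g0 d n)).card : ℝ) ≤ s5cV n C1 η1 η Be π.l ∧
        ∀ pr ∈ s5Surv (π.s5Vd (g0 d n)) (({a, b} : Finset (Label n d)) ∩ π.s5S),
          |(π.s5nxt (Lcut d n) σ hr Be pr).z a b - (π.s5mom (Lcut d n) σ hr Be).z a b -
              s5Lin σ hr (π.s5tab (Lcut d n) σ hr).P (π.s5mom (Lcut d n) σ hr Be).z pr a b| ≤
            s5cRho n C1 Be + (n : ℝ) ^ (-c) * s5In (π.s5mom (Lcut d n) σ hr Be).z pr a b := by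
  obtain ⟨C1, hC1, Hinc⟩ := s5_hi_incr C0
  refine ⟨3 * C1 + C1 * C0 + C0, 1 / (3 * C1), by positivity, by positivity, ?_⟩
  intro d n π η1 η c Be hr σ hn hl0 hBe hc hs2 H hUpd a ha b hb
  have hn0 : (0 : ℝ) < n := by exact_mod_cast hn
  have hlpos : (0 : ℝ) < π.l := by
    have := s44b_l0_pos n
    exact_mod_cast (by omega : 0 < π.l)
  have htr : 0 ≤ s5ctr d n := (abs_nonneg _).trans H.trD
  have hZW : 0 ≤ s5cZW d n hr := H.opW.1
  have hZP : 0 ≤ s5cZP d n := H.opP.1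
  have hQa : 0 ≤ s5cQa d n η1 := (Finset.sum_nonneg fun x hx => H.maj.j_nonneg x hx).trans H.maj.j_sum
  have hDg : (0 : ℝ) ≤ (s42Dg d n : ℝ) := Nat.cast_nonneg _
  have hN1 : 0 ≤ (n : ℝ) ^ η1 := by positivity
  have hNe : 0 ≤ (n : ℝ) ^ η := by positivity
  have hX : 0 ≤ s5cX d n η1 η hr := by unfold s5cX; positivity
  have hBt0 : 0 ≤ s5cBt n := by unfold s5cBt; positivity
  have hBt1 : s5cBt n ≤ 1 := by
    have h1 := s5ch_Bt_le_dm n hn
    have h2 := H.dm_le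
    linarith
  have hz : ∀ pr ∈ s5Surv (π.s5Vd (g0 d n)) (({a, b} : Finset (Label n d)) ∩ π.s5S),
      (π.s5nxt (Lcut d n) σ hr Be pr).z a b = (π.s5tab (Lcut d n) σ hr).E2 pr a b / Be := by
    intro pr hpr
    obtain ⟨u, v, hadm, rfl⟩ := (π.s5_mem_Vd' _ pr).1 (s5c_surv_sub _ _ hpr)
    rw [PPair.s5tab_E2 (hUpd u v hadm) (Lcut d n) ((π.s5_mem_union a).1 ha) ((π.s5_mem_union b).1 hb)]
    rfl
  obtain ⟨hm, hs, hlin⟩ := Hinc (Label n d) _ _ _ _ _ _ _ _ _ _ _ Be _ _ _ _ _ _ H hBt1 hBe a ha b hb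
  rw [π.s5tab_l] at hm hs hlin
  refine ⟨?_, ?_, ?_⟩
  · have e : ∑ pr ∈ s5Surv (π.s5Vd (g0 d n)) (({a, b} : Finset (Label n d)) ∩ π.s5S),
        ((π.s5nxt (Lcut d n) σ hr Be pr).z a b - (π.s5mom (Lcut d n) σ hr Be).z a b) =
        ∑ pr ∈ s5Surv (π.s5Vd (g0 d n)) (({a, b} : Finset (Label n d)) ∩ π.s5S),
        ((π.s5tab (Lcut d n) σ hr).E2 pr a b / Be - (π.s5tab (Lcut d n) σ hr).E a b / Be) :=
      Finset.sum_congr rfl fun pr hpr => by
        rw [hz pr hpr]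
        rfl
    rw [e]
    refine hm.trans ?_
    unfold s5cMu
    refine div_le_div_of_nonneg_right ?_ hBe.le
    have e1 : s5ctr d n + s5cZW d n hr + s5cZP d n + s5cQa d n η1 + (s42Dg d n : ℝ) + (n : ℝ) ^ η1 +
        (2 * (n : ℝ) ^ η1 + 2 * (n : ℝ) ^ η) + 1 = s5cX d n η1 η hr := by
      unfold s5cX; ring
    rw [e1]
    have k1 : C0 * (s5cQa d n η1 + (s42Dg d n : ℝ) + (n : ℝ) ^ η1 + 1) / (π.l : ℝ) ^ 2 ≤
        C0 * (s5cX d n η1 η hr / (π.l : ℝ) ^ 2) := by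
      rw [mul_div_assoc]
      refine mul_le_mul_of_nonneg_left (div_le_div_of_nonneg_right ?_ (by positivity)) hC0.le
      unfold s5cX
      linarith
    exact s5ch_num_mean C0 C1 _ _ _ hC0 hC1 (by positivity) (by positivity) k1
  · have e : ∑ pr ∈ s5Surv (π.s5Vd (g0 d n)) (({a, b} : Finset (Label n d)) ∩ π.s5S),
        ((π.s5nxt (Lcut d n) σ hr Be pr).z a b - (π.s5mom (Lcut d n) σ hr Be).z a b) ^ 2 =
        ∑ pr ∈ s5Surv (π.s5Vd (g0 d n)) (({a, b} : Finset (Label n d)) ∩ π.s5S),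
        ((π.s5tab (Lcut d n) σ hr).E2 pr a b / Be - (π.s5tab (Lcut d n) σ hr).E a b / Be) ^ 2 :=
      Finset.sum_congr rfl fun pr hpr => by
        rw [hz pr hpr]
        rfl
    rw [e]
    refine hs.trans ?_
    unfold s5cV
    rw [← div_div]
    refine div_le_div_of_nonneg_right ?_ (by positivity)
    simp only [div_eq_mul_inv]
    exact s5ch_num_second C0 C1 _ _ _ hC0 hC1 hN1 hNe (by positivity)
  · intro pr hpr
    have h1 := hlin pr hpr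
    rw [hz pr hpr]
    refine le_trans h1 (add_le_add ?_ (mul_le_mul_of_nonneg_right ?_ (s5ci_in_nonneg _ _ _ _)))
    · unfold s5cRho
      refine div_le_div_of_nonneg_right ?_ hBe.le
      exact s5ch_num_rho C0 C1 _ _ hC0 hC1 (by positivity) (s5ch_dm_div n π.l hn hl0)
    · have k1 := s5ch_inv_le_pow n π.l hn hl0 c hc
      have k2 : (n : ℝ) ^ (-(2 * c)) = (n : ℝ) ^ (-c) * (n : ℝ) ^ (-c) := by
        rw [← Real.rpow_add hn0]
        congr 1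
        ring
      rw [k2] at k1 ⊢
      exact s5ch_num_eps C1 _ _ hC1 (by positivity) k1 hs2

theorem s5_cur_hi (d : ℕ) (hd : 3 ≤ d) (cp : ℚ) (hcp : 0 < cp) (hcp' : cp ≤ 1 / 4) (CR : ℝ) : ∃ C0 C1 : ℝ, 1 ≤ C0 ∧ 0 < C1 ∧
    ∀ (P : S5Par), P.cp = cp → ∀ (CM ηs η1 η c cT : ℝ) (Rc : ℕ), 0 ≤ ηs → ηs < η1 → 0 ≤ η → 0 < c → c < (aa : ℝ) / 2000 →
    ∀ᶠ n : ℕ in atTop, ∀ π : PPair n d, π.S5St P CM CR ηs η Rc cT → ∀ h ∈ trackedList d n cp, ∀ s : Bool,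
      ∀ Be : ℝ, 0 < Be →
      S5HiHyp (d : ℝ) C0 (4 * (d : ℝ) ^ (s5R + 1)) s5R (s5cCol d n C0) (s5cMu d n C1 η1 η ((h : ℚ) : ℝ) Be π.l)
        (s5cV n C1 η1 η Be π.l) (s5cRho n C1 Be) ((n : ℝ) ^ (-c)) (sgn s) ((h : ℚ) : ℝ)
        (π.s5mom (Lcut d n) (sgn s) ((h : ℚ) : ℝ) Be) (π.s5Vd (g0 d n)) (s42Dg d n)
        (π.s5tab (Lcut d n) (sgn s) ((h : ℚ) : ℝ)).P (π.s5nxt (Lcut d n) (sgn s) ((h : ℚ) : ℝ) Be) := by
  obtain ⟨C0, hC0, Htab⟩ := s5_cur_tab d hd cp hcp hcp' CR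
  have hC00 : 0 < C0 := by linarith
  obtain ⟨C1, K, hC1, hK, Hinc⟩ := s5ch_incr C0 hC00
  refine ⟨C0, C1, hC0, hC1, ?_⟩
  intro P hP CM ηs η1 η c cT Rc hηs hη1 hη hc0 hc
  have haa : (aa : ℝ) = 1 / 10000 := parF_aa
  obtain ⟨hzq0, hzq2, hzq1⟩ := s44b_zq_facts d hd
  filter_upwards [Htab P hP CM ηs η1 η (2 * c) cT Rc hηs hη1 (by linarith) (by linarith),
    s5_cur_upd d hd P (by rw [hP]; exact hcp) (by rw [hP]; exact hcp') CM CR ηs η cT Rc,
    s4c_basic d hd cp hcp hcp',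
    s43v_Amaj_le_one_add d hd CM CR ηs Rc ((aa : ℝ) / 4000) (by linarith),
    s44b_far_small d hd CM CR ηs Rc s5R ((aa : ℝ) / 4000) (by linarith),
    s5_far_decay d hd CM CR ηs Rc (2 * s5R) c (by linarith),
    s5ch_g0_large d hd (2 * s5R),
    parF_ev_small (-c) (by linarith) (1 / 60) (by norm_num),
    parF_ev_small (-c) (by linarith) K hK,
    parF_ev_small (-((aa : ℝ) / 4000)) (by linarith) (1 / 1000) (by norm_num),
    eventually_ge_atTop 1]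
    with n hTab hUpd hBas hA1 hFar hDec hg0 hs1 hs2 hs3 hn π hst h hh s Be hBe
  have H := hTab π hst h hh s
  obtain ⟨hh0, hhz, -, hq, -⟩ := hBas h hh
  have hl0 : l0 n ≤ π.l := le_trans (by unfold l1; omega) hst.l_ge
  have hW := hst.walk
  -- membership
  have hSt : ∀ x ∈ π.s5S, ∃ x' : Stub n d, x = .stub x' ∧ π.Unres x' := by
    intro x hx
    cases x with
    | glob i => exact absurd hx (π.s5_glob_not_mem_S i)
    | stub x' => exact ⟨x', rfl, (π.s5_stub_mem_S x').1 hx⟩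
  have hVd : ∀ pr ∈ π.s5Vd (g0 d n), ∃ u v, π.Adm (g0 d n) u v ∧ pr = lblP (u, v) := fun pr hpr =>
    (π.s5_mem_Vd' _ pr).1 hpr
  -- the kernel
  have hPle : ∀ a ∈ π.s5G ∪ π.s5S, ∀ x : Stub n d, π.Unres x →
      |(π.s5tab (Lcut d n) (sgn s) ((h : ℚ) : ℝ)).P a (.stub x)| ≤
        π.Amaj (Cmaj d) (Lcut d n) ((h : ℚ) : ℝ) a x := fun a ha x hx =>
    H.P_le a ha (.stub x) ((π.s5_stub_mem_S x).2 hx)
  have hsup : ∀ a ∈ π.s5G ∪ π.s5S, ∀ x ∈ π.s5S,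
      ((h : ℚ) : ℝ) * |(π.s5tab (Lcut d n) (sgn s) ((h : ℚ) : ℝ)).P a x| ≤ 71 / 100 * (1 + 1 / 1000) := by
    intro a ha x hx
    obtain ⟨x', rfl, hx'⟩ := hSt x hx
    refine mul_le_mul (hhz.trans hzq1) ?_ (abs_nonneg _) (by norm_num)
    exact (hPle a ha x' hx').trans ((hA1 π hl0 hW _ hh0.le hhz a x').trans (by linarith))
  -- nonnegativity of the scales
  have htr : 0 ≤ s5ctr d n := (abs_nonneg _).trans H.trD
  have hZW : 0 ≤ s5cZW d n ((h : ℚ) : ℝ) := H.opW.1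
  have hZP : 0 ≤ s5cZP d n := H.opP.1
  have hQa : 0 ≤ s5cQa d n η1 := (Finset.sum_nonneg fun x hx => H.maj.j_nonneg x hx).trans H.maj.j_sum
  have hX : 0 ≤ s5cX d n η1 η ((h : ℚ) : ℝ) := by unfold s5cX; positivity
  have hBt0 : 0 ≤ s5cBt n := by unfold s5cBt; positivity
  have hinc := Hinc d n π η1 η c Be ((h : ℚ) : ℝ) (sgn s) hn hl0 hBe (by linarith) hs2 H
    (fun u v hadm => hUpd π hst u v hadm h (by rw [hP]; exact hh) s)
  have hne : ∀ u v : Stub n d, π.Adm (g0 d n) u v → u ≠ v := by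
    rintro u v hadm rfl
    exact π.s5_not_far_self _ u.1 hadm.2.2
  refine
    { valid := H.valid
      hl := H.hl
      hDg := H.hDg
      disj := π.s5_disj
      hG := ?_
      hσ := H.hσ
      hh := hh0
      hh1 := H.hh1
      hμ := ?_
      hV := ?_
      hρ := ?_
      hεs := by positivity
      hεs1 := hs1
      hCcol := ?_
      zsymm := fun a b => congrArg (· / Be) (π.s5tab_Esymm (Lcut d n) (sgn s) ((h : ℚ) : ℝ) a b)
      Psymm := fun x _ y _ => π.s5tab_Psymm (Lcut d n) (sgn s) ((h : ℚ) : ℝ) x y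
      Prow := fun a ha => H.P_sq ha
      Pcol := ?_
      Psup1 := fun a ha x hx => (hsup a ha x hx).trans (by norm_num)
      Psup2 := ?_
      far := ?_
      mono := fun k k' a x hk hnr => π.s5nr_mono k k' a x hk hnr
      refl := fun x _ => π.s5nr_refl 0 x
      tri1 := fun k k' a _ x _ y _ h1 h2 => π.s5nr_tri1 k k' a x y h1 h2
      tri2 := fun k k' a _ x _ y _ h1 h2 => π.s5nr_tri2 k k' a x y h1 h2
      ball1 := fun a _ => π.s5nr_ball1 (by omega) s5R a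
      ball2 := fun x _ => π.s5nr_ball2 (by omega) s5R x
      opp := ?_
      excl := ?_
      nxtS := ?_
      nxtG := ?_
      new := ?_
      mean := fun a ha b hb => (hinc a ha b hb).1
      second := fun a ha b hb => (hinc a ha b hb).2.1
      lin := fun a ha b hb => (hinc a ha b hb).2.2 }
  · -- hG
    show ((π.s5S.card : ℕ) : ℝ) ≤ (d : ℝ) * ((π.s5G.card : ℕ) : ℝ)
    rw [π.s5_card_S, π.s5_card_G]
    have := π.l_parity.2
    rw [mul_comm]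
    exact_mod_cast this
  · -- hμ
    unfold s5cMu
    positivity
  · -- hV
    unfold s5cV
    positivity
  · -- hρ
    unfold s5cRho
    positivity
  · -- hCcol
    unfold s5cCol
    have : 0 ≤ 36 * (1 + (d : ℝ)) * (1 + (Lcut d n : ℝ)) ^ 6 := by positivity
    linarith
  · -- Pcol
    intro x hx
    show ∑ a ∈ π.s5G ∪ π.s5S, (π.s5tab (Lcut d n) (sgn s) ((h : ℚ) : ℝ)).P a x ^ 2 ≤ _
    rw [Finset.sum_union π.s5_disj, π.s5_sum_G]
    have hp : PosOn1 (π.Mmat (1 : ℝ) ((h : ℚ) : ℝ)) := by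
      simpa [sgn] using (hst.caps h (by rw [hP]; exact hh) true).pos
    have hm : PosOn1 (π.Mmat (-1 : ℝ) ((h : ℚ) : ℝ)) := by
      simpa [sgn] using (hst.caps h (by rw [hP]; exact hh) false).pos
    have h1 := π.s44b_col_sq hd hn _ hh0 hq hp hm (sgn s) (s4c_sgn_sq s) (Lcut d n) x
    have h2 : ∑ a ∈ π.s5S, (π.s5tab (Lcut d n) (sgn s) ((h : ℚ) : ℝ)).P a x ^ 2 ≤ C0 := by
      refine le_trans (le_of_eq ?_) (H.P_sq (S5TabOK.mem_Al hx))
      exact Finset.sum_congr rfl fun a _ => by rw [π.s5tab_Psymm]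
    unfold s5cCol
    exact add_le_add h1 h2
  · -- Psup2
    intro a ha b hb x hx
    have h1 := hsup a ha x hx
    have h2 := hsup b hb x hx
    have e : ((h : ℚ) : ℝ) ^ 2 * |(π.s5tab (Lcut d n) (sgn s) ((h : ℚ) : ℝ)).P a x| *
        |(π.s5tab (Lcut d n) (sgn s) ((h : ℚ) : ℝ)).P b x| =
        (((h : ℚ) : ℝ) * |(π.s5tab (Lcut d n) (sgn s) ((h : ℚ) : ℝ)).P a x|) *
        (((h : ℚ) : ℝ) * |(π.s5tab (Lcut d n) (sgn s) ((h : ℚ) : ℝ)).P b x|) := by ring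
    rw [e]
    refine (mul_le_mul h1 h2 (by positivity) (by norm_num)).trans (by norm_num)
  · -- far
    intro a ha x hx hnr
    obtain ⟨x', rfl, hx'⟩ := hSt x hx
    have hf : π.Far s5R a.vtx x'.1 := (π.s5nr_false_iff s5R a (.stub x')).1 hnr
    have h1 := hFar π hl0 hW _ hh0.le hhz a x' hf
    have e12 : zq d ^ (s5R + 1) ≤ (71 / 100 : ℝ) ^ 12 := pow_le_pow_left₀ hzq0.le hzq1 _
    have h2 : |(π.s5tab (Lcut d n) (sgn s) ((h : ℚ) : ℝ)).P a (.stub x')| ≤ (71 / 100 : ℝ) ^ 12 + 1 / 1000 :=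
      (hPle a ha x' hx').trans (h1.trans (add_le_add e12 hs3))
    refine (mul_le_mul (hhz.trans hzq1) h2 (abs_nonneg _) (by norm_num)).trans (by norm_num)
  · -- opp
    intro pr hpr a ha hnr
    obtain ⟨u, v, hadm, rfl⟩ := hVd pr hpr
    have h1 : ¬ π.Far (2 * s5R) a.vtx u.1 := (π.s5nr_iff _ a (.stub u)).1 hnr
    have h2 := π.s5_far_sub (g := g0 d n) (k := 2 * s5R) hg0.le h1 hadm.2.2
    exact (hPle a ha v hadm.2.1).trans (hDec π hl0 hW _ hh0.le hhz a v h2)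
  · -- excl
    intro pr hpr a _ hnr
    obtain ⟨u, v, hadm, rfl⟩ := hVd pr hpr
    exact π.s5nr_excl hg0.le hadm a hnr
  · -- nxtS
    intro pr hpr
    obtain ⟨u, v, hadm, rfl⟩ := hVd pr hpr
    exact π.s5_S_resolve hadm.1 hadm.2.1 (hne u v hadm)
  · -- nxtG
    intro pr hpr
    obtain ⟨u, v, hadm, rfl⟩ := hVd pr hpr
    rfl
  · -- new
    intro pr hpr k _ a _ x _ hnr
    obtain ⟨u, v, hadm, rfl⟩ := hVd pr hpr
    exact π.s5nr_new hadm k a x hnr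

end Claimed.Agent.R275
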