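import Claimed.Agent.R275.S5Rank2

/-!
# Row 275, Sec 5, package S5En: the entry update as an explicit map on TABLES; mean, second moment, linearisation (LAYER B)

Owner of the statements: helper11.  Replaces Lemma 5.5 (`lem:early-entry-mean`) and Lemma 5.9 (`lem:early-linearization`) of `early.tex`.

`α` = type of output labels (application: `Label n d`), `S` = alive stub labels, `G` = global labels.  A state at one signed tracked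
parameter is seen only through its TABLES `P a b = f_aᵀ P f_b`, `E a b = f_aᵀ E f_b`, and the table `Rt p a b` of the formal tail of the
exposure `p = (u, v)` (old axes).  With `W = P + E`, `T_xy = P_xy - (δ_xy - 1/l)`, `D = T + E`, `H_P = Hgen (T_p)`, `H_W = Hgen (D_p)`:
* `E1 p a b = E a b - (w_aᵀ H_W w_b - p_aᵀ H_P p_b) - Rt p a b`          (new error, OLD axes; `Emat_resolve`)
* `E2 p a b` = the same on the NEW axes `ξ'_x = ξ_x + (ξ_u + ξ_v)/(l-2)`  (`xi_resolve`).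
The bridge `(π.resolve u v).Eent = E2` is in `S5EnA.lean` (LAYER A).

MEAN (`s5_en_mean`): `s5_r2_mean` for `(D, w_a, w_b)` and for `(T, p_a, p_b)` SEPARATELY, the tail mean is a hypothesis (`tailMean`,
proved in `S5Tail.lean`), recentring by `s5_en_sel_abs`.
LINEARISATION (`s5_en_lin`): exact identity `s5_update_identity` (= `T_P (E - E U H_W Uᵀ E) T_Pᵀ`), then `H_P = -σ h F + small`.
-/

set_option autoImplicit false

namespace Claimed.Agent.R275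

open Matrix Finset

/-- tables of the current state at one signed tracked parameter -/
structure S5Tab (α : Type) where
  S : Finset α
  G : Finset α
  σ : ℝ
  h : ℝ
  P : α → α → ℝ
  E : α → α → ℝ
  Rt : α × α → α → α → ℝ

namespace S5Tab

variable {α : Type} [DecidableEq α] (t : S5Tab α)

/-- alive labels -/
def Al : Finset α := t.G ∪ t.S

/-- `l` -/
def l : ℕ := t.S.card

/-- `W = P + E` -/
def W (a b : α) : ℝ := t.P a b + t.E a b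

/-- reference deviation `T = Ξᵀ P Ξ - Π_l` -/
noncomputable def Tm : Matrix α α ℝ := fun x y => t.P x y - ((if x = y then 1 else 0) - (t.l : ℝ)⁻¹)

/-- error block -/
def Em : Matrix α α ℝ := fun x y => t.E x y

/-- `D = Γ - Π_l = T + E` -/
noncomputable def Dm : Matrix α α ℝ := t.Tm + t.Em

/-- `H_P`, `H_W` -/
noncomputable def HP (p : α × α) : Matrix (Fin 2) (Fin 2) ℝ := Hgen t.l t.σ t.h (pblk t.Tm p.1 p.2)
noncomputable def HW (p : α × α) : Matrix (Fin 2) (Fin 2) ℝ := Hgen t.l t.σ t.h (pblk t.Dm p.1 p.2)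

/-- new error on the old axes -/
noncomputable def E1 (p : α × α) (a b : α) : ℝ :=
  t.E a b - (s5q (t.HW p) (t.W a) (t.W b) p - s5q (t.HP p) (t.P a) (t.P b) p) - t.Rt p a b

/-- `1` on stub labels, `0` on global labels -/
noncomputable def kap (a : α) : ℝ := if a ∈ t.S then 1 else 0

/-- new error on the new axes -/
noncomputable def E2 (p : α × α) (a b : α) : ℝ :=
  t.E1 p a b
    + t.kap b * ((t.l : ℝ) - 2)⁻¹ * (t.E1 p a p.1 + t.E1 p a p.2)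
    + t.kap a * ((t.l : ℝ) - 2)⁻¹ * (t.E1 p p.1 b + t.E1 p p.2 b)
    + t.kap a * t.kap b * (((t.l : ℝ) - 2)⁻¹) ^ 2
        * (t.E1 p p.1 p.1 + t.E1 p p.1 p.2 + t.E1 p p.2 p.1 + t.E1 p p.2 p.2)

/-- stub labels among the two outputs -/
def X0 (a b : α) : Finset α := ({a, b} : Finset α) ∩ t.S

end S5Tab

/-- the leading linear part (5.30), (5.31) with its signs -/
def s5Lin {α : Type} (σ h : ℝ) (P z : α → α → ℝ) (p : α × α) (a b : α) : ℝ :=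
  σ * h * (P a p.1 * z p.2 b + P a p.2 * z p.1 b + P b p.1 * z a p.2 + P b p.2 * z a p.1)
    + h ^ 2 * (P a p.1 * P b p.1 * z p.2 p.2 + P a p.2 * P b p.2 * z p.1 p.1
      + P a p.1 * P b p.2 * z p.2 p.1 + P a p.2 * P b p.1 * z p.1 p.2)

/-- sum of the absolute values of the seven input entries -/
def s5In {α : Type} (z : α → α → ℝ) (p : α × α) (a b : α) : ℝ :=
  |z p.1 b| + |z p.2 b| + |z a p.1| + |z a p.2| + |z p.1 p.1| + |z p.2 p.2| + |z p.1 p.2|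

/-- Current-state facts on the tables.  `C0`: fixed constant; `N`: structural `∑ j_x²`; `ND`: `∑ D_xx²`; `Qa = n^η q^{L/2}`;
`ZW, ZP`: operator norms of `D`, `T`; `trW = |L_1|`; `dm`: entry cap; `εs`: smallness of `j_u + j_v + b_uv` on valid pairs;
`Bt`: sup of the tail; `μT, VT`: mean and second moment of the tail. -/
structure S5TabOK {α : Type} [DecidableEq α] (C0 N ND Qa ZW ZP trW dm εs Bt μT VT : ℝ) (t : S5Tab α)
    (Vd : Finset (α × α)) (Dg : ℕ) (A : α → α → ℝ) (j : α → ℝ) (b : α → α → ℝ) : Prop where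
  valid : S5Valid t.S Vd Dg
  hl : 32 ≤ t.S.card
  hDg : 4 * Dg ≤ t.S.card
  disj : Disjoint t.G t.S
  hσ : t.σ ^ 2 = 1
  hh : 0 < t.h
  hh1 : t.h ≤ 1
  Psymm : ∀ a b, t.P a b = t.P b a
  Esymm : ∀ a b, t.E a b = t.E b a
  Pcent : ∀ a ∈ t.Al, ∑ x ∈ t.S, t.P a x = 0
  Ecent : ∀ a ∈ t.Al, ∑ x ∈ t.S, t.E a x = 0
  /-- majorants -/
  P_le : ∀ a ∈ t.Al, ∀ x ∈ t.S, |t.P a x| ≤ A a x
  A_arr : ∀ a ∈ t.Al, S5Arr C0 t.S (A a)
  Tdiag_le : ∀ x ∈ t.S, |t.Tm x x| ≤ j x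
  Toff_le : ∀ x ∈ t.S, ∀ y ∈ t.S, x ≠ y → |t.Tm x y| ≤ b x y
  maj : S5Maj C0 N Qa t.S j b
  small : ∀ p ∈ Vd, j p.1 + j p.2 + b p.1 p.2 ≤ εs
  /-- error -/
  E_le : ∀ a ∈ t.Al, ∀ b ∈ t.Al, |t.E a b| ≤ dm
  E_row : ∀ a ∈ t.Al, ∑ x ∈ t.S, t.E a x ^ 2 ≤ C0
  hsmall : εs + dm ≤ 1 / 16
  hεs : 0 ≤ εs
  hdm : 0 ≤ dm
  /-- global quantities -/
  diagD : ∑ x ∈ t.S, t.Dm x x ^ 2 ≤ ND
  opW : S5OpLE t.S t.Dm ZW
  opP : S5OpLE t.S t.Tm ZP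
  trD : |trS t.S t.Dm| ≤ trW
  /-- tail -/
  tailSup : ∀ p ∈ Vd, ∀ a ∈ t.Al, ∀ b ∈ t.Al, |t.Rt p a b| ≤ Bt
  tailRow : ∀ p ∈ Vd, ∀ a ∈ t.Al, ∀ b ∈ t.Al, |t.Rt p a b| ≤ C0 * (A a p.1 + A a p.2)
  tailSymm : ∀ p a b, t.Rt p a b = t.Rt p b a
  tailMean : ∀ a ∈ t.Al, ∀ b ∈ t.Al, |avgOn (s5Surv Vd (t.X0 a b)) (fun p => t.Rt p a b)| ≤ μT
  tailSq : ∀ a ∈ t.Al, ∀ b ∈ t.Al, avgOn (s5Surv Vd (t.X0 a b)) (fun p => t.Rt p a b ^ 2) ≤ VT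

/-! ## pure `2 × 2` algebra -/

/-- THE UPDATE IDENTITY (`T_P (E - E U H_W Uᵀ E) T_Pᵀ`), for vectors in `ℝ²`.  `θ_a = H_P p_a`, `ẽ_a = e_a - D_E θ_a`:
`(p_a+e_a)ᵀ H_W (p_b+e_b) - p_aᵀ H_P p_b = θ_a·e_b + e_a·θ_b - θ_aᵀ D_E θ_b + ẽ_aᵀ H_W ẽ_b`.
Proof: `H_W = H_P - H_P D_E H_W = H_P - H_W D_E H_P` (`tb_sub` and symmetry). -/
theorem s5_update_identity {l : ℕ} {σ h : ℝ} {T DE : Matrix (Fin 2) (Fin 2) ℝ} (H : TBHyp l σ h T)
    (H' : TBHyp l σ h (T + DE)) (pa ea pb eb : Fin 2 → ℝ) :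
    (pa + ea) ⬝ᵥ (Hgen l σ h (T + DE) *ᵥ (pb + eb)) - pa ⬝ᵥ (Hgen l σ h T *ᵥ pb) =
      (Hgen l σ h T *ᵥ pa) ⬝ᵥ eb + ea ⬝ᵥ (Hgen l σ h T *ᵥ pb)
        - (Hgen l σ h T *ᵥ pa) ⬝ᵥ (DE *ᵥ (Hgen l σ h T *ᵥ pb))
        + (ea - DE *ᵥ (Hgen l σ h T *ᵥ pa)) ⬝ᵥ (Hgen l σ h (T + DE) *ᵥ (eb - DE *ᵥ (Hgen l σ h T *ᵥ pb))) := by
  have hW1 := tb_sub H H'
  have sP := (tb_formula H).2.2.2
  have sW := (tb_formula H').2.2.2
  have sD : DE 1 0 = DE 0 1 := by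
    have h1 := H'.sym
    have h2 := H.sym
    simp only [Matrix.add_apply] at h1
    linarith
  set P := Hgen l σ h T with hP
  set W := Hgen l σ h (T + DE) with hW
  have r : ∀ i j, W i j = P i j -
      ((P i 0 * DE 0 0 + P i 1 * DE 1 0) * W 0 j + (P i 0 * DE 0 1 + P i 1 * DE 1 1) * W 1 j) := by
    intro i j
    have := congrFun (congrFun hW1 i) j
    simpa [Matrix.sub_apply, Matrix.mul_apply, Fin.sum_univ_two] using this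
  have r00 := r 0 0
  have r01 := r 0 1
  have r10 := r 1 0
  have r11 := r 1 1
  simp only [dotProduct, mulVec, Fin.sum_univ_two, Pi.add_apply, Pi.sub_apply]
  simp only [sP, sW, sD] at r00 r01 r10 r11 ⊢
  grind

section

variable {α : Type} [DecidableEq α]

omit [DecidableEq α] in
theorem s5e_pblk_le (X : Matrix α α ℝ) (u v : α) (c : ℝ) (h11 : |X u u| ≤ c) (h12 : |X u v| ≤ c)
    (h21 : |X v u| ≤ c) (h22 : |X v v| ≤ c) : ∀ i j, |pblk X u v i j| ≤ c := by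
  intro i j
  fin_cases i <;> fin_cases j <;> simpa [pblk]

theorem S5TabOK.Tm_symm {C0 N ND Qa ZW ZP trW dm εs Bt μT VT : ℝ} {t : S5Tab α} {Vd : Finset (α × α)} {Dg : ℕ}
    {A : α → α → ℝ} {j : α → ℝ} {b : α → α → ℝ}
    (H : S5TabOK C0 N ND Qa ZW ZP trW dm εs Bt μT VT t Vd Dg A j b) (x y : α) : t.Tm x y = t.Tm y x := by
  unfold S5Tab.Tm
  rw [H.Psymm x y]
  by_cases hxy : x = y
  · subst hxy; rfl
  · rw [if_neg hxy, if_neg (Ne.symm hxy)]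

theorem S5TabOK.Dm_symm {C0 N ND Qa ZW ZP trW dm εs Bt μT VT : ℝ} {t : S5Tab α} {Vd : Finset (α × α)} {Dg : ℕ}
    {A : α → α → ℝ} {j : α → ℝ} {b : α → α → ℝ}
    (H : S5TabOK C0 N ND Qa ZW ZP trW dm εs Bt μT VT t Vd Dg A j b) (x y : α) : t.Dm x y = t.Dm y x := by
  show t.Tm x y + t.E x y = t.Tm y x + t.E y x
  rw [H.Tm_symm x y, H.Esymm x y]

theorem S5TabOK.mem_Al {t : S5Tab α} {x : α} (hx : x ∈ t.S) : x ∈ t.Al := Finset.mem_union_right _ hx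

/-- valid pairs satisfy the hypotheses of `TwoByTwo.lean` for `T_p` and `D_p` -/
theorem S5TabOK.tb {C0 N ND Qa ZW ZP trW dm εs Bt μT VT : ℝ} {t : S5Tab α} {Vd : Finset (α × α)} {Dg : ℕ}
    {A : α → α → ℝ} {j : α → ℝ} {b : α → α → ℝ}
    (H : S5TabOK C0 N ND Qa ZW ZP trW dm εs Bt μT VT t Vd Dg A j b) {p : α × α} (hp : p ∈ Vd) :
    TBHyp t.l t.σ t.h (pblk t.Tm p.1 p.2) ∧ TBHyp t.l t.σ t.h (pblk t.Dm p.1 p.2) ∧
      pblk t.Dm p.1 p.2 = pblk t.Tm p.1 p.2 + pblk t.Em p.1 p.2 := by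
  obtain ⟨h1, h2, hne⟩ := Finset.mem_offDiag.1 (H.valid.sub hp)
  have hA1 : p.1 ∈ t.Al := S5TabOK.mem_Al h1
  have hA2 : p.2 ∈ t.Al := S5TabOK.mem_Al h2
  have hj1 := H.maj.j_nonneg _ h1
  have hj2 := H.maj.j_nonneg _ h2
  have hb := H.maj.b_nonneg _ h1 _ h2
  have hs := H.small p hp
  have hsm := H.hsmall
  have hdm := H.hdm
  have T11 : |t.Tm p.1 p.1| ≤ εs := (H.Tdiag_le _ h1).trans (by linarith)
  have T22 : |t.Tm p.2 p.2| ≤ εs := (H.Tdiag_le _ h2).trans (by linarith)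
  have T12 : |t.Tm p.1 p.2| ≤ εs := (H.Toff_le _ h1 _ h2 hne).trans (by linarith)
  have T21 : |t.Tm p.2 p.1| ≤ εs := by rw [H.Tm_symm]; exact T12
  have hD : ∀ x ∈ t.Al, ∀ y ∈ t.Al, |t.Tm x y| ≤ εs → |t.Dm x y| ≤ 1 / 16 := by
    intro x hx y hy hT
    have hE := H.E_le x hx y hy
    have : t.Dm x y = t.Tm x y + t.E x y := rfl
    rw [this]
    exact (abs_add_le _ _).trans (by linarith)
  have hl4 : 4 ≤ t.l := by have := H.hl; unfold S5Tab.l; omega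
  refine ⟨⟨hl4, H.hσ, H.hh, H.hh1, ?_, ?_⟩, ⟨hl4, H.hσ, H.hh, H.hh1, ?_, ?_⟩, ?_⟩
  · exact H.Tm_symm _ _
  · exact s5e_pblk_le _ _ _ _ (by linarith) (by linarith) (by linarith) (by linarith)
  · exact H.Dm_symm _ _
  · exact s5e_pblk_le _ _ _ _ (hD _ hA1 _ hA1 T11) (hD _ hA1 _ hA2 T12) (hD _ hA2 _ hA1 T21) (hD _ hA2 _ hA2 T22)
  · ext i k
    fin_cases i <;> fin_cases k <;> simp [pblk, S5Tab.Dm]

end

section

variable {α : Type} [DecidableEq α] {C0 N ND Qa ZW ZP trW dm εs Bt μT VT : ℝ} {t : S5Tab α} {Vd : Finset (α × α)}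
  {Dg : ℕ} {A : α → α → ℝ} {j : α → ℝ} {b : α → α → ℝ}

theorem S5TabOK.A_nonneg (H : S5TabOK C0 N ND Qa ZW ZP trW dm εs Bt μT VT t Vd Dg A j b) {a x : α} (ha : a ∈ t.Al)
    (hx : x ∈ t.S) : 0 ≤ A a x := (abs_nonneg _).trans (H.P_le a ha x hx)

theorem S5TabOK.A_le (H : S5TabOK C0 N ND Qa ZW ZP trW dm εs Bt μT VT t Vd Dg A j b) {a x : α} (ha : a ∈ t.Al)
    (hx : x ∈ t.S) : A a x ≤ C0 := (le_abs_self _).trans ((H.A_arr a ha).sup x hx)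

theorem S5TabOK.absP_le (H : S5TabOK C0 N ND Qa ZW ZP trW dm εs Bt μT VT t Vd Dg A j b) {a x : α} (ha : a ∈ t.Al)
    (hx : x ∈ t.S) : |t.P a x| ≤ C0 := (H.P_le a ha x hx).trans (H.A_le ha hx)

theorem S5TabOK.dm_le (H : S5TabOK C0 N ND Qa ZW ZP trW dm εs Bt μT VT t Vd Dg A j b) : dm ≤ 1 / 16 := by
  have := H.hsmall
  have := H.hεs
  linarith

theorem S5TabOK.P_sq (H : S5TabOK C0 N ND Qa ZW ZP trW dm εs Bt μT VT t Vd Dg A j b) {a : α} (ha : a ∈ t.Al) :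
    ∑ x ∈ t.S, t.P a x ^ 2 ≤ C0 := by
  refine (Finset.sum_le_sum fun x hx => ?_).trans (H.A_arr a ha).sq
  exact sq_le_sq' (by have := H.P_le a ha x hx; have := neg_abs_le (t.P a x); linarith)
    ((le_abs_self _).trans (H.P_le a ha x hx))

theorem S5TabOK.l_inv (H : S5TabOK C0 N ND Qa ZW ZP trW dm εs Bt μT VT t Vd Dg A j b) :
    0 < (t.l : ℝ)⁻¹ ∧ (t.l : ℝ)⁻¹ ≤ 1 ∧ (t.S.card : ℝ) * ((t.l : ℝ)⁻¹) ^ 2 ≤ 1 := by
  have h32 : (32 : ℝ) ≤ (t.l : ℝ) := by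
    have := H.hl
    unfold S5Tab.l
    exact_mod_cast this
  have hpos : (0 : ℝ) < t.l := by linarith
  have h1 : (t.l : ℝ)⁻¹ ≤ 1 := inv_le_one_of_one_le₀ (by linarith)
  refine ⟨inv_pos.2 hpos, h1, ?_⟩
  have : (t.S.card : ℝ) = (t.l : ℝ) := rfl
  rw [this, sq, ← mul_assoc, mul_inv_cancel₀ hpos.ne', one_mul]
  exact h1

theorem S5TabOK.Tm_ent (H : S5TabOK C0 N ND Qa ZW ZP trW dm εs Bt μT VT t Vd Dg A j b) {x y : α} (hx : x ∈ t.S)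
    (hy : y ∈ t.S) : |t.Tm x y| ≤ C0 + 1 := by
  obtain ⟨h0, h1, -⟩ := H.l_inv
  have hP := H.absP_le (S5TabOK.mem_Al hx) hy
  unfold S5Tab.Tm
  have h2 : |(if x = y then (1 : ℝ) else 0) - (t.l : ℝ)⁻¹| ≤ 1 := by
    split_ifs
    · rw [abs_le]; constructor <;> linarith
    · rw [abs_le]; constructor <;> linarith
  calc |t.P x y - ((if x = y then (1 : ℝ) else 0) - (t.l : ℝ)⁻¹)|
      ≤ |t.P x y| + |(if x = y then (1 : ℝ) else 0) - (t.l : ℝ)⁻¹| := abs_sub _ _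
    _ ≤ C0 + 1 := by linarith

theorem S5TabOK.Tm_row (H : S5TabOK C0 N ND Qa ZW ZP trW dm εs Bt μT VT t Vd Dg A j b) {x : α} (hx : x ∈ t.S) :
    ∑ y ∈ t.S, t.Tm x y ^ 2 ≤ 2 * C0 + 8 := by
  obtain ⟨h0, h1, h2⟩ := H.l_inv
  have hP := H.P_sq (S5TabOK.mem_Al hx)
  have e : ∀ y ∈ t.S, t.Tm x y ^ 2 ≤
      2 * t.P x y ^ 2 + (4 * (if x = y then (1 : ℝ) else 0) + 4 * ((t.l : ℝ)⁻¹) ^ 2) := by
    intro y _
    unfold S5Tab.Tm
    split_ifs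
    · nlinarith [sq_nonneg (t.P x y + (1 - (t.l : ℝ)⁻¹)), sq_nonneg (1 + (t.l : ℝ)⁻¹)]
    · nlinarith [sq_nonneg (t.P x y + (0 - (t.l : ℝ)⁻¹)), sq_nonneg ((t.l : ℝ)⁻¹)]
  refine (Finset.sum_le_sum e).trans ?_
  rw [Finset.sum_add_distrib, Finset.sum_add_distrib, ← Finset.mul_sum, ← Finset.mul_sum, Finset.sum_ite_eq,
    if_pos hx, Finset.sum_const, nsmul_eq_mul]
  linarith

theorem S5TabOK.Dm_row (H : S5TabOK C0 N ND Qa ZW ZP trW dm εs Bt μT VT t Vd Dg A j b) {x : α} (hx : x ∈ t.S) :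
    ∑ y ∈ t.S, t.Dm x y ^ 2 ≤ 6 * C0 + 16 := by
  have hT := H.Tm_row hx
  have hE := H.E_row x (S5TabOK.mem_Al hx)
  have e : ∀ y ∈ t.S, t.Dm x y ^ 2 ≤ 2 * t.Tm x y ^ 2 + 2 * t.E x y ^ 2 := by
    intro y _
    have : t.Dm x y = t.Tm x y + t.E x y := rfl
    rw [this]
    nlinarith [sq_nonneg (t.Tm x y - t.E x y)]
  refine (Finset.sum_le_sum e).trans ?_
  rw [Finset.sum_add_distrib, ← Finset.mul_sum, ← Finset.mul_sum]
  linarith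

end

/-- the hypotheses of `S5Rank2` hold for `(D, w)` and `(T, p)` (with a larger fixed constant) -/
theorem s5_tab_r2 (C0 : ℝ) : ∃ C1 : ℝ, C0 ≤ C1 ∧ ∀ (α : Type) [DecidableEq α]
    (N ND Qa ZW ZP trW dm εs Bt μT VT : ℝ) (t : S5Tab α) (Vd : Finset (α × α)) (Dg : ℕ)
    (A : α → α → ℝ) (j : α → ℝ) (b : α → α → ℝ),
    S5TabOK C0 N ND Qa ZW ZP trW dm εs Bt μT VT t Vd Dg A j b →
    S5R2 C1 ND ZW t.S Vd Dg t.σ t.h t.Dm ∧ S5R2 C1 N ZP t.S Vd Dg t.σ t.h t.Tm ∧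
    |trS t.S t.Tm| ≤ Qa ∧
    ∀ a ∈ t.Al, S5Arr C1 t.S (t.W a) ∧ S5Arr C1 t.S (t.P a) ∧ S5Arr C1 t.S (t.E a) ∧
      ∑ x ∈ t.S, t.W a x = 0 := by
  refine ⟨6 * |C0| + 16, by have := le_abs_self C0; have := abs_nonneg C0; linarith, ?_⟩
  intro α _ N ND Qa ZW ZP trW dm εs Bt μT VT t Vd Dg A j b H
  have hc := le_abs_self C0
  have hc0 := abs_nonneg C0
  have hdm := H.dm_le
  refine ⟨⟨H.valid, H.hl, H.hDg, H.hσ, H.hh, H.hh1, H.Dm_symm, fun p hp => (H.tb hp).2.1, ?_, ?_, H.diagD, H.opW⟩,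
    ⟨H.valid, H.hl, H.hDg, H.hσ, H.hh, H.hh1, H.Tm_symm, fun p hp => (H.tb hp).1, ?_, ?_, ?_, H.opP⟩, ?_, ?_⟩
  · intro x hx y hy
    have hT := H.Tm_ent hx hy
    have hE := H.E_le x (S5TabOK.mem_Al hx) y (S5TabOK.mem_Al hy)
    have : t.Dm x y = t.Tm x y + t.E x y := rfl
    rw [this]
    exact (abs_add_le _ _).trans (by linarith)
  · intro x hx
    exact (H.Dm_row hx).trans (by linarith)
  · intro x hx y hy
    exact (H.Tm_ent hx hy).trans (by linarith)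
  · intro x hx
    exact (H.Tm_row hx).trans (by linarith)
  · refine (Finset.sum_le_sum fun x hx => ?_).trans H.maj.j_sq
    exact sq_le_sq' (by have := H.Tdiag_le x hx; have := neg_abs_le (t.Tm x x); linarith)
      ((le_abs_self _).trans (H.Tdiag_le x hx))
  · unfold trS
    exact (Finset.abs_sum_le_sum_abs _ _).trans ((Finset.sum_le_sum fun x hx => H.Tdiag_le x hx).trans H.maj.j_sum)
  · intro a ha
    have hPsq := H.P_sq ha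
    have hEsq := H.E_row a ha
    refine ⟨⟨?_, ?_⟩, ⟨by linarith, fun x hx => (H.absP_le ha hx).trans (by linarith)⟩,
      ⟨by linarith, fun x hx => (H.E_le a ha x (S5TabOK.mem_Al hx)).trans (by linarith)⟩, ?_⟩
    · have e : ∀ x ∈ t.S, t.W a x ^ 2 ≤ 2 * t.P a x ^ 2 + 2 * t.E a x ^ 2 := by
        intro x _
        unfold S5Tab.W
        nlinarith [sq_nonneg (t.P a x - t.E a x)]
      refine (Finset.sum_le_sum e).trans ?_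
      rw [Finset.sum_add_distrib, ← Finset.mul_sum, ← Finset.mul_sum]
      linarith
    · intro x hx
      have h1 := H.absP_le ha hx
      have h2 := H.E_le a ha x (S5TabOK.mem_Al hx)
      unfold S5Tab.W
      exact (abs_add_le _ _).trans (by linarith)
    · unfold S5Tab.W
      rw [Finset.sum_add_distrib, H.Pcent a ha, H.Ecent a ha, add_zero]

theorem s5e_dot_le (x y : Fin 2 → ℝ) (cx cy : ℝ) (hx : ∀ i, |x i| ≤ cx) (hy : ∀ i, |y i| ≤ cy) :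
    |x ⬝ᵥ y| ≤ 2 * cx * cy := by
  have h0 : 0 ≤ cx := (abs_nonneg _).trans (hx 0)
  simp only [dotProduct, Fin.sum_univ_two]
  have e : ∀ i, |x i * y i| ≤ cx * cy := fun i => by
    rw [abs_mul]
    exact mul_le_mul (hx i) (hy i) (abs_nonneg _) h0
  calc |x 0 * y 0 + x 1 * y 1| ≤ |x 0 * y 0| + |x 1 * y 1| := abs_add_le _ _
    _ ≤ 2 * cx * cy := by have := e 0; have := e 1; linarith

theorem s5e_mulVec_le (X : Matrix (Fin 2) (Fin 2) ℝ) (y : Fin 2 → ℝ) (cX cy : ℝ) (hX : ∀ i j, |X i j| ≤ cX)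
    (hy : ∀ i, |y i| ≤ cy) (i : Fin 2) : |(X *ᵥ y) i| ≤ 2 * cX * cy :=
  s5e_dot_le (fun j => X i j) y cX cy (hX i) hy

theorem s5e_pvec_le {α : Type} (a : α → ℝ) (u v : α) (c : ℝ) (h1 : |a u| ≤ c) (h2 : |a v| ≤ c) (i : Fin 2) :
    |pvec a u v i| ≤ c := by
  fin_cases i <;> simpa [pvec]

/-- old-axis entries of the new error: sup bound `C (dm + Bt)` for all alive labels (including the selected ones) -/
theorem s5_en_E1_sup (C0 : ℝ) : ∃ C : ℝ, 0 < C ∧ ∀ (α : Type) [DecidableEq α]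
    (N ND Qa ZW ZP trW dm εs Bt μT VT : ℝ) (t : S5Tab α) (Vd : Finset (α × α)) (Dg : ℕ)
    (A : α → α → ℝ) (j : α → ℝ) (b : α → α → ℝ),
    S5TabOK C0 N ND Qa ZW ZP trW dm εs Bt μT VT t Vd Dg A j b →
    ∀ p ∈ Vd, ∀ a ∈ t.Al, ∀ c ∈ t.Al, |t.E1 p a c| ≤ C * (dm + Bt) := by
  set c : ℝ := 8 * |C0| with hcdef
  have hc0 : 0 ≤ c := by positivity
  refine ⟨1 + 4 * c + 4 * c ^ 2 + (1 + 2 * c) ^ 2, by positivity, ?_⟩
  intro α _ N ND Qa ZW ZP trW dm εs Bt μT VT t Vd Dg A j b H p hp a ha c' hc'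
  obtain ⟨h1, h2, hne⟩ := Finset.mem_offDiag.1 (H.valid.sub hp)
  obtain ⟨tbT, tbD, hblk⟩ := H.tb hp
  have hA1 : p.1 ∈ t.Al := S5TabOK.mem_Al h1
  have hA2 : p.2 ∈ t.Al := S5TabOK.mem_Al h2
  have hdm0 := H.hdm
  have hdm := H.dm_le
  have hC := le_abs_self C0
  have hBt : 0 ≤ Bt := (abs_nonneg _).trans (H.tailSup p hp a ha c' hc')
  -- the vectors
  have hW : ∀ z, pvec (t.W z) p.1 p.2 = pvec (t.P z) p.1 p.2 + pvec (t.E z) p.1 p.2 := by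
    intro z
    ext i
    fin_cases i <;> simp [pvec, S5Tab.W]
  have hp_le : ∀ z ∈ t.Al, ∀ i, |pvec (t.P z) p.1 p.2 i| ≤ |C0| := fun z hz =>
    s5e_pvec_le _ _ _ _ ((H.absP_le hz h1).trans hC) ((H.absP_le hz h2).trans hC)
  have he_le : ∀ z ∈ t.Al, ∀ i, |pvec (t.E z) p.1 p.2 i| ≤ dm := fun z hz =>
    s5e_pvec_le _ _ _ _ (H.E_le z hz _ hA1) (H.E_le z hz _ hA2)
  have hDE : ∀ i k, |pblk t.Em p.1 p.2 i k| ≤ dm :=
    s5e_pblk_le _ _ _ _ (H.E_le _ hA1 _ hA1) (H.E_le _ hA1 _ hA2) (H.E_le _ hA2 _ hA1) (H.E_le _ hA2 _ hA2)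
  have hθ : ∀ z ∈ t.Al, ∀ i, |(t.HP p *ᵥ pvec (t.P z) p.1 p.2) i| ≤ c := by
    intro z hz i
    have := s5e_mulVec_le (t.HP p) _ 4 |C0| (tb_abs_le tbT) (hp_le z hz) i
    rw [hcdef]
    linarith
  have hDθ : ∀ z ∈ t.Al, ∀ i, |(pblk t.Em p.1 p.2 *ᵥ (t.HP p *ᵥ pvec (t.P z) p.1 p.2)) i| ≤ 2 * dm * c :=
    fun z hz i => s5e_mulVec_le _ _ dm c hDE (hθ z hz) i
  have hte : ∀ z ∈ t.Al, ∀ i, |(pvec (t.E z) p.1 p.2 - pblk t.Em p.1 p.2 *ᵥ (t.HP p *ᵥ pvec (t.P z) p.1 p.2)) i| ≤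
      dm * (1 + 2 * c) := by
    intro z hz i
    rw [Pi.sub_apply]
    have := he_le z hz i
    have := hDθ z hz i
    exact (abs_sub _ _).trans (by linarith)
  have hid := s5_update_identity tbT (hblk ▸ tbD) (pvec (t.P a) p.1 p.2) (pvec (t.E a) p.1 p.2)
    (pvec (t.P c') p.1 p.2) (pvec (t.E c') p.1 p.2)
  have hmid : s5q (t.HW p) (t.W a) (t.W c') p - s5q (t.HP p) (t.P a) (t.P c') p =
      (t.HP p *ᵥ pvec (t.P a) p.1 p.2) ⬝ᵥ pvec (t.E c') p.1 p.2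
        + pvec (t.E a) p.1 p.2 ⬝ᵥ (t.HP p *ᵥ pvec (t.P c') p.1 p.2)
        - (t.HP p *ᵥ pvec (t.P a) p.1 p.2) ⬝ᵥ (pblk t.Em p.1 p.2 *ᵥ (t.HP p *ᵥ pvec (t.P c') p.1 p.2))
        + (pvec (t.E a) p.1 p.2 - pblk t.Em p.1 p.2 *ᵥ (t.HP p *ᵥ pvec (t.P a) p.1 p.2)) ⬝ᵥ
          (t.HW p *ᵥ (pvec (t.E c') p.1 p.2 - pblk t.Em p.1 p.2 *ᵥ (t.HP p *ᵥ pvec (t.P c') p.1 p.2))) := by
    unfold s5q S5Tab.HW S5Tab.HP
    rw [hW a, hW c', hblk]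
    exact hid
  have b1 := s5e_dot_le _ _ c dm (hθ a ha) (he_le c' hc')
  have b2 := s5e_dot_le _ _ dm c (he_le a ha) (hθ c' hc')
  have b3 := s5e_dot_le _ _ c (2 * dm * c) (hθ a ha) (hDθ c' hc')
  have b4 := s5e_dot_le _ _ (dm * (1 + 2 * c)) (2 * 4 * (dm * (1 + 2 * c))) (hte a ha)
    (s5e_mulVec_le (t.HW p) _ 4 _ (tb_abs_le tbD) (hte c' hc'))
  have hE := H.E_le a ha c' hc'
  have hR := H.tailSup p hp a ha c' hc'
  have hsq : dm * dm ≤ dm / 16 := by nlinarith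
  have hq : 0 ≤ (1 + 2 * c) ^ 2 := by positivity
  unfold S5Tab.E1
  rw [hmid]
  rw [abs_le] at b1 b2 b3 b4 hE hR ⊢
  have key : 2 * (dm * (1 + 2 * c)) * (2 * 4 * (dm * (1 + 2 * c))) ≤ dm * (1 + 2 * c) ^ 2 := by
    have : 2 * (dm * (1 + 2 * c)) * (2 * 4 * (dm * (1 + 2 * c))) = 16 * (dm * dm) * (1 + 2 * c) ^ 2 := by ring
    rw [this]
    nlinarith
  have hexp : (1 + 4 * c + 4 * c ^ 2 + (1 + 2 * c) ^ 2) * (dm + Bt) =
      dm + 2 * c * dm + 2 * dm * c + 2 * c * (2 * dm * c) + dm * (1 + 2 * c) ^ 2 + Bt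
        + (4 * c + 4 * c ^ 2 + (1 + 2 * c) ^ 2) * Bt := by ring
  have hextra : 0 ≤ (4 * c + 4 * c ^ 2 + (1 + 2 * c) ^ 2) * Bt := by positivity
  rw [hexp]
  constructor <;> linarith [b1.1, b1.2, b2.1, b2.2, b3.1, b3.2, b4.1, b4.2, hE.1, hE.2, hR.1, hR.2]

/-- old-axis entries of the new error against a SELECTED axis: `|E1 p a s| ≤ C (r_a(u) + r_a(v))`, `r_a = A_a + |e_a|`, `s ∈ {u,v}` -/
theorem s5_en_sel_abs (C0 : ℝ) : ∃ C : ℝ, 0 < C ∧ ∀ (α : Type) [DecidableEq α]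
    (N ND Qa ZW ZP trW dm εs Bt μT VT : ℝ) (t : S5Tab α) (Vd : Finset (α × α)) (Dg : ℕ)
    (A : α → α → ℝ) (j : α → ℝ) (b : α → α → ℝ),
    S5TabOK C0 N ND Qa ZW ZP trW dm εs Bt μT VT t Vd Dg A j b →
    ∀ p ∈ Vd, ∀ a ∈ t.Al, ∀ s, (s = p.1 ∨ s = p.2) →
      |t.E1 p a s| ≤ C * (A a p.1 + |t.E a p.1| + A a p.2 + |t.E a p.2|) := by
  set c : ℝ := |C0| with hcdef
  have hc0 : 0 ≤ c := abs_nonneg _
  refine ⟨1 + 8 * (c + 1) + 8 * c + c, by positivity, ?_⟩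
  intro α _ N ND Qa ZW ZP trW dm εs Bt μT VT t Vd Dg A j b H p hp a ha s hs
  obtain ⟨h1, h2, hne⟩ := Finset.mem_offDiag.1 (H.valid.sub hp)
  obtain ⟨tbT, tbD, hblk⟩ := H.tb hp
  have hA1 : p.1 ∈ t.Al := S5TabOK.mem_Al h1
  have hA2 : p.2 ∈ t.Al := S5TabOK.mem_Al h2
  have hsS : s ∈ t.S := by rcases hs with rfl | rfl <;> assumption
  have hsA : s ∈ t.Al := S5TabOK.mem_Al hsS
  have hdm := H.dm_le
  have hC : C0 ≤ c := le_abs_self C0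
  set R : ℝ := A a p.1 + |t.E a p.1| + A a p.2 + |t.E a p.2| with hR
  have a1 := H.A_nonneg ha h1
  have a2 := H.A_nonneg ha h2
  have e1 := abs_nonneg (t.E a p.1)
  have e2 := abs_nonneg (t.E a p.2)
  have hR0 : 0 ≤ R := by positivity
  have hE : |t.E a s| ≤ R := by
    rcases hs with rfl | rfl <;> rw [hR] <;> linarith
  have hWa : |t.W a p.1| + |t.W a p.2| ≤ R := by
    have := abs_add_le (t.P a p.1) (t.E a p.1)
    have := abs_add_le (t.P a p.2) (t.E a p.2)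
    have := H.P_le a ha _ h1
    have := H.P_le a ha _ h2
    unfold S5Tab.W
    rw [hR]
    linarith
  have hWs : |t.W s p.1| + |t.W s p.2| ≤ 2 * (c + 1) := by
    have := abs_add_le (t.P s p.1) (t.E s p.1)
    have := abs_add_le (t.P s p.2) (t.E s p.2)
    have := H.absP_le hsA h1
    have := H.absP_le hsA h2
    have := H.E_le s hsA _ hA1
    have := H.E_le s hsA _ hA2
    unfold S5Tab.W
    linarith
  have hPa : |t.P a p.1| + |t.P a p.2| ≤ R := by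
    have := H.P_le a ha _ h1
    have := H.P_le a ha _ h2
    rw [hR]
    linarith
  have hPs : |t.P s p.1| + |t.P s p.2| ≤ 2 * c := by
    have := H.absP_le hsA h1
    have := H.absP_le hsA h2
    linarith
  have b1 : |s5q (t.HW p) (t.W a) (t.W s) p| ≤ 8 * (c + 1) * R := by
    refine (s5_r2_sup tbD (t.W a) (t.W s) p).trans ?_
    have := mul_le_mul hWa hWs (by positivity) hR0
    linarith
  have b2 : |s5q (t.HP p) (t.P a) (t.P s) p| ≤ 8 * c * R := by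
    refine (s5_r2_sup tbT (t.P a) (t.P s) p).trans ?_
    have := mul_le_mul hPa hPs (by positivity) hR0
    linarith
  have b3 : |t.Rt p a s| ≤ c * R := by
    refine (H.tailRow p hp a ha s hsA).trans ?_
    have h3 : A a p.1 + A a p.2 ≤ R := by rw [hR]; linarith
    calc C0 * (A a p.1 + A a p.2) ≤ c * (A a p.1 + A a p.2) := mul_le_mul_of_nonneg_right hC (by positivity)
      _ ≤ c * R := mul_le_mul_of_nonneg_left h3 hc0
  unfold S5Tab.E1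
  rw [abs_le] at b1 b2 b3 hE ⊢
  constructor <;> nlinarith [b1.1, b1.2, b2.1, b2.2, b3.1, b3.2, hE.1, hE.2]

/-! ### helpers of `s5_en_mean` (helper215, prefix `s5em_`) -/

/-! ## averages -/

section avg

variable {ι : Type}

theorem s5em_avg_add (I : Finset ι) (F G : ι → ℝ) :
    avgOn I (fun p => F p + G p) = avgOn I F + avgOn I G := by
  unfold avgOn
  rw [Finset.sum_add_distrib, add_div]

theorem s5em_avg_sub (I : Finset ι) (F G : ι → ℝ) :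
    avgOn I (fun p => F p - G p) = avgOn I F - avgOn I G := by
  unfold avgOn
  rw [Finset.sum_sub_distrib, sub_div]

theorem s5em_avg_mul (I : Finset ι) (c : ℝ) (F : ι → ℝ) :
    avgOn I (fun p => c * F p) = c * avgOn I F := by
  unfold avgOn
  rw [← Finset.mul_sum, mul_div_assoc]

theorem s5em_avg_mono (I : Finset ι) (F G : ι → ℝ) (h : ∀ p ∈ I, F p ≤ G p) :
    avgOn I F ≤ avgOn I G :=
  div_le_div_of_nonneg_right (Finset.sum_le_sum h) (Nat.cast_nonneg _)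

theorem s5em_avg_congr (I : Finset ι) (F G : ι → ℝ) (h : ∀ p ∈ I, F p = G p) :
    avgOn I F = avgOn I G := by
  unfold avgOn
  rw [Finset.sum_congr rfl h]

theorem s5em_abs_avg_le (I : Finset ι) (F : ι → ℝ) : |avgOn I F| ≤ avgOn I (fun p => |F p|) := by
  unfold avgOn
  rw [abs_div, Nat.abs_cast]
  exact div_le_div_of_nonneg_right (Finset.abs_sum_le_sum_abs _ _) (Nat.cast_nonneg _)

theorem s5em_avg_const_le (I : Finset ι) (c : ℝ) (hc : 0 ≤ c) : avgOn I (fun _ => c) ≤ c := by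
  unfold avgOn
  rw [Finset.sum_const, nsmul_eq_mul]
  rcases Nat.eq_zero_or_pos I.card with h | h
  · simp [h, hc]
  · have : (0 : ℝ) < I.card := by exact_mod_cast h
    rw [mul_div_assoc, mul_comm, div_mul_cancel₀ _ this.ne']

theorem s5em_avg_nonneg (I : Finset ι) (F : ι → ℝ) (h : ∀ p ∈ I, 0 ≤ F p) : 0 ≤ avgOn I F :=
  div_nonneg (Finset.sum_nonneg h) (Nat.cast_nonneg _)

end avg

/-! ## scalars -/

theorem s5em_rec_scalar (ka kc ε x1 x2 x3 x4 y1 y2 y3 y4 Ba Bc By : ℝ) (hka0 : 0 ≤ ka) (hka : ka ≤ 1)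
    (hkc0 : 0 ≤ kc) (hkc : kc ≤ 1) (hε : 0 ≤ ε) (h1 : |x1| ≤ Ba) (h2 : |x2| ≤ Ba) (h3 : |x3| ≤ Bc)
    (h4 : |x4| ≤ Bc) (g1 : |y1| ≤ By) (g2 : |y2| ≤ By) (g3 : |y3| ≤ By) (g4 : |y4| ≤ By) :
    |kc * ε * (x1 + x2) + ka * ε * (x3 + x4) + ka * kc * ε ^ 2 * (y1 + y2 + y3 + y4)| ≤
      2 * ε * (Ba + Bc) + 4 * ε ^ 2 * By := by
  have hBa : 0 ≤ Ba := (abs_nonneg _).trans h1
  have hBc : 0 ≤ Bc := (abs_nonneg _).trans h3
  have hBy : 0 ≤ By := (abs_nonneg _).trans g1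
  have e1 : |kc * ε * (x1 + x2)| ≤ ε * (2 * Ba) := by
    rw [abs_mul, abs_mul, abs_of_nonneg hkc0, abs_of_nonneg hε]
    have : |x1 + x2| ≤ 2 * Ba := (abs_add_le _ _).trans (by linarith)
    calc kc * ε * |x1 + x2| ≤ 1 * ε * (2 * Ba) := by gcongr
      _ = ε * (2 * Ba) := by ring
  have e2 : |ka * ε * (x3 + x4)| ≤ ε * (2 * Bc) := by
    rw [abs_mul, abs_mul, abs_of_nonneg hka0, abs_of_nonneg hε]
    have : |x3 + x4| ≤ 2 * Bc := (abs_add_le _ _).trans (by linarith)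
    calc ka * ε * |x3 + x4| ≤ 1 * ε * (2 * Bc) := by gcongr
      _ = ε * (2 * Bc) := by ring
  have e3 : |ka * kc * ε ^ 2 * (y1 + y2 + y3 + y4)| ≤ ε ^ 2 * (4 * By) := by
    rw [abs_mul, abs_mul, abs_mul, abs_of_nonneg hka0, abs_of_nonneg hkc0, abs_of_nonneg (sq_nonneg ε)]
    have : |y1 + y2 + y3 + y4| ≤ 4 * By :=
      (abs_add_le _ _).trans (by
        have := abs_add_le (y1 + y2) y3
        have := abs_add_le y1 y2
        linarith)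
    calc ka * kc * ε ^ 2 * |y1 + y2 + y3 + y4| ≤ 1 * 1 * ε ^ 2 * (4 * By) := by gcongr
      _ = ε ^ 2 * (4 * By) := by ring
  calc _ ≤ |kc * ε * (x1 + x2)| + |ka * ε * (x3 + x4)| + |ka * kc * ε ^ 2 * (y1 + y2 + y3 + y4)| :=
        abs_add_three _ _ _
    _ ≤ _ := by linarith

/-! ## facts on the tables -/

/-- the row majorant `r_a(u) + r_a(v)` -/
def s5emR {α : Type} (t : S5Tab α) (A : α → α → ℝ) (a : α) (p : α × α) : ℝ :=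
  A a p.1 + |t.E a p.1| + A a p.2 + |t.E a p.2|

theorem s5em_q_symm {α : Type} (X : Matrix (Fin 2) (Fin 2) ℝ) (hX : X 1 0 = X 0 1) (a c : α → ℝ)
    (p : α × α) : s5q X a c p = s5q X c a p := by
  rw [s5q_apply, s5q_apply, hX]
  ring

section

variable {α : Type} [DecidableEq α] {C0 N ND Qa ZW ZP trW dm εs Bt μT VT : ℝ} {t : S5Tab α} {Vd : Finset (α × α)}
  {Dg : ℕ} {A : α → α → ℝ} {j : α → ℝ} {b : α → α → ℝ}

theorem s5em_kap (t : S5Tab α) (a : α) : 0 ≤ t.kap a ∧ t.kap a ≤ 1 := by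
  unfold S5Tab.kap
  split_ifs <;> constructor <;> norm_num

theorem s5em_l (H : S5TabOK C0 N ND Qa ZW ZP trW dm εs Bt μT VT t Vd Dg A j b) : (32 : ℝ) ≤ (t.l : ℝ) := by
  have := H.hl
  unfold S5Tab.l
  exact_mod_cast this

theorem s5em_eps (H : S5TabOK C0 N ND Qa ZW ZP trW dm εs Bt μT VT t Vd Dg A j b) :
    0 < ((t.l : ℝ) - 2)⁻¹ ∧ ((t.l : ℝ) - 2)⁻¹ ≤ 2 / (t.l : ℝ) ∧ ((t.l : ℝ) - 2)⁻¹ ≤ 1 := by
  have h32 := s5em_l H
  have h1 : (0 : ℝ) < (t.l : ℝ) - 2 := by linarith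
  refine ⟨inv_pos.2 h1, ?_, inv_le_one_of_one_le₀ (by linarith)⟩
  rw [inv_eq_one_div, div_le_div_iff₀ h1 (by linarith)]
  linarith

theorem s5em_E1_symm (H : S5TabOK C0 N ND Qa ZW ZP trW dm εs Bt μT VT t Vd Dg A j b) {p : α × α}
    (hp : p ∈ Vd) (a c : α) : t.E1 p a c = t.E1 p c a := by
  obtain ⟨tbT, tbD, -⟩ := H.tb hp
  unfold S5Tab.E1
  rw [H.Esymm a c, H.tailSymm p a c, s5em_q_symm (t.HW p) (tb_formula tbD).2.2.2 (t.W a) (t.W c),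
    s5em_q_symm (t.HP p) (tb_formula tbT).2.2.2 (t.P a) (t.P c)]

theorem s5em_C0 (H : S5TabOK C0 N ND Qa ZW ZP trW dm εs Bt μT VT t Vd Dg A j b) : 0 ≤ C0 := by
  have hpos : 0 < t.S.card := by have := H.hl; omega
  obtain ⟨x, hx⟩ := Finset.card_pos.1 hpos
  exact (Finset.sum_nonneg fun _ _ => sq_nonneg _).trans (H.E_row x (S5TabOK.mem_Al hx))

theorem s5em_R_bd (H : S5TabOK C0 N ND Qa ZW ZP trW dm εs Bt μT VT t Vd Dg A j b) {p : α × α}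
    (hp : p ∈ Vd) {a : α} (ha : a ∈ t.Al) : 0 ≤ s5emR t A a p ∧ s5emR t A a p ≤ 2 * C0 + 1 / 8 := by
  obtain ⟨h1, h2, -⟩ := Finset.mem_offDiag.1 (H.valid.sub hp)
  have a1 := H.A_nonneg ha h1
  have a2 := H.A_nonneg ha h2
  have b1 := H.A_le ha h1
  have b2 := H.A_le ha h2
  have e1 := H.E_le a ha _ (S5TabOK.mem_Al h1)
  have e2 := H.E_le a ha _ (S5TabOK.mem_Al h2)
  have hdm := H.dm_le
  unfold s5emR
  constructor
  · positivity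
  · linarith

/-- the recentring terms -/
theorem s5em_rec_le (H : S5TabOK C0 N ND Qa ZW ZP trW dm εs Bt μT VT t Vd Dg A j b) {Cs : ℝ} (hCs : 0 ≤ Cs)
    (hsel : ∀ p ∈ Vd, ∀ a ∈ t.Al, ∀ s, (s = p.1 ∨ s = p.2) →
      |t.E1 p a s| ≤ Cs * (A a p.1 + |t.E a p.1| + A a p.2 + |t.E a p.2|))
    {p : α × α} (hp : p ∈ Vd) {a c : α} (ha : a ∈ t.Al) (hc : c ∈ t.Al) :
    |t.E2 p a c - t.E1 p a c| ≤ 2 * ((t.l : ℝ) - 2)⁻¹ * (Cs * s5emR t A a p + Cs * s5emR t A c p)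
      + 4 * (((t.l : ℝ) - 2)⁻¹) ^ 2 * (Cs * (2 * C0 + 1 / 8)) := by
  obtain ⟨h1, h2, -⟩ := Finset.mem_offDiag.1 (H.valid.sub hp)
  have hA1 : p.1 ∈ t.Al := S5TabOK.mem_Al h1
  have hA2 : p.2 ∈ t.Al := S5TabOK.mem_Al h2
  have hy : ∀ s ∈ t.Al, ∀ s', (s' = p.1 ∨ s' = p.2) → |t.E1 p s s'| ≤ Cs * (2 * C0 + 1 / 8) :=
    fun s hs s' hs' => (hsel p hp s hs s' hs').trans
      (mul_le_mul_of_nonneg_left (s5em_R_bd H hp hs).2 hCs)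
  have e : t.E2 p a c - t.E1 p a c =
      t.kap c * ((t.l : ℝ) - 2)⁻¹ * (t.E1 p a p.1 + t.E1 p a p.2)
        + t.kap a * ((t.l : ℝ) - 2)⁻¹ * (t.E1 p p.1 c + t.E1 p p.2 c)
        + t.kap a * t.kap c * (((t.l : ℝ) - 2)⁻¹) ^ 2
          * (t.E1 p p.1 p.1 + t.E1 p p.1 p.2 + t.E1 p p.2 p.1 + t.E1 p p.2 p.2) := by
    unfold S5Tab.E2
    ring
  rw [e]
  refine s5em_rec_scalar _ _ _ _ _ _ _ _ _ _ _ _ _ _ (s5em_kap t a).1 (s5em_kap t a).2 (s5em_kap t c).1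
    (s5em_kap t c).2 (s5em_eps H).1.le (hsel p hp a ha _ (Or.inl rfl)) (hsel p hp a ha _ (Or.inr rfl)) ?_ ?_
    (hy _ hA1 _ (Or.inl rfl)) (hy _ hA1 _ (Or.inr rfl)) (hy _ hA2 _ (Or.inl rfl)) (hy _ hA2 _ (Or.inr rfl))
  · rw [s5em_E1_symm H hp]
    exact hsel p hp c hc _ (Or.inl rfl)
  · rw [s5em_E1_symm H hp]
    exact hsel p hp c hc _ (Or.inr rfl)

theorem s5em_X0 (t : S5Tab α) (a c : α) : t.X0 a c ⊆ t.S ∧ (t.X0 a c).card ≤ 2 :=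
  ⟨Finset.inter_subset_right, (Finset.card_le_card Finset.inter_subset_left).trans Finset.card_le_two⟩

/-- the average of the row majorant -/
theorem s5em_avg_R (H : S5TabOK C0 N ND Qa ZW ZP trW dm εs Bt μT VT t Vd Dg A j b) (X0 : Finset α)
    (hX : X0.card ≤ 2) {a : α} (ha : a ∈ t.Al) :
    avgOn (s5Surv Vd X0) (fun p => s5emR t A a p) ≤ 16 * Real.sqrt C0 / Real.sqrt (t.l : ℝ) := by
  have h1 := s5_avg_abs_le H.valid H.hl H.hDg X0 hX (A a)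
  have h2 := s5_avg_abs_le H.valid H.hl H.hDg X0 hX (t.E a)
  have hs : (0 : ℝ) ≤ Real.sqrt (t.S.card : ℝ) := Real.sqrt_nonneg _
  have h1' : 8 * Real.sqrt (∑ x ∈ t.S, A a x ^ 2) / Real.sqrt (t.S.card : ℝ) ≤
      8 * Real.sqrt C0 / Real.sqrt (t.S.card : ℝ) :=
    div_le_div_of_nonneg_right (mul_le_mul_of_nonneg_left (Real.sqrt_le_sqrt (H.A_arr a ha).sq) (by norm_num)) hs
  have h2' : 8 * Real.sqrt (∑ x ∈ t.S, t.E a x ^ 2) / Real.sqrt (t.S.card : ℝ) ≤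
      8 * Real.sqrt C0 / Real.sqrt (t.S.card : ℝ) :=
    div_le_div_of_nonneg_right (mul_le_mul_of_nonneg_left (Real.sqrt_le_sqrt (H.E_row a ha)) (by norm_num)) hs
  have h3 : avgOn (s5Surv Vd X0) (fun p => s5emR t A a p) ≤
      avgOn (s5Surv Vd X0) (fun p => (|A a p.1| + |A a p.2|) + (|t.E a p.1| + |t.E a p.2|)) := by
    refine s5em_avg_mono _ _ _ fun p _ => ?_
    unfold s5emR
    have := le_abs_self (A a p.1)
    have := le_abs_self (A a p.2)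
    linarith
  rw [s5em_avg_add] at h3
  have e : 16 * Real.sqrt C0 / Real.sqrt (t.l : ℝ) =
      8 * Real.sqrt C0 / Real.sqrt (t.S.card : ℝ) + 8 * Real.sqrt C0 / Real.sqrt (t.S.card : ℝ) := by
    unfold S5Tab.l
    ring
  rw [e]
  linarith

/-- the average of the recentring terms -/
theorem s5em_avg_rec (H : S5TabOK C0 N ND Qa ZW ZP trW dm εs Bt μT VT t Vd Dg A j b) {Cs : ℝ} (hCs : 0 ≤ Cs)
    (hsel : ∀ p ∈ Vd, ∀ a ∈ t.Al, ∀ s, (s = p.1 ∨ s = p.2) →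
      |t.E1 p a s| ≤ Cs * (A a p.1 + |t.E a p.1| + A a p.2 + |t.E a p.2|))
    (X0 : Finset α) (hX : X0.card ≤ 2) {a c : α} (ha : a ∈ t.Al) (hc : c ∈ t.Al) :
    |avgOn (s5Surv Vd X0) (fun p => t.E2 p a c - t.E1 p a c)| ≤
      128 * Cs * Real.sqrt C0 * (1 / ((t.l : ℝ) * Real.sqrt t.l))
        + 16 * Cs * (2 * C0 + 1 / 8) * (1 / (t.l : ℝ) ^ 2) := by
  obtain ⟨hε0, hε2, hε1⟩ := s5em_eps H
  have h32 := s5em_l H
  have hL : (0 : ℝ) < (t.l : ℝ) := by linarith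
  have hsL : 0 < Real.sqrt (t.l : ℝ) := Real.sqrt_pos.2 hL
  have hC0 := s5em_C0 H
  set ε : ℝ := ((t.l : ℝ) - 2)⁻¹ with hε
  have hK : 0 ≤ Cs * (2 * C0 + 1 / 8) := by positivity
  have h1 : avgOn (s5Surv Vd X0) (fun p => |t.E2 p a c - t.E1 p a c|) ≤
      avgOn (s5Surv Vd X0) (fun p => (2 * ε * Cs) * s5emR t A a p + (2 * ε * Cs) * s5emR t A c p
        + 4 * ε ^ 2 * (Cs * (2 * C0 + 1 / 8))) := by
    refine s5em_avg_mono _ _ _ fun p hp => ?_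
    have := s5em_rec_le H hCs hsel (s5c_surv_sub Vd X0 hp) ha hc
    rw [← hε] at this
    linarith
  rw [s5em_avg_add, s5em_avg_add, s5em_avg_mul, s5em_avg_mul] at h1
  have h2 := s5em_avg_R H X0 hX ha
  have h3 := s5em_avg_R H X0 hX hc
  have h4 := s5em_avg_const_le (s5Surv Vd X0) (4 * ε ^ 2 * (Cs * (2 * C0 + 1 / 8))) (by positivity)
  have hεC : 0 ≤ 2 * ε * Cs := by positivity
  have h5 := mul_le_mul_of_nonneg_left h2 hεC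
  have h6 := mul_le_mul_of_nonneg_left h3 hεC
  have hq : 0 ≤ 16 * Real.sqrt C0 / Real.sqrt (t.l : ℝ) := by positivity
  have h7 : 2 * ε * Cs * (16 * Real.sqrt C0 / Real.sqrt (t.l : ℝ)) ≤
      64 * Cs * Real.sqrt C0 * (1 / ((t.l : ℝ) * Real.sqrt t.l)) := by
    calc 2 * ε * Cs * (16 * Real.sqrt C0 / Real.sqrt (t.l : ℝ))
        ≤ 2 * (2 / (t.l : ℝ)) * Cs * (16 * Real.sqrt C0 / Real.sqrt (t.l : ℝ)) := by gcongr
      _ = 64 * Cs * Real.sqrt C0 * (1 / ((t.l : ℝ) * Real.sqrt t.l)) := by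
          field_simp
          ring
  have h8 : 4 * ε ^ 2 * (Cs * (2 * C0 + 1 / 8)) ≤ 16 * Cs * (2 * C0 + 1 / 8) * (1 / (t.l : ℝ) ^ 2) := by
    calc 4 * ε ^ 2 * (Cs * (2 * C0 + 1 / 8)) ≤ 4 * (2 / (t.l : ℝ)) ^ 2 * (Cs * (2 * C0 + 1 / 8)) := by gcongr
      _ = 16 * Cs * (2 * C0 + 1 / 8) * (1 / (t.l : ℝ) ^ 2) := by
          field_simp
          ring
  refine (s5em_abs_avg_le _ _).trans ?_
  linarith

theorem s5em_nonneg (H : S5TabOK C0 N ND Qa ZW ZP trW dm εs Bt μT VT t Vd Dg A j b) :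
    0 ≤ trW ∧ 0 ≤ ZW ∧ 0 ≤ ZP ∧ 0 ≤ Qa ∧ 0 ≤ N ∧ 0 ≤ ND :=
  ⟨(abs_nonneg _).trans H.trD, H.opW.1, H.opP.1,
    (Finset.sum_nonneg fun x hx => H.maj.j_nonneg x hx).trans H.maj.j_sum,
    (Finset.sum_nonneg fun _ _ => sq_nonneg _).trans H.maj.j_sq,
    (Finset.sum_nonneg fun _ _ => sq_nonneg _).trans H.diagD⟩

theorem s5em_dec (t : S5Tab α) (p : α × α) (a c : α) :
    t.E2 p a c - t.E a c = s5q (t.HP p) (t.P a) (t.P c) p - s5q (t.HW p) (t.W a) (t.W c) p - t.Rt p a c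
      + (t.E2 p a c - t.E1 p a c) := by
  unfold S5Tab.E1
  ring

end

/-- (5.22) SIGNED ENTRY MEAN, recentred outputs included -/
theorem s5_en_mean (C0 : ℝ) : ∃ C : ℝ, 0 < C ∧ ∀ (α : Type) [DecidableEq α]
    (N ND Qa ZW ZP trW dm εs Bt μT VT : ℝ) (t : S5Tab α) (Vd : Finset (α × α)) (Dg : ℕ)
    (A : α → α → ℝ) (j : α → ℝ) (b : α → α → ℝ),
    S5TabOK C0 N ND Qa ZW ZP trW dm εs Bt μT VT t Vd Dg A j b →
    ∀ a ∈ t.Al, ∀ c ∈ t.Al,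
      |avgOn (s5Surv Vd (t.X0 a c)) (fun p => t.E2 p a c - t.E a c)| ≤
        C * ((trW + ZW + ZP + Qa + Dg + N + ND + 1) / (t.l : ℝ) ^ 2
          + 1 / ((t.l : ℝ) * Real.sqrt t.l)) + μT := by
  obtain ⟨C1, hC1, htab⟩ := s5_tab_r2 C0
  obtain ⟨Cm, hCm, hmean⟩ := s5_r2_mean C1
  obtain ⟨Cs, hCs, hsel⟩ := s5_en_sel_abs C0
  refine ⟨2 * Cm + 128 * Cs * Real.sqrt C0 + 16 * Cs * (2 * |C0| + 1 / 8), by positivity, ?_⟩
  intro α _ N ND Qa ZW ZP trW dm εs Bt μT VT t Vd Dg A j b H a ha c hc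
  obtain ⟨hD, hT, htr, harr⟩ := htab α N ND Qa ZW ZP trW dm εs Bt μT VT t Vd Dg A j b H
  have hsel' := hsel α N ND Qa ZW ZP trW dm εs Bt μT VT t Vd Dg A j b H
  obtain ⟨hX, hX2⟩ := s5em_X0 t a c
  obtain ⟨n1, n2, n3, n4, n5, n6⟩ := s5em_nonneg H
  have hC0 := s5em_C0 H
  have h32 := s5em_l H
  have hL : (0 : ℝ) < (t.l : ℝ) := by linarith
  have hsL : 0 < Real.sqrt (t.l : ℝ) := Real.sqrt_pos.2 hL
  have hDg0 : (0 : ℝ) ≤ (Dg : ℝ) := Nat.cast_nonneg _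
  have m1 : |avgOn (s5Surv Vd (t.X0 a c)) (fun p => s5q (t.HW p) (t.W a) (t.W c) p)| ≤
      Cm * (|trS t.S t.Dm| + ZW + Dg + ND + 1) / (t.l : ℝ) ^ 2 :=
    hmean α ND ZW t.S Vd Dg t.σ t.h t.Dm (t.W a) (t.W c) (t.X0 a c) hD (harr a ha).1 (harr c hc).1
      (harr a ha).2.2.2 (harr c hc).2.2.2 hX hX2
  have m2 : |avgOn (s5Surv Vd (t.X0 a c)) (fun p => s5q (t.HP p) (t.P a) (t.P c) p)| ≤
      Cm * (|trS t.S t.Tm| + ZP + Dg + N + 1) / (t.l : ℝ) ^ 2 :=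
    hmean α N ZP t.S Vd Dg t.σ t.h t.Tm (t.P a) (t.P c) (t.X0 a c) hT (harr a ha).2.1 (harr c hc).2.1
      (H.Pcent a ha) (H.Pcent c hc) hX hX2
  have m3 := H.tailMean a ha c hc
  have m4 := s5em_avg_rec H hCs.le hsel' (t.X0 a c) hX2 ha hc
  have hdec : avgOn (s5Surv Vd (t.X0 a c)) (fun p => t.E2 p a c - t.E a c) =
      avgOn (s5Surv Vd (t.X0 a c)) (fun p => s5q (t.HP p) (t.P a) (t.P c) p)
        - avgOn (s5Surv Vd (t.X0 a c)) (fun p => s5q (t.HW p) (t.W a) (t.W c) p)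
        - avgOn (s5Surv Vd (t.X0 a c)) (fun p => t.Rt p a c)
        + avgOn (s5Surv Vd (t.X0 a c)) (fun p => t.E2 p a c - t.E1 p a c) := by
    rw [← s5em_avg_sub, ← s5em_avg_sub, ← s5em_avg_add]
    exact s5em_avg_congr _ _ _ fun p _ => s5em_dec t p a c
  set X : ℝ := (trW + ZW + ZP + Qa + Dg + N + ND + 1) / (t.l : ℝ) ^ 2 with hXdef
  set Y : ℝ := 1 / ((t.l : ℝ) * Real.sqrt t.l) with hYdef
  have hX0 : 0 ≤ X := by positivity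
  have hY0 : 0 ≤ Y := by positivity
  have k1 : Cm * (|trS t.S t.Dm| + ZW + Dg + ND + 1) / (t.l : ℝ) ^ 2 ≤ Cm * X := by
    rw [hXdef, mul_div_assoc]
    have := H.trD
    exact mul_le_mul_of_nonneg_left (div_le_div_of_nonneg_right (by linarith) (by positivity)) hCm.le
  have k2 : Cm * (|trS t.S t.Tm| + ZP + Dg + N + 1) / (t.l : ℝ) ^ 2 ≤ Cm * X := by
    rw [hXdef, mul_div_assoc]
    exact mul_le_mul_of_nonneg_left (div_le_div_of_nonneg_right (by linarith) (by positivity)) hCm.le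
  have k3 : 1 / (t.l : ℝ) ^ 2 ≤ X := by
    rw [hXdef]
    exact div_le_div_of_nonneg_right (by linarith) (by positivity)
  have k4 : 16 * Cs * (2 * C0 + 1 / 8) * (1 / (t.l : ℝ) ^ 2) ≤ 16 * Cs * (2 * C0 + 1 / 8) * X :=
    mul_le_mul_of_nonneg_left k3 (by positivity)
  rw [hdec, abs_of_nonneg hC0]
  have tri : ∀ x y z w : ℝ, |x - y - z + w| ≤ |x| + |y| + |z| + |w| := by
    intro x y z w
    have h1 := abs_add_le (x - y - z) w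
    have h2 := abs_sub (x - y) z
    have h3 := abs_sub x y
    linarith
  refine (tri _ _ _ _).trans ?_
  have hp1 : 0 ≤ 128 * Cs * Real.sqrt C0 * X := by positivity
  have hp2 : 0 ≤ (2 * Cm + 16 * Cs * (2 * C0 + 1 / 8)) * Y := by positivity
  nlinarith [m1, m2, m3, m4, k1, k2, k4, hp1, hp2]

theorem s5es_avg_mono {ι : Type} (I : Finset ι) (F G : ι → ℝ) (h : ∀ p ∈ I, F p ≤ G p) :
    avgOn I F ≤ avgOn I G := by
  unfold avgOn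
  exact div_le_div_of_nonneg_right (Finset.sum_le_sum h) (Nat.cast_nonneg _)

theorem s5es_avg_lin {ι : Type} (I : Finset ι) (F1 F2 F3 : ι → ℝ) (k c : ℝ) (hk : 0 ≤ k) (hc : 0 ≤ c) :
    avgOn I (fun p => k * (F1 p + F2 p + F3 p + c)) ≤ k * (avgOn I F1 + avgOn I F2 + avgOn I F3 + c) := by
  unfold avgOn
  rcases Nat.eq_zero_or_pos I.card with h0 | h0
  · rw [h0]
    simp only [Nat.cast_zero, div_zero, zero_add]
    positivity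
  · have h1 : (0 : ℝ) < (I.card : ℝ) := by exact_mod_cast h0
    rw [← Finset.mul_sum, Finset.sum_add_distrib, Finset.sum_add_distrib, Finset.sum_add_distrib, Finset.sum_const,
      nsmul_eq_mul]
    apply le_of_eq
    field_simp

theorem s5es_sq4 (x1 x2 x3 x4 : ℝ) : (x1 + x2 + x3 + x4) ^ 2 ≤ 4 * (x1 ^ 2 + x2 ^ 2 + x3 ^ 2 + x4 ^ 2) := by
  nlinarith [sq_nonneg (x1 - x2), sq_nonneg (x1 - x3), sq_nonneg (x1 - x4), sq_nonneg (x2 - x3), sq_nonneg (x2 - x4),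
    sq_nonneg (x3 - x4)]

/-- the recentring part is `O(B / l)` -/
theorem s5es_rec (B κ ka kc e1 e2 e3 e4 e5 e6 e7 e8 : ℝ) (hκ0 : 0 ≤ κ) (hκ1 : κ ≤ 1) (ha0 : 0 ≤ ka) (ha1 : ka ≤ 1)
    (hc0 : 0 ≤ kc) (hc1 : kc ≤ 1) (h1 : |e1| ≤ B) (h2 : |e2| ≤ B) (h3 : |e3| ≤ B) (h4 : |e4| ≤ B) (h5 : |e5| ≤ B)
    (h6 : |e6| ≤ B) (h7 : |e7| ≤ B) (h8 : |e8| ≤ B) :
    |kc * κ * (e1 + e2) + ka * κ * (e3 + e4) + ka * kc * κ ^ 2 * (e5 + e6 + e7 + e8)| ≤ 8 * B * κ := by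
  have hB : 0 ≤ B := (abs_nonneg _).trans h1
  have t1 : |kc * κ * (e1 + e2)| ≤ κ * (2 * B) := by
    rw [abs_mul, abs_mul, abs_of_nonneg hc0, abs_of_nonneg hκ0]
    have : |e1 + e2| ≤ 2 * B := (abs_add_le _ _).trans (by linarith)
    calc kc * κ * |e1 + e2| ≤ 1 * κ * (2 * B) := by gcongr
      _ = κ * (2 * B) := by ring
  have t2 : |ka * κ * (e3 + e4)| ≤ κ * (2 * B) := by
    rw [abs_mul, abs_mul, abs_of_nonneg ha0, abs_of_nonneg hκ0]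
    have : |e3 + e4| ≤ 2 * B := (abs_add_le _ _).trans (by linarith)
    calc ka * κ * |e3 + e4| ≤ 1 * κ * (2 * B) := by gcongr
      _ = κ * (2 * B) := by ring
  have t3 : |ka * kc * κ ^ 2 * (e5 + e6 + e7 + e8)| ≤ κ * (4 * B) := by
    rw [abs_mul, abs_mul, abs_mul, abs_of_nonneg ha0, abs_of_nonneg hc0, abs_of_nonneg (sq_nonneg κ)]
    have h9 : |e5 + e6 + e7 + e8| ≤ 4 * B :=
      (abs_add_le _ _).trans (by
        have := abs_add_le (e5 + e6) e7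
        have := abs_add_le e5 e6
        linarith)
    have h10 : κ ^ 2 ≤ κ := by nlinarith
    calc ka * kc * κ ^ 2 * |e5 + e6 + e7 + e8| ≤ 1 * 1 * κ * (4 * B) := by gcongr
      _ = κ * (4 * B) := by ring
  calc |kc * κ * (e1 + e2) + ka * κ * (e3 + e4) + ka * kc * κ ^ 2 * (e5 + e6 + e7 + e8)|
      ≤ |kc * κ * (e1 + e2)| + |ka * κ * (e3 + e4)| + |ka * kc * κ ^ 2 * (e5 + e6 + e7 + e8)| := abs_add_three _ _ _
    _ ≤ 8 * B * κ := by linarith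

/-- SECOND MOMENT of the full increment (no smallness of `E` is used) -/
theorem s5_en_sq (C0 : ℝ) : ∃ C : ℝ, 0 < C ∧ ∀ (α : Type) [DecidableEq α]
    (N ND Qa ZW ZP trW dm εs Bt μT VT : ℝ) (t : S5Tab α) (Vd : Finset (α × α)) (Dg : ℕ)
    (A : α → α → ℝ) (j : α → ℝ) (b : α → α → ℝ),
    S5TabOK C0 N ND Qa ZW ZP trW dm εs Bt μT VT t Vd Dg A j b → Bt ≤ 1 →
    ∀ a ∈ t.Al, ∀ c ∈ t.Al,
      avgOn (s5Surv Vd (t.X0 a c)) (fun p => (t.E2 p a c - t.E a c) ^ 2) ≤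
        C * ((N + ND + 1) / (t.l : ℝ) ^ 2 + VT) := by
  obtain ⟨C1, hC01, Hr2⟩ := s5_tab_r2 C0
  obtain ⟨Cq, hCq, Hsq⟩ := s5_r2_sq C1
  obtain ⟨Cs, hCs, Hsup⟩ := s5_en_E1_sup C0
  refine ⟨4 * (2 * Cq + 1 + (32 * Cs) ^ 2), by positivity, ?_⟩
  intro α _ N ND Qa ZW ZP trW dm εs Bt μT VT t Vd Dg A j b H hBt a ha c hc
  obtain ⟨hD, hT, -, hArr⟩ := Hr2 α N ND Qa ZW ZP trW dm εs Bt μT VT t Vd Dg A j b H
  have hX : (t.X0 a c).card ≤ 2 :=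
    (Finset.card_le_card Finset.inter_subset_left).trans Finset.card_le_two
  have q1 := Hsq α ND ZW t.S Vd Dg t.σ t.h t.Dm (t.W a) (t.W c) (t.X0 a c) hD (hArr a ha).1 (hArr c hc).1 hX
  have q2 := Hsq α N ZP t.S Vd Dg t.σ t.h t.Tm (t.P a) (t.P c) (t.X0 a c) hT (hArr a ha).2.1 (hArr c hc).2.1 hX
  have q3 := H.tailSq a ha c hc
  have hN : 0 ≤ N := (Finset.sum_nonneg fun _ _ => sq_nonneg _).trans H.maj.j_sq
  have hND : 0 ≤ ND := (Finset.sum_nonneg fun _ _ => sq_nonneg _).trans H.diagD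
  have hVT : 0 ≤ VT := le_trans (div_nonneg (Finset.sum_nonneg fun _ _ => sq_nonneg _) (Nat.cast_nonneg _)) q3
  have h32 : (32 : ℝ) ≤ (t.l : ℝ) := by
    have := H.hl
    unfold S5Tab.l
    exact_mod_cast this
  have hl0 : (0 : ℝ) < (t.l : ℝ) := by linarith
  have hκ0 : 0 < ((t.l : ℝ) - 2)⁻¹ := inv_pos.2 (by linarith)
  have hκ2 : ((t.l : ℝ) - 2)⁻¹ ≤ 2 / (t.l : ℝ) := by
    rw [inv_eq_one_div, div_le_div_iff₀ (by linarith) hl0]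
    linarith
  have hκ1 : ((t.l : ℝ) - 2)⁻¹ ≤ 1 := hκ2.trans (by rw [div_le_one hl0]; linarith)
  have hkap : ∀ z, 0 ≤ t.kap z ∧ t.kap z ≤ 1 := by
    intro z
    unfold S5Tab.kap
    split_ifs <;> norm_num
  have hdm := H.dm_le
  have hdm0 := H.hdm
  have key : ∀ p ∈ s5Surv Vd (t.X0 a c), (t.E2 p a c - t.E a c) ^ 2 ≤
      4 * (s5q (Hgen t.S.card t.σ t.h (pblk t.Dm p.1 p.2)) (t.W a) (t.W c) p ^ 2
        + s5q (Hgen t.S.card t.σ t.h (pblk t.Tm p.1 p.2)) (t.P a) (t.P c) p ^ 2 + t.Rt p a c ^ 2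
        + (32 * Cs) ^ 2 / (t.l : ℝ) ^ 2) := by
    intro p hp
    have hpV : p ∈ Vd := s5c_surv_sub Vd _ hp
    obtain ⟨h1, h2, -⟩ := Finset.mem_offDiag.1 (H.valid.sub hpV)
    have hA1 : p.1 ∈ t.Al := S5TabOK.mem_Al h1
    have hA2 : p.2 ∈ t.Al := S5TabOK.mem_Al h2
    have hB : ∀ x ∈ t.Al, ∀ y ∈ t.Al, |t.E1 p x y| ≤ 2 * Cs := by
      intro x hx y hy
      refine (Hsup α N ND Qa ZW ZP trW dm εs Bt μT VT t Vd Dg A j b H p hpV x hx y hy).trans ?_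
      nlinarith
    have hrec := s5es_rec (2 * Cs) ((t.l : ℝ) - 2)⁻¹ (t.kap a) (t.kap c) (t.E1 p a p.1) (t.E1 p a p.2)
      (t.E1 p p.1 c) (t.E1 p p.2 c) (t.E1 p p.1 p.1) (t.E1 p p.1 p.2) (t.E1 p p.2 p.1) (t.E1 p p.2 p.2)
      hκ0.le hκ1 (hkap a).1 (hkap a).2 (hkap c).1 (hkap c).2 (hB _ ha _ hA1) (hB _ ha _ hA2) (hB _ hA1 _ hc)
      (hB _ hA2 _ hc) (hB _ hA1 _ hA1) (hB _ hA1 _ hA2) (hB _ hA2 _ hA1) (hB _ hA2 _ hA2)
    set rec : ℝ := t.kap c * ((t.l : ℝ) - 2)⁻¹ * (t.E1 p a p.1 + t.E1 p a p.2)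
      + t.kap a * ((t.l : ℝ) - 2)⁻¹ * (t.E1 p p.1 c + t.E1 p p.2 c)
      + t.kap a * t.kap c * (((t.l : ℝ) - 2)⁻¹) ^ 2
        * (t.E1 p p.1 p.1 + t.E1 p p.1 p.2 + t.E1 p p.2 p.1 + t.E1 p p.2 p.2) with hrecdef
    have hrec2 : |rec| ≤ 32 * Cs / (t.l : ℝ) := by
      refine hrec.trans ?_
      calc 8 * (2 * Cs) * ((t.l : ℝ) - 2)⁻¹ ≤ 8 * (2 * Cs) * (2 / (t.l : ℝ)) :=
            mul_le_mul_of_nonneg_left hκ2 (by positivity)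
        _ = 32 * Cs / (t.l : ℝ) := by ring
    have hrec3 : rec ^ 2 ≤ (32 * Cs) ^ 2 / (t.l : ℝ) ^ 2 := by
      rw [← div_pow, ← sq_abs rec]
      exact pow_le_pow_left₀ (abs_nonneg _) hrec2 2
    have e : t.E2 p a c - t.E a c =
        -s5q (Hgen t.S.card t.σ t.h (pblk t.Dm p.1 p.2)) (t.W a) (t.W c) p
          + s5q (Hgen t.S.card t.σ t.h (pblk t.Tm p.1 p.2)) (t.P a) (t.P c) p + -t.Rt p a c + rec := by
      rw [hrecdef]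
      unfold S5Tab.E2
      have : t.E1 p a c = t.E a c - (s5q (Hgen t.S.card t.σ t.h (pblk t.Dm p.1 p.2)) (t.W a) (t.W c) p
          - s5q (Hgen t.S.card t.σ t.h (pblk t.Tm p.1 p.2)) (t.P a) (t.P c) p) - t.Rt p a c := rfl
      rw [this]
      ring
    rw [e]
    refine (s5es_sq4 _ _ _ _).trans ?_
    rw [neg_sq, neg_sq]
    linarith
  refine (s5es_avg_mono _ _ _ key).trans ?_
  refine (s5es_avg_lin _ _ _ _ 4 _ (by norm_num) (by positivity)).trans ?_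
  have hl2 : (0 : ℝ) < (t.l : ℝ) ^ 2 := by positivity
  have q1' : avgOn (s5Surv Vd (t.X0 a c))
      (fun p => s5q (Hgen t.S.card t.σ t.h (pblk t.Dm p.1 p.2)) (t.W a) (t.W c) p ^ 2) ≤ Cq * (ND + 1) / (t.l : ℝ) ^ 2 := q1
  have q2' : avgOn (s5Surv Vd (t.X0 a c))
      (fun p => s5q (Hgen t.S.card t.σ t.h (pblk t.Tm p.1 p.2)) (t.P a) (t.P c) p ^ 2) ≤ Cq * (N + 1) / (t.l : ℝ) ^ 2 := q2
  have e2 : 4 * (2 * Cq + 1 + (32 * Cs) ^ 2) * ((N + ND + 1) / (t.l : ℝ) ^ 2 + VT)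
      = 4 * ((2 * Cq + 1 + (32 * Cs) ^ 2) * (N + ND + 1) / (t.l : ℝ) ^ 2 + (2 * Cq + 1 + (32 * Cs) ^ 2) * VT) := by ring
  rw [e2]
  have e3 : Cq * (ND + 1) / (t.l : ℝ) ^ 2 + Cq * (N + 1) / (t.l : ℝ) ^ 2 + (32 * Cs) ^ 2 / (t.l : ℝ) ^ 2
      ≤ (2 * Cq + 1 + (32 * Cs) ^ 2) * (N + ND + 1) / (t.l : ℝ) ^ 2 := by
    rw [← add_div, ← add_div]
    refine div_le_div_of_nonneg_right ?_ hl2.le
    have hK : 0 ≤ (32 * Cs) ^ 2 := by positivity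
    nlinarith [mul_nonneg hCq.le hN, mul_nonneg hCq.le hND, mul_nonneg hK hN, mul_nonneg hK hND]
  have e4 : VT ≤ (2 * Cq + 1 + (32 * Cs) ^ 2) * VT := by
    have hK : 0 ≤ (32 * Cs) ^ 2 := by positivity
    nlinarith [mul_nonneg hCq.le hVT, mul_nonneg hK hVT]
  linarith

/-! ## linearisation -/

/-- a symmetric bilinear form on `ℝ²` -/
theorem s5em_bil_le (u1 u2 w1 w2 d11 d12 d22 U W : ℝ) (hu1 : |u1| ≤ U) (hu2 : |u2| ≤ U) (hw1 : |w1| ≤ W)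
    (hw2 : |w2| ≤ W) :
    |u1 * (d11 * w1 + d12 * w2) + u2 * (d12 * w1 + d22 * w2)| ≤ U * W * (|d11| + 2 * |d12| + |d22|) := by
  have hU : 0 ≤ U := (abs_nonneg _).trans hu1
  have hW : 0 ≤ W := (abs_nonneg _).trans hw1
  have m : ∀ u d w : ℝ, |u| ≤ U → |w| ≤ W → |u * (d * w)| ≤ U * W * |d| := by
    intro u d w hu hw
    rw [abs_mul, abs_mul]
    calc |u| * (|d| * |w|) ≤ U * (|d| * W) := by gcongr
      _ = U * W * |d| := by ring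
  have e : u1 * (d11 * w1 + d12 * w2) + u2 * (d12 * w1 + d22 * w2) =
      u1 * (d11 * w1) + u1 * (d12 * w2) + u2 * (d12 * w1) + u2 * (d22 * w2) := by ring
  rw [e]
  have h1 := m u1 d11 w1 hu1 hw1
  have h2 := m u1 d12 w2 hu1 hw2
  have h3 := m u2 d12 w1 hu2 hw1
  have h4 := m u2 d22 w2 hu2 hw2
  have t1 := abs_add_le (u1 * (d11 * w1) + u1 * (d12 * w2) + u2 * (d12 * w1)) (u2 * (d22 * w2))
  have t2 := abs_add_le (u1 * (d11 * w1) + u1 * (d12 * w2)) (u2 * (d12 * w1))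
  have t3 := abs_add_le (u1 * (d11 * w1)) (u1 * (d12 * w2))
  nlinarith

theorem s5em_dot2_le (u1 u2 e1 e2 U : ℝ) (hu1 : |u1| ≤ U) (hu2 : |u2| ≤ U) :
    |u1 * e1 + u2 * e2| ≤ U * (|e1| + |e2|) := by
  have h1 : |u1 * e1| ≤ U * |e1| := by rw [abs_mul]; gcongr
  have h2 : |u2 * e2| ≤ U * |e2| := by rw [abs_mul]; gcongr
  have := abs_add_le (u1 * e1) (u2 * e2)
  linarith

/-- the scalar form of the linearisation -/
theorem s5em_lin_scalar (x g0 g1 g2 pa1 pa2 pc1 pc2 ea1 ea2 ec1 ec2 d11 d12 d22 c0 η η0 : ℝ)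
    (hx : |x| ≤ 1) (hg0 : |g0| ≤ η) (hg1 : |g1| ≤ η) (hg2 : |g2| ≤ η) (hη : η ≤ η0)
    (ha1 : |pa1| ≤ c0) (ha2 : |pa2| ≤ c0) (hc1 : |pc1| ≤ c0) (hc2 : |pc2| ≤ c0) :
    |-((g0 * pa1 + (-x + g2) * pa2) * ec1 + ((-x + g2) * pa1 + g1 * pa2) * ec2
        + (ea1 * (g0 * pc1 + (-x + g2) * pc2) + ea2 * ((-x + g2) * pc1 + g1 * pc2))
        - ((g0 * pa1 + (-x + g2) * pa2) * (d11 * (g0 * pc1 + (-x + g2) * pc2)
              + d12 * ((-x + g2) * pc1 + g1 * pc2))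
            + ((-x + g2) * pa1 + g1 * pa2) * (d12 * (g0 * pc1 + (-x + g2) * pc2)
              + d22 * ((-x + g2) * pc1 + g1 * pc2))))
      - (x * (pa1 * ec2 + pa2 * ec1 + pc1 * ea2 + pc2 * ea1)
        + x ^ 2 * (pa1 * pc1 * d22 + pa2 * pc2 * d11 + pa1 * pc2 * d12 + pa2 * pc1 * d12))| ≤
      (2 * c0 + 8 * c0 ^ 2 * (1 + η0)) * η * (|ec1| + |ec2| + |ea1| + |ea2| + |d11| + |d22| + |d12|) := by
  have hc0 : 0 ≤ c0 := (abs_nonneg _).trans ha1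
  have hη0 : 0 ≤ η := (abs_nonneg _).trans hg0
  have hδ : ∀ g g' q q' : ℝ, |g| ≤ η → |g'| ≤ η → |q| ≤ c0 → |q'| ≤ c0 → |g * q + g' * q'| ≤ 2 * η * c0 := by
    intro g g' q q' h1 h2 h3 h4
    have e1 : |g * q| ≤ η * c0 := by rw [abs_mul]; gcongr
    have e2 : |g' * q'| ≤ η * c0 := by rw [abs_mul]; gcongr
    have := abs_add_le (g * q) (g' * q')
    linarith
  set δa1 := g0 * pa1 + g2 * pa2 with hδa1
  set δa2 := g2 * pa1 + g1 * pa2 with hδa2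
  set δc1 := g0 * pc1 + g2 * pc2 with hδc1
  set δc2 := g2 * pc1 + g1 * pc2 with hδc2
  have A1 : |δa1| ≤ 2 * η * c0 := hδ _ _ _ _ hg0 hg2 ha1 ha2
  have A2 : |δa2| ≤ 2 * η * c0 := hδ _ _ _ _ hg2 hg1 ha1 ha2
  have B1 : |δc1| ≤ 2 * η * c0 := hδ _ _ _ _ hg0 hg2 hc1 hc2
  have B2 : |δc2| ≤ 2 * η * c0 := hδ _ _ _ _ hg2 hg1 hc1 hc2
  have e : -((g0 * pa1 + (-x + g2) * pa2) * ec1 + ((-x + g2) * pa1 + g1 * pa2) * ec2
        + (ea1 * (g0 * pc1 + (-x + g2) * pc2) + ea2 * ((-x + g2) * pc1 + g1 * pc2))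
        - ((g0 * pa1 + (-x + g2) * pa2) * (d11 * (g0 * pc1 + (-x + g2) * pc2)
              + d12 * ((-x + g2) * pc1 + g1 * pc2))
            + ((-x + g2) * pa1 + g1 * pa2) * (d12 * (g0 * pc1 + (-x + g2) * pc2)
              + d22 * ((-x + g2) * pc1 + g1 * pc2))))
      - (x * (pa1 * ec2 + pa2 * ec1 + pc1 * ea2 + pc2 * ea1)
        + x ^ 2 * (pa1 * pc1 * d22 + pa2 * pc2 * d11 + pa1 * pc2 * d12 + pa2 * pc1 * d12)) =
      -(δa1 * ec1 + δa2 * ec2) - (δc1 * ea1 + δc2 * ea2)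
        - x * (pa2 * (d11 * δc1 + d12 * δc2) + pa1 * (d12 * δc1 + d22 * δc2))
        - x * (δa1 * (d11 * pc2 + d12 * pc1) + δa2 * (d12 * pc2 + d22 * pc1))
        + (δa1 * (d11 * δc1 + d12 * δc2) + δa2 * (d12 * δc1 + d22 * δc2)) := by
    rw [hδa1, hδa2, hδc1, hδc2]
    ring
  rw [e]
  have t1 := s5em_dot2_le δa1 δa2 ec1 ec2 _ A1 A2
  have t2 := s5em_dot2_le δc1 δc2 ea1 ea2 _ B1 B2
  have t3 := s5em_bil_le pa2 pa1 δc1 δc2 d11 d12 d22 _ _ ha2 ha1 B1 B2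
  have t4 := s5em_bil_le δa1 δa2 pc2 pc1 d11 d12 d22 _ _ A1 A2 hc2 hc1
  have t5 := s5em_bil_le δa1 δa2 δc1 δc2 d11 d12 d22 _ _ A1 A2 B1 B2
  have hxm : ∀ y : ℝ, |x * y| ≤ |y| := fun y => by
    rw [abs_mul]; exact mul_le_of_le_one_left (abs_nonneg _) hx
  have t3' := (hxm _).trans t3
  have t4' := (hxm _).trans t4
  set Ds := |d11| + 2 * |d12| + |d22| with hDs
  have hDs0 : 0 ≤ Ds := by positivity
  have t5' : 2 * η * c0 * (2 * η * c0) * Ds ≤ 4 * c0 ^ 2 * η0 * η * Ds := by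
    have : 2 * η * c0 * (2 * η * c0) = 4 * c0 ^ 2 * η * η := by ring
    rw [this]
    have h1 : 4 * c0 ^ 2 * η * η ≤ 4 * c0 ^ 2 * η0 * η := by
      have : 4 * c0 ^ 2 * η * η = 4 * c0 ^ 2 * η * η := rfl
      nlinarith [mul_nonneg (mul_nonneg (by positivity : (0:ℝ) ≤ 4 * c0 ^ 2) hη0) (sub_nonneg.2 hη)]
    exact mul_le_mul_of_nonneg_right h1 hDs0
  have tri : ∀ p q r s w : ℝ, |-p - q - r - s + w| ≤ |p| + |q| + |r| + |s| + |w| := by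
    intro p q r s w
    have h1 := abs_add_le (-p - q - r - s) w
    have h2 := abs_sub (-p - q - r) s
    have h3 := abs_sub (-p - q) r
    have h4 := abs_sub (-p) q
    rw [abs_neg] at h4
    linarith
  refine (tri _ _ _ _ _).trans ?_
  have n1 := abs_nonneg ec1
  have n2 := abs_nonneg ec2
  have n3 := abs_nonneg ea1
  have n4 := abs_nonneg ea2
  have n5 := abs_nonneg d11
  have n6 := abs_nonneg d22
  have n7 := abs_nonneg d12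
  have hDs2 : Ds ≤ 2 * (|d11| + |d22| + |d12|) := by rw [hDs]; linarith
  have hη00 : 0 ≤ η0 := hη0.trans hη
  -- collect
  have s1 : 2 * η * c0 * (|ec1| + |ec2|) + 2 * η * c0 * (|ea1| + |ea2|) =
      2 * c0 * η * (|ec1| + |ec2| + |ea1| + |ea2|) := by ring
  have s2 : c0 * (2 * η * c0) * Ds + 2 * η * c0 * c0 * Ds + 4 * c0 ^ 2 * η0 * η * Ds =
      4 * c0 ^ 2 * (1 + η0) * η * Ds := by ring
  have s3 : 4 * c0 ^ 2 * (1 + η0) * η * Ds ≤ 4 * c0 ^ 2 * (1 + η0) * η * (2 * (|d11| + |d22| + |d12|)) :=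
    mul_le_mul_of_nonneg_left hDs2 (by positivity)
  have s4 : (2 * c0 + 8 * c0 ^ 2 * (1 + η0)) * η * (|ec1| + |ec2| + |ea1| + |ea2| + |d11| + |d22| + |d12|) =
      2 * c0 * η * (|ec1| + |ec2| + |ea1| + |ea2|) + 2 * c0 * η * (|d11| + |d22| + |d12|)
        + 8 * c0 ^ 2 * (1 + η0) * η * (|ec1| + |ec2| + |ea1| + |ea2|)
        + 4 * c0 ^ 2 * (1 + η0) * η * (2 * (|d11| + |d22| + |d12|)) := by ring
  have p1 : 0 ≤ 2 * c0 * η * (|d11| + |d22| + |d12|) := by positivity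
  have p2 : 0 ≤ 8 * c0 ^ 2 * (1 + η0) * η * (|ec1| + |ec2| + |ea1| + |ea2|) := by positivity
  rw [s4]
  linarith

section

variable {α : Type} [DecidableEq α] {C0 N ND Qa ZW ZP trW dm εs Bt μT VT : ℝ} {t : S5Tab α} {Vd : Finset (α × α)}
  {Dg : ℕ} {A : α → α → ℝ} {j : α → ℝ} {b : α → α → ℝ}

/-- the reference deviation on a valid pair -/
theorem s5em_T_small (H : S5TabOK C0 N ND Qa ZW ZP trW dm εs Bt μT VT t Vd Dg A j b) {p : α × α}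
    (hp : p ∈ Vd) : |t.Tm p.1 p.1| ≤ εs ∧ |t.Tm p.2 p.2| ≤ εs ∧ |t.Tm p.1 p.2| ≤ εs := by
  obtain ⟨h1, h2, hne⟩ := Finset.mem_offDiag.1 (H.valid.sub hp)
  have hj1 := H.maj.j_nonneg _ h1
  have hj2 := H.maj.j_nonneg _ h2
  have hb := H.maj.b_nonneg _ h1 _ h2
  have hs := H.small p hp
  exact ⟨(H.Tdiag_le _ h1).trans (by linarith), (H.Tdiag_le _ h2).trans (by linarith),
    (H.Toff_le _ h1 _ h2 hne).trans (by linarith)⟩

/-- the update identity on the tables; the quadratic term is `O(dm²)` -/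
theorem s5em_mid (H : S5TabOK C0 N ND Qa ZW ZP trW dm εs Bt μT VT t Vd Dg A j b) {p : α × α}
    (hp : p ∈ Vd) {a c : α} (ha : a ∈ t.Al) (hc : c ∈ t.Al) :
    ∃ q : ℝ, |q| ≤ 16 * (1 + 16 * |C0|) ^ 2 * dm ^ 2 ∧
      s5q (t.HW p) (t.W a) (t.W c) p - s5q (t.HP p) (t.P a) (t.P c) p =
      (t.HP p *ᵥ pvec (t.P a) p.1 p.2) ⬝ᵥ pvec (t.E c) p.1 p.2
        + pvec (t.E a) p.1 p.2 ⬝ᵥ (t.HP p *ᵥ pvec (t.P c) p.1 p.2)
        - (t.HP p *ᵥ pvec (t.P a) p.1 p.2) ⬝ᵥ (pblk t.Em p.1 p.2 *ᵥ (t.HP p *ᵥ pvec (t.P c) p.1 p.2)) + q := by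
  obtain ⟨h1, h2, hne⟩ := Finset.mem_offDiag.1 (H.valid.sub hp)
  obtain ⟨tbT, tbD, hblk⟩ := H.tb hp
  have hA1 : p.1 ∈ t.Al := S5TabOK.mem_Al h1
  have hA2 : p.2 ∈ t.Al := S5TabOK.mem_Al h2
  have hdm0 := H.hdm
  have hC := le_abs_self C0
  set k : ℝ := 8 * |C0| with hk
  have hW : ∀ z, pvec (t.W z) p.1 p.2 = pvec (t.P z) p.1 p.2 + pvec (t.E z) p.1 p.2 := by
    intro z
    ext i
    fin_cases i <;> simp [pvec, S5Tab.W]
  have hp_le : ∀ z ∈ t.Al, ∀ i, |pvec (t.P z) p.1 p.2 i| ≤ |C0| := fun z hz =>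
    s5e_pvec_le _ _ _ _ ((H.absP_le hz h1).trans hC) ((H.absP_le hz h2).trans hC)
  have he_le : ∀ z ∈ t.Al, ∀ i, |pvec (t.E z) p.1 p.2 i| ≤ dm := fun z hz =>
    s5e_pvec_le _ _ _ _ (H.E_le z hz _ hA1) (H.E_le z hz _ hA2)
  have hDE : ∀ i k, |pblk t.Em p.1 p.2 i k| ≤ dm :=
    s5e_pblk_le _ _ _ _ (H.E_le _ hA1 _ hA1) (H.E_le _ hA1 _ hA2) (H.E_le _ hA2 _ hA1) (H.E_le _ hA2 _ hA2)
  have hθ : ∀ z ∈ t.Al, ∀ i, |(t.HP p *ᵥ pvec (t.P z) p.1 p.2) i| ≤ k := by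
    intro z hz i
    have := s5e_mulVec_le (t.HP p) _ 4 |C0| (tb_abs_le tbT) (hp_le z hz) i
    rw [hk]
    linarith
  have hDθ : ∀ z ∈ t.Al, ∀ i, |(pblk t.Em p.1 p.2 *ᵥ (t.HP p *ᵥ pvec (t.P z) p.1 p.2)) i| ≤ 2 * dm * k :=
    fun z hz i => s5e_mulVec_le _ _ dm k hDE (hθ z hz) i
  have hte : ∀ z ∈ t.Al, ∀ i, |(pvec (t.E z) p.1 p.2 - pblk t.Em p.1 p.2 *ᵥ (t.HP p *ᵥ pvec (t.P z) p.1 p.2)) i| ≤
      dm * (1 + 2 * k) := by
    intro z hz i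
    rw [Pi.sub_apply]
    have := he_le z hz i
    have := hDθ z hz i
    exact (abs_sub _ _).trans (by linarith)
  have hid := s5_update_identity tbT (hblk ▸ tbD) (pvec (t.P a) p.1 p.2) (pvec (t.E a) p.1 p.2)
    (pvec (t.P c) p.1 p.2) (pvec (t.E c) p.1 p.2)
  have b4 := s5e_dot_le _ _ (dm * (1 + 2 * k)) (2 * 4 * (dm * (1 + 2 * k))) (hte a ha)
    (s5e_mulVec_le (t.HW p) _ 4 _ (tb_abs_le tbD) (hte c hc))
  refine ⟨(pvec (t.E a) p.1 p.2 - pblk t.Em p.1 p.2 *ᵥ (t.HP p *ᵥ pvec (t.P a) p.1 p.2)) ⬝ᵥ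
          (t.HW p *ᵥ (pvec (t.E c) p.1 p.2 - pblk t.Em p.1 p.2 *ᵥ (t.HP p *ᵥ pvec (t.P c) p.1 p.2))), ?_, ?_⟩
  · refine b4.trans (le_of_eq ?_)
    rw [hk]
    ring
  · unfold s5q S5Tab.HW S5Tab.HP
    rw [hW a, hW c, hblk]
    exact hid

/-- the recentring terms, from the sup bound of `E1` -/
theorem s5em_rec_sup (H : S5TabOK C0 N ND Qa ZW ZP trW dm εs Bt μT VT t Vd Dg A j b) {Ce : ℝ} (hCe : 0 ≤ Ce)
    (hsup : ∀ p ∈ Vd, ∀ a ∈ t.Al, ∀ c ∈ t.Al, |t.E1 p a c| ≤ Ce * (dm + Bt)) (hBt : 0 ≤ Bt)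
    {p : α × α} (hp : p ∈ Vd) {a c : α} (ha : a ∈ t.Al) (hc : c ∈ t.Al) :
    |t.E2 p a c - t.E1 p a c| ≤ 16 * Ce * (dm / (t.l : ℝ) + Bt) := by
  obtain ⟨h1, h2, -⟩ := Finset.mem_offDiag.1 (H.valid.sub hp)
  have hA1 : p.1 ∈ t.Al := S5TabOK.mem_Al h1
  have hA2 : p.2 ∈ t.Al := S5TabOK.mem_Al h2
  obtain ⟨hε0, hε2, hε1⟩ := s5em_eps H
  have h32 := s5em_l H
  have hL : (0 : ℝ) < (t.l : ℝ) := by linarith
  have hdm0 := H.hdm
  have e : t.E2 p a c - t.E1 p a c =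
      t.kap c * ((t.l : ℝ) - 2)⁻¹ * (t.E1 p a p.1 + t.E1 p a p.2)
        + t.kap a * ((t.l : ℝ) - 2)⁻¹ * (t.E1 p p.1 c + t.E1 p p.2 c)
        + t.kap a * t.kap c * (((t.l : ℝ) - 2)⁻¹) ^ 2
          * (t.E1 p p.1 p.1 + t.E1 p p.1 p.2 + t.E1 p p.2 p.1 + t.E1 p p.2 p.2) := by
    unfold S5Tab.E2
    ring
  rw [e]
  refine (s5em_rec_scalar _ _ _ _ _ _ _ _ _ _ _ _ _ _ (s5em_kap t a).1 (s5em_kap t a).2 (s5em_kap t c).1
    (s5em_kap t c).2 hε0.le (hsup p hp a ha _ hA1) (hsup p hp a ha _ hA2) (hsup p hp _ hA1 c hc)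
    (hsup p hp _ hA2 c hc) (hsup p hp _ hA1 _ hA1) (hsup p hp _ hA1 _ hA2) (hsup p hp _ hA2 _ hA1)
    (hsup p hp _ hA2 _ hA2)).trans ?_
  set ε : ℝ := ((t.l : ℝ) - 2)⁻¹ with hε
  set B : ℝ := Ce * (dm + Bt) with hB
  have hB0 : 0 ≤ B := by positivity
  have e2 : 4 * ε ^ 2 * B ≤ 4 * ε * B := by
    have : ε ^ 2 ≤ ε := by nlinarith
    exact mul_le_mul_of_nonneg_right (by linarith) hB0
  have e3 : 8 * ε * B ≤ 8 * (2 / (t.l : ℝ)) * B := by gcongr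
  have e4 : 8 * (2 / (t.l : ℝ)) * B = 16 * Ce * (dm / (t.l : ℝ) + Bt / (t.l : ℝ)) := by
    rw [hB]; ring
  have e5 : Bt / (t.l : ℝ) ≤ Bt := div_le_self hBt (by linarith)
  have e6 : 16 * Ce * (dm / (t.l : ℝ) + Bt / (t.l : ℝ)) ≤ 16 * Ce * (dm / (t.l : ℝ) + Bt) :=
    mul_le_mul_of_nonneg_left (by linarith) (by positivity)
  linarith

/-- the increment on the old axes -/
theorem s5em_lin_main (H : S5TabOK C0 N ND Qa ZW ZP trW dm εs Bt μT VT t Vd Dg A j b) {p : α × α}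
    (hp : p ∈ Vd) {a c : α} (ha : a ∈ t.Al) (hc : c ∈ t.Al) {η η0 : ℝ} (g0 : |t.HP p 0 0| ≤ η)
    (g1 : |t.HP p 1 1| ≤ η) (g2 : |t.HP p 0 1 + t.σ * t.h| ≤ η) (hη : η ≤ η0) :
    |t.E1 p a c - t.E a c - s5Lin t.σ t.h t.P t.E p a c| ≤
      (2 * |C0| + 8 * |C0| ^ 2 * (1 + η0)) * η * s5In t.E p a c + 16 * (1 + 16 * |C0|) ^ 2 * dm ^ 2 + Bt := by
  obtain ⟨h1, h2, hne⟩ := Finset.mem_offDiag.1 (H.valid.sub hp)
  obtain ⟨tbT, tbD, hblk⟩ := H.tb hp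
  have hC := le_abs_self C0
  have hxabs : |t.σ * t.h| ≤ 1 := tbT.abs_x
  have hx2 : (t.σ * t.h) ^ 2 = t.h ^ 2 := tbT.x_sq
  have hsym : t.HP p 1 0 = t.HP p 0 1 := (tb_formula tbT).2.2.2
  obtain ⟨q, hq, hmid⟩ := s5em_mid H hp ha hc
  have hscal := s5em_lin_scalar (t.σ * t.h) (t.HP p 0 0) (t.HP p 1 1) (t.HP p 0 1 + t.σ * t.h) (t.P a p.1)
    (t.P a p.2) (t.P c p.1) (t.P c p.2) (t.E a p.1) (t.E a p.2) (t.E c p.1) (t.E c p.2) (t.E p.1 p.1)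
    (t.E p.1 p.2) (t.E p.2 p.2) |C0| η η0 hxabs g0 g1 g2 hη ((H.absP_le ha h1).trans hC)
    ((H.absP_le ha h2).trans hC) ((H.absP_le hc h1).trans hC) ((H.absP_le hc h2).trans hC)
  have hIn : |t.E c p.1| + |t.E c p.2| + |t.E a p.1| + |t.E a p.2| + |t.E p.1 p.1| + |t.E p.2 p.2|
      + |t.E p.1 p.2| = s5In t.E p a c := by
    unfold s5In
    rw [H.Esymm c p.1, H.Esymm c p.2]
  rw [hIn] at hscal
  have hR := H.tailSup p hp a ha c hc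
  have e1 : t.E1 p a c = t.E a c - (s5q (t.HW p) (t.W a) (t.W c) p - s5q (t.HP p) (t.P a) (t.P c) p)
      - t.Rt p a c := rfl
  have e2 : (t.HP p *ᵥ pvec (t.P a) p.1 p.2) ⬝ᵥ pvec (t.E c) p.1 p.2
        + pvec (t.E a) p.1 p.2 ⬝ᵥ (t.HP p *ᵥ pvec (t.P c) p.1 p.2)
        - (t.HP p *ᵥ pvec (t.P a) p.1 p.2) ⬝ᵥ (pblk t.Em p.1 p.2 *ᵥ (t.HP p *ᵥ pvec (t.P c) p.1 p.2)) =
      (t.HP p 0 0 * t.P a p.1 + t.HP p 0 1 * t.P a p.2) * t.E c p.1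
          + (t.HP p 0 1 * t.P a p.1 + t.HP p 1 1 * t.P a p.2) * t.E c p.2
        + (t.E a p.1 * (t.HP p 0 0 * t.P c p.1 + t.HP p 0 1 * t.P c p.2)
          + t.E a p.2 * (t.HP p 0 1 * t.P c p.1 + t.HP p 1 1 * t.P c p.2))
        - ((t.HP p 0 0 * t.P a p.1 + t.HP p 0 1 * t.P a p.2)
              * (t.E p.1 p.1 * (t.HP p 0 0 * t.P c p.1 + t.HP p 0 1 * t.P c p.2)
              + t.E p.1 p.2 * (t.HP p 0 1 * t.P c p.1 + t.HP p 1 1 * t.P c p.2))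
            + (t.HP p 0 1 * t.P a p.1 + t.HP p 1 1 * t.P a p.2)
              * (t.E p.1 p.2 * (t.HP p 0 0 * t.P c p.1 + t.HP p 0 1 * t.P c p.2)
              + t.E p.2 p.2 * (t.HP p 0 1 * t.P c p.1 + t.HP p 1 1 * t.P c p.2))) := by
    simp only [dotProduct, mulVec, Fin.sum_univ_two, pvec, pblk, S5Tab.Em, Matrix.cons_val_zero,
      Matrix.cons_val_one, Matrix.of_apply, Matrix.cons_val', Matrix.cons_val_fin_one]
    rw [hsym, H.Esymm p.2 p.1]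
  have e3 : s5Lin t.σ t.h t.P t.E p a c =
      t.σ * t.h * (t.P a p.1 * t.E c p.2 + t.P a p.2 * t.E c p.1 + t.P c p.1 * t.E a p.2 + t.P c p.2 * t.E a p.1)
        + (t.σ * t.h) ^ 2 * (t.P a p.1 * t.P c p.1 * t.E p.2 p.2 + t.P a p.2 * t.P c p.2 * t.E p.1 p.1
          + t.P a p.1 * t.P c p.2 * t.E p.1 p.2 + t.P a p.2 * t.P c p.1 * t.E p.1 p.2) := by
    unfold s5Lin
    rw [hx2, H.Esymm p.2 c, H.Esymm p.1 c, H.Esymm p.2 p.1]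
  have e4 : ∀ y : ℝ, -(t.σ * t.h) + (y + t.σ * t.h) = y := fun y => by ring
  simp only [e4] at hscal
  rw [e1, hmid, e2, e3]
  rw [abs_le] at hscal hq hR ⊢
  constructor <;> linarith [hscal.1, hscal.2, hq.1, hq.2, hR.1, hR.2]

end

/-- LINEARISATION (`s5_en_lin` verbatim) -/
theorem s5em_lin (C0 : ℝ) : ∃ C : ℝ, 0 < C ∧ ∀ (α : Type) [DecidableEq α]
    (N ND Qa ZW ZP trW dm εs Bt μT VT : ℝ) (t : S5Tab α) (Vd : Finset (α × α)) (Dg : ℕ)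
    (A : α → α → ℝ) (j : α → ℝ) (b : α → α → ℝ),
    S5TabOK C0 N ND Qa ZW ZP trW dm εs Bt μT VT t Vd Dg A j b →
    ∀ p ∈ Vd, ∀ a ∈ t.Al, ∀ c ∈ t.Al,
      |t.E2 p a c - t.E a c - s5Lin t.σ t.h t.P t.E p a c| ≤
        C * (dm ^ 2 + Bt + dm / (t.l : ℝ)) + C * (εs + 1 / (t.l : ℝ)) * s5In t.E p a c := by
  obtain ⟨Cf, hCf, hfo⟩ := tb_first_order
  obtain ⟨Ce, hCe, hsup⟩ := s5_en_E1_sup C0
  obtain ⟨K1, hK1⟩ : ∃ K1 : ℝ, K1 = (2 * |C0| + 8 * |C0| ^ 2 * (1 + 2 * Cf)) * (2 * Cf) := ⟨_, rfl⟩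
  obtain ⟨K2, hK2⟩ : ∃ K2 : ℝ, K2 = 16 * (1 + 16 * |C0|) ^ 2 + 1 + 16 * Ce := ⟨_, rfl⟩
  have hK10 : 0 ≤ K1 := by rw [hK1]; positivity
  have hK20 : 0 < K2 := by rw [hK2]; positivity
  refine ⟨K1 + K2, by positivity, ?_⟩
  intro α _ N ND Qa ZW ZP trW dm εs Bt μT VT t Vd Dg A j b H p hp a ha c hc
  have hsup' := hsup α N ND Qa ZW ZP trW dm εs Bt μT VT t Vd Dg A j b H
  obtain ⟨tbT, -, -⟩ := H.tb hp
  obtain ⟨T11, T22, T12⟩ := s5em_T_small H hp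
  have hBt : 0 ≤ Bt := (abs_nonneg _).trans (H.tailSup p hp a ha c hc)
  have h32 := s5em_l H
  have hL : (0 : ℝ) < (t.l : ℝ) := by linarith
  have hdm0 := H.hdm
  have hεs := H.hεs
  have hεs1 : εs ≤ 1 / 16 := by have := H.hsmall; linarith
  obtain ⟨f0, f1, f2⟩ := hfo t.l t.σ t.h (pblk t.Tm p.1 p.2) εs εs εs tbT T11 T22 T12
  obtain ⟨δ, hδ⟩ : ∃ δ : ℝ, δ = εs + 1 / (t.l : ℝ) := ⟨_, rfl⟩
  have hl1 : 1 / (t.l : ℝ) ≤ 1 / 32 := one_div_le_one_div_of_le (by norm_num) h32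
  have hl0 : 0 < 1 / (t.l : ℝ) := by positivity
  have hδ0 : 0 ≤ δ := by rw [hδ]; positivity
  have hδ1 : δ ≤ 1 := by rw [hδ]; linarith
  rw [← hδ] at f0 f1
  have g0 : |t.HP p 0 0| ≤ 2 * Cf * δ := f0.trans (by nlinarith)
  have g1 : |t.HP p 1 1| ≤ 2 * Cf * δ := f1.trans (by nlinarith)
  have g2 : |t.HP p 0 1 + t.σ * t.h| ≤ 2 * Cf * δ := by
    refine f2.trans ?_
    have h1 : εs * εs ≤ εs := by nlinarith
    have h2 : εs + εs * εs + 1 / (t.l : ℝ) ≤ 2 * δ := by rw [hδ]; linarith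
    calc Cf * (εs + εs * εs + 1 / (t.l : ℝ)) ≤ Cf * (2 * δ) := mul_le_mul_of_nonneg_left h2 hCf.le
      _ = 2 * Cf * δ := by ring
  have hη : 2 * Cf * δ ≤ 2 * Cf := by nlinarith
  have hmain := s5em_lin_main H hp ha hc g0 g1 g2 hη
  have hrec := s5em_rec_sup H hCe.le hsup' hBt hp ha hc
  have hIn0 : 0 ≤ s5In t.E p a c := by unfold s5In; positivity
  have s1 : (2 * |C0| + 8 * |C0| ^ 2 * (1 + 2 * Cf)) * (2 * Cf * δ) * s5In t.E p a c =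
      K1 * δ * s5In t.E p a c := by
    rw [hK1]; ring
  rw [s1] at hmain
  rw [← hδ]
  have hdl : 0 ≤ dm / (t.l : ℝ) := by positivity
  have hd2 : 0 ≤ dm ^ 2 := by positivity
  have p1 : 0 ≤ K2 * δ * s5In t.E p a c := by positivity
  have p2 : 0 ≤ K1 * (dm ^ 2 + Bt + dm / (t.l : ℝ)) := by positivity
  have p3 : 16 * (1 + 16 * |C0|) ^ 2 * dm ^ 2 + Bt + 16 * Ce * (dm / (t.l : ℝ) + Bt) ≤
      K2 * (dm ^ 2 + Bt + dm / (t.l : ℝ)) := by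
    rw [hK2]
    have q1 : 0 ≤ (1 + 16 * Ce) * dm ^ 2 := by positivity
    have q2 : 0 ≤ 16 * (1 + 16 * |C0|) ^ 2 * (Bt + dm / (t.l : ℝ)) := by positivity
    nlinarith
  have e : t.E2 p a c - t.E a c - s5Lin t.σ t.h t.P t.E p a c =
      (t.E1 p a c - t.E a c - s5Lin t.σ t.h t.P t.E p a c) + (t.E2 p a c - t.E1 p a c) := by ring
  rw [e]
  refine (abs_add_le _ _).trans ?_
  have e5 : (K1 + K2) * (dm ^ 2 + Bt + dm / (t.l : ℝ)) + (K1 + K2) * δ * s5In t.E p a c =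
      K1 * (dm ^ 2 + Bt + dm / (t.l : ℝ)) + K2 * (dm ^ 2 + Bt + dm / (t.l : ℝ))
        + K1 * δ * s5In t.E p a c + K2 * δ * s5In t.E p a c := by ring
  rw [e5]
  linarith

/-- LINEARISATION: `ΔE_ab = Lin(E) + residual`, residual `≤ C (dm² + Bt + dm/l) + C (εs + 1/l) * (seven inputs)` -/
theorem s5_en_lin (C0 : ℝ) : ∃ C : ℝ, 0 < C ∧ ∀ (α : Type) [DecidableEq α]
    (N ND Qa ZW ZP trW dm εs Bt μT VT : ℝ) (t : S5Tab α) (Vd : Finset (α × α)) (Dg : ℕ)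
    (A : α → α → ℝ) (j : α → ℝ) (b : α → α → ℝ),
    S5TabOK C0 N ND Qa ZW ZP trW dm εs Bt μT VT t Vd Dg A j b →
    ∀ p ∈ Vd, ∀ a ∈ t.Al, ∀ c ∈ t.Al,
      |t.E2 p a c - t.E a c - s5Lin t.σ t.h t.P t.E p a c| ≤
        C * (dm ^ 2 + Bt + dm / (t.l : ℝ)) + C * (εs + 1 / (t.l : ℝ)) * s5In t.E p a c := by
  exact s5em_lin C0

end Claimed.Agent.R275
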