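import Claimed.Agent.R275.S5Hi
import Claimed.Agent.R275.S5TS
import Claimed.Agent.R275.S5Phase
import Claimed.Agent.R275.S6Trace
import Claimed.Agent.R275.S42Defs
import Claimed.Agent.R275.S7Defs

/-!
# Row 275, Sec 5, package S5EnA (LAYER A): the bridge between `PPair` and the abstract tables of `S5En.lean`, `S5Hi.lean`, `S5TS.lean`

Owner of the statements: helper11.  NO paper, NO estimate: only definitional unfolding, reindexing of finite sums along the injections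
`Label.stub`, `Label.glob`, and the exact identities `Emat_resolve` (L41D), `ent_update`, `blk_eq_ent` (TwoByTwo), `s6_Eent_resolve_eq`,
`s6_ent_symm`, `s6_Wmat_transpose`, `s6_Pmat_transpose` (S6Step), `resolve_unres`, `resolve_l` (L41A), `Dcal_eq_Xi_mul` (L41B).

`α := Label n d`;  `S := π.s5S` = alive stub labels, `G := π.s5G` = global labels, valid pairs `π.s5Vd g` = image of `π.admSet g`.
-/

set_option autoImplicit false

namespace Claimed.Agent.R275

open Matrix Finset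

/-- a pair of stubs as a pair of labels -/
def lblP {n d : ℕ} (p : Stub n d × Stub n d) : Label n d × Label n d := (.stub p.1, .stub p.2)

namespace PPair

variable {n d : ℕ} (π : PPair n d)

/-- alive stub labels -/
def s5S : Finset (Label n d) := π.unres.image Label.stub

/-- global labels -/
def s5G (_π : PPair n d) : Finset (Label n d) := (Finset.univ : Finset (Fin n)).image Label.glob

/-- valid ordered pairs of labels -/
def s5Vd (g : ℕ) : Finset (Label n d × Label n d) := (π.admSet g).image lblP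

/-- table of the formal tail -/
noncomputable def s5Rt (L : ℕ) (σ h : ℝ) : Label n d × Label n d → Label n d → Label n d → ℝ
  | (.stub u, .stub v), a, b => π.ent (π.tailR L σ h u v) a b
  | _, _, _ => 0

/-- THE TABLES of the state `π` at the signed parameter `(σ, h)` -/
noncomputable def s5tab (L : ℕ) (σ h : ℝ) : S5Tab (Label n d) where
  S := π.s5S
  G := π.s5G
  σ := σ
  h := h
  P := fun a b => π.ent (π.Pmat L σ h) a b
  E := fun a b => π.Eent L σ h a b
  Rt := π.s5Rt L σ h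

/-- THE MOMENT DATA of the state `π`, in units of `Be` -/
noncomputable def s5mom (L : ℕ) (σ h Be : ℝ) : S5Mom (Label n d) where
  S := π.s5S
  G := π.s5G
  z := fun a b => π.Eent L σ h a b / Be
  nr := π.s5nr

/-- the moment data after an exposure -/
noncomputable def s5nxt (L : ℕ) (σ h Be : ℝ) : Label n d × Label n d → S5Mom (Label n d)
  | (.stub u, .stub v) => (π.resolve u v).s5mom L σ h Be
  | _ => π.s5mom L σ h Be

/-- majorant arrays on labels (zero where the paper does not define them) -/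
noncomputable def s5A (L : ℕ) (z : ℝ) (a : Label n d) : Label n d → ℝ
  | .stub x => π.Amaj (Cmaj d) L z a x
  | .glob _ => 0
noncomputable def s5j (L : ℕ) (z : ℝ) : Label n d → ℝ
  | .stub x => π.jmaj (Cmaj d) L z x
  | .glob _ => 0
noncomputable def s5b (L : ℕ) (z : ℝ) : Label n d → Label n d → ℝ
  | .stub x, .stub y => π.bmaj (Cmaj d) L z x y
  | _, _ => 0

/-! ## 1. index sets and reindexing -/

theorem s5_stub_mem_S (x : Stub n d) : Label.stub x ∈ π.s5S ↔ π.Unres x := by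
  unfold s5S
  rw [Finset.mem_image]
  constructor
  · rintro ⟨y, hy, hxy⟩
    cases hxy
    exact (Finset.mem_filter.1 hy).2
  · intro h
    exact ⟨x, Finset.mem_filter.2 ⟨Finset.mem_univ _, h⟩, rfl⟩

theorem s5_glob_not_mem_S (i : Fin n) : Label.glob i ∉ π.s5S := by
  unfold s5S
  rw [Finset.mem_image]
  rintro ⟨y, _, hy⟩
  cases hy

theorem s5_glob_mem_G (i : Fin n) : Label.glob i ∈ π.s5G := by
  exact Finset.mem_image_of_mem _ (Finset.mem_univ _)

theorem s5_stub_not_mem_G (x : Stub n d) : Label.stub x ∉ π.s5G := by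
  unfold s5G
  rw [Finset.mem_image]
  rintro ⟨y, _, hy⟩
  cases hy

theorem s5_disj : Disjoint π.s5G π.s5S := by
  rw [Finset.disjoint_left]
  intro a ha hS
  cases a with
  | glob i => exact π.s5_glob_not_mem_S i hS
  | stub x => exact π.s5_stub_not_mem_G x ha

theorem s5_card_S : π.s5S.card = π.l := by
  unfold s5S l
  exact Finset.card_image_of_injective _ fun x y h => by cases h; rfl

theorem s5_card_G : π.s5G.card = n := by
  unfold s5G
  rw [Finset.card_image_of_injective _ fun x y h => by cases h; rfl, Finset.card_univ,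
    Fintype.card_fin]

theorem s5_mem_union (a : Label n d) : a ∈ π.s5G ∪ π.s5S ↔ π.Alive a := by
  rw [Finset.mem_union]
  cases a with
  | glob i => exact ⟨fun _ => trivial, fun _ => Or.inl (π.s5_glob_mem_G i)⟩
  | stub x =>
    constructor
    · rintro (h | h)
      · exact absurd h (π.s5_stub_not_mem_G x)
      · exact (π.s5_stub_mem_S x).1 h
    · intro h
      exact Or.inr ((π.s5_stub_mem_S x).2 h)

theorem s5_sum_S (f : Label n d → ℝ) : ∑ a ∈ π.s5S, f a = ∑ x ∈ π.unres, f (.stub x) := by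
  unfold s5S
  exact Finset.sum_image fun x _ y _ h => by cases h; rfl

theorem s5_sum_G (f : Label n d → ℝ) : ∑ a ∈ π.s5G, f a = ∑ i : Fin n, f (.glob i) := by
  unfold s5G
  exact Finset.sum_image fun x _ y _ h => by cases h; rfl

theorem s5_mem_Vd (g : ℕ) (u v : Stub n d) : lblP (u, v) ∈ π.s5Vd g ↔ π.Adm g u v := by
  unfold s5Vd
  rw [Finset.mem_image]
  constructor
  · rintro ⟨p, hp, hpe⟩
    obtain ⟨p1, p2⟩ := p
    unfold lblP at hpe
    cases hpe
    exact (Finset.mem_filter.1 hp).2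
  · intro h
    exact ⟨(u, v), Finset.mem_filter.2 ⟨Finset.mem_univ _, h⟩, rfl⟩

theorem s5_mem_Vd' (g : ℕ) (pr : Label n d × Label n d) :
    pr ∈ π.s5Vd g ↔ ∃ u v, π.Adm g u v ∧ pr = lblP (u, v) := by
  unfold s5Vd
  rw [Finset.mem_image]
  constructor
  · rintro ⟨p, hp, hpe⟩
    exact ⟨p.1, p.2, (Finset.mem_filter.1 hp).2, hpe.symm⟩
  · rintro ⟨u, v, h, rfl⟩
    exact ⟨(u, v), Finset.mem_filter.2 ⟨Finset.mem_univ _, h⟩, rfl⟩

theorem s5_card_Vd (g : ℕ) : (π.s5Vd g).card = (π.admSet g).card := by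
  unfold s5Vd
  refine Finset.card_image_of_injective _ ?_
  rintro ⟨x1, x2⟩ ⟨y1, y2⟩ h
  unfold lblP at h
  cases h
  rfl

theorem s5_sum_Vd (g : ℕ) (f : Label n d × Label n d → ℝ) :
    ∑ pr ∈ π.s5Vd g, f pr = ∑ p ∈ π.admSet g, f (lblP p) := by
  unfold s5Vd
  refine Finset.sum_image ?_
  rintro ⟨x1, x2⟩ _ ⟨y1, y2⟩ _ h
  unfold lblP at h
  cases h
  rfl

theorem s5_avg_Vd (g : ℕ) (f : Label n d × Label n d → ℝ) :
    avgOn (π.s5Vd g) f = avgOn (π.admSet g) (fun p => f (lblP p)) := by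
  unfold avgOn
  rw [s5_sum_Vd, s5_card_Vd]

theorem s5_valid_lbl {g Dg : ℕ} (h : S5Valid π.unres (π.admSet g) Dg) : S5Valid π.s5S (π.s5Vd g) Dg := by
  refine ⟨?_, ?_, ?_⟩
  · intro pr hpr
    obtain ⟨u, v, huv, rfl⟩ := (π.s5_mem_Vd' g pr).1 hpr
    have h1 : (u, v) ∈ π.unres.offDiag := h.sub (Finset.mem_filter.2 ⟨Finset.mem_univ _, huv⟩)
    rw [Finset.mem_offDiag] at h1 ⊢
    refine ⟨Finset.mem_image_of_mem _ h1.1, Finset.mem_image_of_mem _ h1.2.1, ?_⟩
    intro he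
    apply h1.2.2
    unfold lblP at he
    cases he
    rfl
  · intro a b hab
    obtain ⟨u, v, huv, he⟩ := (π.s5_mem_Vd' g (a, b)).1 hab
    unfold lblP at he
    cases he
    have h1 : (v, u) ∈ π.admSet g := h.symm u v (Finset.mem_filter.2 ⟨Finset.mem_univ _, huv⟩)
    exact (π.s5_mem_Vd g v u).2 (Finset.mem_filter.1 h1).2
  · intro a ha
    obtain ⟨u, hu, rfl⟩ := Finset.mem_image.1 ha
    refine le_trans ?_ (h.forb u hu)
    have hsub : ((π.s5S.erase (Label.stub u)).filter fun b => (Label.stub u, b) ∉ π.s5Vd g) ⊆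
        (((π.unres.erase u).filter fun v => (u, v) ∉ π.admSet g)).image Label.stub := by
      intro b hb
      obtain ⟨hb1, hb2⟩ := Finset.mem_filter.1 hb
      obtain ⟨hb3, hb4⟩ := Finset.mem_erase.1 hb1
      obtain ⟨v, hv, rfl⟩ := Finset.mem_image.1 hb4
      refine Finset.mem_image_of_mem _ (Finset.mem_filter.2 ⟨Finset.mem_erase.2 ⟨?_, hv⟩, ?_⟩)
      · rintro rfl
        exact hb3 rfl
      · intro hm
        exact hb2 ((π.s5_mem_Vd g u v).2 (Finset.mem_filter.1 hm).2)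
    exact (Finset.card_le_card hsub).trans Finset.card_image_le

theorem s5_S_resolve {u v : Stub n d} (hu : π.Unres u) (hv : π.Unres v) (huv : u ≠ v) :
    (π.resolve u v).s5S = (π.s5S.erase (.stub u)).erase (.stub v) := by
  have hinj : Function.Injective (Label.stub : Stub n d → Label n d) := fun x y h => by cases h; rfl
  unfold s5S
  rw [resolve_unres hu hv huv, Finset.image_erase hinj, Finset.image_erase hinj]

theorem s5_G_resolve (u v : Stub n d) : (π.resolve u v).s5G = π.s5G := rfl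

/-! ## 2. the tables -/

theorem s5tab_l (L : ℕ) (σ h : ℝ) : (π.s5tab L σ h).l = π.l := by
  exact π.s5_card_S

theorem s5tab_mem_Al (L : ℕ) (σ h : ℝ) (a : Label n d) : a ∈ (π.s5tab L σ h).Al ↔ π.Alive a := by
  exact π.s5_mem_union a

theorem s5tab_W (L : ℕ) (σ h : ℝ) (a b : Label n d) : (π.s5tab L σ h).W a b = π.ent (π.Wmat σ h) a b := by
  show π.ent (π.Pmat L σ h) a b + π.ent (π.Emat L σ h) a b = _
  rw [← s6s_ent_add, ← s6s_Wmat_eq]

theorem s5tab_Psymm (L : ℕ) (σ h : ℝ) (a b : Label n d) : (π.s5tab L σ h).P a b = (π.s5tab L σ h).P b a := by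
  exact π.s6_ent_symm (π.s6_Pmat_transpose L σ h) a b

theorem s5tab_Esymm (L : ℕ) (σ h : ℝ) (a b : Label n d) : (π.s5tab L σ h).E a b = (π.s5tab L σ h).E b a := by
  exact π.s6_ent_symm (π.s6_Emat_transpose L σ h) a b

theorem s5tab_Pcent (L : ℕ) (σ h : ℝ) (a : Label n d) : ∑ x ∈ (π.s5tab L σ h).S, (π.s5tab L σ h).P a x = 0 := by
  show ∑ x ∈ π.s5S, π.ent (π.Pmat L σ h) a x = 0
  rw [s5_sum_S]
  exact π.sum_pEnt L σ h a

theorem s5tab_Ecent (L : ℕ) (σ h : ℝ) (a : Label n d) : ∑ x ∈ (π.s5tab L σ h).S, (π.s5tab L σ h).E a x = 0 := by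
  show ∑ x ∈ π.s5S, π.Eent L σ h a x = 0
  rw [s5_sum_S]
  exact π.sum_eEnt L σ h a

theorem s5et_H0_transpose (l : ℕ) (σ h : ℝ) : (H0 l σ h)ᵀ = H0 l σ h := by
  ext i j
  fin_cases i <;> fin_cases j <;>
    simp [H0, F2, B2, J2, Matrix.mul_apply, Fin.sum_univ_two, Matrix.transpose_apply]

theorem s5et_G0_transpose (l : ℕ) : (G0 ℝ l)ᵀ = G0 ℝ l := by
  ext i j
  fin_cases i <;> fin_cases j <;> simp [G0, J2, Matrix.transpose_apply]

theorem s5et_blk_transpose {X : Matrix (Fin n) (Fin n) ℝ} (hX : Xᵀ = X) (u v : Stub n d) :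
    (π.blk X u v)ᵀ = π.blk X u v := by
  unfold blk
  rw [Matrix.transpose_mul, Matrix.transpose_mul, Matrix.transpose_transpose, hX, Matrix.mul_assoc]

theorem s5et_HP_transpose (L : ℕ) (σ h : ℝ) (u v : Stub n d) : (π.HP L σ h u v)ᵀ = π.HP L σ h u v := by
  unfold HP Tp
  rw [Matrix.transpose_nonsing_inv, Matrix.transpose_add, Matrix.transpose_nonsing_inv,
    s5et_H0_transpose, Matrix.transpose_sub, π.s5et_blk_transpose (π.s6_Pmat_transpose L σ h),
    s5et_G0_transpose]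

theorem s5et_tailR_transpose (L : ℕ) (σ h : ℝ) (u v : Stub n d) :
    (π.tailR L σ h u v)ᵀ = π.tailR L σ h u v := by
  unfold tailR
  rw [Matrix.transpose_add, Matrix.transpose_sub, s6_Pmat_transpose, s6_Pmat_transpose]
  congr 1
  simp only [Matrix.transpose_mul, Matrix.transpose_transpose, s6_Pmat_transpose, s5et_HP_transpose,
    Matrix.mul_assoc]

theorem s5tab_tailSymm (L : ℕ) (σ h : ℝ) (pr : Label n d × Label n d) (a b : Label n d) :
    (π.s5tab L σ h).Rt pr a b = (π.s5tab L σ h).Rt pr b a := by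
  show π.s5Rt L σ h pr a b = π.s5Rt L σ h pr b a
  obtain ⟨p1, p2⟩ := pr
  cases p1 with
  | glob i => rfl
  | stub u =>
    cases p2 with
    | glob i => rfl
    | stub v => exact π.s6_ent_symm (π.s5et_tailR_transpose L σ h u v) a b

theorem s5et_Tm (L : ℕ) (σ h : ℝ) (a b : Label n d) :
    (π.s5tab L σ h).Tm a b = π.ent (π.Pmat L σ h) a b - ((if a = b then 1 else 0) - (π.l : ℝ)⁻¹) := by
  unfold S5Tab.Tm
  rw [s5tab_l]
  rfl

theorem s5et_Dm (L : ℕ) (σ h : ℝ) (a b : Label n d) :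
    (π.s5tab L σ h).Dm a b = π.ent (π.Wmat σ h) a b - ((if a = b then 1 else 0) - (π.l : ℝ)⁻¹) := by
  unfold S5Tab.Dm
  rw [Matrix.add_apply, s5et_Tm, ← π.s5tab_W L σ h a b]
  show _ + π.Eent L σ h a b = π.ent (π.Pmat L σ h) a b + π.Eent L σ h a b - _
  ring

theorem s5et_stub_ite (x y : Stub n d) :
    (if (Label.stub x : Label n d) = Label.stub y then (1 : ℝ) else 0) = if x = y then 1 else 0 := by
  by_cases hxy : x = y
  · subst hxy
    simp
  · have : (Label.stub x : Label n d) ≠ Label.stub y := fun e => hxy (by cases e; rfl)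
    rw [if_neg this, if_neg hxy]

/-- the pair blocks -/
theorem s5tab_pblk_Tm (L : ℕ) (σ h : ℝ) {u v : Stub n d} (huv : u ≠ v) :
    pblk (π.s5tab L σ h).Tm (.stub u) (.stub v) = π.Tp L σ h u v := by
  ext i j
  rw [Tp, Matrix.sub_apply, blk_eq_ent, π.ft_G0_apply huv]
  fin_cases i <;> fin_cases j <;> simp [pblk, s5et_Tm]

theorem s5tab_pblk_Dm (L : ℕ) (σ h : ℝ) {u v : Stub n d} (huv : u ≠ v) :
    pblk (π.s5tab L σ h).Dm (.stub u) (.stub v) = π.Dp σ h u v := by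
  ext i j
  rw [Dp, Matrix.sub_apply, blk_eq_ent, π.ft_G0_apply huv]
  fin_cases i <;> fin_cases j <;> simp [pblk, s5et_Dm]

theorem s5tab_HP (L : ℕ) (σ h : ℝ) {u v : Stub n d} (huv : u ≠ v) :
    (π.s5tab L σ h).HP (lblP (u, v)) = π.HP L σ h u v := by
  rw [HP_eq_Hgen, ← π.s5tab_pblk_Tm L σ h huv, ← π.s5tab_l L σ h]
  rfl

theorem s5tab_HW (L : ℕ) (σ h : ℝ) {u v : Stub n d} (huv : u ≠ v) :
    (π.s5tab L σ h).HW (lblP (u, v)) = π.Hp σ h u v := by
  rw [Hp_eq_Hgen, ← π.s5tab_pblk_Dm L σ h huv, ← π.s5tab_l L σ h]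
  rfl

theorem s5et_XtX (X : Matrix (Fin n) (Fin n) ℝ) {x y : Stub n d} (hx : π.Unres x) (hy : π.Unres y) :
    ((π.Xi ℝ)ᵀ * X * π.Xi ℝ) x y = π.ent X (.stub x) (.stub y) := by
  show _ = π.xi ℝ x ⬝ᵥ (X *ᵥ π.xi ℝ y)
  rw [Matrix.dotProduct_mulVec, Matrix.mul_apply, dotProduct]
  refine Finset.sum_congr rfl fun b _ => ?_
  congr 1
  · rw [Matrix.mul_apply, Matrix.vecMul, dotProduct]
    refine Finset.sum_congr rfl fun a _ => ?_
    simp only [Matrix.transpose_apply, Xi, if_pos hx]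
  · simp only [Xi, if_pos hy]

theorem s5et_XtX_zero (X : Matrix (Fin n) (Fin n) ℝ) (x : Stub n d) {y : Stub n d} (hy : ¬ π.Unres y) :
    ((π.Xi ℝ)ᵀ * X * π.Xi ℝ) x y = 0 := by
  rw [Matrix.mul_apply]
  refine Finset.sum_eq_zero fun b _ => ?_
  simp only [Xi, if_neg hy, mul_zero]

/-- entries of `T`, `D` on the unresolved stubs as entries of the stub-space matrices of `Defs.lean` -/
theorem s5tab_Dm_apply (L : ℕ) (σ h : ℝ) {x y : Stub n d} (hx : π.Unres x) (hy : π.Unres y) :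
    (π.s5tab L σ h).Dm (.stub x) (.stub y) = π.Dst σ h x y := by
  have hP : π.PiS ℝ x y = (if x = y then 1 else 0) - (π.l : ℝ)⁻¹ := if_pos ⟨hx, hy⟩
  rw [s5et_Dm, s5et_stub_ite, Dst, Gam, Matrix.sub_apply, π.s5et_XtX _ hx hy, hP]

theorem s5tab_Tm_apply (L : ℕ) (σ h : ℝ) {x y : Stub n d} (hx : π.Unres x) (hy : π.Unres y) :
    (π.s5tab L σ h).Tm (.stub x) (.stub y) = ((π.Xi ℝ)ᵀ * π.Pmat L σ h * π.Xi ℝ - π.PiS ℝ) x y := by
  have hP : π.PiS ℝ x y = (if x = y then 1 else 0) - (π.l : ℝ)⁻¹ := if_pos ⟨hx, hy⟩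
  rw [s5et_Tm, s5et_stub_ite, Matrix.sub_apply, π.s5et_XtX _ hx hy, hP]

/-- `|T_xy| ≤ TAbs` -/
theorem s5tab_Tm_abs_le (hn : 0 < n) (hl : 0 < π.l) (L : ℕ) (hL : 0 < L) (σ h : ℝ) (hσ : σ ^ 2 = 1) (hh : 0 ≤ h) (x y : Stub n d) :
    |(π.s5tab L σ h).Tm (.stub x) (.stub y)| ≤ π.TAbs L h x y := by
  rw [s5et_Tm, s5et_stub_ite, π.ft_ent_Pmat hn hl]
  have e : ∑ k ∈ Finset.range L, (σ * h) ^ k * π.qEnt k (.stub x) (.stub y)
      - ((if x = y then 1 else 0) - (π.l : ℝ)⁻¹) = ∑ k ∈ Finset.range L, (σ * h) ^ k * π.tCoef k x y := by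
    simp only [tCoef, mul_sub, Finset.sum_sub_distrib]
    congr 1
    rw [Finset.sum_eq_single 0 (fun k _ hk => by rw [if_neg hk, mul_zero])
      (fun h0 => absurd (Finset.mem_range.2 hL) h0)]
    simp
  rw [e]
  exact ft_abs_sum_le σ h hσ hh L _

/-- `Tr D = L_1` -/
theorem s5tab_trS_Dm (hl : 0 < π.l) (L : ℕ) (σ h : ℝ) :
    trS (π.s5tab L σ h).S (π.s5tab L σ h).Dm = π.L1 σ h := by
  have hl0 : (π.l : ℝ) ≠ 0 := Nat.cast_ne_zero.2 hl.ne'
  unfold trS
  show ∑ x ∈ π.s5S, (π.s5tab L σ h).Dm x x = _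
  rw [s5_sum_S]
  have e1 : ∀ x : Stub n d, (π.s5tab L σ h).Dm (.stub x) (.stub x)
      = π.ent (π.Wmat σ h) (.stub x) (.stub x) - (1 - (π.l : ℝ)⁻¹) := by
    intro x
    rw [s5et_Dm, if_pos rfl]
  simp only [e1]
  rw [Finset.sum_sub_distrib, Finset.sum_const, nsmul_eq_mul]
  have e2 : ((π.unres.card : ℕ) : ℝ) = (π.l : ℝ) := rfl
  have e3 : π.F1 σ h = ∑ x ∈ π.unres, π.ent (π.Wmat σ h) (.stub x) (.stub x) := by
    unfold F1
    rw [Dcal_eq_Xi_mul, Matrix.mul_assoc, Matrix.trace_mul_comm, Matrix.trace, unres, Finset.sum_filter]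
    refine Finset.sum_congr rfl fun x _ => ?_
    rw [Matrix.diag_apply]
    by_cases hx : π.Unres x
    · rw [if_pos hx, π.s5et_XtX _ hx hx]
    · rw [if_neg hx, π.s5et_XtX_zero _ x hx]
  rw [e2, L1, e3]
  field_simp

/-- operator norms: from the quadratic-form norm `s7opLE` of a stub-space matrix to the bilinear form on `S` -/
theorem s5_opLE_of_s7 {X : Matrix (Stub n d) (Stub n d) ℝ} {Z : ℝ} (hX : s7opLE X Z) (D : Matrix (Label n d) (Label n d) ℝ)
    (hD : ∀ x y, π.Unres x → π.Unres y → D (.stub x) (.stub y) = X x y) : S5OpLE π.s5S D Z := by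
  obtain ⟨hZ, hop⟩ := hX
  refine ⟨hZ, fun a c => ?_⟩
  set a' : Stub n d → ℝ := fun x => if π.Unres x then a (.stub x) else 0 with ha'
  set c' : Stub n d → ℝ := fun x => if π.Unres x then c (.stub x) else 0 with hc'
  have e1 : ∑ x ∈ π.s5S, ∑ y ∈ π.s5S, a x * D x y * c y = a' ⬝ᵥ (X *ᵥ c') := by
    simp only [s5_sum_S]
    simp only [dotProduct, Matrix.mulVec]
    rw [unres, Finset.sum_filter]
    refine Finset.sum_congr rfl fun x _ => ?_
    by_cases hx : π.Unres x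
    · rw [if_pos hx, Finset.sum_filter, ha']
      simp only [if_pos hx]
      rw [Finset.mul_sum]
      refine Finset.sum_congr rfl fun y _ => ?_
      by_cases hy : π.Unres y
      · rw [if_pos hy, hc']
        simp only [if_pos hy]
        rw [hD x y hx hy]
        ring
      · rw [if_neg hy, hc']
        simp only [if_neg hy]
        ring
    · rw [if_neg hx, ha']
      simp only [if_neg hx]
      ring
  have e2 : ∀ f : Label n d → ℝ, ∑ x ∈ π.s5S, f x ^ 2
      = s7sq (fun x => if π.Unres x then f (.stub x) else 0) := by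
    intro f
    rw [s5_sum_S, unres, Finset.sum_filter]
    simp only [s7sq, dotProduct]
    refine Finset.sum_congr rfl fun x _ => ?_
    by_cases hx : π.Unres x
    · simp only [if_pos hx]
      ring
    · simp only [if_neg hx]
      ring
  rw [e1, e2 a, e2 c]
  have hsq : ∀ r : Stub n d → ℝ, s7sq r = ∑ x, r x ^ 2 := by
    intro r
    simp only [s7sq, dotProduct]
    exact Finset.sum_congr rfl fun x _ => (sq (r x)).symm
  have hnn : ∀ r : Stub n d → ℝ, 0 ≤ s7sq r := by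
    intro r
    rw [hsq]
    exact Finset.sum_nonneg fun x _ => sq_nonneg _
  have cs : (a' ⬝ᵥ (X *ᵥ c')) ^ 2 ≤ s7sq a' * s7sq (X *ᵥ c') := by
    rw [hsq, hsq]
    exact Finset.sum_mul_sq_le_sq_mul_sq _ _ _
  calc |a' ⬝ᵥ (X *ᵥ c')| ≤ Real.sqrt (s7sq a' * s7sq (X *ᵥ c')) := Real.abs_le_sqrt cs
    _ = Real.sqrt (s7sq a') * Real.sqrt (s7sq (X *ᵥ c')) := Real.sqrt_mul (hnn _) _
    _ ≤ Real.sqrt (s7sq a') * (Z * Real.sqrt (s7sq c')) := by
        refine mul_le_mul_of_nonneg_left ?_ (Real.sqrt_nonneg _)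
        calc Real.sqrt (s7sq (X *ᵥ c')) ≤ Real.sqrt (Z ^ 2 * s7sq c') := Real.sqrt_le_sqrt (hop c')
          _ = Z * Real.sqrt (s7sq c') := by
              rw [Real.sqrt_mul (sq_nonneg _), Real.sqrt_sq hZ]
    _ = Z * Real.sqrt (s7sq a') * Real.sqrt (s7sq c') := by ring

/-! ## 3. the update -/

variable {π}

/-- new error on the OLD axes -/
theorem s5tab_E1 {σ h : ℝ} {u v : Stub n d} (O : π.UpdOK σ h u v) (L : ℕ) (a b : Label n d) :
    (π.s5tab L σ h).E1 (lblP (u, v)) a b = π.Eold L σ h u v a b := by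
  have hvec : ∀ (X : Matrix (Fin n) (Fin n) ℝ) (c : Label n d),
      (fun s => π.ent X c (.stub (s6e u v s))) =
        pvec (fun x => π.ent X c x) (Label.stub u) (Label.stub v) := by
    intro X c
    funext s
    fin_cases s <;> simp [s6e, pvec]
  have hWf : ∀ c, (π.s5tab L σ h).W c = fun x => π.ent (π.Wmat σ h) c x :=
    fun c => funext (π.s5tab_W L σ h c)
  unfold Eold
  rw [Emat_resolve O.hn O.hu O.hv O.huv O.hl L σ h O.hσ O.hh O.hh1 O.hU O.hH, s6s_ent_sub, s6s_ent_sub,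
    s6s_ent_sub, s6s_ent_update_symm (π.s6_Wmat_transpose σ h),
    s6s_ent_update_symm (π.s6_Pmat_transpose L σ h), hvec, hvec, hvec, hvec]
  unfold S5Tab.E1
  rw [π.s5tab_HW L σ h O.huv, π.s5tab_HP L σ h O.huv, hWf, hWf]
  rfl

/-- new error on the NEW axes -/
theorem s5tab_E2 {σ h : ℝ} {u v : Stub n d} (O : π.UpdOK σ h u v) (L : ℕ) {a b : Label n d} (ha : π.Alive a)
    (hb : π.Alive b) : (π.s5tab L σ h).E2 (lblP (u, v)) a b = (π.resolve u v).Eent L σ h a b := by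
  have hk : ∀ c, π.Alive c →
      s6cw π.l c = (π.s5tab L σ h).kap c * (((π.s5tab L σ h).l : ℝ) - 2)⁻¹ := by
    intro c hc
    rw [s5tab_l]
    unfold S5Tab.kap
    cases c with
    | glob i =>
      rw [if_neg (show Label.glob i ∉ (π.s5tab L σ h).S from π.s5_glob_not_mem_S i)]
      simp [s6cw]
    | stub x =>
      rw [if_pos (show Label.stub x ∈ (π.s5tab L σ h).S from (π.s5_stub_mem_S x).2 hc)]
      simp [s6cw]
  rw [s6_Eent_resolve_eq O.hu O.hv O.huv O.hl, hk a ha, hk b hb]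
  unfold S5Tab.E2
  simp only [s5tab_E1 O]
  show _ + _ * _ * (π.Eold L σ h u v a (.stub u) + π.Eold L σ h u v a (.stub v))
    + _ * _ * (π.Eold L σ h u v (.stub u) b + π.Eold L σ h u v (.stub v) b)
    + _ * _ * _ * (π.Eold L σ h u v (.stub u) (.stub u) + π.Eold L σ h u v (.stub u) (.stub v)
            + π.Eold L σ h u v (.stub v) (.stub u) + π.Eold L σ h u v (.stub v) (.stub v)) = _
  ring

variable (π)

/-- `T_S` -/
theorem s5tab_TS (L : ℕ) (σ h : ℝ) : (π.s5tab L σ h).TS = π.TS L σ h := by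
  unfold S5Tab.TS
  show ∑ x ∈ π.s5S, π.Eent L σ h x x ^ 2 = _
  rw [s5_sum_S]
  rfl

variable {π} in
theorem s5tab_TSnext {σ h : ℝ} {u v : Stub n d} (O : π.UpdOK σ h u v) (L : ℕ) :
    (π.s5tab L σ h).TSnext (lblP (u, v)) = (π.resolve u v).TS L σ h := by
  unfold S5Tab.TSnext
  show ∑ x ∈ (π.s5S.erase (.stub u)).erase (.stub v), _ = _
  rw [← π.s5_S_resolve O.hu O.hv O.huv, s5_sum_S]
  unfold TS
  refine Finset.sum_congr rfl fun x hx => ?_
  have hx' : π.Unres x := by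
    rw [resolve_unres O.hu O.hv O.huv] at hx
    exact (Finset.mem_filter.1 (Finset.mem_of_mem_erase (Finset.mem_of_mem_erase hx))).2
  rw [s5tab_E2 O L (a := .stub x) (b := .stub x) hx' hx']
  rfl

/-! ## 4. the moment account -/

theorem s5ei_aliveL_toFinset : π.s5aliveL.toFinset = π.s5G ∪ π.s5S := by
  ext a
  rw [List.mem_toFinset, s5_mem_aliveL, s5_mem_union]

theorem s5ei_unresL_toFinset : π.unresL.toFinset = π.unres := by
  ext x
  rw [List.mem_toFinset, s6_mem_unresL]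
  exact ⟨fun h => Finset.mem_filter.2 ⟨Finset.mem_univ _, h⟩, fun h => (Finset.mem_filter.1 h).2⟩

theorem s5ei_sum_aliveL (f : Label n d → ℝ) : (π.s5aliveL.map f).sum = ∑ a ∈ π.s5G ∪ π.s5S, f a := by
  rw [← s5ei_aliveL_toFinset, List.sum_toFinset f π.s5_nodup_aliveL]

theorem s5ei_sum_unresL (f : Stub n d → ℝ) : (π.unresL.map f).sum = ∑ x ∈ π.unres, f x := by
  rw [← s5ei_unresL_toFinset, List.sum_toFinset f π.s5_nodup_unresL]

theorem s5ei_m (L : ℕ) (σ h Be : ℝ) {a : Label n d} (ha : π.Alive a) :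
    (π.s5mom L σ h Be).m a = π.s5m ℝ a := by
  unfold S5Mom.m
  cases a with
  | glob i =>
    rw [if_neg (show Label.glob i ∉ (π.s5mom L σ h Be).S from π.s5_glob_not_mem_S i)]
    show ((π.s5G.card : ℕ) : ℝ)⁻¹ = (n : ℝ)⁻¹
    rw [s5_card_G]
  | stub x =>
    rw [if_pos (show Label.stub x ∈ (π.s5mom L σ h Be).S from (π.s5_stub_mem_S x).2 ha)]
    show ((π.s5S.card : ℕ) : ℝ)⁻¹ = (π.l : ℝ)⁻¹
    rw [s5_card_S]

theorem s5ei_zp (p2 : ℕ) (σ h Be : ℝ) (hBe2 : Be ^ 2 = ((s5BeSq n : ℚ) : ℝ)) (a b : Label n d) :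
    π.s5zp p2 σ h a b = (π.s5mom (Lcut d n) σ h Be).z a b ^ (2 * p2) := by
  unfold s5zp
  show _ = (π.Eent (Lcut d n) σ h a b / Be) ^ (2 * p2)
  rw [pow_mul, div_pow (π.Eent (Lcut d n) σ h a b) Be 2, hBe2]

/-- the account `hi` of `S5Phase.lean` is the abstract `Z` of `S5Hi.lean` -/
theorem s5Zhi_eq (p2 R : ℕ) (kp σ h Be : ℝ) (hBe : 0 < Be) (hBe2 : Be ^ 2 = ((s5BeSq n : ℚ) : ℝ)) :
    π.s5Zhi p2 R kp σ h = (π.s5mom (Lcut d n) σ h Be).Z (2 * p2) R kp := by
  unfold s5Zhi S5Mom.Z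
  have hF : π.s5F p2 σ h = (π.s5mom (Lcut d n) σ h Be).F (2 * p2) := by
    unfold s5F S5Mom.F
    rw [s5ei_sum_aliveL]
    refine Finset.sum_congr rfl fun a ha => ?_
    rw [s5ei_sum_aliveL]
    refine Finset.sum_congr rfl fun b hb => ?_
    rw [π.s5ei_m _ σ h Be ((π.s5_mem_union a).1 ha), π.s5ei_m _ σ h Be ((π.s5_mem_union b).1 hb),
      π.s5ei_zp p2 σ h Be hBe2]
  have hN : ∀ k, π.s5N p2 k σ h = (π.s5mom (Lcut d n) σ h Be).N (2 * p2) k := by
    intro k
    unfold s5N S5Mom.N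
    rw [s5ei_sum_aliveL]
    refine Finset.sum_congr rfl fun a ha => ?_
    rw [s5ei_sum_unresL]
    show _ = ∑ x ∈ π.s5S, _
    rw [s5_sum_S]
    refine Finset.sum_congr rfl fun x _ => ?_
    rw [π.s5ei_m _ σ h Be ((π.s5_mem_union a).1 ha), π.s5ei_zp p2 σ h Be hBe2]
    rfl
  rw [hF]
  congr 1
  rw [← List.sum_toFinset _ List.nodup_range]
  refine Finset.sum_congr ?_ fun k _ => by rw [hN]
  ext k
  simp

theorem s5nxt_lblP (L : ℕ) (σ h Be : ℝ) (u v : Stub n d) :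
    π.s5nxt L σ h Be (lblP (u, v)) = (π.resolve u v).s5mom L σ h Be := rfl

/-- averages of the account over the candidates -/
theorem s5_avg_Zhi (g p2 R : ℕ) (kp σ h Be : ℝ) (hBe : 0 < Be) (hBe2 : Be ^ 2 = ((s5BeSq n : ℚ) : ℝ)) :
    avgOn (π.admSet g) (fun p => (π.resolve p.1 p.2).s5Zhi p2 R kp σ h) =
      avgOn (π.s5Vd g) (fun pr => (π.s5nxt (Lcut d n) σ h Be pr).Z (2 * p2) R kp) := by
  rw [s5_avg_Vd]
  congr 1
  funext p
  rw [(π.resolve p.1 p.2).s5Zhi_eq p2 R kp σ h Be hBe hBe2]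
  rfl

end PPair

end Claimed.Agent.R275
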