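import Claimed.Agent.R275.S5Acc
import Claimed.Agent.R275.S51Step

/-!
# Row 275, Sec 5: GLUE between the contracts of `S5Main.lean` and the statements of Sec 5.1 (`S51Step.lean`, helper194); choice of the constants.

Owner: helper11.  No sorry in the glue.
-/

set_option autoImplicit false

namespace Claimed.Agent.R275

open Filter Finset

theorem s5f_admF {n d : ℕ} (π : PPair n d) (g : ℕ) : π.admF g = π.admSet g := rfl

/-- `2 n^x ≤ n^y` eventually, for `x < y` -/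
theorem s5f_two_mul (x y : ℝ) (h : x < y) : ∀ᶠ n : ℕ in atTop, (n : ℝ) ^ x * 2 ≤ (n : ℝ) ^ y := by
  filter_upwards [parF_ev_large (y - x) (by linarith) 2, eventually_ge_atTop 1] with n h2 hn
  have hn0 : (0 : ℝ) < (n : ℝ) := by exact_mod_cast hn
  calc (n : ℝ) ^ x * 2 ≤ (n : ℝ) ^ x * (n : ℝ) ^ (y - x) :=
        mul_le_mul_of_nonneg_left h2 (Real.rpow_nonneg hn0.le _)
    _ = (n : ℝ) ^ y := by rw [← Real.rpow_add hn0]; congr 1; ring

/-- `Cur` with the larger loss exponent -/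
theorem s5f_cur {d n : ℕ} (hn : 1 ≤ n) (hα : 0 < alphaS d n) {π : PPair n d} {P : S5Par} {CM CR ηs η : ℝ} {Rc : ℕ}
    {cT : ℝ} (h : π.S5St P CM CR ηs η Rc cT) (hη : ηs ≤ η) : π.Cur P.cp CM CR η Rc :=
  ⟨(h.cur hn hα).l_ge, s5_walk_mono hn (h.cur hn hα).walk hη, (h.cur hn hα).caps⟩

/-- the budget of Sec 5.1 in the form of `S5Acct` -/
theorem s5f_budget {d n : ℕ} {c0 : ℝ}
    (hb : ∀ t : ℕ, l0 n ≤ n * d - 2 * t → ∏ s ∈ range (t + 1), (1 + s51rho c0 d n (n * d - 2 * s)) ≤ 2) :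
    ∀ t ≤ s5T d n, ∏ s ∈ range t, (1 + s51rho c0 d n (n * d - 2 * s)) ≤ 2 := by
  intro t ht
  rcases t with _ | t
  · simp
  · apply hb
    unfold s5T l1 at ht
    omega

theorem s5f_aa_pos : (0 : ℝ) < (aa : ℝ) := by rw [parF_aa]; norm_num

/-- CONTRACT `StS5L1` -/
theorem s5f_L1 (d : ℕ) (hd : 3 ≤ d) (P : S5Par) (hcp : 0 < P.cp) (hcp' : P.cp ≤ 1 / 4) (CM CR ηs η : ℝ) (Rc : ℕ)
    (cT ηK : ℝ) (hηs : ηs ≤ η) (hη0 : 0 ≤ η) (hη : η < (aa : ℝ) / 20) (hηK : ηK < (2 / 100 : ℝ) * (aa : ℝ)) :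
    StS5L1 d P CM CR ηs η Rc cT ηK := by
  have ha := s5f_aa_pos
  unfold StS5L1
  filter_upwards [s51_step_L1 d hd P hcp hcp' CM CR η Rc hη0 hη, s51_budget d hd ((aa : ℝ) / 3000) (by positivity),
    s51_ext_L1 d hd P, s51_alpha_ge d hd P.cp hcp hcp', eventually_ge_atTop 1, s5f_two_mul _ _ hηK]
    with n hstep hbud hext hα hn hsm
  intro h hh s
  constructor
  · refine ⟨fun l => s51rho ((aa : ℝ) / 3000) d n l, ?_⟩
    constructor
    · exact fun l => s51rho_nonneg _ _ _ _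
    · intro π hst _
      exact hstep π (s5f_cur hn hα.1 hst hηs) hst.ts h hh s
    · exact s5f_budget hbud
  · intro π' hZ
    exact hext π' h s (hZ.trans hsm)

/-- CONTRACT `StS5L0` -/
theorem s5f_L0 (d : ℕ) (hd : 3 ≤ d) (P : S5Par) (hcp : 0 < P.cp) (hcp' : P.cp ≤ 1 / 4) (CM CR ηs η : ℝ) (Rc : ℕ)
    (cT ηK : ℝ) (hηs : ηs ≤ η) (hη0 : 0 ≤ η) (hη : η < (aa : ℝ) / 20) (hηK : ηK < (2 / 100 : ℝ) * (aa : ℝ)) :
    StS5L0 d P CM CR ηs η Rc cT ηK := by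
  have ha := s5f_aa_pos
  unfold StS5L0
  filter_upwards [s51_step_L0 d hd P hcp hcp' CM CR η Rc hη0 hη, s51_budget d hd ((aa : ℝ) / 3000) (by positivity),
    s51_ext_L0 d hd P, s51_alpha_ge d hd P.cp hcp hcp', eventually_ge_atTop 1, s5f_two_mul _ _ hηK]
    with n hstep hbud hext hα hn hsm
  intro h hh s
  constructor
  · refine ⟨fun l => s51rho ((aa : ℝ) / 3000) d n l, ?_⟩
    constructor
    · exact fun l => s51rho_nonneg _ _ _ _
    · intro π hst _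
      exact hstep π (s5f_cur hn hα.1 hst hηs) hst.ts h hh s
    · exact s5f_budget hbud
  · intro π' hZ
    exact hext π' h s (hZ.trans hsm)

theorem s5f_prim_tracked {d n : ℕ} {cp h : ℚ} (hh : h ∈ primList d n cp) : h ∈ trackedList d n cp :=
  List.mem_append_left _ (List.mem_append_left _ hh)

theorem s5f_two_le_l1 (n : ℕ) : 2 ≤ l1 n := by
  have : 1 ≤ scN (2 / 3 + 15 / 100 * aa) n := Nat.one_le_two_pow
  unfold l1 l0
  omega

/-- CONTRACT `StS5T`, `c_T = 1/2` -/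
theorem s5f_T (d : ℕ) (hd : 3 ≤ d) (P : S5Par) (hcp : 0 < P.cp) (hcp' : P.cp ≤ 1 / 4) (CM CR ηs η : ℝ) (Rc : ℕ)
    (ηK : ℝ) (hηs : ηs ≤ η) (hη0 : 0 ≤ η) (hη : η < (aa : ℝ) / 20) (hθ : 0 < P.θ) (hθ' : (P.θ : ℝ) ≤ (aa : ℝ) / 5)
    (hηK : ηK < (P.θ : ℝ) / 4) : StS5T d P CM CR ηs η Rc (1 / 2) ηK := by
  have ha := s5f_aa_pos
  unfold StS5T
  have hθR : (0 : ℝ) < (P.θ : ℝ) := by exact_mod_cast hθ
  have hc0 : 0 < min ((aa : ℝ) / 3000) ((P.θ : ℝ) / 5) := lt_min (by positivity) (by positivity)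
  filter_upwards [s51_step_T d hd P hcp hcp' CM CR η (1 / 2) ((P.θ : ℝ) / 2) (min ((aa : ℝ) / 3000) ((P.θ : ℝ) / 5)) Rc
      hη0 hη (by norm_num) (by linarith) hθ (min_le_left _ _) (min_le_right _ _),
    s51_T_next d hd P.cp hcp hcp' CM CR η (1 / 2) ((P.θ : ℝ) / 2) Rc hη0 hη (by norm_num) (by linarith),
    s51_budget d hd _ hc0, s51_alpha_ge d hd P.cp hcp hcp', eventually_ge_atTop 1, s5f_two_mul _ _ hηK]
    with n hstep hnext hbud hα hn hsm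
  intro h hh s
  constructor
  · refine ⟨fun l => s51rho (min ((aa : ℝ) / 3000) ((P.θ : ℝ) / 5)) d n l, ?_⟩
    constructor
    · exact fun l => s51rho_nonneg _ _ _ _
    · intro π hst _
      exact hstep π (s5f_cur hn hα.1 hst hηs) hst.ts hst.tlow h hh s
    · exact s5f_budget hbud
  · intro π π' hst hl hmem hZ
    have hl' : 0 < π'.l := by
      have h1 := s5_cands_l hmem
      have h2 := s5f_two_le_l1 n
      omega
    obtain ⟨u, v, hadm, rfl⟩ := (π.s5_mem_cands _ _).1 hmem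
    obtain ⟨hT0, hT1⟩ := hnext π (s5f_cur hn hα.1 hst hηs) hst.ts hst.tlow h hh s
    have hmemF : (u, v) ∈ π.admF (g0 d n) := by
      unfold PPair.admF
      exact Finset.mem_filter.2 ⟨Finset.mem_univ _, hadm⟩
    have hT2 := hT1 (u, v) hmemF
    have hT : 0 < (π.resolve u v).Ttr (sgn s) ((h : ℚ) : ℝ) := by
      have : 0 < π.Ttr (sgn s) ((h : ℚ) : ℝ) / 2 := by positivity
      exact lt_of_lt_of_le this hT2
    have hαh : 0 < alphaf d ((h : ℚ) : ℝ) := lt_of_lt_of_le hα.1 (hα.2 h (s5f_prim_tracked hh)).1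
    exact s51_ext_T d n hn P hθ.le (π.resolve u v) hl' h s hαh hT (hZ.trans hsm)

/-- PROPOSITION 5.1 with the choice of the constants; `hTS` = the contract theorem of Sec 5.3 (to be discharged by `S53Acct.lean`). -/
theorem s5_final_of (d : ℕ) (hd : 3 ≤ d) (cp : ℚ) (hcp : 0 < cp) (hcp' : cp ≤ 1 / 4) (CM CR : ℝ) (Rc : ℕ) (θ : ℚ)
    (hθ : 0 < θ) (hθ' : (θ : ℝ) ≤ (aa : ℝ) / 5) (η : ℝ) (hη0 : 0 < η) (hη : η < (aa : ℝ) / 20)
    (hTS : ∀ (P : S5Par) (ηs ηK : ℝ), P.cp = cp → 0 < ηs → ηs < (P.xT : ℝ) → (P.xT : ℝ) + ηK < η → 0 < ηK →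
      StS5TS d P CM CR ηs η Rc (1 / 2) ηK) :
    ∃ (P : S5Par) (ηs ηK : ℝ), P.cp = cp ∧ P.θ = θ ∧ 0 < ηs ∧ ηs < η ∧ 0 < ηK ∧
      ∀ᶠ n : ℕ in atTop, Even n → ∀ (ιs : Type) (SA : Phase ℚ (PPair n d) ιs) (InvS : ℕ → PPair n d → Prop)
        (cS : ιs → PPair n d → ℝ) (BS : ιs → ℝ),
        S5SA d n (SA.map (Rat.castHom ℝ)) CM CR ηs Rc ((n : ℝ) ^ ηK) InvS cS BS →
        (s5Run d n P SA).EarlyOut cp CM CR η Rc (1 / 2) (θ : ℝ) ∧ InvS (s5T d n) (s5Run d n P SA) := by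
  have ha := s5f_aa_pos
  have hθR : (0 : ℝ) < (θ : ℝ) := by exact_mod_cast hθ
  obtain ⟨Cstar, hCs, H⟩ := s54_contract d hd cp hcp hcp' CR
  obtain ⟨xT, hx1, hx2⟩ := exists_rat_btwn (show η / 4 < η / 2 by linarith)
  obtain ⟨ηK, hηK⟩ : ∃ ηK : ℝ, ηK = min (min ((aa : ℝ) / 100) ((θ : ℝ) / 8)) (η / 4) := ⟨_, rfl⟩
  have hK0 : 0 < ηK := by
    rw [hηK]; exact lt_min (lt_min (by positivity) (by positivity)) (by positivity)
  have hK1 : ηK ≤ (aa : ℝ) / 100 := by rw [hηK]; exact (min_le_left _ _).trans (min_le_left _ _)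
  have hK2 : ηK ≤ (θ : ℝ) / 8 := by rw [hηK]; exact (min_le_left _ _).trans (min_le_right _ _)
  have hK3 : ηK ≤ η / 4 := by rw [hηK]; exact min_le_right _ _
  obtain ⟨p2, hp2⟩ := exists_nat_gt ((8000 + (3 + ηK + Cstar) * 50) / (aa : ℝ) + 2)
  have hp2a : (8000 + (3 + ηK + Cstar) * 50) < (aa : ℝ) * (p2 : ℝ) := by
    have h1 : (8000 + (3 + ηK + Cstar) * 50) / (aa : ℝ) < (p2 : ℝ) := by linarith
    rw [div_lt_iff₀ ha] at h1
    linarith
  have hp2b : 2 ≤ p2 := by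
    have h1 : (2 : ℝ) < (p2 : ℝ) := by
      have : 0 ≤ (8000 + (3 + ηK + Cstar) * 50) / (aa : ℝ) := by positivity
      linarith
    have : (2 : ℕ) < p2 := by exact_mod_cast h1
    omega
  have hcast : (((2 * p2 : ℕ)) : ℝ) = 2 * (p2 : ℝ) := by push_cast; ring
  have hp2pos : (0 : ℝ) ≤ (aa : ℝ) * (p2 : ℝ) := by positivity
  obtain ⟨kp0, hkp0, H2⟩ := H p2 hp2b
  obtain ⟨kp, hk1, hk2⟩ := exists_rat_btwn hkp0
  have hk1' : (0 : ℚ) < kp := by exact_mod_cast hk1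
  refine ⟨⟨cp, xT, θ, p2, s5R, kp⟩, η / 4, ηK, rfl, rfl, by positivity, by linarith, hK0, ?_⟩
  exact s5_main_of d ⟨cp, xT, θ, p2, s5R, kp⟩ CM CR (η / 4) η Rc (1 / 2) ηK Cstar (by linarith) hk1'.le
    (s5f_L1 d hd _ hcp hcp' CM CR _ η Rc _ ηK (by linarith) hη0.le hη (by linarith))
    (s5f_L0 d hd _ hcp hcp' CM CR _ η Rc _ ηK (by linarith) hη0.le hη (by linarith))
    (s5f_T d hd _ hcp hcp' CM CR _ η Rc ηK (by linarith) hη0.le hη hθ hθ' (by show ηK < (θ : ℝ) / 4; linarith))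
    (hTS _ _ _ rfl (by positivity) hx1 (by show (xT : ℝ) + ηK < η; linarith) hK0)
    (H2 _ rfl rfl rfl hk1' hk2.le CM (η / 4) η (1 / 2) ηK Rc (by positivity) (by linarith) (by linarith)
      (by rw [hcast]; nlinarith) (by rw [hcast]; nlinarith))
    (s5_pos d hd _ hcp hcp' CM CR _ η Rc _)
    (s5_init d hd _ hcp hcp' (by show 1 ≤ p2; omega) hθ.le η (1 / 2) ηK hη0.le (by norm_num) hK0)

end Claimed.Agent.R275
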