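import Claimed.Agent.R275.S5En

/-!
# Row 275, Sec 5, package S5Hi: the high-moment account (LAYER B, abstract).  Replaces Lemmas 5.6-5.10 of `early.tex` except `T_S`.

Owner of the statements: helper11.  THIS IS NOT THE PROOF OF THE PAPER (which needs near-pair low squares `T_{XS,k}`, the aligned short-path
residual, interpolation and a kernel inequality).  Everything below is elementary.

## 1. Scalar inequalities
`s5_mixed_le` : `|y|^(p-k) |x|^k ≤ |x|^p / s + s^(p-3) x² (1 + |y|^p)`  (`2 ≤ k ≤ p-1`, `s ≥ 1`).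
   [`m = max |y| 1`, `τ = s m`; if `|x| ≥ τ` then `|y|^(p-k)|x|^k ≤ |x|^p (m/|x|)^(p-k) ≤ |x|^p/s`; else `≤ m^(p-k) x² τ^(k-2) ≤ s^(p-3) m^p x²`.]
`s5_taylor_le`: `(y+Δ)^p ≤ y^p + p y^(p-1) Δ + 2^p s^(p-3) Δ² (1+y^p) + (1+2^p/s) Δ^p`  (`p` even).
So a moment account needs ONLY: the mean of the increment, its second moment, and its PURE `p`-th moment.
`s5_jensen`   : `(∑ x_i)^p ≤ ∑ x_i^p / λ_i^(p-1)` if `∑ λ_i ≤ 1`.  Used with `λ = 3/4` for the unique large coefficient (`≤ 3/4`) and `λ = 1/60`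
for coefficients `≤ 1/60`: then `x_i = c_i z_i` gives `c_i² |z_i|^p` times `4/3`, resp. `60`: CONSTANTS INDEPENDENT OF `p`.

## 2. The account
labels `Al = G ∪ S`, weights `m = 1/|G|` on `G`, `1/l` on `S`;  `F = ∑_{a,b} m_a m_b z_ab^p`,
`N_k = ∑_{a ∈ Al, x ∈ S, nr k a x} m_a z_ax^p` (`nr k a x`: distance `≤ k`; `N_0` contains the stub diagonal),
`Z = 1 + F + ∑_{k ≤ R} ϰ^(k+1) N_k`.
Increment of an output `(a,b)` at the pair `(u,v)`: `Δ = Lin + r`, `Lin = t1+..+t8` (`s5Lin`), `|r| ≤ ρ + εs * (seven inputs)`.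

## 3. Pure powers.   (`Σ` = sum over valid pairs, `(1/|Vd|) Σ ≤ (2/l²) Σ_{offDiag}`.)
PAIR FAMILY.  `bad` = (`a` near `u` or `v`) and (`b` near `u` or `v`).  Not bad (with `excl`): at most one coefficient is `> 1/60`
  => `Δ^p ≤ 60 Q2 + 60^(p-1) r^p`, `Q2 = ∑ c_i² x_i^p`.  Bad: `Δ^p ≤ 9^(p-1) (∑ x_i^p + r^p)`.
  `∑_{a,b} m m Σ Q2 ≤ 8 h² C0 l F + 2 h⁴ dd² Ccol² (N_0 + F)`      (rows of `P` for `t1..t4`, columns for `t5..t8`),
  `∑_{a,b} m m Σ bad * (inputs)^p ≤ C(CR,dd) (F + N_R)`              (ball bounds: this is where `N_R` is needed),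
  `∑_{a,b} m m Σ (inputs)^p ≤ l² (12 F + 8 N_0)`.
NEAR FAMILY, existing output `(a,x)`, `nr k a x`.  `hitU = nr R a u ∨ nr R x u`: then `|P a v|, |P x v| ≤ εs` (`opp`), the only dangerous term is
  `t5 = h² P a u P x u z_vv`, `|c5| ≤ 11/20`: Jensen with `λ5 = 11/20`, `λ1 = λ3 = 1/10`, `1/30` for the six others:
  `Δ^p ≤ z_vv^p + 10^(p-1)(t1^p + t3^p) + 30^(p-1)(small^p)`.  Same for `hitV`.  No hit: all coefficients `≤ 1/60`.
  `t1, t3` are transfers from `F` at rate `C_p/l` (absorbed by `ϰ`), `z_vv^p` is a transfer from `N_0` at rate `c1/l`, `c1` INDEPENDENT of `p`.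
NEAR FAMILY, new output: `k1 + 1 + k2 ≤ k`, `nr k1 a u`, `nr k2 x v`.  Crude `(z+Δ)^p ≤ 10^(p-1)(...)`: inputs `z_ax, z_uv` (from `F`),
  `z_vx` (`nr k2`, level `< k`), `z_au` (`nr k1`, level `< k`); all other coefficients are `≤ εs`.  Rate `C_p/l`, absorbed by `ϰ C_p ≤ 1`.
-/

set_option autoImplicit false

namespace Claimed.Agent.R275

open Finset

/-! ## 1. scalar inequalities -/

theorem s5h_mixed_aux (i j : ℕ) (s X Y : ℝ) (hs : 1 ≤ s) (hX : 0 ≤ X) (hY : 0 ≤ Y) :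
    Y ^ (j + 1) * X ^ (i + 2) ≤ X ^ (i + j + 3) / s + s ^ (i + j) * X ^ 2 * (1 + Y ^ (i + j + 3)) := by
  set m : ℝ := max Y 1 with hm
  have hm1 : 1 ≤ m := le_max_right _ _
  have hYm : Y ≤ m := le_max_left _ _
  have hs0 : 0 < s := by linarith
  have hm0 : 0 < m := by linarith
  have h1 : Y ^ (j + 1) * X ^ (i + 2) ≤ m ^ (j + 1) * X ^ (i + 2) :=
    mul_le_mul_of_nonneg_right (pow_le_pow_left₀ hY hYm _) (by positivity)
  have hA : 0 ≤ X ^ (i + j + 3) / s := by positivity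
  have hB : 0 ≤ s ^ (i + j) * X ^ 2 * (1 + Y ^ (i + j + 3)) := by positivity
  rcases le_total (s * m) X with hc | hc
  · -- large `X`
    have h2 : s * m ^ (j + 1) ≤ X ^ (j + 1) := by
      calc s * m ^ (j + 1) ≤ s ^ (j + 1) * m ^ (j + 1) :=
            mul_le_mul_of_nonneg_right (le_self_pow₀ hs (by omega)) (by positivity)
        _ = (s * m) ^ (j + 1) := by rw [mul_pow]
        _ ≤ X ^ (j + 1) := pow_le_pow_left₀ (by positivity) hc _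
    have h3 : m ^ (j + 1) * X ^ (i + 2) ≤ X ^ (i + j + 3) / s := by
      rw [le_div_iff₀ hs0]
      calc m ^ (j + 1) * X ^ (i + 2) * s = (s * m ^ (j + 1)) * X ^ (i + 2) := by ring
        _ ≤ X ^ (j + 1) * X ^ (i + 2) := mul_le_mul_of_nonneg_right h2 (by positivity)
        _ = X ^ (i + j + 3) := by rw [← pow_add]; congr 1; omega
    linarith
  · -- small `X`
    have h2 : X ^ (i + 2) ≤ (s * m) ^ i * X ^ 2 := by
      rw [pow_add]
      exact mul_le_mul_of_nonneg_right (pow_le_pow_left₀ hX hc _) (by positivity)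
    have h3 : m ^ (i + j + 3) ≤ 1 + Y ^ (i + j + 3) := by
      rcases le_total Y 1 with h | h
      · rw [hm, max_eq_right h, one_pow]
        have : 0 ≤ Y ^ (i + j + 3) := by positivity
        linarith
      · rw [hm, max_eq_left h]; linarith
    have h4 : m ^ (j + 1) * ((s * m) ^ i * X ^ 2) ≤ s ^ (i + j) * X ^ 2 * m ^ (i + j + 3) := by
      have e1 : m ^ (j + 1) * ((s * m) ^ i * X ^ 2) = (s ^ i * m ^ (i + j + 1)) * X ^ 2 := by
        rw [mul_pow]; ring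
      have e2 : s ^ (i + j) * X ^ 2 * m ^ (i + j + 3) = (s ^ (i + j) * m ^ (i + j + 3)) * X ^ 2 := by ring
      rw [e1, e2]
      refine mul_le_mul_of_nonneg_right ?_ (by positivity)
      exact mul_le_mul (pow_le_pow_right₀ hs (by omega)) (pow_le_pow_right₀ hm1 (by omega))
        (by positivity) (by positivity)
    have h5 : s ^ (i + j) * X ^ 2 * m ^ (i + j + 3) ≤ s ^ (i + j) * X ^ 2 * (1 + Y ^ (i + j + 3)) :=
      mul_le_mul_of_nonneg_left h3 (by positivity)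
    have h6 : m ^ (j + 1) * X ^ (i + 2) ≤ m ^ (j + 1) * ((s * m) ^ i * X ^ 2) :=
      mul_le_mul_of_nonneg_left h2 (by positivity)
    linarith

theorem s5_mixed_le (p k : ℕ) (hk : 2 ≤ k) (hkp : k + 1 ≤ p) (s x y : ℝ) (hs : 1 ≤ s) :
    |y| ^ (p - k) * |x| ^ k ≤ |x| ^ p / s + s ^ (p - 3) * x ^ 2 * (1 + |y| ^ p) := by
  obtain ⟨i, rfl⟩ : ∃ i, k = i + 2 := ⟨k - 2, by omega⟩
  obtain ⟨j, rfl⟩ : ∃ j, p = i + j + 3 := ⟨p - i - 3, by omega⟩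
  have h := s5h_mixed_aux i j s |x| |y| hs (abs_nonneg _) (abs_nonneg _)
  rw [sq_abs] at h
  have e1 : i + j + 3 - (i + 2) = j + 1 := by omega
  have e2 : i + j + 3 - 3 = i + j := by omega
  rw [e1, e2]
  exact h

theorem s5_taylor_le (p : ℕ) (hp : Even p) (hp4 : 4 ≤ p) (s y D : ℝ) (hs : 1 ≤ s) :
    (y + D) ^ p ≤ y ^ p + p * y ^ (p - 1) * D + 2 ^ p * s ^ (p - 3) * D ^ 2 * (1 + y ^ p)
      + (1 + 2 ^ p / s) * D ^ p := by
  have hs0 : 0 < s := by linarith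
  have hDp : 0 ≤ D ^ p := hp.pow_nonneg D
  have hyp : 0 ≤ y ^ p := hp.pow_nonneg y
  set E : ℝ := D ^ p / s + s ^ (p - 3) * D ^ 2 * (1 + y ^ p) with hE
  have hE0 : 0 ≤ E := by positivity
  have hterm : ∀ m ∈ range (p + 1), D ^ m * y ^ (p - m) * (p.choose m : ℝ) ≤
      (if m = 0 then y ^ p else 0) + (if m = 1 then p * y ^ (p - 1) * D else 0)
        + (if m = p then D ^ p else 0) + (p.choose m : ℝ) * E := by
    intro m hm
    have hmp : m ≤ p := by have := Finset.mem_range.1 hm; omega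
    have hCE : 0 ≤ (p.choose m : ℝ) * E := by positivity
    rcases Nat.lt_or_ge m 2 with h2 | h2
    · interval_cases m
      · simp only [pow_zero, one_mul, Nat.sub_zero, Nat.choose_zero_right, Nat.cast_one, mul_one,
          if_true]
        rw [if_neg (by omega), if_neg (by omega)]
        simp only [Nat.choose_zero_right, Nat.cast_one, one_mul] at hCE
        linarith
      · rw [if_neg (by omega), if_pos rfl, if_neg (by omega)]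
        simp only [pow_one, Nat.choose_one_right] at hCE ⊢
        nlinarith
    · rcases Nat.lt_or_ge m p with h3 | h3
      · rw [if_neg (by omega), if_neg (by omega), if_neg (by omega)]
        have h4 := s5_mixed_le p m h2 (by omega) s D y hs
        rw [hp.pow_abs, hp.pow_abs] at h4
        have h5 : D ^ m * y ^ (p - m) ≤ |y| ^ (p - m) * |D| ^ m := by
          calc D ^ m * y ^ (p - m) ≤ |D ^ m * y ^ (p - m)| := le_abs_self _
            _ = |y| ^ (p - m) * |D| ^ m := by rw [abs_mul, abs_pow, abs_pow, mul_comm]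
        have h6 : D ^ m * y ^ (p - m) ≤ E := h5.trans h4
        have := mul_le_mul_of_nonneg_right h6 (Nat.cast_nonneg (p.choose m) : (0 : ℝ) ≤ _)
        linarith
      · have hmp' : m = p := le_antisymm hmp h3
        subst hmp'
        rw [if_neg (by omega), if_neg (by omega), if_pos rfl]
        simp only [Nat.sub_self, pow_zero, mul_one, Nat.choose_self, Nat.cast_one, one_mul] at hCE ⊢
        linarith
  have hsum := Finset.sum_le_sum hterm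
  rw [← add_pow, add_comm D y] at hsum
  refine hsum.trans (le_of_eq ?_)
  rw [Finset.sum_add_distrib, Finset.sum_add_distrib, Finset.sum_add_distrib, Finset.sum_ite_eq',
    Finset.sum_ite_eq', Finset.sum_ite_eq', if_pos (Finset.mem_range.2 (by omega)),
    if_pos (Finset.mem_range.2 (by omega)), if_pos (Finset.mem_range.2 (by omega)), ← Finset.sum_mul]
  have hch : ∑ m ∈ range (p + 1), (p.choose m : ℝ) = 2 ^ p := by
    exact_mod_cast Nat.sum_range_choose p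
  rw [hch, hE]
  ring

theorem s5_jensen {ι : Type} (T : Finset ι) (p : ℕ) (hp : Even p) (hp1 : 1 ≤ p) (lam x : ι → ℝ)
    (hlam : ∀ i ∈ T, 0 < lam i) (hsum : ∑ i ∈ T, lam i ≤ 1) :
    (∑ i ∈ T, x i) ^ p ≤ ∑ i ∈ T, x i ^ p / lam i ^ (p - 1) := by
  rcases T.eq_empty_or_nonempty with rfl | hne
  · simp [show p ≠ 0 by omega]
  set Λ : ℝ := ∑ i ∈ T, lam i with hΛ
  have hΛ0 : 0 < Λ := Finset.sum_pos hlam hne
  have h1 := Real.pow_arith_mean_le_arith_mean_pow_of_even T (fun i => lam i / Λ) (fun i => x i / lam i)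
    (fun i hi => (div_pos (hlam i hi) hΛ0).le) (by rw [← Finset.sum_div, ← hΛ, div_self hΛ0.ne']) hp
  have e1 : ∑ i ∈ T, lam i / Λ * (x i / lam i) = (∑ i ∈ T, x i) / Λ := by
    rw [Finset.sum_div]
    refine Finset.sum_congr rfl fun i hi => ?_
    have := (hlam i hi).ne'
    field_simp
  obtain ⟨q, rfl⟩ : ∃ q, p = q + 1 := ⟨p - 1, by omega⟩
  have e2 : ∑ i ∈ T, lam i / Λ * (x i / lam i) ^ (q + 1) = (∑ i ∈ T, x i ^ (q + 1) / lam i ^ q) / Λ := by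
    rw [Finset.sum_div]
    refine Finset.sum_congr rfl fun i hi => ?_
    have := (hlam i hi).ne'
    rw [div_pow, pow_succ (lam i) q]
    field_simp
  rw [e1, e2, div_pow, div_le_div_iff₀ (by positivity) hΛ0] at h1
  simp only [Nat.add_sub_cancel]
  have hR0 : 0 ≤ ∑ i ∈ T, x i ^ (q + 1) / lam i ^ q :=
    Finset.sum_nonneg fun i hi => div_nonneg (hp.pow_nonneg _) (pow_pos (hlam i hi) _).le
  have h2 : Λ ^ q ≤ 1 := pow_le_one₀ hΛ0.le hsum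
  have h3 : (∑ i ∈ T, x i) ^ (q + 1) * Λ ≤ (∑ i ∈ T, x i ^ (q + 1) / lam i ^ q) * Λ := by
    calc (∑ i ∈ T, x i) ^ (q + 1) * Λ ≤ (∑ i ∈ T, x i ^ (q + 1) / lam i ^ q) * Λ ^ (q + 1) := h1
      _ = ((∑ i ∈ T, x i ^ (q + 1) / lam i ^ q) * Λ ^ q) * Λ := by ring
      _ ≤ ((∑ i ∈ T, x i ^ (q + 1) / lam i ^ q) * 1) * Λ :=
          mul_le_mul_of_nonneg_right (mul_le_mul_of_nonneg_left h2 hR0) hΛ0.le
      _ = _ := by ring
  exact le_of_mul_le_mul_right h3 hΛ0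

/-- a coefficient `|c| ≤ λ` costs `c² / λ` -/
theorem s5_coef_le (p : ℕ) (hp : Even p) (hp2 : 2 ≤ p) (lam c z : ℝ) (hlam : 0 < lam) (hc : |c| ≤ lam) :
    (c * z) ^ p / lam ^ (p - 1) ≤ c ^ 2 / lam * z ^ p := by
  obtain ⟨q, rfl⟩ : ∃ q, p = q + 2 := ⟨p - 2, by omega⟩
  have hz : 0 ≤ z ^ (q + 2) := hp.pow_nonneg z
  have e1 : q + 2 - 1 = q + 1 := by omega
  rw [e1, div_le_iff₀ (by positivity), mul_pow]
  have h1 : c ^ (q + 2) ≤ c ^ 2 * lam ^ q := by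
    calc c ^ (q + 2) = |c| ^ (q + 2) := (hp.pow_abs c).symm
      _ = |c| ^ 2 * |c| ^ q := by ring
      _ = c ^ 2 * |c| ^ q := by rw [sq_abs]
      _ ≤ c ^ 2 * lam ^ q :=
          mul_le_mul_of_nonneg_left (pow_le_pow_left₀ (abs_nonneg _) hc _) (sq_nonneg _)
  calc c ^ (q + 2) * z ^ (q + 2) ≤ (c ^ 2 * lam ^ q) * z ^ (q + 2) := mul_le_mul_of_nonneg_right h1 hz
    _ = c ^ 2 / lam * z ^ (q + 2) * lam ^ (q + 1) := by field_simp; ring

/-! ## 2. the account -/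

/-- the data of the moment account at one state -/
structure S5Mom (α : Type) where
  S : Finset α
  G : Finset α
  z : α → α → ℝ
  nr : ℕ → α → α → Bool

namespace S5Mom

variable {α : Type} [DecidableEq α] (M : S5Mom α)

def Al : Finset α := M.G ∪ M.S

noncomputable def m (a : α) : ℝ := if a ∈ M.S then (M.S.card : ℝ)⁻¹ else (M.G.card : ℝ)⁻¹

noncomputable def F (p : ℕ) : ℝ := ∑ a ∈ M.Al, ∑ b ∈ M.Al, M.m a * M.m b * M.z a b ^ p

noncomputable def N (p k : ℕ) : ℝ :=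
  ∑ a ∈ M.Al, ∑ x ∈ M.S, if M.nr k a x then M.m a * M.z a x ^ p else 0

noncomputable def Z (p R : ℕ) (kp : ℝ) : ℝ := 1 + M.F p + ∑ k ∈ range (R + 1), kp ^ (k + 1) * M.N p k

end S5Mom

/-- sum of the `p`-th powers of the seven inputs -/
def s5Ip {α : Type} (p : ℕ) (z : α → α → ℝ) (pr : α × α) (a b : α) : ℝ :=
  z pr.1 b ^ p + z pr.2 b ^ p + z a pr.1 ^ p + z a pr.2 ^ p + z pr.1 pr.1 ^ p + z pr.2 pr.2 ^ p + z pr.1 pr.2 ^ p

/-- `Q2 = ∑ c_i² x_i^p` over the eight terms of `s5Lin` -/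
def s5Q2 {α : Type} (p : ℕ) (h : ℝ) (P z : α → α → ℝ) (pr : α × α) (a b : α) : ℝ :=
  h ^ 2 * (P a pr.1 ^ 2 * z pr.2 b ^ p + P a pr.2 ^ 2 * z pr.1 b ^ p + P b pr.1 ^ 2 * z a pr.2 ^ p
      + P b pr.2 ^ 2 * z a pr.1 ^ p)
    + h ^ 4 * (P a pr.1 ^ 2 * P b pr.1 ^ 2 * z pr.2 pr.2 ^ p + P a pr.2 ^ 2 * P b pr.2 ^ 2 * z pr.1 pr.1 ^ p
      + P a pr.1 ^ 2 * P b pr.2 ^ 2 * z pr.2 pr.1 ^ p + P a pr.2 ^ 2 * P b pr.1 ^ 2 * z pr.1 pr.2 ^ p)

/-- both output axes are near a selected endpoint (on valid pairs one axis is never near both endpoints: `excl`) -/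
def s5Bad {α : Type} (nr : α → α → Bool) (pr : α × α) (a b : α) : Bool :=
  (nr a pr.1 && nr b pr.1) || (nr a pr.1 && nr b pr.2) || (nr a pr.2 && nr b pr.1) || (nr a pr.2 && nr b pr.2)

/-- a pair `(a, x)` which may become near at level `k` through the new edge `{u, v}` -/
def s5New {α : Type} (nr : ℕ → α → α → Bool) (k : ℕ) (pr : α × α) (a x : α) : Prop :=
  ∃ k1 k2 : ℕ, k1 + 1 + k2 ≤ k ∧
    ((nr k1 a pr.1 = true ∧ nr k2 x pr.2 = true) ∨ (nr k1 a pr.2 = true ∧ nr k2 x pr.1 = true))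

/-- Hypotheses of the one-step estimate.  FIXED constants (independent of `p`): `dd C0 CR ≥ 1`, radius `R`.
Small or slowly growing quantities: `Ccol` (column squares of `P`), `μ` (mean), `V` (second moment), `ρ` (sup of the residual),
`εs` (power-small coefficients). -/
structure S5HiHyp {α : Type} [DecidableEq α] (dd C0 CR : ℝ) (R : ℕ) (Ccol μ V ρ εs σ h : ℝ) (M : S5Mom α)
    (Vd : Finset (α × α)) (Dg : ℕ) (P : α → α → ℝ) (nxt : α × α → S5Mom α) : Prop where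
  valid : S5Valid M.S Vd Dg
  hl : 32 ≤ M.S.card
  hDg : 4 * Dg ≤ M.S.card
  disj : Disjoint M.G M.S
  hG : (M.S.card : ℝ) ≤ dd * M.G.card
  hσ : σ ^ 2 = 1
  hh : 0 < h
  hh1 : h ≤ 1
  hμ : 0 ≤ μ
  hV : 0 ≤ V
  hρ : 0 ≤ ρ
  hεs : 0 ≤ εs
  hεs1 : εs ≤ 1 / 60
  hCcol : 1 ≤ Ccol
  zsymm : ∀ a b, M.z a b = M.z b a
  /-- kernels -/
  Psymm : ∀ x ∈ M.S, ∀ y ∈ M.S, P x y = P y x
  Prow : ∀ a ∈ M.Al, ∑ x ∈ M.S, P a x ^ 2 ≤ C0
  Pcol : ∀ x ∈ M.S, ∑ a ∈ M.Al, P a x ^ 2 ≤ Ccol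
  Psup1 : ∀ a ∈ M.Al, ∀ x ∈ M.S, h * |P a x| ≤ 3 / 4
  Psup2 : ∀ a ∈ M.Al, ∀ b ∈ M.Al, ∀ x ∈ M.S, h ^ 2 * |P a x| * |P b x| ≤ 11 / 20
  /-- near relation -/
  far : ∀ a ∈ M.Al, ∀ x ∈ M.S, M.nr R a x = false → h * |P a x| ≤ 1 / 60
  mono : ∀ k k' a x, k ≤ k' → M.nr k a x = true → M.nr k' a x = true
  refl : ∀ x ∈ M.S, M.nr 0 x x = true
  tri1 : ∀ k k', ∀ a ∈ M.Al, ∀ x ∈ M.S, ∀ y ∈ M.S, M.nr k a x = true → M.nr k' x y = true → M.nr (k + k') a y = true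
  tri2 : ∀ k k', ∀ a ∈ M.Al, ∀ x ∈ M.S, ∀ y ∈ M.S, M.nr k a x = true → M.nr k' a y = true → M.nr (k + k') x y = true
  ball1 : ∀ a ∈ M.Al, ((M.S.filter fun x => M.nr R a x = true).card : ℝ) ≤ CR
  ball2 : ∀ x ∈ M.S, ((M.Al.filter fun a => M.nr R a x = true).card : ℝ) ≤ CR
  opp : ∀ pr ∈ Vd, ∀ a ∈ M.Al, M.nr (2 * R) a pr.1 = true → |P a pr.2| ≤ εs
  excl : ∀ pr ∈ Vd, ∀ a ∈ M.Al, M.nr R a pr.1 = true → M.nr R a pr.2 = false
  /-- next states -/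
  nxtS : ∀ pr ∈ Vd, (nxt pr).S = (M.S.erase pr.1).erase pr.2
  nxtG : ∀ pr ∈ Vd, (nxt pr).G = M.G
  new : ∀ pr ∈ Vd, ∀ k ≤ R, ∀ a ∈ (nxt pr).Al, ∀ x ∈ (nxt pr).S, (nxt pr).nr k a x = true →
    M.nr k a x = true ∨ s5New M.nr k pr a x
  /-- increments -/
  mean : ∀ a ∈ M.Al, ∀ b ∈ M.Al,
    |∑ pr ∈ s5Surv Vd (({a, b} : Finset α) ∩ M.S), ((nxt pr).z a b - M.z a b)| / (Vd.card : ℝ) ≤ μ
  second : ∀ a ∈ M.Al, ∀ b ∈ M.Al,
    (∑ pr ∈ s5Surv Vd (({a, b} : Finset α) ∩ M.S), ((nxt pr).z a b - M.z a b) ^ 2) / (Vd.card : ℝ) ≤ V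
  lin : ∀ a ∈ M.Al, ∀ b ∈ M.Al, ∀ pr ∈ s5Surv Vd (({a, b} : Finset α) ∩ M.S),
    |(nxt pr).z a b - M.z a b - s5Lin σ h P M.z pr a b| ≤ ρ + εs * s5In M.z pr a b

/-! ## 3. pointwise bounds of the pure power -/

section pointwise

variable {α : Type} [DecidableEq α] {dd C0 CR : ℝ} {R : ℕ} {Ccol μ V ρ εs σ h : ℝ} {M : S5Mom α}
  {Vd : Finset (α × α)} {Dg : ℕ} {P : α → α → ℝ} {nxt : α × α → S5Mom α}

/-- residual: `r^p ≤ 8^(p-1) (ρ^p + εs^p * Ip)` -/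
theorem s5_res_pow (p : ℕ) (hp : Even p) (hp2 : 2 ≤ p) (z : α → α → ℝ) (pr : α × α) (a b : α) (r ρ εs : ℝ)
    (hρ : 0 ≤ ρ) (hε : 0 ≤ εs) (hr : |r| ≤ ρ + εs * s5In z pr a b) :
    r ^ p ≤ 8 ^ (p - 1) * (ρ ^ p + εs ^ p * s5Ip p z pr a b) := by
  have hp1 : 1 ≤ p := by omega
  have hr' : r ^ p ≤ (ρ + εs * s5In z pr a b) ^ p := by
    rw [← hp.pow_abs r]
    exact pow_le_pow_left₀ (abs_nonneg _) hr p
  have hj := s5_jensen (Finset.univ : Finset (Fin 8)) p hp hp1 (fun _ => (1 / 8 : ℝ))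
    ![ρ, εs * |z pr.1 b|, εs * |z pr.2 b|, εs * |z a pr.1|, εs * |z a pr.2|, εs * |z pr.1 pr.1|,
      εs * |z pr.2 pr.2|, εs * |z pr.1 pr.2|] (fun _ _ => by norm_num) (by simp)
  simp only [Fin.sum_univ_eight, Matrix.cons_val] at hj
  have e1 : ρ + εs * s5In z pr a b = ρ + εs * |z pr.1 b| + εs * |z pr.2 b| + εs * |z a pr.1|
      + εs * |z a pr.2| + εs * |z pr.1 pr.1| + εs * |z pr.2 pr.2| + εs * |z pr.1 pr.2| := by
    unfold s5In; ring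
  rw [e1] at hr'
  refine hr'.trans (hj.trans (le_of_eq ?_))
  simp only [mul_pow, hp.pow_abs, one_div, inv_pow, div_inv_eq_mul]
  unfold s5Ip
  ring

/-- the eight coefficients of `s5Lin` -/
def s5pC {α : Type} (σ h : ℝ) (P : α → α → ℝ) (pr : α × α) (a b : α) : Fin 8 → ℝ :=
  ![σ * h * P a pr.1, σ * h * P a pr.2, σ * h * P b pr.1, σ * h * P b pr.2,
    h ^ 2 * (P a pr.1 * P b pr.1), h ^ 2 * (P a pr.2 * P b pr.2), h ^ 2 * (P a pr.1 * P b pr.2),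
    h ^ 2 * (P a pr.2 * P b pr.1)]

/-- the eight inputs of `s5Lin` -/
def s5pX {α : Type} (z : α → α → ℝ) (pr : α × α) (a b : α) : Fin 8 → ℝ :=
  ![z pr.2 b, z pr.1 b, z a pr.2, z a pr.1, z pr.2 pr.2, z pr.1 pr.1, z pr.2 pr.1, z pr.1 pr.2]

theorem s5p_forall8 {Q : Fin 8 → Prop} (h0 : Q 0) (h1 : Q 1) (h2 : Q 2) (h3 : Q 3) (h4 : Q 4) (h5 : Q 5)
    (h6 : Q 6) (h7 : Q 7) : ∀ i, Q i := by
  intro i; fin_cases i <;> assumption

omit [DecidableEq α] in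
theorem s5p_lin_eq (σ h : ℝ) (P z : α → α → ℝ) (pr : α × α) (a b : α) :
    s5Lin σ h P z pr a b = ∑ i, s5pC σ h P pr a b i * s5pX z pr a b i := by
  simp only [s5pC, s5pX, Fin.sum_univ_eight, Matrix.cons_val]
  unfold s5Lin; ring

omit [DecidableEq α] in
theorem s5p_Q2_eq (p : ℕ) {σ : ℝ} (hσ : σ ^ 2 = 1) (h : ℝ) (P z : α → α → ℝ) (pr : α × α) (a b : α) :
    s5Q2 p h P z pr a b = ∑ i, s5pC σ h P pr a b i ^ 2 * s5pX z pr a b i ^ p := by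
  simp only [s5pC, s5pX, Fin.sum_univ_eight, Matrix.cons_val]
  have h1 : ∀ t : ℝ, (σ * h * t) ^ 2 = h ^ 2 * t ^ 2 := by
    intro t; rw [mul_pow, mul_pow, hσ, one_mul]
  simp only [h1]
  unfold s5Q2; ring

omit [DecidableEq α] in
theorem s5p_C_le {σ h : ℝ} (hσ : σ ^ 2 = 1) (hh : 0 < h) (P : α → α → ℝ) (pr : α × α) (a b : α)
    (e1 e2 e3 e4 : ℝ) (h1 : h * |P a pr.1| ≤ e1) (h2 : h * |P a pr.2| ≤ e2) (h3 : h * |P b pr.1| ≤ e3)
    (h4 : h * |P b pr.2| ≤ e4) :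
    ∀ i, |s5pC σ h P pr a b i| ≤ ![e1, e2, e3, e4, e1 * e3, e2 * e4, e1 * e4, e2 * e3] i := by
  have hσ1 : |σ| = 1 := by
    have : |σ| ^ 2 = 1 := by rw [sq_abs, hσ]
    exact (pow_eq_one_iff_of_nonneg (abs_nonneg σ) two_ne_zero).1 this
  have hlin : ∀ t : ℝ, |σ * h * t| = h * |t| := by
    intro t; rw [abs_mul, abs_mul, hσ1, one_mul, abs_of_pos hh]
  have hquad : ∀ s t : ℝ, |h ^ 2 * (s * t)| = (h * |s|) * (h * |t|) := by
    intro s t; rw [abs_mul, abs_mul, abs_of_pos (by positivity)]; ring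
  have hn : ∀ t : ℝ, 0 ≤ h * |t| := fun t => mul_nonneg hh.le (abs_nonneg _)
  have hm : ∀ s t e e' : ℝ, h * |s| ≤ e → h * |t| ≤ e' → (h * |s|) * (h * |t|) ≤ e * e' :=
    fun s t e e' hs ht => mul_le_mul hs ht (hn _) ((hn _).trans hs)
  refine s5p_forall8 ?_ ?_ ?_ ?_ ?_ ?_ ?_ ?_ <;> simp only [s5pC, Matrix.cons_val, hlin, hquad]
  · exact h1
  · exact h2
  · exact h3
  · exact h4
  · exact hm _ _ _ _ h1 h3
  · exact hm _ _ _ _ h2 h4
  · exact hm _ _ _ _ h1 h4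
  · exact hm _ _ _ _ h2 h3

theorem s5p_jensen_opt {ι : Type} [Fintype ι] (p : ℕ) (hp : Even p) (hp1 : 1 ≤ p) (t lam : ι → ℝ)
    (r lr : ℝ) (hlam : ∀ i, 0 < lam i) (hlr : 0 < lr) (hsum : ∑ i, lam i + lr ≤ 1) :
    (∑ i, t i + r) ^ p ≤ ∑ i, t i ^ p / lam i ^ (p - 1) + r ^ p / lr ^ (p - 1) := by
  have h := s5_jensen (Finset.univ : Finset (Option ι)) p hp hp1 (fun o => o.elim lr lam)
    (fun o => o.elim r t) (by intro o _; cases o <;> simp [hlr, hlam])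
    (by rw [Fintype.sum_option]; simp only [Option.elim]; linarith)
  rw [Fintype.sum_option, Fintype.sum_option] at h
  simp only [Option.elim] at h
  rw [add_comm (∑ i, t i) r, add_comm (∑ i, t i ^ p / lam i ^ (p - 1))]
  exact h

theorem s5p_crude {ι : Type} [Fintype ι] (p : ℕ) (hp : Even p) (hp1 : 1 ≤ p) (c x lam e : ι → ℝ)
    (r lr : ℝ) (hlam : ∀ i, 0 < lam i) (hlr : 0 < lr) (hsum : ∑ i, lam i + lr ≤ 1)
    (hc : ∀ i, |c i| ≤ e i) :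
    (∑ i, c i * x i + r) ^ p ≤ ∑ i, e i ^ p * x i ^ p / lam i ^ (p - 1) + r ^ p / lr ^ (p - 1) := by
  refine (s5p_jensen_opt p hp hp1 (fun i => c i * x i) lam r lr hlam hlr hsum).trans ?_
  refine add_le_add_left (Finset.sum_le_sum fun i _ => ?_) _
  refine div_le_div_of_nonneg_right ?_ (pow_pos (hlam i) _).le
  rw [mul_pow]
  refine mul_le_mul_of_nonneg_right ?_ (hp.pow_nonneg _)
  rw [← hp.pow_abs (c i)]
  exact pow_le_pow_left₀ (abs_nonneg _) (hc i) p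

theorem s5p_good {ι : Type} [Fintype ι] (p : ℕ) (hp : Even p) (hp2 : 2 ≤ p) (c x lam : ι → ℝ) (r : ℝ)
    (hlam : ∀ i, 1 / 60 ≤ lam i) (hsum : ∑ i, lam i ≤ 59 / 60) (hc : ∀ i, |c i| ≤ lam i) :
    (∑ i, c i * x i + r) ^ p ≤ 60 * ∑ i, c i ^ 2 * x i ^ p + 60 ^ (p - 1) * r ^ p := by
  have hlam0 : ∀ i, 0 < lam i := fun i => lt_of_lt_of_le (by norm_num) (hlam i)
  refine (s5p_jensen_opt p hp (by omega) (fun i => c i * x i) lam r (1 / 60) hlam0 (by norm_num)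
    (by linarith)).trans ?_
  refine add_le_add ?_ (le_of_eq ?_)
  · rw [Finset.mul_sum]
    refine Finset.sum_le_sum fun i _ => ?_
    refine (s5_coef_le p hp hp2 (lam i) (c i) (x i) (hlam0 i) (hc i)).trans ?_
    have h1 : c i ^ 2 / lam i ≤ 60 * c i ^ 2 := by
      rw [div_le_iff₀ (hlam0 i)]
      have := hlam i
      nlinarith [sq_nonneg (c i)]
    calc c i ^ 2 / lam i * x i ^ p ≤ (60 * c i ^ 2) * x i ^ p :=
          mul_le_mul_of_nonneg_right h1 (hp.pow_nonneg _)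
      _ = 60 * (c i ^ 2 * x i ^ p) := by ring
  · rw [one_div, inv_pow, div_inv_eq_mul, mul_comm]

omit [DecidableEq α] in
/-- at most one large coefficient -/
theorem s5p_lin_good (p : ℕ) (hp : Even p) (hp2 : 2 ≤ p) {σ h : ℝ} (hσ : σ ^ 2 = 1) (hh : 0 < h)
    (P z : α → α → ℝ) (pr : α × α) (a b : α) (r : ℝ)
    (e1 e2 e3 e4 : ℝ) (h1 : h * |P a pr.1| ≤ e1) (h2 : h * |P a pr.2| ≤ e2) (h3 : h * |P b pr.1| ≤ e3)
    (h4 : h * |P b pr.2| ≤ e4) (g1 : 1 / 60 ≤ e1) (g2 : 1 / 60 ≤ e2) (g3 : 1 / 60 ≤ e3) (g4 : 1 / 60 ≤ e4)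
    (k1 : e1 * e3 ≤ 1 / 60) (k2 : e2 * e4 ≤ 1 / 60) (k3 : e1 * e4 ≤ 1 / 60) (k4 : e2 * e3 ≤ 1 / 60)
    (hsum : e1 + e2 + e3 + e4 ≤ 55 / 60) :
    (s5Lin σ h P z pr a b + r) ^ p ≤ 60 * s5Q2 p h P z pr a b + 60 ^ (p - 1) * r ^ p := by
  rw [s5p_lin_eq, s5p_Q2_eq p hσ]
  refine s5p_good p hp hp2 _ _ ![e1, e2, e3, e4, 1 / 60, 1 / 60, 1 / 60, 1 / 60] r ?_ ?_ ?_
  · refine s5p_forall8 ?_ ?_ ?_ ?_ ?_ ?_ ?_ ?_ <;> simp only [Matrix.cons_val] <;>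
      first | assumption | exact le_rfl
  · simp only [Fin.sum_univ_eight, Matrix.cons_val]
    linarith
  · intro i
    refine (s5p_C_le hσ hh P pr a b e1 e2 e3 e4 h1 h2 h3 h4 i).trans ?_
    revert i
    refine s5p_forall8 ?_ ?_ ?_ ?_ ?_ ?_ ?_ ?_ <;> simp only [Matrix.cons_val] <;>
      first | assumption | exact le_rfl

omit [DecidableEq α] in
theorem s5p_Ip_nonneg (p : ℕ) (hp : Even p) (z : α → α → ℝ) (pr : α × α) (a b : α) :
    0 ≤ s5Ip p z pr a b := by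
  unfold s5Ip
  have := fun t : ℝ => hp.pow_nonneg t
  linarith [this (z pr.1 b), this (z pr.2 b), this (z a pr.1), this (z a pr.2), this (z pr.1 pr.1),
    this (z pr.2 pr.2), this (z pr.1 pr.2)]

/-- the residual and the small terms -/
theorem s5p_resK (p : ℕ) (hp : Even p) (hp2 : 2 ≤ p) (z : α → α → ℝ) (pr : α × α) (a b : α) (r ρ εs : ℝ)
    (hρ : 0 ≤ ρ) (hε : 0 ≤ εs) (hr : |r| ≤ ρ + εs * s5In z pr a b) (K : ℝ) (hK0 : 0 ≤ K) (hK : K ≤ 60)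
    (Y : ℝ) (hY : Y ≤ 2 * s5Ip p z pr a b) :
    K ^ (p - 1) * r ^ p + K ^ (p - 1) * (εs ^ p * Y) ≤ 480 ^ p * (ρ ^ p + εs ^ p * s5Ip p z pr a b) := by
  have hI := s5p_Ip_nonneg p hp z pr a b
  have h1 := s5_res_pow p hp hp2 z pr a b r ρ εs hρ hε hr
  obtain ⟨q, rfl⟩ : ∃ q, p = q + 1 := ⟨p - 1, by omega⟩
  simp only [Nat.add_sub_cancel] at h1 ⊢
  set W : ℝ := ρ ^ (q + 1) + εs ^ (q + 1) * s5Ip (q + 1) z pr a b with hW
  have hεI : 0 ≤ εs ^ (q + 1) * s5Ip (q + 1) z pr a b := by positivity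
  have hW0 : 0 ≤ W := by positivity
  have hεW : εs ^ (q + 1) * s5Ip (q + 1) z pr a b ≤ W := by
    have : 0 ≤ ρ ^ (q + 1) := by positivity
    linarith
  have hKq : K ^ q ≤ 60 ^ q := pow_le_pow_left₀ hK0 hK q
  have hKq0 : 0 ≤ K ^ q := by positivity
  have h60 : (60 : ℝ) ^ q ≤ 480 ^ q := pow_le_pow_left₀ (by norm_num) (by norm_num) q
  have h2 : K ^ q * r ^ (q + 1) ≤ 480 ^ q * W := by
    calc K ^ q * r ^ (q + 1) ≤ K ^ q * (8 ^ q * W) := mul_le_mul_of_nonneg_left h1 hKq0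
      _ ≤ 60 ^ q * (8 ^ q * W) := mul_le_mul_of_nonneg_right hKq (by positivity)
      _ = 480 ^ q * W := by rw [← mul_assoc, ← mul_pow]; norm_num
  have h3 : K ^ q * (εs ^ (q + 1) * Y) ≤ 480 ^ q * (2 * W) := by
    calc K ^ q * (εs ^ (q + 1) * Y) ≤ K ^ q * (εs ^ (q + 1) * (2 * s5Ip (q + 1) z pr a b)) :=
          mul_le_mul_of_nonneg_left (mul_le_mul_of_nonneg_left hY (by positivity)) hKq0
      _ = K ^ q * (2 * (εs ^ (q + 1) * s5Ip (q + 1) z pr a b)) := by ring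
      _ ≤ K ^ q * (2 * W) := mul_le_mul_of_nonneg_left (by linarith) hKq0
      _ ≤ 480 ^ q * (2 * W) := mul_le_mul_of_nonneg_right (hKq.trans h60) (by positivity)
  have h4 : (0 : ℝ) ≤ 480 ^ q * W := by positivity
  have e : (480 : ℝ) ^ (q + 1) = 480 ^ q * 480 := pow_succ _ _
  rw [e]
  nlinarith

omit [DecidableEq α] in
theorem s5p_sumX_le (p : ℕ) (hp : Even p) (z : α → α → ℝ) (hz : ∀ a b, z a b = z b a) (pr : α × α)
    (a b : α) : ∑ i, s5pX z pr a b i ^ p ≤ 2 * s5Ip p z pr a b := by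
  simp only [s5pX, Fin.sum_univ_eight, Matrix.cons_val]
  unfold s5Ip
  rw [hz pr.2 pr.1]
  have := fun t : ℝ => hp.pow_nonneg t
  linarith [this (z pr.1 b), this (z pr.2 b), this (z a pr.1), this (z a pr.2), this (z pr.1 pr.1),
    this (z pr.2 pr.2), this (z pr.1 pr.2)]

theorem s5p_bd (H : S5HiHyp dd C0 CR R Ccol μ V ρ εs σ h M Vd Dg P nxt) {a x : α} (ha : a ∈ M.Al)
    (hx : x ∈ M.S) : h * |P a x| ≤ (if M.nr R a x = true then 3 / 4 else 1 / 60) := by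
  split_ifs with hn
  · exact H.Psup1 a ha x hx
  · exact H.far a ha x hx (by simpa using hn)

theorem s5p_bool (b1 b2 b3 b4 : Bool) (h12 : b1 = true → b2 = false) (h34 : b3 = true → b4 = false)
    (hbad : ((b1 && b3) || (b1 && b4) || (b2 && b3) || (b2 && b4)) = false)
    (e : Bool → ℝ) (he : e = fun b => if b = true then 3 / 4 else 1 / 60) :
    1 / 60 ≤ e b1 ∧ 1 / 60 ≤ e b2 ∧ 1 / 60 ≤ e b3 ∧ 1 / 60 ≤ e b4 ∧ e b1 * e b3 ≤ 1 / 60 ∧
      e b2 * e b4 ≤ 1 / 60 ∧ e b1 * e b4 ≤ 1 / 60 ∧ e b2 * e b3 ≤ 1 / 60 ∧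
      e b1 + e b2 + e b3 + e b4 ≤ 55 / 60 := by
  subst he
  cases b1 <;> cases b2 <;> cases b3 <;> cases b4 <;> simp at h12 h34 hbad ⊢ <;> norm_num

/-- PAIR OUTPUT, any configuration -/
theorem s5_pow_pair (H : S5HiHyp dd C0 CR R Ccol μ V ρ εs σ h M Vd Dg P nxt) (p : ℕ) (hp : Even p) (hp4 : 4 ≤ p)
    {pr : α × α} (hpr : pr ∈ Vd) {a b : α} (ha : a ∈ M.Al) (hb : b ∈ M.Al) (r : ℝ)
    (hr : |r| ≤ ρ + εs * s5In M.z pr a b) :
    (s5Lin σ h P M.z pr a b + r) ^ p ≤ 60 * s5Q2 p h P M.z pr a b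
      + (if s5Bad (M.nr R) pr a b then 9 ^ p * s5Ip p M.z pr a b else 0)
      + 480 ^ p * (ρ ^ p + εs ^ p * s5Ip p M.z pr a b) := by
  have hu := (Finset.mem_offDiag.1 (H.valid.sub hpr)).1
  have hv := (Finset.mem_offDiag.1 (H.valid.sub hpr)).2.1
  have hI := s5p_Ip_nonneg p hp M.z pr a b
  have hres := fun K hK0 hK => s5p_resK p hp (by omega) M.z pr a b r ρ εs H.hρ H.hεs hr K hK0 hK 0
    (by linarith)
  simp only [mul_zero, add_zero] at hres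
  by_cases hbad : s5Bad (M.nr R) pr a b = true
  · rw [if_pos hbad]
    have hQ : 0 ≤ s5Q2 p h P M.z pr a b := by
      rw [s5p_Q2_eq p H.hσ]
      exact Finset.sum_nonneg fun i _ => mul_nonneg (sq_nonneg _) (hp.pow_nonneg _)
    have hc : ∀ i, |s5pC σ h P pr a b i| ≤ (fun _ => (1 : ℝ)) i := by
      intro i
      refine (s5p_C_le H.hσ H.hh P pr a b (3 / 4) (3 / 4) (3 / 4) (3 / 4) (H.Psup1 a ha _ hu)
        (H.Psup1 a ha _ hv) (H.Psup1 b hb _ hu) (H.Psup1 b hb _ hv) i).trans ?_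
      revert i
      refine s5p_forall8 ?_ ?_ ?_ ?_ ?_ ?_ ?_ ?_ <;> simp only [Matrix.cons_val] <;> norm_num
    have h1 := s5p_crude p hp (by omega) (s5pC σ h P pr a b) (s5pX M.z pr a b) (fun _ => 1 / 9)
      (fun _ => 1) r (1 / 9) (fun _ => by norm_num) (by norm_num) (by simp; norm_num) hc
    rw [← s5p_lin_eq] at h1
    simp only [one_pow, one_mul, one_div, inv_pow, div_inv_eq_mul] at h1
    rw [← Finset.sum_mul] at h1
    have h2 := s5p_sumX_le p hp M.z H.zsymm pr a b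
    have h3 := hres 9 (by norm_num) (by norm_num)
    have h4 : (∑ i, s5pX M.z pr a b i ^ p) * 9 ^ (p - 1) ≤ 9 ^ p * s5Ip p M.z pr a b := by
      obtain ⟨q, rfl⟩ : ∃ q, p = q + 1 := ⟨p - 1, by omega⟩
      simp only [Nat.add_sub_cancel]
      have h9 : (0 : ℝ) < 9 ^ q := by positivity
      calc (∑ i, s5pX M.z pr a b i ^ (q + 1)) * 9 ^ q ≤ (2 * s5Ip (q + 1) M.z pr a b) * 9 ^ q :=
            mul_le_mul_of_nonneg_right h2 h9.le
        _ ≤ 9 ^ (q + 1) * s5Ip (q + 1) M.z pr a b := by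
            rw [pow_succ]; nlinarith [mul_nonneg h9.le hI]
    linarith
  · rw [if_neg hbad]
    have hbad' : s5Bad (M.nr R) pr a b = false := by simpa using hbad
    obtain ⟨g1, g2, g3, g4, k1, k2, k3, k4, hs⟩ := s5p_bool (M.nr R a pr.1) (M.nr R a pr.2)
      (M.nr R b pr.1) (M.nr R b pr.2) (H.excl pr hpr a ha) (H.excl pr hpr b hb) hbad' _ rfl
    have h1 := s5p_lin_good p hp (by omega) H.hσ H.hh P M.z pr a b r _ _ _ _ (s5p_bd H ha hu)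
      (s5p_bd H ha hv) (s5p_bd H hb hu) (s5p_bd H hb hv) g1 g2 g3 g4 k1 k2 k3 k4 hs
    have h3 := hres 60 (by norm_num) le_rfl
    linarith

/-- NEAR OUTPUT, no hit -/
theorem s5_pow_nohit (H : S5HiHyp dd C0 CR R Ccol μ V ρ εs σ h M Vd Dg P nxt) (p : ℕ) (hp : Even p) (hp4 : 4 ≤ p)
    {pr : α × α} (hpr : pr ∈ Vd) {a x : α} (ha : a ∈ M.Al) (hx : x ∈ M.S)
    (h1 : M.nr R a pr.1 = false) (h2 : M.nr R x pr.1 = false) (h3 : M.nr R a pr.2 = false)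
    (h4 : M.nr R x pr.2 = false) (r : ℝ) (hr : |r| ≤ ρ + εs * s5In M.z pr a x) :
    (s5Lin σ h P M.z pr a x + r) ^ p ≤ 60 * s5Q2 p h P M.z pr a x
      + 480 ^ p * (ρ ^ p + εs ^ p * s5Ip p M.z pr a x) := by
  have hu := (Finset.mem_offDiag.1 (H.valid.sub hpr)).1
  have hv := (Finset.mem_offDiag.1 (H.valid.sub hpr)).2.1
  have hxA : x ∈ M.Al := Finset.mem_union_right _ hx
  have hI := s5p_Ip_nonneg p hp M.z pr a x
  have g := s5p_lin_good p hp (by omega) H.hσ H.hh P M.z pr a x r (1 / 60) (1 / 60) (1 / 60) (1 / 60)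
    (H.far a ha _ hu h1) (H.far a ha _ hv h3) (H.far x hxA _ hu h2) (H.far x hxA _ hv h4)
    le_rfl le_rfl le_rfl le_rfl (by norm_num) (by norm_num) (by norm_num) (by norm_num) (by norm_num)
  have g2 := s5p_resK p hp (by omega) M.z pr a x r ρ εs H.hρ H.hεs hr 60 (by norm_num) le_rfl 0
    (by linarith)
  simp only [mul_zero, add_zero] at g2
  linarith

theorem s5p_self (p : ℕ) (hp1 : 1 ≤ p) (lam X : ℝ) (hlam : 0 < lam) (hlam1 : lam ≤ 1) (hX : 0 ≤ X) :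
    lam ^ p * X / lam ^ (p - 1) ≤ X := by
  obtain ⟨q, rfl⟩ : ∃ q, p = q + 1 := ⟨p - 1, by omega⟩
  simp only [Nat.add_sub_cancel]
  rw [div_le_iff₀ (by positivity), pow_succ]
  have : 0 ≤ lam ^ q * X := by positivity
  nlinarith

/-- `h |P| ≤ εs` from `|P| ≤ εs` -/
theorem s5p_small (H : S5HiHyp dd C0 CR R Ccol μ V ρ εs σ h M Vd Dg P nxt) {t : ℝ} (ht : |t| ≤ εs) :
    h * |t| ≤ εs := by
  have := H.hh1
  have := H.hh
  nlinarith [abs_nonneg t]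

/-- NEAR OUTPUT `(a, x)`, `nr R a x`: hit by `u` -/
theorem s5_pow_hit (H : S5HiHyp dd C0 CR R Ccol μ V ρ εs σ h M Vd Dg P nxt) (p : ℕ) (hp : Even p) (hp4 : 4 ≤ p)
    {pr : α × α} (hpr : pr ∈ Vd) {a x : α} (ha : a ∈ M.Al) (hx : x ∈ M.S) (hax : M.nr R a x = true)
    (hit : M.nr R a pr.1 = true ∨ M.nr R x pr.1 = true) (r : ℝ) (hr : |r| ≤ ρ + εs * s5In M.z pr a x) :
    (s5Lin σ h P M.z pr a x + r) ^ p ≤ M.z pr.2 pr.2 ^ p + 10 ^ p * (M.z pr.2 x ^ p + M.z a pr.2 ^ p)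
      + 480 ^ p * (ρ ^ p + εs ^ p * s5Ip p M.z pr a x) := by
  have hu := (Finset.mem_offDiag.1 (H.valid.sub hpr)).1
  have hv := (Finset.mem_offDiag.1 (H.valid.sub hpr)).2.1
  have hxA : x ∈ M.Al := Finset.mem_union_right _ hx
  have hε0 := H.hεs
  have hε1 := H.hεs1
  -- both `a` and `x` are within `2 R` of `u`
  have hnear : M.nr (2 * R) a pr.1 = true ∧ M.nr (2 * R) x pr.1 = true := by
    rw [two_mul]
    rcases hit with h1 | h1
    · exact ⟨H.mono _ _ _ _ (Nat.le_add_right R R) h1, H.tri2 R R a ha x hx _ hu hax h1⟩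
    · exact ⟨H.tri1 R R a ha x hx _ hu hax h1, H.mono _ _ _ _ (Nat.le_add_right R R) h1⟩
  have hPav := s5p_small H (H.opp pr hpr a ha hnear.1)
  have hPxv := s5p_small H (H.opp pr hpr x hxA hnear.2)
  have hc : ∀ i, |s5pC σ h P pr a x i| ≤ ![1, εs, 1, εs, 9 / 16, εs, εs, εs] i := by
    intro i
    refine (s5p_C_le H.hσ H.hh P pr a x (3 / 4) εs (3 / 4) εs (H.Psup1 a ha _ hu) hPav
      (H.Psup1 x hxA _ hu) hPxv i).trans ?_
    revert i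
    refine s5p_forall8 ?_ ?_ ?_ ?_ ?_ ?_ ?_ ?_ <;> simp only [Matrix.cons_val] <;>
      nlinarith
  have h1 := s5p_crude p hp (by omega) (s5pC σ h P pr a x) (s5pX M.z pr a x)
    ![1 / 10, 1 / 30, 1 / 10, 1 / 30, 9 / 16, 1 / 30, 1 / 30, 1 / 30] _ r (1 / 30)
    (by refine s5p_forall8 ?_ ?_ ?_ ?_ ?_ ?_ ?_ ?_ <;> simp only [Matrix.cons_val] <;> norm_num)
    (by norm_num) (by simp only [Fin.sum_univ_eight, Matrix.cons_val]; norm_num) hc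
  rw [← s5p_lin_eq] at h1
  simp only [Fin.sum_univ_eight, Matrix.cons_val, s5pX] at h1
  have hpw := fun t : ℝ => hp.pow_nonneg t
  have h5 := s5p_self p (by omega) (9 / 16) (M.z pr.2 pr.2 ^ p) (by norm_num) (by norm_num) (hpw _)
  simp only [one_pow, one_mul, one_div, inv_pow, div_inv_eq_mul] at h1
  rw [H.zsymm pr.2 pr.1] at h1
  have hY : M.z pr.1 x ^ p + M.z a pr.1 ^ p + M.z pr.1 pr.1 ^ p + M.z pr.1 pr.2 ^ p + M.z pr.1 pr.2 ^ p
      ≤ 2 * s5Ip p M.z pr a x := by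
    unfold s5Ip
    linarith [hpw (M.z pr.1 x), hpw (M.z pr.2 x), hpw (M.z a pr.1), hpw (M.z a pr.2),
      hpw (M.z pr.1 pr.1), hpw (M.z pr.2 pr.2), hpw (M.z pr.1 pr.2)]
  have h3 := s5p_resK p hp (by omega) M.z pr a x r ρ εs H.hρ H.hεs hr 30 (by norm_num) (by norm_num) _ hY
  have h10 : (10 : ℝ) ^ (p - 1) ≤ 10 ^ p := pow_le_pow_right₀ (by norm_num) (by omega)
  have h4 : (M.z pr.2 x ^ p + M.z a pr.2 ^ p) * 10 ^ (p - 1) ≤ 10 ^ p * (M.z pr.2 x ^ p + M.z a pr.2 ^ p) := by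
    rw [mul_comm]
    exact mul_le_mul_of_nonneg_right h10 (add_nonneg (hpw _) (hpw _))
  linarith

/-- NEW NEAR OUTPUT, orientation `a ~ u`, `x ~ v` -/
theorem s5_pow_new (H : S5HiHyp dd C0 CR R Ccol μ V ρ εs σ h M Vd Dg P nxt) (p : ℕ) (hp : Even p) (hp4 : 4 ≤ p)
    {pr : α × α} (hpr : pr ∈ Vd) {a x : α} (ha : a ∈ M.Al) (hx : x ∈ M.S)
    (hau : M.nr R a pr.1 = true) (hxv : M.nr R x pr.2 = true) (r : ℝ) (hr : |r| ≤ ρ + εs * s5In M.z pr a x) :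
    (M.z a x + s5Lin σ h P M.z pr a x + r) ^ p ≤
      10 ^ p * (M.z a x ^ p + M.z pr.2 x ^ p + M.z a pr.1 ^ p + M.z pr.1 pr.2 ^ p)
      + 480 ^ p * (ρ ^ p + εs ^ p * s5Ip p M.z pr a x) := by
  have hu := (Finset.mem_offDiag.1 (H.valid.sub hpr)).1
  have hv := (Finset.mem_offDiag.1 (H.valid.sub hpr)).2.1
  have hxA : x ∈ M.Al := Finset.mem_union_right _ hx
  have hε0 := H.hεs
  have hε1 := H.hεs1
  have hR : R ≤ 2 * R := by omega
  have hpr' : (pr.2, pr.1) ∈ Vd := H.valid.symm pr.1 pr.2 (by simpa using hpr)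
  have hPav := s5p_small H (H.opp pr hpr a ha (H.mono _ _ _ _ hR hau))
  have hPxu := s5p_small H (H.opp (pr.2, pr.1) hpr' x hxA (H.mono _ _ _ _ hR hxv))
  simp only at hPxu
  have hc : ∀ i, |s5pC σ h P pr a x i| ≤ ![1, εs, εs, 1, εs, εs, 1, εs] i := by
    intro i
    refine (s5p_C_le H.hσ H.hh P pr a x (3 / 4) εs εs (3 / 4) (H.Psup1 a ha _ hu) hPav
      hPxu (H.Psup1 x hxA _ hv) i).trans ?_
    revert i
    refine s5p_forall8 ?_ ?_ ?_ ?_ ?_ ?_ ?_ ?_ <;> simp only [Matrix.cons_val] <;>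
      nlinarith
  have h1 := s5p_crude p hp (by omega) (s5pC σ h P pr a x) (s5pX M.z pr a x)
    (fun _ => 1 / 10) _ (M.z a x + r) (1 / 5) (fun _ => by norm_num)
    (by norm_num) (by simp; norm_num) hc
  rw [← s5p_lin_eq] at h1
  simp only [Fin.sum_univ_eight, Matrix.cons_val, s5pX] at h1
  have h2 := s5p_jensen_opt (ι := Unit) p hp (by omega) (fun _ => M.z a x) (fun _ => 1 / 2) r (1 / 2)
    (fun _ => by norm_num) (by norm_num) (by simp; norm_num)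
  simp only [Finset.univ_unique, Finset.sum_singleton] at h2
  have hpw := fun t : ℝ => hp.pow_nonneg t
  simp only [one_pow, one_mul, one_div, inv_pow, div_inv_eq_mul] at h1 h2
  rw [H.zsymm pr.2 pr.1] at h1
  have hY : M.z pr.1 x ^ p + M.z a pr.2 ^ p + M.z pr.2 pr.2 ^ p + M.z pr.1 pr.1 ^ p + M.z pr.1 pr.2 ^ p
      ≤ 2 * s5Ip p M.z pr a x := by
    unfold s5Ip
    linarith [hpw (M.z pr.1 x), hpw (M.z pr.2 x), hpw (M.z a pr.1), hpw (M.z a pr.2),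
      hpw (M.z pr.1 pr.1), hpw (M.z pr.2 pr.2), hpw (M.z pr.1 pr.2)]
  have h3 := s5p_resK p hp (by omega) M.z pr a x r ρ εs H.hρ H.hεs hr 10 (by norm_num) (by norm_num) _ hY
  have h10 : (10 : ℝ) ^ (p - 1) ≤ 10 ^ p := pow_le_pow_right₀ (by norm_num) (by omega)
  have h52 : (2 : ℝ) ^ (p - 1) * 5 ^ (p - 1) = 10 ^ (p - 1) := by rw [← mul_pow]; norm_num
  have h4 : (M.z a x ^ p + M.z pr.2 x ^ p + M.z a pr.1 ^ p + M.z pr.1 pr.2 ^ p) * 10 ^ (p - 1)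
      ≤ 10 ^ p * (M.z a x ^ p + M.z pr.2 x ^ p + M.z a pr.1 ^ p + M.z pr.1 pr.2 ^ p) := by
    rw [mul_comm]
    exact mul_le_mul_of_nonneg_right h10
      (add_nonneg (add_nonneg (add_nonneg (hpw _) (hpw _)) (hpw _)) (hpw _))
  have h6 : (M.z a x + r) ^ p * 5 ^ (p - 1) ≤ (M.z a x ^ p + r ^ p) * 10 ^ (p - 1) := by
    calc (M.z a x + r) ^ p * 5 ^ (p - 1)
        ≤ (M.z a x ^ p * 2 ^ (p - 1) + r ^ p * 2 ^ (p - 1)) * 5 ^ (p - 1) :=
          mul_le_mul_of_nonneg_right h2 (by positivity)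
      _ = (M.z a x ^ p + r ^ p) * (2 ^ (p - 1) * 5 ^ (p - 1)) := by ring
      _ = _ := by rw [h52]
  have e : M.z a x + s5Lin σ h P M.z pr a x + r = s5Lin σ h P M.z pr a x + (M.z a x + r) := by ring
  rw [e]
  linarith

end pointwise

/-! ## 4. kernel sums -/

/-! ### elimination of one variable in an iterated sum -/

section elim

variable {α : Type}

theorem s5hs_in {ι : Type} (T : Finset ι) (k : ι → ℝ) (C c : ℝ) (hk : ∑ i ∈ T, k i ≤ C) (hc : 0 ≤ c) :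
    ∑ i ∈ T, k i * c ≤ C * c := by
  rw [← Finset.sum_mul]
  exact mul_le_mul_of_nonneg_right hk hc

theorem s5hs_e2x (A B : Finset α) (t k : α → α → ℝ) (r : α → ℝ) (C : ℝ)
    (ht : ∀ a b, t a b = k a b * r b) (hk : ∀ b ∈ B, ∑ a ∈ A, k a b ≤ C) (hr : ∀ b, 0 ≤ r b) :
    ∑ a ∈ A, ∑ b ∈ B, t a b ≤ C * ∑ b ∈ B, r b := by
  rw [Finset.sum_comm, Finset.mul_sum]
  refine Finset.sum_le_sum fun b hb => ?_
  simp only [ht]
  exact s5hs_in A _ C _ (hk b hb) (hr b)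

theorem s5hs_e2y (A B : Finset α) (t k : α → α → ℝ) (r : α → ℝ) (C : ℝ)
    (ht : ∀ a b, t a b = k a b * r a) (hk : ∀ a ∈ A, ∑ b ∈ B, k a b ≤ C) (hr : ∀ a, 0 ≤ r a) :
    ∑ a ∈ A, ∑ b ∈ B, t a b ≤ C * ∑ a ∈ A, r a := by
  rw [Finset.mul_sum]
  refine Finset.sum_le_sum fun a ha => ?_
  simp only [ht]
  exact s5hs_in B _ C _ (hk a ha) (hr a)

theorem s5hs_e3x (A B U : Finset α) (t k : α → α → α → ℝ) (r : α → α → ℝ) (C : ℝ)
    (ht : ∀ a b u, t a b u = k a b u * r b u) (hk : ∀ b ∈ B, ∀ u ∈ U, ∑ a ∈ A, k a b u ≤ C)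
    (hr : ∀ b u, 0 ≤ r b u) :
    ∑ a ∈ A, ∑ b ∈ B, ∑ u ∈ U, t a b u ≤ C * ∑ b ∈ B, ∑ u ∈ U, r b u := by
  rw [Finset.sum_comm, Finset.mul_sum]
  refine Finset.sum_le_sum fun b hb => ?_
  exact s5hs_e2x A U (fun a u => t a b u) (fun a u => k a b u) (fun u => r b u) C (fun a u => ht a b u)
    (fun u hu => hk b hb u hu) (fun u => hr b u)

theorem s5hs_e3y (A B U : Finset α) (t k : α → α → α → ℝ) (r : α → α → ℝ) (C : ℝ)
    (ht : ∀ a b u, t a b u = k a b u * r a u) (hk : ∀ a ∈ A, ∀ u ∈ U, ∑ b ∈ B, k a b u ≤ C)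
    (hr : ∀ a u, 0 ≤ r a u) :
    ∑ a ∈ A, ∑ b ∈ B, ∑ u ∈ U, t a b u ≤ C * ∑ a ∈ A, ∑ u ∈ U, r a u := by
  rw [Finset.mul_sum]
  refine Finset.sum_le_sum fun a ha => ?_
  exact s5hs_e2x B U (fun b u => t a b u) (fun b u => k a b u) (fun u => r a u) C (fun b u => ht a b u)
    (fun u hu => hk a ha u hu) (fun u => hr a u)

theorem s5hs_e3z (A B U : Finset α) (t k : α → α → α → ℝ) (r : α → α → ℝ) (C : ℝ)
    (ht : ∀ a b u, t a b u = k a b u * r a b) (hk : ∀ a ∈ A, ∀ b ∈ B, ∑ u ∈ U, k a b u ≤ C)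
    (hr : ∀ a b, 0 ≤ r a b) :
    ∑ a ∈ A, ∑ b ∈ B, ∑ u ∈ U, t a b u ≤ C * ∑ a ∈ A, ∑ b ∈ B, r a b := by
  rw [Finset.mul_sum]
  refine Finset.sum_le_sum fun a ha => ?_
  exact s5hs_e2y B U (fun b u => t a b u) (fun b u => k a b u) (fun b => r a b) C (fun b u => ht a b u)
    (fun b hb => hk a ha b hb) (fun b => hr a b)

theorem s5hs_e4a (A B U V : Finset α) (t k : α → α → α → α → ℝ) (r : α → α → α → ℝ) (C : ℝ)
    (ht : ∀ a b u v, t a b u v = k a b u v * r b u v)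
    (hk : ∀ b ∈ B, ∀ u ∈ U, ∀ v ∈ V, ∑ a ∈ A, k a b u v ≤ C) (hr : ∀ b u v, 0 ≤ r b u v) :
    ∑ a ∈ A, ∑ b ∈ B, ∑ u ∈ U, ∑ v ∈ V, t a b u v ≤ C * ∑ b ∈ B, ∑ u ∈ U, ∑ v ∈ V, r b u v := by
  rw [Finset.sum_comm, Finset.mul_sum]
  refine Finset.sum_le_sum fun b hb => ?_
  exact s5hs_e3x A U V (fun a u v => t a b u v) (fun a u v => k a b u v) (fun u v => r b u v) C
    (fun a u v => ht a b u v) (fun u hu v hv => hk b hb u hu v hv) (fun u v => hr b u v)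

theorem s5hs_e4b (A B U V : Finset α) (t k : α → α → α → α → ℝ) (r : α → α → α → ℝ) (C : ℝ)
    (ht : ∀ a b u v, t a b u v = k a b u v * r a u v)
    (hk : ∀ a ∈ A, ∀ u ∈ U, ∀ v ∈ V, ∑ b ∈ B, k a b u v ≤ C) (hr : ∀ a u v, 0 ≤ r a u v) :
    ∑ a ∈ A, ∑ b ∈ B, ∑ u ∈ U, ∑ v ∈ V, t a b u v ≤ C * ∑ a ∈ A, ∑ u ∈ U, ∑ v ∈ V, r a u v := by
  rw [Finset.mul_sum]
  refine Finset.sum_le_sum fun a ha => ?_
  exact s5hs_e3x B U V (fun b u v => t a b u v) (fun b u v => k a b u v) (fun u v => r a u v) C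
    (fun b u v => ht a b u v) (fun u hu v hv => hk a ha u hu v hv) (fun u v => hr a u v)

theorem s5hs_e4u (A B U V : Finset α) (t k : α → α → α → α → ℝ) (r : α → α → α → ℝ) (C : ℝ)
    (ht : ∀ a b u v, t a b u v = k a b u v * r a b v)
    (hk : ∀ a ∈ A, ∀ b ∈ B, ∀ v ∈ V, ∑ u ∈ U, k a b u v ≤ C) (hr : ∀ a b v, 0 ≤ r a b v) :
    ∑ a ∈ A, ∑ b ∈ B, ∑ u ∈ U, ∑ v ∈ V, t a b u v ≤ C * ∑ a ∈ A, ∑ b ∈ B, ∑ v ∈ V, r a b v := by
  rw [Finset.mul_sum]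
  refine Finset.sum_le_sum fun a ha => ?_
  exact s5hs_e3y B U V (fun b u v => t a b u v) (fun b u v => k a b u v) (fun b v => r a b v) C
    (fun b u v => ht a b u v) (fun b hb v hv => hk a ha b hb v hv) (fun b v => hr a b v)

theorem s5hs_e4v (A B U V : Finset α) (t k : α → α → α → α → ℝ) (r : α → α → α → ℝ) (C : ℝ)
    (ht : ∀ a b u v, t a b u v = k a b u v * r a b u)
    (hk : ∀ a ∈ A, ∀ b ∈ B, ∀ u ∈ U, ∑ v ∈ V, k a b u v ≤ C) (hr : ∀ a b u, 0 ≤ r a b u) :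
    ∑ a ∈ A, ∑ b ∈ B, ∑ u ∈ U, ∑ v ∈ V, t a b u v ≤ C * ∑ a ∈ A, ∑ b ∈ B, ∑ u ∈ U, r a b u := by
  rw [Finset.mul_sum]
  refine Finset.sum_le_sum fun a ha => ?_
  exact s5hs_e3z B U V (fun b u v => t a b u v) (fun b u v => k a b u v) (fun b u => r a b u) C
    (fun b u v => ht a b u v) (fun b hb u hu => hk a ha b hb u hu) (fun b u => hr a b u)

/-- from the off-diagonal pairs to the full double sum -/
theorem s5hs_off [DecidableEq α] (A B S : Finset α) (L : α → α → ℝ) (w : α → α → ℝ) (g : α × α → α → α → ℝ)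
    (t : α → α → α → α → ℝ) (hL : ∀ a ∈ A, ∀ b ∈ B, L a b = w a b * ∑ pr ∈ S.offDiag, g pr a b)
    (ht : ∀ a ∈ A, ∀ b ∈ B, ∀ u ∈ S, ∀ v ∈ S, w a b * g (u, v) a b ≤ t a b u v)
    (ht0 : ∀ a b u v, 0 ≤ t a b u v) :
    ∑ a ∈ A, ∑ b ∈ B, L a b ≤ ∑ a ∈ A, ∑ b ∈ B, ∑ u ∈ S, ∑ v ∈ S, t a b u v := by
  refine Finset.sum_le_sum fun a ha => Finset.sum_le_sum fun b hb => ?_
  rw [hL a ha b hb, Finset.mul_sum, ← Finset.sum_product' S S (fun u v => t a b u v)]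
  calc ∑ pr ∈ S.offDiag, w a b * g pr a b ≤ ∑ pr ∈ S.offDiag, t a b pr.1 pr.2 := by
        refine Finset.sum_le_sum fun pr hpr => ?_
        obtain ⟨h1, h2, -⟩ := Finset.mem_offDiag.1 hpr
        exact ht a ha b hb pr.1 h1 pr.2 h2
    _ ≤ ∑ pr ∈ S ×ˢ S, t a b pr.1 pr.2 := by
        refine Finset.sum_le_sum_of_subset_of_nonneg ?_ fun pr _ _ => ht0 _ _ _ _
        intro pr hpr
        obtain ⟨h1, h2, -⟩ := Finset.mem_offDiag.1 hpr
        exact Finset.mem_product.2 ⟨h1, h2⟩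

end elim


/-! ### the abstract setting of the kernel sums -/

/-- labels `Al ⊇ S` stubs, weights `m`, near indicator `I`, inputs `Zp = z^p`. -/
structure S5hsCtx {α : Type} (Al S : Finset α) (m : α → ℝ) (I Zp : α → α → ℝ) (l dd CR F N0 NR : ℝ) :
    Prop where
  sub : S ⊆ Al
  m0 : ∀ a, 0 ≤ m a
  I0 : ∀ a u, 0 ≤ I a u
  Z0 : ∀ a b, 0 ≤ Zp a b
  l0 : 0 < l
  dd0 : 0 ≤ dd
  CR0 : 0 ≤ CR
  cnt : ∑ _u ∈ S, (1 : ℝ) = l
  msum : ∑ a ∈ Al, m a = 2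
  row : ∀ a ∈ Al, ∑ u ∈ S, I a u ≤ CR
  col : ∀ u ∈ S, ∑ a ∈ Al, m a * I a u ≤ dd * CR / l
  colS : ∀ v ∈ S, ∑ x ∈ S, I x v ≤ CR
  B1 : ∑ b ∈ Al, ∑ v ∈ S, m b * Zp b v ≤ l * F
  B2 : ∑ u ∈ S, ∑ v ∈ S, Zp u v ≤ l ^ 2 * F
  B3 : ∑ v ∈ S, Zp v v ≤ l * N0
  BN : ∑ a ∈ Al, ∑ x ∈ S, m a * (I a x * Zp a x) ≤ NR
  BNS : ∑ x ∈ S, ∑ v ∈ S, I x v * Zp x v ≤ l * NR

namespace S5hsCtx

variable {α : Type} {Al S : Finset α} {m : α → ℝ} {I Zp : α → α → ℝ} {l dd CR F N0 NR : ℝ}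

theorem c0 (X : S5hsCtx Al S m I Zp l dd CR F N0 NR) : 0 ≤ dd * CR / l :=
  div_nonneg (mul_nonneg X.dd0 X.CR0) X.l0.le

/-- stub-only inputs -/
theorem X3sum (X : S5hsCtx Al S m I Zp l dd CR F N0 NR) :
    ∑ u ∈ S, ∑ v ∈ S, (Zp u u + Zp v v + Zp u v) ≤ l ^ 2 * (2 * N0 + F) := by
  simp only [Finset.sum_add_distrib]
  have h1 : ∑ u ∈ S, ∑ _v ∈ S, Zp u u ≤ l * ∑ u ∈ S, Zp u u :=
    s5hs_e2y S S _ (fun _ _ => 1) _ l (fun _ _ => by ring) (fun _ _ => X.cnt.le) (fun u => X.Z0 u u)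
  have h2 : ∑ _u ∈ S, ∑ v ∈ S, Zp v v ≤ l * ∑ v ∈ S, Zp v v :=
    s5hs_e2x S S _ (fun _ _ => 1) _ l (fun _ _ => by ring) (fun _ _ => X.cnt.le) (fun u => X.Z0 u u)
  have h3 := mul_le_mul_of_nonneg_left X.B3 X.l0.le
  have h4 := X.B2
  nlinarith

theorem L3one (X : S5hsCtx Al S m I Zp l dd CR F N0 NR) :
    ∑ c ∈ Al, ∑ u ∈ S, ∑ v ∈ S, m c * (Zp c u + Zp c v) ≤ 2 * l ^ 2 * F := by
  simp only [mul_add, Finset.sum_add_distrib]
  have h1 : ∑ c ∈ Al, ∑ u ∈ S, ∑ _v ∈ S, m c * Zp c u ≤ l * ∑ c ∈ Al, ∑ u ∈ S, m c * Zp c u :=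
    s5hs_e3z Al S S _ (fun _ _ _ => 1) _ l (fun _ _ _ => by ring) (fun _ _ _ _ => X.cnt.le)
      (fun c u => mul_nonneg (X.m0 c) (X.Z0 c u))
  have h2 : ∑ c ∈ Al, ∑ _u ∈ S, ∑ v ∈ S, m c * Zp c v ≤ l * ∑ c ∈ Al, ∑ v ∈ S, m c * Zp c v :=
    s5hs_e3y Al S S _ (fun _ _ _ => 1) _ l (fun _ _ _ => by ring) (fun _ _ _ _ => X.cnt.le)
      (fun c u => mul_nonneg (X.m0 c) (X.Z0 c u))
  have h3 := mul_le_mul_of_nonneg_left X.B1 X.l0.le
  nlinarith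

theorem L3oneS (X : S5hsCtx Al S m I Zp l dd CR F N0 NR) :
    ∑ x ∈ S, ∑ u ∈ S, ∑ v ∈ S, (Zp x u + Zp x v) ≤ 2 * l ^ 3 * F := by
  simp only [Finset.sum_add_distrib]
  have h1 : ∑ c ∈ S, ∑ u ∈ S, ∑ _v ∈ S, Zp c u ≤ l * ∑ c ∈ S, ∑ u ∈ S, Zp c u :=
    s5hs_e3z S S S _ (fun _ _ _ => 1) _ l (fun _ _ _ => by ring) (fun _ _ _ _ => X.cnt.le)
      (fun c u => X.Z0 c u)
  have h2 : ∑ c ∈ S, ∑ _u ∈ S, ∑ v ∈ S, Zp c v ≤ l * ∑ c ∈ S, ∑ v ∈ S, Zp c v :=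
    s5hs_e3y S S S _ (fun _ _ _ => 1) _ l (fun _ _ _ => by ring) (fun _ _ _ _ => X.cnt.le)
      (fun c u => X.Z0 c u)
  have h3 := mul_le_mul_of_nonneg_left X.B2 X.l0.le
  nlinarith

theorem L3I (X : S5hsCtx Al S m I Zp l dd CR F N0 NR) :
    ∑ c ∈ Al, ∑ u ∈ S, ∑ v ∈ S, m c * ((I c u + I c v) * (Zp c u + Zp c v)) ≤
      2 * l * NR + 2 * CR * l * F := by
  have e : ∀ c u v, m c * ((I c u + I c v) * (Zp c u + Zp c v)) =
      m c * (I c u * Zp c u) + m c * (I c u * Zp c v) + m c * (I c v * Zp c u) + m c * (I c v * Zp c v) :=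
    fun c u v => by ring
  simp only [e, Finset.sum_add_distrib]
  have h1 : ∑ c ∈ Al, ∑ u ∈ S, ∑ _v ∈ S, m c * (I c u * Zp c u) ≤
      l * ∑ c ∈ Al, ∑ u ∈ S, m c * (I c u * Zp c u) :=
    s5hs_e3z Al S S _ (fun _ _ _ => 1) _ l (fun _ _ _ => by ring) (fun _ _ _ _ => X.cnt.le)
      (fun c u => mul_nonneg (X.m0 c) (mul_nonneg (X.I0 c u) (X.Z0 c u)))
  have h2 : ∑ c ∈ Al, ∑ u ∈ S, ∑ v ∈ S, m c * (I c u * Zp c v) ≤ CR * ∑ c ∈ Al, ∑ v ∈ S, m c * Zp c v :=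
    s5hs_e3y Al S S _ (fun c u _ => I c u) _ CR (fun _ _ _ => by ring) (fun c hc _ _ => X.row c hc)
      (fun c u => mul_nonneg (X.m0 c) (X.Z0 c u))
  have h3 : ∑ c ∈ Al, ∑ u ∈ S, ∑ v ∈ S, m c * (I c v * Zp c u) ≤ CR * ∑ c ∈ Al, ∑ u ∈ S, m c * Zp c u :=
    s5hs_e3z Al S S _ (fun c _ v => I c v) _ CR (fun _ _ _ => by ring) (fun c hc _ _ => X.row c hc)
      (fun c u => mul_nonneg (X.m0 c) (X.Z0 c u))
  have h4 : ∑ c ∈ Al, ∑ _u ∈ S, ∑ v ∈ S, m c * (I c v * Zp c v) ≤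
      l * ∑ c ∈ Al, ∑ v ∈ S, m c * (I c v * Zp c v) :=
    s5hs_e3y Al S S _ (fun _ _ _ => 1) _ l (fun _ _ _ => by ring) (fun _ _ _ _ => X.cnt.le)
      (fun c u => mul_nonneg (X.m0 c) (mul_nonneg (X.I0 c u) (X.Z0 c u)))
  have h5 := mul_le_mul_of_nonneg_left X.BN X.l0.le
  have h6 := mul_le_mul_of_nonneg_left X.B1 X.CR0
  nlinarith

/-! pair family -/

theorem pstub (X : S5hsCtx Al S m I Zp l dd CR F N0 NR) (k1 k2 : α → α → α → ℝ) (Y : α → α → ℝ) (c1 c2 : ℝ)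
    (h1 : ∀ u ∈ S, ∀ v ∈ S, ∑ a ∈ Al, m a * k1 a u v ≤ c1)
    (h2 : ∀ u ∈ S, ∀ v ∈ S, ∑ a ∈ Al, m a * k2 a u v ≤ c2) (hk2 : ∀ b u v, 0 ≤ k2 b u v)
    (hY : ∀ u v, 0 ≤ Y u v) (hc1 : 0 ≤ c1) :
    ∑ a ∈ Al, ∑ b ∈ Al, ∑ u ∈ S, ∑ v ∈ S, m a * m b * (k1 a u v * k2 b u v * Y u v) ≤
      c1 * (c2 * ∑ u ∈ S, ∑ v ∈ S, Y u v) :=
  calc ∑ a ∈ Al, ∑ b ∈ Al, ∑ u ∈ S, ∑ v ∈ S, m a * m b * (k1 a u v * k2 b u v * Y u v)
      ≤ c1 * ∑ b ∈ Al, ∑ u ∈ S, ∑ v ∈ S, m b * (k2 b u v * Y u v) :=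
        s5hs_e4a Al Al S S _ (fun a _ u v => m a * k1 a u v) _ c1 (fun _ _ _ _ => by ring)
          (fun _ _ u hu v hv => h1 u hu v hv)
          (fun b u v => mul_nonneg (X.m0 b) (mul_nonneg (hk2 b u v) (hY u v)))
    _ ≤ c1 * (c2 * ∑ u ∈ S, ∑ v ∈ S, Y u v) :=
        mul_le_mul_of_nonneg_left (s5hs_e3x Al S S _ (fun b u v => m b * k2 b u v) _ c2
          (fun _ _ _ => by ring) h2 hY) hc1

theorem plab (X : S5hsCtx Al S m I Zp l dd CR F N0 NR) (k1 Y : α → α → α → ℝ) (c1 : ℝ)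
    (h1 : ∀ u ∈ S, ∀ v ∈ S, ∑ a ∈ Al, m a * k1 a u v ≤ c1) (hY : ∀ b u v, 0 ≤ Y b u v) :
    ∑ a ∈ Al, ∑ b ∈ Al, ∑ u ∈ S, ∑ v ∈ S, m a * m b * (k1 a u v * Y b u v) ≤
      c1 * ∑ b ∈ Al, ∑ u ∈ S, ∑ v ∈ S, m b * Y b u v :=
  s5hs_e4a Al Al S S _ (fun a _ u v => m a * k1 a u v) _ c1 (fun _ _ _ _ => by ring)
    (fun _ _ u hu v hv => h1 u hu v hv) (fun b u v => mul_nonneg (X.m0 b) (hY b u v))

theorem plab' (X : S5hsCtx Al S m I Zp l dd CR F N0 NR) (k1 Y : α → α → α → ℝ) (c1 : ℝ)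
    (h1 : ∀ u ∈ S, ∀ v ∈ S, ∑ a ∈ Al, m a * k1 a u v ≤ c1) (hY : ∀ b u v, 0 ≤ Y b u v) :
    ∑ a ∈ Al, ∑ b ∈ Al, ∑ u ∈ S, ∑ v ∈ S, m a * m b * (k1 b u v * Y a u v) ≤
      c1 * ∑ a ∈ Al, ∑ u ∈ S, ∑ v ∈ S, m a * Y a u v :=
  s5hs_e4b Al Al S S _ (fun _ b u v => m b * k1 b u v) _ c1 (fun _ _ _ _ => by ring)
    (fun _ _ u hu v hv => h1 u hu v hv) (fun b u v => mul_nonneg (X.m0 b) (hY b u v))

theorem col2 (X : S5hsCtx Al S m I Zp l dd CR F N0 NR) :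
    ∀ u ∈ S, ∀ v ∈ S, ∑ a ∈ Al, m a * (I a u + I a v) ≤ 2 * (dd * CR / l) := by
  intro u hu v hv
  simp only [mul_add, Finset.sum_add_distrib]
  have := X.col u hu
  have := X.col v hv
  linarith

theorem col1 (X : S5hsCtx Al S m I Zp l dd CR F N0 NR) :
    ∀ u ∈ S, ∀ v ∈ S, ∑ a ∈ Al, m a * (fun _ _ _ => (1 : ℝ)) a u v ≤ 2 := by
  intro u _ v _
  simp only [mul_one]
  exact X.msum.le


/-- PAIR FAMILY, bad configurations -/
theorem bad (X : S5hsCtx Al S m I Zp l dd CR F N0 NR) :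
    ∑ a ∈ Al, ∑ b ∈ Al, ∑ u ∈ S, ∑ v ∈ S,
      (m a * m b * ((I a u + I a v) * ((I b u + I b v) * (Zp b u + Zp b v)))
        + m a * m b * ((I b u + I b v) * ((I a u + I a v) * (Zp a u + Zp a v)))
        + m a * m b * ((I a u + I a v) * (I b u + I b v) * (Zp u u + Zp v v + Zp u v))) ≤
      8 * (dd * CR) * NR + 8 * (dd * CR ^ 2) * F + 4 * (dd ^ 2 * CR ^ 2) * (2 * N0 + F) := by
  simp only [Finset.sum_add_distrib]
  have hI2 : ∀ b u v, 0 ≤ I b u + I b v := fun b u v => add_nonneg (X.I0 _ _) (X.I0 _ _)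
  have hZ2 : ∀ b u v, 0 ≤ Zp b u + Zp b v := fun b u v => add_nonneg (X.Z0 _ _) (X.Z0 _ _)
  have hc := X.c0
  have hl := X.l0
  have g1 := X.plab (fun a u v => I a u + I a v) (fun b u v => (I b u + I b v) * (Zp b u + Zp b v)) _ X.col2
    (fun b u v => mul_nonneg (hI2 b u v) (hZ2 b u v))
  have g2 := X.plab' (fun a u v => I a u + I a v) (fun b u v => (I b u + I b v) * (Zp b u + Zp b v)) _ X.col2
    (fun b u v => mul_nonneg (hI2 b u v) (hZ2 b u v))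
  have g3 := X.pstub (fun a u v => I a u + I a v) (fun a u v => I a u + I a v)
    (fun u v => Zp u u + Zp v v + Zp u v) _ _ X.col2 X.col2 hI2
    (fun u v => add_nonneg (add_nonneg (X.Z0 _ _) (X.Z0 _ _)) (X.Z0 _ _)) (by positivity)
  have g4 : 2 * (dd * CR / l) * ∑ b ∈ Al, ∑ u ∈ S, ∑ v ∈ S, m b * ((I b u + I b v) * (Zp b u + Zp b v)) ≤
      2 * (dd * CR / l) * (2 * l * NR + 2 * CR * l * F) := mul_le_mul_of_nonneg_left X.L3I (by positivity)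
  have g5 : 2 * (dd * CR / l) * (2 * (dd * CR / l) * ∑ u ∈ S, ∑ v ∈ S, (Zp u u + Zp v v + Zp u v)) ≤
      2 * (dd * CR / l) * (2 * (dd * CR / l) * (l ^ 2 * (2 * N0 + F))) :=
    mul_le_mul_of_nonneg_left (mul_le_mul_of_nonneg_left X.X3sum (by positivity)) (by positivity)
  have e4 : 2 * (dd * CR / l) * (2 * l * NR + 2 * CR * l * F) = 4 * (dd * CR) * NR + 4 * (dd * CR ^ 2) * F := by
    field_simp
    ring
  have e5 : 2 * (dd * CR / l) * (2 * (dd * CR / l) * (l ^ 2 * (2 * N0 + F))) =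
      4 * (dd ^ 2 * CR ^ 2) * (2 * N0 + F) := by
    field_simp
    ring
  linarith

/-- PAIR FAMILY, all inputs -/
theorem ipPair (X : S5hsCtx Al S m I Zp l dd CR F N0 NR) :
    ∑ a ∈ Al, ∑ b ∈ Al, ∑ u ∈ S, ∑ v ∈ S,
      (m a * m b * (1 * (Zp b u + Zp b v)) + m a * m b * (1 * (Zp a u + Zp a v))
        + m a * m b * (1 * 1 * (Zp u u + Zp v v + Zp u v))) ≤ l ^ 2 * (12 * F + 8 * N0) := by
  simp only [Finset.sum_add_distrib]
  have hZ2 : ∀ b u v, 0 ≤ Zp b u + Zp b v := fun b u v => add_nonneg (X.Z0 _ _) (X.Z0 _ _)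
  have g1 := X.plab (fun _ _ _ => 1) (fun b u v => Zp b u + Zp b v) _ X.col1 hZ2
  have g2 := X.plab' (fun _ _ _ => 1) (fun b u v => Zp b u + Zp b v) _ X.col1 hZ2
  have g3 := X.pstub (fun _ _ _ => 1) (fun _ _ _ => 1)
    (fun u v => Zp u u + Zp v v + Zp u v) _ _ X.col1 X.col1 (fun _ _ _ => zero_le_one)
    (fun u v => add_nonneg (add_nonneg (X.Z0 _ _) (X.Z0 _ _)) (X.Z0 _ _)) (by norm_num)
  have g4 := X.L3one
  have g5 := X.X3sum
  linarith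

/-- a kernel with bounded rows attached to one label and one stub, an input on the other label and stub -/
theorem prow1 (X : S5hsCtx Al S m I Zp l dd CR F N0 NR) (K : α → α → ℝ) (r : ℝ) (hr : 0 ≤ r)
    (hK : ∀ a ∈ Al, ∑ u ∈ S, K a u ≤ r) :
    ∑ a ∈ Al, ∑ b ∈ Al, ∑ u ∈ S, ∑ v ∈ S, m a * m b * (K a u * Zp b v) ≤ 2 * r * l * F :=
  calc ∑ a ∈ Al, ∑ b ∈ Al, ∑ u ∈ S, ∑ v ∈ S, m a * m b * (K a u * Zp b v)
      ≤ r * ∑ a ∈ Al, ∑ b ∈ Al, ∑ v ∈ S, m a * (m b * Zp b v) :=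
        s5hs_e4u Al Al S S _ (fun a _ u _ => K a u) _ r (fun _ _ _ _ => by ring)
          (fun a ha _ _ _ _ => hK a ha)
          (fun a b v => mul_nonneg (X.m0 a) (mul_nonneg (X.m0 b) (X.Z0 b v)))
    _ ≤ r * (2 * ∑ b ∈ Al, ∑ v ∈ S, m b * Zp b v) :=
        mul_le_mul_of_nonneg_left (s5hs_e3x Al Al S _ (fun a _ _ => m a) _ 2 (fun _ _ _ => by ring)
          (fun _ _ _ _ => X.msum.le) (fun b v => mul_nonneg (X.m0 b) (X.Z0 b v))) hr
    _ ≤ r * (2 * (l * F)) := by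
        have := X.B1
        gcongr
    _ = 2 * r * l * F := by ring

theorem prow2 (X : S5hsCtx Al S m I Zp l dd CR F N0 NR) (K : α → α → ℝ) (r : ℝ) (hr : 0 ≤ r)
    (hK : ∀ a ∈ Al, ∑ u ∈ S, K a u ≤ r) :
    ∑ a ∈ Al, ∑ b ∈ Al, ∑ u ∈ S, ∑ v ∈ S, m a * m b * (K a v * Zp b u) ≤ 2 * r * l * F :=
  calc ∑ a ∈ Al, ∑ b ∈ Al, ∑ u ∈ S, ∑ v ∈ S, m a * m b * (K a v * Zp b u)
      ≤ r * ∑ a ∈ Al, ∑ b ∈ Al, ∑ u ∈ S, m a * (m b * Zp b u) :=
        s5hs_e4v Al Al S S _ (fun a _ _ v => K a v) _ r (fun _ _ _ _ => by ring)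
          (fun a ha _ _ _ _ => hK a ha)
          (fun a b v => mul_nonneg (X.m0 a) (mul_nonneg (X.m0 b) (X.Z0 b v)))
    _ ≤ r * (2 * ∑ b ∈ Al, ∑ v ∈ S, m b * Zp b v) :=
        mul_le_mul_of_nonneg_left (s5hs_e3x Al Al S _ (fun a _ _ => m a) _ 2 (fun _ _ _ => by ring)
          (fun _ _ _ _ => X.msum.le) (fun b v => mul_nonneg (X.m0 b) (X.Z0 b v))) hr
    _ ≤ r * (2 * (l * F)) := by
        have := X.B1
        gcongr
    _ = 2 * r * l * F := by ring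

theorem prow3 (X : S5hsCtx Al S m I Zp l dd CR F N0 NR) (K : α → α → ℝ) (r : ℝ) (hr : 0 ≤ r)
    (hK : ∀ a ∈ Al, ∑ u ∈ S, K a u ≤ r) :
    ∑ a ∈ Al, ∑ b ∈ Al, ∑ u ∈ S, ∑ v ∈ S, m a * m b * (K b u * Zp a v) ≤ 2 * r * l * F :=
  calc ∑ a ∈ Al, ∑ b ∈ Al, ∑ u ∈ S, ∑ v ∈ S, m a * m b * (K b u * Zp a v)
      ≤ r * ∑ a ∈ Al, ∑ b ∈ Al, ∑ v ∈ S, m b * (m a * Zp a v) :=
        s5hs_e4u Al Al S S _ (fun _ b u _ => K b u) _ r (fun _ _ _ _ => by ring)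
          (fun _ _ b hb _ _ => hK b hb)
          (fun a b v => mul_nonneg (X.m0 b) (mul_nonneg (X.m0 a) (X.Z0 a v)))
    _ ≤ r * (2 * ∑ a ∈ Al, ∑ v ∈ S, m a * Zp a v) :=
        mul_le_mul_of_nonneg_left (s5hs_e3y Al Al S _ (fun _ b _ => m b) _ 2 (fun _ _ _ => by ring)
          (fun _ _ _ _ => X.msum.le) (fun b v => mul_nonneg (X.m0 b) (X.Z0 b v))) hr
    _ ≤ r * (2 * (l * F)) := by
        have := X.B1
        gcongr
    _ = 2 * r * l * F := by ring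

theorem prow4 (X : S5hsCtx Al S m I Zp l dd CR F N0 NR) (K : α → α → ℝ) (r : ℝ) (hr : 0 ≤ r)
    (hK : ∀ a ∈ Al, ∑ u ∈ S, K a u ≤ r) :
    ∑ a ∈ Al, ∑ b ∈ Al, ∑ u ∈ S, ∑ v ∈ S, m a * m b * (K b v * Zp a u) ≤ 2 * r * l * F :=
  calc ∑ a ∈ Al, ∑ b ∈ Al, ∑ u ∈ S, ∑ v ∈ S, m a * m b * (K b v * Zp a u)
      ≤ r * ∑ a ∈ Al, ∑ b ∈ Al, ∑ u ∈ S, m b * (m a * Zp a u) :=
        s5hs_e4v Al Al S S _ (fun _ b _ v => K b v) _ r (fun _ _ _ _ => by ring)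
          (fun _ _ b hb _ _ => hK b hb)
          (fun a b v => mul_nonneg (X.m0 b) (mul_nonneg (X.m0 a) (X.Z0 a v)))
    _ ≤ r * (2 * ∑ a ∈ Al, ∑ v ∈ S, m a * Zp a v) :=
        mul_le_mul_of_nonneg_left (s5hs_e3y Al Al S _ (fun _ b _ => m b) _ 2 (fun _ _ _ => by ring)
          (fun _ _ _ _ => X.msum.le) (fun b v => mul_nonneg (X.m0 b) (X.Z0 b v))) hr
    _ ≤ r * (2 * (l * F)) := by
        have := X.B1
        gcongr
    _ = 2 * r * l * F := by ring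

theorem sumDiagU (X : S5hsCtx Al S m I Zp l dd CR F N0 NR) :
    ∑ u ∈ S, ∑ _v ∈ S, Zp u u ≤ l ^ 2 * N0 := by
  have h1 : ∑ u ∈ S, ∑ _v ∈ S, Zp u u ≤ l * ∑ u ∈ S, Zp u u :=
    s5hs_e2y S S _ (fun _ _ => 1) _ l (fun _ _ => by ring) (fun _ _ => X.cnt.le) (fun u => X.Z0 u u)
  have h3 := mul_le_mul_of_nonneg_left X.B3 X.l0.le
  nlinarith

theorem sumDiagV (X : S5hsCtx Al S m I Zp l dd CR F N0 NR) :
    ∑ _u ∈ S, ∑ v ∈ S, Zp v v ≤ l ^ 2 * N0 := by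
  have h2 : ∑ _u ∈ S, ∑ v ∈ S, Zp v v ≤ l * ∑ v ∈ S, Zp v v :=
    s5hs_e2x S S _ (fun _ _ => 1) _ l (fun _ _ => by ring) (fun _ _ => X.cnt.le) (fun u => X.Z0 u u)
  have h3 := mul_le_mul_of_nonneg_left X.B3 X.l0.le
  nlinarith

/-- PAIR FAMILY, `Q2` -/
theorem q2Pair (X : S5hsCtx Al S m I Zp l dd CR F N0 NR) (K : α → α → ℝ) (C0 cc : ℝ) (hC0 : 0 ≤ C0)
    (hcc : 0 ≤ cc) (hK0 : ∀ a u, 0 ≤ K a u) (hK : ∀ a ∈ Al, ∑ u ∈ S, K a u ≤ C0)
    (hKc : ∀ u ∈ S, ∑ a ∈ Al, m a * K a u ≤ cc / l) :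
    ∑ a ∈ Al, ∑ b ∈ Al, ∑ u ∈ S, ∑ v ∈ S,
      (m a * m b * (K a u * Zp b v) + m a * m b * (K a v * Zp b u) + m a * m b * (K b u * Zp a v)
        + m a * m b * (K b v * Zp a u) + m a * m b * (K a u * K b u * Zp v v)
        + m a * m b * (K a v * K b v * Zp u u) + m a * m b * (K a u * K b v * Zp u v)
        + m a * m b * (K a v * K b u * Zp u v)) ≤ 8 * C0 * l * F + 2 * cc ^ 2 * (N0 + F) := by
  simp only [Finset.sum_add_distrib]
  have hl := X.l0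
  have hc : 0 ≤ cc / l := by positivity
  have g1 := X.prow1 K C0 hC0 hK
  have g2 := X.prow2 K C0 hC0 hK
  have g3 := X.prow3 K C0 hC0 hK
  have g4 := X.prow4 K C0 hC0 hK
  have g5 := X.pstub (fun a u _ => K a u) (fun a u _ => K a u) (fun _ v => Zp v v) _ _
    (fun u hu _ _ => hKc u hu) (fun u hu _ _ => hKc u hu) (fun _ _ _ => hK0 _ _) (fun _ _ => X.Z0 _ _) hc
  have g6 := X.pstub (fun a _ v => K a v) (fun a _ v => K a v) (fun u _ => Zp u u) _ _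
    (fun _ _ u hu => hKc u hu) (fun _ _ u hu => hKc u hu) (fun _ _ _ => hK0 _ _) (fun _ _ => X.Z0 _ _) hc
  have g7 := X.pstub (fun a u _ => K a u) (fun a _ v => K a v) (fun u v => Zp u v) _ _
    (fun u hu _ _ => hKc u hu) (fun _ _ u hu => hKc u hu) (fun _ _ _ => hK0 _ _) (fun _ _ => X.Z0 _ _) hc
  have g8 := X.pstub (fun a _ v => K a v) (fun a u _ => K a u) (fun u v => Zp u v) _ _
    (fun _ _ u hu => hKc u hu) (fun u hu _ _ => hKc u hu) (fun _ _ _ => hK0 _ _) (fun _ _ => X.Z0 _ _) hc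
  have q : ∀ T Y : ℝ, T ≤ l ^ 2 * Y → cc / l * (cc / l * T) ≤ cc ^ 2 * Y := by
    intro T Y h
    have h1 : cc / l * (cc / l * T) ≤ cc / l * (cc / l * (l ^ 2 * Y)) :=
      mul_le_mul_of_nonneg_left (mul_le_mul_of_nonneg_left h hc) hc
    have h2 : cc / l * (cc / l * (l ^ 2 * Y)) = cc ^ 2 * Y := by field_simp
    linarith
  have q5 := q _ _ X.sumDiagV
  have q6 := q _ _ X.sumDiagU
  have q7 := q _ _ X.B2
  linarith


/-! near family -/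

theorem nearMass (X : S5hsCtx Al S m I Zp l dd CR F N0 NR) :
    ∑ a ∈ Al, ∑ x ∈ S, m a * I a x ≤ 2 * CR := by
  have h := s5hs_e2y Al S (fun a x => m a * I a x) (fun a x => I a x) (fun a => m a) CR
    (fun _ _ => by ring) X.row X.m0
  rw [X.msum] at h
  linarith

/-- eliminate the label `a` -/
theorem nA (X : S5hsCtx Al S m I Zp l dd CR F N0 NR) (Y : α → α → α → ℝ) (hY : ∀ x u v, 0 ≤ Y x u v) :
    ∑ a ∈ Al, ∑ x ∈ S, ∑ u ∈ S, ∑ v ∈ S, m a * I a x * Y x u v ≤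
      dd * CR / l * ∑ x ∈ S, ∑ u ∈ S, ∑ v ∈ S, Y x u v :=
  s5hs_e4a Al S S S _ (fun a x _ _ => m a * I a x) _ _ (fun _ _ _ _ => rfl)
    (fun x hx _ _ _ _ => X.col x hx) hY

/-- eliminate the stub `x` -/
theorem nX (X : S5hsCtx Al S m I Zp l dd CR F N0 NR) (Y : α → α → α → ℝ) (hY : ∀ x u v, 0 ≤ Y x u v) :
    ∑ a ∈ Al, ∑ x ∈ S, ∑ u ∈ S, ∑ v ∈ S, m a * I a x * Y a u v ≤
      CR * ∑ a ∈ Al, ∑ u ∈ S, ∑ v ∈ S, m a * Y a u v :=
  s5hs_e4b Al S S S _ (fun a x _ _ => I a x) _ _ (fun _ _ _ _ => by ring)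
    (fun a ha _ _ _ _ => X.row a ha) (fun a u v => mul_nonneg (X.m0 a) (hY a u v))

/-- eliminate both -/
theorem nAX (X : S5hsCtx Al S m I Zp l dd CR F N0 NR) (Y : α → α → ℝ) (hY : ∀ u v, 0 ≤ Y u v) :
    ∑ a ∈ Al, ∑ x ∈ S, ∑ u ∈ S, ∑ v ∈ S, m a * I a x * Y u v ≤ 2 * CR * ∑ u ∈ S, ∑ v ∈ S, Y u v :=
  calc ∑ a ∈ Al, ∑ x ∈ S, ∑ u ∈ S, ∑ v ∈ S, m a * I a x * Y u v
      ≤ CR * ∑ a ∈ Al, ∑ u ∈ S, ∑ v ∈ S, m a * Y u v := X.nX (fun _ u v => Y u v) (fun _ u v => hY u v)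
    _ ≤ CR * (2 * ∑ u ∈ S, ∑ v ∈ S, Y u v) :=
        mul_le_mul_of_nonneg_left (s5hs_e3x Al S S _ (fun a _ _ => m a) _ 2 (fun _ _ _ => rfl)
          (fun _ _ _ _ => X.msum.le) hY) X.CR0
    _ = _ := by ring

/-- three-fold versions -/
theorem n3A (X : S5hsCtx Al S m I Zp l dd CR F N0 NR) (Y : α → α → ℝ) (hY : ∀ x v, 0 ≤ Y x v) :
    ∑ a ∈ Al, ∑ x ∈ S, ∑ v ∈ S, m a * I a x * Y x v ≤ dd * CR / l * ∑ x ∈ S, ∑ v ∈ S, Y x v :=
  s5hs_e3x Al S S _ (fun a x _ => m a * I a x) _ _ (fun _ _ _ => rfl) (fun x hx _ _ => X.col x hx) hY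

theorem n3X (X : S5hsCtx Al S m I Zp l dd CR F N0 NR) (Y : α → α → ℝ) (hY : ∀ x v, 0 ≤ Y x v) :
    ∑ a ∈ Al, ∑ x ∈ S, ∑ v ∈ S, m a * I a x * Y a v ≤ CR * ∑ a ∈ Al, ∑ v ∈ S, m a * Y a v :=
  s5hs_e3y Al S S _ (fun a x _ => I a x) _ _ (fun _ _ _ => by ring) (fun a ha _ _ => X.row a ha)
    (fun a v => mul_nonneg (X.m0 a) (hY a v))

theorem n3AX (X : S5hsCtx Al S m I Zp l dd CR F N0 NR) (Y : α → ℝ) (hY : ∀ v, 0 ≤ Y v) :
    ∑ a ∈ Al, ∑ x ∈ S, ∑ v ∈ S, m a * I a x * Y v ≤ 2 * CR * ∑ v ∈ S, Y v :=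
  calc ∑ a ∈ Al, ∑ x ∈ S, ∑ v ∈ S, m a * I a x * Y v
      ≤ CR * ∑ a ∈ Al, ∑ v ∈ S, m a * Y v := X.n3X (fun _ v => Y v) (fun _ v => hY v)
    _ ≤ CR * (2 * ∑ v ∈ S, Y v) :=
        mul_le_mul_of_nonneg_left (s5hs_e2x Al S _ (fun a _ => m a) _ 2 (fun _ _ => rfl)
          (fun _ _ => X.msum.le) hY) X.CR0
    _ = _ := by ring

/-- NEAR FAMILY, all inputs -/
theorem ipNear (X : S5hsCtx Al S m I Zp l dd CR F N0 NR) :
    ∑ a ∈ Al, ∑ x ∈ S, ∑ u ∈ S, ∑ v ∈ S,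
      (m a * I a x * (Zp x u + Zp x v) + m a * I a x * (Zp a u + Zp a v)
        + m a * I a x * (Zp u u + Zp v v + Zp u v)) ≤
      2 * (dd * CR) * l ^ 2 * F + 2 * CR * l ^ 2 * F + 2 * CR * l ^ 2 * (2 * N0 + F) := by
  simp only [Finset.sum_add_distrib]
  have hl := X.l0
  have hZ2 : ∀ b u v, 0 ≤ Zp b u + Zp b v := fun b u v => add_nonneg (X.Z0 _ _) (X.Z0 _ _)
  have g1 := X.nA (fun x u v => Zp x u + Zp x v) hZ2
  have g2 := X.nX (fun x u v => Zp x u + Zp x v) hZ2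
  have g3 := X.nAX (fun u v => Zp u u + Zp v v + Zp u v)
    (fun u v => add_nonneg (add_nonneg (X.Z0 _ _) (X.Z0 _ _)) (X.Z0 _ _))
  have q1 := mul_le_mul_of_nonneg_left X.L3oneS X.c0
  have q2 := mul_le_mul_of_nonneg_left X.L3one X.CR0
  have q3 := mul_le_mul_of_nonneg_left X.X3sum (mul_nonneg zero_le_two X.CR0)
  have e1 : dd * CR / l * (2 * l ^ 3 * F) = 2 * (dd * CR) * l ^ 2 * F := by
    field_simp
  nlinarith

theorem row2 (X : S5hsCtx Al S m I Zp l dd CR F N0 NR) :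
    ∀ a ∈ Al, ∀ x ∈ S, ∑ u ∈ S, (I a u + I x u) ≤ 2 * CR := by
  intro a ha x hx
  rw [Finset.sum_add_distrib]
  have := X.row a ha
  have := X.row x (X.sub hx)
  linarith

/-- NEAR FAMILY, hit configurations, diagonal input -/
theorem hit1 (X : S5hsCtx Al S m I Zp l dd CR F N0 NR) :
    ∑ a ∈ Al, ∑ x ∈ S, ∑ u ∈ S, ∑ v ∈ S, m a * I a x * ((I a u + I x u) * Zp v v) ≤ 4 * CR ^ 2 * l * N0 :=
  calc ∑ a ∈ Al, ∑ x ∈ S, ∑ u ∈ S, ∑ v ∈ S, m a * I a x * ((I a u + I x u) * Zp v v)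
      ≤ 2 * CR * ∑ a ∈ Al, ∑ x ∈ S, ∑ v ∈ S, m a * I a x * Zp v v :=
        s5hs_e4u Al S S S _ (fun a x u _ => I a u + I x u) _ _ (fun _ _ _ _ => by ring)
          (fun a ha x hx _ _ => X.row2 a ha x hx)
          (fun a x v => mul_nonneg (mul_nonneg (X.m0 a) (X.I0 a x)) (X.Z0 v v))
    _ ≤ 2 * CR * (2 * CR * ∑ v ∈ S, Zp v v) :=
        mul_le_mul_of_nonneg_left (X.n3AX (fun v => Zp v v) (fun v => X.Z0 v v))
          (mul_nonneg zero_le_two X.CR0)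
    _ ≤ 2 * CR * (2 * CR * (l * N0)) := by
        have := X.B3
        have := X.CR0
        gcongr
    _ = _ := by ring

/-- NEAR FAMILY, hit configurations, the two transfers from `F` -/
theorem hit2 (X : S5hsCtx Al S m I Zp l dd CR F N0 NR) :
    ∑ a ∈ Al, ∑ x ∈ S, ∑ u ∈ S, ∑ v ∈ S, m a * I a x * ((I a u + I x u) * (Zp x v + Zp a v)) ≤
      2 * (dd * CR ^ 2) * l * F + 2 * CR ^ 2 * l * F := by
  have hl := X.l0
  have h1 : ∑ a ∈ Al, ∑ x ∈ S, ∑ u ∈ S, ∑ v ∈ S, m a * I a x * ((I a u + I x u) * (Zp x v + Zp a v))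
      ≤ 2 * CR * ∑ a ∈ Al, ∑ x ∈ S, ∑ v ∈ S, (m a * I a x * Zp x v + m a * I a x * Zp a v) :=
    s5hs_e4u Al S S S _ (fun a x u _ => I a u + I x u) _ _ (fun _ _ _ _ => by ring)
      (fun a ha x hx _ _ => X.row2 a ha x hx)
      (fun a x v => add_nonneg (mul_nonneg (mul_nonneg (X.m0 a) (X.I0 a x)) (X.Z0 x v))
        (mul_nonneg (mul_nonneg (X.m0 a) (X.I0 a x)) (X.Z0 a v)))
  simp only [Finset.sum_add_distrib] at h1
  have g1 := X.n3A Zp X.Z0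
  have g2 := X.n3X Zp X.Z0
  have q1 := mul_le_mul_of_nonneg_left X.B2 X.c0
  have q2 := mul_le_mul_of_nonneg_left X.B1 X.CR0
  have e1 : dd * CR / l * (l ^ 2 * F) = dd * CR * l * F := by
    field_simp
  have h2 : ∑ a ∈ Al, ∑ x ∈ S, ∑ v ∈ S, m a * I a x * Zp x v + ∑ a ∈ Al, ∑ x ∈ S, ∑ v ∈ S, m a * I a x * Zp a v ≤
      dd * CR * l * F + CR * (l * F) := by linarith
  have h3 := mul_le_mul_of_nonneg_left h2 (mul_nonneg zero_le_two X.CR0)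
  nlinarith

/-- NEAR FAMILY, `Q2` -/
theorem q2Near (X : S5hsCtx Al S m I Zp l dd CR F N0 NR) (K : α → α → ℝ) (C0 : ℝ) (hC0 : 0 ≤ C0)
    (hK0 : ∀ a u, 0 ≤ K a u) (hK : ∀ a ∈ Al, ∑ u ∈ S, K a u ≤ C0) (hKS : ∀ v ∈ S, ∑ x ∈ S, K x v ≤ C0) :
    ∑ a ∈ Al, ∑ x ∈ S, ∑ u ∈ S, ∑ v ∈ S,
      (m a * I a x * (K a u * Zp x v) + m a * I a x * (K a v * Zp x u) + m a * I a x * (K x u * Zp a v)
        + m a * I a x * (K x v * Zp a u) + m a * I a x * (K a u * Zp v v)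
        + m a * I a x * (K a v * Zp u u) + m a * I a x * (K x v * Zp u v)
        + m a * I a x * (K x u * Zp u v)) ≤
      4 * (C0 * (dd * CR)) * l * F + 2 * (C0 * CR) * l * F + 4 * (C0 * CR) * l * N0 := by
  simp only [Finset.sum_add_distrib]
  have hl := X.l0
  have hw : ∀ a x, 0 ≤ m a * I a x := fun a x => mul_nonneg (X.m0 a) (X.I0 a x)
  have e1 : dd * CR / l * (l ^ 2 * F) = dd * CR * l * F := by
    field_simp
  have b1 : ∑ a ∈ Al, ∑ x ∈ S, ∑ v ∈ S, m a * I a x * Zp x v ≤ dd * CR * l * F := by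
    have g1 := X.n3A Zp X.Z0
    have q1 := mul_le_mul_of_nonneg_left X.B2 X.c0
    linarith
  have b2 : ∑ a ∈ Al, ∑ x ∈ S, ∑ v ∈ S, m a * I a x * Zp a v ≤ CR * (l * F) := by
    have g2 := X.n3X Zp X.Z0
    have q2 := mul_le_mul_of_nonneg_left X.B1 X.CR0
    linarith
  have b3 : ∑ a ∈ Al, ∑ x ∈ S, ∑ v ∈ S, m a * I a x * Zp v v ≤ 2 * CR * (l * N0) := by
    have g3 := X.n3AX (fun v => Zp v v) (fun v => X.Z0 v v)
    have q3 := mul_le_mul_of_nonneg_left X.B3 (mul_nonneg zero_le_two X.CR0)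
    linarith
  have t1 : ∑ a ∈ Al, ∑ x ∈ S, ∑ u ∈ S, ∑ v ∈ S, m a * I a x * (K a u * Zp x v) ≤
      C0 * ∑ a ∈ Al, ∑ x ∈ S, ∑ v ∈ S, m a * I a x * Zp x v :=
    s5hs_e4u Al S S S _ (fun a _ u _ => K a u) _ _ (fun _ _ _ _ => by ring) (fun a ha _ _ _ _ => hK a ha)
      (fun a x v => mul_nonneg (hw a x) (X.Z0 x v))
  have t2 : ∑ a ∈ Al, ∑ x ∈ S, ∑ u ∈ S, ∑ v ∈ S, m a * I a x * (K a v * Zp x u) ≤
      C0 * ∑ a ∈ Al, ∑ x ∈ S, ∑ u ∈ S, m a * I a x * Zp x u :=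
    s5hs_e4v Al S S S _ (fun a _ _ v => K a v) _ _ (fun _ _ _ _ => by ring) (fun a ha _ _ _ _ => hK a ha)
      (fun a x v => mul_nonneg (hw a x) (X.Z0 x v))
  have t3 : ∑ a ∈ Al, ∑ x ∈ S, ∑ u ∈ S, ∑ v ∈ S, m a * I a x * (K x u * Zp a v) ≤
      C0 * ∑ a ∈ Al, ∑ x ∈ S, ∑ v ∈ S, m a * I a x * Zp a v :=
    s5hs_e4u Al S S S _ (fun _ x u _ => K x u) _ _ (fun _ _ _ _ => by ring)
      (fun _ _ x hx _ _ => hK x (X.sub hx)) (fun a x v => mul_nonneg (hw a x) (X.Z0 a v))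
  have t4 : ∑ a ∈ Al, ∑ x ∈ S, ∑ u ∈ S, ∑ v ∈ S, m a * I a x * (K x v * Zp a u) ≤
      C0 * ∑ a ∈ Al, ∑ x ∈ S, ∑ u ∈ S, m a * I a x * Zp a u :=
    s5hs_e4v Al S S S _ (fun _ x _ v => K x v) _ _ (fun _ _ _ _ => by ring)
      (fun _ _ x hx _ _ => hK x (X.sub hx)) (fun a x v => mul_nonneg (hw a x) (X.Z0 a v))
  have t5 : ∑ a ∈ Al, ∑ x ∈ S, ∑ u ∈ S, ∑ v ∈ S, m a * I a x * (K a u * Zp v v) ≤
      C0 * ∑ a ∈ Al, ∑ x ∈ S, ∑ v ∈ S, m a * I a x * Zp v v :=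
    s5hs_e4u Al S S S _ (fun a _ u _ => K a u) _ _ (fun _ _ _ _ => by ring) (fun a ha _ _ _ _ => hK a ha)
      (fun a x v => mul_nonneg (hw a x) (X.Z0 v v))
  have t6 : ∑ a ∈ Al, ∑ x ∈ S, ∑ u ∈ S, ∑ v ∈ S, m a * I a x * (K a v * Zp u u) ≤
      C0 * ∑ a ∈ Al, ∑ x ∈ S, ∑ u ∈ S, m a * I a x * Zp u u :=
    s5hs_e4v Al S S S _ (fun a _ _ v => K a v) _ _ (fun _ _ _ _ => by ring) (fun a ha _ _ _ _ => hK a ha)
      (fun a x v => mul_nonneg (hw a x) (X.Z0 v v))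
  have t7 := X.nA (fun x u v => K x v * Zp u v) (fun x u v => mul_nonneg (hK0 x v) (X.Z0 u v))
  have t8 := X.nA (fun x u v => K x u * Zp u v) (fun x u v => mul_nonneg (hK0 x u) (X.Z0 u v))
  have s7 : ∑ x ∈ S, ∑ u ∈ S, ∑ v ∈ S, K x v * Zp u v ≤ C0 * ∑ u ∈ S, ∑ v ∈ S, Zp u v :=
    s5hs_e3x S S S _ (fun x _ v => K x v) _ _ (fun _ _ _ => rfl) (fun _ _ v hv => hKS v hv) X.Z0
  have s8 : ∑ x ∈ S, ∑ u ∈ S, ∑ v ∈ S, K x u * Zp u v ≤ C0 * ∑ u ∈ S, ∑ v ∈ S, Zp u v :=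
    s5hs_e3x S S S _ (fun x u _ => K x u) _ _ (fun _ _ _ => rfl) (fun u hu _ _ => hKS u hu) X.Z0
  have s9 : C0 * ∑ u ∈ S, ∑ v ∈ S, Zp u v ≤ C0 * (l ^ 2 * F) := mul_le_mul_of_nonneg_left X.B2 hC0
  have s10 : dd * CR / l * (C0 * (l ^ 2 * F)) = C0 * (dd * CR) * l * F := by
    field_simp
  have u7 := mul_le_mul_of_nonneg_left (s7.trans s9) X.c0
  have u8 := mul_le_mul_of_nonneg_left (s8.trans s9) X.c0
  have v1 := mul_le_mul_of_nonneg_left b1 hC0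
  have v2 := mul_le_mul_of_nonneg_left b2 hC0
  have v3 := mul_le_mul_of_nonneg_left b3 hC0
  nlinarith


/-! new near pairs: weight `m a * (I a u * I x v)` -/

theorem w1 (X : S5hsCtx Al S m I Zp l dd CR F N0 NR) :
    ∑ a ∈ Al, ∑ x ∈ S, ∑ u ∈ S, ∑ v ∈ S, m a * (I a u * I x v) * Zp a x ≤ CR ^ 2 * l * F :=
  calc ∑ a ∈ Al, ∑ x ∈ S, ∑ u ∈ S, ∑ v ∈ S, m a * (I a u * I x v) * Zp a x
      ≤ CR * ∑ a ∈ Al, ∑ x ∈ S, ∑ v ∈ S, I x v * (m a * Zp a x) :=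
        s5hs_e4u Al S S S _ (fun a _ u _ => I a u) _ _ (fun _ _ _ _ => by ring) (fun a ha _ _ _ _ => X.row a ha)
          (fun a x v => mul_nonneg (X.I0 x v) (mul_nonneg (X.m0 a) (X.Z0 a x)))
    _ ≤ CR * (CR * ∑ a ∈ Al, ∑ x ∈ S, m a * Zp a x) :=
        mul_le_mul_of_nonneg_left (s5hs_e3z Al S S _ (fun _ x v => I x v) _ _ (fun _ _ _ => rfl)
          (fun _ _ x hx => X.row x (X.sub hx)) (fun a x => mul_nonneg (X.m0 a) (X.Z0 a x))) X.CR0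
    _ ≤ CR * (CR * (l * F)) := by
        have := X.B1
        have := X.CR0
        gcongr
    _ = _ := by ring

theorem w2 (X : S5hsCtx Al S m I Zp l dd CR F N0 NR) :
    ∑ a ∈ Al, ∑ x ∈ S, ∑ u ∈ S, ∑ v ∈ S, m a * (I a u * I x v) * Zp x v ≤ dd * CR * l * NR := by
  have hl := X.l0
  calc ∑ a ∈ Al, ∑ x ∈ S, ∑ u ∈ S, ∑ v ∈ S, m a * (I a u * I x v) * Zp x v
      ≤ dd * CR / l * ∑ x ∈ S, ∑ _u ∈ S, ∑ v ∈ S, I x v * Zp x v :=
        s5hs_e4a Al S S S _ (fun a _ u _ => m a * I a u) _ _ (fun _ _ _ _ => by ring)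
          (fun _ _ u hu _ _ => X.col u hu) (fun x _ v => mul_nonneg (X.I0 x v) (X.Z0 x v))
    _ ≤ dd * CR / l * (l * ∑ x ∈ S, ∑ v ∈ S, I x v * Zp x v) :=
        mul_le_mul_of_nonneg_left (s5hs_e3y S S S _ (fun _ _ _ => 1) _ _ (fun _ _ _ => by ring)
          (fun _ _ _ _ => X.cnt.le) (fun x v => mul_nonneg (X.I0 x v) (X.Z0 x v))) X.c0
    _ ≤ dd * CR / l * (l * (l * NR)) := by
        have := X.BNS
        have := X.c0
        gcongr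
    _ = _ := by field_simp

theorem w3 (X : S5hsCtx Al S m I Zp l dd CR F N0 NR) :
    ∑ a ∈ Al, ∑ x ∈ S, ∑ u ∈ S, ∑ v ∈ S, m a * (I a u * I x v) * Zp a u ≤ CR * l * NR :=
  calc ∑ a ∈ Al, ∑ x ∈ S, ∑ u ∈ S, ∑ v ∈ S, m a * (I a u * I x v) * Zp a u
      ≤ CR * ∑ a ∈ Al, ∑ u ∈ S, ∑ _v ∈ S, m a * (I a u * Zp a u) :=
        s5hs_e4b Al S S S _ (fun _ x _ v => I x v) _ _ (fun _ _ _ _ => by ring)
          (fun _ _ _ _ v hv => X.colS v hv)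
          (fun a u _ => mul_nonneg (X.m0 a) (mul_nonneg (X.I0 a u) (X.Z0 a u)))
    _ ≤ CR * (l * ∑ a ∈ Al, ∑ u ∈ S, m a * (I a u * Zp a u)) :=
        mul_le_mul_of_nonneg_left (s5hs_e3z Al S S _ (fun _ _ _ => 1) _ _ (fun _ _ _ => by ring)
          (fun _ _ _ _ => X.cnt.le) (fun a u => mul_nonneg (X.m0 a) (mul_nonneg (X.I0 a u) (X.Z0 a u)))) X.CR0
    _ ≤ CR * (l * NR) := by
        have := X.BN
        have := X.CR0
        have := X.l0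
        gcongr
    _ = _ := by ring

theorem w4 (X : S5hsCtx Al S m I Zp l dd CR F N0 NR) (Y : α → α → ℝ) (hY : ∀ u v, 0 ≤ Y u v) :
    ∑ a ∈ Al, ∑ x ∈ S, ∑ u ∈ S, ∑ v ∈ S, m a * (I a u * I x v) * Y u v ≤
      dd * CR / l * (CR * ∑ u ∈ S, ∑ v ∈ S, Y u v) :=
  calc ∑ a ∈ Al, ∑ x ∈ S, ∑ u ∈ S, ∑ v ∈ S, m a * (I a u * I x v) * Y u v
      ≤ dd * CR / l * ∑ x ∈ S, ∑ u ∈ S, ∑ v ∈ S, I x v * Y u v :=
        s5hs_e4a Al S S S _ (fun a _ u _ => m a * I a u) _ _ (fun _ _ _ _ => by ring)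
          (fun _ _ u hu _ _ => X.col u hu) (fun x u v => mul_nonneg (X.I0 x v) (hY u v))
    _ ≤ dd * CR / l * (CR * ∑ u ∈ S, ∑ v ∈ S, Y u v) :=
        mul_le_mul_of_nonneg_left (s5hs_e3x S S S _ (fun x _ v => I x v) _ _ (fun _ _ _ => rfl)
          (fun _ _ v hv => X.colS v hv) hY) X.c0

theorem w5 (X : S5hsCtx Al S m I Zp l dd CR F N0 NR) :
    ∑ a ∈ Al, ∑ x ∈ S, ∑ u ∈ S, ∑ v ∈ S, m a * (I a u * I x v) * Zp x u ≤ dd * CR ^ 2 * l * F := by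
  have hl := X.l0
  calc ∑ a ∈ Al, ∑ x ∈ S, ∑ u ∈ S, ∑ v ∈ S, m a * (I a u * I x v) * Zp x u
      ≤ dd * CR / l * ∑ x ∈ S, ∑ u ∈ S, ∑ v ∈ S, I x v * Zp x u :=
        s5hs_e4a Al S S S _ (fun a _ u _ => m a * I a u) _ _ (fun _ _ _ _ => by ring)
          (fun _ _ u hu _ _ => X.col u hu) (fun x u v => mul_nonneg (X.I0 x v) (X.Z0 x u))
    _ ≤ dd * CR / l * (CR * ∑ x ∈ S, ∑ u ∈ S, Zp x u) :=
        mul_le_mul_of_nonneg_left (s5hs_e3z S S S _ (fun x _ v => I x v) _ _ (fun _ _ _ => rfl)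
          (fun x hx _ _ => X.row x (X.sub hx)) X.Z0) X.c0
    _ ≤ dd * CR / l * (CR * (l ^ 2 * F)) := by
        have := X.B2
        have := X.c0
        have := X.CR0
        gcongr
    _ = _ := by field_simp

theorem w6 (X : S5hsCtx Al S m I Zp l dd CR F N0 NR) :
    ∑ a ∈ Al, ∑ x ∈ S, ∑ u ∈ S, ∑ v ∈ S, m a * (I a u * I x v) * Zp a v ≤ CR ^ 2 * l * F :=
  calc ∑ a ∈ Al, ∑ x ∈ S, ∑ u ∈ S, ∑ v ∈ S, m a * (I a u * I x v) * Zp a v
      ≤ CR * ∑ a ∈ Al, ∑ x ∈ S, ∑ v ∈ S, I x v * (m a * Zp a v) :=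
        s5hs_e4u Al S S S _ (fun a _ u _ => I a u) _ _ (fun _ _ _ _ => by ring) (fun a ha _ _ _ _ => X.row a ha)
          (fun a x v => mul_nonneg (X.I0 x v) (mul_nonneg (X.m0 a) (X.Z0 a v)))
    _ ≤ CR * (CR * ∑ a ∈ Al, ∑ v ∈ S, m a * Zp a v) :=
        mul_le_mul_of_nonneg_left (s5hs_e3y Al S S _ (fun _ x v => I x v) _ _ (fun _ _ _ => rfl)
          (fun _ _ v hv => X.colS v hv) (fun a x => mul_nonneg (X.m0 a) (X.Z0 a x))) X.CR0
    _ ≤ CR * (CR * (l * F)) := by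
        have := X.B1
        have := X.CR0
        gcongr
    _ = _ := by ring

/-- NEW NEAR PAIRS, the four inputs with large coefficients -/
theorem newFour (X : S5hsCtx Al S m I Zp l dd CR F N0 NR) :
    ∑ a ∈ Al, ∑ x ∈ S, ∑ u ∈ S, ∑ v ∈ S,
      (m a * (I a u * I x v) * Zp a x + m a * (I a u * I x v) * Zp x v + m a * (I a u * I x v) * Zp a u
        + m a * (I a u * I x v) * Zp u v) ≤
      CR ^ 2 * l * F + dd * CR * l * NR + CR * l * NR + dd * CR ^ 2 * l * F := by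
  simp only [Finset.sum_add_distrib]
  have hl := X.l0
  have g4 := X.w4 Zp X.Z0
  have q4 := mul_le_mul_of_nonneg_left (mul_le_mul_of_nonneg_left X.B2 X.CR0) X.c0
  have e4 : dd * CR / l * (CR * (l ^ 2 * F)) = dd * CR ^ 2 * l * F := by field_simp
  linarith [X.w1, X.w2, X.w3]

/-- NEW NEAR PAIRS, weighted number -/
theorem newCount (X : S5hsCtx Al S m I Zp l dd CR F N0 NR) :
    ∑ a ∈ Al, ∑ x ∈ S, ∑ u ∈ S, ∑ v ∈ S, m a * (I a u * I x v) * 1 ≤ CR ^ 2 * dd * l := by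
  have hl := X.l0
  have g4 := X.w4 (fun _ _ => 1) (fun _ _ => zero_le_one)
  have e : ∑ _u ∈ S, ∑ _v ∈ S, (1 : ℝ) = l ^ 2 := by
    simp only [X.cnt]
    have : ∑ _x ∈ S, l = ∑ _x ∈ S, l * 1 := Finset.sum_congr rfl fun _ _ => (mul_one l).symm
    rw [this, ← Finset.mul_sum, X.cnt]
    ring
  rw [e] at g4
  have e4 : dd * CR / l * (CR * l ^ 2) = CR ^ 2 * dd * l := by field_simp
  linarith

/-- NEW NEAR PAIRS, all inputs -/
theorem newIp (X : S5hsCtx Al S m I Zp l dd CR F N0 NR) :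
    ∑ a ∈ Al, ∑ x ∈ S, ∑ u ∈ S, ∑ v ∈ S,
      (m a * (I a u * I x v) * Zp x u + m a * (I a u * I x v) * Zp x v + m a * (I a u * I x v) * Zp a u
        + m a * (I a u * I x v) * Zp a v + m a * (I a u * I x v) * (Zp u u + Zp v v + Zp u v)) ≤
      dd * CR ^ 2 * l * F + dd * CR * l * NR + CR * l * NR + CR ^ 2 * l * F
        + dd * CR ^ 2 * l * (2 * N0 + F) := by
  simp only [Finset.sum_add_distrib]
  have hl := X.l0
  have g4 := X.w4 (fun u v => Zp u u + Zp v v + Zp u v)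
    (fun u v => add_nonneg (add_nonneg (X.Z0 _ _) (X.Z0 _ _)) (X.Z0 _ _))
  simp only [Finset.sum_add_distrib] at g4
  have h3 := X.X3sum
  simp only [Finset.sum_add_distrib] at h3
  have q4 := mul_le_mul_of_nonneg_left (mul_le_mul_of_nonneg_left h3 X.CR0) X.c0
  have e4 : dd * CR / l * (CR * (l ^ 2 * (2 * N0 + F))) = dd * CR ^ 2 * l * (2 * N0 + F) := by field_simp
  linarith [X.w5, X.w2, X.w3, X.w6]

end S5hsCtx

section sums

variable {α : Type} [DecidableEq α] {dd C0 CR : ℝ} {R : ℕ} {Ccol μ V ρ εs σ h : ℝ} {M : S5Mom α}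
  {Vd : Finset (α × α)} {Dg : ℕ} {P : α → α → ℝ} {nxt : α × α → S5Mom α}

theorem s5hs_l0 (H : S5HiHyp dd C0 CR R Ccol μ V ρ εs σ h M Vd Dg P nxt) : (0 : ℝ) < M.S.card := by
  have := H.hl
  have h1 : 0 < M.S.card := by omega
  exact_mod_cast h1

theorem s5hs_G0 (H : S5HiHyp dd C0 CR R Ccol μ V ρ εs σ h M Vd Dg P nxt) : (0 : ℝ) < M.G.card := by
  rcases Nat.eq_zero_or_pos M.G.card with h0 | h0
  · have h1 := H.hG
    rw [h0, Nat.cast_zero, mul_zero] at h1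
    have := s5hs_l0 H
    linarith
  · exact_mod_cast h0

theorem s5hs_m0 (M : S5Mom α) (a : α) : 0 ≤ M.m a := by
  unfold S5Mom.m
  split_ifs <;> positivity

theorem s5hs_mS (M : S5Mom α) {x : α} (hx : x ∈ M.S) : M.m x = (M.S.card : ℝ)⁻¹ := if_pos hx

theorem s5hs_sub (M : S5Mom α) : M.S ⊆ M.Al := Finset.subset_union_right

theorem s5hs_msum (H : S5HiHyp dd C0 CR R Ccol μ V ρ εs σ h M Vd Dg P nxt) : ∑ a ∈ M.Al, M.m a = 2 := by
  unfold S5Mom.Al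
  rw [Finset.sum_union H.disj]
  have h1 : ∑ a ∈ M.G, M.m a = 1 := by
    have : ∀ a ∈ M.G, M.m a = (M.G.card : ℝ)⁻¹ := fun a ha =>
      if_neg (Finset.disjoint_left.1 H.disj ha)
    rw [Finset.sum_congr rfl this, Finset.sum_const, nsmul_eq_mul]
    exact mul_inv_cancel₀ (s5hs_G0 H).ne'
  have h2 : ∑ a ∈ M.S, M.m a = 1 := by
    rw [Finset.sum_congr rfl fun a ha => s5hs_mS M ha, Finset.sum_const, nsmul_eq_mul]
    exact mul_inv_cancel₀ (s5hs_l0 H).ne'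
  rw [h1, h2]
  norm_num

theorem s5hs_mle (H : S5HiHyp dd C0 CR R Ccol μ V ρ εs σ h M Vd Dg P nxt) (hdd : 1 ≤ dd) {a : α} :
    M.m a ≤ dd / (M.S.card : ℝ) := by
  have hl := s5hs_l0 H
  have hG := s5hs_G0 H
  unfold S5Mom.m
  split_ifs
  · rw [inv_eq_one_div]
    gcongr
  · rw [inv_eq_one_div, div_le_div_iff₀ hG hl]
    linarith [H.hG]

/-- basic facts on the weights -/
theorem s5_m_facts (H : S5HiHyp dd C0 CR R Ccol μ V ρ εs σ h M Vd Dg P nxt) (hdd : 1 ≤ dd) :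
    (∀ a, 0 ≤ M.m a) ∧ (∀ a ∈ M.Al, M.m a ≤ dd / (M.S.card : ℝ)) ∧ (∀ x ∈ M.S, M.m x = (M.S.card : ℝ)⁻¹) ∧
      ∑ a ∈ M.Al, M.m a = 2 :=
  ⟨s5hs_m0 M, fun _ _ => s5hs_mle H hdd, fun _ hx => s5hs_mS M hx, s5hs_msum H⟩

theorem s5hs_F0 (M : S5Mom α) (p : ℕ) (hp : Even p) : 0 ≤ M.F p :=
  Finset.sum_nonneg fun a _ => Finset.sum_nonneg fun b _ =>
    mul_nonneg (mul_nonneg (s5hs_m0 M a) (s5hs_m0 M b)) (hp.pow_nonneg _)

theorem s5hs_Nterm0 (M : S5Mom α) (p : ℕ) (hp : Even p) (k : ℕ) (a x : α) :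
    0 ≤ (if M.nr k a x then M.m a * M.z a x ^ p else 0) := by
  split_ifs
  · exact mul_nonneg (s5hs_m0 M a) (hp.pow_nonneg _)
  · exact le_rfl

theorem s5hs_N0 (M : S5Mom α) (p : ℕ) (hp : Even p) (k : ℕ) : 0 ≤ M.N p k :=
  Finset.sum_nonneg fun a _ => Finset.sum_nonneg fun x _ => s5hs_Nterm0 M p hp k a x

theorem s5hs_Nmono (H : S5HiHyp dd C0 CR R Ccol μ V ρ εs σ h M Vd Dg P nxt) (p : ℕ) (hp : Even p)
    {k k' : ℕ} (hk : k ≤ k') : M.N p k ≤ M.N p k' := by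
  refine Finset.sum_le_sum fun a _ => Finset.sum_le_sum fun x _ => ?_
  by_cases h1 : M.nr k a x = true
  · rw [if_pos h1, if_pos (H.mono k k' a x hk h1)]
  · rw [if_neg h1]
    exact s5hs_Nterm0 M p hp k' a x

theorem s5hs_B1 (H : S5HiHyp dd C0 CR R Ccol μ V ρ εs σ h M Vd Dg P nxt) (p : ℕ) (hp : Even p) :
    ∑ b ∈ M.Al, ∑ v ∈ M.S, M.m b * M.z v b ^ p ≤ M.S.card * M.F p := by
  have hl := s5hs_l0 H
  have h1 : ∑ a ∈ M.S, ∑ b ∈ M.Al, M.m a * M.m b * M.z a b ^ p ≤ M.F p :=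
    Finset.sum_le_sum_of_subset_of_nonneg (s5hs_sub M) fun a _ _ => Finset.sum_nonneg fun b _ =>
      mul_nonneg (mul_nonneg (s5hs_m0 M a) (s5hs_m0 M b)) (hp.pow_nonneg _)
  have h2 : ∑ a ∈ M.S, ∑ b ∈ M.Al, M.m a * M.m b * M.z a b ^ p =
      (M.S.card : ℝ)⁻¹ * ∑ b ∈ M.Al, ∑ v ∈ M.S, M.m b * M.z v b ^ p := by
    rw [Finset.sum_comm, Finset.mul_sum]
    refine Finset.sum_congr rfl fun b _ => ?_
    rw [Finset.mul_sum]
    refine Finset.sum_congr rfl fun v hv => ?_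
    rw [s5hs_mS M hv]
    ring
  rw [h2, inv_mul_le_iff₀ hl] at h1
  exact h1

theorem s5hs_B2 (H : S5HiHyp dd C0 CR R Ccol μ V ρ εs σ h M Vd Dg P nxt) (p : ℕ) (hp : Even p) :
    ∑ u ∈ M.S, ∑ v ∈ M.S, M.z u v ^ p ≤ (M.S.card : ℝ) ^ 2 * M.F p := by
  have hl := s5hs_l0 H
  have h0 := s5hs_B1 H p hp
  have h1 : ∑ b ∈ M.S, ∑ v ∈ M.S, M.m b * M.z v b ^ p ≤ ∑ b ∈ M.Al, ∑ v ∈ M.S, M.m b * M.z v b ^ p :=
    Finset.sum_le_sum_of_subset_of_nonneg (s5hs_sub M) fun a _ _ => Finset.sum_nonneg fun b _ =>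
      mul_nonneg (s5hs_m0 M a) (hp.pow_nonneg _)
  have h2 : ∑ b ∈ M.S, ∑ v ∈ M.S, M.m b * M.z v b ^ p =
      (M.S.card : ℝ)⁻¹ * ∑ u ∈ M.S, ∑ v ∈ M.S, M.z u v ^ p := by
    rw [Finset.sum_comm, Finset.mul_sum]
    refine Finset.sum_congr rfl fun u _ => ?_
    rw [Finset.mul_sum]
    refine Finset.sum_congr rfl fun v hv => ?_
    rw [s5hs_mS M hv]
  rw [h2] at h1
  have h3 := h1.trans h0
  rw [inv_mul_le_iff₀ hl] at h3
  calc _ ≤ _ := h3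
    _ = _ := by ring

theorem s5hs_B3 (H : S5HiHyp dd C0 CR R Ccol μ V ρ εs σ h M Vd Dg P nxt) (p : ℕ) (hp : Even p) :
    ∑ v ∈ M.S, M.z v v ^ p ≤ M.S.card * M.N p 0 := by
  have hl := s5hs_l0 H
  have h1 : ∑ a ∈ M.S, ∑ x ∈ M.S, (if M.nr 0 a x then M.m a * M.z a x ^ p else 0) ≤ M.N p 0 :=
    Finset.sum_le_sum_of_subset_of_nonneg (s5hs_sub M) fun a _ _ => Finset.sum_nonneg fun x _ =>
      s5hs_Nterm0 M p hp 0 a x
  have h2 : (M.S.card : ℝ)⁻¹ * ∑ v ∈ M.S, M.z v v ^ p ≤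
      ∑ a ∈ M.S, ∑ x ∈ M.S, (if M.nr 0 a x then M.m a * M.z a x ^ p else 0) := by
    rw [Finset.mul_sum]
    refine Finset.sum_le_sum fun a ha => ?_
    have h3 := Finset.single_le_sum (f := fun x => if M.nr 0 a x then M.m a * M.z a x ^ p else 0)
      (fun x _ => s5hs_Nterm0 M p hp 0 a x) ha
    rw [if_pos (H.refl a ha)] at h3
    rw [← s5hs_mS M ha]
    exact h3
  have h3 := h2.trans h1
  rwa [inv_mul_le_iff₀ hl] at h3

theorem s5_mom_facts (H : S5HiHyp dd C0 CR R Ccol μ V ρ εs σ h M Vd Dg P nxt) (p : ℕ) (hp : Even p) :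
    0 ≤ M.F p ∧ (∀ k, 0 ≤ M.N p k) ∧ (∀ k k', k ≤ k' → M.N p k ≤ M.N p k') ∧
    ∑ b ∈ M.Al, ∑ v ∈ M.S, M.m b * M.z v b ^ p ≤ M.S.card * M.F p ∧
    ∑ u ∈ M.S, ∑ v ∈ M.S, M.z u v ^ p ≤ (M.S.card : ℝ) ^ 2 * M.F p ∧
    ∑ v ∈ M.S, M.z v v ^ p ≤ M.S.card * M.N p 0 :=
  ⟨s5hs_F0 M p hp, s5hs_N0 M p hp, fun _ _ hk => s5hs_Nmono H p hp hk, s5hs_B1 H p hp, s5hs_B2 H p hp,
    s5hs_B3 H p hp⟩


/-! the concrete context -/

/-- near indicator at level `k` -/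
noncomputable def s5hsI (M : S5Mom α) (k : ℕ) (a u : α) : ℝ := if M.nr k a u then 1 else 0

omit [DecidableEq α] in
theorem s5hsI_nonneg (M : S5Mom α) (k : ℕ) (a u : α) : 0 ≤ s5hsI M k a u := by
  unfold s5hsI
  split_ifs <;> norm_num

theorem s5hs_row (H : S5HiHyp dd C0 CR R Ccol μ V ρ εs σ h M Vd Dg P nxt) {k : ℕ} (hk : k ≤ R) {a : α}
    (ha : a ∈ M.Al) : ∑ u ∈ M.S, s5hsI M k a u ≤ CR := by
  unfold s5hsI
  rw [Finset.sum_boole]
  refine le_trans ?_ (H.ball1 a ha)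
  have : (M.S.filter fun x => M.nr k a x = true) ⊆ M.S.filter fun x => M.nr R a x = true := by
    intro x hx
    rw [Finset.mem_filter] at hx ⊢
    exact ⟨hx.1, H.mono k R a x hk hx.2⟩
  exact_mod_cast Finset.card_le_card this

theorem s5hs_col0 (H : S5HiHyp dd C0 CR R Ccol μ V ρ εs σ h M Vd Dg P nxt) {k : ℕ} (hk : k ≤ R) {x : α}
    (hx : x ∈ M.S) : ∑ a ∈ M.Al, s5hsI M k a x ≤ CR := by
  unfold s5hsI
  rw [Finset.sum_boole]
  refine le_trans ?_ (H.ball2 x hx)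
  have : (M.Al.filter fun a => M.nr k a x = true) ⊆ M.Al.filter fun a => M.nr R a x = true := by
    intro a ha
    rw [Finset.mem_filter] at ha ⊢
    exact ⟨ha.1, H.mono k R a x hk ha.2⟩
  exact_mod_cast Finset.card_le_card this

theorem s5hs_BN (M : S5Mom α) (p k : ℕ) :
    ∑ a ∈ M.Al, ∑ x ∈ M.S, M.m a * (s5hsI M k a x * M.z a x ^ p) = M.N p k := by
  unfold S5Mom.N s5hsI
  refine Finset.sum_congr rfl fun a _ => Finset.sum_congr rfl fun x _ => ?_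
  split_ifs <;> simp

theorem s5hs_ctx (H : S5HiHyp dd C0 CR R Ccol μ V ρ εs σ h M Vd Dg P nxt) (hdd : 1 ≤ dd) (hCR : 1 ≤ CR)
    (p : ℕ) (hp : Even p) {k : ℕ} (hk : k ≤ R) :
    S5hsCtx M.Al M.S M.m (s5hsI M k) (fun a b => M.z a b ^ p) M.S.card dd CR (M.F p) (M.N p 0) (M.N p k) where
  sub := s5hs_sub M
  m0 := s5hs_m0 M
  I0 := s5hsI_nonneg M k
  Z0 := fun a b => hp.pow_nonneg _
  l0 := s5hs_l0 H
  dd0 := by linarith
  CR0 := by linarith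
  cnt := by simp
  msum := s5hs_msum H
  row := fun a ha => s5hs_row H hk ha
  col := by
    intro u hu
    have hl := s5hs_l0 H
    calc ∑ a ∈ M.Al, M.m a * s5hsI M k a u ≤ ∑ a ∈ M.Al, dd / (M.S.card : ℝ) * s5hsI M k a u :=
          Finset.sum_le_sum fun a _ => mul_le_mul_of_nonneg_right (s5hs_mle H hdd) (s5hsI_nonneg M k a u)
      _ = dd / (M.S.card : ℝ) * ∑ a ∈ M.Al, s5hsI M k a u := by rw [Finset.mul_sum]
      _ ≤ dd / (M.S.card : ℝ) * CR :=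
          mul_le_mul_of_nonneg_left (s5hs_col0 H hk hu) (div_nonneg (by linarith) hl.le)
      _ = dd * CR / M.S.card := by ring
  colS := fun v hv => le_trans (Finset.sum_le_sum_of_subset_of_nonneg (s5hs_sub M)
    fun a _ _ => s5hsI_nonneg M k a v) (s5hs_col0 H hk hv)
  B1 := by
    have e : ∑ b ∈ M.Al, ∑ v ∈ M.S, M.m b * M.z b v ^ p = ∑ b ∈ M.Al, ∑ v ∈ M.S, M.m b * M.z v b ^ p :=
      Finset.sum_congr rfl fun b _ => Finset.sum_congr rfl fun v _ => by rw [H.zsymm b v]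
    rw [e]
    exact s5hs_B1 H p hp
  B2 := s5hs_B2 H p hp
  B3 := s5hs_B3 H p hp
  BN := (s5hs_BN M p k).le
  BNS := by
    have hl := s5hs_l0 H
    have h1 : ∑ a ∈ M.S, ∑ x ∈ M.S, M.m a * (s5hsI M k a x * M.z a x ^ p) ≤ M.N p k := by
      rw [← s5hs_BN M p k]
      exact Finset.sum_le_sum_of_subset_of_nonneg (s5hs_sub M) fun a _ _ => Finset.sum_nonneg fun x _ =>
        mul_nonneg (s5hs_m0 M a) (mul_nonneg (s5hsI_nonneg M k a x) (hp.pow_nonneg _))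
    have h2 : ∑ a ∈ M.S, ∑ x ∈ M.S, M.m a * (s5hsI M k a x * M.z a x ^ p) =
        (M.S.card : ℝ)⁻¹ * ∑ x ∈ M.S, ∑ v ∈ M.S, s5hsI M k x v * M.z x v ^ p := by
      rw [Finset.mul_sum]
      refine Finset.sum_congr rfl fun a ha => ?_
      rw [Finset.mul_sum]
      refine Finset.sum_congr rfl fun x _ => ?_
      rw [s5hs_mS M ha]
    rw [h2, inv_mul_le_iff₀ hl] at h1
    exact h1


theorem s5hs_ctx0 (H : S5HiHyp dd C0 CR R Ccol μ V ρ εs σ h M Vd Dg P nxt) (p : ℕ) (hp : Even p) :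
    S5hsCtx M.Al M.S M.m (fun _ _ => 0) (fun a b => M.z a b ^ p) M.S.card 0 0 (M.F p) (M.N p 0) 0 where
  sub := s5hs_sub M
  m0 := s5hs_m0 M
  I0 := fun _ _ => le_rfl
  Z0 := fun a b => hp.pow_nonneg _
  l0 := s5hs_l0 H
  dd0 := le_rfl
  CR0 := le_rfl
  cnt := by simp
  msum := s5hs_msum H
  row := fun a _ => by simp
  col := fun u _ => by simp
  colS := fun v _ => by simp
  B1 := by
    have e : ∑ b ∈ M.Al, ∑ v ∈ M.S, M.m b * M.z b v ^ p = ∑ b ∈ M.Al, ∑ v ∈ M.S, M.m b * M.z v b ^ p :=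
      Finset.sum_congr rfl fun b _ => Finset.sum_congr rfl fun v _ => by rw [H.zsymm b v]
    rw [e]
    exact s5hs_B1 H p hp
  B2 := s5hs_B2 H p hp
  B3 := s5hs_B3 H p hp
  BN := by simp
  BNS := by simp

theorem s5hs_C0 (H : S5HiHyp dd C0 CR R Ccol μ V ρ εs σ h M Vd Dg P nxt) : 0 ≤ C0 := by
  have h1 : 0 < M.S.card := by have := H.hl; omega
  obtain ⟨x, hx⟩ := Finset.card_pos.1 h1
  exact le_trans (Finset.sum_nonneg fun u _ => sq_nonneg _) (H.Prow x (s5hs_sub M hx))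

theorem s5hs_h2 (H : S5HiHyp dd C0 CR R Ccol μ V ρ εs σ h M Vd Dg P nxt) : h ^ 2 ≤ 1 ∧ h ^ 4 ≤ 1 :=
  ⟨pow_le_one₀ H.hh.le H.hh1, pow_le_one₀ H.hh.le H.hh1⟩

theorem s5hs_drop {w A B h2 h4 : ℝ} (hw : 0 ≤ w) (hA : 0 ≤ A) (hB : 0 ≤ B) (e2 : h2 ≤ 1) (e4 : h4 ≤ 1) :
    w * (h2 * A + h4 * B) ≤ w * (A + B) := by
  refine mul_le_mul_of_nonneg_left ?_ hw
  nlinarith

/-- PAIR FAMILY: sum of `Q2` -/
theorem s5_sum_Q2_pair (H : S5HiHyp dd C0 CR R Ccol μ V ρ εs σ h M Vd Dg P nxt) (hdd : 1 ≤ dd)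
    (p : ℕ) (hp : Even p) :
    ∑ a ∈ M.Al, ∑ b ∈ M.Al, M.m a * M.m b * ∑ pr ∈ M.S.offDiag, s5Q2 p h P M.z pr a b ≤
      8 * C0 * M.S.card * M.F p + 2 * dd ^ 2 * Ccol ^ 2 * (M.N p 0 + M.F p) := by
  have X := s5hs_ctx0 H p hp
  have hl := s5hs_l0 H
  have hCc := H.hCcol
  have hz : ∀ c d, 0 ≤ M.z c d ^ p := fun c d => hp.pow_nonneg _
  have hm := s5hs_m0 M
  have hq := X.q2Pair (fun a u => P a u ^ 2) C0 (dd * Ccol) (s5hs_C0 H) (by positivity)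
    (fun a u => sq_nonneg _) H.Prow (by
      intro u hu
      calc ∑ a ∈ M.Al, M.m a * P a u ^ 2 ≤ ∑ a ∈ M.Al, dd / (M.S.card : ℝ) * P a u ^ 2 :=
            Finset.sum_le_sum fun a _ => mul_le_mul_of_nonneg_right (s5hs_mle H hdd) (sq_nonneg _)
        _ = dd / (M.S.card : ℝ) * ∑ a ∈ M.Al, P a u ^ 2 := by rw [Finset.mul_sum]
        _ ≤ dd / (M.S.card : ℝ) * Ccol :=
            mul_le_mul_of_nonneg_left (H.Pcol u hu) (div_nonneg (by linarith) hl.le)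
        _ = dd * Ccol / M.S.card := by ring)
  refine (s5hs_off M.Al M.Al M.S _ (fun a b => M.m a * M.m b) (fun pr a b => s5Q2 p h P M.z pr a b) _
    (fun _ _ _ _ => rfl) ?_ ?_).trans (hq.trans (le_of_eq (by ring)))
  · intro a _ b _ u _ v _
    unfold s5Q2
    simp only
    rw [H.zsymm v b, H.zsymm u b, H.zsymm v u]
    refine (s5hs_drop (mul_nonneg (hm a) (hm b)) ?_ ?_ (s5hs_h2 H).1 (s5hs_h2 H).2).trans (le_of_eq (by ring))
    · apply_rules (maxDepth := 400) [hz, sq_nonneg, add_nonneg, mul_nonneg]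
    · apply_rules (maxDepth := 400) [hz, sq_nonneg, add_nonneg, mul_nonneg]
  · intro a b u v
    apply_rules (maxDepth := 400) [hz, hm, sq_nonneg, add_nonneg, mul_nonneg]

theorem s5hs_ite_bad (b1 b2 b3 b4 : Bool) (Y : ℝ) (hY : 0 ≤ Y) :
    (if ((b1 && b3) || (b1 && b4) || (b2 && b3) || (b2 && b4)) = true then Y else 0) ≤
      (((if b1 = true then (1 : ℝ) else 0) + (if b2 = true then 1 else 0)) *
        ((if b3 = true then (1 : ℝ) else 0) + (if b4 = true then 1 else 0))) * Y := by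
  cases b1 <;> cases b2 <;> cases b3 <;> cases b4 <;> simp <;> nlinarith

theorem s5hs_ite_or (b1 b2 : Bool) (Y : ℝ) (hY : 0 ≤ Y) :
    (if (b1 || b2) = true then Y else 0) ≤
      ((if b1 = true then (1 : ℝ) else 0) + (if b2 = true then 1 else 0)) * Y := by
  cases b1 <;> cases b2 <;> simp <;> nlinarith

theorem s5hs_ite_and (b1 b2 : Bool) (Y : ℝ) :
    (if (b1 && b2) = true then Y else 0) =
      ((if b1 = true then (1 : ℝ) else 0) * (if b2 = true then 1 else 0)) * Y := by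
  cases b1 <;> cases b2 <;> simp

omit [DecidableEq α] in
theorem s5hs_Ip0 (M : S5Mom α) (p : ℕ) (hp : Even p) (pr : α × α) (a b : α) : 0 ≤ s5Ip p M.z pr a b := by
  have hz : ∀ c d, 0 ≤ M.z c d ^ p := fun c d => hp.pow_nonneg _
  unfold s5Ip
  apply_rules (maxDepth := 400) [hz, add_nonneg]

/-- PAIR FAMILY: bad configurations -/
theorem s5_sum_bad_pair (H : S5HiHyp dd C0 CR R Ccol μ V ρ εs σ h M Vd Dg P nxt) (hdd : 1 ≤ dd) (hCR : 1 ≤ CR)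
    (p : ℕ) (hp : Even p) :
    ∑ a ∈ M.Al, ∑ b ∈ M.Al, M.m a * M.m b *
        ∑ pr ∈ M.S.offDiag, (if s5Bad (M.nr R) pr a b then s5Ip p M.z pr a b else 0) ≤
      100 * CR ^ 2 * dd ^ 2 * (M.F p + M.N p R) := by
  have X := s5hs_ctx H hdd hCR p hp (le_refl R)
  have hz : ∀ c d, 0 ≤ M.z c d ^ p := fun c d => hp.pow_nonneg _
  have hm := s5hs_m0 M
  have hI := s5hsI_nonneg M R
  refine (s5hs_off M.Al M.Al M.S _ (fun a b => M.m a * M.m b)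
    (fun pr a b => if s5Bad (M.nr R) pr a b then s5Ip p M.z pr a b else 0) _
    (fun _ _ _ _ => rfl) ?_ ?_).trans (X.bad.trans ?_)
  · intro a _ b _ u _ v _
    have h1 := s5hs_ite_bad (M.nr R a u) (M.nr R a v) (M.nr R b u) (M.nr R b v) _ (s5hs_Ip0 M p hp (u, v) a b)
    have h2 := mul_le_mul_of_nonneg_left h1 (mul_nonneg (hm a) (hm b))
    refine le_trans (le_of_eq ?_) (h2.trans (le_of_eq ?_))
    · rfl
    · unfold s5Ip s5hsI
      simp only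
      rw [H.zsymm u b, H.zsymm v b]
      ring
  · intro a b u v
    apply_rules (maxDepth := 400) [hz, hm, hI, add_nonneg, mul_nonneg]
  · have hF := s5hs_F0 M p hp
    have hN := s5hs_N0 M p hp R
    have hN0 := s5hs_N0 M p hp 0
    have hNN := s5hs_Nmono H p hp (Nat.zero_le R)
    have u1 : dd * CR ≤ CR ^ 2 * dd ^ 2 := by nlinarith [one_le_mul_of_one_le_of_one_le hdd hCR]
    have u2 : dd * CR ^ 2 ≤ CR ^ 2 * dd ^ 2 := by nlinarith [sq_nonneg CR, mul_nonneg (sq_nonneg CR) (by linarith : 0 ≤ dd)]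
    have v1 := mul_le_mul_of_nonneg_right u1 hN
    have v2 := mul_le_mul_of_nonneg_right u2 hF
    have v3 : dd ^ 2 * CR ^ 2 * M.N p 0 ≤ dd ^ 2 * CR ^ 2 * M.N p R :=
      mul_le_mul_of_nonneg_left hNN (by positivity)
    have v4 : 0 ≤ CR ^ 2 * dd ^ 2 * M.F p := by positivity
    have v5 : 0 ≤ CR ^ 2 * dd ^ 2 * M.N p R := by positivity
    nlinarith

/-- PAIR FAMILY: all inputs -/
theorem s5_sum_Ip_pair (H : S5HiHyp dd C0 CR R Ccol μ V ρ εs σ h M Vd Dg P nxt) (p : ℕ) (hp : Even p) :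
    ∑ a ∈ M.Al, ∑ b ∈ M.Al, M.m a * M.m b * ∑ pr ∈ M.S.offDiag, s5Ip p M.z pr a b ≤
      (M.S.card : ℝ) ^ 2 * (12 * M.F p + 8 * M.N p 0) := by
  have X := s5hs_ctx0 H p hp
  have hz : ∀ c d, 0 ≤ M.z c d ^ p := fun c d => hp.pow_nonneg _
  have hm := s5hs_m0 M
  refine (s5hs_off M.Al M.Al M.S _ (fun a b => M.m a * M.m b) (fun pr a b => s5Ip p M.z pr a b) _
    (fun _ _ _ _ => rfl) ?_ ?_).trans X.ipPair
  · intro a _ b _ u _ v _
    unfold s5Ip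
    simp only
    rw [H.zsymm u b, H.zsymm v b]
    exact le_of_eq (by ring)
  · intro a b u v
    apply_rules (maxDepth := 400) [hz, hm, zero_le_one, add_nonneg, mul_nonneg]


/-- NEAR FAMILY: total weight -/
theorem s5_near_mass (H : S5HiHyp dd C0 CR R Ccol μ V ρ εs σ h M Vd Dg P nxt) :
    ∑ a ∈ M.Al, ∑ x ∈ M.S, (if M.nr R a x then M.m a else 0) ≤ 2 * CR := by
  have h1 := s5hs_e2y M.Al M.S (fun a x => if M.nr R a x then M.m a else 0) (fun a x => s5hsI M R a x)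
    (fun a => M.m a) CR (fun a x => by unfold s5hsI; split_ifs <;> simp) (fun a ha => s5hs_row H le_rfl ha)
    (s5hs_m0 M)
  rw [s5hs_msum H] at h1
  linarith

theorem s5hs_nearL (M : S5Mom α) (k : ℕ) (a x : α) (T : ℝ) :
    (if M.nr k a x then M.m a * T else 0) = M.m a * s5hsI M k a x * T := by
  unfold s5hsI
  split_ifs <;> simp

theorem s5hs_hP (H : S5HiHyp dd C0 CR R Ccol μ V ρ εs σ h M Vd Dg P nxt) {a u : α} (ha : a ∈ M.Al)
    (hu : u ∈ M.S) : h ^ 2 * P a u ^ 2 ≤ 1 := by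
  have h1 := H.Psup1 a ha u hu
  have h2 : 0 ≤ h * |P a u| := mul_nonneg H.hh.le (abs_nonneg _)
  have h3 : h ^ 2 * P a u ^ 2 = (h * |P a u|) ^ 2 := by rw [mul_pow, sq_abs]
  rw [h3]
  nlinarith

/-- NEAR FAMILY: sum of `Q2` (rows of `P` only; `∑_{x ∈ S} P x v² = ` row of the label `v`) -/
theorem s5_sum_Q2_near (H : S5HiHyp dd C0 CR R Ccol μ V ρ εs σ h M Vd Dg P nxt) (hdd : 1 ≤ dd) (hCR : 1 ≤ CR)
    (hC0 : 1 ≤ C0) (p : ℕ) (hp : Even p) :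
    ∑ a ∈ M.Al, ∑ x ∈ M.S, (if M.nr R a x then M.m a * ∑ pr ∈ M.S.offDiag, s5Q2 p h P M.z pr a x else 0) ≤
      8 * C0 * CR * dd * M.S.card * (M.F p + M.N p 0) := by
  have X := s5hs_ctx H hdd hCR p hp (le_refl R)
  have hl := s5hs_l0 H
  have hz : ∀ c d, 0 ≤ M.z c d ^ p := fun c d => hp.pow_nonneg _
  have hm := s5hs_m0 M
  have hI := s5hsI_nonneg M R
  have hq := X.q2Near (fun a u => P a u ^ 2) C0 (s5hs_C0 H) (fun a u => sq_nonneg _) H.Prow (by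
      intro v hv
      have e : ∑ x ∈ M.S, P x v ^ 2 = ∑ x ∈ M.S, P v x ^ 2 :=
        Finset.sum_congr rfl fun x hx => by rw [H.Psymm x hx v hv]
      rw [e]
      exact H.Prow v (s5hs_sub M hv))
  refine (s5hs_off M.Al M.S M.S _ (fun a x => M.m a * s5hsI M R a x) (fun pr a b => s5Q2 p h P M.z pr a b) _
    (fun a _ x _ => s5hs_nearL M R a x _) ?_ ?_).trans (hq.trans ?_)
  · intro a ha x hx u hu v hv
    unfold s5Q2
    simp only
    rw [H.zsymm v x, H.zsymm u x, H.zsymm v u]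
    have hxA := s5hs_sub M hx
    have h2 := (s5hs_h2 H).1
    have h20 : 0 ≤ h ^ 2 := sq_nonneg h
    have hw : 0 ≤ M.m a * s5hsI M R a x := mul_nonneg (hm a) (hI a x)
    have k1 : h ^ 2 * (P a u ^ 2 * M.z x v ^ p + P a v ^ 2 * M.z x u ^ p + P x u ^ 2 * M.z a v ^ p
        + P x v ^ 2 * M.z a u ^ p) ≤ P a u ^ 2 * M.z x v ^ p + P a v ^ 2 * M.z x u ^ p + P x u ^ 2 * M.z a v ^ p
        + P x v ^ 2 * M.z a u ^ p := by
      refine mul_le_of_le_one_left ?_ h2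
      apply_rules (maxDepth := 400) [hz, sq_nonneg, add_nonneg, mul_nonneg]
    have q : ∀ A B Y : ℝ, 0 ≤ A → 0 ≤ Y → h ^ 2 * B ≤ 1 → 0 ≤ B → h ^ 4 * (A * B * Y) ≤ A * Y := by
      intro A B Y hA hY hB hB0
      have e : h ^ 4 * (A * B * Y) = (h ^ 2 * (h ^ 2 * B)) * (A * Y) := by ring
      rw [e]
      refine mul_le_of_le_one_left (mul_nonneg hA hY) ?_
      calc h ^ 2 * (h ^ 2 * B) ≤ 1 * 1 := mul_le_mul h2 hB (mul_nonneg h20 hB0) zero_le_one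
        _ = 1 := one_mul 1
    have k5 := q (P a u ^ 2) (P x u ^ 2) (M.z v v ^ p) (sq_nonneg _) (hz _ _) (s5hs_hP H hxA hu) (sq_nonneg _)
    have k6 := q (P a v ^ 2) (P x v ^ 2) (M.z u u ^ p) (sq_nonneg _) (hz _ _) (s5hs_hP H hxA hv) (sq_nonneg _)
    have k7 := q (P x v ^ 2) (P a u ^ 2) (M.z u v ^ p) (sq_nonneg _) (hz _ _) (s5hs_hP H ha hu) (sq_nonneg _)
    have k8 := q (P x u ^ 2) (P a v ^ 2) (M.z u v ^ p) (sq_nonneg _) (hz _ _) (s5hs_hP H ha hv) (sq_nonneg _)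
    have tot : h ^ 2 * (P a u ^ 2 * M.z x v ^ p + P a v ^ 2 * M.z x u ^ p + P x u ^ 2 * M.z a v ^ p
        + P x v ^ 2 * M.z a u ^ p) + h ^ 4 * (P a u ^ 2 * P x u ^ 2 * M.z v v ^ p
        + P a v ^ 2 * P x v ^ 2 * M.z u u ^ p + P a u ^ 2 * P x v ^ 2 * M.z u v ^ p
        + P a v ^ 2 * P x u ^ 2 * M.z u v ^ p) ≤
        P a u ^ 2 * M.z x v ^ p + P a v ^ 2 * M.z x u ^ p + P x u ^ 2 * M.z a v ^ p
        + P x v ^ 2 * M.z a u ^ p + P a u ^ 2 * M.z v v ^ p + P a v ^ 2 * M.z u u ^ p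
        + P x v ^ 2 * M.z u v ^ p + P x u ^ 2 * M.z u v ^ p := by
      nlinarith
    exact (mul_le_mul_of_nonneg_left tot hw).trans (le_of_eq (by ring))
  · intro a b u v
    apply_rules (maxDepth := 400) [hz, hm, hI, sq_nonneg, add_nonneg, mul_nonneg]
  · have hF := s5hs_F0 M p hp
    have hN0 := s5hs_N0 M p hp 0
    have hC00 : 0 ≤ C0 := by linarith
    have hCR0 : 0 ≤ CR := by linarith
    have b0 : 0 ≤ C0 * CR * (M.S.card : ℝ) := by positivity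
    have v1 : C0 * CR * (M.S.card : ℝ) * M.F p ≤ dd * (C0 * CR * (M.S.card : ℝ) * M.F p) :=
      le_mul_of_one_le_left (mul_nonneg b0 hF) hdd
    have v2 : C0 * CR * (M.S.card : ℝ) * M.N p 0 ≤ dd * (C0 * CR * (M.S.card : ℝ) * M.N p 0) :=
      le_mul_of_one_le_left (mul_nonneg b0 hN0) hdd
    have v3 : 0 ≤ dd * (C0 * CR * (M.S.card : ℝ) * M.F p) := by positivity
    have v4 : 0 ≤ dd * (C0 * CR * (M.S.card : ℝ) * M.N p 0) := by positivity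
    nlinarith


/-- NEAR FAMILY: hit configurations -/
theorem s5_sum_hit_near (H : S5HiHyp dd C0 CR R Ccol μ V ρ εs σ h M Vd Dg P nxt) (hdd : 1 ≤ dd) (hCR : 1 ≤ CR)
    (p : ℕ) (hp : Even p) :
    ∑ a ∈ M.Al, ∑ x ∈ M.S, (if M.nr R a x then M.m a * ∑ pr ∈ M.S.offDiag,
        (if M.nr R a pr.1 || M.nr R x pr.1 then M.z pr.2 pr.2 ^ p else 0) else 0) ≤
      4 * CR ^ 2 * M.S.card * M.N p 0 ∧
    ∑ a ∈ M.Al, ∑ x ∈ M.S, (if M.nr R a x then M.m a * ∑ pr ∈ M.S.offDiag,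
        (if M.nr R a pr.1 || M.nr R x pr.1 then M.z pr.2 x ^ p + M.z a pr.2 ^ p else 0) else 0) ≤
      4 * CR ^ 2 * dd * M.S.card * M.F p := by
  have X := s5hs_ctx H hdd hCR p hp (le_refl R)
  have hl := s5hs_l0 H
  have hz : ∀ c d, 0 ≤ M.z c d ^ p := fun c d => hp.pow_nonneg _
  have hm := s5hs_m0 M
  have hI := s5hsI_nonneg M R
  constructor
  · refine (s5hs_off M.Al M.S M.S _ (fun a x => M.m a * s5hsI M R a x)
      (fun pr a x => if M.nr R a pr.1 || M.nr R x pr.1 then M.z pr.2 pr.2 ^ p else 0) _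
      (fun a _ x _ => s5hs_nearL M R a x _) ?_ ?_).trans X.hit1
    · intro a _ x _ u _ v _
      exact mul_le_mul_of_nonneg_left (s5hs_ite_or (M.nr R a u) (M.nr R x u) _ (hz v v))
        (mul_nonneg (hm a) (hI a x))
    · intro a b u v
      apply_rules (maxDepth := 400) [hz, hm, hI, add_nonneg, mul_nonneg]
  · refine (s5hs_off M.Al M.S M.S _ (fun a x => M.m a * s5hsI M R a x)
      (fun pr a x => if M.nr R a pr.1 || M.nr R x pr.1 then M.z pr.2 x ^ p + M.z a pr.2 ^ p else 0) _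
      (fun a _ x _ => s5hs_nearL M R a x _) ?_ ?_).trans (X.hit2.trans ?_)
    · intro a _ x _ u _ v _
      have h1 := mul_le_mul_of_nonneg_left (s5hs_ite_or (M.nr R a u) (M.nr R x u) _
        (add_nonneg (hz x v) (hz a v))) (mul_nonneg (hm a) (hI a x))
      simp only
      rw [H.zsymm v x]
      exact h1
    · intro a b u v
      apply_rules (maxDepth := 400) [hz, hm, hI, add_nonneg, mul_nonneg]
    · have hF := s5hs_F0 M p hp
      have b0 : 0 ≤ CR ^ 2 * (M.S.card : ℝ) * M.F p := by positivity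
      have v1 : CR ^ 2 * (M.S.card : ℝ) * M.F p ≤ dd * (CR ^ 2 * (M.S.card : ℝ) * M.F p) :=
        le_mul_of_one_le_left b0 hdd
      nlinarith

/-- NEAR FAMILY: all inputs -/
theorem s5_sum_Ip_near (H : S5HiHyp dd C0 CR R Ccol μ V ρ εs σ h M Vd Dg P nxt) (hdd : 1 ≤ dd) (hCR : 1 ≤ CR)
    (p : ℕ) (hp : Even p) :
    ∑ a ∈ M.Al, ∑ x ∈ M.S, (if M.nr R a x then M.m a * ∑ pr ∈ M.S.offDiag, s5Ip p M.z pr a x else 0) ≤
      10 * CR * dd * (M.S.card : ℝ) ^ 2 * (M.F p + M.N p 0) := by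
  have X := s5hs_ctx H hdd hCR p hp (le_refl R)
  have hl := s5hs_l0 H
  have hz : ∀ c d, 0 ≤ M.z c d ^ p := fun c d => hp.pow_nonneg _
  have hm := s5hs_m0 M
  have hI := s5hsI_nonneg M R
  refine (s5hs_off M.Al M.S M.S _ (fun a x => M.m a * s5hsI M R a x) (fun pr a x => s5Ip p M.z pr a x) _
    (fun a _ x _ => s5hs_nearL M R a x _) ?_ ?_).trans (X.ipNear.trans ?_)
  · intro a _ x _ u _ v _
    unfold s5Ip
    simp only
    rw [H.zsymm u x, H.zsymm v x]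
    exact le_of_eq (by ring)
  · intro a b u v
    apply_rules (maxDepth := 400) [hz, hm, hI, add_nonneg, mul_nonneg]
  · have hF := s5hs_F0 M p hp
    have hN0 := s5hs_N0 M p hp 0
    have hCR0 : 0 ≤ CR := by linarith
    have b1 : 0 ≤ CR * (M.S.card : ℝ) ^ 2 * M.F p := by positivity
    have b2 : 0 ≤ CR * (M.S.card : ℝ) ^ 2 * M.N p 0 := by positivity
    have v1 := le_mul_of_one_le_left b1 hdd
    have v2 := le_mul_of_one_le_left b2 hdd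
    nlinarith

/-- NEW NEAR PAIRS at level `k + 1`: the four inputs with large coefficients. -/
theorem s5_sum_new (H : S5HiHyp dd C0 CR R Ccol μ V ρ εs σ h M Vd Dg P nxt) (hdd : 1 ≤ dd) (hCR : 1 ≤ CR)
    (p : ℕ) (hp : Even p) (k : ℕ) (hk : k + 1 ≤ R) :
    ∑ a ∈ M.Al, ∑ x ∈ M.S, M.m a * ∑ pr ∈ M.S.offDiag,
        (if M.nr k a pr.1 && M.nr k x pr.2 then
          M.z a x ^ p + M.z pr.2 x ^ p + M.z a pr.1 ^ p + M.z pr.1 pr.2 ^ p else 0) ≤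
      4 * CR ^ 2 * dd * M.S.card * (M.F p + M.N p k) := by
  have X := s5hs_ctx H hdd hCR p hp (show k ≤ R by omega)
  have hl := s5hs_l0 H
  have hz : ∀ c d, 0 ≤ M.z c d ^ p := fun c d => hp.pow_nonneg _
  have hm := s5hs_m0 M
  have hI := s5hsI_nonneg M k
  refine (s5hs_off M.Al M.S M.S _ (fun a _ => M.m a) (fun pr a x => if M.nr k a pr.1 && M.nr k x pr.2 then
          M.z a x ^ p + M.z pr.2 x ^ p + M.z a pr.1 ^ p + M.z pr.1 pr.2 ^ p else 0) _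
    (fun a _ x _ => rfl) ?_ ?_).trans (X.newFour.trans ?_)
  · intro a _ x _ u _ v _
    simp only
    rw [s5hs_ite_and, H.zsymm v x]
    unfold s5hsI
    exact le_of_eq (by ring)
  · intro a b u v
    apply_rules (maxDepth := 400) [hz, hm, hI, add_nonneg, mul_nonneg]
  · have hF := s5hs_F0 M p hp
    have hN := s5hs_N0 M p hp k
    have hCR0 : 0 ≤ CR := by linarith
    have hdd0 : 0 ≤ dd := by linarith
    have c1 : CR ≤ CR ^ 2 := by nlinarith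
    have U0 : 0 ≤ (M.S.card : ℝ) * M.F p := by positivity
    have U1 : 0 ≤ (M.S.card : ℝ) * M.N p k := by positivity
    have a1 : CR ^ 2 ≤ CR ^ 2 * dd := le_mul_of_one_le_right (sq_nonneg _) hdd
    have a2 : dd * CR ≤ CR ^ 2 * dd := by nlinarith
    have a3 : CR ≤ CR ^ 2 * dd := c1.trans a1
    have v1 := mul_le_mul_of_nonneg_right a1 U0
    have v2 := mul_le_mul_of_nonneg_right a2 U1
    have v3 := mul_le_mul_of_nonneg_right a3 U1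
    have v4 : 0 ≤ CR ^ 2 * dd * ((M.S.card : ℝ) * M.F p) := by positivity
    have v5 : 0 ≤ CR ^ 2 * dd * ((M.S.card : ℝ) * M.N p k) := by positivity
    nlinarith

/-- NEW NEAR PAIRS: number (weighted) and all inputs -/
theorem s5_sum_new_Ip (H : S5HiHyp dd C0 CR R Ccol μ V ρ εs σ h M Vd Dg P nxt) (hdd : 1 ≤ dd) (hCR : 1 ≤ CR)
    (p : ℕ) (hp : Even p) :
    ∑ a ∈ M.Al, ∑ x ∈ M.S, M.m a * ∑ pr ∈ M.S.offDiag,
        (if M.nr R a pr.1 && M.nr R x pr.2 then (1 : ℝ) else 0) ≤ CR ^ 2 * dd * M.S.card ∧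
    ∑ a ∈ M.Al, ∑ x ∈ M.S, M.m a * ∑ pr ∈ M.S.offDiag,
        (if M.nr R a pr.1 && M.nr R x pr.2 then s5Ip p M.z pr a x else 0) ≤
      10 * CR ^ 2 * dd * M.S.card * (M.F p + M.N p R) := by
  have X := s5hs_ctx H hdd hCR p hp (le_refl R)
  have hl := s5hs_l0 H
  have hz : ∀ c d, 0 ≤ M.z c d ^ p := fun c d => hp.pow_nonneg _
  have hm := s5hs_m0 M
  have hI := s5hsI_nonneg M R
  constructor
  · refine (s5hs_off M.Al M.S M.S _ (fun a _ => M.m a)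
      (fun pr a x => if M.nr R a pr.1 && M.nr R x pr.2 then (1 : ℝ) else 0) _
      (fun a _ x _ => rfl) ?_ ?_).trans X.newCount
    · intro a _ x _ u _ v _
      simp only
      rw [s5hs_ite_and]
      unfold s5hsI
      exact le_of_eq (by ring)
    · intro a b u v
      apply_rules (maxDepth := 400) [hz, hm, hI, zero_le_one, add_nonneg, mul_nonneg]
  · refine (s5hs_off M.Al M.S M.S _ (fun a _ => M.m a)
      (fun pr a x => if M.nr R a pr.1 && M.nr R x pr.2 then s5Ip p M.z pr a x else 0) _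
      (fun a _ x _ => rfl) ?_ ?_).trans (X.newIp.trans ?_)
    · intro a _ x _ u _ v _
      simp only
      rw [s5hs_ite_and]
      unfold s5hsI s5Ip
      simp only
      rw [H.zsymm u x, H.zsymm v x]
      exact le_of_eq (by ring)
    · intro a b u v
      apply_rules (maxDepth := 400) [hz, hm, hI, add_nonneg, mul_nonneg]
    · have hF := s5hs_F0 M p hp
      have hN := s5hs_N0 M p hp R
      have hN0 := s5hs_N0 M p hp 0
      have hNN := s5hs_Nmono H p hp (Nat.zero_le R)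
      have hCR0 : 0 ≤ CR := by linarith
      have hdd0 : 0 ≤ dd := by linarith
      have c1 : CR ≤ CR ^ 2 := by nlinarith
      have U0 : 0 ≤ (M.S.card : ℝ) * M.F p := by positivity
      have U1 : 0 ≤ (M.S.card : ℝ) * M.N p R := by positivity
      have a1 : CR ^ 2 ≤ CR ^ 2 * dd := le_mul_of_one_le_right (sq_nonneg _) hdd
      have a2 : dd * CR ≤ CR ^ 2 * dd := by nlinarith
      have a3 : CR ≤ CR ^ 2 * dd := c1.trans a1
      have v1 := mul_le_mul_of_nonneg_right a1 U0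
      have v2 := mul_le_mul_of_nonneg_right a2 U1
      have v3 := mul_le_mul_of_nonneg_right a3 U1
      have v4 : 0 ≤ CR ^ 2 * dd * ((M.S.card : ℝ) * M.F p) := by positivity
      have v5 : 0 ≤ CR ^ 2 * dd * ((M.S.card : ℝ) * M.N p R) := by positivity
      have v6 : CR ^ 2 * dd * ((M.S.card : ℝ) * M.N p 0) ≤ CR ^ 2 * dd * ((M.S.card : ℝ) * M.N p R) :=
        mul_le_mul_of_nonneg_left (mul_le_mul_of_nonneg_left hNN hl.le) (by positivity)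
      nlinarith

end sums

/-! ## 5. drift of the families and of the account -/

/-- the error coefficient -/
noncomputable def s5HiErr (p : ℕ) (l : ℕ) (Ccol μ V ρ εs s : ℝ) : ℝ :=
  μ + s ^ (p - 3) * V + Ccol ^ 2 / (l : ℝ) ^ 2 + ρ ^ p + εs ^ p

section drift

variable {α : Type} [DecidableEq α] {dd C0 CR : ℝ} {R : ℕ} {Ccol μ V ρ εs σ h : ℝ} {M : S5Mom α}
  {Vd : Finset (α × α)} {Dg : ℕ} {P : α → α → ℝ} {nxt : α × α → S5Mom α}

theorem s5d_l_ge (H : S5HiHyp dd C0 CR R Ccol μ V ρ εs σ h M Vd Dg P nxt) : (32 : ℝ) ≤ M.S.card := by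
  exact_mod_cast H.hl

theorem s5d_Vd_pos (H : S5HiHyp dd C0 CR R Ccol μ V ρ εs σ h M Vd Dg P nxt) : 0 < (Vd.card : ℝ) := by
  have h1 := s5_card_valid_half H.valid (by have := H.hl; omega) H.hDg
  have h2 := s5d_l_ge H
  have h3 : 0 < (M.S.card : ℝ) ^ 2 / 2 := by positivity
  linarith

theorem s5d_mem (H : S5HiHyp dd C0 CR R Ccol μ V ρ εs σ h M Vd Dg P nxt) {pr : α × α} (hpr : pr ∈ Vd) :
    pr.1 ∈ M.S ∧ pr.2 ∈ M.S ∧ pr.1 ≠ pr.2 := Finset.mem_offDiag.1 (H.valid.sub hpr)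

theorem s5d_nxt_S (H : S5HiHyp dd C0 CR R Ccol μ V ρ εs σ h M Vd Dg P nxt) {pr : α × α} (hpr : pr ∈ Vd) :
    (nxt pr).S = M.S.filter (fun a => a ≠ pr.1 ∧ a ≠ pr.2) := by
  rw [H.nxtS pr hpr]
  ext a
  simp only [Finset.mem_erase, Finset.mem_filter]
  tauto

theorem s5d_nxt_Al (H : S5HiHyp dd C0 CR R Ccol μ V ρ εs σ h M Vd Dg P nxt) {pr : α × α} (hpr : pr ∈ Vd) :
    (nxt pr).Al = M.Al.filter (fun a => a ≠ pr.1 ∧ a ≠ pr.2) := by
  obtain ⟨h1, h2, -⟩ := s5d_mem H hpr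
  unfold S5Mom.Al
  rw [s5d_nxt_S H hpr, H.nxtG pr hpr]
  ext a
  simp only [Finset.mem_union, Finset.mem_filter]
  constructor
  · rintro (ha | ha)
    · refine ⟨Or.inl ha, ?_, ?_⟩
      · rintro rfl
        exact Finset.disjoint_left.1 H.disj ha h1
      · rintro rfl
        exact Finset.disjoint_left.1 H.disj ha h2
    · exact ⟨Or.inr ha.1, ha.2⟩
  · rintro ⟨ha | ha, h3⟩
    · exact Or.inl ha
    · exact Or.inr ⟨ha, h3⟩

theorem s5d_nxt_card (H : S5HiHyp dd C0 CR R Ccol μ V ρ εs σ h M Vd Dg P nxt) {pr : α × α} (hpr : pr ∈ Vd) :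
    ((nxt pr).S.card : ℝ) = (M.S.card : ℝ) - 2 := by
  obtain ⟨h1, h2, h3⟩ := s5d_mem H hpr
  rw [H.nxtS pr hpr, Finset.card_erase_of_mem (Finset.mem_erase.2 ⟨h3.symm, h2⟩),
    Finset.card_erase_of_mem h1]
  have := H.hl
  rw [Nat.cast_sub (by omega), Nat.cast_sub (by omega)]
  push_cast
  ring

theorem s5d_m_nonneg (M : S5Mom α) (a : α) : 0 ≤ M.m a := by
  unfold S5Mom.m
  split_ifs <;> positivity

/-- the weights grow by at most `l / (l - 2)` -/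
theorem s5d_nxt_m_le (H : S5HiHyp dd C0 CR R Ccol μ V ρ εs σ h M Vd Dg P nxt) {pr : α × α} (hpr : pr ∈ Vd)
    {a : α} (ha : a ∈ (nxt pr).Al) :
    (nxt pr).m a ≤ (M.S.card : ℝ) / ((M.S.card : ℝ) - 2) * M.m a := by
  have hl := s5d_l_ge H
  have hl2 : 0 < (M.S.card : ℝ) - 2 := by linarith
  have hw : 1 ≤ (M.S.card : ℝ) / ((M.S.card : ℝ) - 2) := by
    rw [le_div_iff₀ hl2]
    linarith
  unfold S5Mom.m
  by_cases haS : a ∈ (nxt pr).S
  · have haS' : a ∈ M.S := by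
      rw [s5d_nxt_S H hpr] at haS
      exact (Finset.mem_filter.1 haS).1
    rw [if_pos haS, if_pos haS', s5d_nxt_card H hpr]
    have : (M.S.card : ℝ) ≠ 0 := by linarith
    refine le_of_eq ?_
    field_simp
  · have haG : a ∈ M.G := by
      unfold S5Mom.Al at ha
      rcases Finset.mem_union.1 ha with h1 | h1
      · rwa [H.nxtG pr hpr] at h1
      · exact absurd h1 haS
    have haS' : a ∉ M.S := fun h1 => Finset.disjoint_left.1 H.disj haG h1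
    rw [if_neg haS, if_neg haS', H.nxtG pr hpr]
    have h0 : (0 : ℝ) ≤ (M.G.card : ℝ)⁻¹ := by positivity
    nlinarith

/-- exchange of the pair with the outputs -/
theorem s5d_exchange (H : S5HiHyp dd C0 CR R Ccol μ V ρ εs σ h M Vd Dg P nxt) (A B : Finset α)
    (f : α × α → α → α → ℝ) :
    ∑ pr ∈ Vd, ∑ a ∈ A.filter (fun a => a ≠ pr.1 ∧ a ≠ pr.2),
        ∑ b ∈ B.filter (fun b => b ≠ pr.1 ∧ b ≠ pr.2), f pr a b
      = ∑ a ∈ A, ∑ b ∈ B, ∑ pr ∈ s5Surv Vd (({a, b} : Finset α) ∩ M.S), f pr a b := by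
  have h1 : ∀ pr ∈ Vd, ∑ a ∈ A.filter (fun a => a ≠ pr.1 ∧ a ≠ pr.2),
        ∑ b ∈ B.filter (fun b => b ≠ pr.1 ∧ b ≠ pr.2), f pr a b
      = ∑ a ∈ A, ∑ b ∈ B, if (pr.1 ∉ ({a, b} : Finset α) ∩ M.S ∧ pr.2 ∉ ({a, b} : Finset α) ∩ M.S)
          then f pr a b else 0 := by
    intro pr hpr
    obtain ⟨hu, hv, -⟩ := s5d_mem H hpr
    rw [Finset.sum_filter]
    refine Finset.sum_congr rfl fun a _ => ?_
    by_cases ha : a ≠ pr.1 ∧ a ≠ pr.2
    · rw [if_pos ha, Finset.sum_filter]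
      refine Finset.sum_congr rfl fun b _ => ?_
      refine if_congr ?_ rfl rfl
      simp only [Finset.mem_inter, Finset.mem_insert, Finset.mem_singleton, hu, hv, and_true]
      constructor
      · rintro ⟨h3, h4⟩
        exact ⟨fun h5 => h5.elim (fun h6 => ha.1 h6.symm) (fun h6 => h3 h6.symm),
          fun h5 => h5.elim (fun h6 => ha.2 h6.symm) (fun h6 => h4 h6.symm)⟩
      · rintro ⟨h3, h4⟩
        exact ⟨fun h5 => h3 (Or.inr h5.symm), fun h5 => h4 (Or.inr h5.symm)⟩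
    · rw [if_neg ha]
      symm
      refine Finset.sum_eq_zero fun b _ => if_neg ?_
      simp only [Finset.mem_inter, Finset.mem_insert, Finset.mem_singleton, hu, hv, and_true]
      rintro ⟨h3, h4⟩
      exact ha ⟨fun h5 => h3 (Or.inl h5.symm), fun h5 => h4 (Or.inl h5.symm)⟩
  rw [Finset.sum_congr rfl h1, Finset.sum_comm]
  refine Finset.sum_congr rfl fun a _ => ?_
  rw [Finset.sum_comm]
  refine Finset.sum_congr rfl fun b _ => ?_
  unfold s5Surv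
  rw [Finset.sum_filter]

theorem s5d_pow_pred_le (p : ℕ) (hp : Even p) (hp1 : 1 ≤ p) (y : ℝ) : |y ^ (p - 1)| ≤ 1 + y ^ p := by
  rw [abs_pow, ← hp.pow_abs y]
  have h0 := abs_nonneg y
  rcases le_total |y| 1 with h | h
  · have h1 : |y| ^ (p - 1) ≤ 1 := pow_le_one₀ h0 h
    have h2 : 0 ≤ |y| ^ p := by positivity
    linarith
  · have h1 : |y| ^ (p - 1) ≤ |y| ^ p := pow_le_pow_right₀ h (by omega)
    linarith

/-- the averaged Taylor inequality for one output -/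
theorem s5d_taylor_avg (H : S5HiHyp dd C0 CR R Ccol μ V ρ εs σ h M Vd Dg P nxt) (p : ℕ) (hp : Even p)
    (hp4 : 4 ≤ p) (s : ℝ) (hs : (2 : ℝ) ^ p ≤ s) {a b : α} (ha : a ∈ M.Al) (hb : b ∈ M.Al) :
    (∑ pr ∈ s5Surv Vd (({a, b} : Finset α) ∩ M.S), (nxt pr).z a b ^ p) / (Vd.card : ℝ)
      ≤ M.z a b ^ p + (p * μ + 2 ^ p * s ^ (p - 3) * V) * (1 + M.z a b ^ p)
        + 2 * ((∑ pr ∈ s5Surv Vd (({a, b} : Finset α) ∩ M.S), ((nxt pr).z a b - M.z a b) ^ p)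
          / (Vd.card : ℝ)) := by
  have hc := s5d_Vd_pos H
  have h2p : (1 : ℝ) ≤ 2 ^ p := one_le_pow₀ (by norm_num)
  have hs1 : 1 ≤ s := h2p.trans hs
  have hs0 : 0 < s := by linarith
  set Sv := s5Surv Vd (({a, b} : Finset α) ∩ M.S) with hSv
  set y := M.z a b with hy
  have hyp : 0 ≤ y ^ p := hp.pow_nonneg y
  have hpt : ∀ pr ∈ Sv, (nxt pr).z a b ^ p ≤ y ^ p + p * y ^ (p - 1) * ((nxt pr).z a b - y)
      + 2 ^ p * s ^ (p - 3) * (1 + y ^ p) * ((nxt pr).z a b - y) ^ 2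
      + 2 * ((nxt pr).z a b - y) ^ p := by
    intro pr _
    have h1 := s5_taylor_le p hp hp4 s y ((nxt pr).z a b - y) hs1
    rw [add_sub_cancel] at h1
    have h2 : 2 ^ p / s ≤ 1 := (div_le_one hs0).2 hs
    have h3 : 0 ≤ ((nxt pr).z a b - y) ^ p := hp.pow_nonneg _
    nlinarith
  have hsum := Finset.sum_le_sum hpt
  rw [Finset.sum_add_distrib, Finset.sum_add_distrib, Finset.sum_add_distrib, Finset.sum_const,
    nsmul_eq_mul, ← Finset.mul_sum, ← Finset.mul_sum, ← Finset.mul_sum] at hsum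
  have hcard : (Sv.card : ℝ) ≤ Vd.card := by
    exact_mod_cast Finset.card_le_card (s5c_surv_sub Vd _)
  have hmean := H.mean a ha b hb
  have hsec := H.second a ha b hb
  rw [← hSv, ← hy] at hmean hsec
  rw [div_le_iff₀ hc] at hmean hsec
  have t1 : (Sv.card : ℝ) * y ^ p ≤ y ^ p * Vd.card := by nlinarith
  have t2 : p * y ^ (p - 1) * ∑ pr ∈ Sv, ((nxt pr).z a b - y) ≤ (p * μ * (1 + y ^ p)) * Vd.card := by
    have h1 := s5d_pow_pred_le p hp (by omega) y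
    calc p * y ^ (p - 1) * ∑ pr ∈ Sv, ((nxt pr).z a b - y)
        ≤ |p * y ^ (p - 1) * ∑ pr ∈ Sv, ((nxt pr).z a b - y)| := le_abs_self _
      _ = p * (|y ^ (p - 1)| * |∑ pr ∈ Sv, ((nxt pr).z a b - y)|) := by
          rw [abs_mul, abs_mul, Nat.abs_cast]; ring
      _ ≤ p * ((1 + y ^ p) * (μ * Vd.card)) := by
          refine mul_le_mul_of_nonneg_left ?_ (Nat.cast_nonneg _)
          exact mul_le_mul h1 hmean (abs_nonneg _) (by linarith)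
      _ = (p * μ * (1 + y ^ p)) * Vd.card := by ring
  have t3 : 2 ^ p * s ^ (p - 3) * (1 + y ^ p) * ∑ pr ∈ Sv, ((nxt pr).z a b - y) ^ 2
      ≤ (2 ^ p * s ^ (p - 3) * V * (1 + y ^ p)) * Vd.card := by
    calc 2 ^ p * s ^ (p - 3) * (1 + y ^ p) * ∑ pr ∈ Sv, ((nxt pr).z a b - y) ^ 2
        ≤ 2 ^ p * s ^ (p - 3) * (1 + y ^ p) * (V * Vd.card) :=
          mul_le_mul_of_nonneg_left hsec (by positivity)
      _ = _ := by ring
  rw [div_le_iff₀ hc]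
  have e : (y ^ p + (p * μ + 2 ^ p * s ^ (p - 3) * V) * (1 + y ^ p)
        + 2 * ((∑ pr ∈ Sv, ((nxt pr).z a b - y) ^ p) / (Vd.card : ℝ))) * (Vd.card : ℝ)
      = y ^ p * Vd.card + (p * μ * (1 + y ^ p)) * Vd.card
        + (2 ^ p * s ^ (p - 3) * V * (1 + y ^ p)) * Vd.card
        + 2 * ∑ pr ∈ Sv, ((nxt pr).z a b - y) ^ p := by
    field_simp
    ring
  rw [e]
  linarith


omit [DecidableEq α] in
theorem s5d_Ip_nonneg (p : ℕ) (hp : Even p) (z : α → α → ℝ) (pr : α × α) (a b : α) :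
    0 ≤ s5Ip p z pr a b := by
  unfold s5Ip
  have := fun c d => hp.pow_nonneg (z c d)
  linarith [this pr.1 b, this pr.2 b, this a pr.1, this a pr.2, this pr.1 pr.1, this pr.2 pr.2,
    this pr.1 pr.2]

omit [DecidableEq α] in
theorem s5d_Q2_nonneg (p : ℕ) (hp : Even p) (h : ℝ) (P z : α → α → ℝ) (pr : α × α) (a b : α) :
    0 ≤ s5Q2 p h P z pr a b := by
  unfold s5Q2
  have hz := fun c d => hp.pow_nonneg (z c d)
  have := hz pr.2 b
  have := hz pr.1 b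
  have := hz a pr.2
  have := hz a pr.1
  have := hz pr.2 pr.2
  have := hz pr.1 pr.1
  have := hz pr.2 pr.1
  have := hz pr.1 pr.2
  positivity

theorem s5d_sum_mm (H : S5HiHyp dd C0 CR R Ccol μ V ρ εs σ h M Vd Dg P nxt) (hdd : 1 ≤ dd) :
    ∑ a ∈ M.Al, ∑ b ∈ M.Al, M.m a * M.m b = 4 := by
  rw [← Finset.sum_mul_sum, (s5_m_facts H hdd).2.2.2]
  norm_num

omit [DecidableEq α] in
theorem s5d_offDiag_card (S : Finset α) : (S.offDiag.card : ℝ) ≤ (S.card : ℝ) ^ 2 := by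
  rw [s5c_card_offDiag]
  have : (0 : ℝ) ≤ S.card := Nat.cast_nonneg _
  nlinarith

/-- the pure power of the pair family, summed -/
theorem s5d_F_pure (H : S5HiHyp dd C0 CR R Ccol μ V ρ εs σ h M Vd Dg P nxt) (hdd : 1 ≤ dd) (hCR : 1 ≤ CR)
    (p : ℕ) (hp : Even p) (hp4 : 4 ≤ p) :
    ∑ a ∈ M.Al, ∑ b ∈ M.Al, M.m a * M.m b *
        ((∑ pr ∈ s5Surv Vd (({a, b} : Finset α) ∩ M.S), ((nxt pr).z a b - M.z a b) ^ p) / (Vd.card : ℝ))
      ≤ 2 / (M.S.card : ℝ) ^ 2 * (60 * (8 * C0 * M.S.card * M.F p + 2 * dd ^ 2 * Ccol ^ 2 * (M.N p 0 + M.F p))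
        + 9 ^ p * (100 * CR ^ 2 * dd ^ 2 * (M.F p + M.N p R))
        + 480 ^ p * (4 * (M.S.card : ℝ) ^ 2 * ρ ^ p
          + εs ^ p * ((M.S.card : ℝ) ^ 2 * (12 * M.F p + 8 * M.N p 0)))) := by
  have hρp : 0 ≤ ρ ^ p := pow_nonneg H.hρ _
  have hεp : 0 ≤ εs ^ p := pow_nonneg H.hεs _
  have hB0 : ∀ (a b : α) (pr : α × α), 0 ≤ 60 * s5Q2 p h P M.z pr a b
      + (if s5Bad (M.nr R) pr a b then 9 ^ p * s5Ip p M.z pr a b else 0)
      + 480 ^ p * (ρ ^ p + εs ^ p * s5Ip p M.z pr a b) := by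
    intro a b pr
    have h1 := s5d_Q2_nonneg p hp h P M.z pr a b
    have h2 := s5d_Ip_nonneg p hp M.z pr a b
    have h3 : 0 ≤ (if s5Bad (M.nr R) pr a b then 9 ^ p * s5Ip p M.z pr a b else 0) := by
      split_ifs
      · positivity
      · exact le_rfl
    positivity
  have h1 : ∀ a ∈ M.Al, ∀ b ∈ M.Al, M.m a * M.m b *
        ((∑ pr ∈ s5Surv Vd (({a, b} : Finset α) ∩ M.S), ((nxt pr).z a b - M.z a b) ^ p) / (Vd.card : ℝ))
      ≤ 2 / (M.S.card : ℝ) ^ 2 * (M.m a * M.m b * ∑ pr ∈ M.S.offDiag, (60 * s5Q2 p h P M.z pr a b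
      + (if s5Bad (M.nr R) pr a b then 9 ^ p * s5Ip p M.z pr a b else 0)
      + 480 ^ p * (ρ ^ p + εs ^ p * s5Ip p M.z pr a b))) := by
    intro a ha b hb
    have h2 : (∑ pr ∈ s5Surv Vd (({a, b} : Finset α) ∩ M.S), ((nxt pr).z a b - M.z a b) ^ p)
        / (Vd.card : ℝ)
        ≤ (∑ pr ∈ s5Surv Vd (({a, b} : Finset α) ∩ M.S), (60 * s5Q2 p h P M.z pr a b
      + (if s5Bad (M.nr R) pr a b then 9 ^ p * s5Ip p M.z pr a b else 0)
      + 480 ^ p * (ρ ^ p + εs ^ p * s5Ip p M.z pr a b))) / (Vd.card : ℝ) := by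
      refine div_le_div_of_nonneg_right (Finset.sum_le_sum fun pr hpr => ?_) (Nat.cast_nonneg _)
      have h3 := s5_pow_pair H p hp hp4 (s5c_surv_sub Vd _ hpr) ha hb _ (H.lin a ha b hb pr hpr)
      rwa [add_sub_cancel] at h3
    have h3 := s5_sum_surv_le_of_nonneg H.valid (by have := H.hl; omega) H.hDg
      (({a, b} : Finset α) ∩ M.S) (fun pr => 60 * s5Q2 p h P M.z pr a b
      + (if s5Bad (M.nr R) pr a b then 9 ^ p * s5Ip p M.z pr a b else 0)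
      + 480 ^ p * (ρ ^ p + εs ^ p * s5Ip p M.z pr a b)) (fun pr _ => hB0 a b pr)
    have hmm : 0 ≤ M.m a * M.m b := mul_nonneg (s5d_m_nonneg M a) (s5d_m_nonneg M b)
    calc M.m a * M.m b * _ ≤ M.m a * M.m b * (2 / (M.S.card : ℝ) ^ 2 *
          ∑ pr ∈ M.S.offDiag, (60 * s5Q2 p h P M.z pr a b
      + (if s5Bad (M.nr R) pr a b then 9 ^ p * s5Ip p M.z pr a b else 0)
      + 480 ^ p * (ρ ^ p + εs ^ p * s5Ip p M.z pr a b))) :=
          mul_le_mul_of_nonneg_left (h2.trans h3) hmm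
      _ = _ := by ring
  refine (Finset.sum_le_sum fun a ha => Finset.sum_le_sum fun b hb => h1 a ha b hb).trans ?_
  simp_rw [← Finset.mul_sum]
  refine mul_le_mul_of_nonneg_left ?_ (by positivity)
  have e : ∀ a b : α, M.m a * M.m b * ∑ pr ∈ M.S.offDiag, (60 * s5Q2 p h P M.z pr a b
      + (if s5Bad (M.nr R) pr a b then 9 ^ p * s5Ip p M.z pr a b else 0)
      + 480 ^ p * (ρ ^ p + εs ^ p * s5Ip p M.z pr a b))
      = 60 * (M.m a * M.m b * ∑ pr ∈ M.S.offDiag, s5Q2 p h P M.z pr a b)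
        + 9 ^ p * (M.m a * M.m b *
          ∑ pr ∈ M.S.offDiag, (if s5Bad (M.nr R) pr a b then s5Ip p M.z pr a b else 0))
        + 480 ^ p * (ρ ^ p * (M.S.offDiag.card : ℝ) * (M.m a * M.m b)
          + εs ^ p * (M.m a * M.m b * ∑ pr ∈ M.S.offDiag, s5Ip p M.z pr a b)) := by
    intro a b
    have e1 : ∀ pr : α × α, (if s5Bad (M.nr R) pr a b then 9 ^ p * s5Ip p M.z pr a b else 0)
        = 9 ^ p * (if s5Bad (M.nr R) pr a b then s5Ip p M.z pr a b else 0) := by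
      intro pr
      split_ifs <;> simp
    simp_rw [e1]
    rw [Finset.sum_add_distrib, Finset.sum_add_distrib, ← Finset.mul_sum, ← Finset.mul_sum,
      ← Finset.mul_sum, Finset.sum_add_distrib, Finset.sum_const, nsmul_eq_mul, ← Finset.mul_sum]
    ring
  have e2 : ∑ a ∈ M.Al, ∑ b ∈ M.Al, M.m a * M.m b * ∑ pr ∈ M.S.offDiag, (60 * s5Q2 p h P M.z pr a b
      + (if s5Bad (M.nr R) pr a b then 9 ^ p * s5Ip p M.z pr a b else 0)
      + 480 ^ p * (ρ ^ p + εs ^ p * s5Ip p M.z pr a b))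
      = 60 * (∑ a ∈ M.Al, ∑ b ∈ M.Al, M.m a * M.m b * ∑ pr ∈ M.S.offDiag, s5Q2 p h P M.z pr a b)
        + 9 ^ p * (∑ a ∈ M.Al, ∑ b ∈ M.Al, M.m a * M.m b *
          ∑ pr ∈ M.S.offDiag, (if s5Bad (M.nr R) pr a b then s5Ip p M.z pr a b else 0))
        + 480 ^ p * (ρ ^ p * (M.S.offDiag.card : ℝ) * (∑ a ∈ M.Al, ∑ b ∈ M.Al, M.m a * M.m b)
          + εs ^ p * (∑ a ∈ M.Al, ∑ b ∈ M.Al, M.m a * M.m b * ∑ pr ∈ M.S.offDiag, s5Ip p M.z pr a b)) := by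
    rw [Finset.sum_congr rfl fun a _ => Finset.sum_congr rfl fun b _ => e a b]
    simp only [Finset.sum_add_distrib, Finset.mul_sum, mul_add]
  rw [e2, s5d_sum_mm H hdd]
  have q1 := s5_sum_Q2_pair H hdd p hp
  have q2 := s5_sum_bad_pair H hdd hCR p hp
  have q3 := s5_sum_Ip_pair H p hp
  have q4 := s5d_offDiag_card M.S
  have hp9 : (0 : ℝ) ≤ 9 ^ p := by positivity
  have hp480 : (0 : ℝ) ≤ 480 ^ p := by positivity
  have r1 := mul_le_mul_of_nonneg_left q2 hp9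
  have r2 : ρ ^ p * (M.S.offDiag.card : ℝ) * 4 ≤ 4 * (M.S.card : ℝ) ^ 2 * ρ ^ p := by nlinarith
  have r3 := mul_le_mul_of_nonneg_left q3 hεp
  have r4 := mul_le_mul_of_nonneg_left (add_le_add r2 r3) hp480
  linarith

theorem s5d_w_facts (l : ℝ) (hl : 32 ≤ l) :
    1 ≤ l / (l - 2) ∧ l / (l - 2) ≤ 1 + 3 / l ∧ l / (l - 2) ≤ 2 ∧ (l / (l - 2)) ^ 2 ≤ 1 + 5 / l ∧
      (l / (l - 2)) ^ 2 ≤ 2 := by
  have hl0 : 0 < l := by linarith
  have hl2 : 0 < l - 2 := by linarith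
  have e : l / (l - 2) = 1 + 2 / (l - 2) := by field_simp; ring
  have ht0 : 0 ≤ 2 / (l - 2) := by positivity
  have ht : 2 / (l - 2) ≤ (11 / 5) / l := by
    rw [div_le_div_iff₀ hl2 hl0]; linarith
  have hi : 1 / l ≤ 1 / 32 := by
    rw [div_le_div_iff₀ hl0 (by norm_num)]; linarith
  have hi0 : 0 < 1 / l := by positivity
  have e2 : (11 / 5) / l = 11 / 5 * (1 / l) := by ring
  have e3 : 3 / l = 3 * (1 / l) := by ring
  have e5 : 5 / l = 5 * (1 / l) := by ring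
  rw [e, e3, e5]
  rw [e2] at ht
  generalize 2 / (l - 2) = t at *
  generalize 1 / l = i at *
  refine ⟨by linarith, by linarith, by linarith, by nlinarith, by nlinarith⟩

theorem s5d_F_arith (l F N0 NR C0 dd CR Ccol μ V' ρp εp w2 pp tp n9 n480 : ℝ)
    (hl : 32 ≤ l) (hF : 0 ≤ F) (hN0 : 0 ≤ N0) (hN : N0 ≤ NR) (hC0 : 1 ≤ C0) (hdd : 1 ≤ dd) (hCR : 1 ≤ CR)
    (hCcol : 1 ≤ Ccol) (hμ : 0 ≤ μ) (hV : 0 ≤ V') (hρ : 0 ≤ ρp) (hε : 0 ≤ εp)
    (hw : w2 ≤ 1 + 5 / l) (hw2 : w2 ≤ 2)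
    (hpp : 0 ≤ pp) (htp : 0 ≤ tp) (h9 : 0 ≤ n9) (h480 : 0 ≤ n480) :
    w2 * (F + (pp * μ + tp * V') * (4 + F)
      + 2 * (2 / l ^ 2 * (60 * (8 * C0 * l * F + 2 * dd ^ 2 * Ccol ^ 2 * (N0 + F))
        + n9 * (100 * CR ^ 2 * dd ^ 2 * (F + NR))
        + n480 * (4 * l ^ 2 * ρp + εp * (l ^ 2 * (12 * F + 8 * N0))))))
      ≤ (1 + (5 + 3840 * C0) / l) * F
        + 2 * (4 * pp + 4 * tp + 480 * dd ^ 2 + 400 * n9 * CR ^ 2 * dd ^ 2 + 48 * n480)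
          * (μ + V' + Ccol ^ 2 / l ^ 2 + ρp + εp) * (1 + F + NR) := by
  have hl0 : 0 < l := by linarith
  obtain ⟨q, hq⟩ : ∃ q, q = Ccol ^ 2 / l ^ 2 := ⟨_, rfl⟩
  obtain ⟨j, hj⟩ : ∃ j, j = 1 / l ^ 2 := ⟨_, rfl⟩
  obtain ⟨G, hG⟩ : ∃ G, G = F / l := ⟨_, rfl⟩
  have hj0 : 0 ≤ j := by rw [hj]; positivity
  have hG0 : 0 ≤ G := by rw [hG]; positivity
  have hjq : j ≤ q := by
    rw [hj, hq]
    refine div_le_div_of_nonneg_right ?_ (by positivity)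
    nlinarith
  have e1 : 2 / l ^ 2 * (60 * (8 * C0 * l * F + 2 * dd ^ 2 * Ccol ^ 2 * (N0 + F))
        + n9 * (100 * CR ^ 2 * dd ^ 2 * (F + NR))
        + n480 * (4 * l ^ 2 * ρp + εp * (l ^ 2 * (12 * F + 8 * N0))))
      = 960 * C0 * G + 240 * dd ^ 2 * (q * (N0 + F)) + 200 * n9 * CR ^ 2 * dd ^ 2 * (j * (F + NR))
        + n480 * (8 * ρp + εp * (24 * F + 16 * N0)) := by
    rw [hq, hj, hG]; field_simp; ring
  have e2 : (1 + (5 + 3840 * C0) / l) * F = F + 5 * G + 3840 * C0 * G := by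
    rw [hG]; field_simp; ring
  have e3 : (1 + 5 / l) * F = F + 5 * G := by
    rw [hG]; field_simp
  rw [e1, e2, ← hq]
  obtain ⟨E, hE⟩ : ∃ E, E = μ + V' + q + ρp + εp := ⟨_, rfl⟩
  obtain ⟨X, hX⟩ : ∃ X, X = 1 + F + NR := ⟨_, rfl⟩
  rw [← hE, ← hX]
  have hq0 : 0 ≤ q := hj0.trans hjq
  have hE0 : 0 ≤ E := by rw [hE]; linarith
  have hX1 : 1 ≤ X := by rw [hX]; linarith
  have hEX : 0 ≤ E * X := mul_nonneg hE0 (by linarith)
  have T1 : (pp * μ + tp * V') * (4 + F) ≤ (4 * pp + 4 * tp) * (E * X) := by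
    have a1 : pp * μ + tp * V' ≤ (pp + tp) * E := by
      have b1 : pp * μ ≤ pp * E := mul_le_mul_of_nonneg_left (by rw [hE]; linarith) hpp
      have b2 : tp * V' ≤ tp * E := mul_le_mul_of_nonneg_left (by rw [hE]; linarith) htp
      linarith
    have a2 : 4 + F ≤ 4 * X := by rw [hX]; linarith
    calc (pp * μ + tp * V') * (4 + F) ≤ ((pp + tp) * E) * (4 * X) :=
          mul_le_mul a1 a2 (by linarith) (mul_nonneg (by linarith) hE0)
      _ = _ := by ring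
  have T2 : q * (N0 + F) ≤ E * X :=
    mul_le_mul (by rw [hE]; linarith) (by rw [hX]; linarith) (by linarith) hE0
  have T3 : j * (F + NR) ≤ E * X :=
    mul_le_mul (by rw [hE]; linarith) (by rw [hX]; linarith) (by linarith) hE0
  have T4 : 8 * ρp + εp * (24 * F + 16 * N0) ≤ 24 * (E * X) := by
    have b1 : ρp * 1 ≤ ρp * X := mul_le_mul_of_nonneg_left hX1 hρ
    have b2 : εp * (24 * F + 16 * N0) ≤ εp * (24 * X) :=
      mul_le_mul_of_nonneg_left (by rw [hX]; linarith) hε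
    have b3 : (ρp + εp) * X ≤ E * X := mul_le_mul_of_nonneg_right (by rw [hE]; linarith) (by linarith)
    linarith
  have hd2 : 0 ≤ dd ^ 2 := by positivity
  have hc9 : 0 ≤ n9 * CR ^ 2 * dd ^ 2 := by positivity
  have U2 := mul_le_mul_of_nonneg_left T2 hd2
  have U3 := mul_le_mul_of_nonneg_left T3 hc9
  have U4 := mul_le_mul_of_nonneg_left T4 h480
  have hA0 : 0 ≤ (pp * μ + tp * V') * (4 + F) := by positivity
  have hB2 : 0 ≤ dd ^ 2 * (q * (N0 + F)) := by positivity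
  have hB3 : 0 ≤ n9 * CR ^ 2 * dd ^ 2 * (j * (F + NR)) :=
    mul_nonneg hc9 (mul_nonneg hj0 (by linarith))
  have hB4 : 0 ≤ n480 * (8 * ρp + εp * (24 * F + 16 * N0)) := by positivity
  have hCG : 0 ≤ C0 * G := mul_nonneg (by linarith) hG0
  have m1 : w2 * F ≤ F + 5 * G := by
    rw [← e3]; exact mul_le_mul_of_nonneg_right hw hF
  have m2 : w2 * (C0 * G) ≤ 2 * (C0 * G) := mul_le_mul_of_nonneg_right hw2 hCG
  have m3 : w2 * ((pp * μ + tp * V') * (4 + F) + 480 * (dd ^ 2 * (q * (N0 + F)))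
      + 400 * (n9 * CR ^ 2 * dd ^ 2 * (j * (F + NR)))
      + 2 * (n480 * (8 * ρp + εp * (24 * F + 16 * N0))))
      ≤ 2 * ((pp * μ + tp * V') * (4 + F) + 480 * (dd ^ 2 * (q * (N0 + F)))
      + 400 * (n9 * CR ^ 2 * dd ^ 2 * (j * (F + NR)))
      + 2 * (n480 * (8 * ρp + εp * (24 * F + 16 * N0)))) :=
    mul_le_mul_of_nonneg_right hw2 (by linarith)
  linarith

/-- the pair family before the arithmetic -/
theorem s5d_F_main (H : S5HiHyp dd C0 CR R Ccol μ V ρ εs σ h M Vd Dg P nxt) (hdd : 1 ≤ dd) (hCR : 1 ≤ CR)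
    (p : ℕ) (hp : Even p) (hp4 : 4 ≤ p) (s : ℝ) (hs : (2 : ℝ) ^ p ≤ s) :
    avgOn Vd (fun pr => (nxt pr).F p) ≤ ((M.S.card : ℝ) / ((M.S.card : ℝ) - 2)) ^ 2 *
      (M.F p + (p * μ + 2 ^ p * (s ^ (p - 3) * V)) * (4 + M.F p)
      + 2 * (2 / (M.S.card : ℝ) ^ 2 * (60 * (8 * C0 * M.S.card * M.F p + 2 * dd ^ 2 * Ccol ^ 2 * (M.N p 0 + M.F p))
        + 9 ^ p * (100 * CR ^ 2 * dd ^ 2 * (M.F p + M.N p R))
        + 480 ^ p * (4 * (M.S.card : ℝ) ^ 2 * ρ ^ p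
          + εs ^ p * ((M.S.card : ℝ) ^ 2 * (12 * M.F p + 8 * M.N p 0)))))) := by
  have hc := s5d_Vd_pos H
  have hl := s5d_l_ge H
  obtain ⟨hw1, -, -, -, -⟩ := s5d_w_facts _ hl
  obtain ⟨w, hw⟩ : ∃ w, w = (M.S.card : ℝ) / ((M.S.card : ℝ) - 2) := ⟨_, rfl⟩
  rw [← hw] at hw1 ⊢
  have hw0 : 0 ≤ w := by linarith
  have h1 : ∀ pr ∈ Vd, (nxt pr).F p ≤ ∑ a ∈ M.Al.filter (fun a => a ≠ pr.1 ∧ a ≠ pr.2),
      ∑ b ∈ M.Al.filter (fun b => b ≠ pr.1 ∧ b ≠ pr.2), w ^ 2 * (M.m a * M.m b * (nxt pr).z a b ^ p) := by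
    intro pr hpr
    unfold S5Mom.F
    rw [s5d_nxt_Al H hpr]
    refine Finset.sum_le_sum fun a ha => Finset.sum_le_sum fun b hb => ?_
    rw [← s5d_nxt_Al H hpr] at ha hb
    have ha1 := s5d_nxt_m_le H hpr ha
    have hb1 := s5d_nxt_m_le H hpr hb
    rw [← hw] at ha1 hb1
    have hz : 0 ≤ (nxt pr).z a b ^ p := hp.pow_nonneg _
    have h2 : (nxt pr).m a * (nxt pr).m b ≤ (w * M.m a) * (w * M.m b) :=
      mul_le_mul ha1 hb1 (s5d_m_nonneg _ _) (mul_nonneg hw0 (s5d_m_nonneg _ _))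
    calc (nxt pr).m a * (nxt pr).m b * (nxt pr).z a b ^ p
        ≤ ((w * M.m a) * (w * M.m b)) * (nxt pr).z a b ^ p := mul_le_mul_of_nonneg_right h2 hz
      _ = _ := by ring
  have h2 := Finset.sum_le_sum h1
  rw [s5d_exchange H] at h2
  unfold avgOn
  refine (div_le_div_of_nonneg_right h2 hc.le).trans ?_
  have e1 : (∑ a ∈ M.Al, ∑ b ∈ M.Al, ∑ pr ∈ s5Surv Vd (({a, b} : Finset α) ∩ M.S),
        w ^ 2 * (M.m a * M.m b * (nxt pr).z a b ^ p)) / (Vd.card : ℝ)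
      = w ^ 2 * ∑ a ∈ M.Al, ∑ b ∈ M.Al, M.m a * M.m b *
        ((∑ pr ∈ s5Surv Vd (({a, b} : Finset α) ∩ M.S), (nxt pr).z a b ^ p) / (Vd.card : ℝ)) := by
    rw [Finset.sum_div, Finset.mul_sum]
    refine Finset.sum_congr rfl fun a _ => ?_
    rw [Finset.sum_div, Finset.mul_sum]
    refine Finset.sum_congr rfl fun b _ => ?_
    rw [← Finset.mul_sum, ← Finset.mul_sum]
    ring
  rw [e1]
  refine mul_le_mul_of_nonneg_left ?_ (by positivity)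
  have h3 : ∀ a ∈ M.Al, ∀ b ∈ M.Al, M.m a * M.m b *
        ((∑ pr ∈ s5Surv Vd (({a, b} : Finset α) ∩ M.S), (nxt pr).z a b ^ p) / (Vd.card : ℝ))
      ≤ M.m a * M.m b * M.z a b ^ p
        + (p * μ + 2 ^ p * (s ^ (p - 3) * V)) * (M.m a * M.m b + M.m a * M.m b * M.z a b ^ p)
        + 2 * (M.m a * M.m b * ((∑ pr ∈ s5Surv Vd (({a, b} : Finset α) ∩ M.S),
          ((nxt pr).z a b - M.z a b) ^ p) / (Vd.card : ℝ))) := by
    intro a ha b hb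
    have h4 := mul_le_mul_of_nonneg_left (s5d_taylor_avg H p hp hp4 s hs ha hb)
      (mul_nonneg (s5d_m_nonneg M a) (s5d_m_nonneg M b))
    refine h4.trans (le_of_eq ?_)
    ring
  refine (Finset.sum_le_sum fun a ha => Finset.sum_le_sum fun b hb => h3 a ha b hb).trans ?_
  have e2 : ∑ a ∈ M.Al, ∑ b ∈ M.Al, (M.m a * M.m b * M.z a b ^ p
        + (p * μ + 2 ^ p * (s ^ (p - 3) * V)) * (M.m a * M.m b + M.m a * M.m b * M.z a b ^ p)
        + 2 * (M.m a * M.m b * ((∑ pr ∈ s5Surv Vd (({a, b} : Finset α) ∩ M.S),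
          ((nxt pr).z a b - M.z a b) ^ p) / (Vd.card : ℝ))))
      = M.F p + (p * μ + 2 ^ p * (s ^ (p - 3) * V)) * ((∑ a ∈ M.Al, ∑ b ∈ M.Al, M.m a * M.m b) + M.F p)
        + 2 * ∑ a ∈ M.Al, ∑ b ∈ M.Al, M.m a * M.m b *
          ((∑ pr ∈ s5Surv Vd (({a, b} : Finset α) ∩ M.S), ((nxt pr).z a b - M.z a b) ^ p)
            / (Vd.card : ℝ)) := by
    unfold S5Mom.F
    simp only [Finset.sum_add_distrib, Finset.mul_sum, mul_add]
  rw [e2, s5d_sum_mm H hdd]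
  have h5 := s5d_F_pure H hdd hCR p hp hp4
  linarith

/-! ### the near family -/

/-- weighted sum over outputs `(a, x)` with `c a x` and over all ordered pairs -/
noncomputable def s5dNS (M : S5Mom α) (c : α → α → Bool) (g : α × α → α → α → ℝ) : ℝ :=
  ∑ a ∈ M.Al, ∑ x ∈ M.S, if c a x then M.m a * ∑ pr ∈ M.S.offDiag, g pr a x else 0

theorem s5dNS_add (M : S5Mom α) (c : α → α → Bool) (g1 g2 : α × α → α → α → ℝ) :
    s5dNS M c (fun pr a x => g1 pr a x + g2 pr a x) = s5dNS M c g1 + s5dNS M c g2 := by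
  unfold s5dNS
  rw [← Finset.sum_add_distrib]
  refine Finset.sum_congr rfl fun a _ => ?_
  rw [← Finset.sum_add_distrib]
  refine Finset.sum_congr rfl fun x _ => ?_
  split_ifs
  · rw [Finset.sum_add_distrib, mul_add]
  · simp

theorem s5dNS_smul (M : S5Mom α) (c : α → α → Bool) (t : ℝ) (g : α × α → α → α → ℝ) :
    s5dNS M c (fun pr a x => t * g pr a x) = t * s5dNS M c g := by
  unfold s5dNS
  rw [Finset.mul_sum]
  refine Finset.sum_congr rfl fun a _ => ?_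
  rw [Finset.mul_sum]
  refine Finset.sum_congr rfl fun x _ => ?_
  split_ifs
  · rw [← Finset.mul_sum]; ring
  · simp

theorem s5dNS_mono (M : S5Mom α) (c : α → α → Bool) (g g' : α × α → α → α → ℝ)
    (hg : ∀ pr a x, g pr a x ≤ g' pr a x) : s5dNS M c g ≤ s5dNS M c g' := by
  unfold s5dNS
  refine Finset.sum_le_sum fun a _ => Finset.sum_le_sum fun x _ => ?_
  split_ifs
  · exact mul_le_mul_of_nonneg_left (Finset.sum_le_sum fun pr _ => hg pr a x) (s5d_m_nonneg M a)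
  · exact le_rfl

omit [DecidableEq α] in
theorem s5d_sum_swap (S : Finset α) (f : α × α → ℝ) :
    ∑ pr ∈ S.offDiag, f pr.swap = ∑ pr ∈ S.offDiag, f pr := by
  refine Finset.sum_nbij' Prod.swap Prod.swap ?_ ?_ ?_ ?_ ?_
  · intro pr hpr
    simp only [Finset.mem_offDiag, Prod.fst_swap, Prod.snd_swap] at hpr ⊢
    exact ⟨hpr.2.1, hpr.1, hpr.2.2.symm⟩
  · intro pr hpr
    simp only [Finset.mem_offDiag, Prod.fst_swap, Prod.snd_swap] at hpr ⊢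
    exact ⟨hpr.2.1, hpr.1, hpr.2.2.symm⟩
  · intro pr _; exact Prod.swap_swap pr
  · intro pr _; exact Prod.swap_swap pr
  · intro pr _; rfl

theorem s5dNS_swap (M : S5Mom α) (c : α → α → Bool) (g : α × α → α → α → ℝ) :
    s5dNS M c (fun pr a x => g pr.swap a x) = s5dNS M c g := by
  unfold s5dNS
  refine Finset.sum_congr rfl fun a _ => Finset.sum_congr rfl fun x _ => ?_
  rw [s5d_sum_swap M.S (fun pr => g pr a x)]

theorem s5dNS_const (M : S5Mom α) (c : α → α → Bool) (t : ℝ) :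
    s5dNS M c (fun _ _ _ => t) =
      t * ((M.S.offDiag.card : ℝ) * ∑ a ∈ M.Al, ∑ x ∈ M.S, if c a x then M.m a else 0) := by
  unfold s5dNS
  rw [Finset.mul_sum, Finset.mul_sum]
  refine Finset.sum_congr rfl fun a _ => ?_
  rw [Finset.mul_sum, Finset.mul_sum]
  refine Finset.sum_congr rfl fun x _ => ?_
  split_ifs
  · rw [Finset.sum_const, nsmul_eq_mul]; ring
  · simp

theorem s5dNS_true (M : S5Mom α) (g : α × α → α → α → ℝ) :
    s5dNS M (fun _ _ => true) g = ∑ a ∈ M.Al, ∑ x ∈ M.S, M.m a * ∑ pr ∈ M.S.offDiag, g pr a x := by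
  unfold s5dNS
  simp

omit [DecidableEq α] in
/-- swap invariance -/
theorem s5d_Lin_swap (σ h : ℝ) (P z : α → α → ℝ) (pr : α × α) (a b : α) :
    s5Lin σ h P z pr.swap a b = s5Lin σ h P z pr a b := by
  unfold s5Lin
  simp only [Prod.fst_swap, Prod.snd_swap]
  ring

omit [DecidableEq α] in
theorem s5d_In_swap (z : α → α → ℝ) (hz : ∀ a b, z a b = z b a) (pr : α × α) (a b : α) :
    s5In z pr.swap a b = s5In z pr a b := by
  unfold s5In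
  simp only [Prod.fst_swap, Prod.snd_swap]
  rw [hz pr.2 pr.1]
  ring

omit [DecidableEq α] in
theorem s5d_Ip_swap (p : ℕ) (z : α → α → ℝ) (hz : ∀ a b, z a b = z b a) (pr : α × α) (a b : α) :
    s5Ip p z pr.swap a b = s5Ip p z pr a b := by
  unfold s5Ip
  simp only [Prod.fst_swap, Prod.snd_swap]
  rw [hz pr.2 pr.1]
  ring

/-- the hit part of the bound of the pure power -/
def s5dBh (p : ℕ) (M : S5Mom α) (R : ℕ) (pr : α × α) (a x : α) : ℝ :=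
  if M.nr R a pr.1 || M.nr R x pr.1 then
    M.z pr.2 pr.2 ^ p + 10 ^ p * (M.z pr.2 x ^ p + M.z a pr.2 ^ p) else 0

/-- the residual part -/
def s5dRes (p : ℕ) (ρ εs : ℝ) (z : α → α → ℝ) (pr : α × α) (a x : α) : ℝ :=
  480 ^ p * (ρ ^ p + εs ^ p * s5Ip p z pr a x)

/-- the bound of the pure power of an existing near output -/
def s5dBex (p : ℕ) (h ρ εs : ℝ) (P : α → α → ℝ) (M : S5Mom α) (R : ℕ) (pr : α × α) (a x : α) : ℝ :=
  s5dBh p M R pr a x + s5dBh p M R pr.swap a x + 60 * s5Q2 p h P M.z pr a x + s5dRes p ρ εs M.z pr a x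

/-- the bound of the power of a new near output (one orientation) -/
def s5dBn (p : ℕ) (ρ εs : ℝ) (M : S5Mom α) (cn : α × α → α → α → Bool) (pr : α × α) (a x : α) : ℝ :=
  if cn pr a x then
    10 ^ p * (M.z a x ^ p + M.z pr.2 x ^ p + M.z a pr.1 ^ p + M.z pr.1 pr.2 ^ p) + s5dRes p ρ εs M.z pr a x
  else 0

omit [DecidableEq α] in
theorem s5dBh_nonneg (p : ℕ) (hp : Even p) (M : S5Mom α) (R : ℕ) (pr : α × α) (a x : α) :
    0 ≤ s5dBh p M R pr a x := by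
  unfold s5dBh
  have hz := fun c d => hp.pow_nonneg (M.z c d)
  split_ifs
  · have := hz pr.2 pr.2
    have := hz pr.2 x
    have := hz a pr.2
    positivity
  · exact le_rfl

omit [DecidableEq α] in
theorem s5dRes_nonneg (p : ℕ) (hp : Even p) (ρ εs : ℝ) (hρ : 0 ≤ ρ) (hε : 0 ≤ εs) (z : α → α → ℝ)
    (pr : α × α) (a x : α) : 0 ≤ s5dRes p ρ εs z pr a x := by
  unfold s5dRes
  have := s5d_Ip_nonneg p hp z pr a x
  positivity

omit [DecidableEq α] in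
theorem s5dBex_nonneg (p : ℕ) (hp : Even p) (h ρ εs : ℝ) (hρ : 0 ≤ ρ) (hε : 0 ≤ εs) (P : α → α → ℝ)
    (M : S5Mom α) (R : ℕ) (pr : α × α) (a x : α) : 0 ≤ s5dBex p h ρ εs P M R pr a x := by
  unfold s5dBex
  have h1 := s5dBh_nonneg p hp M R pr a x
  have h2 := s5dBh_nonneg p hp M R pr.swap a x
  have h3 := s5d_Q2_nonneg p hp h P M.z pr a x
  have h4 := s5dRes_nonneg p hp ρ εs hρ hε M.z pr a x
  linarith

omit [DecidableEq α] in
theorem s5dBn_nonneg (p : ℕ) (hp : Even p) (ρ εs : ℝ) (hρ : 0 ≤ ρ) (hε : 0 ≤ εs)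
    (M : S5Mom α) (cn : α × α → α → α → Bool) (pr : α × α) (a x : α) : 0 ≤ s5dBn p ρ εs M cn pr a x := by
  unfold s5dBn
  have hz := fun c d => hp.pow_nonneg (M.z c d)
  split_ifs
  · have := hz a x
    have := hz pr.2 x
    have := hz a pr.1
    have := hz pr.1 pr.2
    have := s5dRes_nonneg p hp ρ εs hρ hε M.z pr a x
    positivity
  · exact le_rfl

/-- pointwise bound, existing near output -/
theorem s5d_ex_point (H : S5HiHyp dd C0 CR R Ccol μ V ρ εs σ h M Vd Dg P nxt) (p : ℕ) (hp : Even p)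
    (hp4 : 4 ≤ p) {pr : α × α} (hpr : pr ∈ Vd) {a x : α} (ha : a ∈ M.Al) (hx : x ∈ M.S)
    (hax : M.nr R a x = true) (r : ℝ) (hr : |r| ≤ ρ + εs * s5In M.z pr a x) :
    (s5Lin σ h P M.z pr a x + r) ^ p ≤ s5dBex p h ρ εs P M R pr a x := by
  have hswap : pr.swap ∈ Vd := H.valid.symm pr.1 pr.2 hpr
  have n1 := s5dBh_nonneg p hp M R pr a x
  have n2 := s5dBh_nonneg p hp M R pr.swap a x
  have n3 := s5d_Q2_nonneg p hp h P M.z pr a x
  unfold s5dBex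
  by_cases h1 : M.nr R a pr.1 = true ∨ M.nr R x pr.1 = true
  · have h2 := s5_pow_hit H p hp hp4 hpr ha hx hax h1 r hr
    have e : s5dBh p M R pr a x = M.z pr.2 pr.2 ^ p + 10 ^ p * (M.z pr.2 x ^ p + M.z a pr.2 ^ p) := by
      unfold s5dBh
      rw [if_pos (by rw [Bool.or_eq_true]; exact h1)]
    unfold s5dRes
    linarith
  · by_cases h2 : M.nr R a pr.2 = true ∨ M.nr R x pr.2 = true
    · have h3 := s5_pow_hit H p hp hp4 hswap ha hx hax h2 r (by rwa [s5d_In_swap _ H.zsymm])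
      rw [s5d_Lin_swap, s5d_Ip_swap _ _ H.zsymm] at h3
      have e : s5dBh p M R pr.swap a x = M.z pr.swap.2 pr.swap.2 ^ p
          + 10 ^ p * (M.z pr.swap.2 x ^ p + M.z a pr.swap.2 ^ p) := by
        unfold s5dBh
        rw [if_pos (by rw [Bool.or_eq_true]; exact h2)]
      unfold s5dRes
      linarith
    · rw [not_or] at h1 h2
      have h3 := s5_pow_nohit H p hp hp4 hpr ha hx (by simpa using h1.1) (by simpa using h1.2)
        (by simpa using h2.1) (by simpa using h2.2) r hr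
      unfold s5dRes
      linarith

/-- pointwise bound, new near output -/
theorem s5d_new_point (H : S5HiHyp dd C0 CR R Ccol μ V ρ εs σ h M Vd Dg P nxt) (p : ℕ) (hp : Even p)
    (hp4 : 4 ≤ p) (cn : α × α → α → α → Bool)
    (hcnR : ∀ pr a x, cn pr a x = true → M.nr R a pr.1 = true ∧ M.nr R x pr.2 = true)
    {pr : α × α} (hpr : pr ∈ Vd) {a x : α} (ha : a ∈ M.Al) (hx : x ∈ M.S)
    (r : ℝ) (hr : |r| ≤ ρ + εs * s5In M.z pr a x) :
    (if cn pr a x then (M.z a x + s5Lin σ h P M.z pr a x + r) ^ p else 0) ≤ s5dBn p ρ εs M cn pr a x := by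
  unfold s5dBn
  split_ifs with h1
  · obtain ⟨h2, h3⟩ := hcnR pr a x h1
    exact s5_pow_new H p hp hp4 hpr ha hx h2 h3 r hr
  · exact le_rfl

/-- one output of the near family, averaged over the pair -/
theorem s5d_N_cell (H : S5HiHyp dd C0 CR R Ccol μ V ρ εs σ h M Vd Dg P nxt) (p : ℕ) (hp : Even p)
    (hp4 : 4 ≤ p) (s : ℝ) (hs : (2 : ℝ) ^ p ≤ s) (k : ℕ) (hk : k ≤ R) (cn : α × α → α → α → Bool)
    (hcnR : ∀ pr a x, cn pr a x = true → M.nr R a pr.1 = true ∧ M.nr R x pr.2 = true)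
    {a x : α} (ha : a ∈ M.Al) (hx : x ∈ M.S) :
    (∑ pr ∈ s5Surv Vd (({a, x} : Finset α) ∩ M.S), ((if M.nr k a x then (nxt pr).z a x ^ p else 0)
        + ((if cn pr a x then (nxt pr).z a x ^ p else 0)
          + (if cn pr.swap a x then (nxt pr).z a x ^ p else 0)))) / (Vd.card : ℝ)
      ≤ (if M.nr k a x then M.z a x ^ p else 0)
        + (p * μ + 2 ^ p * (s ^ (p - 3) * V)) *
          ((if M.nr R a x then 1 else 0) + (if M.nr k a x then M.z a x ^ p else 0))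
        + 2 * (2 / (M.S.card : ℝ) ^ 2 *
          (if M.nr R a x then ∑ pr ∈ M.S.offDiag, s5dBex p h ρ εs P M R pr a x else 0))
        + 2 / (M.S.card : ℝ) ^ 2 *
          ∑ pr ∈ M.S.offDiag, (s5dBn p ρ εs M cn pr a x + s5dBn p ρ εs M cn pr.swap a x) := by
  have hxA : x ∈ M.Al := Finset.mem_union_right _ hx
  have hs0 : 0 ≤ s := le_trans (by positivity) hs
  have hE1 : 0 ≤ (p * μ + 2 ^ p * (s ^ (p - 3) * V)) := by
    have h1 := H.hμ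
    have h2 := H.hV
    positivity
  have hl8 : 8 ≤ M.S.card := by have := H.hl; omega
  rw [Finset.sum_add_distrib, add_div]
  refine add_le_add ?_ ?_
  · by_cases hk' : M.nr k a x = true
    · have hR : M.nr R a x = true := H.mono k R a x hk hk'
      simp only [if_pos hk', if_pos hR]
      have h1 := s5d_taylor_avg H p hp hp4 s hs ha hxA
      have h2 : (∑ pr ∈ s5Surv Vd (({a, x} : Finset α) ∩ M.S), ((nxt pr).z a x - M.z a x) ^ p)
          / (Vd.card : ℝ)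
          ≤ (∑ pr ∈ s5Surv Vd (({a, x} : Finset α) ∩ M.S), s5dBex p h ρ εs P M R pr a x)
            / (Vd.card : ℝ) := by
        refine div_le_div_of_nonneg_right (Finset.sum_le_sum fun pr hpr => ?_) (Nat.cast_nonneg _)
        have h3 := s5d_ex_point H p hp hp4 (s5c_surv_sub Vd _ hpr) ha hx hR _ (H.lin a ha x hxA pr hpr)
        rwa [add_sub_cancel] at h3
      have h3 := s5_sum_surv_le_of_nonneg H.valid hl8 H.hDg (({a, x} : Finset α) ∩ M.S)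
        (fun pr => s5dBex p h ρ εs P M R pr a x)
        (fun pr _ => s5dBex_nonneg p hp h ρ εs H.hρ H.hεs P M R pr a x)
      have h4 := h2.trans h3
      have e : (p * μ + 2 ^ p * s ^ (p - 3) * V) = (p * μ + 2 ^ p * (s ^ (p - 3) * V)) := by ring
      rw [e] at h1
      linarith
    · simp only [if_neg hk', Finset.sum_const_zero, zero_div, add_zero, zero_add]
      have h1 : (0 : ℝ) ≤ (if M.nr R a x then 1 else 0) := by split_ifs <;> norm_num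
      have h2 : 0 ≤ (if M.nr R a x then ∑ pr ∈ M.S.offDiag, s5dBex p h ρ εs P M R pr a x else 0) := by
        split_ifs
        · exact Finset.sum_nonneg fun pr _ => s5dBex_nonneg p hp h ρ εs H.hρ H.hεs P M R pr a x
        · exact le_rfl
      positivity
  · have h2 : (∑ pr ∈ s5Surv Vd (({a, x} : Finset α) ∩ M.S),
          ((if cn pr a x then (nxt pr).z a x ^ p else 0)
            + (if cn pr.swap a x then (nxt pr).z a x ^ p else 0))) / (Vd.card : ℝ)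
        ≤ (∑ pr ∈ s5Surv Vd (({a, x} : Finset α) ∩ M.S),
          (s5dBn p ρ εs M cn pr a x + s5dBn p ρ εs M cn pr.swap a x)) / (Vd.card : ℝ) := by
      refine div_le_div_of_nonneg_right (Finset.sum_le_sum fun pr hpr => ?_) (Nat.cast_nonneg _)
      have hprV : pr ∈ Vd := s5c_surv_sub Vd _ hpr
      have hswap : pr.swap ∈ Vd := H.valid.symm pr.1 pr.2 hprV
      have hr := H.lin a ha x hxA pr hpr
      have e : M.z a x + s5Lin σ h P M.z pr a x + ((nxt pr).z a x - M.z a x - s5Lin σ h P M.z pr a x)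
          = (nxt pr).z a x := by ring
      have h3 := s5d_new_point H p hp hp4 cn hcnR hprV ha hx _ hr
      have h4 := s5d_new_point H p hp hp4 cn hcnR hswap ha hx
        ((nxt pr).z a x - M.z a x - s5Lin σ h P M.z pr a x) (by rwa [s5d_In_swap _ H.zsymm])
      rw [s5d_Lin_swap] at h4
      rw [e] at h3 h4
      exact add_le_add h3 h4
    exact h2.trans (s5_sum_surv_le_of_nonneg H.valid hl8 H.hDg (({a, x} : Finset α) ∩ M.S)
      (fun pr => s5dBn p ρ εs M cn pr a x + s5dBn p ρ εs M cn pr.swap a x)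
      (fun pr _ => add_nonneg (s5dBn_nonneg p hp ρ εs H.hρ H.hεs M cn pr a x)
        (s5dBn_nonneg p hp ρ εs H.hρ H.hεs M cn pr.swap a x)))

/-- the near family before the kernel sums -/
theorem s5d_N_main (H : S5HiHyp dd C0 CR R Ccol μ V ρ εs σ h M Vd Dg P nxt) (p : ℕ) (hp : Even p)
    (hp4 : 4 ≤ p) (s : ℝ) (hs : (2 : ℝ) ^ p ≤ s) (k : ℕ) (hk : k ≤ R) (cn : α × α → α → α → Bool)
    (hcn : ∀ pr ∈ Vd, ∀ a ∈ (nxt pr).Al, ∀ x ∈ (nxt pr).S, (nxt pr).nr k a x = true →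
      M.nr k a x = true ∨ cn pr a x = true ∨ cn pr.swap a x = true)
    (hcnR : ∀ pr a x, cn pr a x = true → M.nr R a pr.1 = true ∧ M.nr R x pr.2 = true) :
    avgOn Vd (fun pr => (nxt pr).N p k) ≤ ((M.S.card : ℝ) / ((M.S.card : ℝ) - 2)) *
      (M.N p k + (p * μ + 2 ^ p * (s ^ (p - 3) * V)) *
          ((∑ a ∈ M.Al, ∑ x ∈ M.S, if M.nr R a x then M.m a else 0) + M.N p k)
        + 2 * (2 / (M.S.card : ℝ) ^ 2 * s5dNS M (M.nr R) (s5dBex p h ρ εs P M R))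
        + 2 / (M.S.card : ℝ) ^ 2 * s5dNS M (fun _ _ => true)
          (fun pr a x => s5dBn p ρ εs M cn pr a x + s5dBn p ρ εs M cn pr.swap a x)) := by
  have hc := s5d_Vd_pos H
  have hl := s5d_l_ge H
  obtain ⟨hw1, -, -, -, -⟩ := s5d_w_facts _ hl
  obtain ⟨w, hw⟩ : ∃ w, w = (M.S.card : ℝ) / ((M.S.card : ℝ) - 2) := ⟨_, rfl⟩
  rw [← hw] at hw1 ⊢
  have hw0 : 0 ≤ w := by linarith
  have h1 : ∀ pr ∈ Vd, (nxt pr).N p k ≤ ∑ a ∈ M.Al.filter (fun a => a ≠ pr.1 ∧ a ≠ pr.2),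
      ∑ x ∈ M.S.filter (fun x => x ≠ pr.1 ∧ x ≠ pr.2),
        w * (M.m a * ((if M.nr k a x then (nxt pr).z a x ^ p else 0)
        + ((if cn pr a x then (nxt pr).z a x ^ p else 0)
          + (if cn pr.swap a x then (nxt pr).z a x ^ p else 0)))) := by
    intro pr hpr
    unfold S5Mom.N
    rw [s5d_nxt_Al H hpr, s5d_nxt_S H hpr]
    refine Finset.sum_le_sum fun a ha => Finset.sum_le_sum fun x hx => ?_
    rw [← s5d_nxt_Al H hpr] at ha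
    rw [← s5d_nxt_S H hpr] at hx
    have hz : 0 ≤ (nxt pr).z a x ^ p := hp.pow_nonneg _
    have i1 : 0 ≤ (if M.nr k a x then (nxt pr).z a x ^ p else 0) := by
      split_ifs
      · exact hz
      · exact le_rfl
    have i2 : 0 ≤ (if cn pr a x then (nxt pr).z a x ^ p else 0) := by
      split_ifs
      · exact hz
      · exact le_rfl
    have i3 : 0 ≤ (if cn pr.swap a x then (nxt pr).z a x ^ p else 0) := by
      split_ifs
      · exact hz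
      · exact le_rfl
    have hm := s5d_m_nonneg M a
    by_cases hn : (nxt pr).nr k a x = true
    · rw [if_pos hn]
      have h2 : (nxt pr).z a x ^ p ≤ (if M.nr k a x then (nxt pr).z a x ^ p else 0)
        + ((if cn pr a x then (nxt pr).z a x ^ p else 0)
          + (if cn pr.swap a x then (nxt pr).z a x ^ p else 0)) := by
        rcases hcn pr hpr a ha x hx hn with h3 | h3 | h3
        · rw [if_pos h3]; linarith
        · rw [if_pos h3]; linarith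
        · rw [if_pos h3]; linarith
      have h3 := s5d_nxt_m_le H hpr ha
      rw [← hw] at h3
      calc (nxt pr).m a * (nxt pr).z a x ^ p ≤ (w * M.m a) * (nxt pr).z a x ^ p :=
            mul_le_mul_of_nonneg_right h3 hz
        _ ≤ (w * M.m a) * _ := mul_le_mul_of_nonneg_left h2 (mul_nonneg hw0 hm)
        _ = _ := by ring
    · rw [if_neg hn]
      positivity
  have h2 := Finset.sum_le_sum h1
  rw [s5d_exchange H] at h2
  unfold avgOn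
  refine (div_le_div_of_nonneg_right h2 hc.le).trans ?_
  have e1 : (∑ a ∈ M.Al, ∑ x ∈ M.S, ∑ pr ∈ s5Surv Vd (({a, x} : Finset α) ∩ M.S),
        w * (M.m a * ((if M.nr k a x then (nxt pr).z a x ^ p else 0)
        + ((if cn pr a x then (nxt pr).z a x ^ p else 0)
          + (if cn pr.swap a x then (nxt pr).z a x ^ p else 0))))) / (Vd.card : ℝ)
      = w * ∑ a ∈ M.Al, ∑ x ∈ M.S, M.m a *
        ((∑ pr ∈ s5Surv Vd (({a, x} : Finset α) ∩ M.S), ((if M.nr k a x then (nxt pr).z a x ^ p else 0)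
        + ((if cn pr a x then (nxt pr).z a x ^ p else 0)
          + (if cn pr.swap a x then (nxt pr).z a x ^ p else 0)))) / (Vd.card : ℝ)) := by
    rw [Finset.sum_div, Finset.mul_sum]
    refine Finset.sum_congr rfl fun a _ => ?_
    rw [Finset.sum_div, Finset.mul_sum]
    refine Finset.sum_congr rfl fun x _ => ?_
    rw [← Finset.mul_sum, ← Finset.mul_sum]
    ring
  rw [e1]
  refine mul_le_mul_of_nonneg_left ?_ hw0
  refine (Finset.sum_le_sum fun a ha => Finset.sum_le_sum fun x hx =>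
    mul_le_mul_of_nonneg_left (s5d_N_cell H p hp hp4 s hs k hk cn hcnR ha hx) (s5d_m_nonneg M a)).trans
    (le_of_eq ?_)
  have e2 : ∀ a x : α, M.m a * ((if M.nr k a x then M.z a x ^ p else 0)
        + (p * μ + 2 ^ p * (s ^ (p - 3) * V)) *
          ((if M.nr R a x then 1 else 0) + (if M.nr k a x then M.z a x ^ p else 0))
        + 2 * (2 / (M.S.card : ℝ) ^ 2 *
          (if M.nr R a x then ∑ pr ∈ M.S.offDiag, s5dBex p h ρ εs P M R pr a x else 0))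
        + 2 / (M.S.card : ℝ) ^ 2 *
          ∑ pr ∈ M.S.offDiag, (s5dBn p ρ εs M cn pr a x + s5dBn p ρ εs M cn pr.swap a x))
      = (if M.nr k a x then M.m a * M.z a x ^ p else 0)
        + (p * μ + 2 ^ p * (s ^ (p - 3) * V)) *
          ((if M.nr R a x then M.m a else 0) + (if M.nr k a x then M.m a * M.z a x ^ p else 0))
        + 2 * (2 / (M.S.card : ℝ) ^ 2 *
          (if M.nr R a x then M.m a * ∑ pr ∈ M.S.offDiag, s5dBex p h ρ εs P M R pr a x else 0))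
        + 2 / (M.S.card : ℝ) ^ 2 * (M.m a *
          ∑ pr ∈ M.S.offDiag, (s5dBn p ρ εs M cn pr a x + s5dBn p ρ εs M cn pr.swap a x)) := by
    intro a x
    by_cases c1 : M.nr k a x = true <;> by_cases c2 : M.nr R a x = true <;>
      simp only [c1, c2, if_true, if_false, Bool.false_eq_true] <;> ring
  rw [Finset.sum_congr rfl fun a _ => Finset.sum_congr rfl fun x _ => e2 a x, s5dNS_true]
  unfold S5Mom.N s5dNS
  simp only [Finset.sum_add_distrib, Finset.mul_sum, mul_add]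

/-- kernel sums, existing near outputs -/
theorem s5d_NS_ex (H : S5HiHyp dd C0 CR R Ccol μ V ρ εs σ h M Vd Dg P nxt) (hdd : 1 ≤ dd) (hCR : 1 ≤ CR)
    (hC0 : 1 ≤ C0) (p : ℕ) (hp : Even p) :
    s5dNS M (M.nr R) (s5dBex p h ρ εs P M R) ≤
      2 * (4 * CR ^ 2 * M.S.card * M.N p 0 + 10 ^ p * (4 * CR ^ 2 * dd * M.S.card * M.F p))
        + 60 * (8 * C0 * CR * dd * M.S.card * (M.F p + M.N p 0))
        + 480 ^ p * (ρ ^ p * ((M.S.card : ℝ) ^ 2 * (2 * CR))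
          + εs ^ p * (10 * CR * dd * (M.S.card : ℝ) ^ 2 * (M.F p + M.N p 0))) := by
  have e : s5dBex p h ρ εs P M R = fun pr a x => ((s5dBh p M R pr a x + s5dBh p M R pr.swap a x)
      + 60 * s5Q2 p h P M.z pr a x) + s5dRes p ρ εs M.z pr a x := by
    funext pr a x; rfl
  have eh : s5dBh p M R = fun pr a x =>
      (if M.nr R a pr.1 || M.nr R x pr.1 then M.z pr.2 pr.2 ^ p else 0)
        + 10 ^ p * (if M.nr R a pr.1 || M.nr R x pr.1 then M.z pr.2 x ^ p + M.z a pr.2 ^ p else 0) := by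
    funext pr a x
    unfold s5dBh
    split_ifs <;> simp
  have er : s5dRes p ρ εs M.z = fun pr a x => 480 ^ p * (ρ ^ p + εs ^ p * s5Ip p M.z pr a x) := by
    funext pr a x; rfl
  have hh : s5dNS M (M.nr R) (s5dBh p M R) ≤
      4 * CR ^ 2 * M.S.card * M.N p 0 + 10 ^ p * (4 * CR ^ 2 * dd * M.S.card * M.F p) := by
    rw [eh, s5dNS_add, s5dNS_smul]
    obtain ⟨h1, h2⟩ := s5_sum_hit_near H hdd hCR p hp
    exact add_le_add h1 (mul_le_mul_of_nonneg_left h2 (by positivity))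
  have hr : s5dNS M (M.nr R) (s5dRes p ρ εs M.z) ≤
      480 ^ p * (ρ ^ p * ((M.S.card : ℝ) ^ 2 * (2 * CR))
          + εs ^ p * (10 * CR * dd * (M.S.card : ℝ) ^ 2 * (M.F p + M.N p 0))) := by
    rw [er, s5dNS_smul, s5dNS_add, s5dNS_const, s5dNS_smul]
    refine mul_le_mul_of_nonneg_left (add_le_add ?_ ?_) (by positivity)
    · refine mul_le_mul_of_nonneg_left ?_ (pow_nonneg H.hρ _)
      refine mul_le_mul (s5d_offDiag_card M.S) (s5_near_mass H) ?_ (by positivity)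
      refine Finset.sum_nonneg fun a _ => Finset.sum_nonneg fun x _ => ?_
      split_ifs
      · exact s5d_m_nonneg M a
      · exact le_rfl
    · exact mul_le_mul_of_nonneg_left (s5_sum_Ip_near H hdd hCR p hp) (pow_nonneg H.hεs _)
  have hq : s5dNS M (M.nr R) (fun pr a x => s5Q2 p h P M.z pr a x) ≤
      8 * C0 * CR * dd * M.S.card * (M.F p + M.N p 0) := s5_sum_Q2_near H hdd hCR hC0 p hp
  rw [e, s5dNS_add, s5dNS_add, s5dNS_add, s5dNS_swap M _ (s5dBh p M R), s5dNS_smul]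
  linarith

/-- kernel sums, new near outputs -/
theorem s5d_NS_new (H : S5HiHyp dd C0 CR R Ccol μ V ρ εs σ h M Vd Dg P nxt) (hdd : 1 ≤ dd) (hCR : 1 ≤ CR)
    (p : ℕ) (hp : Even p) (k : ℕ) (hk : k + 1 ≤ R) :
    s5dNS M (fun _ _ => true) (fun pr a x =>
        s5dBn p ρ εs M (fun pr a x => M.nr k a pr.1 && M.nr k x pr.2) pr a x
          + s5dBn p ρ εs M (fun pr a x => M.nr k a pr.1 && M.nr k x pr.2) pr.swap a x) ≤
      2 * (10 ^ p * (4 * CR ^ 2 * dd * M.S.card * (M.F p + M.N p k))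
        + 480 ^ p * (ρ ^ p * (CR ^ 2 * dd * M.S.card)
          + εs ^ p * (10 * CR ^ 2 * dd * M.S.card * (M.F p + M.N p R)))) := by
  have hρp : 0 ≤ ρ ^ p := pow_nonneg H.hρ _
  have hεp : 0 ≤ εs ^ p := pow_nonneg H.hεs _
  have h1 : s5dNS M (fun _ _ => true)
      (s5dBn p ρ εs M (fun pr a x => M.nr k a pr.1 && M.nr k x pr.2)) ≤
      10 ^ p * (4 * CR ^ 2 * dd * M.S.card * (M.F p + M.N p k))
        + 480 ^ p * (ρ ^ p * (CR ^ 2 * dd * M.S.card)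
          + εs ^ p * (10 * CR ^ 2 * dd * M.S.card * (M.F p + M.N p R))) := by
    refine (s5dNS_mono M _ _ (fun pr a x => 10 ^ p * (if M.nr k a pr.1 && M.nr k x pr.2 then
          M.z a x ^ p + M.z pr.2 x ^ p + M.z a pr.1 ^ p + M.z pr.1 pr.2 ^ p else 0)
        + 480 ^ p * (ρ ^ p * (if M.nr R a pr.1 && M.nr R x pr.2 then (1 : ℝ) else 0)
          + εs ^ p * (if M.nr R a pr.1 && M.nr R x pr.2 then s5Ip p M.z pr a x else 0))) ?_).trans ?_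
    · intro pr a x
      unfold s5dBn s5dRes
      have hI := s5d_Ip_nonneg p hp M.z pr a x
      by_cases c1 : (M.nr k a pr.1 && M.nr k x pr.2) = true
      · have c2 : (M.nr R a pr.1 && M.nr R x pr.2) = true := by
          rw [Bool.and_eq_true] at c1 ⊢
          exact ⟨H.mono k R _ _ (by omega) c1.1, H.mono k R _ _ (by omega) c1.2⟩
        rw [if_pos c1, if_pos c1, if_pos c2, if_pos c2, mul_one]
      · rw [if_neg c1, if_neg c1, mul_zero, zero_add]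
        have i1 : (0 : ℝ) ≤ (if M.nr R a pr.1 && M.nr R x pr.2 then (1 : ℝ) else 0) := by
          split_ifs <;> norm_num
        have i2 : 0 ≤ (if M.nr R a pr.1 && M.nr R x pr.2 then s5Ip p M.z pr a x else 0) := by
          split_ifs
          · exact hI
          · exact le_rfl
        positivity
    · rw [s5dNS_add, s5dNS_smul, s5dNS_smul, s5dNS_add, s5dNS_smul, s5dNS_smul, s5dNS_true, s5dNS_true,
        s5dNS_true]
      obtain ⟨q1, q2⟩ := s5_sum_new_Ip H hdd hCR p hp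
      have q3 := s5_sum_new H hdd hCR p hp k hk
      refine add_le_add (mul_le_mul_of_nonneg_left q3 (by positivity))
        (mul_le_mul_of_nonneg_left (add_le_add (mul_le_mul_of_nonneg_left q1 hρp)
          (mul_le_mul_of_nonneg_left q2 hεp)) (by positivity))
  rw [s5dNS_add, s5dNS_swap M _ (s5dBn p ρ εs M (fun pr a x => M.nr k a pr.1 && M.nr k x pr.2))]
  linarith

/-- the near family before the arithmetic -/
theorem s5d_N_pre (H : S5HiHyp dd C0 CR R Ccol μ V ρ εs σ h M Vd Dg P nxt) (hdd : 1 ≤ dd) (hCR : 1 ≤ CR)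
    (p : ℕ) (hp : Even p) (hp4 : 4 ≤ p) (s : ℝ) (hs : (2 : ℝ) ^ p ≤ s) (k : ℕ) (hk : k ≤ R) :
    ∃ NSnew : ℝ, NSnew ≤ 2 * (10 ^ p * (4 * CR ^ 2 * dd * M.S.card *
          (M.F p + (if k = 0 then 0 else M.N p (k - 1))))
        + 480 ^ p * (ρ ^ p * (CR ^ 2 * dd * M.S.card)
          + εs ^ p * (10 * CR ^ 2 * dd * M.S.card * (M.F p + M.N p R)))) ∧
    avgOn Vd (fun pr => (nxt pr).N p k) ≤ ((M.S.card : ℝ) / ((M.S.card : ℝ) - 2)) *
      (M.N p k + (p * μ + 2 ^ p * (s ^ (p - 3) * V)) *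
          ((∑ a ∈ M.Al, ∑ x ∈ M.S, if M.nr R a x then M.m a else 0) + M.N p k)
        + 2 * (2 / (M.S.card : ℝ) ^ 2 * s5dNS M (M.nr R) (s5dBex p h ρ εs P M R))
        + 2 / (M.S.card : ℝ) ^ 2 * NSnew) := by
  obtain ⟨hF, hN, -, -, -, -⟩ := s5_mom_facts H p hp
  have hρp : 0 ≤ ρ ^ p := pow_nonneg H.hρ _
  have hεp : 0 ≤ εs ^ p := pow_nonneg H.hεs _
  have hCR0 : 0 ≤ CR := by linarith
  have hdd0 : 0 ≤ dd := by linarith
  rcases Nat.eq_zero_or_pos k with rfl | hk0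
  · refine ⟨_, ?_, s5d_N_main H p hp hp4 s hs 0 hk (fun _ _ _ => false) ?_ ?_⟩
    · have e : s5dNS M (fun _ _ => true) (fun pr a x => s5dBn p ρ εs M (fun _ _ _ => false) pr a x
          + s5dBn p ρ εs M (fun _ _ _ => false) pr.swap a x) = 0 := by
        unfold s5dNS s5dBn
        simp
      rw [e, if_pos rfl]
      have := hN R
      positivity
    · intro pr hpr a ha x hx hn
      rcases H.new pr hpr 0 (Nat.zero_le _) a ha x hx hn with h1 | ⟨k1, k2, h1, -⟩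
      · exact Or.inl h1
      · omega
    · intro pr a x h1
      exact absurd h1 (by simp)
  · obtain ⟨k0, rfl⟩ : ∃ k0, k = k0 + 1 := ⟨k - 1, by omega⟩
    refine ⟨_, ?_, s5d_N_main H p hp hp4 s hs (k0 + 1) hk
      (fun pr a x => M.nr k0 a pr.1 && M.nr k0 x pr.2) ?_ ?_⟩
    · rw [if_neg (Nat.succ_ne_zero k0), Nat.add_sub_cancel]
      exact s5d_NS_new H hdd hCR p hp k0 hk
    · intro pr hpr a ha x hx hn
      rcases H.new pr hpr (k0 + 1) hk a ha x hx hn with h1 | ⟨k1, k2, h1, h2 | h2⟩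
      · exact Or.inl h1
      · refine Or.inr (Or.inl ?_)
        rw [Bool.and_eq_true]
        exact ⟨H.mono k1 k0 _ _ (by omega) h2.1, H.mono k2 k0 _ _ (by omega) h2.2⟩
      · refine Or.inr (Or.inr ?_)
        rw [Bool.and_eq_true]
        exact ⟨H.mono k1 k0 _ _ (by omega) h2.1, H.mono k2 k0 _ _ (by omega) h2.2⟩
    · intro pr a x h1
      rw [Bool.and_eq_true] at h1
      exact ⟨H.mono k0 R _ _ (by omega) h1.1, H.mono k0 R _ _ (by omega) h1.2⟩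

theorem s5d_N_arith (l F N0 Nk Nk1 NR C0 dd CR Ccol μ V' ρp εp w pp tp t10 n480 mass NSex NSnew : ℝ)
    (hl : 32 ≤ l) (hF : 0 ≤ F) (hN0 : 0 ≤ N0) (hN0R : N0 ≤ NR) (hNk : 0 ≤ Nk) (hNkR : Nk ≤ NR)
    (hNk1 : 0 ≤ Nk1) (hC0 : 1 ≤ C0) (hdd : 1 ≤ dd) (hCR : 1 ≤ CR) (hμ : 0 ≤ μ) (hV : 0 ≤ V')
    (hρ : 0 ≤ ρp) (hε : 0 ≤ εp) (hw0 : 0 ≤ w) (hw : w ≤ 1 + 3 / l) (hw2 : w ≤ 2) (hpp : 0 ≤ pp)
    (htp : 0 ≤ tp) (h10 : 0 ≤ t10) (h480 : 0 ≤ n480) (hmass0 : 0 ≤ mass) (hmass : mass ≤ 2 * CR)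
    (hex : NSex ≤ 2 * (4 * CR ^ 2 * l * N0 + t10 * (4 * CR ^ 2 * dd * l * F))
        + 60 * (8 * C0 * CR * dd * l * (F + N0))
        + n480 * (ρp * (l ^ 2 * (2 * CR)) + εp * (10 * CR * dd * l ^ 2 * (F + N0))))
    (hnew : NSnew ≤ 2 * (t10 * (4 * CR ^ 2 * dd * l * (F + Nk1))
        + n480 * (ρp * (CR ^ 2 * dd * l) + εp * (10 * CR ^ 2 * dd * l * (F + NR))))) :
    w * (Nk + (pp * μ + tp * V') * (mass + Nk) + 2 * (2 / l ^ 2 * NSex) + 2 / l ^ 2 * NSnew) ≤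
      (1 + 3 / l) * Nk + (64 * CR ^ 2 + 3840 * C0 * CR * dd) / l * N0
        + ((96 * t10 * CR ^ 2 * dd + 3840 * C0 * CR * dd)
            + (4 * CR * (pp + tp) + 80 * n480 * CR * dd + 80 * n480 * CR ^ 2 * dd)) / l * (F + Nk1)
        + ((96 * t10 * CR ^ 2 * dd + 3840 * C0 * CR * dd)
            + (4 * CR * (pp + tp) + 80 * n480 * CR * dd + 80 * n480 * CR ^ 2 * dd))
          * (μ + V' + Ccol ^ 2 / l ^ 2 + ρp + εp) * (1 + F + NR) := by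
  have hl0 : 0 < l := by linarith
  obtain ⟨q, hq⟩ : ∃ q, q = Ccol ^ 2 / l ^ 2 := ⟨_, rfl⟩
  obtain ⟨i, hi⟩ : ∃ i, i = 1 / l := ⟨_, rfl⟩
  have hq0 : 0 ≤ q := by rw [hq]; positivity
  have hi0 : 0 ≤ i := by rw [hi]; positivity
  have hi1 : i ≤ 1 := by
    rw [hi, div_le_one hl0]; linarith
  have hj : 0 ≤ 2 / l ^ 2 := by positivity
  have hCR0 : 0 ≤ CR := by linarith
  have hdd0 : 0 ≤ dd := by linarith
  have hC00 : 0 ≤ C0 := by linarith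
  have hNR : 0 ≤ NR := hN0.trans hN0R
  have ex1 := mul_le_mul_of_nonneg_left hex hj
  have new1 := mul_le_mul_of_nonneg_left hnew hj
  have e1 : 2 / l ^ 2 * (2 * (4 * CR ^ 2 * l * N0 + t10 * (4 * CR ^ 2 * dd * l * F))
        + 60 * (8 * C0 * CR * dd * l * (F + N0))
        + n480 * (ρp * (l ^ 2 * (2 * CR)) + εp * (10 * CR * dd * l ^ 2 * (F + N0))))
      = 16 * CR ^ 2 * (i * N0) + 16 * t10 * CR ^ 2 * dd * (i * F)
        + 960 * C0 * CR * dd * (i * F + i * N0)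
        + n480 * (4 * CR * ρp + 20 * CR * dd * (εp * (F + N0))) := by
    rw [hi]; field_simp; ring
  have e2 : 2 / l ^ 2 * (2 * (t10 * (4 * CR ^ 2 * dd * l * (F + Nk1))
        + n480 * (ρp * (CR ^ 2 * dd * l) + εp * (10 * CR ^ 2 * dd * l * (F + NR)))))
      = 16 * t10 * CR ^ 2 * dd * (i * F + i * Nk1)
        + 4 * n480 * CR ^ 2 * dd * (i * (ρp + 10 * (εp * (F + NR)))) := by
    rw [hi]; field_simp; ring
  rw [e1] at ex1
  rw [e2] at new1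
  have e3 : (1 + 3 / l) * Nk = Nk + 3 * (i * Nk) := by rw [hi]; field_simp
  have e4 : ∀ c y : ℝ, c / l * y = c * (i * y) := by
    intro c y; rw [hi]; field_simp
  rw [e3, e4, e4, ← hq]
  obtain ⟨E, hE⟩ : ∃ E, E = μ + V' + q + ρp + εp := ⟨_, rfl⟩
  obtain ⟨X, hX⟩ : ∃ X, X = 1 + F + NR := ⟨_, rfl⟩
  rw [← hE, ← hX]
  have hE0 : 0 ≤ E := by rw [hE]; linarith
  have hX1 : 1 ≤ X := by rw [hX]; linarith
  have hX0 : 0 ≤ X := by linarith
  have hEX : 0 ≤ E * X := mul_nonneg hE0 hX0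
  have hiF : 0 ≤ i * F := mul_nonneg hi0 hF
  have hiN0 : 0 ≤ i * N0 := mul_nonneg hi0 hN0
  have hiN1 : 0 ≤ i * Nk1 := mul_nonneg hi0 hNk1
  -- the error terms
  have T1 : (pp * μ + tp * V') * (mass + Nk) ≤ 2 * CR * (pp + tp) * (E * X) := by
    have a1 : pp * μ + tp * V' ≤ (pp + tp) * E := by
      have b1 : pp * μ ≤ pp * E := mul_le_mul_of_nonneg_left (by rw [hE]; linarith) hpp
      have b2 : tp * V' ≤ tp * E := mul_le_mul_of_nonneg_left (by rw [hE]; linarith) htp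
      linarith
    have a2 : mass + Nk ≤ 2 * CR * X := by
      have b1 : 1 * (F + NR) ≤ (2 * CR) * (F + NR) :=
        mul_le_mul_of_nonneg_right (by linarith) (by linarith)
      rw [hX]; linarith
    calc (pp * μ + tp * V') * (mass + Nk) ≤ ((pp + tp) * E) * (2 * CR * X) :=
          mul_le_mul a1 a2 (by linarith) (mul_nonneg (by linarith) hE0)
      _ = _ := by ring
  have B0 : ∀ Y : ℝ, 0 ≤ Y → Y ≤ X → ρp + εp * Y ≤ E * X := by
    intro Y _ hY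
    have b1 : ρp * 1 ≤ ρp * X := mul_le_mul_of_nonneg_left hX1 hρ
    have b2 : εp * Y ≤ εp * X := mul_le_mul_of_nonneg_left hY hε
    have b3 : (ρp + εp) * X ≤ E * X := mul_le_mul_of_nonneg_right (by rw [hE]; linarith) hX0
    linarith
  have B1 := B0 (F + N0) (by linarith) (by rw [hX]; linarith)
  have B2 := B0 (F + NR) (by linarith) (by rw [hX]; linarith)
  have hεY1 : 0 ≤ εp * (F + N0) := mul_nonneg hε (by linarith)
  have hεY2 : 0 ≤ εp * (F + NR) := mul_nonneg hε (by linarith)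
  have T2 : 4 * CR * ρp + 20 * CR * dd * (εp * (F + N0)) ≤ 20 * CR * dd * (E * X) := by
    have b1 : (CR * ρp) * 1 ≤ (CR * ρp) * dd := mul_le_mul_of_nonneg_left hdd (mul_nonneg hCR0 hρ)
    have b2 : (CR * dd) * (ρp + εp * (F + N0)) ≤ (CR * dd) * (E * X) :=
      mul_le_mul_of_nonneg_left B1 (mul_nonneg hCR0 hdd0)
    have b3 : 0 ≤ CR * ρp := mul_nonneg hCR0 hρ
    linarith
  have T3 : i * (ρp + 10 * (εp * (F + NR))) ≤ 10 * (E * X) := by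
    have b1 : i * (ρp + 10 * (εp * (F + NR))) ≤ 1 * (ρp + 10 * (εp * (F + NR))) :=
      mul_le_mul_of_nonneg_right hi1 (by linarith)
    linarith
  have U2 := mul_le_mul_of_nonneg_left T2 h480
  have U3 := mul_le_mul_of_nonneg_left T3 (by positivity : 0 ≤ n480 * CR ^ 2 * dd)
  -- nonnegativity of the bound
  have hT1 : 0 ≤ (pp * μ + tp * V') * (mass + Nk) := by positivity
  obtain ⟨EX, hEXd⟩ : ∃ EX, EX = 16 * CR ^ 2 * (i * N0) + 16 * t10 * CR ^ 2 * dd * (i * F)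
        + 960 * C0 * CR * dd * (i * F + i * N0)
        + n480 * (4 * CR * ρp + 20 * CR * dd * (εp * (F + N0))) := ⟨_, rfl⟩
  obtain ⟨NW, hNWd⟩ : ∃ NW, NW = 16 * t10 * CR ^ 2 * dd * (i * F + i * Nk1)
        + 4 * n480 * CR ^ 2 * dd * (i * (ρp + 10 * (εp * (F + NR)))) := ⟨_, rfl⟩
  rw [← hEXd] at ex1
  rw [← hNWd] at new1
  have hEX0 : 0 ≤ EX := by rw [hEXd]; positivity
  have hNW0 : 0 ≤ NW := by rw [hNWd]; positivity
  have m1 : w * Nk ≤ Nk + 3 * (i * Nk) := by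
    rw [← e3]; exact mul_le_mul_of_nonneg_right hw hNk
  have m2 : w * ((pp * μ + tp * V') * (mass + Nk) + 2 * (2 / l ^ 2 * NSex) + 2 / l ^ 2 * NSnew)
      ≤ w * ((pp * μ + tp * V') * (mass + Nk) + 2 * EX + NW) :=
    mul_le_mul_of_nonneg_left (by linarith) hw0
  have m3 : w * ((pp * μ + tp * V') * (mass + Nk) + 2 * EX + NW)
      ≤ 2 * ((pp * μ + tp * V') * (mass + Nk) + 2 * EX + NW) :=
    mul_le_mul_of_nonneg_right hw2 (by linarith)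
  have k1 : 0 ≤ t10 * CR ^ 2 * dd * (i * Nk1) := by positivity
  have k2 : 0 ≤ C0 * CR * dd * (i * Nk1) := by positivity
  have k3 : 0 ≤ (4 * CR * (pp + tp) + 80 * n480 * CR * dd + 80 * n480 * CR ^ 2 * dd)
      * (i * (F + Nk1)) := by positivity
  have k4 : 0 ≤ (96 * t10 * CR ^ 2 * dd + 3840 * C0 * CR * dd) * (E * X) := by positivity
  linarith

end drift

/-- DRIFT OF THE PAIR FAMILY.  `c0` does not depend on `p`. -/
theorem s5_hi_F (dd C0 CR : ℝ) (R : ℕ) (hdd : 1 ≤ dd) (hC0 : 1 ≤ C0) (hCR : 1 ≤ CR) :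
    ∃ c0 : ℝ, 0 < c0 ∧ ∀ p : ℕ, Even p → 4 ≤ p → ∃ Cp : ℝ, 0 < Cp ∧
    ∀ (α : Type) [DecidableEq α] (Ccol μ V ρ εs σ h s : ℝ) (M : S5Mom α) (Vd : Finset (α × α)) (Dg : ℕ)
      (P : α → α → ℝ) (nxt : α × α → S5Mom α),
      S5HiHyp dd C0 CR R Ccol μ V ρ εs σ h M Vd Dg P nxt → (2 : ℝ) ^ p ≤ s →
      avgOn Vd (fun pr => (nxt pr).F p) ≤ (1 + c0 / (M.S.card : ℝ)) * M.F p
        + Cp * s5HiErr p M.S.card Ccol μ V ρ εs s * (1 + M.F p + M.N p R) := by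
  refine ⟨5 + 3840 * C0, by positivity, fun p hp hp4 =>
    ⟨2 * (4 * (p : ℝ) + 4 * 2 ^ p + 480 * dd ^ 2 + 400 * 9 ^ p * CR ^ 2 * dd ^ 2 + 48 * 480 ^ p),
      by positivity, ?_⟩⟩
  intro α _ Ccol μ V ρ εs σ h s M Vd Dg P nxt H hs
  have hl := s5d_l_ge H
  obtain ⟨-, -, -, hw5, hw2⟩ := s5d_w_facts _ hl
  obtain ⟨hF, hN, hNm, -, -, -⟩ := s5_mom_facts H p hp
  have hs0 : 0 ≤ s := le_trans (by positivity) hs
  refine (s5d_F_main H hdd hCR p hp hp4 s hs).trans ?_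
  unfold s5HiErr
  exact s5d_F_arith _ _ _ _ C0 dd CR Ccol μ (s ^ (p - 3) * V) (ρ ^ p) (εs ^ p) _ p (2 ^ p) (9 ^ p) (480 ^ p)
    hl hF (hN 0) (hNm 0 R (Nat.zero_le _)) hC0 hdd hCR H.hCcol H.hμ (mul_nonneg (pow_nonneg hs0 _) H.hV)
    (pow_nonneg H.hρ _) (pow_nonneg H.hεs _) hw5 hw2 (Nat.cast_nonneg _) (by positivity) (by positivity)
    (by positivity)

/-- DRIFT OF THE NEAR FAMILY at level `k ≤ R`.  `c1` does not depend on `p`; `N_{k-1} := 0` for `k = 0`. -/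
theorem s5_hi_N (dd C0 CR : ℝ) (R : ℕ) (hdd : 1 ≤ dd) (hC0 : 1 ≤ C0) (hCR : 1 ≤ CR) :
    ∃ c1 : ℝ, 0 < c1 ∧ ∀ p : ℕ, Even p → 4 ≤ p → ∃ Cp : ℝ, 0 < Cp ∧
    ∀ (α : Type) [DecidableEq α] (Ccol μ V ρ εs σ h s : ℝ) (M : S5Mom α) (Vd : Finset (α × α)) (Dg : ℕ)
      (P : α → α → ℝ) (nxt : α × α → S5Mom α),
      S5HiHyp dd C0 CR R Ccol μ V ρ εs σ h M Vd Dg P nxt → (2 : ℝ) ^ p ≤ s → ∀ k ≤ R,
      avgOn Vd (fun pr => (nxt pr).N p k) ≤ (1 + 3 / (M.S.card : ℝ)) * M.N p k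
        + c1 / (M.S.card : ℝ) * M.N p 0
        + Cp / (M.S.card : ℝ) * (M.F p + (if k = 0 then 0 else M.N p (k - 1)))
        + Cp * s5HiErr p M.S.card Ccol μ V ρ εs s * (1 + M.F p + M.N p R) := by
  refine ⟨64 * CR ^ 2 + 3840 * C0 * CR * dd, by positivity, fun p hp hp4 =>
    ⟨(96 * 10 ^ p * CR ^ 2 * dd + 3840 * C0 * CR * dd)
      + (4 * CR * ((p : ℝ) + 2 ^ p) + 80 * 480 ^ p * CR * dd + 80 * 480 ^ p * CR ^ 2 * dd),
      by positivity, ?_⟩⟩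
  intro α _ Ccol μ V ρ εs σ h s M Vd Dg P nxt H hs k hk
  have hl := s5d_l_ge H
  obtain ⟨hw1, hw3, hw2, -, -⟩ := s5d_w_facts _ hl
  obtain ⟨hF, hN, hNm, -, -, -⟩ := s5_mom_facts H p hp
  have hs0 : 0 ≤ s := le_trans (by positivity) hs
  obtain ⟨NSnew, hnew, hmain⟩ := s5d_N_pre H hdd hCR p hp hp4 s hs k hk
  refine hmain.trans ?_
  unfold s5HiErr
  have hmass0 : 0 ≤ ∑ a ∈ M.Al, ∑ x ∈ M.S, (if M.nr R a x then M.m a else 0) := by
    refine Finset.sum_nonneg fun a _ => Finset.sum_nonneg fun x _ => ?_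
    split_ifs
    · exact s5d_m_nonneg M a
    · exact le_rfl
  have hNk1 : 0 ≤ (if k = 0 then 0 else M.N p (k - 1)) := by
    split_ifs
    · exact le_rfl
    · exact hN _
  exact s5d_N_arith _ _ _ _ _ _ C0 dd CR Ccol μ (s ^ (p - 3) * V) (ρ ^ p) (εs ^ p) _ p (2 ^ p) (10 ^ p)
    (480 ^ p) _ _ NSnew hl hF (hN 0) (hNm 0 R (Nat.zero_le _)) (hN k) (hNm k R hk) hNk1 hC0 hdd hCR
    H.hμ (mul_nonneg (pow_nonneg hs0 _) H.hV) (pow_nonneg H.hρ _) (pow_nonneg H.hεs _) (by linarith)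
    hw3 hw2 (Nat.cast_nonneg _) (by positivity) (by positivity) (by positivity) hmass0
    (s5_near_mass H) (s5d_NS_ex H hdd hCR hC0 p hp) hnew

theorem s5d_geom (kp : ℝ) (h0 : 0 ≤ kp) (h1 : kp ≤ 1 / 2) (n : ℕ) :
    ∑ k ∈ range n, kp ^ (k + 1) ≤ 2 * kp - 2 * kp ^ (n + 1) := by
  induction n with
  | zero => simp
  | succ n ih =>
    rw [Finset.sum_range_succ]
    have h2 : kp ^ (n + 1 + 1) ≤ 1 / 2 * kp ^ (n + 1) := by
      rw [pow_succ kp (n + 1)]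
      nlinarith [pow_nonneg h0 (n + 1)]
    linarith

theorem s5d_avg_Z {α : Type} [DecidableEq α] (Vd : Finset (α × α)) (hc : 0 < (Vd.card : ℝ))
    (nxt : α × α → S5Mom α) (p R : ℕ) (kp : ℝ) :
    avgOn Vd (fun pr => (nxt pr).Z p R kp) = 1 + avgOn Vd (fun pr => (nxt pr).F p)
      + ∑ k ∈ range (R + 1), kp ^ (k + 1) * avgOn Vd (fun pr => (nxt pr).N p k) := by
  unfold avgOn S5Mom.Z
  rw [Finset.sum_add_distrib, Finset.sum_add_distrib, Finset.sum_const, nsmul_eq_mul, mul_one,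
    Finset.sum_comm, add_div, add_div, div_self hc.ne']
  congr 1
  rw [Finset.sum_div]
  refine Finset.sum_congr rfl fun k _ => ?_
  rw [← Finset.mul_sum, mul_div_assoc]

theorem s5d_step_arith (R : ℕ) (N A : ℕ → ℝ) (F AF l c0 c1 CF CN E kp : ℝ)
    (hl : 1 ≤ l) (hF : 0 ≤ F) (hN : ∀ k, 0 ≤ N k) (hc0 : 0 < c0) (hc1 : 0 < c1) (hCF : 0 < CF) (hCN : 0 < CN)
    (hE : 0 ≤ E) (hk0 : 0 < kp) (hk1 : kp ≤ 1 / 2) (hk2 : kp * (2 * CN) ≤ 1)
    (hAF : AF ≤ (1 + c0 / l) * F + CF * E * (1 + F + N R))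
    (hA : ∀ k ≤ R, A k ≤ (1 + 3 / l) * N k + c1 / l * N 0
      + CN / l * (F + (if k = 0 then 0 else N (k - 1))) + CN * E * (1 + F + N R)) :
    1 + AF + ∑ k ∈ range (R + 1), kp ^ (k + 1) * A k ≤
      (1 + (c0 + 2 * c1 + 5) / l + (CF + 1) / kp ^ (R + 1) * E)
        * (1 + F + ∑ k ∈ range (R + 1), kp ^ (k + 1) * N k) := by
  obtain ⟨i, hi⟩ : ∃ i, i = l⁻¹ := ⟨_, rfl⟩
  have hi0 : 0 ≤ i := by rw [hi]; positivity
  simp only [div_eq_mul_inv, ← hi] at hAF hA ⊢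
  obtain ⟨Sg, hSg⟩ : ∃ Sg, Sg = ∑ k ∈ range (R + 1), kp ^ (k + 1) * N k := ⟨_, rfl⟩
  obtain ⟨g, hg⟩ : ∃ g, g = ∑ k ∈ range (R + 1), kp ^ (k + 1) := ⟨_, rfl⟩
  obtain ⟨X, hX⟩ : ∃ X, X = 1 + F + N R := ⟨_, rfl⟩
  obtain ⟨Sh, hSh⟩ : ∃ Sh, Sh = ∑ k ∈ range (R + 1), kp ^ (k + 1) * (if k = 0 then 0 else N (k - 1)) :=
    ⟨_, rfl⟩
  rw [← hSg]
  rw [← hX] at hAF
  have hterm : ∀ k ∈ range (R + 1), 0 ≤ kp ^ (k + 1) * N k := fun k _ =>
    mul_nonneg (pow_nonneg hk0.le _) (hN k)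
  have hg0 : 0 ≤ g := by rw [hg]; exact Finset.sum_nonneg fun k _ => pow_nonneg hk0.le _
  have hg2 : g ≤ 2 * kp := by
    have h1 := s5d_geom kp hk0.le hk1 (R + 1)
    have h2 := pow_nonneg hk0.le (R + 1 + 1)
    rw [hg]; linarith
  have hSg0 : 0 ≤ Sg := by rw [hSg]; exact Finset.sum_nonneg hterm
  have hN0 : kp * N 0 ≤ Sg := by
    have h1 := Finset.single_le_sum hterm (Finset.mem_range.2 (Nat.succ_pos R))
    rw [← hSg] at h1
    simpa using h1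
  have hNR : kp ^ (R + 1) * N R ≤ Sg := by
    have h1 := Finset.single_le_sum hterm (Finset.mem_range.2 (Nat.lt_succ_self R))
    rwa [← hSg] at h1
  have hsh : Sh ≤ kp * Sg := by
    rw [hSh, Finset.sum_range_succ', hSg, Finset.sum_range_succ, mul_add, Finset.mul_sum]
    have h1 : ∑ k ∈ range R, kp ^ (k + 1 + 1) * (if k + 1 = 0 then 0 else N (k + 1 - 1))
        = ∑ k ∈ range R, kp * (kp ^ (k + 1) * N k) := by
      refine Finset.sum_congr rfl fun k _ => ?_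
      rw [if_neg (Nat.succ_ne_zero k), Nat.add_sub_cancel]
      ring
    rw [h1, if_pos rfl, mul_zero, add_zero]
    have h2 : 0 ≤ kp * (kp ^ (R + 1) * N R) :=
      mul_nonneg hk0.le (mul_nonneg (pow_nonneg hk0.le _) (hN R))
    linarith
  have hSh0 : 0 ≤ Sh := by
    rw [hSh]
    refine Finset.sum_nonneg fun k _ => mul_nonneg (pow_nonneg hk0.le _) ?_
    split_ifs
    · exact le_rfl
    · exact hN _
  have hsum : ∑ k ∈ range (R + 1), kp ^ (k + 1) * A k ≤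
      (1 + 3 * i) * Sg + g * (c1 * i * N 0 + CN * i * F + CN * E * X) + CN * i * Sh := by
    calc ∑ k ∈ range (R + 1), kp ^ (k + 1) * A k
        ≤ ∑ k ∈ range (R + 1), kp ^ (k + 1) * ((1 + 3 * i) * N k + c1 * i * N 0
          + CN * i * (F + (if k = 0 then 0 else N (k - 1))) + CN * E * (1 + F + N R)) :=
          Finset.sum_le_sum fun k hk => mul_le_mul_of_nonneg_left
            (hA k (Nat.lt_succ_iff.1 (Finset.mem_range.1 hk))) (pow_nonneg hk0.le _)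
      _ = _ := by
          rw [hSg, hg, hSh, hX, Finset.mul_sum, Finset.sum_mul, Finset.mul_sum,
            ← Finset.sum_add_distrib, ← Finset.sum_add_distrib]
          refine Finset.sum_congr rfl fun k _ => ?_
          ring
  have hX0 : 0 ≤ X := by rw [hX]; linarith [hN R]
  -- the four products
  have hkC : kp * CN ≤ 1 := by nlinarith
  have P1 : g * (c1 * i * N 0) ≤ 2 * c1 * i * Sg := by
    have h1 : g * (c1 * i * N 0) ≤ (2 * kp) * (c1 * i * N 0) :=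
      mul_le_mul_of_nonneg_right hg2 (mul_nonneg (mul_nonneg hc1.le hi0) (hN 0))
    have h2 : (c1 * i) * (kp * N 0) ≤ (c1 * i) * Sg :=
      mul_le_mul_of_nonneg_left hN0 (mul_nonneg hc1.le hi0)
    linarith
  have P2 : g * (CN * i * F) ≤ i * F := by
    have h1 : g * (CN * i * F) ≤ (2 * kp) * (CN * i * F) :=
      mul_le_mul_of_nonneg_right hg2 (mul_nonneg (mul_nonneg hCN.le hi0) hF)
    have h2 : (kp * (2 * CN)) * (i * F) ≤ 1 * (i * F) :=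
      mul_le_mul_of_nonneg_right hk2 (mul_nonneg hi0 hF)
    linarith
  have P3 : g * (CN * E * X) ≤ E * X := by
    have h1 : g * (CN * E * X) ≤ (2 * kp) * (CN * E * X) :=
      mul_le_mul_of_nonneg_right hg2 (mul_nonneg (mul_nonneg hCN.le hE) hX0)
    have h2 : (kp * (2 * CN)) * (E * X) ≤ 1 * (E * X) :=
      mul_le_mul_of_nonneg_right hk2 (mul_nonneg hE hX0)
    linarith
  have P4 : CN * i * Sh ≤ i * Sg := by
    have h1 : CN * i * Sh ≤ CN * i * (kp * Sg) :=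
      mul_le_mul_of_nonneg_left hsh (mul_nonneg hCN.le hi0)
    have h2 : (kp * CN) * (i * Sg) ≤ 1 * (i * Sg) :=
      mul_le_mul_of_nonneg_right hkC (mul_nonneg hi0 hSg0)
    linarith
  -- `X ≤ Z / kp^(R+1)`
  have hkR : 0 < kp ^ (R + 1) := pow_pos hk0 _
  have hkR1 : kp ^ (R + 1) ≤ 1 := pow_le_one₀ hk0.le (by linarith)
  have hXZ : X ≤ (kp ^ (R + 1))⁻¹ * (1 + F + Sg) := by
    rw [← div_eq_inv_mul, le_div_iff₀ hkR, hX]
    have h1 : (1 + F) * kp ^ (R + 1) ≤ (1 + F) * 1 := mul_le_mul_of_nonneg_left hkR1 (by linarith)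
    linarith
  have P5 : (CF + 1) * E * X ≤ (CF + 1) * E * ((kp ^ (R + 1))⁻¹ * (1 + F + Sg)) :=
    mul_le_mul_of_nonneg_left hXZ (mul_nonneg (by linarith) hE)
  have hiF : 0 ≤ i * F := mul_nonneg hi0 hF
  have hiS : 0 ≤ i * Sg := mul_nonneg hi0 hSg0
  have Q1 : 0 ≤ c0 * (i * Sg) := mul_nonneg hc0.le hiS
  have Q2 : 0 ≤ c1 * (i * F) := mul_nonneg hc1.le hiF
  have Q3 : 0 ≤ (c0 + 2 * c1 + 5) * i := mul_nonneg (by linarith) hi0
  linarith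

/-- (5.33) THE HIGH-MOMENT ACCOUNT: `𝔼 Z' ≤ (1 + C_*/l + C_p err) Z`, `C_*` INDEPENDENT OF `p`. -/
theorem s5_hi_step (dd C0 CR : ℝ) (R : ℕ) (hdd : 1 ≤ dd) (hC0 : 1 ≤ C0) (hCR : 1 ≤ CR) :
    ∃ Cstar : ℝ, 0 < Cstar ∧ ∀ p : ℕ, Even p → 4 ≤ p → ∃ kp0 : ℝ, 0 < kp0 ∧ kp0 ≤ 1 ∧
    ∀ kp : ℝ, 0 < kp → kp ≤ kp0 → ∃ Cp : ℝ, 0 < Cp ∧
    ∀ (α : Type) [DecidableEq α] (Ccol μ V ρ εs σ h s : ℝ) (M : S5Mom α) (Vd : Finset (α × α)) (Dg : ℕ)
      (P : α → α → ℝ) (nxt : α × α → S5Mom α),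
      S5HiHyp dd C0 CR R Ccol μ V ρ εs σ h M Vd Dg P nxt → (2 : ℝ) ^ p ≤ s →
      avgOn Vd (fun pr => (nxt pr).Z p R kp) ≤
        (1 + Cstar / (M.S.card : ℝ) + Cp * s5HiErr p M.S.card Ccol μ V ρ εs s) * M.Z p R kp := by
  obtain ⟨c0, hc0, hFp⟩ := s5_hi_F dd C0 CR R hdd hC0 hCR
  obtain ⟨c1, hc1, hNp⟩ := s5_hi_N dd C0 CR R hdd hC0 hCR
  refine ⟨c0 + 2 * c1 + 5, by positivity, fun p hp hp4 => ?_⟩
  obtain ⟨CF, hCF, hF⟩ := hFp p hp hp4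
  obtain ⟨CN, hCN, hN⟩ := hNp p hp hp4
  refine ⟨min (1 / 2) (1 / (2 * CN)), lt_min (by norm_num) (by positivity),
    (min_le_left _ _).trans (by norm_num), fun kp hk0 hk => ⟨(CF + 1) / kp ^ (R + 1), by positivity, ?_⟩⟩
  intro α _ Ccol μ V ρ εs σ h s M Vd Dg P nxt H hs
  have hl : (32 : ℝ) ≤ M.S.card := by exact_mod_cast H.hl
  have hc : 0 < (Vd.card : ℝ) := by
    have h1 := s5_card_valid_half H.valid (by have := H.hl; omega) H.hDg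
    have h3 : 0 < (M.S.card : ℝ) ^ 2 / 2 := by positivity
    linarith
  obtain ⟨hF0, hN0, -, -, -, -⟩ := s5_mom_facts H p hp
  have hs0 : 0 ≤ s := le_trans (by positivity) hs
  have hE : 0 ≤ s5HiErr p M.S.card Ccol μ V ρ εs s := by
    unfold s5HiErr
    have h1 := H.hμ
    have h2 : 0 ≤ s ^ (p - 3) * V := mul_nonneg (pow_nonneg hs0 _) H.hV
    have h3 : 0 ≤ Ccol ^ 2 / (M.S.card : ℝ) ^ 2 := by positivity
    have h4 := pow_nonneg H.hρ p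
    have h5 := pow_nonneg H.hεs p
    linarith
  have hk1 : kp ≤ 1 / 2 := hk.trans (min_le_left _ _)
  have hk2 : kp * (2 * CN) ≤ 1 := by
    have h1 : kp ≤ 1 / (2 * CN) := hk.trans (min_le_right _ _)
    rwa [le_div_iff₀ (by positivity)] at h1
  rw [s5d_avg_Z Vd hc]
  unfold S5Mom.Z
  exact s5d_step_arith R (fun k => M.N p k) (fun k => avgOn Vd (fun pr => (nxt pr).N p k)) (M.F p) _ _ c0 c1
    CF CN _ kp (by linarith) hF0 hN0 hc0 hc1 hCF hCN hE hk0 hk1 hk2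
    (hF α Ccol μ V ρ εs σ h s M Vd Dg P nxt H hs)
    (fun k hk => hN α Ccol μ V ρ εs σ h s M Vd Dg P nxt H hs k hk)

/-- extraction of one entry -/
theorem s5_hi_extract {α : Type} [DecidableEq α] (M : S5Mom α) (p R : ℕ) (hp : Even p) (kp : ℝ) (hkp : 0 ≤ kp)
    {a b : α} (ha : a ∈ M.Al) (hb : b ∈ M.Al) (Mx : ℝ) (hS : (M.S.card : ℝ) ≤ Mx) (hG : (M.G.card : ℝ) ≤ Mx) :
    M.z a b ^ p ≤ Mx ^ 2 * M.Z p R kp := by
  have hm0 : ∀ c, 0 ≤ M.m c := by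
    intro c
    unfold S5Mom.m
    split_ifs <;> positivity
  have hmx : ∀ c ∈ M.Al, 0 < Mx ∧ 1 ≤ Mx * M.m c := by
    intro c hc
    unfold S5Mom.m
    by_cases hcS : c ∈ M.S
    · have h1 : (0 : ℝ) < M.S.card := by exact_mod_cast Finset.card_pos.2 ⟨c, hcS⟩
      rw [if_pos hcS]
      refine ⟨by linarith, ?_⟩
      rw [← div_eq_mul_inv, le_div_iff₀ h1]; linarith
    · have hcG : c ∈ M.G := by
        rcases Finset.mem_union.1 hc with h | h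
        · exact h
        · exact absurd h hcS
      have h1 : (0 : ℝ) < M.G.card := by exact_mod_cast Finset.card_pos.2 ⟨c, hcG⟩
      rw [if_neg hcS]
      refine ⟨by linarith, ?_⟩
      rw [← div_eq_mul_inv, le_div_iff₀ h1]; linarith
  have hz : ∀ c d, 0 ≤ M.z c d ^ p := fun c d => hp.pow_nonneg _
  have hF : M.m a * M.m b * M.z a b ^ p ≤ M.F p := by
    unfold S5Mom.F
    have h1 : ∑ b' ∈ M.Al, M.m a * M.m b' * M.z a b' ^ p ≤
        ∑ a' ∈ M.Al, ∑ b' ∈ M.Al, M.m a' * M.m b' * M.z a' b' ^ p :=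
      Finset.single_le_sum (f := fun a' => ∑ b' ∈ M.Al, M.m a' * M.m b' * M.z a' b' ^ p)
        (fun a' _ => Finset.sum_nonneg fun b' _ =>
          mul_nonneg (mul_nonneg (hm0 _) (hm0 _)) (hz _ _)) ha
    have h2 : M.m a * M.m b * M.z a b ^ p ≤ ∑ b' ∈ M.Al, M.m a * M.m b' * M.z a b' ^ p :=
      Finset.single_le_sum (f := fun b' => M.m a * M.m b' * M.z a b' ^ p)
        (fun b' _ => mul_nonneg (mul_nonneg (hm0 _) (hm0 _)) (hz _ _)) hb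
    exact h2.trans h1
  have hN : ∀ k, 0 ≤ M.N p k := by
    intro k
    unfold S5Mom.N
    refine Finset.sum_nonneg fun a' _ => Finset.sum_nonneg fun x _ => ?_
    split_ifs
    · exact mul_nonneg (hm0 _) (hz _ _)
    · exact le_rfl
  have hZ : M.F p ≤ M.Z p R kp := by
    unfold S5Mom.Z
    have : 0 ≤ ∑ k ∈ range (R + 1), kp ^ (k + 1) * M.N p k :=
      Finset.sum_nonneg fun k _ => mul_nonneg (pow_nonneg hkp _) (hN k)
    linarith
  obtain ⟨hMx, ha1⟩ := hmx a ha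
  obtain ⟨-, hb1⟩ := hmx b hb
  have h1 : 1 ≤ (Mx * M.m a) * (Mx * M.m b) := by
    calc (1 : ℝ) = 1 * 1 := by ring
      _ ≤ (Mx * M.m a) * (Mx * M.m b) := mul_le_mul ha1 hb1 zero_le_one (by linarith)
  calc M.z a b ^ p = 1 * M.z a b ^ p := by ring
    _ ≤ ((Mx * M.m a) * (Mx * M.m b)) * M.z a b ^ p := mul_le_mul_of_nonneg_right h1 (hz _ _)
    _ = Mx ^ 2 * (M.m a * M.m b * M.z a b ^ p) := by ring
    _ ≤ Mx ^ 2 * M.Z p R kp := mul_le_mul_of_nonneg_left (hF.trans hZ) (by positivity)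

end Claimed.Agent.R275
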