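import Claimed.Agent.R275.S5EnA
import Claimed.Agent.R275.S4Cor
import Claimed.Agent.R275.S42Num

/-!
# Row 275, Sec 5: ASSEMBLY of Proposition 5.1 (`prop:early-phase`).  CONTRACTS for the writers of 5.1 (traces), 5.3 (`T_S`), 5.4 (high moments)
and for STRUCT-ACCOUNTS.   Owner: helper11.

## The scheme
`Φ = s5Phase ℝ d n P SA`, run from the empty pairing for `s5T d n = (n d - l₁)/2` steps, ONE tier of `Phase.invariant_run`.
Invariant at time `t`:  `π.l + 2 t = n d`,  `InvS t π` (structural, opaque here),  `π.S5St …` ("current early state": walk facts, valid pairs,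
caps `.075a/.105a/.33a`, lower bound of `𝒯` at the primaries, `T_S ≤ n^η`).

## Contract of an analytic account `j` (`S5Acct`)
a DETERMINISTIC coefficient `c : ℕ → ℝ` (function of `l` only; it may depend on `n, h, s`),
* `step`  : `𝔼_{valid pairs} Z_j(π') ≤ (1 + c(l)) Z_j(π)` at every current early state with `l > l₁`,
* `budget`: `∏_{s<t} (1 + c(n d - 2 s)) ≤ B` for all `t ≤ s5T`.
Extraction is a separate statement per account family (`S5Ext…`): `Z_j(π') ≤ Kmax * B` at a CANDIDATE `π'` of a current early state gives the cap.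
`Kmax = n^{ηK}` bounds the total initial score (`O(log n)` accounts, each `≤ 2` at the empty pairing).

## Who proves what
* `.trL1, .trL0, .recT` : Sec 5.1 (helper194), files `S51*.lean`  → `s51_acct_L1`, `s51_acct_L0`, `s51_acct_T`, `s51_extract`.
* `.tS`                 : Sec 5.3 (helper114), files `S53*.lean`  → `s53_acct`, `s53_extract`.
* `.hi`                 : Sec 5.4 (helper11), `S5Acc.lean`        → `s54_acct`, `s54_extract`.
* `S5SA`                : STRUCT-ACCOUNTS + STRUCT-GRAPH (helper153, helper104).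
The statements of these theorems are collected at the end of this file as DEFINITIONS of propositions (`StS51…`), so that the final theorem
`s5_main_of` can be proved now and independently.
-/

set_option autoImplicit false

namespace Claimed.Agent.R275

open Filter Finset

namespace PPair

variable {n d : ℕ} (π : PPair n d)

/-- "a current early state".  `ηs` = structural loss exponent (walk facts), `η` = exponent of `T_S`. -/
structure S5St (P : S5Par) (CM CR ηs η : ℝ) (Rc : ℕ) (cT : ℝ) : Prop where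
  l_ge : l1 n ≤ π.l
  walk : π.WalkOK CM CR ηs Rc
  valid : S5Valid π.unres (π.admSet (g0 d n)) (s42Dg d n)
  caps : π.Caps P.cp (75 / 1000) (105 / 1000) (33 / 100)
  tlow : π.TLow P.cp cT ((P.θ : ℝ) / 2)
  ts : π.TSBd P.cp η

end PPair

/-- CONTRACT of one analytic account -/
structure S5Acct (d n : ℕ) (P : S5Par) (St : PPair n d → Prop) (j : S5Lab) (c : ℕ → ℝ) (B : ℝ) : Prop where
  c_nonneg : ∀ l, 0 ≤ c l
  step : ∀ π : PPair n d, St π → l1 n < π.l →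
    avgOn (π.admSet (g0 d n)) (fun p => s5Zv ℝ d n P j (π.resolve p.1 p.2)) ≤ (1 + c π.l) * s5Zv ℝ d n P j π
  budget : ∀ t ≤ s5T d n, ∏ s ∈ range t, (1 + c (n * d - 2 * s)) ≤ B

/-- CONTRACT of the structural accounts in the early phase (at a fixed `n`).  `Kmax` = any bound of the total initial score of the phase. -/
structure S5SA {ιs : Type} (d n : ℕ) (SA : Phase ℝ (PPair n d) ιs) (CM CR ηs : ℝ) (Rc : ℕ) (Kmax : ℝ)
    (InvS : ℕ → PPair n d → Prop) (cS : ιs → PPair n d → ℝ) (BS : ιs → ℝ) : Prop where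
  ok : SA.Ok
  cands : ∀ π, SA.cands π = π.s5cands (g0 d n)
  /-- total initial score of the structural accounts -/
  init : SA.score (fun _ => 1) (PPair.empty n d) ≤ 2
  inv0 : InvS 0 (PPair.empty n d)
  step : ∀ t < s5T d n, ∀ π : PPair n d, InvS t π → π.l + 2 * t = n * d → ∀ i ∈ SA.labels,
    0 ≤ cS i π ∧ SA.avg i π ≤ (1 + cS i π) * SA.Z i π
  budget : ∀ t < s5T d n, ∀ path : ℕ → PPair n d, (∀ s ≤ t, InvS s (path s) ∧ (path s).l + 2 * s = n * d) →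
    ∀ i ∈ SA.labels, ∏ s ∈ range (t + 1), (1 + cS i (path s)) ≤ BS i
  extract : ∀ t < s5T d n, ∀ π π' : PPair n d, InvS t π → π.l + 2 * t = n * d → π' ∈ π.s5cands (g0 d n) →
    (∀ i ∈ SA.labels, SA.wt i * SA.Z i π' ≤ Kmax * BS i) → InvS (t + 1) π'
  walk : ∀ t π, InvS t π → π.WalkOK CM CR ηs Rc
  valid : ∀ t π, InvS t π → S5Valid π.unres (π.admSet (g0 d n)) (s42Dg d n)
  fewBad : ∀ π, InvS (s5T d n) π → (π.badL (R0 d n)).length < bb n

/-- the invariant of the early phase -/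
structure S5Inv {d n : ℕ} (P : S5Par) (CM CR ηs η : ℝ) (Rc : ℕ) (cT : ℝ) (InvS : ℕ → PPair n d → Prop) (t : ℕ)
    (π : PPair n d) : Prop where
  l_eq : π.l + 2 * t = n * d
  str : InvS t π
  st : π.S5St P CM CR ηs η Rc cT

/-- everything the assembly needs at a fixed `n` -/
structure S5Asm {ιs : Type} (d n : ℕ) (P : S5Par) (SA : Phase ℝ (PPair n d) ιs) (CM CR ηs η : ℝ) (Rc : ℕ) (cT Kmax : ℝ)
    (InvS : ℕ → PPair n d → Prop) (cS : ιs → PPair n d → ℝ) (BS : ιs → ℝ) (cA : S5Lab → ℕ → ℝ) (BA : S5Lab → ℝ) :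
    Prop where
  /-- size and parity -/
  par : n * d = l1 n + 2 * s5T d n
  big : 32 ≤ l1 n ∧ 4 * s42Dg d n ≤ l1 n
  kp : 0 ≤ P.kp
  sa : S5SA d n SA CM CR ηs Rc Kmax InvS cS BS
  acct : ∀ j ∈ s5labels d n P.cp, S5Acct d n P (fun π => π.S5St P CM CR ηs η Rc cT) j (cA j) (BA j)
  /-- initial values of the analytic accounts -/
  init : ((s5labels d n P.cp).map fun j => s5Zv ℝ d n P j (PPair.empty n d)).sum + 2 ≤ Kmax
  /-- the analytic caps at the empty pairing -/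
  st0 : (PPair.empty n d).Caps P.cp (75 / 1000) (105 / 1000) (33 / 100) ∧
    (PPair.empty n d).TLow P.cp cT ((P.θ : ℝ) / 2) ∧ (PPair.empty n d).TSBd P.cp η
  /-- extraction of the analytic caps at a candidate of a current early state -/
  extract : ∀ π π' : PPair n d, π.S5St P CM CR ηs η Rc cT → l1 n < π.l → π' ∈ π.s5cands (g0 d n) →
    (∀ j ∈ s5labels d n P.cp, s5Zv ℝ d n P j π' ≤ Kmax * BA j) →
    π'.Caps P.cp (75 / 1000) (105 / 1000) (33 / 100) ∧ π'.TLow P.cp cT ((P.θ : ℝ) / 2) ∧ π'.TSBd P.cp η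

/-! ## package S5-ASM: the abstract assembly (no analysis; `Phase.invariant_run`, `s5_lavg_cands`, `s5_mem_cands`, `resolve_l`, `l_empty`) -/

/-- `Φ.Ok` for the early phase -/
theorem s5Phase_ok {ιs : Type} (d n : ℕ) (P : S5Par) (hkp : 0 ≤ P.kp) (SA : Phase ℝ (PPair n d) ιs) (h : SA.Ok)
    (hc : ∀ π, SA.cands π = π.s5cands (g0 d n)) : (s5Phase ℝ d n P SA).Ok := by
  refine ⟨?_, ?_, ?_⟩
  · intro i
    cases i with
    | inl j => exact h.wt_nonneg j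
    | inr j => exact zero_le_one
  · intro i x
    cases i with
    | inl j => exact h.Z_nonneg j x
    | inr j => exact zero_le_one.trans (s5Zv_one_le d n P hkp j x)
  · intro i x hx x' hx'
    cases i with
    | inl j =>
      refine h.dead j x hx x' ?_
      rw [hc]
      exact hx'
    | inr j =>
      have h1 : s5Zv ℝ d n P j x = 0 := hx
      have h2 := s5Zv_one_le d n P hkp j x
      rw [h1] at h2
      exact absurd h2 (by norm_num)

/-- the score of the phase splits -/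
theorem s5Phase_score {ιs : Type} (d n : ℕ) (P : S5Par) (SA : Phase ℝ (PPair n d) ιs) (π : PPair n d) :
    (s5Phase ℝ d n P SA).score (fun _ => 1) π =
      SA.score (fun _ => 1) π + ((s5labels d n P.cp).map fun j => s5Zv ℝ d n P j π).sum := by
  unfold Phase.score s5Phase
  simp only [List.map_append, List.sum_append, List.map_map]
  congr 1
  congr 1
  refine List.map_congr_left fun j _ => ?_
  simp

/-- averages of the phase -/
theorem s5Phase_avg_inr {ιs : Type} (d n : ℕ) (P : S5Par) (SA : Phase ℝ (PPair n d) ιs) (j : S5Lab) (π : PPair n d) :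
    (s5Phase ℝ d n P SA).avg (Sum.inr j) π =
      avgOn (π.admSet (g0 d n)) (fun p => s5Zv ℝ d n P j (π.resolve p.1 p.2)) := by
  exact π.s5_lavg_cands (g0 d n) (fun π' => s5Zv ℝ d n P j π')

theorem s5Phase_avg_inl {ιs : Type} (d n : ℕ) (P : S5Par) (SA : Phase ℝ (PPair n d) ιs)
    (hc : ∀ π, SA.cands π = π.s5cands (g0 d n)) (i : ιs) (π : PPair n d) :
    (s5Phase ℝ d n P SA).avg (Sum.inl i) π = SA.avg i π := by
  unfold Phase.avg
  rw [hc]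
  rfl

/-- there is a candidate -/
theorem s5_cands_ne_nil {d n : ℕ} (π : PPair n d) (hV : S5Valid π.unres (π.admSet (g0 d n)) (s42Dg d n))
    (hl : 32 ≤ π.l) (hDg : 4 * s42Dg d n ≤ π.l) : π.s5cands (g0 d n) ≠ [] := by
  have h1 := s5_card_valid_half hV (le_trans (by norm_num) hl) hDg
  have h2 : (0 : ℝ) < (π.unres.card : ℝ) ^ 2 / 2 := by
    have : (0 : ℝ) < (π.unres.card : ℝ) := by
      have : 0 < π.unres.card := lt_of_lt_of_le (by norm_num) hl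
      exact_mod_cast this
    positivity
  have h3 : 0 < (π.admSet (g0 d n)).card := by
    have : (0 : ℝ) < ((π.admSet (g0 d n)).card : ℝ) := lt_of_lt_of_le h2 h1
    exact_mod_cast this
  obtain ⟨p, hp⟩ := Finset.card_pos.1 h3
  have hmem : π.resolve p.1 p.2 ∈ π.s5cands (g0 d n) :=
    (π.s5_mem_cands _ _).2 ⟨p.1, p.2, (Finset.mem_filter.1 hp).2, rfl⟩
  exact List.ne_nil_of_mem hmem

/-- a candidate has two stubs less -/
theorem s5_cands_l {d n : ℕ} {π π' : PPair n d} {g : ℕ} (h : π' ∈ π.s5cands g) : π'.l + 2 = π.l := by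
  obtain ⟨u, v, hA, rfl⟩ := (π.s5_mem_cands g π').1 h
  exact PPair.resolve_l hA.1 hA.2.1 (π.s5_adm_ne hA).1

/-- THE ASSEMBLY at a fixed `n` -/
theorem s5_assemble {ιs : Type} (d n : ℕ) (P : S5Par) (SA : Phase ℝ (PPair n d) ιs) (CM CR ηs η : ℝ) (Rc : ℕ)
    (cT Kmax : ℝ) (InvS : ℕ → PPair n d → Prop) (cS : ιs → PPair n d → ℝ) (BS : ιs → ℝ) (cA : S5Lab → ℕ → ℝ)
    (BA : S5Lab → ℝ) (H : S5Asm d n P SA CM CR ηs η Rc cT Kmax InvS cS BS cA BA) :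
    ∀ t ≤ s5T d n, S5Inv P CM CR ηs η Rc cT InvS t ((s5Phase ℝ d n P SA).run (PPair.empty n d) t).1 := by
  have hcs : ∀ π, SA.cands π = π.s5cands (g0 d n) := H.sa.cands
  have hlab : ∀ i, i ∈ (s5Phase ℝ d n P SA).labels ↔
      (∃ i' ∈ SA.labels, i = Sum.inl i') ∨ ∃ j ∈ s5labels d n P.cp, i = Sum.inr j := by
    intro i
    show i ∈ SA.labels.map Sum.inl ++ (s5labels d n P.cp).map Sum.inr ↔ _
    rw [List.mem_append, List.mem_map, List.mem_map]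
    constructor
    · rintro (⟨a, ha, rfl⟩ | ⟨a, ha, rfl⟩)
      · exact Or.inl ⟨a, ha, rfl⟩
      · exact Or.inr ⟨a, ha, rfl⟩
    · rintro (⟨a, ha, rfl⟩ | ⟨a, ha, rfl⟩)
      · exact Or.inl ⟨a, ha, rfl⟩
      · exact Or.inr ⟨a, ha, rfl⟩
  refine Phase.invariant_run (s5Phase ℝ d n P SA) (s5Phase_ok d n P H.kp SA H.sa.ok hcs)
    (PPair.empty n d) (s5T d n) (S5Inv P CM CR ηs η Rc cT InvS) (fun _ _ => True) (fun _ => True)
    (Sum.elim cS (fun j π => cA j π.l)) (Sum.elim BS BA) Kmax ?_ ?_ ?_ ?_ ?_ ?_ ?_ ?_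
  · rw [s5Phase_score]
    have := H.sa.init
    have := H.init
    linarith
  · refine ⟨by rw [PPair.l_empty]; rfl, H.sa.inv0, ?_⟩
    refine ⟨?_, H.sa.walk 0 _ H.sa.inv0, H.sa.valid 0 _ H.sa.inv0, H.st0.1, H.st0.2.1, H.st0.2.2⟩
    rw [PPair.l_empty, H.par]
    omega
  · intro t _ x I
    exact s5_cands_ne_nil x I.st.valid (H.big.1.trans I.st.l_ge) (H.big.2.trans I.st.l_ge)
  · intro t ht x I i hi
    rcases (hlab i).1 hi with ⟨i', hi', rfl⟩ | ⟨j, hj, rfl⟩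
    · rw [s5Phase_avg_inl d n P SA hcs]
      exact H.sa.step t ht x I.str I.l_eq i' hi'
    · rw [s5Phase_avg_inr]
      refine ⟨(H.acct j hj).c_nonneg _, (H.acct j hj).step x I.st ?_⟩
      have h1 := I.l_eq
      have h2 := H.par
      omega
  · intro t ht path hist i hi _
    rcases (hlab i).1 hi with ⟨i', hi', rfl⟩ | ⟨j, hj, rfl⟩
    · exact H.sa.budget t ht path (fun s hs => ⟨(hist.2.1 s hs).str, (hist.2.1 s hs).l_eq⟩) i' hi'
    · refine le_trans (le_of_eq ?_) ((H.acct j hj).budget (t + 1) ht)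
      refine Finset.prod_congr rfl fun s hs => ?_
      have hs' : s ≤ t := by
        have := Finset.mem_range.1 hs
        omega
      have h1 := (hist.2.1 s hs').l_eq
      show 1 + cA j (path s).l = _
      rw [show (path s).l = n * d - 2 * s by omega]
  · intro _ _ _ _ _
    trivial
  · intro _ _ _ _ _ _ _ hn
    exact absurd trivial hn
  · intro t ht path hist _ hyp
    have I := hist.2.1 t le_rfl
    have hmem : path (t + 1) ∈ (path t).s5cands (g0 d n) := hist.2.2 t le_rfl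
    have hl := s5_cands_l hmem
    have h1 := I.l_eq
    have h2 := H.par
    have hstr : InvS (t + 1) (path (t + 1)) :=
      H.sa.extract t ht (path t) (path (t + 1)) I.str I.l_eq hmem fun i hi =>
        hyp (Sum.inl i) ((hlab _).2 (Or.inl ⟨i, hi, rfl⟩))
    have hex := H.extract (path t) (path (t + 1)) I.st (by omega) hmem fun j hj => by
      have h3 := hyp (Sum.inr j) ((hlab _).2 (Or.inr ⟨j, hj, rfl⟩))
      have h4 : (1 : ℝ) * s5Zv ℝ d n P j (path (t + 1)) ≤ Kmax * BA j := h3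
      rwa [one_mul] at h4
    exact ⟨by omega, hstr, ⟨by omega, H.sa.walk _ _ hstr, H.sa.valid _ _ hstr, hex.1, hex.2.1, hex.2.2⟩⟩

/-- monotonicity of the walk facts in the loss exponent -/
theorem s5_walk_mono {d n : ℕ} (hn : 1 ≤ n) {π : PPair n d} {CM CR ηs η : ℝ} {Rc : ℕ} (h : π.WalkOK CM CR ηs Rc)
    (hη : ηs ≤ η) : π.WalkOK CM CR η Rc := by
  have hn1 : (1 : ℝ) ≤ (n : ℝ) := by exact_mod_cast hn
  have hpow : (n : ℝ) ^ ηs ≤ (n : ℝ) ^ η := Real.rpow_le_rpow_of_exponent_le hn1 hη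
  have hpos : (0 : ℝ) < (n : ℝ) ^ ηs := Real.rpow_pos_of_pos (by linarith) _
  refine ⟨h.girth, h.short, h.mult, h.rowsq, ?_, h.retsq.trans hpow⟩
  intro k hk1 hk2
  have h1 := h.ret k hk1 hk2
  have h0 : (0 : ℝ) ≤ ∑ v : Fin n, π.Nact ℝ k v v :=
    Finset.sum_nonneg fun v _ => (π.Nact_le_Qmat k v v).1
  have h2 : (0 : ℝ) ≤ ((d : ℝ) - 1) ^ k := by
    by_contra hneg
    push Not at hneg
    have := mul_neg_of_pos_of_neg hpos hneg
    linarith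
  exact h1.trans (mul_le_mul_of_nonneg_right hpow h2)

/-- the output of the early phase at a fixed `n` -/
theorem s5_out {ιs : Type} (d n : ℕ) (hn : 1 ≤ n) (P : S5Par) (SA : Phase ℚ (PPair n d) ιs) (CM CR ηs η : ℝ) (hη : ηs ≤ η)
    (Rc : ℕ) (cT Kmax : ℝ) (InvS : ℕ → PPair n d → Prop) (cS : ιs → PPair n d → ℝ) (BS : ιs → ℝ)
    (cA : S5Lab → ℕ → ℝ) (BA : S5Lab → ℝ)
    (H : S5Asm d n P (SA.map (Rat.castHom ℝ)) CM CR ηs η Rc cT Kmax InvS cS BS cA BA) :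
    (s5Run d n P SA).EarlyOut P.cp CM CR η Rc cT (P.θ : ℝ) ∧ InvS (s5T d n) (s5Run d n P SA) := by
  have I := s5_assemble d n P (SA.map (Rat.castHom ℝ)) CM CR ηs η Rc cT Kmax InvS cS BS cA BA H
    (s5T d n) le_rfl
  rw [← s5Run_eq] at I
  refine ⟨⟨?_, s5_walk_mono hn I.st.walk hη, I.st.caps, I.st.tlow, I.st.ts, H.sa.fewBad _ I.str⟩, I.str⟩
  have h1 := I.l_eq
  have h2 := H.par
  omega

/-! ## package S5-BUD: the budget lemma (shared by 5.1, 5.3, 5.4) -/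

/-- the standard shape of a one-step coefficient: `A/l + n^{-δ} (1/l + √l₀/l^{3/2} + l₀/l²) + n^{-3/2}` -/
noncomputable def s5cStd (n : ℕ) (A δ : ℝ) (l : ℕ) : ℝ :=
  A / (l : ℝ) + (n : ℝ) ^ (-δ) * (1 / (l : ℝ) + Real.sqrt (l0 n) / ((l : ℝ) * Real.sqrt l) + (l0 n : ℝ) / (l : ℝ) ^ 2)
    + (n : ℝ) ^ (-(3 / 2 : ℝ))

theorem s5cStd_nonneg (n : ℕ) (A δ : ℝ) (hA : 0 ≤ A) (l : ℕ) : 0 ≤ s5cStd n A δ l := by
  unfold s5cStd
  positivity

theorem s5bud_cast (l : ℕ) (hl : 3 ≤ l) : ((l - 2 : ℕ) : ℝ) = (l : ℝ) - 2 := by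
  rw [Nat.cast_sub (by omega)]
  norm_num

theorem s5bud_log_step (l : ℕ) (hl : 3 ≤ l) :
    1 / (l : ℝ) ≤ (Real.log l - Real.log ((l - 2 : ℕ) : ℝ)) / 2 := by
  have hl' : (3 : ℝ) ≤ l := by exact_mod_cast hl
  rw [s5bud_cast l hl]
  have h1 : Real.log (((l : ℝ) - 2) / l) ≤ ((l : ℝ) - 2) / l - 1 :=
    Real.log_le_sub_one_of_pos (by apply div_pos <;> linarith)
  rw [Real.log_div (by linarith) (by linarith)] at h1
  have h2 : ((l : ℝ) - 2) / l - 1 = - (2 * (1 / (l : ℝ))) := by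
    field_simp
    ring
  linarith

theorem s5bud_sqrt_step (l : ℕ) (hl : 3 ≤ l) :
    1 / ((l : ℝ) * Real.sqrt l) ≤ 1 / Real.sqrt ((l - 2 : ℕ) : ℝ) - 1 / Real.sqrt l := by
  have hl' : (3 : ℝ) ≤ l := by exact_mod_cast hl
  rw [s5bud_cast l hl]
  have ha : 0 < Real.sqrt l := Real.sqrt_pos.2 (by linarith)
  have hb : 0 < Real.sqrt ((l : ℝ) - 2) := Real.sqrt_pos.2 (by linarith)
  have ha2 : Real.sqrt l ^ 2 = l := Real.sq_sqrt (by linarith)
  have hb2 : Real.sqrt ((l : ℝ) - 2) ^ 2 = (l : ℝ) - 2 := Real.sq_sqrt (by linarith)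
  have hab : Real.sqrt ((l : ℝ) - 2) ≤ Real.sqrt l := Real.sqrt_le_sqrt (by linarith)
  set a := Real.sqrt l with hadef
  set b := Real.sqrt ((l : ℝ) - 2) with hbdef
  have h1 : 1 ≤ (a - b) * a := by nlinarith [mul_nonneg (sub_nonneg.2 hab) (sub_nonneg.2 hab)]
  rw [div_sub_div _ _ hb.ne' ha.ne', div_le_div_iff₀ (by positivity) (by positivity), ← ha2]
  have h2 : a * a ≤ (a - b) * a * (a * a) := by
    have := mul_le_mul_of_nonneg_right h1 (mul_nonneg ha.le ha.le)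
    linarith
  have h3 : b * a ≤ a * a := mul_le_mul_of_nonneg_right hab ha.le
  nlinarith

theorem s5bud_sq_step (l : ℕ) (hl : 3 ≤ l) :
    1 / (l : ℝ) ^ 2 ≤ (1 / ((l - 2 : ℕ) : ℝ) - 1 / (l : ℝ)) / 2 := by
  have hl' : (3 : ℝ) ≤ l := by exact_mod_cast hl
  rw [s5bud_cast l hl]
  have h0 : (0 : ℝ) < (l : ℝ) - 2 := by linarith
  have h00 : (0 : ℝ) < (l : ℝ) := by linarith
  have h : (1 / ((l : ℝ) - 2) - 1 / (l : ℝ)) / 2 = 1 / ((l : ℝ) * ((l : ℝ) - 2)) := by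
    field_simp
    ring
  rw [h]
  exact one_div_le_one_div_of_le (by positivity) (by nlinarith)

theorem s5bud_tele (f G : ℕ → ℝ) (hstep : ∀ l, 3 ≤ l → f l ≤ G (l - 2) - G l) (N : ℕ) (t : ℕ)
    (h : 2 * t + 1 ≤ N) : ∑ s ∈ range t, f (N - 2 * s) ≤ G (N - 2 * t) - G N := by
  induction t with
  | zero => simp
  | succ t ih =>
    rw [sum_range_succ]
    have h1 := ih (by omega)
    have h2 := hstep (N - 2 * t) (by omega)
    have h3 : N - 2 * t - 2 = N - 2 * (t + 1) := by omega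
    rw [h3] at h2
    linarith

/-- the potential -/
noncomputable def s5budG (n : ℕ) (A δ : ℝ) (l : ℕ) : ℝ :=
  -((A + (n : ℝ) ^ (-δ)) * (Real.log l / 2)) + (n : ℝ) ^ (-δ) * Real.sqrt (l0 n) * (1 / Real.sqrt l)
    + (n : ℝ) ^ (-δ) * (l0 n : ℝ) * (1 / (l : ℝ) / 2) - (l : ℝ) / 2 * (n : ℝ) ^ (-(3 / 2 : ℝ))

theorem s5bud_step (n : ℕ) (A δ : ℝ) (hA : 0 ≤ A) (l : ℕ) (hl : 3 ≤ l) :
    s5cStd n A δ l ≤ s5budG n A δ (l - 2) - s5budG n A δ l := by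
  have e1 := mul_le_mul_of_nonneg_left (s5bud_log_step l hl) (by positivity : 0 ≤ A + (n : ℝ) ^ (-δ))
  have e2 := mul_le_mul_of_nonneg_left (s5bud_sqrt_step l hl)
    (by positivity : 0 ≤ (n : ℝ) ^ (-δ) * Real.sqrt (l0 n))
  have e3 := mul_le_mul_of_nonneg_left (s5bud_sq_step l hl) (by positivity : 0 ≤ (n : ℝ) ^ (-δ) * (l0 n : ℝ))
  have hc : s5cStd n A δ l = (A + (n : ℝ) ^ (-δ)) * (1 / (l : ℝ))
      + (n : ℝ) ^ (-δ) * Real.sqrt (l0 n) * (1 / ((l : ℝ) * Real.sqrt l))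
      + (n : ℝ) ^ (-δ) * (l0 n : ℝ) * (1 / (l : ℝ) ^ 2) + (n : ℝ) ^ (-(3 / 2 : ℝ)) := by
    unfold s5cStd
    ring
  have hG : s5budG n A δ (l - 2) - s5budG n A δ l
      = (A + (n : ℝ) ^ (-δ)) * ((Real.log l - Real.log ((l - 2 : ℕ) : ℝ)) / 2)
      + (n : ℝ) ^ (-δ) * Real.sqrt (l0 n) * (1 / Real.sqrt ((l - 2 : ℕ) : ℝ) - 1 / Real.sqrt l)
      + (n : ℝ) ^ (-δ) * (l0 n : ℝ) * ((1 / ((l - 2 : ℕ) : ℝ) - 1 / (l : ℝ)) / 2)
      + ((l : ℝ) - ((l - 2 : ℕ) : ℝ)) / 2 * (n : ℝ) ^ (-(3 / 2 : ℝ)) := by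
    unfold s5budG
    ring
  have h4 : ((l : ℝ) - ((l - 2 : ℕ) : ℝ)) / 2 = 1 := by
    rw [s5bud_cast l hl]
    ring
  rw [hc, hG, h4]
  linarith

theorem s5bud_l0_ge (n : ℕ) (hn : 1 ≤ n) : (n : ℝ) ^ (2 / 3 : ℝ) / 2 ≤ (l0 n : ℝ) := by
  have hx : (0 : ℚ) ≤ 2 / 3 + 15 / 100 * aa := by unfold aa; norm_num
  have h1 := le_scQ_of_nonneg _ hx n hn
  have h2 : ((scN (2 / 3 + 15 / 100 * aa) n : ℕ) : ℝ) = ((scQ (2 / 3 + 15 / 100 * aa) n : ℚ) : ℝ) := by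
    have := scN_cast _ hx n
    exact_mod_cast congrArg (fun q : ℚ => (q : ℝ)) this
  have hn' : (1 : ℝ) ≤ n := by exact_mod_cast hn
  have hxr : (2 / 3 : ℝ) ≤ ((2 / 3 + 15 / 100 * aa : ℚ) : ℝ) := by unfold aa; norm_num
  have hxr' : ((2 / 3 + 15 / 100 * aa : ℚ) : ℝ) + 1 ≤ 2 := by unfold aa; norm_num
  have h3 : (n : ℝ) ^ (2 / 3 : ℝ) ≤ (n : ℝ) ^ ((2 / 3 + 15 / 100 * aa : ℚ) : ℝ) :=
    Real.rpow_le_rpow_of_exponent_le hn' hxr
  have h4 : (2 : ℝ) ^ (((2 / 3 + 15 / 100 * aa : ℚ) : ℝ) + 1) ≤ 4 := by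
    have := Real.rpow_le_rpow_of_exponent_le (by norm_num : (1 : ℝ) ≤ 2) hxr'
    have h5 : (2 : ℝ) ^ (2 : ℝ) = 4 := by
      rw [show (2 : ℝ) = ((2 : ℕ) : ℝ) by norm_num, Real.rpow_natCast]
      norm_num
    linarith
  have h6 : (n : ℝ) ^ (2 / 3 : ℝ) / 4 ≤ ((scQ (2 / 3 + 15 / 100 * aa) n : ℚ) : ℝ) := by
    refine le_trans ?_ h1
    exact div_le_div₀ (by positivity) h3 (by positivity) h4
  unfold l0
  push_cast
  rw [h2]
  linarith

theorem s5bud_ev_log (δ : ℝ) (hδ : 0 < δ) (ε : ℝ) (hε : 0 < ε) :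
    ∀ᶠ n : ℕ in atTop, (n : ℝ) ^ (-δ) * Real.log n ≤ ε := by
  have h := (isLittleO_log_rpow_atTop hδ).comp_tendsto tendsto_natCast_atTop_atTop
  have h2 := h.bound hε
  filter_upwards [h2, eventually_ge_atTop 1] with n hn hn1
  have hn' : (1 : ℝ) ≤ n := by exact_mod_cast hn1
  have hpos : (0 : ℝ) < (n : ℝ) ^ δ := by positivity
  simp only [Function.comp, Real.norm_eq_abs] at hn
  rw [abs_of_nonneg (Real.log_nonneg hn'), abs_of_pos hpos] at hn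
  rw [Real.rpow_neg (by positivity), inv_mul_le_iff₀ hpos]
  linarith

/-- `∑ 1/l ≤ log n`, `∑ √l₀/l^{3/2} ≤ C`, `∑ l₀/l² ≤ C` over `l = n d, n d - 2, …, > l₁`; `1 + x ≤ exp x`. -/
theorem s5_budget (d : ℕ) (hd : 3 ≤ d) (A δ : ℝ) (hA : 0 ≤ A) (hδ : 0 < δ) :
    ∀ᶠ n : ℕ in atTop, ∀ t ≤ s5T d n, ∏ s ∈ range t, (1 + s5cStd n A δ (n * d - 2 * s)) ≤ 2 * (n : ℝ) ^ A := by
  filter_upwards [eventually_ge_atTop (2 * d), s5bud_ev_log δ hδ (1 / 5) (by norm_num),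
    parF_ev_small (-δ) (by linarith) (1 / 10) (by norm_num),
    parF_ev_small (-(1 / 2 : ℝ)) (by norm_num) (1 / (5 * (d : ℝ))) (by positivity)] with n hn1 hn2 hn3 hn4 t ht
  have hn0 : 1 ≤ n := by omega
  have hnR : (1 : ℝ) ≤ n := by exact_mod_cast hn0
  have hnpos : (0 : ℝ) < n := by linarith
  have hdpos : (0 : ℝ) < d := by
    have : 0 < d := by omega
    exact_mod_cast this
  have hΛ : 0 ≤ Real.log n := Real.log_nonneg hnR
  have hA1 : (1 : ℝ) ≤ (n : ℝ) ^ A := Real.one_le_rpow hnR hA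
  rcases Nat.eq_zero_or_pos t with rfl | htpos
  · simp
    linarith
  -- sizes
  have hl0 : 2 ≤ l0 n := by
    unfold l0 scN
    have : 1 ≤ 2 ^ (scZ (2 / 3 + 15 / 100 * aa) n).toNat := Nat.one_le_two_pow
    omega
  obtain ⟨N, hN⟩ : ∃ N, N = n * d := ⟨_, rfl⟩
  have hM : l0 n + 2 * t ≤ N := by
    unfold s5T l1 at ht
    rw [← hN] at ht
    omega
  rw [← hN]
  -- product ≤ exp (sum)
  have h1 : ∏ s ∈ range t, (1 + s5cStd n A δ (N - 2 * s)) ≤ Real.exp (∑ s ∈ range t, s5cStd n A δ (N - 2 * s)) := by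
    rw [Real.exp_sum]
    refine prod_le_prod (fun s _ => ?_) (fun s _ => ?_)
    · have := s5cStd_nonneg n A δ hA (N - 2 * s)
      linarith
    · have := Real.add_one_le_exp (s5cStd n A δ (N - 2 * s))
      linarith
  have h2 := s5bud_tele (s5cStd n A δ) (s5budG n A δ) (s5bud_step n A δ hA) N t (by omega)
  refine h1.trans ?_
  have h3 : 2 * (n : ℝ) ^ A = Real.exp (A * Real.log n + Real.log 2) := by
    rw [Real.exp_add, Real.exp_log (by norm_num), Real.rpow_def_of_pos hnpos]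
    ring_nf
  rw [h3]
  refine Real.exp_le_exp.2 (h2.trans ?_)
  -- the estimate of the potential difference
  obtain ⟨M, hMdef⟩ : ∃ M, M = N - 2 * t := ⟨_, rfl⟩
  rw [← hMdef]
  have hMl0 : l0 n ≤ M := by omega
  have hMN : M ≤ N := by omega
  have hl0R : (2 : ℝ) ≤ (l0 n : ℝ) := by exact_mod_cast hl0
  have hMR : (l0 n : ℝ) ≤ (M : ℝ) := by exact_mod_cast hMl0
  have hMNR : (M : ℝ) ≤ (N : ℝ) := by exact_mod_cast hMN
  have hNR : (N : ℝ) = (n : ℝ) * d := by rw [hN]; push_cast; ring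
  set ε := (n : ℝ) ^ (-δ) with hε
  have hε0 : 0 ≤ ε := by positivity
  -- logs
  have hlogM : Real.log (l0 n) ≤ Real.log M := Real.log_le_log (by linarith) hMR
  have hlogl0 : (2 / 3 : ℝ) * Real.log n - Real.log 2 ≤ Real.log (l0 n) := by
    have := Real.log_le_log (by positivity) (s5bud_l0_ge n hn0)
    rw [Real.log_div (by positivity) (by norm_num), Real.log_rpow hnpos] at this
    exact this
  have hlogN : Real.log N = Real.log n + Real.log d := by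
    rw [hNR, Real.log_mul hnpos.ne' hdpos.ne']
  have hlog2d : Real.log 2 + Real.log d ≤ Real.log n := by
    rw [← Real.log_mul (by norm_num) hdpos.ne']
    exact Real.log_le_log (by positivity) (by exact_mod_cast hn1)
  have hL : (Real.log N - Real.log M) / 2 ≤ Real.log n * (2 / 3) := by linarith
  have hL0 : 0 ≤ Real.log n * (2 / 3) := by positivity
  -- sqrt
  have hs1 : Real.sqrt (l0 n) * (1 / Real.sqrt M) ≤ 1 := by
    rw [mul_one_div]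
    exact div_le_one_of_le₀ (Real.sqrt_le_sqrt hMR) (Real.sqrt_nonneg _)
  have hs2 : 0 ≤ Real.sqrt (l0 n) * (1 / Real.sqrt N) := by positivity
  have hq1 : (l0 n : ℝ) * (1 / (M : ℝ) / 2) ≤ 1 / 2 := by
    have : (l0 n : ℝ) / (M : ℝ) ≤ 1 := div_le_one_of_le₀ hMR (by linarith)
    have h' : (l0 n : ℝ) * (1 / (M : ℝ) / 2) = (l0 n : ℝ) / (M : ℝ) / 2 := by ring
    rw [h']
    linarith
  have hq2 : 0 ≤ (l0 n : ℝ) * (1 / (N : ℝ) / 2) := by positivity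
  -- last term
  have hη : (N : ℝ) / 2 * (n : ℝ) ^ (-(3 / 2 : ℝ)) ≤ 1 / 10 := by
    have e : (n : ℝ) * (n : ℝ) ^ (-(3 / 2 : ℝ)) = (n : ℝ) ^ (-(1 / 2 : ℝ)) := by
      have := Real.rpow_add hnpos 1 (-(3 / 2 : ℝ))
      rw [Real.rpow_one] at this
      rw [← this]
      norm_num
    have e2 : (N : ℝ) / 2 * (n : ℝ) ^ (-(3 / 2 : ℝ)) = (d : ℝ) / 2 * (n : ℝ) ^ (-(1 / 2 : ℝ)) := by
      rw [← e, hNR]
      ring
    rw [e2]
    have := mul_le_mul_of_nonneg_left hn4 (by positivity : 0 ≤ (d : ℝ) / 2)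
    refine this.trans (le_of_eq ?_)
    field_simp
    norm_num
  have hη2 : 0 ≤ (M : ℝ) / 2 * (n : ℝ) ^ (-(3 / 2 : ℝ)) := by positivity
  have hG : s5budG n A δ M - s5budG n A δ N
      = (A + ε) * ((Real.log N - Real.log M) / 2)
      + ε * (Real.sqrt (l0 n) * (1 / Real.sqrt M) - Real.sqrt (l0 n) * (1 / Real.sqrt N))
      + ε * ((l0 n : ℝ) * (1 / (M : ℝ) / 2) - (l0 n : ℝ) * (1 / (N : ℝ) / 2))
      + ((N : ℝ) / 2 * (n : ℝ) ^ (-(3 / 2 : ℝ)) - (M : ℝ) / 2 * (n : ℝ) ^ (-(3 / 2 : ℝ))) := by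
    unfold s5budG
    ring
  rw [hG]
  have t1 : (A + ε) * ((Real.log N - Real.log M) / 2) ≤ (A + ε) * (Real.log n * (2 / 3)) :=
    mul_le_mul_of_nonneg_left hL (by positivity)
  have t2 : ε * (Real.sqrt (l0 n) * (1 / Real.sqrt M) - Real.sqrt (l0 n) * (1 / Real.sqrt N)) ≤ ε * 1 :=
    mul_le_mul_of_nonneg_left (by linarith) hε0
  have t3 : ε * ((l0 n : ℝ) * (1 / (M : ℝ) / 2) - (l0 n : ℝ) * (1 / (N : ℝ) / 2)) ≤ ε * (1 / 2) :=
    mul_le_mul_of_nonneg_left (by linarith) hε0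
  have t4 : (A + ε) * (Real.log n * (2 / 3)) ≤ A * Real.log n + ε * Real.log n := by
    have : 0 ≤ (A + ε) * Real.log n := by positivity
    nlinarith
  have hlog2 := Real.log_two_gt_d9
  linarith

/-- an account whose one-step coefficient is dominated by the standard shape -/
theorem s5_acct_of_std (d : ℕ) (hd : 3 ≤ d) (A δ : ℝ) (hA : 0 ≤ A) (hδ : 0 < δ) :
    ∀ᶠ n : ℕ in atTop, ∀ (P : S5Par) (St : PPair n d → Prop) (j : S5Lab),
      (∀ π : PPair n d, St π → l1 n < π.l →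
        avgOn (π.admSet (g0 d n)) (fun p => s5Zv ℝ d n P j (π.resolve p.1 p.2)) ≤
          (1 + s5cStd n A δ π.l) * s5Zv ℝ d n P j π) →
      S5Acct d n P St j (s5cStd n A δ) (2 * (n : ℝ) ^ A) := by
  filter_upwards [s5_budget d hd A δ hA hδ] with n hn P St j hstep
  exact ⟨s5cStd_nonneg n A δ hA, hstep, hn⟩

/-! ## THE CONTRACTS (statements to be proved by the section writers, for FIXED constants) -/

section Contracts

variable (d : ℕ) (P : S5Par) (CM CR ηs η : ℝ) (Rc : ℕ) (cT ηK : ℝ)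

/-- Sec 5.1, `L_1` -/
def StS5L1 : Prop := ∀ᶠ n : ℕ in atTop, ∀ h ∈ trackedList d n P.cp, ∀ s : Bool,
  (∃ c, S5Acct d n P (fun π => π.S5St P CM CR ηs η Rc cT) (.trL1 h s) c 2) ∧
  ∀ π' : PPair n d, s5Zv ℝ d n P (.trL1 h s) π' ≤ (n : ℝ) ^ ηK * 2 →
    |π'.L1 (sgn s) ((h : ℚ) : ℝ)| ≤ (n : ℝ) ^ ((75 / 1000 : ℝ) * (aa : ℝ)) / alphaS d n

/-- Sec 5.1, `L_0` -/
def StS5L0 : Prop := ∀ᶠ n : ℕ in atTop, ∀ h ∈ trackedList d n P.cp, ∀ s : Bool,
  (∃ c, S5Acct d n P (fun π => π.S5St P CM CR ηs η Rc cT) (.trL0 h s) c 2) ∧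
  ∀ π' : PPair n d, s5Zv ℝ d n P (.trL0 h s) π' ≤ (n : ℝ) ^ ηK * 2 →
    |π'.L0 (sgn s) ((h : ℚ) : ℝ)| ≤ (n : ℝ) ^ ((105 / 1000 : ℝ) * (aa : ℝ)) / alphaS d n ^ 2

/-- Sec 5.1, `𝒯` (primaries).  The extraction may use that `π'` is a candidate of a current early state
(`𝒯(π') > 0` follows from `|Δ𝒯| ≪ 𝒯`; the account alone says nothing if `𝒯(π') = 0`, because `x / 0 = 0`). -/
def StS5T : Prop := ∀ᶠ n : ℕ in atTop, ∀ h ∈ primList d n P.cp, ∀ s : Bool,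
  (∃ c, S5Acct d n P (fun π => π.S5St P CM CR ηs η Rc cT) (.recT h s) c 2) ∧
  ∀ π π' : PPair n d, π.S5St P CM CR ηs η Rc cT → l1 n < π.l → π' ∈ π.s5cands (g0 d n) →
    s5Zv ℝ d n P (.recT h s) π' ≤ (n : ℝ) ^ ηK * 2 →
    cT * (n : ℝ) ^ (-((P.θ : ℝ) / 2)) * ((n : ℝ)⁻¹ + alphaf d ((h : ℚ) : ℝ) / (π'.l : ℝ))⁻¹ ≤
      π'.Ttr (sgn s) ((h : ℚ) : ℝ)

/-- Sec 5.3, `T_S` -/
def StS5TS : Prop := ∀ᶠ n : ℕ in atTop, ∀ h ∈ trackedList d n P.cp, ∀ s : Bool,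
  (∃ c, S5Acct d n P (fun π => π.S5St P CM CR ηs η Rc cT) (.tS h s) c 2) ∧
  ∀ π' : PPair n d, s5Zv ℝ d n P (.tS h s) π' ≤ (n : ℝ) ^ ηK * 2 →
    π'.TS (Lcut d n) (sgn s) ((h : ℚ) : ℝ) ≤ (n : ℝ) ^ η

/-- Sec 5.4, high moments; `Bhi` = exponent of the discount loss -/
def StS5Hi (Bhi : ℝ) : Prop := ∀ᶠ n : ℕ in atTop, ∀ h ∈ trackedList d n P.cp, ∀ s : Bool,
  (∃ c, S5Acct d n P (fun π => π.S5St P CM CR ηs η Rc cT) (.hi h s) c (2 * (n : ℝ) ^ Bhi)) ∧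
  ∀ π' : PPair n d, s5Zv ℝ d n P (.hi h s) π' ≤ (n : ℝ) ^ ηK * (2 * (n : ℝ) ^ Bhi) →
    ∀ a b : Label n d, π'.Alive a → π'.Alive b →
      |π'.Eent (Lcut d n) (sgn s) ((h : ℚ) : ℝ) a b| ≤ (n : ℝ) ^ ((33 / 100 : ℝ) * (aa : ℝ)) / Real.sqrt (l0 n)

/-- positivity of all candidates (from `s4c_adm`) -/
def StS5Pos : Prop := ∀ᶠ n : ℕ in atTop, ∀ π : PPair n d, π.S5St P CM CR ηs η Rc cT → ∀ u v : Stub n d,
  π.Adm (g0 d n) u v → ∀ h ∈ trackedList d n P.cp, ∀ s : Bool, PosOn1 ((π.resolve u v).Mmat (sgn s) ((h : ℚ) : ℝ))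

/-- the empty pairing and the sizes -/
def StS5Init : Prop := ∀ᶠ n : ℕ in atTop, Even n →
  n * d = l1 n + 2 * s5T d n ∧ 32 ≤ l1 n ∧ 4 * s42Dg d n ≤ l1 n ∧
  ((s5labels d n P.cp).map fun j => s5Zv ℝ d n P j (PPair.empty n d)).sum + 2 ≤ (n : ℝ) ^ ηK ∧
  (PPair.empty n d).Caps P.cp (75 / 1000) (105 / 1000) (33 / 100) ∧
  (PPair.empty n d).TLow P.cp cT ((P.θ : ℝ) / 2) ∧ (PPair.empty n d).TSBd P.cp η

end Contracts

/-- a current early state is a current state of Sec 4 -/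
theorem PPair.S5St.cur {d n : ℕ} (hn : 1 ≤ n) (hα : 0 < alphaS d n) {π : PPair n d} {P : S5Par} {CM CR ηs η : ℝ} {Rc : ℕ} {cT : ℝ}
    (h : π.S5St P CM CR ηs η Rc cT) : π.Cur P.cp CM CR ηs Rc := by
  have hn1 : (1 : ℝ) ≤ (n : ℝ) := by exact_mod_cast hn
  have haa : (0 : ℝ) ≤ (aa : ℝ) := by
    have : (0 : ℚ) ≤ aa := by unfold aa; norm_num
    exact_mod_cast this
  have hmono : ∀ x y : ℝ, x ≤ y → (n : ℝ) ^ (x * (aa : ℝ)) ≤ (n : ℝ) ^ (y * (aa : ℝ)) := fun x y hxy =>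
    Real.rpow_le_rpow_of_exponent_le hn1 (mul_le_mul_of_nonneg_right hxy haa)
  refine ⟨?_, h.walk, ?_⟩
  · have := h.l_ge
    unfold l1 at this
    omega
  · intro hh hmem s
    have c := h.caps hh hmem s
    refine ⟨c.pos, c.hL1.trans ?_, c.hL0.trans ?_, fun a b ha hb => (c.hE a b ha hb).trans ?_⟩
    · exact div_le_div_of_nonneg_right (hmono _ _ (by norm_num)) hα.le
    · exact div_le_div_of_nonneg_right (hmono _ _ (by norm_num)) (by positivity)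
    · exact div_le_div_of_nonneg_right (hmono _ _ (by norm_num)) (Real.sqrt_nonneg _)

/-- membership in the list of analytic labels -/
theorem s5_mem_labels (d n : ℕ) (cp : ℚ) (j : S5Lab) :
    j ∈ s5labels d n cp ↔
      (∃ h ∈ trackedList d n cp, ∃ s : Bool, j = .trL1 h s ∨ j = .trL0 h s ∨ j = .tS h s ∨ j = .hi h s) ∨
      ∃ h ∈ primList d n cp, ∃ s : Bool, j = .recT h s := by
  unfold s5labels
  simp only [List.mem_append, List.mem_flatMap, List.mem_map, List.mem_cons, List.not_mem_nil, or_false]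
  constructor
  · rintro (⟨h, hh, s, _, hj⟩ | ⟨h, hh, s, _, hj⟩)
    · exact Or.inl ⟨h, hh, s, hj⟩
    · exact Or.inr ⟨h, hh, s, hj.symm⟩
  · rintro (⟨h, hh, s, hj⟩ | ⟨h, hh, s, hj⟩)
    · refine Or.inl ⟨h, hh, s, ?_, hj⟩
      cases s <;> simp
    · refine Or.inr ⟨h, hh, s, ?_, hj.symm⟩
      cases s <;> simp

/-- PROPOSITION 5.1 from the contracts, for fixed constants (pure bookkeeping: `Filter.Eventually.and`, `s5_out`) -/
theorem s5_main_of (d : ℕ) (P : S5Par) (CM CR ηs η : ℝ) (Rc : ℕ) (cT ηK Bhi : ℝ) (hη : ηs ≤ η) (hkp : 0 ≤ P.kp)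
    (h1 : StS5L1 d P CM CR ηs η Rc cT ηK) (h0 : StS5L0 d P CM CR ηs η Rc cT ηK)
    (hT : StS5T d P CM CR ηs η Rc cT ηK) (hS : StS5TS d P CM CR ηs η Rc cT ηK)
    (hH : StS5Hi d P CM CR ηs η Rc cT ηK Bhi) (hP : StS5Pos d P CM CR ηs η Rc cT)
    (hI : StS5Init d P η cT ηK) :
    ∀ᶠ n : ℕ in atTop, Even n → ∀ (ιs : Type) (SA : Phase ℚ (PPair n d) ιs) (InvS : ℕ → PPair n d → Prop)
      (cS : ιs → PPair n d → ℝ) (BS : ιs → ℝ),
      S5SA d n (SA.map (Rat.castHom ℝ)) CM CR ηs Rc ((n : ℝ) ^ ηK) InvS cS BS →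
      (s5Run d n P SA).EarlyOut P.cp CM CR η Rc cT (P.θ : ℝ) ∧ InvS (s5T d n) (s5Run d n P SA) := by
  filter_upwards [h1, h0, hT, hS, hH, hP, hI, eventually_ge_atTop 1] with n g1 g0' gT gS gH gP gI hn
  intro hev ιs SA InvS cS BS hSA
  obtain ⟨i1, i2, i3, i4, i5, i6, i7⟩ := gI hev
  set BA : S5Lab → ℝ := fun j => match j with
    | .hi _ _ => 2 * (n : ℝ) ^ Bhi
    | _ => 2 with hBA
  have hex : ∀ j, ∃ c : ℕ → ℝ, j ∈ s5labels d n P.cp →
      S5Acct d n P (fun π => π.S5St P CM CR ηs η Rc cT) j c (BA j) := by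
    intro j
    by_cases hj : j ∈ s5labels d n P.cp
    · rcases (s5_mem_labels d n P.cp j).1 hj with ⟨h, hh, s, rfl | rfl | rfl | rfl⟩ | ⟨h, hh, s, rfl⟩
      · obtain ⟨c, hc⟩ := (g1 h hh s).1
        exact ⟨c, fun _ => hc⟩
      · obtain ⟨c, hc⟩ := (g0' h hh s).1
        exact ⟨c, fun _ => hc⟩
      · obtain ⟨c, hc⟩ := (gS h hh s).1
        exact ⟨c, fun _ => hc⟩
      · obtain ⟨c, hc⟩ := (gH h hh s).1
        exact ⟨c, fun _ => hc⟩
      · obtain ⟨c, hc⟩ := (gT h hh s).1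
        exact ⟨c, fun _ => hc⟩
    · exact ⟨fun _ => 0, fun h => absurd h hj⟩
  choose cA hcA using hex
  refine s5_out d n hn P SA CM CR ηs η hη Rc cT ((n : ℝ) ^ ηK) InvS cS BS cA BA ?_
  refine ⟨i1, ⟨i2, i3⟩, hkp, hSA, hcA, i4, ⟨i5, i6, i7⟩, ?_⟩
  intro π π' hst hl hmem hyp
  obtain ⟨u, v, hA, hπ'⟩ := (π.s5_mem_cands _ π').1 hmem
  refine ⟨?_, ?_, ?_⟩
  · intro h hh s
    refine ⟨?_, ?_, ?_, ?_⟩
    · rw [hπ']
      exact gP π hst u v hA h hh s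
    · exact (g1 h hh s).2 π' (hyp _ ((s5_mem_labels d n P.cp _).2 (Or.inl ⟨h, hh, s, Or.inl rfl⟩)))
    · exact (g0' h hh s).2 π' (hyp _ ((s5_mem_labels d n P.cp _).2 (Or.inl ⟨h, hh, s, Or.inr (Or.inl rfl)⟩)))
    · exact (gH h hh s).2 π'
        (hyp _ ((s5_mem_labels d n P.cp _).2 (Or.inl ⟨h, hh, s, Or.inr (Or.inr (Or.inr rfl))⟩)))
  · intro h hh s
    exact (gT h hh s).2 π π' hst hl hmem (hyp _ ((s5_mem_labels d n P.cp _).2 (Or.inr ⟨h, hh, s, rfl⟩)))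
  · intro h hh s
    exact (gS h hh s).2 π'
      (hyp _ ((s5_mem_labels d n P.cp _).2 (Or.inl ⟨h, hh, s, Or.inr (Or.inr (Or.inl rfl))⟩)))

/-! ## package S5-INIT: the empty pairing (proofs: helper175, auxiliary lemmas `s5i_`) -/

namespace PPair

variable (n d : ℕ)

theorem s5i_Ae_empty (hn : 0 < n) (hd : 0 < d) : (PPair.empty n d).Ae ℝ = (d : ℝ) • J1 ℝ n := by
  have hnK : (n : ℝ) ≠ 0 := Nat.cast_ne_zero.2 hn.ne'
  have hdK : (d : ℝ) ≠ 0 := Nat.cast_ne_zero.2 hd.ne'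
  ext a b
  rw [Ae_eq]
  simp only [Matrix.add_apply, Matrix.smul_apply, Matrix.vecMulVec_apply, adjM, tvec, acount_empty, tcount_empty,
    l_empty, J1, smul_eq_mul]
  push_cast
  field_simp
  simp

theorem s5i_Dcal_empty (hn : 0 < n) (hd : 0 < d) : (PPair.empty n d).Dcal ℝ = (d : ℝ) • Pi1 ℝ n := by
  have hnK : (n : ℝ) ≠ 0 := Nat.cast_ne_zero.2 hn.ne'
  have hdK : (d : ℝ) ≠ 0 := Nat.cast_ne_zero.2 hd.ne'
  ext a b
  rw [Dcal_eq]
  simp only [Matrix.sub_apply, Matrix.smul_apply, Matrix.vecMulVec_apply, tvec, tcount_empty,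
    l_empty, J1, Pi1, smul_eq_mul, Matrix.diagonal_apply, Matrix.one_apply]
  push_cast
  by_cases hab : a = b
  · simp [hab]; field_simp
  · simp [hab]; field_simp

theorem s5i_De_empty (hn : 0 < n) (hd : 0 < d) : (PPair.empty n d).De ℝ = (d : ℝ) • J1 ℝ n := by
  have e : (PPair.empty n d).De ℝ = (d : ℝ) • 1 - (PPair.empty n d).Dcal ℝ := rfl
  rw [e, s5i_Dcal_empty n d hn hd, ← Pi1_add_J1 ℝ (n := n), smul_add]
  abel

/-- all `Q_j`, `j ≥ 1`, are multiples of the projection onto the constants -/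
theorem s5i_Qmat_empty (hn : 0 < n) (hd : 0 < d) (j : ℕ) :
    (∃ c : ℝ, (PPair.empty n d).Qmat ℝ (j + 1) = c • J1 ℝ n) ∧
      ∃ c : ℝ, (PPair.empty n d).Qmat ℝ (j + 2) = c • J1 ℝ n := by
  have hA := s5i_Ae_empty n d hn hd
  have hD := s5i_De_empty n d hn hd
  have hJ := J1_mul_J1 ℝ hn
  induction j with
  | zero =>
    refine ⟨⟨d, hA⟩, ⟨(d : ℝ) * d - d, ?_⟩⟩
    have e : (PPair.empty n d).Qmat ℝ 2 =
        (PPair.empty n d).Ae ℝ * (PPair.empty n d).Ae ℝ - (PPair.empty n d).De ℝ := rfl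
    rw [e, hA, hD, Matrix.smul_mul, Matrix.mul_smul, hJ, smul_smul, sub_smul]
  | succ j ih =>
    obtain ⟨⟨c, hc⟩, ⟨c', hc'⟩⟩ := ih
    refine ⟨⟨c', hc'⟩, ⟨(d : ℝ) * c' - ((d : ℝ) * c - c), ?_⟩⟩
    have e : (PPair.empty n d).Qmat ℝ (j + 3) =
        (PPair.empty n d).Ae ℝ * (PPair.empty n d).Qmat ℝ (j + 2)
          - ((PPair.empty n d).De ℝ - 1) * (PPair.empty n d).Qmat ℝ (j + 1) := rfl
    rw [show j + 1 + 2 = j + 3 from rfl, e, hA, hD, hc, hc', Matrix.sub_mul, Matrix.one_mul, Matrix.smul_mul,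
      Matrix.mul_smul, Matrix.smul_mul, Matrix.mul_smul, hJ, smul_smul, smul_smul, sub_smul, sub_smul]

/-- `P = Π` at the empty pairing (`L ≥ 1`): `Π Q_j Π = 0` for `j ≥ 1` -/
theorem s5_Pmat_empty (hn : 0 < n) (hd : 0 < d) (L : ℕ) (hL : 0 < L) (σ h : ℝ) :
    (PPair.empty n d).Pmat L σ h = Pi1 ℝ n := by
  have e : (PPair.empty n d).Pmat L σ h =
      ∑ j ∈ Finset.range L, (σ * h) ^ j • (Pi1 ℝ n * (PPair.empty n d).Qmat ℝ j * Pi1 ℝ n) := rfl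
  rw [e, Finset.sum_eq_single 0]
  · have e0 : (PPair.empty n d).Qmat ℝ 0 = 1 := rfl
    rw [e0, pow_zero, one_smul, Matrix.mul_one, Pi1_mul_Pi1 ℝ hn]
  · intro j _ hj
    obtain ⟨k, rfl⟩ : ∃ k, j = k + 1 := ⟨j - 1, by omega⟩
    obtain ⟨⟨c, hc⟩, -⟩ := s5i_Qmat_empty n d hn hd k
    rw [hc, Matrix.mul_smul, Pi1_mul_J1 ℝ hn, smul_zero, Matrix.zero_mul, smul_zero]
  · intro h0
    exact absurd (Finset.mem_range.2 hL) h0

theorem s5_Emat_empty (hn : 0 < n) (hd : 0 < d) (L : ℕ) (hL : 0 < L) (σ h : ℝ) (hh : h ≠ 0) (hh1 : h ^ 2 ≠ 1) :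
    (PPair.empty n d).Emat L σ h = 0 := by
  unfold Emat
  rw [Wmat_empty hn hd σ h hh hh1, s5_Pmat_empty n d hn hd L hL, sub_self]

theorem s5i_trace_Pi1 (hn : 0 < n) : (Pi1 ℝ n).trace = (n : ℝ) - 1 := by
  have hnK : (n : ℝ) ≠ 0 := Nat.cast_ne_zero.2 hn.ne'
  have e : (J1 ℝ n).trace = 1 := by
    have e1 : (J1 ℝ n).trace = ∑ _i : Fin n, (n : ℝ)⁻¹ := rfl
    rw [e1, Finset.sum_const, Finset.card_univ, Fintype.card_fin, nsmul_eq_mul]
    exact mul_inv_cancel₀ hnK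
  unfold Pi1
  rw [Matrix.trace_sub, Matrix.trace_one, Fintype.card_fin, e]

theorem s5_L1_empty (hn : 0 < n) (hd : 0 < d) (σ h : ℝ) (hh : h ≠ 0) (hh1 : h ^ 2 ≠ 1) :
    (PPair.empty n d).L1 σ h = 1 - (d : ℝ) := by
  unfold L1 F1
  rw [Wmat_empty hn hd σ h hh hh1, s5i_Dcal_empty n d hn hd, Matrix.smul_mul, Pi1_mul_Pi1 ℝ hn, Matrix.trace_smul,
    s5i_trace_Pi1 n hn, l_empty, smul_eq_mul]
  push_cast
  ring

theorem s5_L0_empty (hn : 0 < n) (hd : 0 < d) (σ h : ℝ) (hh : h ≠ 0) (hh1 : h ^ 2 ≠ 1) :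
    (PPair.empty n d).L0 σ h = 0 := by
  unfold L0 F0
  rw [Wmat_empty hn hd σ h hh hh1, s5i_trace_Pi1 n hn, sub_self]

theorem s5_Ttr_empty (hn : 0 < n) (hd : 0 < d) (σ h : ℝ) (hh : h ≠ 0) (hh1 : h ^ 2 ≠ 1) :
    (PPair.empty n d).Ttr σ h = (d : ℝ) * ((n : ℝ) - 1) := by
  unfold Ttr Qall
  rw [Matrix.trace_mul_comm, ← Matrix.mul_assoc, ← Dcal_eq_Xi_mul, Wmat_empty hn hd σ h hh hh1,
    s5i_Dcal_empty n d hn hd, Pi1_mul_Pi1 ℝ hn, Matrix.smul_mul, Pi1_mul_Pi1 ℝ hn, Matrix.trace_smul,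
    s5i_trace_Pi1 n hn, smul_eq_mul]

/-- `M = (1/h - h)` on `1^⊥` -/
theorem s5_pos_empty (hn : 0 < n) (hd : 0 < d) (σ h : ℝ) (hh : 0 < h) (hh1 : h < 1) :
    PosOn1 ((PPair.empty n d).Mmat σ h) := by
  intro v hv hv0
  have e : ((PPair.empty n d).Mmat σ h).mulVec v = (h⁻¹ - h) • v := by
    rw [Mmat_eq, s5i_Ae_empty n d hn hd, s5i_Dcal_empty n d hn hd, Matrix.sub_mulVec, Matrix.sub_mulVec,
      Matrix.smul_mulVec, Matrix.smul_mulVec, Matrix.smul_mulVec, Matrix.smul_mulVec, Matrix.smul_mulVec,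
      Matrix.one_mulVec, Pi1_mulVec_of_sum_zero v hv, J1_mulVec, hv, mul_zero]
    ext i
    simp only [Pi.sub_apply, Pi.smul_apply, smul_eq_mul, mul_zero, sub_zero, zfun]
    ring
  rw [e, dotProduct_smul, smul_eq_mul]
  have h1 : 0 < h⁻¹ - h := by
    have : 1 < h⁻¹ := (one_lt_inv₀ hh).2 hh1
    linarith
  have h2 : 0 < v ⬝ᵥ v := by
    have := Matrix.dotProduct_star_self_pos_iff (v := v)
    simpa using this.2 hv0
  positivity

end PPair

/-! scalar facts -/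

theorem s5i_one_le_scQ (x : ℚ) (hx : 0 ≤ x) (n : ℕ) : (1 : ℝ) ≤ ((scQ x n : ℚ) : ℝ) := by
  have h0 : 0 ≤ scZ x n := Int.floor_nonneg.2 (by positivity)
  have : (1 : ℚ) ≤ scQ x n := by
    unfold scQ
    exact one_le_zpow₀ (by norm_num) h0
  exact_mod_cast this

theorem s5i_scQ_le_one (x : ℚ) (hx : x ≤ 0) (n : ℕ) : ((scQ x n : ℚ) : ℝ) ≤ 1 := by
  have h0 : scZ x n ≤ 0 := Int.floor_nonpos (mul_nonpos_of_nonpos_of_nonneg hx (by positivity))
  have : scQ x n ≤ (1 : ℚ) := by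
    unfold scQ
    exact zpow_le_one_of_nonpos₀ (by norm_num) h0
  exact_mod_cast this

theorem s5i_length_labels (d n : ℕ) (cp : ℚ) :
    (s5labels d n cp).length = 18 * (Nprim d n cp + 1) + 8 * kh := by
  unfold s5labels trackedList primList
  simp only [List.length_append, List.length_flatMap, List.length_cons,
    List.length_nil, List.map_cons, List.map_nil, List.sum_cons, List.sum_nil,
    List.map_append, List.sum_append, List.map_map]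
  simp only [Function.comp_def, List.map_const', List.sum_replicate, List.length_range, smul_eq_mul]
  ring

theorem s5i_ev_count (ηK : ℝ) (hηK : 0 < ηK) :
    ∀ᶠ n : ℕ in atTop, 36 * (Real.log n + 1) + 16 * (kh : ℝ) + 2 ≤ (n : ℝ) ^ ηK := by
  have hlog : s42n_U (fun n => Real.log n) (ηK / 2) :=
    s42n_U_mk (1 / (ηK / 2)) (fun n hn => Real.log_nonneg (by exact_mod_cast hn)) fun n hn => by
      have := Real.log_le_rpow_div (x := (n : ℝ)) (Nat.cast_nonneg n) (half_pos hηK)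
      rw [div_mul_eq_mul_div, one_mul]
      exact this
  have h1 := s42n_add (s42n_add (s42n_mul (s42n_const 36 (by norm_num)) (s42n_add hlog (s42n_const 1 (by norm_num))))
    (s42n_const (16 * (kh : ℝ)) (by positivity))) (s42n_const 2 (by norm_num))
  refine s42n_fin h1 (s42n_Lrpow ηK) ?_
  have : max (ηK / 2) 0 = ηK / 2 := max_eq_left (by linarith)
  rw [this, zero_add, this, this]
  linarith

namespace PPair

variable (n d : ℕ)

theorem s5i_Eent_empty (hn : 0 < n) (hd : 0 < d) (L : ℕ) (hL : 0 < L) (σ h : ℝ) (hh : h ≠ 0) (hh1 : h ^ 2 ≠ 1)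
    (a b : Label n d) : (PPair.empty n d).Eent L σ h a b = 0 := by
  unfold Eent
  rw [s5_Emat_empty n d hn hd L hL σ h hh hh1, ft_ent_zero]

theorem s5i_TS_empty (hn : 0 < n) (hd : 0 < d) (L : ℕ) (hL : 0 < L) (σ h : ℝ) (hh : h ≠ 0) (hh1 : h ^ 2 ≠ 1) :
    (PPair.empty n d).TS L σ h = 0 := by
  unfold TS
  refine Finset.sum_eq_zero fun x _ => ?_
  have : (PPair.empty n d).eEnt L σ h (.stub x) x = 0 := s5i_Eent_empty n d hn hd L hL σ h hh hh1 _ _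
  rw [this]
  norm_num

theorem s5i_Zhi_empty (hn : 0 < n) (hd : 0 < d) (hL : 0 < Lcut d n) (p2 R : ℕ) (hp2 : 1 ≤ p2) (kp σ h : ℝ)
    (hh : h ≠ 0) (hh1 : h ^ 2 ≠ 1) : (PPair.empty n d).s5Zhi p2 R kp σ h = 1 := by
  have hz : ∀ a b : Label n d, (PPair.empty n d).s5zp p2 σ h a b = 0 := by
    intro a b
    unfold s5zp
    rw [s5i_Eent_empty n d hn hd _ hL σ h hh hh1]
    have : p2 ≠ 0 := by omega
    simp [this]
  unfold s5Zhi s5F s5N
  simp [hz]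

end PPair

/-- the contract `StS5Init` -/
theorem s5_init (d : ℕ) (hd : 3 ≤ d) (P : S5Par) (hcp : 0 < P.cp) (hcp' : P.cp ≤ 1 / 4) (hp2 : 1 ≤ P.p2)
    (hθ : 0 ≤ P.θ) (η cT ηK : ℝ) (hη : 0 ≤ η) (hcT : cT ≤ 1) (hηK : 0 < ηK) : StS5Init d P η cT ηK := by
  have hd' : (3 : ℝ) ≤ (d : ℝ) := by exact_mod_cast hd
  have hd0 : 0 < d := by omega
  have haa : (aa : ℝ) = 1 / 10000 := parF_aa
  have E32 : ∀ᶠ n : ℕ in atTop, (32 : ℝ) ≤ (l1 n : ℝ) :=
    s42n_fin (s42n_const 32 (by norm_num)) s42n_lo_l1 (by unfold aa; norm_num)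
  have EDg : ∀ᶠ n : ℕ in atTop, 4 * (s42Dg d n : ℝ) ≤ (l1 n : ℝ) :=
    s42n_fin (s42n_mul (s42n_const 4 (by norm_num)) (s42n_up_Dg d hd)) s42n_lo_l1 (by unfold aa; norm_num)
  unfold StS5Init
  filter_upwards [s42n_l1_le d hd, E32, EDg, s4c_basic d hd P.cp hcp hcp', s4c_Lcut_pos d hd, prim_zero_facts d hd,
    Nprim_le d hd P.cp hcp hcp', s5i_ev_count ηK hηK,
    parF_ev_large (1 / 3 - (aa : ℝ) / 2) (by rw [haa]; norm_num) ((d : ℝ) - 1), eventually_ge_atTop 2]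
    with n hl1 h32 hDg hbas hL hzero hN hcount hbig hn2 hev
  have hn0 : 0 < n := by omega
  have hnR : (2 : ℝ) ≤ (n : ℝ) := by exact_mod_cast hn2
  have hn1 : (1 : ℝ) ≤ (n : ℝ) := by linarith
  have hnpos : (0 : ℝ) < (n : ℝ) := by linarith
  obtain ⟨-, -, hα1, hα2⟩ := hzero
  have hα0 : 0 < alphaS d n :=
    lt_of_lt_of_le (div_pos (Real.rpow_pos_of_pos hnpos _) (by linarith)) hα1
  -- `(d - 1) α_* ≤ 1`
  have hdα : ((d : ℝ) - 1) * alphaS d n ≤ 1 := by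
    calc ((d : ℝ) - 1) * alphaS d n
        ≤ (n : ℝ) ^ (1 / 3 - (aa : ℝ) / 2) * (n : ℝ) ^ (-(1 / 3 : ℝ) + (aa : ℝ) / 2) :=
          mul_le_mul hbig hα2 hα0.le (by positivity)
      _ = 1 := by
          rw [← Real.rpow_add hnpos]
          have : (1 / 3 - (aa : ℝ) / 2 + (-(1 / 3 : ℝ) + (aa : ℝ) / 2)) = 0 := by ring
          rw [this, Real.rpow_zero]
  have hfacts : ∀ h ∈ trackedList d n P.cp, ((h : ℚ) : ℝ) ≠ 0 ∧ ((h : ℚ) : ℝ) ^ 2 ≠ 1 ∧ 0 < ((h : ℚ) : ℝ) ∧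
      ((h : ℚ) : ℝ) < 1 ∧ 0 < alphaf d ((h : ℚ) : ℝ) := by
    intro h hh
    obtain ⟨a1, -, a3, -, a5, -⟩ := hbas h hh
    exact ⟨a1.ne', by nlinarith, a1, a3, a5⟩
  have hprim : ∀ h ∈ primList d n P.cp, h ∈ trackedList d n P.cp := fun h hh => by
    unfold trackedList
    exact List.mem_append_left _ (List.mem_append_left _ hh)
  refine ⟨?_, by exact_mod_cast h32, by exact_mod_cast hDg, ?_, ?_, ?_, ?_⟩
  · -- parity
    unfold s5T
    have h1 : Even (n * d - l1 n) := (Nat.even_sub hl1).2 ⟨fun _ => even_l1 n, fun _ => hev.mul_right d⟩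
    obtain ⟨k, hk⟩ := h1
    omega
  · -- initial values
    have hval : ∀ j ∈ s5labels d n P.cp, s5Zv ℝ d n P j (PPair.empty n d) ≤ 2 := by
      intro j hj
      rcases (s5_mem_labels d n P.cp j).1 hj with ⟨h, hh, s, rfl | rfl | rfl | rfl⟩ | ⟨h, hh, s, rfl⟩
      · obtain ⟨b1, b2, -, -, -⟩ := hfacts h hh
        show 1 + (PPair.empty n d).L1 (sgn s) (h : ℝ) ^ 2 / ((s5S1 d n : ℚ) : ℝ) ^ 2 ≤ 2
        rw [PPair.s5_L1_empty n d hn0 hd0 _ _ b1 b2]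
        have hS : (d : ℝ) - 1 ≤ ((s5S1 d n : ℚ) : ℝ) := by
          have e : ((s5S1 d n : ℚ) : ℝ) = ((scQ (65 / 1000 * aa) n : ℚ) : ℝ) / alphaS d n := by
            unfold s5S1 alphaS
            rw [Rat.cast_div]
          rw [e, le_div_iff₀ hα0]
          exact hdα.trans (s5i_one_le_scQ _ (by unfold aa; norm_num) n)
        have hS0 : 0 < ((s5S1 d n : ℚ) : ℝ) := by linarith
        have : (1 - (d : ℝ)) ^ 2 / ((s5S1 d n : ℚ) : ℝ) ^ 2 ≤ 1 := by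
          rw [div_le_one (by positivity)]
          nlinarith
        linarith
      · obtain ⟨b1, b2, -, -, -⟩ := hfacts h hh
        show 1 + (PPair.empty n d).L0 (sgn s) (h : ℝ) ^ 2 / ((s5S0 d n : ℚ) : ℝ) ^ 2 ≤ 2
        rw [PPair.s5_L0_empty n d hn0 hd0 _ _ b1 b2]
        norm_num
      · obtain ⟨b1, b2, -, -, -⟩ := hfacts h hh
        show 1 + (PPair.empty n d).TS (Lcut d n) (sgn s) (h : ℝ) / ((s5ST P n : ℚ) : ℝ) ≤ 2
        rw [PPair.s5i_TS_empty n d hn0 hd0 _ hL _ _ b1 b2]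
        norm_num
      · obtain ⟨b1, b2, -, -, -⟩ := hfacts h hh
        show (PPair.empty n d).s5Zhi P.p2 P.R ((P.kp : ℚ) : ℝ) (sgn s) (h : ℝ) ≤ 2
        rw [PPair.s5i_Zhi_empty n d hn0 hd0 hL _ _ hp2 _ _ _ b1 b2]
        norm_num
      · obtain ⟨b1, b2, -, -, b5⟩ := hfacts h (hprim h hh)
        show 1 + |((s5cT P n : ℚ) : ℝ) / ((PPair.empty n d).Ttr (sgn s) (h : ℝ)
          * ((n : ℝ)⁻¹ + alphaf d (h : ℝ) / ((PPair.empty n d).l : ℝ)))| ≤ 2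
        rw [PPair.s5_Ttr_empty n d hn0 hd0 _ _ b1 b2, PPair.l_empty]
        have hc0 : 0 < ((s5cT P n : ℚ) : ℝ) := by exact_mod_cast scQ_pos _ n
        have hc1 : ((s5cT P n : ℚ) : ℝ) ≤ 1 := s5i_scQ_le_one _ (by linarith) n
        have hq : 0 ≤ alphaf d (h : ℝ) / ((n * d : ℕ) : ℝ) := by positivity
        have hX1 : 1 ≤ (d : ℝ) * ((n : ℝ) - 1) * (n : ℝ)⁻¹ := by
          rw [← div_eq_mul_inv, le_div_iff₀ hnpos]
          nlinarith
        have hdn : 0 ≤ (d : ℝ) * ((n : ℝ) - 1) := by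
          have : 0 ≤ (n : ℝ) - 1 := by linarith
          positivity
        have hX : 1 ≤ (d : ℝ) * ((n : ℝ) - 1) * ((n : ℝ)⁻¹ + alphaf d (h : ℝ) / ((n * d : ℕ) : ℝ)) := by
          have := mul_nonneg hdn hq
          rw [mul_add]
          linarith
        rw [abs_of_nonneg (div_nonneg hc0.le (by linarith))]
        have : ((s5cT P n : ℚ) : ℝ)
            / ((d : ℝ) * ((n : ℝ) - 1) * ((n : ℝ)⁻¹ + alphaf d (h : ℝ) / ((n * d : ℕ) : ℝ))) ≤ 1 := by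
          rw [div_le_one (by linarith)]
          linarith
        linarith
    have hsum : ((s5labels d n P.cp).map fun j => s5Zv ℝ d n P j (PPair.empty n d)).sum
        ≤ ((s5labels d n P.cp).length : ℝ) * 2 := by
      have := List.sum_le_card_nsmul ((s5labels d n P.cp).map fun j => s5Zv ℝ d n P j (PPair.empty n d)) 2 (by
        intro x hx
        obtain ⟨j, hj, rfl⟩ := List.mem_map.1 hx
        exact hval j hj)
      rwa [List.length_map, nsmul_eq_mul] at this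
    rw [s5i_length_labels] at hsum
    push_cast at hsum
    linarith
  · -- caps
    intro h hh s
    obtain ⟨b1, b2, b3, b4, -⟩ := hfacts h hh
    refine ⟨PPair.s5_pos_empty n d hn0 hd0 _ _ b3 b4, ?_, ?_, ?_⟩
    · rw [PPair.s5_L1_empty n d hn0 hd0 _ _ b1 b2, abs_sub_comm, abs_of_nonneg (by linarith), le_div_iff₀ hα0]
      have : 1 ≤ (n : ℝ) ^ ((75 / 1000 : ℝ) * (aa : ℝ)) := Real.one_le_rpow hn1 (by rw [haa]; norm_num)
      linarith
    · rw [PPair.s5_L0_empty n d hn0 hd0 _ _ b1 b2, abs_zero]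
      positivity
    · intro a b _ _
      rw [PPair.s5i_Eent_empty n d hn0 hd0 _ hL _ _ b1 b2, abs_zero]
      positivity
  · -- lower bound of `𝒯`
    intro h hh s
    obtain ⟨b1, b2, -, -, b5⟩ := hfacts h (hprim h hh)
    rw [PPair.s5_Ttr_empty n d hn0 hd0 _ _ b1 b2, PPair.l_empty]
    have hθ' : (0 : ℝ) ≤ (P.θ : ℝ) := by exact_mod_cast hθ
    have hA0 : 0 ≤ (n : ℝ) ^ (-((P.θ : ℝ) / 2)) := by positivity
    have hA1 : (n : ℝ) ^ (-((P.θ : ℝ) / 2)) ≤ 1 := Real.rpow_le_one_of_one_le_of_nonpos hn1 (by linarith)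
    have hq : 0 ≤ alphaf d (h : ℝ) / ((n * d : ℕ) : ℝ) := by positivity
    have hB0 : 0 < (n : ℝ)⁻¹ + alphaf d (h : ℝ) / ((n * d : ℕ) : ℝ) := by positivity
    have hB1 : ((n : ℝ)⁻¹ + alphaf d (h : ℝ) / ((n * d : ℕ) : ℝ))⁻¹ ≤ (n : ℝ) := by
      rw [inv_le_comm₀ hB0 hnpos]
      linarith
    have hAB : (n : ℝ) ^ (-((P.θ : ℝ) / 2)) * ((n : ℝ)⁻¹ + alphaf d (h : ℝ) / ((n * d : ℕ) : ℝ))⁻¹ ≤ 1 * (n : ℝ) :=
      mul_le_mul hA1 hB1 (inv_nonneg.2 hB0.le) zero_le_one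
    have hAB0 : 0 ≤ (n : ℝ) ^ (-((P.θ : ℝ) / 2)) * ((n : ℝ)⁻¹ + alphaf d (h : ℝ) / ((n * d : ℕ) : ℝ))⁻¹ :=
      mul_nonneg hA0 (inv_nonneg.2 hB0.le)
    have h1 := mul_le_mul_of_nonneg_right hcT hAB0
    rw [mul_assoc]
    nlinarith
  · intro h hh s
    obtain ⟨b1, b2, -, -, -⟩ := hfacts h hh
    rw [PPair.s5i_TS_empty n d hn0 hd0 _ hL _ _ b1 b2]
    positivity

/-- the contract `StS5Pos` -/
theorem s5_pos (d : ℕ) (hd : 3 ≤ d) (P : S5Par) (hcp : 0 < P.cp) (hcp' : P.cp ≤ 1 / 4) (CM CR ηs η : ℝ) (Rc : ℕ)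
    (cT : ℝ) : StS5Pos d P CM CR ηs η Rc cT := by
  have ha : (0 : ℝ) < (aa : ℝ) / 1000 := by rw [parF_aa]; norm_num
  have hd' : (3 : ℝ) ≤ (d : ℝ) := by exact_mod_cast hd
  unfold StS5Pos
  filter_upwards [s4c_adm d hd P.cp hcp hcp' CM CR ηs Rc 0 ha, prim_zero_facts d hd, eventually_ge_atTop 1]
    with n h1 h2 hn π hst u v hA h hh s
  have hnpos : (0 : ℝ) < (n : ℝ) := by exact_mod_cast hn
  have hα : 0 < alphaS d n :=
    lt_of_lt_of_le (div_pos (Real.rpow_pos_of_pos hnpos _) (by linarith)) h2.2.2.1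
  exact (h1 π (hst.cur hn hα) u v hA h hh s).2.2.2.2

end Claimed.Agent.R275
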