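import Claimed.Agent.R275.S5Base

/-!
# Row 275, Sec 5, package S5Rank2: mean and second moment of a rank-two update (LAYER B, abstract)

Owner of the statements: helper11.  No paper needed: this file REPLACES the word classification (Lemma 5.4), the averaging table and the
first three paragraphs of the proof of Lemma 5.5 (`early.tex` l. 420-600).

Setting: `S` = unresolved stubs, `l = |S|`, `Vd` = valid ordered pairs, `D` a symmetric matrix on `S` (application: `D = Γ - Π_l`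
with arrays `w_i`, or `D = Ξᵀ P Ξ - Π_l` with arrays `p_i`), `a, c` arrays centred on `S`.  The update of an entry is
`f(u,v) = a_pᵀ H c_p`, `H = Hgen l σ h D_p`.

PROOF of `s5_r2_mean` (all sums over ordered pairs).  `H = H_0 - H_0 D_p H_0 + H_0 D_p H D_p H_0` (`s5_Hgen_second`), so `f = f0 - f1 + f2`;
`f0, f1` are polynomials defined for ALL pairs, and with `I = S \ X0`
  `∑_{Surv} f = ∑_{I.offDiag} (f0 - f1) - ∑_{I.offDiag \ Vd} (f0 - f1) + ∑_{Surv} f2`.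
* `s5_r2_ord0`: exact contraction `s5_sum_H0_arrays`.
* `s5_r2_ord1`: `H_0 = -σh (F + ε J)`, `ε = 1/(l-2)`.  Pure swaps: `(F a)ᵀ D_p (F c) = a_v c_v D_uu + a_u c_u D_vv + (a_v c_u + a_u c_v) D_uv`;
  `∑_{u≠v∈I} a_u c_u D_vv = (∑_I a c)(∑_I D_vv) - ∑_I a c D_uu`, `|∑_I D_vv| ≤ |tr D| + 2 C0`;
  `∑_{u≠v∈I} a_u D_uv c_v = (1_I a)ᵀ D (1_I c) - ∑_I a c D_uu`, operator norm.  The `ε` corrections are bounded absolutely:
  `ε ∑ |a_u||D_uu||c_v| ≤ ε C0 ‖a‖₁‖c‖₁ ≤ 2 C0²`, `ε ∑ |a_v c_v||D_uu| ≤ ε C0 √(l N)`, `ε ∑ |a_u||D_uv||c_v| ≤ ε ‖a‖₁ C0`, ...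
* `s5_r2_forb`: Schur test `s5_sum_forb_le`, `s5_sum_forb_one`, entries of `D` bounded by `C0`.
* `s5_r2_ord2`: `|f2| ≤ 4 g_a g_c`, `g_a = ‖D_p H_0 a_p‖₁`, Cauchy-Schwarz over pairs,
  `∑_{u≠v} g_a² ≤ C ∑ (D_uu² + D_uv²)(a_v² + ε² a_u²) + ... ≤ C (N C0 + C0²)`.
-/

set_option autoImplicit false

namespace Claimed.Agent.R275

open Matrix Finset

/-- standing hypotheses on `(S, Vd, σ, h, D)` -/
structure S5R2 {α : Type} [DecidableEq α] (C0 N Z : ℝ) (S : Finset α) (Vd : Finset (α × α)) (Dg : ℕ)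
    (σ h : ℝ) (D : Matrix α α ℝ) : Prop where
  valid : S5Valid S Vd Dg
  hl : 32 ≤ S.card
  hDg : 4 * Dg ≤ S.card
  hσ : σ ^ 2 = 1
  hh : 0 < h
  hh1 : h ≤ 1
  symm : ∀ x y, D x y = D y x
  tb : ∀ p ∈ Vd, TBHyp S.card σ h (pblk D p.1 p.2)
  ent : ∀ x ∈ S, ∀ y ∈ S, |D x y| ≤ C0
  row : ∀ x ∈ S, ∑ y ∈ S, D x y ^ 2 ≤ C0
  diag : ∑ x ∈ S, D x x ^ 2 ≤ N
  op : S5OpLE S D Z

/-- an array with bounded square sum and bounded entries -/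
structure S5Arr {α : Type} (C0 : ℝ) (S : Finset α) (a : α → ℝ) : Prop where
  sq : ∑ x ∈ S, a x ^ 2 ≤ C0
  sup : ∀ x ∈ S, |a x| ≤ C0

/-- the bilinear form `a_pᵀ X c_p` -/
def s5q {α : Type} (X : Matrix (Fin 2) (Fin 2) ℝ) (a c : α → ℝ) (p : α × α) : ℝ :=
  pvec a p.1 p.2 ⬝ᵥ (X *ᵥ pvec c p.1 p.2)

theorem s5q_apply {α : Type} (X : Matrix (Fin 2) (Fin 2) ℝ) (a c : α → ℝ) (p : α × α) :
    s5q X a c p = a p.1 * (X 0 0 * c p.1 + X 0 1 * c p.2) + a p.2 * (X 1 0 * c p.1 + X 1 1 * c p.2) := by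
  simp [s5q, pvec, dotProduct, Matrix.mulVec, Fin.sum_univ_two]

/-! ### helpers for the first half (helper265) -/

section helpers

variable {α : Type}

theorem S5Arr.nonneg {C0 : ℝ} {S : Finset α} {a : α → ℝ} (h : S5Arr C0 S a) : 0 ≤ C0 :=
  (Finset.sum_nonneg fun _ _ => sq_nonneg _).trans h.sq

/-- `∑ |a||c| ≤ C0` -/
theorem s5r_sum_abs_mul {C0 : ℝ} {S : Finset α} {a c : α → ℝ} (ha : S5Arr C0 S a) (hc : S5Arr C0 S c) :
    ∑ x ∈ S, |a x| * |c x| ≤ C0 := by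
  have : ∑ x ∈ S, |a x| * |c x| ≤ ∑ x ∈ S, (a x ^ 2 + c x ^ 2) / 2 := by
    refine Finset.sum_le_sum fun x _ => ?_
    nlinarith [sq_nonneg (|a x| - |c x|), sq_abs (a x), sq_abs (c x)]
  rw [← Finset.sum_div, Finset.sum_add_distrib] at this
  linarith [ha.sq, hc.sq]

/-- `‖a‖₁ ‖c‖₁ ≤ l C0` -/
theorem s5r_l1_mul {C0 : ℝ} {S : Finset α} {a c : α → ℝ} (ha : S5Arr C0 S a) (hc : S5Arr C0 S c) :
    (∑ x ∈ S, |a x|) * (∑ x ∈ S, |c x|) ≤ S.card * C0 := by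
  have h1 := sq_sum_le_card_mul_sum_sq (s := S) (f := fun x => |a x|)
  have h2 := sq_sum_le_card_mul_sum_sq (s := S) (f := fun x => |c x|)
  simp only [sq_abs] at h1 h2
  have hl : (0:ℝ) ≤ S.card := Nat.cast_nonneg _
  nlinarith [sq_nonneg ((∑ x ∈ S, |a x|) - (∑ x ∈ S, |c x|)), mul_le_mul_of_nonneg_left ha.sq hl,
    mul_le_mul_of_nonneg_left hc.sq hl]

/-- `√(∑a²) √(∑c²) ≤ C0` -/
theorem s5r_sqrt_mul {C0 : ℝ} {S : Finset α} {a c : α → ℝ} (ha : S5Arr C0 S a) (hc : S5Arr C0 S c) :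
    Real.sqrt (∑ x ∈ S, a x ^ 2) * Real.sqrt (∑ x ∈ S, c x ^ 2) ≤ C0 := by
  calc _ ≤ Real.sqrt C0 * Real.sqrt C0 :=
        mul_le_mul (Real.sqrt_le_sqrt ha.sq) (Real.sqrt_le_sqrt hc.sq) (Real.sqrt_nonneg _) (Real.sqrt_nonneg _)
    _ = C0 := Real.mul_self_sqrt ha.nonneg

/-- nonnegative summands: ordered distinct pairs versus all pairs -/
theorem s5r_sum_offDiag_le [DecidableEq α] (S : Finset α) (f : α → α → ℝ) (hf : ∀ u ∈ S, 0 ≤ f u u) :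
    ∑ p ∈ S.offDiag, f p.1 p.2 ≤ ∑ u ∈ S, ∑ v ∈ S, f u v := by
  rw [s5b_sum_offDiag]
  linarith [Finset.sum_nonneg hf]

/-- the product `(|a_u| + |a_v|)(|c_u| + |c_v|)` -/
def s5AC (a c : α → ℝ) (p : α × α) : ℝ := (|a p.1| + |a p.2|) * (|c p.1| + |c p.2|)

theorem s5AC_nonneg (a c : α → ℝ) (p : α × α) : 0 ≤ s5AC a c p := by
  unfold s5AC; positivity

theorem s5r_sum_AC [DecidableEq α] {C0 : ℝ} {S : Finset α} {a c : α → ℝ} (ha : S5Arr C0 S a)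
    (hc : S5Arr C0 S c) : ∑ p ∈ S.offDiag, s5AC a c p ≤ 4 * S.card * C0 := by
  have h1 := s5r_sum_offDiag_le S (fun u v => (|a u| + |a v|) * (|c u| + |c v|)) fun u _ => by positivity
  refine h1.trans ?_
  have e : ∀ u v, (|a u| + |a v|) * (|c u| + |c v|) =
      |a u| * |c u| + |a u| * |c v| + |c u| * |a v| + |a v| * |c v| := by intro u v; ring
  simp only [e, Finset.sum_add_distrib, Finset.sum_const, nsmul_eq_mul,
    ← Finset.mul_sum, ← Finset.sum_mul]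
  have h2 := s5r_sum_abs_mul ha hc
  have h3 := s5r_l1_mul ha hc
  have hl : (0:ℝ) ≤ S.card := Nat.cast_nonneg _
  have h4 := mul_le_mul_of_nonneg_left h2 hl
  nlinarith

theorem s5r_sum_forb_AC [DecidableEq α] {C0 : ℝ} {S : Finset α} {Vd : Finset (α × α)} {Dg : ℕ}
    (hV : S5Valid S Vd Dg) {a c : α → ℝ} (ha : S5Arr C0 S a)
    (hc : S5Arr C0 S c) : ∑ p ∈ S.offDiag \ Vd, s5AC a c p ≤ 4 * Dg * C0 := by
  have e : ∀ p : α × α, s5AC a c p =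
      |a p.1| * |c p.1| + |a p.1| * |c p.2| + |c p.1| * |a p.2| + |a p.2| * |c p.2| := by
    intro p; unfold s5AC; ring
  simp only [e, Finset.sum_add_distrib]
  have h1 := s5_sum_forb_one hV (fun x => |a x| * |c x|) fun _ _ => by positivity
  have h2 := s5_sum_forb_le hV a c
  have h3 := s5_sum_forb_le hV c a
  have h4 := s5r_sum_abs_mul ha hc
  have h5 := s5r_sqrt_mul ha hc
  have h6 := s5r_sqrt_mul hc ha
  have hD : (0:ℝ) ≤ Dg := Nat.cast_nonneg _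
  have h7 := mul_le_mul_of_nonneg_left h4 hD
  have h8 := mul_le_mul_of_nonneg_left h5 hD
  have h9 := mul_le_mul_of_nonneg_left h6 hD
  have := h1.1
  have := h1.2
  simp only [mul_assoc] at h2 h3
  linarith

theorem s5r_abs3 (a x c M : ℝ) (h : |x| ≤ M) : |a * x * c| ≤ M * (|a| * |c|) := by
  rw [abs_mul, abs_mul]
  nlinarith [mul_nonneg (abs_nonneg a) (abs_nonneg c)]

theorem s5r_abs4 (a0 a1 c0 c1 x00 x01 x10 x11 M : ℝ) (h00 : |x00| ≤ M) (h01 : |x01| ≤ M)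
    (h10 : |x10| ≤ M) (h11 : |x11| ≤ M) :
    |a0 * (x00 * c0 + x01 * c1) + a1 * (x10 * c0 + x11 * c1)| ≤ M * ((|a0| + |a1|) * (|c0| + |c1|)) := by
  have t1 := s5r_abs3 a0 x00 c0 M h00
  have t2 := s5r_abs3 a0 x01 c1 M h01
  have t3 := s5r_abs3 a1 x10 c0 M h10
  have t4 := s5r_abs3 a1 x11 c1 M h11
  have e : a0 * (x00 * c0 + x01 * c1) + a1 * (x10 * c0 + x11 * c1) =
      a0 * x00 * c0 + a0 * x01 * c1 + (a1 * x10 * c0 + a1 * x11 * c1) := by ring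
  rw [e]
  have := abs_add_le (a0 * x00 * c0 + a0 * x01 * c1) (a1 * x10 * c0 + a1 * x11 * c1)
  have := abs_add_le (a0 * x00 * c0) (a0 * x01 * c1)
  have := abs_add_le (a1 * x10 * c0) (a1 * x11 * c1)
  nlinarith

theorem s5r_abs_q_le (X : Matrix (Fin 2) (Fin 2) ℝ) (M : ℝ) (hX : ∀ i j, |X i j| ≤ M) (a c : α → ℝ)
    (p : α × α) : |s5q X a c p| ≤ M * s5AC a c p := by
  rw [s5q_apply]
  exact s5r_abs4 _ _ _ _ _ _ _ _ M (hX 0 0) (hX 0 1) (hX 1 0) (hX 1 1)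

/-- shape and size of `H_0` -/
theorem s5r_H0_form {l : ℕ} {σ h : ℝ} (hl : 32 ≤ l) (hσ : σ ^ 2 = 1) (hh : 0 < h) (hh1 : h ≤ 1) :
    ∃ y0 y1 : ℝ, H0 l σ h = !![y0, y1; y1, y0] ∧ |y0| * l ≤ 2 ∧ |y0| ≤ 1 ∧ |y1| ≤ 2 := by
  have h32 : (32 : ℝ) ≤ l := by exact_mod_cast hl
  have hx : |σ * h| ≤ 1 := by
    rw [abs_mul, abs_of_pos hh]
    have : |σ| = 1 := by
      have := sq_abs σ
      rw [hσ] at this
      nlinarith [abs_nonneg σ]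
    rw [this]; linarith
  have hl2 : (0:ℝ) < (l : ℝ) - 2 := by linarith
  refine ⟨_, _, s5H0_entries l σ h, ?_, ?_, ?_⟩
  · rw [abs_div, abs_neg, abs_of_pos hl2, div_mul_eq_mul_div, div_le_iff₀ hl2]
    nlinarith [abs_nonneg (σ * h)]
  · rw [abs_div, abs_neg, abs_of_pos hl2, div_le_iff₀ hl2]
    nlinarith [abs_nonneg (σ * h)]
  · rw [abs_mul, abs_neg]
    have h1 : 1 / ((l:ℝ) - 2) ≤ 1 := by
      rw [div_le_iff₀ hl2]; linarith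
    have h0 : 0 < 1 / ((l:ℝ) - 2) := by positivity
    rw [abs_of_pos (by linarith : 0 < 1 + 1 / ((l:ℝ) - 2))]
    nlinarith [abs_nonneg (σ * h)]

theorem s5r_sandwich (Y Dp : Matrix (Fin 2) (Fin 2) ℝ) (M : ℝ) (hY : ∀ i j, |Y i j| ≤ 2)
    (hD : ∀ i j, |Dp i j| ≤ M) (i j : Fin 2) : |(Y * Dp * Y) i j| ≤ 16 * M := by
  have e : (Y * Dp * Y) i j = Y i 0 * (Dp 0 0 * Y 0 j + Dp 0 1 * Y 1 j)
      + Y i 1 * (Dp 1 0 * Y 0 j + Dp 1 1 * Y 1 j) := by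
    simp only [Matrix.mul_apply, Fin.sum_univ_two]; ring
  rw [e]
  refine (s5r_abs4 _ _ _ _ _ _ _ _ M (hD 0 0) (hD 0 1) (hD 1 0) (hD 1 1)).trans ?_
  have hM : 0 ≤ M := (abs_nonneg _).trans (hD 0 0)
  have : (|Y i 0| + |Y i 1|) * (|Y 0 j| + |Y 1 j|) ≤ 4 * 4 :=
    mul_le_mul (by linarith [hY i 0, hY i 1]) (by linarith [hY 0 j, hY 1 j]) (by positivity) (by norm_num)
  nlinarith

theorem s5r_Y_le {y0 y1 : ℝ} (hy0 : |y0| ≤ 1) (hy1 : |y1| ≤ 2) (i j : Fin 2) :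
    |(!![y0, y1; y1, y0] : Matrix (Fin 2) (Fin 2) ℝ) i j| ≤ 2 := by
  fin_cases i <;> fin_cases j <;> simp <;> linarith

theorem s5r_pblk_le {S : Finset α} {D : Matrix α α ℝ} {C0 : ℝ} (hD : ∀ x ∈ S, ∀ y ∈ S, |D x y| ≤ C0)
    {u v : α} (hu : u ∈ S) (hv : v ∈ S) (i j : Fin 2) : |pblk D u v i j| ≤ C0 := by
  fin_cases i <;> fin_cases j <;> simp [pblk]
  · exact hD u hu u hu
  · exact hD u hu v hv
  · exact hD v hv u hu
  · exact hD v hv v hv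

/-- the operator bound on a subset -/
theorem s5r_op_sub [DecidableEq α] {S I : Finset α} {D : Matrix α α ℝ} {Z : ℝ} (hop : S5OpLE S D Z)
    (hI : I ⊆ S) (a c : α → ℝ) :
    |∑ x ∈ I, ∑ y ∈ I, a x * D x y * c y| ≤
      Z * Real.sqrt (∑ x ∈ S, a x ^ 2) * Real.sqrt (∑ x ∈ S, c x ^ 2) := by
  have h := hop.2 (fun x => if x ∈ I then a x else 0) (fun x => if x ∈ I then c x else 0)
  have e : ∑ x ∈ S, ∑ y ∈ S, (if x ∈ I then a x else 0) * D x y * (if y ∈ I then c y else 0) =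
      ∑ x ∈ I, ∑ y ∈ I, a x * D x y * c y := by
    calc _ = ∑ x ∈ S, if x ∈ I then ∑ y ∈ I, a x * D x y * c y else 0 := by
          refine Finset.sum_congr rfl fun x _ => ?_
          split_ifs with hx
          · simp only [mul_ite, mul_zero]
            rw [Finset.sum_ite_mem, Finset.inter_eq_right.2 hI]
          · simp
      _ = _ := by rw [Finset.sum_ite_mem, Finset.inter_eq_right.2 hI]
  rw [e] at h
  refine h.trans ?_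
  have q : ∀ b : α → ℝ, ∑ x ∈ S, (if x ∈ I then b x else 0) ^ 2 ≤ ∑ x ∈ S, b x ^ 2 := by
    intro b
    refine Finset.sum_le_sum fun x _ => ?_
    split_ifs
    · exact le_rfl
    · simpa using sq_nonneg (b x)
  have := hop.1
  exact mul_le_mul (mul_le_mul_of_nonneg_left (Real.sqrt_le_sqrt (q a)) this) (Real.sqrt_le_sqrt (q c))
    (Real.sqrt_nonneg _) (mul_nonneg this (Real.sqrt_nonneg _))

/-- the pure swap part of the first order term -/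
def s5M1 (D : Matrix α α ℝ) (a c : α → ℝ) (u v : α) : ℝ :=
  a v * c v * D u u + a u * c u * D v v + c u * D u v * a v + a u * D u v * c v

theorem s5r_ord1_rem {y0 y1 C0 : ℝ} (hy0 : |y0| ≤ 1) (hy1 : |y1| ≤ 2) (D : Matrix α α ℝ)
    (hs : ∀ x y, D x y = D y x) (a c : α → ℝ)
    (p : α × α) (hD : ∀ i j, |pblk D p.1 p.2 i j| ≤ C0) :
    |s5q (!![y0, y1; y1, y0] * pblk D p.1 p.2 * !![y0, y1; y1, y0]) a c p - y1 ^ 2 * s5M1 D a c p.1 p.2| ≤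
      5 * |y0| * C0 * s5AC a c p := by
  have d00 : |D p.1 p.1| ≤ C0 := hD 0 0
  have d01 : |D p.1 p.2| ≤ C0 := hD 0 1
  have d11 : |D p.2 p.2| ≤ C0 := hD 1 1
  have e : s5q (!![y0, y1; y1, y0] * pblk D p.1 p.2 * !![y0, y1; y1, y0]) a c p - y1 ^ 2 * s5M1 D a c p.1 p.2 =
      y0 * y1 * (a p.1 * ((D p.1 p.2 + D p.1 p.2) * c p.1 + (D p.1 p.1 + D p.2 p.2) * c p.2)
        + a p.2 * ((D p.1 p.1 + D p.2 p.2) * c p.1 + (D p.1 p.2 + D p.1 p.2) * c p.2))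
      + y0 ^ 2 * (a p.1 * (D p.1 p.1 * c p.1 + D p.1 p.2 * c p.2)
        + a p.2 * (D p.1 p.2 * c p.1 + D p.2 p.2 * c p.2)) := by
    rw [s5q_apply, s5M1]
    simp only [pblk, Matrix.mul_apply, Fin.sum_univ_two, hs p.2 p.1]
    simp
    ring
  rw [e]
  have a1 : |D p.1 p.2 + D p.1 p.2| ≤ 2 * C0 := (abs_add_le _ _).trans (by linarith)
  have a2 : |D p.1 p.1 + D p.2 p.2| ≤ 2 * C0 := (abs_add_le _ _).trans (by linarith)
  have r1 := s5r_abs4 (a p.1) (a p.2) (c p.1) (c p.2) _ _ _ _ (2 * C0) a1 a2 a2 a1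
  have r2 := s5r_abs4 (a p.1) (a p.2) (c p.1) (c p.2) _ _ _ _ C0 d00 d01 d01 d11
  refine (abs_add_le _ _).trans ?_
  rw [abs_mul, abs_mul, abs_mul (y0 ^ 2), abs_pow]
  have hC0 : 0 ≤ C0 := (abs_nonneg _).trans d00
  have hAC := s5AC_nonneg a c p
  unfold s5AC at hAC ⊢
  set AC := (|a p.1| + |a p.2|) * (|c p.1| + |c p.2|)
  have hy := abs_nonneg y0
  have k1 : |y0| * |y1| * |a p.1 * ((D p.1 p.2 + D p.1 p.2) * c p.1 + (D p.1 p.1 + D p.2 p.2) * c p.2)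
        + a p.2 * ((D p.1 p.1 + D p.2 p.2) * c p.1 + (D p.1 p.2 + D p.1 p.2) * c p.2)| ≤
      (|y0| * 2) * (2 * C0 * AC) :=
    mul_le_mul (mul_le_mul_of_nonneg_left hy1 hy) r1 (abs_nonneg _) (by positivity)
  have k2 : |y0| ^ 2 * |a p.1 * (D p.1 p.1 * c p.1 + D p.1 p.2 * c p.2)
        + a p.2 * (D p.1 p.2 * c p.1 + D p.2 p.2 * c p.2)| ≤ (|y0| * 1) * (C0 * AC) := by
    refine mul_le_mul ?_ r2 (abs_nonneg _) (by positivity)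
    rw [sq]; exact mul_le_mul_of_nonneg_left hy0 hy
  linarith

/-- `‖D_p Y a_p‖²` -/
def s5W (y0 y1 : ℝ) (D : Matrix α α ℝ) (a : α → ℝ) (u v : α) : ℝ :=
  (D u u * (y0 * a u + y1 * a v) + D u v * (y1 * a u + y0 * a v)) ^ 2
    + (D u v * (y0 * a u + y1 * a v) + D v v * (y1 * a u + y0 * a v)) ^ 2

theorem s5r_ord2_pt (y0 y1 : ℝ) (D : Matrix α α ℝ) (hs : ∀ x y, D x y = D y x)
    (X : Matrix (Fin 2) (Fin 2) ℝ) (hX : ∀ i j, |X i j| ≤ 4) (a c : α → ℝ) (p : α × α) :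
    |s5q (!![y0, y1; y1, y0] * pblk D p.1 p.2 * X * pblk D p.1 p.2 * !![y0, y1; y1, y0]) a c p| ≤
      4 * (s5W y0 y1 D a p.1 p.2 + s5W y0 y1 D c p.1 p.2) := by
  have e : s5q (!![y0, y1; y1, y0] * pblk D p.1 p.2 * X * pblk D p.1 p.2 * !![y0, y1; y1, y0]) a c p =
      (D p.1 p.1 * (y0 * a p.1 + y1 * a p.2) + D p.1 p.2 * (y1 * a p.1 + y0 * a p.2)) *
        (X 0 0 * (D p.1 p.1 * (y0 * c p.1 + y1 * c p.2) + D p.1 p.2 * (y1 * c p.1 + y0 * c p.2))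
          + X 0 1 * (D p.1 p.2 * (y0 * c p.1 + y1 * c p.2) + D p.2 p.2 * (y1 * c p.1 + y0 * c p.2)))
      + (D p.1 p.2 * (y0 * a p.1 + y1 * a p.2) + D p.2 p.2 * (y1 * a p.1 + y0 * a p.2)) *
        (X 1 0 * (D p.1 p.1 * (y0 * c p.1 + y1 * c p.2) + D p.1 p.2 * (y1 * c p.1 + y0 * c p.2))
          + X 1 1 * (D p.1 p.2 * (y0 * c p.1 + y1 * c p.2) + D p.2 p.2 * (y1 * c p.1 + y0 * c p.2))) := by
    rw [s5q_apply]
    simp only [pblk, Matrix.mul_apply, Fin.sum_univ_two, hs p.2 p.1]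
    simp
    ring
  rw [e]
  refine (s5r_abs4 _ _ _ _ _ _ _ _ 4 (hX 0 0) (hX 0 1) (hX 1 0) (hX 1 1)).trans ?_
  unfold s5W
  have q : ∀ p q r s : ℝ, (|p| + |q|) * (|r| + |s|) ≤ p ^ 2 + q ^ 2 + (r ^ 2 + s ^ 2) := by
    intro p q r s
    nlinarith [sq_nonneg (|p| - |r|), sq_nonneg (|p| - |s|), sq_nonneg (|q| - |r|), sq_nonneg (|q| - |s|),
      sq_abs p, sq_abs q, sq_abs r, sq_abs s]
  exact mul_le_mul_of_nonneg_left (q _ _ _ _) (by norm_num)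

theorem s5r_W_le {y0 y1 : ℝ} (hy1 : |y1| ≤ 2) (D : Matrix α α ℝ) (a : α → ℝ) (u v : α) :
    s5W y0 y1 D a u v ≤ 4 * y0 ^ 2 * (D u u ^ 2 * a u ^ 2) + 16 * (D u u ^ 2 * a v ^ 2)
      + (4 * y0 ^ 2 + 16) * (D u v ^ 2 * a u ^ 2) + (4 * y0 ^ 2 + 16) * (D u v ^ 2 * a v ^ 2)
      + 16 * (D v v ^ 2 * a u ^ 2) + 4 * y0 ^ 2 * (D v v ^ 2 * a v ^ 2) := by
  unfold s5W
  have hy : y1 ^ 2 ≤ 4 := by
    have := sq_abs y1
    nlinarith [abs_nonneg y1]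
  have hA0 : (y0 * a u + y1 * a v) ^ 2 ≤ 2 * y0 ^ 2 * a u ^ 2 + 8 * a v ^ 2 := by
    nlinarith [sq_nonneg (y0 * a u - y1 * a v), mul_le_mul_of_nonneg_right hy (sq_nonneg (a v))]
  have hA1 : (y1 * a u + y0 * a v) ^ 2 ≤ 8 * a u ^ 2 + 2 * y0 ^ 2 * a v ^ 2 := by
    nlinarith [sq_nonneg (y1 * a u - y0 * a v), mul_le_mul_of_nonneg_right hy (sq_nonneg (a u))]
  set A0 := y0 * a u + y1 * a v
  set A1 := y1 * a u + y0 * a v
  have h1 : (D u u * A0 + D u v * A1) ^ 2 ≤ 2 * (D u u ^ 2 * A0 ^ 2) + 2 * (D u v ^ 2 * A1 ^ 2) := by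
    nlinarith [sq_nonneg (D u u * A0 - D u v * A1)]
  have h2 : (D u v * A0 + D v v * A1) ^ 2 ≤ 2 * (D u v ^ 2 * A0 ^ 2) + 2 * (D v v ^ 2 * A1 ^ 2) := by
    nlinarith [sq_nonneg (D u v * A0 - D v v * A1)]
  have k1 := mul_le_mul_of_nonneg_left hA0 (sq_nonneg (D u u))
  have k2 := mul_le_mul_of_nonneg_left hA1 (sq_nonneg (D u v))
  have k3 := mul_le_mul_of_nonneg_left hA0 (sq_nonneg (D u v))
  have k4 := mul_le_mul_of_nonneg_left hA1 (sq_nonneg (D v v))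
  linarith

/-- the six elementary sums of squares -/
theorem s5r_elem [DecidableEq α] {C0 N Z : ℝ} {S : Finset α} {Vd : Finset (α × α)} {Dg : ℕ} {σ h : ℝ}
    {D : Matrix α α ℝ} {a : α → ℝ} (H : S5R2 C0 N Z S Vd Dg σ h D) (ha : S5Arr C0 S a) :
    ∑ u ∈ S, ∑ _v ∈ S, D u u ^ 2 * a u ^ 2 ≤ S.card * C0 ^ 3 ∧
    ∑ u ∈ S, ∑ v ∈ S, D u u ^ 2 * a v ^ 2 ≤ N * C0 ∧
    ∑ u ∈ S, ∑ v ∈ S, D u v ^ 2 * a u ^ 2 ≤ C0 ^ 2 ∧
    ∑ u ∈ S, ∑ v ∈ S, D u v ^ 2 * a v ^ 2 ≤ C0 ^ 2 ∧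
    ∑ u ∈ S, ∑ v ∈ S, D v v ^ 2 * a u ^ 2 ≤ N * C0 ∧
    ∑ _u ∈ S, ∑ v ∈ S, D v v ^ 2 * a v ^ 2 ≤ S.card * C0 ^ 3 := by
  have hC0 := ha.nonneg
  have hN : 0 ≤ N := (Finset.sum_nonneg fun _ _ => sq_nonneg _).trans H.diag
  have hl : (0:ℝ) ≤ S.card := Nat.cast_nonneg _
  have E1 : ∑ u ∈ S, ∑ v ∈ S, D u u ^ 2 * a u ^ 2 ≤ S.card * C0 ^ 3 := by
    simp only [Finset.sum_const, nsmul_eq_mul, ← Finset.mul_sum]
    refine mul_le_mul_of_nonneg_left ?_ hl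
    have : ∀ u ∈ S, D u u ^ 2 * a u ^ 2 ≤ C0 ^ 2 * a u ^ 2 := by
      intro u hu
      refine mul_le_mul_of_nonneg_right ?_ (sq_nonneg _)
      rw [← sq_abs]
      exact pow_le_pow_left₀ (abs_nonneg _) (H.ent u hu u hu) 2
    refine (Finset.sum_le_sum this).trans ?_
    rw [← Finset.mul_sum]
    calc C0 ^ 2 * ∑ u ∈ S, a u ^ 2 ≤ C0 ^ 2 * C0 := mul_le_mul_of_nonneg_left ha.sq (sq_nonneg _)
      _ = C0 ^ 3 := by ring
  have E2 : ∑ u ∈ S, ∑ v ∈ S, D u u ^ 2 * a v ^ 2 ≤ N * C0 := by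
    rw [← Finset.sum_mul_sum]
    exact mul_le_mul H.diag ha.sq (Finset.sum_nonneg fun _ _ => sq_nonneg _) hN
  have E3 : ∑ u ∈ S, ∑ v ∈ S, D u v ^ 2 * a u ^ 2 ≤ C0 ^ 2 := by
    simp only [← Finset.sum_mul]
    have : ∀ u ∈ S, (∑ v ∈ S, D u v ^ 2) * a u ^ 2 ≤ C0 * a u ^ 2 := fun u hu =>
      mul_le_mul_of_nonneg_right (H.row u hu) (sq_nonneg _)
    refine (Finset.sum_le_sum this).trans ?_
    rw [← Finset.mul_sum, sq]
    exact mul_le_mul_of_nonneg_left ha.sq hC0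
  refine ⟨E1, E2, E3, ?_, ?_, ?_⟩
  · rw [Finset.sum_comm]
    refine le_trans (le_of_eq ?_) E3
    exact Finset.sum_congr rfl fun u _ => Finset.sum_congr rfl fun v _ => by rw [H.symm v u]
  · rw [Finset.sum_comm]; exact E2
  · rw [Finset.sum_comm]; exact E1

theorem s5r_sum_W [DecidableEq α] {C0 N Z : ℝ} {S : Finset α} {Vd : Finset (α × α)} {Dg : ℕ} {σ h : ℝ}
    {D : Matrix α α ℝ} {a : α → ℝ} (H : S5R2 C0 N Z S Vd Dg σ h D) (ha : S5Arr C0 S a)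
    {y0 y1 : ℝ} (hy0l : |y0| * S.card ≤ 2) (hy0 : |y0| ≤ 1) (hy1 : |y1| ≤ 2) :
    ∑ p ∈ S.offDiag, s5W y0 y1 D a p.1 p.2 ≤ 16 * C0 ^ 3 + 32 * (N * C0) + 40 * C0 ^ 2 := by
  have hC0 := ha.nonneg
  refine (s5r_sum_offDiag_le S (s5W y0 y1 D a) fun u _ => by unfold s5W; positivity).trans ?_
  refine (Finset.sum_le_sum fun u _ => Finset.sum_le_sum fun v _ => s5r_W_le hy1 D a u v).trans ?_
  have e : ∑ u ∈ S, ∑ v ∈ S, (4 * y0 ^ 2 * (D u u ^ 2 * a u ^ 2) + 16 * (D u u ^ 2 * a v ^ 2)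
      + (4 * y0 ^ 2 + 16) * (D u v ^ 2 * a u ^ 2) + (4 * y0 ^ 2 + 16) * (D u v ^ 2 * a v ^ 2)
      + 16 * (D v v ^ 2 * a u ^ 2) + 4 * y0 ^ 2 * (D v v ^ 2 * a v ^ 2)) =
      4 * y0 ^ 2 * (∑ u ∈ S, ∑ v ∈ S, D u u ^ 2 * a u ^ 2) + 16 * (∑ u ∈ S, ∑ v ∈ S, D u u ^ 2 * a v ^ 2)
      + (4 * y0 ^ 2 + 16) * (∑ u ∈ S, ∑ v ∈ S, D u v ^ 2 * a u ^ 2)
      + (4 * y0 ^ 2 + 16) * (∑ u ∈ S, ∑ v ∈ S, D u v ^ 2 * a v ^ 2)
      + 16 * (∑ u ∈ S, ∑ v ∈ S, D v v ^ 2 * a u ^ 2)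
      + 4 * y0 ^ 2 * (∑ u ∈ S, ∑ v ∈ S, D v v ^ 2 * a v ^ 2) := by
    simp only [Finset.sum_add_distrib, Finset.mul_sum]
  rw [e]
  obtain ⟨E1, E2, E3, E4, E5, E6⟩ := s5r_elem H ha
  have hy : y0 ^ 2 ≤ 1 := by
    have := sq_abs y0
    nlinarith [abs_nonneg y0]
  have hyl : y0 ^ 2 * S.card ≤ 2 := by
    have := sq_abs y0
    have hl : (0:ℝ) ≤ S.card := Nat.cast_nonneg _
    nlinarith [abs_nonneg y0, mul_nonneg (abs_nonneg y0) hl]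
  have hy2 := sq_nonneg y0
  have hC3 : 0 ≤ C0 ^ 3 := by positivity
  have k1 : y0 ^ 2 * ∑ u ∈ S, ∑ v ∈ S, D u u ^ 2 * a u ^ 2 ≤ 2 * C0 ^ 3 :=
    calc _ ≤ y0 ^ 2 * (S.card * C0 ^ 3) := mul_le_mul_of_nonneg_left E1 hy2
      _ = (y0 ^ 2 * S.card) * C0 ^ 3 := by ring
      _ ≤ _ := mul_le_mul_of_nonneg_right hyl hC3
  have k6 : y0 ^ 2 * ∑ u ∈ S, ∑ v ∈ S, D v v ^ 2 * a v ^ 2 ≤ 2 * C0 ^ 3 :=
    calc _ ≤ y0 ^ 2 * (S.card * C0 ^ 3) := mul_le_mul_of_nonneg_left E6 hy2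
      _ = (y0 ^ 2 * S.card) * C0 ^ 3 := by ring
      _ ≤ _ := mul_le_mul_of_nonneg_right hyl hC3
  have k3 : (4 * y0 ^ 2 + 16) * ∑ u ∈ S, ∑ v ∈ S, D u v ^ 2 * a u ^ 2 ≤ 20 * C0 ^ 2 :=
    mul_le_mul (by linarith) E3
      (Finset.sum_nonneg fun _ _ => Finset.sum_nonneg fun _ _ => by positivity) (by norm_num)
  have k4 : (4 * y0 ^ 2 + 16) * ∑ u ∈ S, ∑ v ∈ S, D u v ^ 2 * a v ^ 2 ≤ 20 * C0 ^ 2 :=
    mul_le_mul (by linarith) E4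
      (Finset.sum_nonneg fun _ _ => Finset.sum_nonneg fun _ _ => by positivity) (by norm_num)
  linarith

theorem s5q_lin (X Y W : Matrix (Fin 2) (Fin 2) ℝ) (a c : α → ℝ) (p : α × α) :
    s5q (X - Y + W) a c p = s5q X a c p - s5q Y a c p + s5q W a c p := by
  simp only [s5q_apply, Matrix.add_apply, Matrix.sub_apply]
  ring

end helpers

/-- averages of one-endpoint arrays: `𝔼 |a(u)| ≤ 4 ‖a‖₂ / √l` -/
theorem s5_avg_abs_le {α : Type} [DecidableEq α] {S : Finset α} {Vd : Finset (α × α)} {Dg : ℕ}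
    (hV : S5Valid S Vd Dg) (hl : 32 ≤ S.card) (hDg : 4 * Dg ≤ S.card) (X0 : Finset α) (hX : X0.card ≤ 2)
    (a : α → ℝ) :
    avgOn (s5Surv Vd X0) (fun p => |a p.1| + |a p.2|) ≤
      8 * Real.sqrt (∑ x ∈ S, a x ^ 2) / Real.sqrt S.card := by
  have h1 := s5_avg_le_of_nonneg hV hl hDg X0 hX (fun p => |a p.1| + |a p.2|) fun p _ => by positivity
  refine h1.trans ?_
  have h2 := s5r_sum_offDiag_le S (fun u v => |a u| + |a v|) fun u _ => by positivity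
  have h2' : ∑ u ∈ S, ∑ v ∈ S, (|a u| + |a v|) = 2 * S.card * ∑ x ∈ S, |a x| := by
    simp only [Finset.sum_add_distrib, Finset.sum_const, nsmul_eq_mul, ← Finset.mul_sum]
    ring
  rw [h2'] at h2
  have h3 := sq_sum_le_card_mul_sum_sq (s := S) (f := fun x => |a x|)
  simp only [sq_abs] at h3
  have hl0 : (0 : ℝ) < S.card := by exact_mod_cast (show 0 < S.card by omega)
  have h4 : ∑ x ∈ S, |a x| ≤ Real.sqrt S.card * Real.sqrt (∑ x ∈ S, a x ^ 2) := by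
    rw [← Real.sqrt_mul hl0.le]
    exact Real.le_sqrt_of_sq_le h3
  have hs : Real.sqrt S.card * Real.sqrt S.card = S.card := Real.mul_self_sqrt hl0.le
  have hs0 : 0 < Real.sqrt S.card := Real.sqrt_pos.2 hl0
  rw [le_div_iff₀ hs0]
  have h5 : 4 / (S.card : ℝ) ^ 2 * ∑ p ∈ S.offDiag, (|a p.1| + |a p.2|) ≤
      4 / (S.card : ℝ) ^ 2 * (2 * S.card * (Real.sqrt S.card * Real.sqrt (∑ x ∈ S, a x ^ 2))) := by
    refine mul_le_mul_of_nonneg_left ?_ (by positivity)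
    nlinarith
  refine (mul_le_mul_of_nonneg_right h5 hs0.le).trans (le_of_eq ?_)
  have : 4 / (S.card : ℝ) ^ 2 * (2 * S.card * (Real.sqrt S.card * Real.sqrt (∑ x ∈ S, a x ^ 2))) * Real.sqrt S.card
      = 4 / (S.card : ℝ) ^ 2 * (2 * S.card * ((Real.sqrt S.card * Real.sqrt S.card) * Real.sqrt (∑ x ∈ S, a x ^ 2))) := by
    ring
  rw [this, hs]
  field_simp
  ring

/-- order zero -/
theorem s5_r2_ord0 (C0 : ℝ) : ∃ C : ℝ, 0 < C ∧ ∀ (α : Type) [DecidableEq α] (S : Finset α) (σ h : ℝ)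
    (a c : α → ℝ) (X0 : Finset α), 32 ≤ S.card → σ ^ 2 = 1 → 0 < h → h ≤ 1 →
    S5Arr C0 S a → S5Arr C0 S c → ∑ x ∈ S, a x = 0 → ∑ x ∈ S, c x = 0 → X0 ⊆ S → X0.card ≤ 2 →
    |∑ p ∈ (S \ X0).offDiag, s5q (H0 S.card σ h) a c p| ≤ C := by
  refine ⟨16 * C0 ^ 2 + 4 * |C0| + 1, by positivity, ?_⟩
  intro α _ S σ h a c X0 hl hσ hh hh1 ha hc ha0 hc0 hX hX2
  have hC0 := ha.nonneg
  rw [abs_of_nonneg hC0]
  have e := s5_sum_H0_arrays S (by omega) σ h a c ha0 hc0 X0 hX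
  unfold s5q
  rw [e]
  have h32 : (32 : ℝ) ≤ S.card := by exact_mod_cast hl
  have hx : |σ * h| ≤ 1 := by
    rw [abs_mul, abs_of_pos hh]
    have : |σ| = 1 := by
      have := sq_abs σ
      rw [hσ] at this
      nlinarith [abs_nonneg σ]
    rw [this]; linarith
  have hX2' : (X0.card : ℝ) ≤ 2 := by exact_mod_cast hX2
  have hXn : (0:ℝ) ≤ X0.card := Nat.cast_nonneg _
  have sX : ∀ b : α → ℝ, S5Arr C0 S b → |∑ x ∈ X0, b x| ≤ 2 * C0 := by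
    intro b hb
    refine (Finset.abs_sum_le_sum_abs _ _).trans ?_
    refine (Finset.sum_le_sum fun x hx => hb.sup x (hX hx)).trans ?_
    rw [Finset.sum_const, nsmul_eq_mul]
    nlinarith
  have s1 := sX a ha
  have s2 := sX c hc
  have s3 : |∑ x ∈ S \ X0, a x * c x| ≤ C0 := by
    refine (Finset.abs_sum_le_sum_abs _ _).trans ?_
    simp only [abs_mul]
    refine (Finset.sum_le_sum_of_subset_of_nonneg Finset.sdiff_subset fun x _ _ => by positivity).trans ?_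
    exact s5r_sum_abs_mul ha hc
  have hl2 : (0:ℝ) < (S.card : ℝ) - 2 := by linarith
  have he0 : 0 < ((S.card : ℝ) - 2)⁻¹ := inv_pos.2 hl2
  have he1 : ((S.card : ℝ) - 2)⁻¹ ≤ 1 := by
    rw [inv_le_one₀ hl2]; linarith
  set e' := ((S.card : ℝ) - 2)⁻¹
  rw [abs_mul, abs_neg]
  have t1 : |2 * (1 + e') * ((∑ x ∈ X0, a x) * ∑ x ∈ X0, c x)| ≤ 16 * C0 ^ 2 := by
    rw [abs_mul (2 * (1 + e')), abs_mul (∑ x ∈ X0, a x), abs_of_pos (by positivity : 0 < 2 * (1 + e'))]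
    have : |∑ x ∈ X0, a x| * |∑ x ∈ X0, c x| ≤ (2 * C0) * (2 * C0) :=
      mul_le_mul s1 s2 (abs_nonneg _) (by linarith)
    nlinarith [mul_nonneg (abs_nonneg (∑ x ∈ X0, a x)) (abs_nonneg (∑ x ∈ X0, c x))]
  have t2 : |2 * (X0.card : ℝ) * e' * ∑ x ∈ S \ X0, a x * c x| ≤ 4 * C0 := by
    rw [abs_mul, abs_of_nonneg (by positivity : 0 ≤ 2 * (X0.card : ℝ) * e')]
    have : 2 * (X0.card : ℝ) * e' ≤ 4 := by nlinarith
    calc _ ≤ 4 * C0 := mul_le_mul this s3 (abs_nonneg _) (by norm_num)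
      _ = _ := rfl
  have t3 := abs_sub (2 * (1 + e') * ((∑ x ∈ X0, a x) * ∑ x ∈ X0, c x))
    (2 * (X0.card : ℝ) * e' * ∑ x ∈ S \ X0, a x * c x)
  calc _ ≤ 1 * (16 * C0 ^ 2 + 4 * C0) := mul_le_mul hx (by linarith) (abs_nonneg _) (by norm_num)
    _ ≤ _ := by linarith

/-- order one (no centring needed) -/
theorem s5_r2_ord1 (C0 : ℝ) : ∃ C : ℝ, 0 < C ∧ ∀ (α : Type) [DecidableEq α] (N Z : ℝ) (S : Finset α)
    (Vd : Finset (α × α)) (Dg : ℕ) (σ h : ℝ) (D : Matrix α α ℝ) (a c : α → ℝ) (X0 : Finset α),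
    S5R2 C0 N Z S Vd Dg σ h D → S5Arr C0 S a → S5Arr C0 S c → X0 ⊆ S → X0.card ≤ 2 →
    |∑ p ∈ (S \ X0).offDiag, s5q (H0 S.card σ h * pblk D p.1 p.2 * H0 S.card σ h) a c p| ≤
      C * (|trS S D| + Z + N + 1) := by
  refine ⟨8 * |C0| + 72 * C0 ^ 2 + 1, by positivity, ?_⟩
  intro α _ N Z S Vd Dg σ h D a c X0 H ha hc hX hX2
  have hC0 := ha.nonneg
  rw [abs_of_nonneg hC0]
  obtain ⟨y0, y1, hY, hy0l, hy0, hy1⟩ := s5r_H0_form H.hl H.hσ H.hh H.hh1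
  rw [hY]
  have hN : 0 ≤ N := (Finset.sum_nonneg fun _ _ => sq_nonneg _).trans H.diag
  have hZ : 0 ≤ Z := H.op.1
  set I := S \ X0 with hI
  have hIS : I ⊆ S := Finset.sdiff_subset
  -- the remainder
  have hrem : |∑ p ∈ I.offDiag, (s5q (!![y0, y1; y1, y0] * pblk D p.1 p.2 * !![y0, y1; y1, y0]) a c p
      - y1 ^ 2 * s5M1 D a c p.1 p.2)| ≤ 40 * C0 ^ 2 := by
    refine (Finset.abs_sum_le_sum_abs _ _).trans ?_
    have h1 : ∀ p ∈ I.offDiag, |s5q (!![y0, y1; y1, y0] * pblk D p.1 p.2 * !![y0, y1; y1, y0]) a c p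
      - y1 ^ 2 * s5M1 D a c p.1 p.2| ≤ 5 * |y0| * C0 * s5AC a c p := by
      intro p hp
      have hp' := Finset.mem_offDiag.1 hp
      exact s5r_ord1_rem hy0 hy1 D H.symm a c p (s5r_pblk_le H.ent (hIS hp'.1) (hIS hp'.2.1))
    refine (Finset.sum_le_sum h1).trans ?_
    rw [← Finset.mul_sum]
    have h2 : ∑ p ∈ I.offDiag, s5AC a c p ≤ 4 * S.card * C0 :=
      (Finset.sum_le_sum_of_subset_of_nonneg (Finset.offDiag_mono hIS)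
        fun p _ _ => s5AC_nonneg a c p).trans (s5r_sum_AC ha hc)
    calc 5 * |y0| * C0 * ∑ p ∈ I.offDiag, s5AC a c p ≤ 5 * |y0| * C0 * (4 * S.card * C0) :=
          mul_le_mul_of_nonneg_left h2 (by positivity)
      _ = 20 * C0 ^ 2 * (|y0| * S.card) := by ring
      _ ≤ 20 * C0 ^ 2 * 2 := mul_le_mul_of_nonneg_left hy0l (by positivity)
      _ = _ := by ring
  -- the main part
  have sac : |∑ x ∈ I, a x * c x| ≤ C0 := by
    refine (Finset.abs_sum_le_sum_abs _ _).trans ?_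
    simp only [abs_mul]
    exact (Finset.sum_le_sum_of_subset_of_nonneg hIS fun x _ _ => by positivity).trans
      (s5r_sum_abs_mul ha hc)
  have sacD : |∑ x ∈ I, a x * c x * D x x| ≤ C0 ^ 2 := by
    refine (Finset.abs_sum_le_sum_abs _ _).trans ?_
    have : ∀ x ∈ I, |a x * c x * D x x| ≤ C0 * (|a x| * |c x|) := by
      intro x hx
      rw [abs_mul, abs_mul, mul_comm]
      exact mul_le_mul_of_nonneg_right (H.ent x (hIS hx) x (hIS hx)) (by positivity)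
    refine (Finset.sum_le_sum this).trans ?_
    rw [← Finset.mul_sum, sq]
    refine mul_le_mul_of_nonneg_left ?_ hC0
    exact (Finset.sum_le_sum_of_subset_of_nonneg hIS fun x _ _ => by positivity).trans
      (s5r_sum_abs_mul ha hc)
  have sD : |∑ x ∈ I, D x x| ≤ |trS S D| + 2 * C0 := by
    have e : ∑ x ∈ I, D x x = trS S D - ∑ x ∈ X0, D x x := by
      have := Finset.sum_sdiff hX (f := fun x => D x x)
      unfold trS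
      linarith
    rw [e]
    refine (abs_sub _ _).trans ?_
    have : |∑ x ∈ X0, D x x| ≤ 2 * C0 := by
      refine (Finset.abs_sum_le_sum_abs _ _).trans ?_
      refine (Finset.sum_le_sum fun x hx => H.ent x (hX hx) x (hX hx)).trans ?_
      rw [Finset.sum_const, nsmul_eq_mul]
      have : (X0.card : ℝ) ≤ 2 := by exact_mod_cast hX2
      nlinarith
    linarith
  have b1 : |∑ x ∈ I, ∑ y ∈ I, c x * D x y * a y| ≤ Z * C0 := by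
    refine (s5r_op_sub H.op hIS c a).trans ?_
    rw [mul_assoc]
    exact mul_le_mul_of_nonneg_left (s5r_sqrt_mul hc ha) hZ
  have b2 : |∑ x ∈ I, ∑ y ∈ I, a x * D x y * c y| ≤ Z * C0 := by
    refine (s5r_op_sub H.op hIS a c).trans ?_
    rw [mul_assoc]
    exact mul_le_mul_of_nonneg_left (s5r_sqrt_mul ha hc) hZ
  have hmain : ∑ p ∈ I.offDiag, s5M1 D a c p.1 p.2 =
      2 * ((∑ x ∈ I, a x * c x) * ∑ x ∈ I, D x x) + ∑ x ∈ I, ∑ y ∈ I, c x * D x y * a y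
        + ∑ x ∈ I, ∑ y ∈ I, a x * D x y * c y - 4 * ∑ x ∈ I, a x * c x * D x x := by
    rw [s5b_sum_offDiag I (s5M1 D a c)]
    unfold s5M1
    simp only [Finset.sum_add_distrib]
    have e1 : ∑ u ∈ I, ∑ v ∈ I, a v * c v * D u u = (∑ x ∈ I, a x * c x) * ∑ x ∈ I, D x x := by
      rw [Finset.sum_mul_sum, Finset.sum_comm]
    have e2 : ∑ u ∈ I, ∑ v ∈ I, a u * c u * D v v = (∑ x ∈ I, a x * c x) * ∑ x ∈ I, D x x := by
      rw [Finset.sum_mul_sum]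
    have e3 : ∑ x ∈ I, c x * D x x * a x = ∑ x ∈ I, a x * c x * D x x :=
      Finset.sum_congr rfl fun x _ => by ring
    have e4 : ∑ x ∈ I, a x * D x x * c x = ∑ x ∈ I, a x * c x * D x x :=
      Finset.sum_congr rfl fun x _ => by ring
    rw [e1, e2, e3, e4]
    ring
  have hmainb : |∑ p ∈ I.offDiag, s5M1 D a c p.1 p.2| ≤
      2 * (C0 * (|trS S D| + 2 * C0)) + Z * C0 + Z * C0 + 4 * C0 ^ 2 := by
    rw [hmain]
    have t1 : |(∑ x ∈ I, a x * c x) * ∑ x ∈ I, D x x| ≤ C0 * (|trS S D| + 2 * C0) := by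
      rw [abs_mul]
      exact mul_le_mul sac sD (abs_nonneg _) hC0
    rw [abs_le] at t1 b1 b2 sacD ⊢
    constructor <;> linarith [t1.1, t1.2, b1.1, b1.2, b2.1, b2.2, sacD.1, sacD.2]
  have hsplit : ∑ p ∈ I.offDiag, s5q (!![y0, y1; y1, y0] * pblk D p.1 p.2 * !![y0, y1; y1, y0]) a c p =
      ∑ p ∈ I.offDiag, (s5q (!![y0, y1; y1, y0] * pblk D p.1 p.2 * !![y0, y1; y1, y0]) a c p
      - y1 ^ 2 * s5M1 D a c p.1 p.2) + y1 ^ 2 * ∑ p ∈ I.offDiag, s5M1 D a c p.1 p.2 := by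
    rw [Finset.sum_sub_distrib, ← Finset.mul_sum]
    ring
  rw [hsplit]
  refine (abs_add_le _ _).trans ?_
  rw [abs_mul, abs_pow]
  have hy1sq : |y1| ^ 2 ≤ 4 := by nlinarith [abs_nonneg y1]
  have k : |y1| ^ 2 * |∑ p ∈ I.offDiag, s5M1 D a c p.1 p.2| ≤
      4 * (2 * (C0 * (|trS S D| + 2 * C0)) + Z * C0 + Z * C0 + 4 * C0 ^ 2) :=
    mul_le_mul hy1sq hmainb (abs_nonneg _) (by norm_num)
  have ht := abs_nonneg (trS S D)
  nlinarith [mul_nonneg hC0 ht, mul_nonneg hC0 hZ, mul_nonneg hC0 hN, mul_nonneg (sq_nonneg C0) ht,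
    mul_nonneg (sq_nonneg C0) hZ, mul_nonneg (sq_nonneg C0) hN]

/-- forbidden pairs -/
theorem s5_r2_forb (C0 : ℝ) : ∃ C : ℝ, 0 < C ∧ ∀ (α : Type) [DecidableEq α] (N Z : ℝ) (S : Finset α)
    (Vd : Finset (α × α)) (Dg : ℕ) (σ h : ℝ) (D : Matrix α α ℝ) (a c : α → ℝ),
    S5R2 C0 N Z S Vd Dg σ h D → S5Arr C0 S a → S5Arr C0 S c →
    ∑ p ∈ S.offDiag \ Vd, (|s5q (H0 S.card σ h) a c p|
      + |s5q (H0 S.card σ h * pblk D p.1 p.2 * H0 S.card σ h) a c p|) ≤ C * Dg := by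
  refine ⟨(2 + 16 * |C0|) * (4 * |C0|) + 1, by positivity, ?_⟩
  intro α _ N Z S Vd Dg σ h D a c H ha hc
  have hC0 := ha.nonneg
  rw [abs_of_nonneg hC0]
  obtain ⟨y0, y1, hY, hy0l, hy0, hy1⟩ := s5r_H0_form H.hl H.hσ H.hh H.hh1
  rw [hY]
  have key : ∀ p ∈ S.offDiag \ Vd, |s5q !![y0, y1; y1, y0] a c p|
      + |s5q (!![y0, y1; y1, y0] * pblk D p.1 p.2 * !![y0, y1; y1, y0]) a c p| ≤
      (2 + 16 * C0) * s5AC a c p := by
    intro p hp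
    have hp' := Finset.mem_offDiag.1 (Finset.mem_sdiff.1 hp).1
    have h1 := s5r_abs_q_le _ 2 (s5r_Y_le hy0 hy1) a c p
    have h2 := s5r_abs_q_le _ (16 * C0) (s5r_sandwich _ _ C0 (s5r_Y_le hy0 hy1)
      (s5r_pblk_le H.ent hp'.1 hp'.2.1)) a c p
    linarith
  refine (Finset.sum_le_sum key).trans ?_
  rw [← Finset.mul_sum]
  have h3 := s5r_sum_forb_AC H.valid ha hc
  have hD : (0:ℝ) ≤ Dg := Nat.cast_nonneg _
  calc (2 + 16 * C0) * ∑ p ∈ S.offDiag \ Vd, s5AC a c p ≤ (2 + 16 * C0) * (4 * Dg * C0) :=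
        mul_le_mul_of_nonneg_left h3 (by positivity)
    _ ≤ _ := by nlinarith

/-- order two -/
theorem s5_r2_ord2 (C0 : ℝ) : ∃ C : ℝ, 0 < C ∧ ∀ (α : Type) [DecidableEq α] (N Z : ℝ) (S : Finset α)
    (Vd : Finset (α × α)) (Dg : ℕ) (σ h : ℝ) (D : Matrix α α ℝ) (a c : α → ℝ),
    S5R2 C0 N Z S Vd Dg σ h D → S5Arr C0 S a → S5Arr C0 S c →
    ∑ p ∈ Vd, |s5q (H0 S.card σ h * pblk D p.1 p.2 * Hgen S.card σ h (pblk D p.1 p.2) * pblk D p.1 p.2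
      * H0 S.card σ h) a c p| ≤ C * (N + 1) := by
  refine ⟨8 * (16 * |C0| ^ 3 + 32 * |C0| + 40 * C0 ^ 2) + 1, by positivity, ?_⟩
  intro α _ N Z S Vd Dg σ h D a c H ha hc
  have hC0 := ha.nonneg
  rw [abs_of_nonneg hC0]
  obtain ⟨y0, y1, hY, hy0l, hy0, hy1⟩ := s5r_H0_form H.hl H.hσ H.hh H.hh1
  rw [hY]
  have hN : 0 ≤ N := (Finset.sum_nonneg fun _ _ => sq_nonneg _).trans H.diag
  have key : ∀ p ∈ Vd, |s5q (!![y0, y1; y1, y0] * pblk D p.1 p.2 * Hgen S.card σ h (pblk D p.1 p.2)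
      * pblk D p.1 p.2 * !![y0, y1; y1, y0]) a c p| ≤
      4 * (s5W y0 y1 D a p.1 p.2 + s5W y0 y1 D c p.1 p.2) := fun p hp =>
    s5r_ord2_pt y0 y1 D H.symm _ (tb_abs_le (H.tb p hp)) a c p
  refine (Finset.sum_le_sum key).trans ?_
  refine (Finset.sum_le_sum_of_subset_of_nonneg H.valid.sub fun p _ _ => by unfold s5W; positivity).trans ?_
  rw [← Finset.mul_sum, Finset.sum_add_distrib]
  have h1 := s5r_sum_W H ha hy0l hy0 hy1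
  have h2 := s5r_sum_W H hc hy0l hy0 hy1
  have hC3 : 0 ≤ C0 ^ 3 := by positivity
  nlinarith [mul_nonneg hC3 hN, mul_nonneg (sq_nonneg C0) hN, mul_nonneg hC0 hN]

/-- RANK2, MEAN: `|𝔼_{valid, surviving} a_pᵀ H c_p| ≤ C (|tr D| + ‖D‖ + D_g + ∑ D_xx² + 1) / l²` -/
theorem s5_r2_mean (C0 : ℝ) : ∃ C : ℝ, 0 < C ∧ ∀ (α : Type) [DecidableEq α] (N Z : ℝ) (S : Finset α)
    (Vd : Finset (α × α)) (Dg : ℕ) (σ h : ℝ) (D : Matrix α α ℝ) (a c : α → ℝ) (X0 : Finset α),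
    S5R2 C0 N Z S Vd Dg σ h D → S5Arr C0 S a → S5Arr C0 S c →
    ∑ x ∈ S, a x = 0 → ∑ x ∈ S, c x = 0 → X0 ⊆ S → X0.card ≤ 2 →
    |avgOn (s5Surv Vd X0) (fun p => s5q (Hgen S.card σ h (pblk D p.1 p.2)) a c p)| ≤
      C * (|trS S D| + Z + Dg + N + 1) / (S.card : ℝ) ^ 2 := by
  obtain ⟨K0, hK0, B0⟩ := s5_r2_ord0 C0
  obtain ⟨K1, hK1, B1⟩ := s5_r2_ord1 C0
  obtain ⟨Kf, hKf, Bf⟩ := s5_r2_forb C0
  obtain ⟨K2, hK2, B2'⟩ := s5_r2_ord2 C0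
  refine ⟨4 * (K0 + K1 + Kf + K2), by positivity, ?_⟩
  intro α _ N Z S Vd Dg σ h D a c X0 H ha hc ha0 hc0 hX hX2
  have hN : 0 ≤ N := (Finset.sum_nonneg fun _ _ => sq_nonneg _).trans H.diag
  have hZ : 0 ≤ Z := H.op.1
  have hD : (0:ℝ) ≤ Dg := Nat.cast_nonneg _
  have ht := abs_nonneg (trS S D)
  have b0 := B0 α S σ h a c X0 H.hl H.hσ H.hh H.hh1 ha hc ha0 hc0 hX hX2
  have b1 := B1 α N Z S Vd Dg σ h D a c X0 H ha hc hX hX2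
  have bf := Bf α N Z S Vd Dg σ h D a c H ha hc
  have b2 := B2' α N Z S Vd Dg σ h D a c H ha hc
  set Y := H0 S.card σ h with hY
  set I := S \ X0 with hI
  have hIS : I ⊆ S := Finset.sdiff_subset
  have hsub : s5Surv Vd X0 ⊆ I.offDiag := by
    intro p hp
    obtain ⟨hp1, hp2, hp3⟩ := Finset.mem_filter.1 hp
    have hp' := Finset.mem_offDiag.1 (H.valid.sub hp1)
    exact Finset.mem_offDiag.2 ⟨Finset.mem_sdiff.2 ⟨hp'.1, hp2⟩, Finset.mem_sdiff.2 ⟨hp'.2.1, hp3⟩, hp'.2.2⟩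
  have hsub2 : I.offDiag \ s5Surv Vd X0 ⊆ S.offDiag \ Vd := by
    intro p hp
    obtain ⟨hp1, hp2⟩ := Finset.mem_sdiff.1 hp
    have hp' := Finset.mem_offDiag.1 hp1
    refine Finset.mem_sdiff.2 ⟨Finset.offDiag_mono hIS hp1, fun hv => hp2 ?_⟩
    exact Finset.mem_filter.2 ⟨hv, (Finset.mem_sdiff.1 hp'.1).2, (Finset.mem_sdiff.1 hp'.2.1).2⟩
  have e1 : ∑ p ∈ s5Surv Vd X0, s5q (Hgen S.card σ h (pblk D p.1 p.2)) a c p =
      ∑ p ∈ s5Surv Vd X0, (s5q Y a c p - s5q (Y * pblk D p.1 p.2 * Y) a c p)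
      + ∑ p ∈ s5Surv Vd X0, s5q (Y * pblk D p.1 p.2 * Hgen S.card σ h (pblk D p.1 p.2) * pblk D p.1 p.2
        * Y) a c p := by
    rw [← Finset.sum_add_distrib]
    refine Finset.sum_congr rfl fun p hp => ?_
    rw [← s5q_lin, ← s5_Hgen_second (H.tb p (s5c_surv_sub Vd X0 hp))]
  have e2 := Finset.sum_sdiff hsub (f := fun p => s5q Y a c p - s5q (Y * pblk D p.1 p.2 * Y) a c p)
  have e3 : ∑ p ∈ I.offDiag, (s5q Y a c p - s5q (Y * pblk D p.1 p.2 * Y) a c p) =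
      ∑ p ∈ I.offDiag, s5q Y a c p - ∑ p ∈ I.offDiag, s5q (Y * pblk D p.1 p.2 * Y) a c p :=
    Finset.sum_sub_distrib _ _
  have f1 : |∑ p ∈ I.offDiag \ s5Surv Vd X0, (s5q Y a c p - s5q (Y * pblk D p.1 p.2 * Y) a c p)| ≤
      Kf * Dg := by
    refine (Finset.abs_sum_le_sum_abs _ _).trans ?_
    refine (Finset.sum_le_sum fun p _ => abs_sub _ _).trans ?_
    exact (Finset.sum_le_sum_of_subset_of_nonneg hsub2 fun p _ _ => by positivity).trans bf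
  have f2 : |∑ p ∈ s5Surv Vd X0, s5q (Y * pblk D p.1 p.2 * Hgen S.card σ h (pblk D p.1 p.2) * pblk D p.1 p.2
        * Y) a c p| ≤ K2 * (N + 1) := by
    refine (Finset.abs_sum_le_sum_abs _ _).trans ?_
    exact (Finset.sum_le_sum_of_subset_of_nonneg (s5c_surv_sub Vd X0) fun p _ _ => abs_nonneg _).trans b2
  have tot : |∑ p ∈ s5Surv Vd X0, s5q (Hgen S.card σ h (pblk D p.1 p.2)) a c p| ≤
      (K0 + K1 + Kf + K2) * (|trS S D| + Z + Dg + N + 1) := by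
    rw [e1]
    have : ∑ p ∈ s5Surv Vd X0, (s5q Y a c p - s5q (Y * pblk D p.1 p.2 * Y) a c p) =
        ∑ p ∈ I.offDiag, s5q Y a c p - ∑ p ∈ I.offDiag, s5q (Y * pblk D p.1 p.2 * Y) a c p
        - ∑ p ∈ I.offDiag \ s5Surv Vd X0, (s5q Y a c p - s5q (Y * pblk D p.1 p.2 * Y) a c p) := by
      linarith
    rw [this]
    have u0 : K0 ≤ K0 * (|trS S D| + Z + Dg + N + 1) := by nlinarith
    have u1 : K1 * (|trS S D| + Z + N + 1) ≤ K1 * (|trS S D| + Z + Dg + N + 1) := by nlinarith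
    have uf : Kf * Dg ≤ Kf * (|trS S D| + Z + Dg + N + 1) := by nlinarith
    have u2 : K2 * (N + 1) ≤ K2 * (|trS S D| + Z + Dg + N + 1) := by nlinarith
    rw [abs_le] at b0 b1 f1 f2 ⊢
    constructor <;> nlinarith [b0.1, b0.2, b1.1, b1.2, f1.1, f1.2, f2.1, f2.2]
  have hq := s5_card_surv_quarter H.valid H.hl H.hDg X0 hX2
  have hl0 : (0 : ℝ) < S.card := by exact_mod_cast (show 0 < S.card by have := H.hl; omega)
  have hq0 : (0:ℝ) < (S.card : ℝ) ^ 2 / 4 := by positivity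
  unfold avgOn
  rw [abs_div, Nat.abs_cast]
  calc _ ≤ (K0 + K1 + Kf + K2) * (|trS S D| + Z + Dg + N + 1) / ((s5Surv Vd X0).card : ℝ) :=
        div_le_div_of_nonneg_right tot (Nat.cast_nonneg _)
    _ ≤ (K0 + K1 + Kf + K2) * (|trS S D| + Z + Dg + N + 1) / ((S.card : ℝ) ^ 2 / 4) :=
        div_le_div_of_nonneg_left (by positivity) hq0 hq
    _ = _ := by field_simp

/-- the polynomial majorant of the square of a rank two update -/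
def s5G {α : Type} (C1 e : ℝ) (D : Matrix α α ℝ) (a c : α → ℝ) (u v : α) : ℝ :=
  4 * (2 * C1 ^ 2 * (D v v ^ 2 * (a u ^ 2 * c u ^ 2))
    + 2 * C1 ^ 2 * (e ^ 2 * (a u ^ 2 * c u ^ 2)) + 16 * (a u ^ 2 * c v ^ 2) + 16 * (c u ^ 2 * a v ^ 2)
    + 2 * C1 ^ 2 * (D u u ^ 2 * (a v ^ 2 * c v ^ 2)) + 2 * C1 ^ 2 * (e ^ 2 * (a v ^ 2 * c v ^ 2)))

theorem s5G_nonneg {α : Type} (C1 e : ℝ) (D : Matrix α α ℝ) (a c : α → ℝ) (u v : α) :
    0 ≤ s5G C1 e D a c u v := by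
  unfold s5G; positivity

theorem s5r_sq_scalar (C1 e au av cu cv d0 d1 x00 x01 x10 x11 : ℝ)
    (t0 : |x00| ≤ C1 * (|d1| + e)) (t1 : |x11| ≤ C1 * (|d0| + e)) (t01 : |x01| ≤ 4) (t10 : |x10| ≤ 4) :
    (au * (x00 * cu + x01 * cv) + av * (x10 * cu + x11 * cv)) ^ 2 ≤
      4 * (2 * C1 ^ 2 * (d1 ^ 2 * (au ^ 2 * cu ^ 2))
        + 2 * C1 ^ 2 * (e ^ 2 * (au ^ 2 * cu ^ 2)) + 16 * (au ^ 2 * cv ^ 2) + 16 * (cu ^ 2 * av ^ 2)
        + 2 * C1 ^ 2 * (d0 ^ 2 * (av ^ 2 * cv ^ 2)) + 2 * C1 ^ 2 * (e ^ 2 * (av ^ 2 * cv ^ 2))) := by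
  have sqb : ∀ x d : ℝ, |x| ≤ C1 * (|d| + e) → x ^ 2 ≤ 2 * C1 ^ 2 * d ^ 2 + 2 * C1 ^ 2 * e ^ 2 := by
    intro x d hx
    have h1 : x ^ 2 ≤ (C1 * (|d| + e)) ^ 2 := by
      rw [← sq_abs x]
      exact pow_le_pow_left₀ (abs_nonneg _) hx 2
    have h2 : (|d| + e) ^ 2 ≤ 2 * d ^ 2 + 2 * e ^ 2 := by
      nlinarith [sq_nonneg (|d| - e), sq_abs d]
    have h3 := mul_le_mul_of_nonneg_left h2 (sq_nonneg C1)
    nlinarith
  have q00 := sqb _ _ t0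
  have q11 := sqb _ _ t1
  have q4 : ∀ x : ℝ, |x| ≤ 4 → x ^ 2 ≤ 16 := by
    intro x hx
    have := sq_abs x
    nlinarith [abs_nonneg x]
  have q01 := q4 _ t01
  have q10 := q4 _ t10
  have s4 : ∀ x y z w : ℝ, (x + y + (z + w)) ^ 2 ≤ 4 * (x ^ 2 + y ^ 2 + z ^ 2 + w ^ 2) := by
    intro x y z w
    nlinarith [sq_nonneg (x - y), sq_nonneg (x - z), sq_nonneg (x - w), sq_nonneg (y - z),
      sq_nonneg (y - w), sq_nonneg (z - w)]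
  have h := s4 (au * x00 * cu) (au * x01 * cv) (av * x10 * cu) (av * x11 * cv)
  have m1 := mul_le_mul_of_nonneg_right q00 (by positivity : 0 ≤ au ^ 2 * cu ^ 2)
  have m2 := mul_le_mul_of_nonneg_right q01 (by positivity : 0 ≤ au ^ 2 * cv ^ 2)
  have m3 := mul_le_mul_of_nonneg_right q10 (by positivity : 0 ≤ cu ^ 2 * av ^ 2)
  have m4 := mul_le_mul_of_nonneg_right q11 (by positivity : 0 ≤ av ^ 2 * cv ^ 2)
  calc (au * (x00 * cu + x01 * cv) + av * (x10 * cu + x11 * cv)) ^ 2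
      = (au * x00 * cu + au * x01 * cv + (av * x10 * cu + av * x11 * cv)) ^ 2 := by ring
    _ ≤ _ := h
    _ ≤ _ := by linarith

theorem s5r_sum_G {α : Type} [DecidableEq α] {C0 N Z : ℝ} {S : Finset α} {Vd : Finset (α × α)} {Dg : ℕ}
    {σ h : ℝ} {D : Matrix α α ℝ} {a c : α → ℝ} (H : S5R2 C0 N Z S Vd Dg σ h D) (ha : S5Arr C0 S a)
    (hc : S5Arr C0 S c) (C1 e : ℝ) (hel : (S.card : ℝ) * e ^ 2 ≤ 1) :
    ∑ p ∈ S.offDiag, s5G C1 e D a c p.1 p.2 ≤ 4 * (4 * C1 ^ 2 * C0 ^ 3 + 32 * C0 ^ 2) * (N + 1) := by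
  have hC0 := ha.nonneg
  have hN : 0 ≤ N := (Finset.sum_nonneg fun _ _ => sq_nonneg _).trans H.diag
  have P : ∑ x ∈ S, a x ^ 2 * c x ^ 2 ≤ C0 ^ 3 := by
    have : ∀ x ∈ S, a x ^ 2 * c x ^ 2 ≤ C0 ^ 2 * c x ^ 2 := by
      intro x hx
      refine mul_le_mul_of_nonneg_right ?_ (sq_nonneg _)
      rw [← sq_abs]
      exact pow_le_pow_left₀ (abs_nonneg _) (ha.sup x hx) 2
    refine (Finset.sum_le_sum this).trans ?_
    rw [← Finset.mul_sum]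
    calc C0 ^ 2 * ∑ u ∈ S, c u ^ 2 ≤ C0 ^ 2 * C0 := mul_le_mul_of_nonneg_left hc.sq (sq_nonneg _)
      _ = C0 ^ 3 := by ring
  have P0 : 0 ≤ ∑ x ∈ S, a x ^ 2 * c x ^ 2 := Finset.sum_nonneg fun _ _ => by positivity
  have hC3 : 0 ≤ C0 ^ 3 := by positivity
  have F1 : ∑ u ∈ S, ∑ v ∈ S, D v v ^ 2 * (a u ^ 2 * c u ^ 2) ≤ N * C0 ^ 3 := by
    rw [Finset.sum_comm, ← Finset.sum_mul_sum]
    exact mul_le_mul H.diag P P0 hN
  have F1' : ∑ u ∈ S, ∑ v ∈ S, D u u ^ 2 * (a v ^ 2 * c v ^ 2) ≤ N * C0 ^ 3 := by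
    rw [← Finset.sum_mul_sum]
    exact mul_le_mul H.diag P P0 hN
  have F2 : ∑ u ∈ S, ∑ _v ∈ S, e ^ 2 * (a u ^ 2 * c u ^ 2) ≤ C0 ^ 3 := by
    simp only [Finset.sum_const, nsmul_eq_mul, ← Finset.mul_sum]
    rw [← mul_assoc]
    calc _ ≤ 1 * C0 ^ 3 := mul_le_mul hel P P0 (by norm_num)
      _ = _ := one_mul _
  have F2' : ∑ _u ∈ S, ∑ v ∈ S, e ^ 2 * (a v ^ 2 * c v ^ 2) ≤ C0 ^ 3 := by
    rw [Finset.sum_comm]; exact F2
  have F3 : ∑ u ∈ S, ∑ v ∈ S, a u ^ 2 * c v ^ 2 ≤ C0 ^ 2 := by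
    rw [← Finset.sum_mul_sum, sq]
    exact mul_le_mul ha.sq hc.sq (Finset.sum_nonneg fun _ _ => sq_nonneg _) hC0
  have F3' : ∑ u ∈ S, ∑ v ∈ S, c u ^ 2 * a v ^ 2 ≤ C0 ^ 2 := by
    rw [← Finset.sum_mul_sum, sq]
    exact mul_le_mul hc.sq ha.sq (Finset.sum_nonneg fun _ _ => sq_nonneg _) hC0
  refine (s5r_sum_offDiag_le S (s5G C1 e D a c) fun u _ => s5G_nonneg _ _ _ _ _ u u).trans ?_
  have e' : ∑ u ∈ S, ∑ v ∈ S, s5G C1 e D a c u v =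
      4 * (2 * C1 ^ 2 * (∑ u ∈ S, ∑ v ∈ S, D v v ^ 2 * (a u ^ 2 * c u ^ 2))
      + 2 * C1 ^ 2 * (∑ u ∈ S, ∑ _v ∈ S, e ^ 2 * (a u ^ 2 * c u ^ 2))
      + 16 * (∑ u ∈ S, ∑ v ∈ S, a u ^ 2 * c v ^ 2) + 16 * (∑ u ∈ S, ∑ v ∈ S, c u ^ 2 * a v ^ 2)
      + 2 * C1 ^ 2 * (∑ u ∈ S, ∑ v ∈ S, D u u ^ 2 * (a v ^ 2 * c v ^ 2))
      + 2 * C1 ^ 2 * (∑ _u ∈ S, ∑ v ∈ S, e ^ 2 * (a v ^ 2 * c v ^ 2))) := by
    unfold s5G
    simp only [← Finset.mul_sum (a := (4 : ℝ)), Finset.sum_add_distrib]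
    simp only [Finset.mul_sum]
  rw [e']
  have hC12 : 0 ≤ 2 * C1 ^ 2 := by positivity
  have g1 := mul_le_mul_of_nonneg_left F1 hC12
  have g2 := mul_le_mul_of_nonneg_left F1' hC12
  have g3 := mul_le_mul_of_nonneg_left F2 hC12
  have g4 := mul_le_mul_of_nonneg_left F2' hC12
  nlinarith [mul_nonneg (sq_nonneg C0) hN]

/-- RANK2, SECOND MOMENT: `𝔼 (a_pᵀ H c_p)² ≤ C (∑ D_xx² + 1) / l²`.
Proof: `f = H_01 (a_u c_v + a_v c_u) + H_00 a_u c_u + H_11 a_v c_v`, `|H_01| ≤ 4`, `|H_00| ≤ C (|D_vv| + 1/l)` (`tb_first_order`);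
`∑ a_u² c_v² ≤ C0²`, `∑_{u,v} D_vv² a_u² c_u² ≤ N C0³`. -/
theorem s5_r2_sq (C0 : ℝ) : ∃ C : ℝ, 0 < C ∧ ∀ (α : Type) [DecidableEq α] (N Z : ℝ) (S : Finset α)
    (Vd : Finset (α × α)) (Dg : ℕ) (σ h : ℝ) (D : Matrix α α ℝ) (a c : α → ℝ) (X0 : Finset α),
    S5R2 C0 N Z S Vd Dg σ h D → S5Arr C0 S a → S5Arr C0 S c → X0.card ≤ 2 →
    avgOn (s5Surv Vd X0) (fun p => s5q (Hgen S.card σ h (pblk D p.1 p.2)) a c p ^ 2) ≤
      C * (N + 1) / (S.card : ℝ) ^ 2 := by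
  obtain ⟨C1, hC1, T⟩ := tb_first_order
  refine ⟨4 * (4 * (4 * C1 ^ 2 * |C0| ^ 3 + 32 * C0 ^ 2)) + 1, by positivity, ?_⟩
  intro α _ N Z S Vd Dg σ h D a c X0 H ha hc hX2
  have hC0 := ha.nonneg
  rw [abs_of_nonneg hC0]
  have hN : 0 ≤ N := (Finset.sum_nonneg fun _ _ => sq_nonneg _).trans H.diag
  have hl0 : (0 : ℝ) < S.card := by exact_mod_cast (show 0 < S.card by have := H.hl; omega)
  have hl1 : (1 : ℝ) ≤ S.card := by exact_mod_cast (show 1 ≤ S.card by have := H.hl; omega)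
  have hel : (S.card : ℝ) * (1 / (S.card : ℝ)) ^ 2 ≤ 1 := by
    have h1 : (S.card : ℝ) * (1 / (S.card : ℝ)) = 1 := by field_simp
    have h2 : 1 / (S.card : ℝ) ≤ 1 := by rw [div_le_one hl0]; exact hl1
    calc (S.card : ℝ) * (1 / (S.card : ℝ)) ^ 2
        = ((S.card : ℝ) * (1 / (S.card : ℝ))) * (1 / (S.card : ℝ)) := by ring
      _ = 1 / (S.card : ℝ) := by rw [h1, one_mul]
      _ ≤ 1 := h2
  have key : ∀ p ∈ s5Surv Vd X0, s5q (Hgen S.card σ h (pblk D p.1 p.2)) a c p ^ 2 ≤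
      s5G C1 (1 / (S.card : ℝ)) D a c p.1 p.2 := by
    intro p hp
    have hT := H.tb p (s5c_surv_sub Vd X0 hp)
    obtain ⟨t0, t1, -⟩ := T _ _ _ _ _ _ _ hT le_rfl le_rfl le_rfl
    rw [s5q_apply]
    exact s5r_sq_scalar C1 _ _ _ _ _ (D p.1 p.1) (D p.2 p.2) _ _ _ _ t0 t1 (tb_abs_le hT 0 1)
      (tb_abs_le hT 1 0)
  have sG := s5r_sum_G H ha hc C1 _ hel
  have h1 : avgOn (s5Surv Vd X0) (fun p => s5q (Hgen S.card σ h (pblk D p.1 p.2)) a c p ^ 2) ≤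
      avgOn (s5Surv Vd X0) (fun p => s5G C1 (1 / (S.card : ℝ)) D a c p.1 p.2) := by
    unfold avgOn
    exact div_le_div_of_nonneg_right (Finset.sum_le_sum key) (Nat.cast_nonneg _)
  have h2 := s5_avg_le_of_nonneg H.valid H.hl H.hDg X0 hX2
    (fun p => s5G C1 (1 / (S.card : ℝ)) D a c p.1 p.2) fun p _ => s5G_nonneg _ _ _ _ _ _ _
  refine h1.trans (h2.trans ?_)
  calc 4 / (S.card : ℝ) ^ 2 * ∑ p ∈ S.offDiag, s5G C1 (1 / (S.card : ℝ)) D a c p.1 p.2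
      ≤ 4 / (S.card : ℝ) ^ 2 * (4 * (4 * C1 ^ 2 * C0 ^ 3 + 32 * C0 ^ 2) * (N + 1)) :=
        mul_le_mul_of_nonneg_left sG (by positivity)
    _ = 4 * (4 * (4 * C1 ^ 2 * C0 ^ 3 + 32 * C0 ^ 2)) * (N + 1) / (S.card : ℝ) ^ 2 := by ring
    _ ≤ _ := by
        refine div_le_div_of_nonneg_right ?_ (by positivity)
        nlinarith

/-- RANK2, pointwise -/
theorem s5_r2_sup {α : Type} {l : ℕ} {σ h : ℝ} {Dp : Matrix (Fin 2) (Fin 2) ℝ} (H : TBHyp l σ h Dp)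
    (a c : α → ℝ) (p : α × α) :
    |s5q (Hgen l σ h Dp) a c p| ≤ 4 * (|a p.1| + |a p.2|) * (|c p.1| + |c p.2|) := by
  have := s5r_abs_q_le (Hgen l σ h Dp) 4 (tb_abs_le H) a c p
  rwa [s5AC, ← mul_assoc] at this

/-! ## the zero-intermediate part and the majorant remainder of the formal tail (abstract form) -/

/-! ### auxiliary lemmas of the tail section (prefix `s5tm_`) -/

theorem s5tm_C0_nonneg {α : Type} {C0 : ℝ} {S : Finset α} {a : α → ℝ} (h : S5Arr C0 S a) : 0 ≤ C0 :=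
  (Finset.sum_nonneg fun _ _ => sq_nonneg _).trans h.sq

theorem s5tm_sum_abs_mul {α : Type} {C0 : ℝ} {S : Finset α} {A B : α → ℝ} (hA : S5Arr C0 S A)
    (hB : S5Arr C0 S B) : ∑ x ∈ S, |A x| * |B x| ≤ C0 := by
  have h1 : ∀ x ∈ S, |A x| * |B x| ≤ (A x ^ 2 + B x ^ 2) / 2 := by
    intro x _
    have h0 := sq_nonneg (|A x| - |B x|)
    have e1 := sq_abs (A x)
    have e2 := sq_abs (B x)
    nlinarith
  refine (Finset.sum_le_sum h1).trans ?_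
  rw [← Finset.sum_div, Finset.sum_add_distrib]
  have h2 := hA.sq
  have h3 := hB.sq
  linarith

/-- a nonnegative kernel: the sum over a set of distinct pairs is at most the full double sum -/
theorem s5tm_sum_le_double {α : Type} [DecidableEq α] (S : Finset α) (V : Finset (α × α))
    (hV : V ⊆ S.offDiag) (F : α → α → ℝ) (hF : ∀ u ∈ S, ∀ v ∈ S, 0 ≤ F u v) :
    ∑ p ∈ V, F p.1 p.2 ≤ ∑ u ∈ S, ∑ v ∈ S, F u v := by
  rw [← Finset.sum_product']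
  refine Finset.sum_le_sum_of_subset_of_nonneg ?_ ?_
  · intro p hp
    have h := Finset.mem_offDiag.1 (hV hp)
    exact Finset.mem_product.2 ⟨h.1, h.2.1⟩
  · intro p hp _
    have h := Finset.mem_product.1 hp
    exact hF _ h.1 _ h.2

/-- weighted row sums -/
theorem s5tm_row {α : Type} (S : Finset α) (a : α → ℝ) (G : α → α → ℝ) (K M : ℝ)
    (ha : ∀ x ∈ S, 0 ≤ a x) (hsum : ∑ x ∈ S, a x ≤ M) (hK : 0 ≤ K) (hG : ∀ u ∈ S, ∑ v ∈ S, G u v ≤ K) :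
    ∑ u ∈ S, ∑ v ∈ S, a u * G u v ≤ M * K := by
  calc ∑ u ∈ S, ∑ v ∈ S, a u * G u v = ∑ u ∈ S, a u * ∑ v ∈ S, G u v :=
        Finset.sum_congr rfl fun u _ => (Finset.mul_sum _ _ _).symm
    _ ≤ ∑ u ∈ S, a u * K := Finset.sum_le_sum fun u hu => mul_le_mul_of_nonneg_left (hG u hu) (ha u hu)
    _ = (∑ u ∈ S, a u) * K := (Finset.sum_mul _ _ _).symm
    _ ≤ M * K := mul_le_mul_of_nonneg_right hsum hK

/-- a kernel centred in both variables: the sum over `(S ∖ X0)²` equals the sum over `X0²` -/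
theorem s5tm_centred {α : Type} [DecidableEq α] (S X0 : Finset α) (hX : X0 ⊆ S) (Φ : α → α → ℝ)
    (h1 : ∀ u, ∑ v ∈ S, Φ u v = 0) (h2 : ∀ v, ∑ u ∈ S, Φ u v = 0) :
    ∑ u ∈ S \ X0, ∑ v ∈ S \ X0, Φ u v = ∑ u ∈ X0, ∑ v ∈ X0, Φ u v := by
  have e1 : ∀ u, ∑ v ∈ S \ X0, Φ u v = - ∑ v ∈ X0, Φ u v := by
    intro u
    have h := Finset.sum_sdiff hX (f := fun v => Φ u v)
    rw [h1 u] at h
    linarith
  have e2 : ∀ v, ∑ u ∈ S \ X0, Φ u v = - ∑ u ∈ X0, Φ u v := by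
    intro v
    have h := Finset.sum_sdiff hX (f := fun u => Φ u v)
    rw [h2 v] at h
    linarith
  calc ∑ u ∈ S \ X0, ∑ v ∈ S \ X0, Φ u v = ∑ u ∈ S \ X0, - ∑ v ∈ X0, Φ u v :=
        Finset.sum_congr rfl fun u _ => e1 u
    _ = - ∑ v ∈ X0, ∑ u ∈ S \ X0, Φ u v := by rw [Finset.sum_neg_distrib, Finset.sum_comm]
    _ = - ∑ v ∈ X0, - ∑ u ∈ X0, Φ u v := by rw [Finset.sum_congr rfl fun v _ => e2 v]
    _ = ∑ u ∈ X0, ∑ v ∈ X0, Φ u v := by rw [Finset.sum_neg_distrib, neg_neg, Finset.sum_comm]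

/-- the surviving valid pairs inside the distinct pairs of `S ∖ X0` -/
theorem s5tm_sum_surv {α : Type} [DecidableEq α] {S : Finset α} {Vd : Finset (α × α)} {Dg : ℕ}
    (hV : S5Valid S Vd Dg) (X0 : Finset α) (Φ : α → α → ℝ) :
    ∑ p ∈ s5Surv Vd X0, Φ p.1 p.2 = ∑ u ∈ S \ X0, ∑ v ∈ S \ X0, Φ u v - ∑ u ∈ S \ X0, Φ u u
      - ∑ p ∈ (S \ X0).offDiag.filter (fun p => p ∉ Vd), Φ p.1 p.2 := by
  have e : s5Surv Vd X0 = (S \ X0).offDiag.filter (fun p => p ∈ Vd) := by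
    ext p
    simp only [s5Surv, Finset.mem_filter, Finset.mem_offDiag, Finset.mem_sdiff]
    constructor
    · rintro ⟨h, h1, h2⟩
      have h3 := Finset.mem_offDiag.1 (hV.sub h)
      exact ⟨⟨⟨h3.1, h1⟩, ⟨h3.2.1, h2⟩, h3.2.2⟩, h⟩
    · rintro ⟨⟨⟨_, h1⟩, ⟨_, h2⟩, _⟩, h⟩
      exact ⟨h, h1, h2⟩
  have h := Finset.sum_filter_add_sum_filter_not (S \ X0).offDiag (fun p => p ∈ Vd)
    (fun p => Φ p.1 p.2)
  rw [s5b_sum_offDiag (S \ X0) Φ] at h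
  rw [e]
  linarith

/-- abstract form of `s5_swap_family_mean`: a doubly centred kernel dominated by `|A||B|` -/
theorem s5tm_kernel_sum {α : Type} [DecidableEq α] {C0 : ℝ} {S : Finset α} {Vd : Finset (α × α)}
    {Dg : ℕ} (hV : S5Valid S Vd Dg) (X0 : Finset α) (hX : X0 ⊆ S) (hX2 : X0.card ≤ 2)
    (Φ : α → α → ℝ) (A B : α → ℝ) (hA : S5Arr C0 S A) (hB : S5Arr C0 S B)
    (hc1 : ∀ u, ∑ v ∈ S, Φ u v = 0) (hc2 : ∀ v, ∑ u ∈ S, Φ u v = 0)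
    (hb : ∀ u ∈ S, ∀ v ∈ S, |Φ u v| ≤ |A u| * |B v| + |A v| * |B u|) :
    |∑ p ∈ s5Surv Vd X0, Φ p.1 p.2| ≤ 8 * C0 ^ 2 + 2 * C0 + 2 * Dg * C0 := by
  have hC0 := s5tm_C0_nonneg hA
  have b1 : |∑ u ∈ X0, ∑ v ∈ X0, Φ u v| ≤ 8 * C0 ^ 2 := by
    have h1 : ∀ u ∈ X0, ∀ v ∈ X0, |Φ u v| ≤ 2 * C0 ^ 2 := by
      intro u hu v hv
      have hu' := hX hu
      have hv' := hX hv
      have h2 := hb u hu' v hv'
      have m1 : |A u| * |B v| ≤ C0 * C0 := mul_le_mul (hA.sup u hu') (hB.sup v hv') (abs_nonneg _) hC0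
      have m2 : |A v| * |B u| ≤ C0 * C0 := mul_le_mul (hA.sup v hv') (hB.sup u hu') (abs_nonneg _) hC0
      nlinarith
    have hc : (X0.card : ℝ) ≤ 2 := by exact_mod_cast hX2
    have hc0 : (0 : ℝ) ≤ X0.card := Nat.cast_nonneg _
    have hq : 0 ≤ 2 * C0 ^ 2 := by positivity
    calc |∑ u ∈ X0, ∑ v ∈ X0, Φ u v| ≤ ∑ u ∈ X0, ∑ v ∈ X0, |Φ u v| :=
          (Finset.abs_sum_le_sum_abs _ _).trans
            (Finset.sum_le_sum fun u _ => Finset.abs_sum_le_sum_abs _ _)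
      _ ≤ ∑ u ∈ X0, ∑ v ∈ X0, 2 * C0 ^ 2 :=
          Finset.sum_le_sum fun u hu => Finset.sum_le_sum fun v hv => h1 u hu v hv
      _ = (X0.card : ℝ) * ((X0.card : ℝ) * (2 * C0 ^ 2)) := by
          simp only [Finset.sum_const, nsmul_eq_mul]
      _ ≤ 2 * (2 * (2 * C0 ^ 2)) :=
          mul_le_mul hc (mul_le_mul_of_nonneg_right hc hq) (mul_nonneg hc0 hq) (by norm_num)
      _ = 8 * C0 ^ 2 := by ring
  have b2 : |∑ u ∈ S \ X0, Φ u u| ≤ 2 * C0 := by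
    calc |∑ u ∈ S \ X0, Φ u u| ≤ ∑ u ∈ S \ X0, |Φ u u| := Finset.abs_sum_le_sum_abs _ _
      _ ≤ ∑ u ∈ S \ X0, 2 * (|A u| * |B u|) := Finset.sum_le_sum fun u hu => by
          have h2 := hb u (Finset.mem_sdiff.1 hu).1 u (Finset.mem_sdiff.1 hu).1
          linarith
      _ ≤ ∑ u ∈ S, 2 * (|A u| * |B u|) :=
          Finset.sum_le_sum_of_subset_of_nonneg Finset.sdiff_subset fun _ _ _ => by positivity
      _ = 2 * ∑ u ∈ S, |A u| * |B u| := (Finset.mul_sum _ _ _).symm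
      _ ≤ 2 * C0 := by
          have h3 := s5tm_sum_abs_mul hA hB
          linarith
  have b3 : |∑ p ∈ (S \ X0).offDiag.filter (fun p => p ∉ Vd), Φ p.1 p.2| ≤ 2 * Dg * C0 := by
    have hsub : (S \ X0).offDiag.filter (fun p => p ∉ Vd) ⊆ S.offDiag \ Vd := by
      intro p hp
      obtain ⟨h1, h2⟩ := Finset.mem_filter.1 hp
      obtain ⟨h3, h4, h5⟩ := Finset.mem_offDiag.1 h1
      exact Finset.mem_sdiff.2
        ⟨Finset.mem_offDiag.2 ⟨(Finset.mem_sdiff.1 h3).1, (Finset.mem_sdiff.1 h4).1, h5⟩, h2⟩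
    have s1 := s5_sum_forb_le hV A B
    have s2 := s5_sum_forb_le hV B A
    have q : Real.sqrt (∑ x ∈ S, A x ^ 2) * Real.sqrt (∑ x ∈ S, B x ^ 2) ≤ C0 := by
      calc Real.sqrt (∑ x ∈ S, A x ^ 2) * Real.sqrt (∑ x ∈ S, B x ^ 2)
          ≤ Real.sqrt C0 * Real.sqrt C0 :=
            mul_le_mul (Real.sqrt_le_sqrt hA.sq) (Real.sqrt_le_sqrt hB.sq) (Real.sqrt_nonneg _)
              (Real.sqrt_nonneg _)
        _ = C0 := Real.mul_self_sqrt hC0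
    have hD : (0 : ℝ) ≤ Dg := Nat.cast_nonneg _
    have t1 : Dg * Real.sqrt (∑ x ∈ S, A x ^ 2) * Real.sqrt (∑ x ∈ S, B x ^ 2) ≤ Dg * C0 := by
      rw [mul_assoc]
      exact mul_le_mul_of_nonneg_left q hD
    have t2 : Dg * Real.sqrt (∑ x ∈ S, B x ^ 2) * Real.sqrt (∑ x ∈ S, A x ^ 2) ≤ Dg * C0 := by
      rw [mul_assoc, mul_comm (Real.sqrt _)]
      exact mul_le_mul_of_nonneg_left q hD
    calc |∑ p ∈ (S \ X0).offDiag.filter (fun p => p ∉ Vd), Φ p.1 p.2|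
        ≤ ∑ p ∈ (S \ X0).offDiag.filter (fun p => p ∉ Vd), |Φ p.1 p.2| :=
          Finset.abs_sum_le_sum_abs _ _
      _ ≤ ∑ p ∈ S.offDiag \ Vd, |Φ p.1 p.2| :=
          Finset.sum_le_sum_of_subset_of_nonneg hsub fun _ _ _ => abs_nonneg _
      _ ≤ ∑ p ∈ S.offDiag \ Vd, (|A p.1| * |B p.2| + |B p.1| * |A p.2|) :=
          Finset.sum_le_sum fun p hp => by
            obtain ⟨h3, h4, _⟩ := Finset.mem_offDiag.1 (Finset.mem_sdiff.1 hp).1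
            have h5 := hb p.1 h3 p.2 h4
            have h6 := mul_comm |A p.2| |B p.1|
            linarith
      _ = ∑ p ∈ S.offDiag \ Vd, |A p.1| * |B p.2| + ∑ p ∈ S.offDiag \ Vd, |B p.1| * |A p.2| :=
          Finset.sum_add_distrib
      _ ≤ 2 * Dg * C0 := by linarith
  rw [s5tm_sum_surv hV X0 Φ, s5tm_centred S X0 hX Φ hc1 hc2]
  refine ((abs_sub _ _).trans (add_le_add (abs_sub _ _) le_rfl)).trans ?_
  linarith

/-- MEAN of a finite sum of pure-swap products of arrays which are centred termwise (the part `TZ` of `FormalTail.lean`).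
`∑_{u≠v∈I} f(u) g(v) = (∑_{X0} f)(∑_{X0} g) - ∑_I f g`. -/
theorem s5_swap_family_mean (C0 : ℝ) : ∃ C : ℝ, 0 < C ∧ ∀ (α ι : Type) [DecidableEq α] (T : Finset ι) (S : Finset α)
    (Vd : Finset (α × α)) (Dg : ℕ) (f g : ι → α → ℝ) (A B : α → ℝ) (X0 : Finset α),
    S5Valid S Vd Dg → 32 ≤ S.card → 4 * Dg ≤ S.card →
    (∀ k ∈ T, ∑ x ∈ S, f k x = 0) → (∀ k ∈ T, ∑ x ∈ S, g k x = 0) →
    (∀ x ∈ S, ∀ y ∈ S, ∑ k ∈ T, |f k x| * |g k y| ≤ A x * B y) →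
    S5Arr C0 S A → S5Arr C0 S B → X0 ⊆ S → X0.card ≤ 2 →
    |avgOn (s5Surv Vd X0) (fun p => ∑ k ∈ T, (f k p.1 * g k p.2 + f k p.2 * g k p.1))| ≤
      C * (Dg + 1) / (S.card : ℝ) ^ 2 := by
  refine ⟨4 * (8 * C0 ^ 2 + 2 * |C0|) + 1, by positivity, ?_⟩
  intro α ι _ T S Vd Dg f g A B X0 hV hl hDg hf hg hfg hA hB hX hX2
  have hC0 := s5tm_C0_nonneg hA
  rw [abs_of_nonneg hC0]
  obtain ⟨Φ, hΦ⟩ : ∃ Φ : α → α → ℝ, Φ = fun u v => ∑ k ∈ T, (f k u * g k v + f k v * g k u) :=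
    ⟨_, rfl⟩
  have hc1 : ∀ u, ∑ v ∈ S, Φ u v = 0 := by
    intro u
    rw [hΦ]
    dsimp only
    rw [Finset.sum_comm]
    refine Finset.sum_eq_zero fun k hk => ?_
    rw [Finset.sum_add_distrib, ← Finset.mul_sum, ← Finset.sum_mul, hf k hk, hg k hk]
    ring
  have hc2 : ∀ v, ∑ u ∈ S, Φ u v = 0 := by
    intro v
    rw [hΦ]
    dsimp only
    rw [Finset.sum_comm]
    refine Finset.sum_eq_zero fun k hk => ?_
    rw [Finset.sum_add_distrib, ← Finset.mul_sum, ← Finset.sum_mul, hf k hk, hg k hk]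
    ring
  have hb : ∀ u ∈ S, ∀ v ∈ S, |Φ u v| ≤ |A u| * |B v| + |A v| * |B u| := by
    intro u hu v hv
    rw [hΦ]
    have h1 := hfg u hu v hv
    have h2 := hfg v hv u hu
    have h3 : A u * B v ≤ |A u| * |B v| := by rw [← abs_mul]; exact le_abs_self _
    have h4 : A v * B u ≤ |A v| * |B u| := by rw [← abs_mul]; exact le_abs_self _
    calc |∑ k ∈ T, (f k u * g k v + f k v * g k u)|
        ≤ ∑ k ∈ T, |f k u * g k v + f k v * g k u| := Finset.abs_sum_le_sum_abs _ _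
      _ ≤ ∑ k ∈ T, (|f k u| * |g k v| + |f k v| * |g k u|) := Finset.sum_le_sum fun k _ => by
          rw [← abs_mul, ← abs_mul]; exact abs_add_le _ _
      _ = ∑ k ∈ T, |f k u| * |g k v| + ∑ k ∈ T, |f k v| * |g k u| := Finset.sum_add_distrib
      _ ≤ |A u| * |B v| + |A v| * |B u| := by linarith
  have hsum := s5tm_kernel_sum hV X0 hX hX2 Φ A B hA hB hc1 hc2 hb
  have hcard := s5_card_surv_quarter hV hl hDg X0 hX2
  have hl0 : (0 : ℝ) < S.card := by exact_mod_cast (show 0 < S.card by omega)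
  have hD : (0 : ℝ) ≤ Dg := Nat.cast_nonneg _
  have e : (∑ p ∈ s5Surv Vd X0, ∑ k ∈ T, (f k p.1 * g k p.2 + f k p.2 * g k p.1)) =
      ∑ p ∈ s5Surv Vd X0, Φ p.1 p.2 := by rw [hΦ]
  unfold avgOn
  rw [e, abs_div, Nat.abs_cast]
  have hpos : (0 : ℝ) < (S.card : ℝ) ^ 2 / 4 := by positivity
  have hnn : 0 ≤ 8 * C0 ^ 2 + 2 * C0 + 2 * Dg * C0 := by positivity
  calc |∑ p ∈ s5Surv Vd X0, Φ p.1 p.2| / ((s5Surv Vd X0).card : ℝ)
      ≤ (8 * C0 ^ 2 + 2 * C0 + 2 * Dg * C0) / ((s5Surv Vd X0).card : ℝ) :=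
        div_le_div_of_nonneg_right hsum (Nat.cast_nonneg _)
    _ ≤ (8 * C0 ^ 2 + 2 * C0 + 2 * Dg * C0) / ((S.card : ℝ) ^ 2 / 4) :=
        div_le_div_of_nonneg_left hnn hpos hcard
    _ = 4 * (8 * C0 ^ 2 + 2 * C0 + 2 * Dg * C0) / (S.card : ℝ) ^ 2 := by field_simp
    _ ≤ (4 * (8 * C0 ^ 2 + 2 * C0) + 1) * (Dg + 1) / (S.card : ℝ) ^ 2 := by
        refine div_le_div_of_nonneg_right ?_ (by positivity)
        have h1 : 0 ≤ C0 ^ 2 * Dg := by positivity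
        nlinarith

/-- majorant arrays of the reference: `j` local factors, `b` cross factors -/
structure S5Maj {α : Type} (C0 N Qa : ℝ) (S : Finset α) (j : α → ℝ) (b : α → α → ℝ) : Prop where
  j_nonneg : ∀ x ∈ S, 0 ≤ j x
  b_nonneg : ∀ x ∈ S, ∀ y ∈ S, 0 ≤ b x y
  b_symm : ∀ x y, b x y = b y x
  j_sq : ∑ x ∈ S, j x ^ 2 ≤ N
  j_sum : ∑ x ∈ S, j x ≤ Qa
  b_sq : ∀ x ∈ S, ∑ y ∈ S, b x y ^ 2 ≤ C0
  b_sum : ∀ x ∈ S, ∑ y ∈ S, b x y ≤ Qa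

/-- the pointwise majorant of the tail remainder -/
noncomputable def s5TailMaj {α : Type} (l : ℕ) (A B j : α → ℝ) (b : α → α → ℝ) (p : α × α) : ℝ :=
  A p.1 * B p.1 * (j p.2 + 1 / (l : ℝ)) + A p.2 * B p.2 * (j p.1 + 1 / (l : ℝ))
    + (A p.1 * B p.2 + A p.2 * B p.1) * (b p.1 p.2 + j p.1 * j p.2 + 1 / (l : ℝ))

/-- `a_Aᵀ (Ĥ_P - h F) b_A ≤ C * s5TailMaj` (from `tb_first_order` with `σ = -1`, `D = - t`) -/
theorem s5_tailMaj_le : ∃ C : ℝ, 0 < C ∧ ∀ (α : Type) (l : ℕ) (h : ℝ) (A B j : α → ℝ) (b : α → α → ℝ) (p : α × α),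
    TBHyp l (-1) h (-(!![j p.1, b p.1 p.2; b p.1 p.2, j p.2])) →
    0 ≤ A p.1 → 0 ≤ A p.2 → 0 ≤ B p.1 → 0 ≤ B p.2 → 0 ≤ j p.1 → 0 ≤ j p.2 → 0 ≤ b p.1 p.2 →
    pvec A p.1 p.2 ⬝ᵥ ((Hgen l (-1) h (-(!![j p.1, b p.1 p.2; b p.1 p.2, j p.2])) - h • F2 ℝ) *ᵥ pvec B p.1 p.2)
      ≤ C * s5TailMaj l A B j b p := by
  obtain ⟨C, hC, hfo⟩ := tb_first_order
  refine ⟨C, hC, ?_⟩
  intro α l h A B j b p H hA1 hA2 hB1 hB2 hj1 hj2 hb
  obtain ⟨D, hD⟩ : ∃ D : Matrix (Fin 2) (Fin 2) ℝ,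
      D = -(!![j p.1, b p.1 p.2; b p.1 p.2, j p.2]) := ⟨_, rfl⟩
  rw [← hD] at H ⊢
  have d00 : D 0 0 = - j p.1 := by rw [hD]; simp
  have d11 : D 1 1 = - j p.2 := by rw [hD]; simp
  have d01 : D 0 1 = - b p.1 p.2 := by rw [hD]; simp
  obtain ⟨h00, h11, h01⟩ := hfo l (-1) h D (j p.1) (j p.2) (b p.1 p.2) H
    (by rw [d00, abs_neg, abs_of_nonneg hj1]) (by rw [d11, abs_neg, abs_of_nonneg hj2])
    (by rw [d01, abs_neg, abs_of_nonneg hb])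
  have h10 : Hgen l (-1) h D 1 0 = Hgen l (-1) h D 0 1 := (tb_formula H).2.2.2
  have e : pvec A p.1 p.2 ⬝ᵥ ((Hgen l (-1) h D - h • F2 ℝ) *ᵥ pvec B p.1 p.2) =
      A p.1 * B p.1 * Hgen l (-1) h D 0 0 + A p.2 * B p.2 * Hgen l (-1) h D 1 1
        + (A p.1 * B p.2 + A p.2 * B p.1) * (Hgen l (-1) h D 0 1 + -1 * h) := by
    simp [pvec, F2, Matrix.mulVec, dotProduct, Fin.sum_univ_two, h10]
    ring
  rw [e]
  unfold s5TailMaj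
  have m1 := mul_le_mul_of_nonneg_left ((le_abs_self _).trans h00) (mul_nonneg hA1 hB1)
  have m2 := mul_le_mul_of_nonneg_left ((le_abs_self _).trans h11) (mul_nonneg hA2 hB2)
  have m3 := mul_le_mul_of_nonneg_left ((le_abs_self _).trans h01)
    (add_nonneg (mul_nonneg hA1 hB2) (mul_nonneg hA2 hB1))
  refine (add_le_add (add_le_add m1 m2) m3).trans (le_of_eq ?_)
  ring

theorem s5tm_symmetrise {α : Type} (S : Finset α) (X : α → α → ℝ) :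
    ∑ u ∈ S, ∑ v ∈ S, (X u v + X v u) = 2 * ∑ u ∈ S, ∑ v ∈ S, X u v := by
  simp only [Finset.sum_add_distrib]
  rw [Finset.sum_comm (f := fun u v => X v u)]
  ring

/-- sums of functions of pairs dominated by a symmetrised weighted kernel with bounded row sums -/
theorem s5tm_sym_bound {α : Type} [DecidableEq α] (S : Finset α) (V : Finset (α × α))
    (hV : V ⊆ S.offDiag) (t : α × α → ℝ) (a : α → ℝ) (G : α → α → ℝ) (K M : ℝ)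
    (ha : ∀ x ∈ S, 0 ≤ a x) (hsum : ∑ x ∈ S, a x ≤ M) (hK : 0 ≤ K)
    (hG0 : ∀ u ∈ S, ∀ v ∈ S, 0 ≤ G u v) (hG : ∀ u ∈ S, ∑ v ∈ S, G u v ≤ K)
    (ht : ∀ p ∈ V, t p ≤ a p.1 * G p.1 p.2 + a p.2 * G p.2 p.1) :
    ∑ p ∈ V, t p ≤ 2 * (M * K) := by
  calc ∑ p ∈ V, t p ≤ ∑ p ∈ V, (a p.1 * G p.1 p.2 + a p.2 * G p.2 p.1) := Finset.sum_le_sum ht
    _ ≤ ∑ u ∈ S, ∑ v ∈ S, (a u * G u v + a v * G v u) :=
        s5tm_sum_le_double S V hV (fun u v => a u * G u v + a v * G v u) fun u hu v hv =>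
          add_nonneg (mul_nonneg (ha u hu) (hG0 u hu v hv)) (mul_nonneg (ha v hv) (hG0 v hv u hu))
    _ = 2 * ∑ u ∈ S, ∑ v ∈ S, a u * G u v := s5tm_symmetrise S fun u v => a u * G u v
    _ ≤ 2 * (M * K) :=
        mul_le_mul_of_nonneg_left (s5tm_row S a G K M ha hsum hK hG) (by norm_num)

/-- pointwise bound of the tail majorant by a symmetrised kernel -/
theorem s5tm_maj_pt (Au Av Bu Bv ju jv bb ε : ℝ) (hju : 0 ≤ ju) (hjv : 0 ≤ jv) (hbb : 0 ≤ bb)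
    (hε : 0 ≤ ε) :
    Au * Bu * (jv + ε) + Av * Bv * (ju + ε) + (Au * Bv + Av * Bu) * (bb + ju * jv + ε)
      ≤ (Au ^ 2 + Bu ^ 2) / 2 * (jv + 2 * ε + bb + jv ^ 2)
        + (Av ^ 2 + Bv ^ 2) / 2 * (ju + 2 * ε + bb + ju ^ 2) := by
  have h1 : Au * Bu ≤ (Au ^ 2 + Bu ^ 2) / 2 := by nlinarith [sq_nonneg (Au - Bu)]
  have h2 : Av * Bv ≤ (Av ^ 2 + Bv ^ 2) / 2 := by nlinarith [sq_nonneg (Av - Bv)]
  have h3 : Au * Bv + Av * Bu ≤ (Au ^ 2 + Bv ^ 2 + Av ^ 2 + Bu ^ 2) / 2 := by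
    nlinarith [sq_nonneg (Au - Bv), sq_nonneg (Av - Bu)]
  have m1 := mul_le_mul_of_nonneg_right h1 (add_nonneg hjv hε)
  have m2 := mul_le_mul_of_nonneg_right h2 (add_nonneg hju hε)
  have m3 := mul_le_mul_of_nonneg_right h3 (add_nonneg hbb hε)
  have m4 := sq_nonneg (Au * jv - Bv * ju)
  have m5 := sq_nonneg (Av * ju - Bu * jv)
  nlinarith

/-- first moment of the tail majorant: `≤ C (Q_a + N + 1) / l²`.
`∑ A_u B_u j_v ≤ C0 Q_a`; `∑ A_u B_v b_uv ≤ Q_a ‖A‖‖B‖` (Schur test with the row sums of `b`); `∑ A_u B_v j_u j_v ≤ C0 N`;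
`(1/l) ∑ A_u B_v ≤ C0`. -/
theorem s5_tailMaj_mean (C0 : ℝ) : ∃ C : ℝ, 0 < C ∧ ∀ (α : Type) [DecidableEq α] (N Qa : ℝ) (S : Finset α)
    (A B j : α → ℝ) (b : α → α → ℝ), 32 ≤ S.card → S5Maj C0 N Qa S j b → S5Arr C0 S A → S5Arr C0 S B →
    (∀ x ∈ S, 0 ≤ A x) → (∀ x ∈ S, 0 ≤ B x) →
    ∑ p ∈ S.offDiag, s5TailMaj S.card A B j b p ≤ C * (Qa + N + 1) := by
  refine ⟨4 * |C0| + 1, by positivity, ?_⟩
  intro α _ N Qa S A B j b hl hM hA hB _ _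
  have hC0 := s5tm_C0_nonneg hA
  rw [abs_of_nonneg hC0]
  have hl0 : (0 : ℝ) < S.card := by exact_mod_cast (show 0 < S.card by omega)
  obtain ⟨ε, hε⟩ : ∃ ε : ℝ, ε = 1 / (S.card : ℝ) := ⟨_, rfl⟩
  have hε0 : 0 ≤ ε := by rw [hε]; positivity
  have hN : 0 ≤ N := (Finset.sum_nonneg fun _ _ => sq_nonneg _).trans hM.j_sq
  have hQ : 0 ≤ Qa := (Finset.sum_nonneg hM.j_nonneg).trans hM.j_sum
  have key := s5tm_sym_bound S S.offDiag (Finset.Subset.refl _) (s5TailMaj S.card A B j b)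
    (fun x => (A x ^ 2 + B x ^ 2) / 2) (fun u v => j v + 2 * ε + b u v + j v ^ 2)
    (2 * Qa + N + 2) C0 (fun x _ => by positivity) ?_ (by positivity) ?_ ?_ ?_
  · refine key.trans ?_
    nlinarith
  · rw [← Finset.sum_div, Finset.sum_add_distrib]
    have h2 := hA.sq
    have h3 := hB.sq
    linarith
  · intro u hu v hv
    have h1 := hM.j_nonneg v hv
    have h2 := hM.b_nonneg u hu v hv
    positivity
  · intro u hu
    rw [Finset.sum_add_distrib, Finset.sum_add_distrib, Finset.sum_add_distrib, Finset.sum_const,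
      nsmul_eq_mul]
    have e : (S.card : ℝ) * (2 * ε) = 2 := by rw [hε]; field_simp
    have h1 := hM.j_sum
    have h2 := hM.b_sum u hu
    have h3 := hM.j_sq
    linarith
  · intro p hp
    obtain ⟨hu, hv, _⟩ := Finset.mem_offDiag.1 hp
    unfold s5TailMaj
    rw [← hε, hM.b_symm p.2 p.1]
    exact s5tm_maj_pt _ _ _ _ _ _ _ _ (hM.j_nonneg _ hu) (hM.j_nonneg _ hv) (hM.b_nonneg _ hu _ hv) hε0

/-- pointwise bound of the square of the tail majorant -/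
theorem s5tm_sq_pt (Au Av Bu Bv ju jv bb ε : ℝ) (hs0 : 0 ≤ bb + ju * jv + ε)
    (hs : bb + ju * jv + ε ≤ 2) :
    (Au * Bu * (jv + ε) + Av * Bv * (ju + ε) + (Au * Bv + Av * Bu) * (bb + ju * jv + ε)) ^ 2
      ≤ Au ^ 2 * (6 * Bu ^ 2 * (jv ^ 2 + ε ^ 2) + 24 * Bv ^ 2)
        + Av ^ 2 * (6 * Bv ^ 2 * (ju ^ 2 + ε ^ 2) + 24 * Bu ^ 2) := by
  obtain ⟨s, hsdef⟩ : ∃ s : ℝ, s = bb + ju * jv + ε := ⟨_, rfl⟩
  rw [← hsdef] at hs0 hs ⊢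
  obtain ⟨T1, hT1⟩ : ∃ T : ℝ, T = Au * Bu * (jv + ε) := ⟨_, rfl⟩
  obtain ⟨T2, hT2⟩ : ∃ T : ℝ, T = Av * Bv * (ju + ε) := ⟨_, rfl⟩
  obtain ⟨T3, hT3⟩ : ∃ T : ℝ, T = (Au * Bv + Av * Bu) * s := ⟨_, rfl⟩
  rw [← hT1, ← hT2, ← hT3]
  have h0 : (T1 + T2 + T3) ^ 2 ≤ 3 * (T1 ^ 2 + T2 ^ 2 + T3 ^ 2) := by
    nlinarith [sq_nonneg (T1 - T2), sq_nonneg (T1 - T3), sq_nonneg (T2 - T3)]
  have h1 : T1 ^ 2 ≤ (Au * Bu) ^ 2 * (2 * (jv ^ 2 + ε ^ 2)) := by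
    rw [hT1, mul_pow]
    refine mul_le_mul_of_nonneg_left ?_ (sq_nonneg _)
    nlinarith [sq_nonneg (jv - ε)]
  have h2 : T2 ^ 2 ≤ (Av * Bv) ^ 2 * (2 * (ju ^ 2 + ε ^ 2)) := by
    rw [hT2, mul_pow]
    refine mul_le_mul_of_nonneg_left ?_ (sq_nonneg _)
    nlinarith [sq_nonneg (ju - ε)]
  have h3 : T3 ^ 2 ≤ (2 * ((Au * Bv) ^ 2 + (Av * Bu) ^ 2)) * 4 := by
    rw [hT3, mul_pow]
    have k1 : (Au * Bv + Av * Bu) ^ 2 ≤ 2 * ((Au * Bv) ^ 2 + (Av * Bu) ^ 2) := by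
      nlinarith [sq_nonneg (Au * Bv - Av * Bu)]
    have k2 : s ^ 2 ≤ 4 := by nlinarith
    exact mul_le_mul k1 k2 (sq_nonneg _) (by positivity)
  refine h0.trans ?_
  have e : Au ^ 2 * (6 * Bu ^ 2 * (jv ^ 2 + ε ^ 2) + 24 * Bv ^ 2)
        + Av ^ 2 * (6 * Bv ^ 2 * (ju ^ 2 + ε ^ 2) + 24 * Bu ^ 2) =
      3 * ((Au * Bu) ^ 2 * (2 * (jv ^ 2 + ε ^ 2)) + (Av * Bv) ^ 2 * (2 * (ju ^ 2 + ε ^ 2))
        + (2 * ((Au * Bv) ^ 2 + (Av * Bu) ^ 2)) * 4) := by ring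
  rw [e]
  linarith

/-- second moment of the tail majorant on pairs where `b_uv + j_u j_v ≤ 1`: `≤ C (N + 1) / l²` -/
theorem s5_tailMaj_sq (C0 : ℝ) : ∃ C : ℝ, 0 < C ∧ ∀ (α : Type) [DecidableEq α] (N Qa : ℝ) (S : Finset α)
    (Vd : Finset (α × α)) (A B j : α → ℝ) (b : α → α → ℝ), 32 ≤ S.card → Vd ⊆ S.offDiag →
    S5Maj C0 N Qa S j b → S5Arr C0 S A → S5Arr C0 S B → (∀ x ∈ S, 0 ≤ A x) → (∀ x ∈ S, 0 ≤ B x) →
    (∀ p ∈ Vd, b p.1 p.2 + j p.1 * j p.2 ≤ 1) →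
    ∑ p ∈ Vd, s5TailMaj S.card A B j b p ^ 2 ≤ C * (N + 1) := by
  refine ⟨2 * (|C0| * (6 * C0 ^ 2 + 24 * |C0|)) + 1, by positivity, ?_⟩
  intro α _ N Qa S Vd A B j b hl hVd hM hA hB _ _ hsmall
  have hC0 := s5tm_C0_nonneg hA
  rw [abs_of_nonneg hC0]
  have hl1 : (1 : ℝ) ≤ S.card := by exact_mod_cast (show 1 ≤ S.card by omega)
  have hl0 : (0 : ℝ) < S.card := by linarith
  obtain ⟨ε, hε⟩ : ∃ ε : ℝ, ε = 1 / (S.card : ℝ) := ⟨_, rfl⟩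
  have hε0 : 0 ≤ ε := by rw [hε]; positivity
  have hε1 : ε ≤ 1 := by
    rw [hε, div_le_one hl0]
    exact hl1
  have hN : 0 ≤ N := (Finset.sum_nonneg fun _ _ => sq_nonneg _).trans hM.j_sq
  have key := s5tm_sym_bound S Vd hVd (fun p => s5TailMaj S.card A B j b p ^ 2)
    (fun x => A x ^ 2) (fun u v => 6 * B u ^ 2 * (j v ^ 2 + ε ^ 2) + 24 * B v ^ 2)
    (6 * C0 ^ 2 * (N + 1) + 24 * C0) C0 (fun x _ => sq_nonneg _) hA.sq (by positivity) ?_ ?_ ?_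
  · refine key.trans ?_
    have h1 : 0 ≤ C0 * C0 * N := by positivity
    nlinarith
  · intro u _ v _
    positivity
  · intro u hu
    rw [Finset.sum_add_distrib, ← Finset.mul_sum, ← Finset.mul_sum, Finset.sum_add_distrib,
      Finset.sum_const, nsmul_eq_mul]
    have e : (S.card : ℝ) * ε ^ 2 = ε := by rw [hε]; field_simp
    rw [e]
    have hBu : B u ^ 2 ≤ C0 ^ 2 := by
      rw [← sq_abs (B u)]
      exact pow_le_pow_left₀ (abs_nonneg _) (hB.sup u hu) 2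
    have h1 : ∑ v ∈ S, j v ^ 2 + ε ≤ N + 1 := add_le_add hM.j_sq hε1
    have h2 : 0 ≤ ∑ v ∈ S, j v ^ 2 + ε := add_nonneg (Finset.sum_nonneg fun _ _ => sq_nonneg _) hε0
    have h3 : 6 * B u ^ 2 * (∑ v ∈ S, j v ^ 2 + ε) ≤ 6 * C0 ^ 2 * (N + 1) :=
      mul_le_mul (by linarith) h1 h2 (by positivity)
    have h4 := hB.sq
    linarith
  · intro p hp
    obtain ⟨hu, hv, _⟩ := Finset.mem_offDiag.1 (hVd hp)
    unfold s5TailMaj
    rw [← hε]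
    have h1 := hM.j_nonneg _ hu
    have h2 := hM.j_nonneg _ hv
    have h3 := hM.b_nonneg _ hu _ hv
    have h4 := hsmall p hp
    exact s5tm_sq_pt _ _ _ _ _ _ _ _ (by positivity) (by linarith)

end Claimed.Agent.R275
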