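import Claimed.Agent.R275.S5Final
import Claimed.Agent.R275.Final

/-!
# Row 275: the contract `StT5` of `Final.lean` from the pieces of `S5Final.lean` (helper11) and the contract of Sec 5.3 (helper114)

helper194.  No sorry of its own.  Same proof as `s5_final_of`, but `ηs, ηK` are UNIVERSAL below `ε = min (a/100) (θ/8) (η/4)`
(STRUCT needs `ηK` small compared with `ηs`, so Sec 5 may not prescribe it).
-/

set_option autoImplicit false

namespace Claimed.Agent.R275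

open Filter Finset

/-- the contract theorem of Sec 5.3 (`T_S`), with its conditions on the constants -/
def StS53 : Prop :=
  ∀ d : ℕ, 3 ≤ d → ∀ cp : ℚ, 0 < cp → cp ≤ 1 / 4 → ∀ (CM CR : ℝ) (Rc : ℕ) (η : ℝ), 0 < η → η < (aa : ℝ) / 20 →
    ∀ (P : S5Par) (ηs ηK : ℝ), P.cp = cp → 0 < ηs → ηs < (P.xT : ℝ) → (P.xT : ℝ) + ηK < η → 0 < ηK →
      StS5TS d P CM CR ηs η Rc (1 / 2) ηK

theorem s5_t5 (hTS : StS53) : StT5 := by
  intro d hd cp hcp hcp' CM CR Rc _ _ θ η hθ hθ' hη0 hη'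
  have ha := s5f_aa_pos
  have hθR : (0 : ℝ) < (θ : ℝ) := by exact_mod_cast hθ
  have hη : η < (aa : ℝ) / 20 := by linarith
  have hθ5 : (θ : ℝ) ≤ (aa : ℝ) / 5 := by linarith
  obtain ⟨Cstar, hCs, H⟩ := s54_contract d hd cp hcp hcp' CR
  obtain ⟨xT, hx1, hx2⟩ := exists_rat_btwn (show η / 4 < η / 2 by linarith)
  obtain ⟨ε, hε⟩ : ∃ ε : ℝ, ε = min (min ((aa : ℝ) / 100) ((θ : ℝ) / 8)) (η / 4) := ⟨_, rfl⟩
  have hK0 : 0 < ε := by
    rw [hε]; exact lt_min (lt_min (by positivity) (by positivity)) (by positivity)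
  have hK1 : ε ≤ (aa : ℝ) / 100 := by rw [hε]; exact (min_le_left _ _).trans (min_le_left _ _)
  have hK2 : ε ≤ (θ : ℝ) / 8 := by rw [hε]; exact (min_le_left _ _).trans (min_le_right _ _)
  have hK3 : ε ≤ η / 4 := by rw [hε]; exact min_le_right _ _
  obtain ⟨p2, hp2⟩ := exists_nat_gt ((8000 + (3 + ε + Cstar) * 50) / (aa : ℝ) + 2)
  have hp2a : (8000 + (3 + ε + Cstar) * 50) < (aa : ℝ) * (p2 : ℝ) := by
    have h1 : (8000 + (3 + ε + Cstar) * 50) / (aa : ℝ) < (p2 : ℝ) := by linarith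
    rw [div_lt_iff₀ ha] at h1
    linarith
  have hp2b : 2 ≤ p2 := by
    have h1 : (2 : ℝ) < (p2 : ℝ) := by
      have : 0 ≤ (8000 + (3 + ε + Cstar) * 50) / (aa : ℝ) := by positivity
      linarith
    have : (2 : ℕ) < p2 := by exact_mod_cast h1
    omega
  have hcast : (((2 * p2 : ℕ)) : ℝ) = 2 * (p2 : ℝ) := by push_cast; ring
  have hp2pos : (0 : ℝ) ≤ (aa : ℝ) * (p2 : ℝ) := by positivity
  obtain ⟨kp0, hkp0, H2⟩ := H p2 hp2b
  obtain ⟨kp, hk1, hk2⟩ := exists_rat_btwn hkp0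
  have hk1' : (0 : ℚ) < kp := by exact_mod_cast hk1
  refine ⟨⟨cp, xT, θ, p2, s5R, kp⟩, ε, rfl, rfl, hK0, ?_⟩
  intro ηs ηK hs0 hs1 _ hk0 hk1
  exact s5_main_of d ⟨cp, xT, θ, p2, s5R, kp⟩ CM CR ηs η Rc (1 / 2) ηK Cstar (by linarith) hk1'.le
    (s5f_L1 d hd _ hcp hcp' CM CR _ η Rc _ ηK (by linarith) hη0.le hη (by linarith))
    (s5f_L0 d hd _ hcp hcp' CM CR _ η Rc _ ηK (by linarith) hη0.le hη (by linarith))
    (s5f_T d hd _ hcp hcp' CM CR _ η Rc ηK (by linarith) hη0.le hη hθ hθ5 (by show ηK < (θ : ℝ) / 4; linarith))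
    (hTS d hd cp hcp hcp' CM CR Rc η hη0 hη _ _ _ rfl hs0 (by show ηs < (xT : ℝ); linarith)
      (by show (xT : ℝ) + ηK < η; linarith) hk0)
    (H2 _ rfl rfl rfl hk1' hk2.le CM ηs η (1 / 2) ηK Rc hs0.le (by linarith) (by linarith)
      (by rw [hcast]; nlinarith) (by rw [hcast]; nlinarith))
    (s5_pos d hd _ hcp hcp' CM CR _ η Rc _)
    (s5_init d hd _ hcp hcp' (by show 1 ≤ p2; omega) hθ.le η (1 / 2) ηK hη0.le (by norm_num) hk0)

end Claimed.Agent.R275
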