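import Claimed.Agent.R275.Params

/-!
# Row 275, Sec 6, package S6-ASYM, part A: a calculus of power bounds for sequences, and the basic scales

Proofs: helper167.  `S6U X α` : `X n = O(n^α)`;  `S6L X α` : `X n ≥ c n^α` eventually, `c > 0`.  Closed under the field operations, `√`, powers.
`s6as_final`: `S6U X α`, `S6L Y β`, `α < β` give `X n ≤ Y n` eventually.  Helper prefix `s6as_`.
-/

set_option autoImplicit false

namespace Claimed.Agent.R275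

open Filter

/-- `X n = O(n^α)` -/
def S6U (X : ℕ → ℝ) (α : ℝ) : Prop := ∃ K : ℝ, ∀ᶠ n : ℕ in atTop, |X n| ≤ K * (n : ℝ) ^ α

/-- `c n^α ≤ X n` eventually, `c > 0` -/
def S6L (X : ℕ → ℝ) (α : ℝ) : Prop := ∃ c : ℝ, 0 < c ∧ ∀ᶠ n : ℕ in atTop, c * (n : ℝ) ^ α ≤ X n

theorem s6as_npos : ∀ᶠ n : ℕ in atTop, (1 : ℝ) ≤ (n : ℝ) := by
  filter_upwards [eventually_ge_atTop 1] with n hn
  exact_mod_cast hn

namespace S6U

variable {X Y : ℕ → ℝ} {α β γ : ℝ}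

theorem const (c : ℝ) : S6U (fun _ => c) 0 := ⟨|c|, Eventually.of_forall fun n => by simp⟩

theorem rpow (α : ℝ) : S6U (fun n => (n : ℝ) ^ α) α :=
  ⟨1, Eventually.of_forall fun n => by
    rw [one_mul, abs_of_nonneg (Real.rpow_nonneg (Nat.cast_nonneg n) α)]⟩

theorem self : S6U (fun n => (n : ℝ)) 1 :=
  ⟨1, Eventually.of_forall fun n => by simp⟩

theorem mono (h : S6U X α) (hαβ : α ≤ β) : S6U X β := by
  obtain ⟨K, h⟩ := h
  refine ⟨|K|, ?_⟩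
  filter_upwards [h, s6as_npos] with n hn h1
  have h2 : (n : ℝ) ^ α ≤ (n : ℝ) ^ β := Real.rpow_le_rpow_of_exponent_le h1 hαβ
  have h3 : (0 : ℝ) ≤ (n : ℝ) ^ α := Real.rpow_nonneg (by linarith) α
  calc |X n| ≤ K * (n : ℝ) ^ α := hn
    _ ≤ |K| * (n : ℝ) ^ α := mul_le_mul_of_nonneg_right (le_abs_self K) h3
    _ ≤ |K| * (n : ℝ) ^ β := mul_le_mul_of_nonneg_left h2 (abs_nonneg K)

theorem mul (h : S6U X α) (h' : S6U Y β) : S6U (fun n => X n * Y n) (α + β) := by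
  obtain ⟨K, h⟩ := h
  obtain ⟨K', h'⟩ := h'
  refine ⟨K * K', ?_⟩
  filter_upwards [h, h', s6as_npos] with n hn hn' h1
  rw [abs_mul, Real.rpow_add (by linarith)]
  calc |X n| * |Y n| ≤ (K * (n : ℝ) ^ α) * (K' * (n : ℝ) ^ β) :=
        mul_le_mul hn hn' (abs_nonneg _) ((abs_nonneg _).trans hn)
    _ = K * K' * ((n : ℝ) ^ α * (n : ℝ) ^ β) := by ring

theorem add (h : S6U X α) (h' : S6U Y β) : S6U (fun n => X n + Y n) (max α β) := by
  obtain ⟨K, h⟩ := h.mono (le_max_left α β)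
  obtain ⟨K', h'⟩ := h'.mono (le_max_right α β)
  refine ⟨K + K', ?_⟩
  filter_upwards [h, h'] with n hn hn'
  rw [add_mul]
  exact (abs_add_le _ _).trans (add_le_add hn hn')

theorem neg (h : S6U X α) : S6U (fun n => -X n) α := by
  obtain ⟨K, h⟩ := h
  exact ⟨K, by simpa using h⟩

theorem sub (h : S6U X α) (h' : S6U Y β) : S6U (fun n => X n - Y n) (max α β) := by
  have := h.add h'.neg
  simpa [sub_eq_add_neg] using this

theorem pow (h : S6U X α) (k : ℕ) : S6U (fun n => X n ^ k) ((k : ℝ) * α) := by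
  obtain ⟨K, h⟩ := h
  refine ⟨K ^ k, ?_⟩
  filter_upwards [h, s6as_npos] with n hn h1
  rw [abs_pow, mul_comm (k : ℝ) α, Real.rpow_mul_natCast (by linarith), ← mul_pow]
  exact pow_le_pow_left₀ (abs_nonneg _) hn k

theorem sq (h : S6U X α) : S6U (fun n => X n ^ 2) (2 * α) := by
  have := h.pow 2
  simpa using this

theorem pow4 (h : S6U X α) : S6U (fun n => X n ^ 4) (4 * α) := by
  have := h.pow 4
  simpa using this

theorem sqrt (h : S6U X α) : S6U (fun n => Real.sqrt (X n)) (α / 2) := by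
  obtain ⟨K, h⟩ := h
  refine ⟨Real.sqrt |K|, ?_⟩
  filter_upwards [h, s6as_npos] with n hn h1
  have hn0 : (0 : ℝ) < n := by linarith
  have e : (n : ℝ) ^ (α / 2) = Real.sqrt ((n : ℝ) ^ α) := by
    rw [Real.sqrt_eq_rpow, ← Real.rpow_mul hn0.le]
    congr 1
    ring
  rw [abs_of_nonneg (Real.sqrt_nonneg _), e, ← Real.sqrt_mul (abs_nonneg K)]
  apply Real.sqrt_le_sqrt
  calc X n ≤ |X n| := le_abs_self _
    _ ≤ K * (n : ℝ) ^ α := hn
    _ ≤ |K| * (n : ℝ) ^ α :=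
        mul_le_mul_of_nonneg_right (le_abs_self K) (Real.rpow_nonneg hn0.le α)

theorem div (h : S6U X α) (h' : S6L Y β) : S6U (fun n => X n / Y n) (α - β) := by
  obtain ⟨K, h⟩ := h
  obtain ⟨c, hc, h'⟩ := h'
  refine ⟨K / c, ?_⟩
  filter_upwards [h, h', s6as_npos] with n hn hn' h1
  have hn0 : (0 : ℝ) < n := by linarith
  have hp : 0 < c * (n : ℝ) ^ β := mul_pos hc (Real.rpow_pos_of_pos hn0 β)
  have hY : 0 < Y n := lt_of_lt_of_le hp hn'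
  rw [abs_div, abs_of_pos hY, Real.rpow_sub hn0]
  calc |X n| / Y n ≤ (K * (n : ℝ) ^ α) / (c * (n : ℝ) ^ β) :=
        div_le_div₀ ((abs_nonneg _).trans hn) hn hp hn'
    _ = K / c * ((n : ℝ) ^ α / (n : ℝ) ^ β) := by rw [mul_div_mul_comm]

theorem inv (h' : S6L Y β) : S6U (fun n => (Y n)⁻¹) (-β) := by
  have := (const 1).div h'
  simpa [one_div] using this

theorem of_abs_le (h : S6U Y α) (hXY : ∀ᶠ n : ℕ in atTop, |X n| ≤ |Y n|) : S6U X α := by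
  obtain ⟨K, h⟩ := h
  refine ⟨K, ?_⟩
  filter_upwards [h, hXY] with n hn hn'
  exact hn'.trans hn

theorem of_le (h : S6U Y α) (h0 : ∀ᶠ n : ℕ in atTop, 0 ≤ X n) (hXY : ∀ᶠ n : ℕ in atTop, X n ≤ Y n) :
    S6U X α := by
  apply h.of_abs_le
  filter_upwards [h0, hXY] with n h1 h2
  rw [abs_of_nonneg h1, abs_of_nonneg (h1.trans h2)]
  exact h2

theorem congr (h : S6U Y α) (hXY : ∀ n, X n = Y n) : S6U X α := by
  have : X = Y := funext hXY
  rw [this]; exact h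

end S6U

namespace S6L

variable {X Y : ℕ → ℝ} {α β γ : ℝ}

theorem pos (h : S6L X α) : ∀ᶠ n : ℕ in atTop, 0 < X n := by
  obtain ⟨c, hc, h⟩ := h
  filter_upwards [h, s6as_npos] with n hn h1
  exact lt_of_lt_of_le (mul_pos hc (Real.rpow_pos_of_pos (by linarith) α)) hn

theorem const (c : ℝ) (hc : 0 < c) : S6L (fun _ => c) 0 :=
  ⟨c, hc, Eventually.of_forall fun n => by simp⟩

theorem rpow (α : ℝ) : S6L (fun n => (n : ℝ) ^ α) α :=
  ⟨1, one_pos, Eventually.of_forall fun n => by simp⟩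

theorem self : S6L (fun n => (n : ℝ)) 1 :=
  ⟨1, one_pos, Eventually.of_forall fun n => by simp⟩

theorem mono (h : S6L X α) (hβα : β ≤ α) : S6L X β := by
  obtain ⟨c, hc, h⟩ := h
  refine ⟨c, hc, ?_⟩
  filter_upwards [h, s6as_npos] with n hn h1
  exact (mul_le_mul_of_nonneg_left (Real.rpow_le_rpow_of_exponent_le h1 hβα) hc.le).trans hn

theorem mul (h : S6L X α) (h' : S6L Y β) : S6L (fun n => X n * Y n) (α + β) := by
  have hX := h.pos
  obtain ⟨c, hc, h⟩ := h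
  obtain ⟨c', hc', h'⟩ := h'
  refine ⟨c * c', mul_pos hc hc', ?_⟩
  filter_upwards [h, h', hX, s6as_npos] with n hn hn' hXn h1
  have hn0 : (0 : ℝ) < n := by linarith
  rw [Real.rpow_add hn0]
  calc c * c' * ((n : ℝ) ^ α * (n : ℝ) ^ β) = (c * (n : ℝ) ^ α) * (c' * (n : ℝ) ^ β) := by ring
    _ ≤ X n * Y n :=
        mul_le_mul hn hn' (mul_pos hc' (Real.rpow_pos_of_pos hn0 β)).le hXn.le

theorem pow (h : S6L X α) (k : ℕ) : S6L (fun n => X n ^ k) ((k : ℝ) * α) := by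
  obtain ⟨c, hc, h⟩ := h
  refine ⟨c ^ k, pow_pos hc k, ?_⟩
  filter_upwards [h, s6as_npos] with n hn h1
  have hn0 : (0 : ℝ) < n := by linarith
  rw [mul_comm (k : ℝ) α, Real.rpow_mul_natCast hn0.le, ← mul_pow]
  exact pow_le_pow_left₀ (mul_pos hc (Real.rpow_pos_of_pos hn0 α)).le hn k

theorem sq (h : S6L X α) : S6L (fun n => X n ^ 2) (2 * α) := by
  have := h.pow 2
  simpa using this

theorem sqrt (h : S6L X α) : S6L (fun n => Real.sqrt (X n)) (α / 2) := by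
  obtain ⟨c, hc, h⟩ := h
  refine ⟨Real.sqrt c, Real.sqrt_pos.2 hc, ?_⟩
  filter_upwards [h, s6as_npos] with n hn h1
  have hn0 : (0 : ℝ) < n := by linarith
  have e : (n : ℝ) ^ (α / 2) = Real.sqrt ((n : ℝ) ^ α) := by
    rw [Real.sqrt_eq_rpow, ← Real.rpow_mul hn0.le]
    congr 1
    ring
  rw [e, ← Real.sqrt_mul hc.le]
  exact Real.sqrt_le_sqrt hn

/-- the third argument only provides the positivity of the denominator -/
theorem div (h : S6L X α) (h' : S6U Y β) (h'' : S6L Y γ) : S6L (fun n => X n / Y n) (α - β) := by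
  have hX := h.pos
  have hY := h''.pos
  obtain ⟨c, hc, h⟩ := h
  obtain ⟨K, h'⟩ := h'
  refine ⟨c / (|K| + 1), div_pos hc (by positivity), ?_⟩
  filter_upwards [h, h', hX, hY, s6as_npos] with n hn hn' hXn hYn h1
  have hn0 : (0 : ℝ) < n := by linarith
  have p2 : 0 < (n : ℝ) ^ β := Real.rpow_pos_of_pos hn0 β
  have hYle : Y n ≤ (|K| + 1) * (n : ℝ) ^ β := by
    calc Y n ≤ |Y n| := le_abs_self _
      _ ≤ K * (n : ℝ) ^ β := hn'
      _ ≤ (|K| + 1) * (n : ℝ) ^ β :=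
          mul_le_mul_of_nonneg_right (by linarith [le_abs_self K]) p2.le
  rw [Real.rpow_sub hn0]
  calc c / (|K| + 1) * ((n : ℝ) ^ α / (n : ℝ) ^ β)
      = (c * (n : ℝ) ^ α) / ((|K| + 1) * (n : ℝ) ^ β) := by rw [mul_div_mul_comm]
    _ ≤ X n / Y n := div_le_div₀ hXn.le hn hYn hYle

theorem inv (h' : S6U Y β) (h'' : S6L Y γ) : S6L (fun n => (Y n)⁻¹) (-β) := by
  have := (const 1 one_pos).div h' h''
  simpa [one_div] using this

theorem of_le (h : S6L X α) (hXY : ∀ᶠ n : ℕ in atTop, X n ≤ Y n) : S6L Y α := by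
  obtain ⟨c, hc, h⟩ := h
  refine ⟨c, hc, ?_⟩
  filter_upwards [h, hXY] with n hn hn'
  exact hn.trans hn'

theorem add_nonneg (h : S6L X α) (hY : ∀ᶠ n : ℕ in atTop, 0 ≤ Y n) : S6L (fun n => X n + Y n) α := by
  apply h.of_le
  filter_upwards [hY] with n hn
  linarith

theorem congr (h : S6L Y α) (hXY : ∀ n, X n = Y n) : S6L X α := by
  have : X = Y := funext hXY
  rw [this]; exact h

end S6L

/-- comparison of two powers -/
theorem s6as_ev (K α c β : ℝ) (hc : 0 < c) (hαβ : α < β) :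
    ∀ᶠ n : ℕ in atTop, K * (n : ℝ) ^ α ≤ c * (n : ℝ) ^ β := by
  have h1 : Tendsto (fun n : ℕ => (n : ℝ) ^ (-(β - α))) atTop (nhds 0) :=
    (tendsto_rpow_neg_atTop (by linarith : 0 < β - α)).comp tendsto_natCast_atTop_atTop
  have h2 : Tendsto (fun n : ℕ => K * (n : ℝ) ^ (-(β - α))) atTop (nhds (K * 0)) := h1.const_mul K
  rw [mul_zero] at h2
  filter_upwards [h2.eventually_le_const hc, s6as_npos] with n h hn
  have hN : (0 : ℝ) < n := by linarith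
  have e : (n : ℝ) ^ α = (n : ℝ) ^ (-(β - α)) * (n : ℝ) ^ β := by
    rw [← Real.rpow_add hN]; congr 1; ring
  rw [e, ← mul_assoc]
  exact mul_le_mul_of_nonneg_right h (Real.rpow_pos_of_pos hN β).le

/-- the final step of every field -/
theorem s6as_final {X Y : ℕ → ℝ} {α β : ℝ} (hX : S6U X α) (hY : S6L Y β) (hαβ : α < β) :
    ∀ᶠ n : ℕ in atTop, X n ≤ Y n := by
  obtain ⟨K, hX⟩ := hX
  obtain ⟨c, hc, hY⟩ := hY
  filter_upwards [hX, hY, s6as_ev K α c β hc hαβ] with n h1 h2 h3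
  exact (le_abs_self _).trans (h1.trans (h3.trans h2))

/-! ## logarithms -/

theorem s6as_log (ε : ℝ) (hε : 0 < ε) : S6U (fun n => 1 + Real.log n) ε := by
  refine ⟨1 + 1 / ε, ?_⟩
  filter_upwards [s6as_npos] with n h1
  have h2 : Real.log n ≤ (n : ℝ) ^ ε / ε := Real.log_le_rpow_div (by linarith) hε
  have h3 : 0 ≤ Real.log n := Real.log_nonneg h1
  have h4 : (1 : ℝ) ≤ (n : ℝ) ^ ε := Real.one_le_rpow h1 hε.le
  rw [abs_of_nonneg (by linarith), add_mul, one_mul, one_div, inv_mul_eq_div]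
  linarith

theorem s6as_logpow (k : ℕ) (ε : ℝ) (hε : 0 < ε) : S6U (fun n => (1 + Real.log n) ^ k) ε := by
  have h := (s6as_log (ε / (k + 1)) (by positivity)).pow k
  refine h.mono ?_
  have hk : (0 : ℝ) ≤ k := Nat.cast_nonneg k
  rw [mul_div_assoc', div_le_iff₀ (by positivity)]
  nlinarith

/-- constants and logarithms are absorbed by any positive power -/
theorem s6_pow_absorb (C x y : ℝ) (k : ℕ) (h : x < y) :
    ∀ᶠ n : ℕ in atTop, C * (n : ℝ) ^ x * (1 + Real.log n) ^ k ≤ (n : ℝ) ^ y := by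
  have hU := ((S6U.const C).mul (S6U.rpow x)).mul (s6as_logpow k ((y - x) / 2) (by linarith))
  exact s6as_final hU (S6L.rpow y) (by linarith)

/-! ## the power scales -/

theorem s6as_scQ_up (x : ℚ) : S6U (fun n => ((scQ x n : ℚ) : ℝ)) (x : ℝ) := by
  have hpos : ∀ n, (0 : ℝ) ≤ ((scQ x n : ℚ) : ℝ) := fun n => by exact_mod_cast (scQ_pos x n).le
  rcases le_total 0 x with hx | hx
  · refine ⟨1, ?_⟩
    filter_upwards [eventually_ge_atTop 1] with n hn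
    rw [abs_of_nonneg (hpos n), one_mul]
    exact scQ_le_of_nonneg x hx n hn
  · refine ⟨2 ^ (-(x : ℝ)), ?_⟩
    filter_upwards [eventually_ge_atTop 1] with n hn
    rw [abs_of_nonneg (hpos n), mul_comm]
    exact scQ_le_of_nonpos x hx n hn

theorem s6as_scQ_lo (x : ℚ) : S6L (fun n => ((scQ x n : ℚ) : ℝ)) (x : ℝ) := by
  rcases le_total 0 x with hx | hx
  · refine ⟨1 / 2 ^ ((x : ℝ) + 1), by positivity, ?_⟩
    filter_upwards [eventually_ge_atTop 1] with n hn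
    rw [div_mul_eq_mul_div, one_mul]
    exact le_scQ_of_nonneg x hx n hn
  · refine ⟨1 / 2, by norm_num, ?_⟩
    filter_upwards [eventually_ge_atTop 1] with n hn
    rw [div_mul_eq_mul_div, one_mul]
    exact le_scQ_of_nonpos x hx n hn

theorem s6as_scN_cast (x : ℚ) (hx : 0 ≤ x) (n : ℕ) : ((scN x n : ℕ) : ℝ) = ((scQ x n : ℚ) : ℝ) := by
  rw [← scN_cast x hx n]; norm_cast

/-! ## the basic scales -/

theorem s6as_l0_cast (n : ℕ) :
    (l0 n : ℝ) = 2 * ((scQ (2 / 3 + 15 / 100 * aa) n : ℚ) : ℝ) := by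
  unfold l0
  rw [Nat.cast_mul, s6as_scN_cast _ (by unfold aa; norm_num)]
  norm_num

theorem s6as_bb_cast (n : ℕ) :
    (bb n : ℝ) = ((scQ (1 / 3 + 345 / 1000 * aa) n : ℚ) : ℝ) := by
  unfold bb
  rw [s6as_scN_cast _ (by unfold aa; norm_num)]

theorem s6as_l1_cast (n : ℕ) : (l1 n : ℝ) = (l0 n : ℝ) + 2 * (bb n : ℝ) := by
  unfold l1
  push_cast
  ring

theorem s6as_l0_up : S6U (fun n => (l0 n : ℝ)) ((2 / 3 : ℝ) + 15 / 100 * (aa : ℝ)) := by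
  have h := (S6U.const 2).mul (s6as_scQ_up (2 / 3 + 15 / 100 * aa))
  refine (h.congr s6as_l0_cast).mono (le_of_eq ?_)
  push_cast
  ring

theorem s6as_l0_lo : S6L (fun n => (l0 n : ℝ)) ((2 / 3 : ℝ) + 15 / 100 * (aa : ℝ)) := by
  have h := (S6L.const 2 two_pos).mul (s6as_scQ_lo (2 / 3 + 15 / 100 * aa))
  refine (h.congr s6as_l0_cast).mono (le_of_eq ?_)
  push_cast
  ring

theorem s6as_bb_up : S6U (fun n => (bb n : ℝ)) ((1 / 3 : ℝ) + 345 / 1000 * (aa : ℝ)) := by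
  have h := s6as_scQ_up (1 / 3 + 345 / 1000 * aa)
  refine (h.congr s6as_bb_cast).mono (le_of_eq ?_)
  push_cast
  ring

theorem s6as_bb_lo : S6L (fun n => (bb n : ℝ)) ((1 / 3 : ℝ) + 345 / 1000 * (aa : ℝ)) := by
  have h := s6as_scQ_lo (1 / 3 + 345 / 1000 * aa)
  refine (h.congr s6as_bb_cast).mono (le_of_eq ?_)
  push_cast
  ring

theorem s6as_l1_up : S6U (fun n => (l1 n : ℝ)) ((2 / 3 : ℝ) + 15 / 100 * (aa : ℝ)) := by
  have h := s6as_l0_up.add ((S6U.const 2).mul s6as_bb_up)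
  refine (h.congr s6as_l1_cast).mono ?_
  have := parF_aa
  apply max_le <;> linarith

theorem s6as_l1_lo : S6L (fun n => (l1 n : ℝ)) ((2 / 3 : ℝ) + 15 / 100 * (aa : ℝ)) := by
  apply s6as_l0_lo.of_le
  refine Eventually.of_forall fun n => ?_
  rw [s6as_l1_cast]
  have : (0 : ℝ) ≤ (bb n : ℝ) := Nat.cast_nonneg _
  linarith

theorem s6as_Lcut_pow (d : ℕ) (hd : 3 ≤ d) (n : ℕ) (hn : 1 ≤ n) :
    ((d : ℝ) - 1) ^ Lcut d n ≤ (n : ℝ) ^ ((2 / 3 : ℝ) - 43 / 100 * (aa : ℝ)) := by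
  have h := (pow_radius_bounds d hd (2 / 3 + (15 / 100 - 58 / 100) * aa)
    (by unfold aa; norm_num) n hn).1
  have e : (((2 / 3 + (15 / 100 - 58 / 100) * aa : ℚ)) : ℝ) = (2 / 3 : ℝ) - 43 / 100 * (aa : ℝ) := by
    push_cast; ring
  rw [e] at h
  exact h

theorem s6as_sqL_le (d : ℕ) (hd : 3 ≤ d) (n : ℕ) (hn : 1 ≤ n) :
    Real.sqrt ((d : ℝ) - 1) ^ Lcut d n ≤ (n : ℝ) ^ ((1 / 3 : ℝ) - 215 / 1000 * (aa : ℝ)) := by
  have hd' : (3 : ℝ) ≤ (d : ℝ) := by exact_mod_cast hd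
  have hn0 : (0 : ℝ) < n := by exact_mod_cast hn
  refine le_of_pow_le_pow_left₀ (n := 2) (by norm_num) (by positivity) ?_
  have e1 : (Real.sqrt ((d : ℝ) - 1) ^ Lcut d n) ^ 2 = ((d : ℝ) - 1) ^ Lcut d n := by
    rw [← pow_mul, mul_comm, pow_mul, Real.sq_sqrt (by linarith)]
  have e2 : ((n : ℝ) ^ ((1 / 3 : ℝ) - 215 / 1000 * (aa : ℝ))) ^ 2
      = (n : ℝ) ^ ((2 / 3 : ℝ) - 43 / 100 * (aa : ℝ)) := by
    rw [← Real.rpow_natCast, ← Real.rpow_mul hn0.le]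
    congr 1
    push_cast
    ring
  rw [e1, e2]
  exact s6as_Lcut_pow d hd n hn

theorem s6as_Lcut_le (d : ℕ) (hd : 3 ≤ d) (n : ℕ) (hn : 1 ≤ n) :
    (Lcut d n : ℝ) ≤ 1 + Real.log n := by
  have hd' : (3 : ℝ) ≤ (d : ℝ) := by exact_mod_cast hd
  have hn0 : (0 : ℝ) < n := by exact_mod_cast hn
  have hn1 : (1 : ℝ) ≤ n := by exact_mod_cast hn
  have h := Real.log_le_log (pow_pos (by linarith) _) (s6as_Lcut_pow d hd n hn)
  rw [Real.log_pow, Real.log_rpow hn0] at h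
  have h2 : Real.log 2 ≤ Real.log ((d : ℝ) - 1) := Real.log_le_log (by norm_num) (by linarith)
  have h3 := Real.log_two_gt_d9
  have h4 : 0 ≤ Real.log n := Real.log_nonneg hn1
  have h5 : (0 : ℝ) ≤ (Lcut d n : ℝ) := Nat.cast_nonneg _
  have h6 := parF_aa
  have h7 : (Lcut d n : ℝ) * (0.69 : ℝ) ≤ (Lcut d n : ℝ) * Real.log ((d : ℝ) - 1) :=
    mul_le_mul_of_nonneg_left (by linarith) h5
  have h8 : ((2 / 3 : ℝ) - 43 / 100 * (aa : ℝ)) * Real.log n ≤ (0.69 : ℝ) * Real.log n :=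
    mul_le_mul_of_nonneg_right (by rw [h6]; norm_num) h4
  nlinarith

theorem s6as_Lcut_up (d : ℕ) (hd : 3 ≤ d) (ε : ℝ) (hε : 0 < ε) :
    S6U (fun n => (Lcut d n : ℝ)) ε := by
  apply (s6as_log ε hε).of_le (Eventually.of_forall fun n => Nat.cast_nonneg _)
  filter_upwards [eventually_ge_atTop 1] with n hn
  exact s6as_Lcut_le d hd n hn

theorem s6as_sqL_up (d : ℕ) (hd : 3 ≤ d) :
    S6U (fun n => Real.sqrt ((d : ℝ) - 1) ^ Lcut d n) ((1 / 3 : ℝ) - 215 / 1000 * (aa : ℝ)) := by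
  apply (S6U.rpow _).of_le (Eventually.of_forall fun n => by positivity)
  filter_upwards [eventually_ge_atTop 1] with n hn
  exact s6as_sqL_le d hd n hn

theorem s6as_al_up (d : ℕ) (hd : 3 ≤ d) :
    S6U (fun n => alphaS d n) (-(1 / 3 : ℝ) + (aa : ℝ) / 2) := by
  have hd' : (3 : ℝ) ≤ (d : ℝ) := by exact_mod_cast hd
  apply (S6U.rpow _).of_le
  · filter_upwards [prim_zero_facts d hd] with n h
    refine le_trans (div_nonneg (Real.rpow_nonneg (Nat.cast_nonneg n) _) (by linarith)) h.2.2.1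
  · filter_upwards [prim_zero_facts d hd] with n h
    exact h.2.2.2

theorem s6as_al_lo (d : ℕ) (hd : 3 ≤ d) :
    S6L (fun n => alphaS d n) (-(1 / 3 : ℝ) + (aa : ℝ) / 2) := by
  have hd' : (3 : ℝ) ≤ (d : ℝ) := by exact_mod_cast hd
  refine ⟨1 / (16 * ((d : ℝ) - 1)), by apply div_pos one_pos; linarith, ?_⟩
  filter_upwards [prim_zero_facts d hd] with n h
  rw [div_mul_eq_mul_div, one_mul]
  exact h.2.2.1

/-- two-sided bounds of the basic scales, in one place -/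
theorem s6_scales (d : ℕ) (hd : 3 ≤ d) : ∀ᶠ n : ℕ in atTop,
    (n : ℝ) ^ ((2 / 3 : ℝ) + 15 / 100 * (aa : ℝ)) / 2 ≤ (l0 n : ℝ) ∧
    (l0 n : ℝ) ≤ 2 * (n : ℝ) ^ ((2 / 3 : ℝ) + 15 / 100 * (aa : ℝ)) ∧
    (l1 n : ℝ) ≤ 2 * (l0 n : ℝ) ∧
    (n : ℝ) ^ ((1 / 3 : ℝ) + 345 / 1000 * (aa : ℝ)) / 4 ≤ (bb n : ℝ) ∧
    (bb n : ℝ) ≤ (n : ℝ) ^ ((1 / 3 : ℝ) + 345 / 1000 * (aa : ℝ)) ∧
    Real.sqrt ((d : ℝ) - 1) ^ Lcut d n ≤ (n : ℝ) ^ ((1 / 3 : ℝ) - 215 / 1000 * (aa : ℝ)) ∧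
    (Lcut d n : ℝ) ≤ 1 + Real.log n ∧
    (n : ℝ) ^ (-(1 / 3 : ℝ) + (aa : ℝ) / 2) / (16 * ((d : ℝ) - 1)) ≤ alphaS d n ∧
    alphaS d n ≤ (n : ℝ) ^ (-(1 / 3 : ℝ) + (aa : ℝ) / 2) := by
  have haa := parF_aa
  have hbl : ∀ᶠ n : ℕ in atTop, 2 * (bb n : ℝ) ≤ (l0 n : ℝ) :=
    s6as_final ((S6U.const 2).mul s6as_bb_up) s6as_l0_lo (by linarith)
  filter_upwards [eventually_ge_atTop 1, prim_zero_facts d hd, hbl] with n hn hz hb
  have hn0 : (0 : ℝ) < n := by exact_mod_cast hn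
  have e1 : (((2 / 3 + 15 / 100 * aa : ℚ)) : ℝ) = (2 / 3 : ℝ) + 15 / 100 * (aa : ℝ) := by
    push_cast; ring
  have e2 : (((1 / 3 + 345 / 1000 * aa : ℚ)) : ℝ) = (1 / 3 : ℝ) + 345 / 1000 * (aa : ℝ) := by
    push_cast; ring
  have a1 := le_scQ_of_nonneg (2 / 3 + 15 / 100 * aa) (by unfold aa; norm_num) n hn
  have a2 := scQ_le_of_nonneg (2 / 3 + 15 / 100 * aa) (by unfold aa; norm_num) n hn
  have b1 := le_scQ_of_nonneg (1 / 3 + 345 / 1000 * aa) (by unfold aa; norm_num) n hn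
  have b2 := scQ_le_of_nonneg (1 / 3 + 345 / 1000 * aa) (by unfold aa; norm_num) n hn
  rw [e1] at a1 a2
  rw [e2] at b1 b2
  have p1 : (0 : ℝ) < (n : ℝ) ^ ((2 / 3 : ℝ) + 15 / 100 * (aa : ℝ)) := Real.rpow_pos_of_pos hn0 _
  have p2 : (0 : ℝ) < (n : ℝ) ^ ((1 / 3 : ℝ) + 345 / 1000 * (aa : ℝ)) := Real.rpow_pos_of_pos hn0 _
  have t1 : (2 : ℝ) ^ ((2 / 3 : ℝ) + 15 / 100 * (aa : ℝ) + 1) ≤ 4 := by
    have : (2 : ℝ) ^ ((2 / 3 : ℝ) + 15 / 100 * (aa : ℝ) + 1) ≤ (2 : ℝ) ^ (2 : ℝ) :=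
      Real.rpow_le_rpow_of_exponent_le (by norm_num) (by rw [haa]; norm_num)
    refine this.trans (le_of_eq ?_)
    rw [Real.rpow_two]; norm_num
  have t2 : (2 : ℝ) ^ ((1 / 3 : ℝ) + 345 / 1000 * (aa : ℝ) + 1) ≤ 4 := by
    have : (2 : ℝ) ^ ((1 / 3 : ℝ) + 345 / 1000 * (aa : ℝ) + 1) ≤ (2 : ℝ) ^ (2 : ℝ) :=
      Real.rpow_le_rpow_of_exponent_le (by norm_num) (by rw [haa]; norm_num)
    refine this.trans (le_of_eq ?_)
    rw [Real.rpow_two]; norm_num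
  have a1' : (n : ℝ) ^ ((2 / 3 : ℝ) + 15 / 100 * (aa : ℝ)) / 4
      ≤ ((scQ (2 / 3 + 15 / 100 * aa) n : ℚ) : ℝ) :=
    le_trans (div_le_div_of_nonneg_left p1.le (by positivity) t1) a1
  have b1' : (n : ℝ) ^ ((1 / 3 : ℝ) + 345 / 1000 * (aa : ℝ)) / 4
      ≤ ((scQ (1 / 3 + 345 / 1000 * aa) n : ℚ) : ℝ) :=
    le_trans (div_le_div_of_nonneg_left p2.le (by positivity) t2) b1
  refine ⟨?_, ?_, ?_, ?_, ?_, s6as_sqL_le d hd n hn, s6as_Lcut_le d hd n hn, hz.2.2.1, hz.2.2.2⟩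
  · rw [s6as_l0_cast]; linarith
  · rw [s6as_l0_cast]; linarith
  · rw [s6as_l1_cast]; linarith
  · rw [s6as_bb_cast]; exact b1'
  · rw [s6as_bb_cast]; exact b2

end Claimed.Agent.R275
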