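import Claimed.Agent.R275.S6Good
import Claimed.Agent.R275.S6AsymA

/-!
# Row 275, Sec 6, packages S6-ASYM-*: the numerical conditions hold for all large `n` (pure exponent arithmetic)

Owner of the statements: helper208.  Proofs: helper167 (calculus `S6U`, `S6L`, `s6_pow_absorb`, `s6_scales` in `S6AsymA.lean`).
Every field of `S6NumOK` is a comparison of finitely many monomials `C n^x (log n)^k`; the exponents (in units of `a`, `n`-power only):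
  `l₀, l₁ ≍ n^{2/3+.15a}`, `b ≍ n^{1/3+.345a}`, `√q^L ≤ n^{1/3-.215a}`, `α_* ≍ n^{-1/3+.5a}`, `B_k ≍ n^{-1/3+.275a+4kρ}`, `Bt = n^{-1/3+.225a}` (up to constants),
  `Ub ≤ 2 n^{-1/3-.355a}`, `R2 ≤ n^{η}` (since `L ≤ log₂ n`, `η0 < η`, `b (Ub² + Bm²) → 0`), `Qa ≤ n^{η+1/3-.215a}`, `YEb ≤ 2 n^{η+1/3-.215a}`.
MARGINS:  J: `4ρ - ζ`, `βR - 16ρ - ζ`, `.05a - ζ`;  E1: `.08a - η/2 - ζ` (terms `b √(R2)/l₀`, `b/l₀`), all others `≥ .3a`;  E2: `.70a - η - ηT - 2ζ`;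
  T1: `.02a - η + xT/2` (term `b Qa/l₀`), `xT - η` (term `l₁ R2/(l₀ S_T)`);  L1b, L0b: `≥ 1/6`;  X1, X0: `.005a - ηs/2`;  XT: `ηT - xT - ηs`;  XB: `.02a - 16ρ`;
  XE: `pζ ≥ 3 > 2 + ηs + o(1)`;  I1, I0: `.01a`;  IT: `xT - η0`;  IE: `.02a`;  XTt: `.18a - θ/2` (at `α = α_*`), `.53a - θ/2` (against `n`).
-/

set_option autoImplicit false

namespace Claimed.Agent.R275

open Filter

/-- the conditions on the exponents, as inequalities between real numbers -/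
structure S6GR (P : S6Par) (c : S6Cst) : Prop where
  a : (aa : ℝ) = 1 / 10000
  ρ_pos : 0 < (P.ρ : ℝ)
  ρ_lt : 16 * (P.ρ : ℝ) < 2 / 100 * (aa : ℝ)
  ζ_pos : 0 < (P.ζ : ℝ)
  ζ_lt : (P.ζ : ℝ) < 4 * (P.ρ : ℝ)
  β_gt : 16 * (P.ρ : ℝ) + (P.ζ : ℝ) < c.βR
  β_lt : c.βR < 2 / 100 * (aa : ℝ)
  η0_nonneg : 0 ≤ c.η0
  η0_lt : c.η0 < c.η
  η_lt : c.η < (P.xT : ℝ)
  xT_lt : (P.xT : ℝ) + c.ηs < c.ηT
  ηT_le : c.ηT ≤ (aa : ℝ) / 100
  ηs_pos : 0 < c.ηs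
  θ_pos : 0 < c.θ
  θ_lt : c.θ < 3 / 10 * (aa : ℝ)
  hpζ : 3 ≤ (P.p : ℝ) * (P.ζ : ℝ)

theorem S6Good.toR {P : S6Par} {c : S6Cst} (G : S6Good P c) : S6GR P c where
  a := parF_aa
  ρ_pos := by exact_mod_cast G.ρ_pos
  ρ_lt := by have := (Rat.cast_lt (K := ℝ)).2 G.ρ_lt; push_cast at this; exact this
  ζ_pos := by exact_mod_cast G.ζ_pos
  ζ_lt := by have := (Rat.cast_lt (K := ℝ)).2 G.ζ_lt; push_cast at this; exact this
  β_gt := by have := G.β_gt; push_cast at this; exact this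
  β_lt := G.β_lt
  η0_nonneg := G.η0_nonneg
  η0_lt := G.η0_lt
  η_lt := G.η_lt
  xT_lt := G.xT_lt
  ηT_le := G.ηT_le
  ηs_pos := G.ηs_pos
  θ_pos := G.θ_pos
  θ_lt := G.θ_lt
  hpζ := by have := (Rat.cast_le (K := ℝ)).2 G.hpζ; push_cast at this; exact this

theorem S6U.zero (α : ℝ) : S6U (fun _ => (0 : ℝ)) α :=
  ⟨0, Eventually.of_forall fun n => by simp⟩

section base

variable (d : ℕ) (P : S6Par) (c : S6Cst)

theorem s6as_B_up (k : ℕ) : S6U (fun n => s6Brl n P k)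
    (-(1 / 3 : ℝ) + 275 / 1000 * (aa : ℝ) + 4 * (k : ℝ) * (P.ρ : ℝ)) := by
  have h := s6as_scQ_up (35 / 100 * aa + 4 * k * P.ρ - (1 / 3 + 75 / 1000 * aa))
  refine S6U.mono (X := fun n => s6Brl n P k) h (le_of_eq ?_)
  push_cast
  ring

theorem s6as_B_lo (k : ℕ) : S6L (fun n => s6Brl n P k)
    (-(1 / 3 : ℝ) + 275 / 1000 * (aa : ℝ) + 4 * (k : ℝ) * (P.ρ : ℝ)) := by
  have h := s6as_scQ_lo (35 / 100 * aa + 4 * k * P.ρ - (1 / 3 + 75 / 1000 * aa))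
  refine S6L.mono (X := fun n => s6Brl n P k) h (le_of_eq ?_)
  push_cast
  ring

theorem s6as_lam_up : S6U (fun n => s6lamr n P) (-(P.ζ : ℝ)) := by
  have h := s6as_scQ_up (-P.ζ)
  refine S6U.mono (X := fun n => s6lamr n P) h (le_of_eq ?_)
  push_cast
  ring

theorem s6as_lam_lo : S6L (fun n => s6lamr n P) (-(P.ζ : ℝ)) := by
  have h := s6as_scQ_lo (-P.ζ)
  refine S6L.mono (X := fun n => s6lamr n P) h (le_of_eq ?_)
  push_cast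
  ring

theorem s6as_S1_cast (n : ℕ) :
    ((s6S1 d n : ℚ) : ℝ) = ((scQ (85 / 1000 * aa) n : ℚ) : ℝ) / alphaS d n := by
  unfold s6S1 alphaS
  push_cast
  rfl

theorem s6as_S0_cast (n : ℕ) :
    ((s6S0 d n : ℚ) : ℝ) = ((scQ (115 / 1000 * aa) n : ℚ) : ℝ) / alphaS d n ^ 2 := by
  unfold s6S0 alphaS
  push_cast
  rfl

theorem s6as_S1_up (hd : 3 ≤ d) : S6U (fun n => ((s6S1 d n : ℚ) : ℝ))
    ((1 / 3 : ℝ) - 415 / 1000 * (aa : ℝ)) := by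
  have h := (s6as_scQ_up (85 / 1000 * aa)).div (s6as_al_lo d hd)
  refine (h.congr (s6as_S1_cast d)).mono (le_of_eq ?_)
  push_cast
  ring

theorem s6as_S1_lo (hd : 3 ≤ d) : S6L (fun n => ((s6S1 d n : ℚ) : ℝ))
    ((1 / 3 : ℝ) - 415 / 1000 * (aa : ℝ)) := by
  have h := (s6as_scQ_lo (85 / 1000 * aa)).div (s6as_al_up d hd) (s6as_al_lo d hd)
  refine (h.congr (s6as_S1_cast d)).mono (le_of_eq ?_)
  push_cast
  ring

theorem s6as_S0_up (hd : 3 ≤ d) : S6U (fun n => ((s6S0 d n : ℚ) : ℝ))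
    ((2 / 3 : ℝ) - 885 / 1000 * (aa : ℝ)) := by
  have h := (s6as_scQ_up (115 / 1000 * aa)).div (s6as_al_lo d hd).sq
  refine (h.congr (s6as_S0_cast d)).mono (le_of_eq ?_)
  push_cast
  ring

theorem s6as_S0_lo (hd : 3 ≤ d) : S6L (fun n => ((s6S0 d n : ℚ) : ℝ))
    ((2 / 3 : ℝ) - 885 / 1000 * (aa : ℝ)) := by
  have h := (s6as_scQ_lo (115 / 1000 * aa)).div (s6as_al_up d hd).sq (s6as_al_lo d hd).sq
  refine (h.congr (s6as_S0_cast d)).mono (le_of_eq ?_)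
  push_cast
  ring

theorem s6as_ST_up : S6U (fun n => ((s6ST P n : ℚ) : ℝ)) (P.xT : ℝ) := s6as_scQ_up P.xT

theorem s6as_ST_lo : S6L (fun n => ((s6ST P n : ℚ) : ℝ)) (P.xT : ℝ) := s6as_scQ_lo P.xT

theorem s6as_Bm_up : S6U (fun n => s6Bm n P)
    (-(1 / 3 : ℝ) + 275 / 1000 * (aa : ℝ) + 16 * (P.ρ : ℝ)) := by
  have h := (S6U.const 2).mul (s6as_B_up P 4)
  refine S6U.mono (X := fun n => s6Bm n P) h (le_of_eq ?_)
  push_cast
  ring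

theorem s6as_sqrt_l0_lo : S6L (fun n => Real.sqrt (l0 n)) ((1 / 3 : ℝ) + 75 / 1000 * (aa : ℝ)) :=
  s6as_l0_lo.sqrt.mono (le_of_eq (by ring))

theorem s6as_sqrt_l0_up : S6U (fun n => Real.sqrt (l0 n)) ((1 / 3 : ℝ) + 75 / 1000 * (aa : ℝ)) :=
  s6as_l0_up.sqrt.mono (le_of_eq (by ring))

theorem s6as_sqrt_l1_up : S6U (fun n => Real.sqrt (l1 n)) ((1 / 3 : ℝ) + 75 / 1000 * (aa : ℝ)) :=
  s6as_l1_up.sqrt.mono (le_of_eq (by ring))

theorem s6as_Bt_up : S6U (fun n => s6Bt n) (-(1 / 3 : ℝ) + 225 / 1000 * (aa : ℝ)) := by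
  have h := (S6U.rpow ((30 / 100 : ℝ) * (aa : ℝ))).div s6as_sqrt_l0_lo
  exact S6U.mono (X := fun n => s6Bt n) h (le_of_eq (by ring))

theorem s6as_Qa_up (hd : 3 ≤ d) : S6U (fun n => s6Qa d n c)
    (c.η + ((1 / 3 : ℝ) - 215 / 1000 * (aa : ℝ))) :=
  (S6U.rpow c.η).mul (s6as_sqL_up d hd)

theorem s6as_Ub_up : S6U (fun n => s6Ub d n) (-(1 / 3 : ℝ) - 355 / 1000 * (aa : ℝ)) := by
  have h := ((S6U.rpow (-(28 / 100 : ℝ) * (aa : ℝ))).div s6as_sqrt_l0_lo).add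
    ((S6U.const (Cmaj d)).div s6as_l0_lo)
  refine S6U.mono (X := fun n => s6Ub d n) h ?_
  have := parF_aa
  apply max_le <;> linarith

theorem s6as_om_cast (n : ℕ) : (s6om n : ℝ) = (bb n : ℝ) + 2 := by
  unfold s6om
  push_cast
  ring

theorem s6as_om_up : S6U (fun n => (s6om n : ℝ)) ((1 / 3 : ℝ) + 345 / 1000 * (aa : ℝ)) := by
  have h := s6as_bb_up.add (S6U.const 2)
  refine (h.congr s6as_om_cast).mono ?_
  have := parF_aa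
  apply max_le <;> linarith

theorem s6as_del_up : S6U (fun n => s6del n c) (-c.βR) := S6U.rpow _

theorem s6as_K0_up : S6U (fun n => s6K0 n c) c.ηs := S6U.rpow _

theorem s6as_K0_lo : S6L (fun n => s6K0 n c) c.ηs := S6L.rpow _

end base


section sums

variable (d : ℕ) (P : S6Par) (c : S6Cst)

theorem s6as_Bm_up' (G : S6GR P c) :
    S6U (fun n => s6Bm n P) (-(1 / 3 : ℝ) + 295 / 1000 * (aa : ℝ)) :=
  (s6as_Bm_up P).mono (by have := G.ρ_lt; linarith)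

theorem s6as_R2_up (hd : 3 ≤ d) (G : S6GR P c) (e : ℝ) (he : c.η0 < e) :
    S6U (fun n => s6R2 d n P c) e := by
  have hBm := s6as_Bm_up' P c G
  obtain ⟨ha, hρ0, hρ, hζ0, hζ, hβ1, hβ2, hη00, hη0, hη, hxT, hηT, hηs, hθ0, hθ, hpζ⟩ := G
  have hUB : S6U (fun n => s6Ub d n ^ 2 + s6Bm n P ^ 2) (-(2 / 3 : ℝ) + 59 / 100 * (aa : ℝ)) :=
    ((s6as_Ub_up d).sq.add hBm.sq).mono (by apply max_le <;> linarith)
  have h := (((S6U.const (6 * (d : ℝ) * c.CM)).mul (s6as_Lcut_up d hd (e / 2) (by linarith)).sq).add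
    ((S6U.const (2 * (d : ℝ))).mul (S6U.rpow c.η0))).add (((S6U.const 3).mul s6as_bb_up).mul hUB)
  exact S6U.mono (X := fun n => s6R2 d n P c) h (by (repeat' apply max_le) <;> linarith)

theorem s6as_YEb_up (hd : 3 ≤ d) (G : S6GR P c) :
    S6U (fun n => s6YEb d n c) (c.η + ((1 / 3 : ℝ) - 215 / 1000 * (aa : ℝ))) := by
  obtain ⟨ha, hρ0, hρ, hζ0, hζ, hβ1, hβ2, hη00, hη0, hη, hxT, hηT, hηs, hθ0, hθ, hpζ⟩ := G
  have h := ((S6U.rpow ((9 / 100 : ℝ) * (aa : ℝ))).div (s6as_al_lo d hd)).add (s6as_Qa_up d c hd)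
  exact S6U.mono (X := fun n => s6YEb d n c) h (by (repeat' apply max_le) <;> linarith)

/-- `√(b R2)` -/
theorem s6as_sbR_up (hd : 3 ≤ d) (G : S6GR P c) :
    S6U (fun n => Real.sqrt (bb n * s6R2 d n P c))
      ((1 / 6 : ℝ) + 1725 / 10000 * (aa : ℝ) + c.η / 2) :=
  (s6as_bb_up.mul (s6as_R2_up d P c hd G c.η G.η0_lt)).sqrt.mono (le_of_eq (by ring))

theorem s6as_MeanSum_up (hd : 3 ≤ d) (G : S6GR P c) :
    S6U (fun n => s6MeanSum d n P c) ((1 / 3 : ℝ) + 345 / 1000 * (aa : ℝ) + c.η / 2) := by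
  have hBm := s6as_Bm_up' P c G
  have hR := s6as_R2_up d P c hd G c.η G.η0_lt
  have hs := s6as_sbR_up d P c hd G
  have hY := s6as_YEb_up d P c hd G
  obtain ⟨ha, hρ0, hρ, hζ0, hζ, hβ1, hβ2, hη00, hη0, hη, hxT, hηT, hηs, hθ0, hθ, hpζ⟩ := G
  have i1 : S6U (fun n => (s6om n : ℝ) * s6Bm n P + Real.sqrt (s6om n) + 1)
      ((1 / 6 : ℝ) + 1725 / 10000 * (aa : ℝ)) :=
    (((s6as_om_up.mul hBm).add s6as_om_up.sqrt).add (S6U.const 1)).mono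
      (by (repeat' apply max_le) <;> linarith)
  have i2 : S6U (fun n => 2 * s6R2 d n P c + 2 * s6Bm n P * Real.sqrt (bb n * s6R2 d n P c)) c.η :=
    (((S6U.const 2).mul hR).add (((S6U.const 2).mul hBm).mul hs)).mono
      (by (repeat' apply max_le) <;> linarith)
  have i3 : S6U (fun n => s6YEb d n c + (s6om n : ℝ) * s6Bm n P + s6Qa d n c
      + (l1 n : ℝ) * s6Bm n P ^ 2) (c.η + ((1 / 3 : ℝ) - 215 / 1000 * (aa : ℝ))) :=
    (((hY.add (s6as_om_up.mul hBm)).add (s6as_Qa_up d c hd)).add (s6as_l1_up.mul hBm.sq)).mono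
      (by (repeat' apply max_le) <;> linarith)
  have i4 : S6U (fun n => 1 + s6Bt n) 0 :=
    ((S6U.const 1).add s6as_Bt_up).mono (by (repeat' apply max_le) <;> linarith)
  have h := (((((S6U.const 2).mul hs).mul i1).add (i2.mul s6as_sqrt_l1_up)).add (hR.mul i3)).add
    (s6as_bb_up.mul i4)
  exact S6U.mono (X := fun n => s6MeanSum d n P c) h (by (repeat' apply max_le) <;> linarith)

theorem s6as_VarSum_up (hd : 3 ≤ d) (G : S6GR P c) (C : ℝ) :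
    S6U (fun n => s6VarSum d n P c C) (c.η + c.ηT) := by
  have hBm := s6as_Bm_up' P c G
  have hR := s6as_R2_up d P c hd G c.η G.η0_lt
  obtain ⟨ha, hρ0, hρ, hζ0, hζ, hβ1, hβ2, hη00, hη0, hη, hxT, hηT, hηs, hθ0, hθ, hpζ⟩ := G
  have i1 : S6U (fun n => (n : ℝ) ^ c.ηT + (n : ℝ) ^ c.η + (l1 n : ℝ) * s6Bm n P ^ 4) c.ηT :=
    (((S6U.rpow c.ηT).add (S6U.rpow c.η)).add (s6as_l1_up.mul hBm.pow4)).mono
      (by (repeat' apply max_le) <;> linarith)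
  have i2 : S6U (fun n => s6Bm n P ^ 2 + 1 / (l0 n : ℝ) ^ 2 + s6Bt n ^ 2 / (l0 n : ℝ))
      (-(2 / 3 : ℝ) + 59 / 100 * (aa : ℝ)) :=
    ((hBm.sq.add ((S6U.const 1).div s6as_l0_lo.sq)).add (s6as_Bt_up.sq.div s6as_l0_lo)).mono
      (by (repeat' apply max_le) <;> linarith)
  have i3 : S6U (fun n => s6Bm n P ^ 2 + s6Ub d n ^ 2) (-(2 / 3 : ℝ) + 59 / 100 * (aa : ℝ)) :=
    (hBm.sq.add (s6as_Ub_up d).sq).mono (by (repeat' apply max_le) <;> linarith)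
  have i4 : S6U (fun n => (2 * (d : ℝ) * c.CM * (Lcut d n : ℝ) ^ 2) ^ 2
      + (bb n : ℝ) * (s6Bm n P ^ 2 + s6Ub d n ^ 2)) c.ηT :=
    ((((S6U.const (2 * (d : ℝ) * c.CM)).mul
      (s6as_Lcut_up d hd (c.ηT / 4) (by linarith)).sq).sq).add (s6as_bb_up.mul i3)).mono
      (by (repeat' apply max_le) <;> linarith)
  have h := ((((S6U.const 3).mul hR).add (((S6U.const 4).mul hR).mul i1)).add
    (s6as_bb_up.mul i2)).add ((S6U.const C).mul i4)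
  exact S6U.mono (X := fun n => s6VarSum d n P c C) h (by (repeat' apply max_le) <;> linarith)

theorem s6as_DiagMSum_up (hd : 3 ≤ d) (G : S6GR P c) :
    S6U (fun n => s6DiagMSum d n P c) ((2 / 3 : ℝ) + 13 / 100 * (aa : ℝ) + c.η) := by
  have hBm := s6as_Bm_up' P c G
  have hs := s6as_sbR_up d P c hd G
  have hY := s6as_YEb_up d P c hd G
  obtain ⟨ha, hρ0, hρ, hζ0, hζ, hβ1, hβ2, hη00, hη0, hη, hxT, hηT, hηs, hθ0, hθ, hpζ⟩ := G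
  have i0 : S6U (fun n => (s6om n : ℝ) + 1) ((1 / 3 : ℝ) + 345 / 1000 * (aa : ℝ)) :=
    (s6as_om_up.add (S6U.const 1)).mono (by (repeat' apply max_le) <;> linarith)
  have i1 : S6U (fun n => ((s6om n : ℝ) + 1) * s6Bm n P + Real.sqrt ((s6om n : ℝ) + 1)
      + s6YEb d n c + s6Qa d n c + (l1 n : ℝ) * s6Bm n P ^ 2)
      (c.η + ((1 / 3 : ℝ) - 215 / 1000 * (aa : ℝ))) :=
    (((((i0.mul hBm).add i0.sqrt).add hY).add (s6as_Qa_up d c hd)).add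
      (s6as_l1_up.mul hBm.sq)).mono (by (repeat' apply max_le) <;> linarith)
  have i2 : S6U (fun n => s6Bm n P + s6Bt n) (-(1 / 3 : ℝ) + 295 / 1000 * (aa : ℝ)) :=
    (hBm.add s6as_Bt_up).mono (by (repeat' apply max_le) <;> linarith)
  have i3 : S6U (fun n => Real.sqrt (bb n * s6R2 d n P c) + (bb n : ℝ) * (s6Bm n P + s6Bt n))
      ((1 / 6 : ℝ) + 1725 / 10000 * (aa : ℝ) + c.η / 2) :=
    (hs.add (s6as_bb_up.mul i2)).mono (by (repeat' apply max_le) <;> linarith)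
  have h := (s6as_bb_up.mul i1).add (i3.mul s6as_sqrt_l1_up)
  exact S6U.mono (X := fun n => s6DiagMSum d n P c) h (by (repeat' apply max_le) <;> linarith)

theorem s6as_DiagVSum_up (hd : 3 ≤ d) (G : S6GR P c) :
    S6U (fun n => s6DiagVSum d n P c) ((2 / 3 : ℝ) + 15 / 100 * (aa : ℝ) + c.η) := by
  have hBm := s6as_Bm_up' P c G
  have hR := s6as_R2_up d P c hd G c.η G.η0_lt
  obtain ⟨ha, hρ0, hρ, hζ0, hζ, hβ1, hβ2, hη00, hη0, hη, hxT, hηT, hηs, hθ0, hθ, hpζ⟩ := G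
  have i1 : S6U (fun n => (n : ℝ) ^ c.η + (n : ℝ) ^ c.ηT + s6Bt n ^ 2) c.ηT :=
    (((S6U.rpow c.η).add (S6U.rpow c.ηT)).add s6as_Bt_up.sq).mono
      (by (repeat' apply max_le) <;> linarith)
  have i2 : S6U (fun n => s6R2 d n P c + (bb n : ℝ) * s6Bm n P ^ 2) c.η :=
    (hR.add (s6as_bb_up.mul hBm.sq)).mono (by (repeat' apply max_le) <;> linarith)
  have h := (s6as_bb_up.mul i1).add (s6as_l1_up.mul i2)
  exact S6U.mono (X := fun n => s6DiagVSum d n P c) h (by (repeat' apply max_le) <;> linarith)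

theorem s6as_TrSum_up (hd : 3 ≤ d) (G : S6GR P c) :
    S6U (fun n => s6TrSum d n P c) ((5 / 6 : ℝ) + 3225 / 10000 * (aa : ℝ) + c.η / 2) := by
  have hBm := s6as_Bm_up' P c G
  have hs := s6as_sbR_up d P c hd G
  obtain ⟨ha, hρ0, hρ, hζ0, hζ, hβ1, hβ2, hη00, hη0, hη, hxT, hηT, hηs, hθ0, hθ, hpζ⟩ := G
  have i1 : S6U (fun n => (s6om n : ℝ) + s6Qa d n c) ((1 / 3 : ℝ) + 345 / 1000 * (aa : ℝ)) :=
    (s6as_om_up.add (s6as_Qa_up d c hd)).mono (by (repeat' apply max_le) <;> linarith)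
  have i2 : S6U (fun n => Real.sqrt (bb n * s6R2 d n P c) + (bb n : ℝ) * s6Bm n P)
      ((1 / 6 : ℝ) + 1725 / 10000 * (aa : ℝ) + c.η / 2) :=
    (hs.add (s6as_bb_up.mul hBm)).mono (by (repeat' apply max_le) <;> linarith)
  have h := (s6as_bb_up.mul i1).add (s6as_l1_up.mul i2)
  exact S6U.mono (X := fun n => s6TrSum d n P c) h (by (repeat' apply max_le) <;> linarith)

end sums


section fields

variable (d : ℕ) (P : S6Par) (c : S6Cst)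

theorem s6as_B0_lo : S6L (fun n => s6Brl n P 0) (-(1 / 3 : ℝ) + 275 / 1000 * (aa : ℝ)) :=
  (s6as_B_lo P 0).mono (le_of_eq (by push_cast; ring))

theorem s6as_f_b_le : ∀ᶠ n : ℕ in atTop, 2 * (bb n + 3) ≤ l0 n := by
  have h := s6as_final ((S6U.const 2).mul (s6as_bb_up.add (S6U.const 3))) s6as_l0_lo
    (by have := parF_aa; rw [zero_add]; apply max_lt <;> linarith)
  filter_upwards [h] with n hn
  have : ((2 * (bb n + 3) : ℕ) : ℝ) ≤ (l0 n : ℝ) := by push_cast; exact hn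
  exact_mod_cast this

theorem s6as_f_l0_ge : ∀ᶠ n : ℕ in atTop, 64 ≤ l0 n := by
  have h := s6as_final (S6U.const 64) s6as_l0_lo (by have := parF_aa; linarith)
  filter_upwards [h] with n hn
  exact_mod_cast hn

theorem s6as_scZ_mono {x y : ℚ} (h : x ≤ y) (n : ℕ) : scZ x n ≤ scZ y n :=
  Int.floor_le_floor (mul_le_mul_of_nonneg_right h (Nat.cast_nonneg _))

theorem s6as_scQ_mono {x y : ℚ} (h : x ≤ y) (n : ℕ) : scQ x n ≤ scQ y n :=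
  zpow_le_zpow_right₀ (by norm_num) (s6as_scZ_mono h n)

theorem s6as_scN_mono {x y : ℚ} (h : x ≤ y) (n : ℕ) : scN x n ≤ scN y n :=
  Nat.pow_le_pow_right (by norm_num) (Int.toNat_le_toNat (s6as_scZ_mono h n))

theorem s6as_f_g0_le (n : ℕ) : g0 d n ≤ R0 d n :=
  Nat.log_mono_right (s6as_scN_mono (by unfold aa; norm_num) n)

theorem s6as_len (n : ℕ) :
    (trackedList d n P.cp).length = 2 * (Nprim d n P.cp + 1) + kh := by
  unfold trackedList primList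
  rw [List.length_append, List.length_append, List.length_map, List.length_map, List.length_map,
    List.length_range, List.length_range]
  ring

theorem s6as_f_tracked_ne (n : ℕ) : trackedList d n P.cp ≠ [] := by
  intro h
  have h1 := s6as_len d P n
  rw [h, List.length_nil] at h1
  omega

theorem s6as_f_B_pos (n k : ℕ) : 0 < s6Brl n P k := by
  unfold s6Brl s6B
  exact_mod_cast scQ_pos _ n

theorem s6as_f_B_mono (hρ : 0 ≤ P.ρ) (n k k' : ℕ) (h : k ≤ k') : s6Brl n P k ≤ s6Brl n P k' := by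
  unfold s6Brl s6B
  have h1 : (k : ℚ) ≤ (k' : ℚ) := by exact_mod_cast h
  have h2 : (k : ℚ) * P.ρ ≤ (k' : ℚ) * P.ρ := mul_le_mul_of_nonneg_right h1 hρ
  have h3 : scQ (35 / 100 * aa + 4 * k * P.ρ - (1 / 3 + 75 / 1000 * aa)) n
      ≤ scQ (35 / 100 * aa + 4 * k' * P.ρ - (1 / 3 + 75 / 1000 * aa)) n :=
    s6as_scQ_mono (by linarith) n
  exact (Rat.cast_le (K := ℝ)).2 h3

theorem s6as_f_lam_pos (n : ℕ) : 0 < s6lamr n P := by
  unfold s6lamr s6lam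
  exact_mod_cast scQ_pos _ n

theorem s6as_f_ST_pos (n : ℕ) : 0 < ((s6ST P n : ℚ) : ℝ) := by
  unfold s6ST
  exact_mod_cast scQ_pos _ n

theorem s6as_f_I1 (hd : 3 ≤ d) : ∀ᶠ n : ℕ in atTop,
    (n : ℝ) ^ ((75 / 1000 : ℝ) * (aa : ℝ)) / alphaS d n ≤ ((s6S1 d n : ℚ) : ℝ) :=
  s6as_final ((S6U.rpow _).div (s6as_al_lo d hd)) (s6as_S1_lo d hd)
    (by have := parF_aa; linarith)

theorem s6as_f_I0 (hd : 3 ≤ d) : ∀ᶠ n : ℕ in atTop,
    (n : ℝ) ^ ((105 / 1000 : ℝ) * (aa : ℝ)) / alphaS d n ^ 2 ≤ ((s6S0 d n : ℚ) : ℝ) :=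
  s6as_final ((S6U.rpow _).div (s6as_al_lo d hd).sq) (s6as_S0_lo d hd)
    (by have := parF_aa; linarith)

theorem s6as_f_IT (G : S6GR P c) : ∀ᶠ n : ℕ in atTop, (n : ℝ) ^ c.η0 ≤ ((s6ST P n : ℚ) : ℝ) :=
  s6as_final (S6U.rpow _) (s6as_ST_lo P) (by have := G.η0_lt; have := G.η_lt; linarith)

theorem s6as_f_IT' (G : S6GR P c) : ∀ᶠ n : ℕ in atTop, (n : ℝ) ^ c.η0 ≤ (n : ℝ) ^ c.ηT :=
  s6as_final (S6U.rpow _) (S6L.rpow _)
    (by have := G.η0_lt; have := G.η_lt; have := G.xT_lt; have := G.ηs_pos; linarith)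

theorem s6as_f_IE : ∀ᶠ n : ℕ in atTop,
    (n : ℝ) ^ ((33 / 100 : ℝ) * (aa : ℝ)) / Real.sqrt (l0 n) ≤ s6Brl n P 0 :=
  s6as_final ((S6U.rpow _).div s6as_sqrt_l0_lo) (s6as_B0_lo P) (by have := parF_aa; linarith)

theorem s6as_len_up (hd : 3 ≤ d) (G : S6Good P c) (ε : ℝ) (hε : 0 < ε) :
    S6U (fun n => ((trackedList d n P.cp).length : ℝ)) ε := by
  have h := (((S6U.const 2).mul (s6as_log ε hε)).add (S6U.const (kh : ℝ))).mono
    (β := ε) (by apply max_le <;> linarith)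
  apply h.of_le (Eventually.of_forall fun n => Nat.cast_nonneg _)
  filter_upwards [Nprim_le d hd P.cp G.cp_pos G.cp_le] with n hn
  rw [s6as_len]
  push_cast
  linarith

theorem s6as_f_IK (hd : 3 ≤ d) (G : S6Good P c) : ∀ᶠ n : ℕ in atTop,
    12 * ((trackedList d n P.cp).length : ℝ) + 1 ≤ s6K0 n c / 2 :=
  s6as_final (((S6U.const 12).mul (s6as_len_up d P c hd G (c.ηs / 2)
      (by have := G.ηs_pos; linarith))).add (S6U.const 1))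
    ((s6as_K0_lo c).div (S6U.const 2) (S6L.const 2 (by norm_num)))
    (by have := G.ηs_pos; apply max_lt <;> linarith)

theorem s6as_J_if (k : ℕ) (hk : k ≤ 4) :
    S6U (fun n => if k = 0 then 0 else s6Bk n P (k - 1))
      (-(1 / 3 : ℝ) + 275 / 1000 * (aa : ℝ) + 4 * (k : ℝ) * (P.ρ : ℝ) - 4 * (P.ρ : ℝ)) := by
  by_cases h0 : k = 0
  · simp only [if_pos h0]
    exact S6U.zero _
  · simp only [if_neg h0]
    have h := (S6U.const 2).mul (s6as_B_up P (k - 1))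
    have e : min (k - 1) 4 = k - 1 := by omega
    have e2 : ((k - 1 : ℕ) : ℝ) = (k : ℝ) - 1 := by
      rw [Nat.cast_sub (by omega)]; norm_num
    refine (h.congr fun n => ?_).mono (le_of_eq ?_)
    · unfold s6Bk
      rw [e]
    · rw [e2]; ring

theorem s6as_f_Jk (G : S6GR P c) (C : ℝ) (k : ℕ) (hk : k ≤ 4) : ∀ᶠ n : ℕ in atTop,
    C * ((if k = 0 then 0 else s6Bk n P (k - 1)) + s6del n c * s6Bm n P + s6Bm n P ^ 2 + s6Bt n)
      ≤ s6lamr n P * s6Brl n P k := by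
  have hBm := s6as_Bm_up' P c G
  obtain ⟨ha, hρ0, hρ, hζ0, hζ, hβ1, hβ2, hη00, hη0, hη, hxT, hηT, hηs, hθ0, hθ, hpζ⟩ := G
  have hkρ : 0 ≤ (k : ℝ) * (P.ρ : ℝ) := by positivity
  refine s6as_final ((S6U.const C).mul ((((s6as_J_if P k hk).add
    ((s6as_del_up c).mul (s6as_Bm_up P))).add hBm.sq).add s6as_Bt_up))
    ((s6as_lam_lo P).mul (s6as_B_lo P k)) ?_
  rw [zero_add]
  (repeat' apply max_lt) <;> linarith

theorem s6as_f_J (G : S6GR P c) (C : ℝ) : ∀ᶠ n : ℕ in atTop, ∀ k ≤ 4,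
    C * ((if k = 0 then 0 else s6Bk n P (k - 1)) + s6del n c * s6Bm n P + s6Bm n P ^ 2 + s6Bt n)
      ≤ s6lamr n P * s6Brl n P k := by
  filter_upwards [s6as_f_Jk P c G C 0 (by norm_num), s6as_f_Jk P c G C 1 (by norm_num),
    s6as_f_Jk P c G C 2 (by norm_num), s6as_f_Jk P c G C 3 (by norm_num),
    s6as_f_Jk P c G C 4 (by norm_num)] with n h0 h1 h2 h3 h4 k hk
  interval_cases k
  · exact h0
  · exact h1
  · exact h2
  · exact h3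
  · exact h4

theorem s6as_f_E1 (hd : 3 ≤ d) (G : S6GR P c) (C : ℝ) : ∀ᶠ n : ℕ in atTop,
    (excessC P.p : ℝ) * (2 * C * s6MeanSum d n P c / (l0 n : ℝ)) ≤ s6lamr n P * s6Brl n P 0 / 4 := by
  have hM := s6as_MeanSum_up d P c hd G
  obtain ⟨ha, hρ0, hρ, hζ0, hζ, hβ1, hβ2, hη00, hη0, hη, hxT, hηT, hηs, hθ0, hθ, hpζ⟩ := G
  exact s6as_final ((S6U.const (excessC P.p : ℝ)).mul (((S6U.const (2 * C)).mul hM).div s6as_l0_lo))
    (((s6as_lam_lo P).mul (s6as_B0_lo P)).div (S6U.const 4) (S6L.const 4 (by norm_num)))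
    (by linarith)

theorem s6as_f_E2 (hd : 3 ≤ d) (G : S6GR P c) (C : ℝ) : ∀ᶠ n : ℕ in atTop,
    (excessC P.p : ℝ) * (2 * C * s6VarSum d n P c C / (l0 n : ℝ))
      ≤ (s6lamr n P * s6Brl n P 0) ^ 2 / 4 := by
  have hM := s6as_VarSum_up d P c hd G C
  obtain ⟨ha, hρ0, hρ, hζ0, hζ, hβ1, hβ2, hη00, hη0, hη, hxT, hηT, hηs, hθ0, hθ, hpζ⟩ := G
  exact s6as_final ((S6U.const (excessC P.p : ℝ)).mul (((S6U.const (2 * C)).mul hM).div s6as_l0_lo))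
    (((s6as_lam_lo P).mul (s6as_B0_lo P)).sq.div (S6U.const 4) (S6L.const 4 (by norm_num)))
    (by linarith)

theorem s6as_f_T1 (hd : 3 ≤ d) (G : S6GR P c) (C : ℝ) : ∀ᶠ n : ℕ in atTop,
    2 * C * (s6DiagMSum d n P c / Real.sqrt ((s6ST P n : ℚ) : ℝ)
      + s6DiagVSum d n P c / ((s6ST P n : ℚ) : ℝ)) / (l0 n : ℝ) ≤ 1 / 2 := by
  have hM := s6as_DiagMSum_up d P c hd G
  have hV := s6as_DiagVSum_up d P c hd G
  obtain ⟨ha, hρ0, hρ, hζ0, hζ, hβ1, hβ2, hη00, hη0, hη, hxT, hηT, hηs, hθ0, hθ, hpζ⟩ := G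
  have i1 : S6U (fun n => s6DiagMSum d n P c / Real.sqrt ((s6ST P n : ℚ) : ℝ)
      + s6DiagVSum d n P c / ((s6ST P n : ℚ) : ℝ))
      ((2 / 3 : ℝ) + 15 / 100 * (aa : ℝ) + (c.η - (P.xT : ℝ)) / 2) :=
    ((hM.div (s6as_ST_lo P).sqrt).add (hV.div (s6as_ST_lo P))).mono
      (by (repeat' apply max_le) <;> linarith)
  exact s6as_final (((S6U.const (2 * C)).mul i1).div s6as_l0_lo) (S6L.const (1 / 2) (by norm_num))
    (by linarith)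

theorem s6as_f_L1b (hd : 3 ≤ d) (G : S6GR P c) (C : ℝ) : ∀ᶠ n : ℕ in atTop,
    2 * C * (1 + c.CK) * s6TrSum d n P c / ((l0 n : ℝ) * ((s6S1 d n : ℚ) : ℝ))
      + (bb n : ℝ) * (C * (1 + c.CK)) ^ 2 / ((s6S1 d n : ℚ) : ℝ) ^ 2 ≤ 1 / 2 := by
  have hT := s6as_TrSum_up d P c hd G
  obtain ⟨ha, hρ0, hρ, hζ0, hζ, hβ1, hβ2, hη00, hη0, hη, hxT, hηT, hηs, hθ0, hθ, hpζ⟩ := G
  exact s6as_final ((((S6U.const (2 * C * (1 + c.CK))).mul hT).div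
      (s6as_l0_lo.mul (s6as_S1_lo d hd))).add
      ((s6as_bb_up.mul (S6U.const ((C * (1 + c.CK)) ^ 2))).div (s6as_S1_lo d hd).sq))
    (S6L.const (1 / 2) (by norm_num)) (by apply max_lt <;> linarith)

theorem s6as_f_L0b (hd : 3 ≤ d) (G : S6GR P c) (C : ℝ) : ∀ᶠ n : ℕ in atTop,
    2 * C * (c.CQ / alphaS d n) * s6TrSum d n P c / ((l0 n : ℝ) * ((s6S0 d n : ℚ) : ℝ))
      + (bb n : ℝ) * (C * (c.CQ / alphaS d n)) ^ 2 / ((s6S0 d n : ℚ) : ℝ) ^ 2 ≤ 1 / 2 := by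
  have hT := s6as_TrSum_up d P c hd G
  obtain ⟨ha, hρ0, hρ, hζ0, hζ, hβ1, hβ2, hη00, hη0, hη, hxT, hηT, hηs, hθ0, hθ, hpζ⟩ := G
  exact s6as_final (((((S6U.const (2 * C)).mul ((S6U.const c.CQ).div (s6as_al_lo d hd))).mul hT).div
      (s6as_l0_lo.mul (s6as_S0_lo d hd))).add
      ((s6as_bb_up.mul ((S6U.const C).mul ((S6U.const c.CQ).div (s6as_al_lo d hd))).sq).div
        (s6as_S0_lo d hd).sq))
    (S6L.const (1 / 2) (by norm_num)) (by apply max_lt <;> linarith)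

theorem s6as_f_X1 (hd : 3 ≤ d) (G : S6GR P c) : ∀ᶠ n : ℕ in atTop,
    ((s6S1 d n : ℚ) : ℝ) ^ 2 * (s6K0 n c * 2)
      ≤ ((n : ℝ) ^ ((9 / 100 : ℝ) * (aa : ℝ)) / alphaS d n) ^ 2 := by
  obtain ⟨ha, hρ0, hρ, hζ0, hζ, hβ1, hβ2, hη00, hη0, hη, hxT, hηT, hηs, hθ0, hθ, hpζ⟩ := G
  exact s6as_final ((s6as_S1_up d hd).sq.mul ((s6as_K0_up c).mul (S6U.const 2)))
    ((S6L.rpow _).div (s6as_al_up d hd) (s6as_al_lo d hd)).sq (by linarith)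

theorem s6as_f_X0 (hd : 3 ≤ d) (G : S6GR P c) : ∀ᶠ n : ℕ in atTop,
    ((s6S0 d n : ℚ) : ℝ) ^ 2 * (s6K0 n c * 2)
      ≤ ((n : ℝ) ^ ((12 / 100 : ℝ) * (aa : ℝ)) / alphaS d n ^ 2) ^ 2 := by
  obtain ⟨ha, hρ0, hρ, hζ0, hζ, hβ1, hβ2, hη00, hη0, hη, hxT, hηT, hηs, hθ0, hθ, hpζ⟩ := G
  exact s6as_final ((s6as_S0_up d hd).sq.mul ((s6as_K0_up c).mul (S6U.const 2)))
    ((S6L.rpow _).div (s6as_al_up d hd).sq (s6as_al_lo d hd).sq).sq (by linarith)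

theorem s6as_f_XT (G : S6GR P c) : ∀ᶠ n : ℕ in atTop,
    ((s6ST P n : ℚ) : ℝ) * (s6K0 n c * 2) ≤ (n : ℝ) ^ c.ηT := by
  obtain ⟨ha, hρ0, hρ, hζ0, hζ, hβ1, hβ2, hη00, hη0, hη, hxT, hηT, hηs, hθ0, hθ, hpζ⟩ := G
  exact s6as_final ((s6as_ST_up P).mul ((s6as_K0_up c).mul (S6U.const 2))) (S6L.rpow _)
    (by linarith)

theorem s6as_F_cast (n : ℕ) : (s6F d n P : ℝ)
    = ((trackedList d n P.cp).length : ℝ) * 4 * ((n : ℝ) + (n : ℝ) * (d : ℝ)) ^ 2 := by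
  unfold s6F
  push_cast
  ring

theorem s6as_f_XE (hd : 3 ≤ d) (G : S6Good P c) : ∀ᶠ n : ℕ in atTop,
    s6K0 n c * 2 * (s6F d n P : ℝ) ≤ (s6lamr n P)⁻¹ ^ P.p := by
  have hlen := s6as_len_up d P c hd G (1 / 2) (by norm_num)
  obtain ⟨ha, hρ0, hρ, hζ0, hζ, hβ1, hβ2, hη00, hη0, hη, hxT, hηT, hηs, hθ0, hθ, hpζ⟩ := G.toR
  have i1 : S6U (fun n : ℕ => (n : ℝ) + (n : ℝ) * (d : ℝ)) 1 :=
    (S6U.self.add (S6U.self.mul (S6U.const (d : ℝ)))).mono (by apply max_le <;> linarith)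
  have hF : S6U (fun n => (s6F d n P : ℝ)) (5 / 2) :=
    (((hlen.mul (S6U.const 4)).mul i1.sq).congr (s6as_F_cast d P)).mono (by linarith)
  exact s6as_final (((s6as_K0_up c).mul (S6U.const 2)).mul hF)
    ((S6L.inv (s6as_lam_up P) (s6as_lam_lo P)).pow P.p) (by linarith)

theorem s6as_f_XB (G : S6GR P c) : ∀ᶠ n : ℕ in atTop,
    s6Bm n P ≤ (n : ℝ) ^ ((37 / 100 : ℝ) * (aa : ℝ)) / Real.sqrt (l0 n) := by
  obtain ⟨ha, hρ0, hρ, hζ0, hζ, hβ1, hβ2, hη00, hη0, hη, hxT, hηT, hηs, hθ0, hθ, hpζ⟩ := G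
  exact s6as_final (s6as_Bm_up P) ((S6L.rpow _).div s6as_sqrt_l0_up s6as_sqrt_l0_lo) (by linarith)

end fields


section loss

/-- pure real computation behind the field `XTt` -/
theorem s6as_XTt_core (cT t1 t2 N L0 L1 α αs b C CQ CK CJ V : ℝ)
    (hcT : 0 < cT) (hN : 0 < N) (hL0 : 0 < L0) (hL : L0 ≤ L1) (hαs : 0 < αs) (hα : αs ≤ α)
    (hb : 0 ≤ b) (hV : 0 ≤ V) (ht : t1 ≤ t2 / 2) (ht2 : 0 ≤ t2)
    (hW : b * (|C| * (|CQ * (1 + CK)| + |CJ|))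
        * (1 / (αs * N) + 1 / L0 + V / (αs ^ 2 * N) + V / (αs * L0)) ≤ cT * t2 / 2) :
    cT * t1 * (N⁻¹ + α / L0)⁻¹ + b * (C * (CQ / α * (1 + CK) + CJ * V / α ^ 2))
      ≤ cT * t2 * (N⁻¹ + α / L1)⁻¹ := by
  have hα0 : 0 < α := lt_of_lt_of_le hαs hα
  have hL1 : 0 < L1 := lt_of_lt_of_le hL0 hL
  obtain ⟨D0, hD0⟩ : ∃ D0, D0 = N⁻¹ + α / L0 := ⟨_, rfl⟩
  obtain ⟨D1, hD1⟩ : ∃ D1, D1 = N⁻¹ + α / L1 := ⟨_, rfl⟩
  obtain ⟨K1, hK1⟩ : ∃ K1, K1 = |C| * (|CQ * (1 + CK)| + |CJ|) := ⟨_, rfl⟩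
  obtain ⟨W, hWd⟩ : ∃ W, W = 1 / (αs * N) + 1 / L0 + V / (αs ^ 2 * N) + V / (αs * L0) := ⟨_, rfl⟩
  rw [← hK1, ← hWd] at hW
  rw [← hD0, ← hD1]
  have hD0p : 0 < D0 := by rw [hD0]; positivity
  have hD1p : 0 < D1 := by rw [hD1]; positivity
  have hD : D1 ≤ D0 := by
    have : α / L1 ≤ α / L0 := div_le_div_of_nonneg_left hα0.le hL0 hL
    rw [hD0, hD1]
    linarith
  have hinv : D0⁻¹ ≤ D1⁻¹ := (inv_le_inv₀ hD0p hD1p).2 hD
  have hK1n : 0 ≤ K1 := by rw [hK1]; positivity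
  have s1 : C * (CQ / α * (1 + CK) + CJ * V / α ^ 2) ≤ K1 * (1 / α + V / α ^ 2) := by
    have e : C * (CQ / α * (1 + CK) + CJ * V / α ^ 2)
        = C * (CQ * (1 + CK)) * (1 / α) + C * CJ * (V / α ^ 2) := by ring
    rw [e]
    have a1 : C * (CQ * (1 + CK)) ≤ |C| * |CQ * (1 + CK)| := by
      rw [← abs_mul]; exact le_abs_self _
    have a2 : C * CJ ≤ |C| * |CJ| := by rw [← abs_mul]; exact le_abs_self _
    have p1 : 0 ≤ 1 / α := by positivity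
    have p2 : 0 ≤ V / α ^ 2 := by positivity
    have b1 := mul_le_mul_of_nonneg_right a1 p1
    have b2 := mul_le_mul_of_nonneg_right a2 p2
    have c1 : 0 ≤ |C| * |CJ| * (1 / α) := by positivity
    have c2 : 0 ≤ |C| * |CQ * (1 + CK)| * (V / α ^ 2) := by positivity
    have e2 : K1 * (1 / α + V / α ^ 2) = |C| * |CQ * (1 + CK)| * (1 / α) + |C| * |CJ| * (V / α ^ 2)
        + |C| * |CJ| * (1 / α) + |C| * |CQ * (1 + CK)| * (V / α ^ 2) := by rw [hK1]; ring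
    rw [e2]
    linarith
  have s2 : (1 / α + V / α ^ 2) * D0 ≤ W := by
    have e : (1 / α + V / α ^ 2) * D0
        = 1 / (α * N) + 1 / L0 + V / (α ^ 2 * N) + V / (α * L0) := by
      rw [hD0]; field_simp; ring
    rw [e, hWd]
    gcongr
  have s3 : b * (C * (CQ / α * (1 + CK) + CJ * V / α ^ 2)) ≤ cT * t2 / 2 * D0⁻¹ := by
    have e : b * (K1 * (1 / α + V / α ^ 2)) = b * K1 * ((1 / α + V / α ^ 2) * D0) * D0⁻¹ := by
      field_simp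
    calc b * (C * (CQ / α * (1 + CK) + CJ * V / α ^ 2))
        ≤ b * (K1 * (1 / α + V / α ^ 2)) := mul_le_mul_of_nonneg_left s1 hb
      _ = b * K1 * ((1 / α + V / α ^ 2) * D0) * D0⁻¹ := e
      _ ≤ b * K1 * W * D0⁻¹ := by gcongr
      _ ≤ cT * t2 / 2 * D0⁻¹ := by gcongr
  have hi0 : 0 < D0⁻¹ := inv_pos.2 hD0p
  have s4 : cT * t1 * D0⁻¹ ≤ cT * (t2 / 2) * D0⁻¹ := by gcongr
  have s5 : cT * t2 * D0⁻¹ ≤ cT * t2 * D1⁻¹ := by gcongr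
  calc cT * t1 * D0⁻¹ + b * (C * (CQ / α * (1 + CK) + CJ * V / α ^ 2))
      ≤ cT * (t2 / 2) * D0⁻¹ + cT * t2 / 2 * D0⁻¹ := add_le_add s4 s3
    _ = cT * t2 * D0⁻¹ := by ring
    _ ≤ cT * t2 * D1⁻¹ := s5

variable (d : ℕ) (P : S6Par) (c : S6Cst)

theorem s6as_prim_al (hd : 3 ≤ d) (G : S6Good P c) : ∀ᶠ n : ℕ in atTop,
    ∀ h ∈ primList d n P.cp, alphaS d n ≤ alphaf d ((h : ℚ) : ℝ) := by
  have hd' : (3 : ℝ) ≤ (d : ℝ) := by exact_mod_cast hd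
  filter_upwards [Nprim_spec d hd P.cp G.cp_pos G.cp_le] with n hspec h hh
  obtain ⟨j, hj, rfl⟩ := List.mem_map.1 hh
  have hj' : j ≤ Nprim d n P.cp := by have := List.mem_range.1 hj; omega
  have hδ0 := parF_delta0_pos d hd n
  have hρ : 0 ≤ rhoQ d n := div_nonneg (Nat.cast_nonneg _) (Nat.cast_nonneg _)
  have h1 : (2 : ℚ) ^ j * delta0 d n ≤ 1 / 4 := by
    have h1 : (2 : ℚ) ^ j ≤ 2 ^ Nprim d n P.cp := pow_le_pow_right₀ (by norm_num) hj'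
    exact (mul_le_mul_of_nonneg_right h1 hδ0.le).trans (hspec.2.trans G.cp_le)
  have h2 : (2 : ℚ) ^ 0 * delta0 d n ≤ (2 : ℚ) ^ j * delta0 d n :=
    mul_le_mul_of_nonneg_right (pow_le_pow_right₀ (by norm_num) (Nat.zero_le j)) hδ0.le
  have h3 : 0 ≤ prim d n j := mul_nonneg hρ (by linarith)
  have h4 : prim d n j ≤ prim d n 0 := mul_le_mul_of_nonneg_left (by linarith) hρ
  have h3' : (0 : ℝ) ≤ ((prim d n j : ℚ) : ℝ) := by exact_mod_cast h3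
  have h4' : ((prim d n j : ℚ) : ℝ) ≤ ((prim d n 0 : ℚ) : ℝ) := by exact_mod_cast h4
  have h5 : ((prim d n j : ℚ) : ℝ) ^ 2 ≤ ((prim d n 0 : ℚ) : ℝ) ^ 2 := pow_le_pow_left₀ h3' h4' 2
  unfold alphaS
  rw [parF_alphaf_real]
  unfold alphaf
  have h6 := mul_le_mul_of_nonneg_left h5 (by linarith : (0 : ℝ) ≤ (d : ℝ) - 1)
  linarith

theorem s6as_f_XTt (hd : 3 ≤ d) (G : S6Good P c) (C : ℝ) : ∀ᶠ n : ℕ in atTop,
    ∀ h ∈ primList d n P.cp,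
    c.cT * (n : ℝ) ^ (-c.θ) * ((n : ℝ)⁻¹ + alphaf d ((h : ℚ) : ℝ) / (l0 n : ℝ))⁻¹
        + (bb n : ℝ) * (C * (s6CQ d c ((h : ℚ) : ℝ) * (1 + c.CK) + s6CJ d n c ((h : ℚ) : ℝ)))
      ≤ c.cT * (n : ℝ) ^ (-(c.θ / 2)) * ((n : ℝ)⁻¹ + alphaf d ((h : ℚ) : ℝ) / (l1 n : ℝ))⁻¹ := by
  obtain ⟨ha, hρ0, hρ, hζ0, hζ, hβ1, hβ2, hη00, hη0, hη, hxT, hηT, hηs, hθ0, hθ, hpζ⟩ := G.toR
  have hal := s6as_al_lo d hd
  have f1 : ∀ᶠ n : ℕ in atTop, (n : ℝ) ^ (-c.θ) ≤ (n : ℝ) ^ (-(c.θ / 2)) / 2 :=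
    s6as_final (S6U.rpow _) ((S6L.rpow _).div (S6U.const 2) (S6L.const 2 (by norm_num)))
      (by linarith)
  have i1 : S6U (fun n : ℕ => 1 / (alphaS d n * (n : ℝ)) + 1 / (l0 n : ℝ)
      + (n : ℝ) ^ ((125 / 1000 : ℝ) * (aa : ℝ)) / (alphaS d n ^ 2 * (n : ℝ))
      + (n : ℝ) ^ ((125 / 1000 : ℝ) * (aa : ℝ)) / (alphaS d n * (l0 n : ℝ)))
      (-(1 / 3 : ℝ) - 525 / 1000 * (aa : ℝ)) :=
    (((((S6U.const 1).div (hal.mul S6L.self)).add ((S6U.const 1).div s6as_l0_lo)).add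
      ((S6U.rpow _).div (hal.sq.mul S6L.self))).add ((S6U.rpow _).div (hal.mul s6as_l0_lo))).mono
      (by (repeat' apply max_le) <;> linarith)
  have f2 : ∀ᶠ n : ℕ in atTop, (bb n : ℝ) * (|C| * (|c.CQ * (1 + c.CK)| + |c.CJ|))
      * (1 / (alphaS d n * (n : ℝ)) + 1 / (l0 n : ℝ)
      + (n : ℝ) ^ ((125 / 1000 : ℝ) * (aa : ℝ)) / (alphaS d n ^ 2 * (n : ℝ))
      + (n : ℝ) ^ ((125 / 1000 : ℝ) * (aa : ℝ)) / (alphaS d n * (l0 n : ℝ)))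
      ≤ c.cT * (n : ℝ) ^ (-(c.θ / 2)) / 2 :=
    s6as_final ((s6as_bb_up.mul (S6U.const _)).mul i1)
      (((S6L.const c.cT G.cT_pos).mul (S6L.rpow _)).div (S6U.const 2) (S6L.const 2 (by norm_num)))
      (by linarith)
  filter_upwards [f1, f2, hal.pos, s6as_l0_lo.pos, eventually_gt_atTop 0, s6as_prim_al d P c hd G]
    with n h1 h2 h3 h4 h5 h6 h hh
  have h7 : (l0 n : ℝ) ≤ (l1 n : ℝ) := by
    rw [s6as_l1_cast]
    have : (0 : ℝ) ≤ (bb n : ℝ) := Nat.cast_nonneg _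
    linarith
  exact s6as_XTt_core c.cT _ _ (n : ℝ) (l0 n) (l1 n) _ (alphaS d n) (bb n) C c.CQ c.CK c.CJ _
    G.cT_pos (by exact_mod_cast h5) h4 h7 h3 (h6 h hh) (Nat.cast_nonneg _)
    (Real.rpow_nonneg (Nat.cast_nonneg _) _) h1 (Real.rpow_nonneg (Nat.cast_nonneg _) _) h2

end loss

variable (d : ℕ) (hd : 3 ≤ d) (P : S6Par) (c : S6Cst) (G : S6Good P c) (C : ℝ)

/-- `R2 ≤ n^η'` for every `η' > η0`, `η' > 0` -/
theorem s6_R2_le (hd : 3 ≤ d) (G : S6Good P c) (η' : ℝ) (h : c.η0 < η') :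
    ∀ᶠ n : ℕ in atTop, 0 ≤ s6R2 d n P c ∧ s6R2 d n P c ≤ (n : ℝ) ^ η' := by
  have h1 := s6as_final (s6as_R2_up d P c hd G.toR ((c.η0 + η') / 2) (by linarith)) (S6L.rpow η')
    (by linarith)
  filter_upwards [h1] with n hn
  refine ⟨?_, hn⟩
  have hCM : 0 ≤ c.CM := le_trans zero_le_one G.CM_ge
  unfold s6R2
  positivity

/-- THE NUMERICAL CONDITIONS -/
theorem s6_asym (hd : 3 ≤ d) (G : S6Good P c) (C : ℝ) : ∀ᶠ n : ℕ in atTop, S6NumOK d n P c C := by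
  have R := G.toR
  filter_upwards [eventually_gt_atTop 0, s6as_f_b_le, s6as_f_l0_ge, (s6as_S1_lo d hd).pos,
    (s6as_S0_lo d hd).pos, (s6as_al_lo d hd).pos, s6as_f_I1 d hd, s6as_f_I0 d hd, s6as_f_IT P c R,
    s6as_f_IT' P c R, s6as_f_IE P, s6as_f_IK d P c hd G, s6as_f_J P c R C, s6as_f_E1 d P c hd R C,
    s6as_f_E2 d P c hd R C, s6as_f_T1 d P c hd R C, s6as_f_L1b d P c hd R C,
    s6as_f_L0b d P c hd R C, s6as_f_X1 d P c hd R, s6as_f_X0 d P c hd R, s6as_f_XT P c R,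
    s6as_f_XE d P c hd G, s6as_f_XB P c R, s6as_f_XTt d P c hd G C]
    with n a1 a2 a3 a4 a5 a6 a7 a8 a9 a10 a11 a12 a13 a14 a15 a16 a17 a18 a19 a20 a21 a22 a23 a24
  exact
    { hn := a1
      b_le := a2
      l0_ge := a3
      g0_le := s6as_f_g0_le d n
      tracked_ne := s6as_f_tracked_ne d P n
      hp := G.hp
      B_pos := s6as_f_B_pos P n
      B_mono := s6as_f_B_mono P G.ρ_pos.le n
      lam_pos := s6as_f_lam_pos P n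
      S1_pos := a4
      S0_pos := a5
      ST_pos := s6as_f_ST_pos P n
      al_pos := a6
      I1 := a7
      I0 := a8
      IT := a9
      IT' := a10
      IE := a11
      IK := a12
      J := a13
      E1 := a14
      E2 := a15
      T1 := a16
      L1b := a17
      L0b := a18
      X1 := a19
      X0 := a20
      XT := a21
      XE := a22
      XB := a23
      XTt := a24 }

end Claimed.Agent.R275
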