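import Claimed.Agent.R275.S6Inv
import Claimed.Agent.R275.NbWalk2

/-!
# Row 275, Sec 6 (cleanup.tex), packages S6-EXT-*: initial state, candidates, extraction of the caps, final state

Owner of the statements: helper208.  FIXED `n`; hypotheses as in `S6Bud.lean`.  May assume every statement of the earlier `S6*` files, `L41*`, `S3Excess`, `Accounts`.

* S6-EXT-GRAPH (pure combinatorics of nonbacktracking stub walks, no analysis): `s6_Nact_resolve`, `s6_girth_resolve`, `s6_clean_resolve`.
* S6-EXT-COMB: `s6_ok`, `s6_inv_zero`, `s6_init_score`, `s6_cands_ne`, `s6_ext_comb`, `s6_out`.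
* S6-EXT-CAPS: `s6_ext_walk`, `s6_ext_caps`, `s6_ext_lev`, `s6_ext_ts`, `s6_ext_tlow`.
-/

set_option autoImplicit false

namespace Claimed.Agent.R275

open Matrix

variable {n d : ℕ} {ιs : Type} {P : S6Par} {c : S6Cst} {C κ : ℝ} {SA : Phase ℝ (PPair n d) ιs} {π₁ : PPair n d}

/-! ## S6-EXT-GRAPH -/

namespace PPair

/-- a new walk either avoids the new edge or reaches one of its endpoints earlier by an old walk -/
theorem s6_Nact_resolve {π : PPair n d} {u v : Stub n d} (hu : π.Unres u) (hv : π.Unres v) (huv : u ≠ v)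
    (k : ℕ) (a b : Fin n) (h : (π.resolve u v).Nact ℚ k a b ≠ 0) :
    π.Nact ℚ k a b ≠ 0 ∨ ∃ k₁ < k, π.Nact ℚ k₁ a u.1 ≠ 0 ∨ π.Nact ℚ k₁ a v.1 ≠ 0 := by
  exact π.nbw_Nact_resolve hu hv huv k a b h

/-- joining two vertices at distance `> g` keeps the girth `≥ g`
(a closed NB walk of length `k < g` through the new edge yields an old walk, hence an old NB walk, of length `≤ k - 1` between `u.1` and `v.1`) -/
theorem s6_girth_resolve {π : PPair n d} {u v : Stub n d} (hu : π.Unres u) (hv : π.Unres v) (huv : u ≠ v) (g : ℕ)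
    (hg : π.GirthGE g) (hfar : π.Far g u.1 v.1) : (π.resolve u v).GirthGE g := by
  exact π.nbw_girth_resolve hu hv huv g hg hfar

theorem s6_Far_mono {π : PPair n d} {g g' : ℕ} (h : g ≤ g') {v w : Fin n} (hf : π.Far g' v w) : π.Far g v w := by
  exact π.nbw_far_mono h hf

/-- a stub which is not bad stays not bad when two OTHER unresolved stubs are joined -/
theorem s6_clean_resolve {π : PPair n d} {u v x : Stub n d} (hu : π.Unres u) (hv : π.Unres v) (huv : u ≠ v) (R : ℕ)
    (hx : π.Unres x) (hxu : x ≠ u) (hxv : x ≠ v) (hc : ¬ π.Bad R x) : ¬ (π.resolve u v).Bad R x := by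
  exact π.nbw_clean_resolve hu hv huv R hx hxu hxv hc

/-- monotonicity of the walk facts in the loss exponent -/
theorem s6_WalkOK_mono {π : PPair n d} {CM CR η η' : ℝ} {Rc : ℕ} (h : (n : ℝ) ^ η ≤ (n : ℝ) ^ η')
    (W : π.WalkOK CM CR η Rc) : π.WalkOK CM CR η' Rc := by
  refine ⟨W.girth, W.short, W.mult, W.rowsq, ?_, W.retsq.trans h⟩
  intro k hk1 hk
  refine (W.ret k hk1 hk).trans (mul_le_mul_of_nonneg_right h (pow_nonneg ?_ k))
  rcases Nat.eq_zero_or_pos d with rfl | hd
  · exfalso
    have : Lcut 0 n = 0 := by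
      unfold Lcut
      exact Nat.log_zero_left _
    omega
  · have : (1 : ℝ) ≤ (d : ℝ) := by exact_mod_cast hd
    linarith

end PPair


end Claimed.Agent.R275
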