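import Claimed.Agent.R275.S6BrA
import Claimed.Agent.R275.S6ExtG
import Claimed.Agent.R275.S43X

/-!
# Row 275, Sec 6, package S6-BRIDGE-B: the consequences of Sec 4 at a cleanup state, part B (cleanup pairs are admissible; transfers)

Owner of the statements: helper208.  Proofs: helper277.  No paper needed.  May assume every statement of `Params`, `S43V`, `S43W`, `S43T`, `S6Phase`, `S6ExtG`, `S6BrA`, `S6Asym`.

GEOMETRY.  `u = s6first`, `v ∈ s6elig`: `v` is unresolved and initially clean, hence (`S6Cl.clean`) NOT BAD NOW: no return of length `≤ R₀` at `v.1` and every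
other unresolved stub is at distance `> R₀` from `v.1`.  `Far` is symmetric (`s43v_Nact_symm` + `s43v_Nact_cast`).
* `s6br_far_decay`: `Aact = ∑_{k<L} N_k z^k`; `Far` kills `k ≤ R₀`; `N_k ≤ CM` (`WalkOK.mult`); `∑_{k>R₀} z^k ≤ zq^{R₀+1}/(1 - zq)`;
  `q^{R₀+1} > n^{.04a}/2^{1.04}` (`pow_radius_bounds`), so `zq^{R₀+1} ≤ 2 n^{-.02a}`; `1 - zq ≥ 1 - 1/√2`; uniform part: `s43v_Umaj_small`.  Same for the returns.
* `s6br_adm`: `Far R₀ ⇒ Far g₀` (`g₀ ≤ R₀`: `Nat.log` and `scN` are monotone) `⇒ Adm g₀ u v ⇒` `s43v_adm_decay` (`c := c0`), `s43t_tail_le`.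
* `s6br_tr` (`ε = n^{-β'}`, `βR < β' < .02a`, `A ≤ 2` by `s43v_Amaj_le_one_add`, `j_u ≤ 1` by `s43v_adm_decay`):
  `a` global: level `2 >` the levels of stubs.   `a = x` initially bad: `lev v = 0 < 1`; `A_x(u)(j_v + 1/l) + A_x(v) ≤ 2(ε + 1/l₀) + ε` (`v` clean now, `x ≠ v`).
  `a = x` initially clean: the same bound for `tu`; `A_x(u) + A_x(v)(j_u + 1/l) ≤ ε + 2ε` for `tv` (`x` clean now, `u ≠ x`).  `3ε + 2/l₀ ≤ n^{-βR}` eventually.
-/

set_option autoImplicit false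
set_option linter.unusedVariables false

namespace Claimed.Agent.R275

open Matrix Filter

theorem s6br_Far_symm {n d : ℕ} (π : PPair n d) (g : ℕ) (v w : Fin n) (h : π.Far g v w) : π.Far g w v := by
  intro k hk
  have h1 := h k hk
  have h2 : π.Nact ℝ k v w = 0 := by rw [← PPair.s43v_Nact_cast, h1]; simp
  have h3 : ((π.Nact ℚ k w v : ℚ) : ℝ) = 0 := by rw [PPair.s43v_Nact_cast, PPair.s43v_Nact_symm, h2]
  exact_mod_cast h3

/-- `zq^{R₀+1} ≤ 2 n^{-.02a}` -/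
theorem s6brb_zq_R0 (d : ℕ) (hd : 3 ≤ d) (n : ℕ) (hn : 1 ≤ n) :
    zq d ^ (R0 d n + 1) ≤ 2 * (n : ℝ) ^ (-(2 / 100 * (aa : ℝ))) := by
  have hd' : (3 : ℝ) ≤ d := by exact_mod_cast hd
  have hq0 : (0 : ℝ) < (d : ℝ) - 1 := by linarith
  have hn0 : (0 : ℝ) < n := by exact_mod_cast hn
  have h := (pow_radius_bounds d hd (4 / 100 * aa) (by norm_num [aa]) n hn).2
  have e : (((4 / 100 * aa : ℚ)) : ℝ) = 4 / 100 * (aa : ℝ) := by push_cast; ring
  rw [e] at h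
  have h4 := s43w_two_rpow_le (4 / 100 * (aa : ℝ)) (by rw [parF_aa]; norm_num)
  have hN : 0 < (n : ℝ) ^ (4 / 100 * (aa : ℝ)) := Real.rpow_pos_of_pos hn0 _
  have h5 : (n : ℝ) ^ (4 / 100 * (aa : ℝ)) / 4 ≤ ((d : ℝ) - 1) ^ (R0 d n + 1) := by
    have h3 : (n : ℝ) ^ (4 / 100 * (aa : ℝ)) / 4 ≤
        (n : ℝ) ^ (4 / 100 * (aa : ℝ)) / 2 ^ ((4 / 100 * (aa : ℝ)) + 1) :=
      div_le_div_of_nonneg_left hN.le (by positivity) h4
    exact h3.trans h.le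
  rw [s43w_zq_eq d hd, s43w_rpow_pow _ hq0.le]
  calc (((d : ℝ) - 1) ^ (R0 d n + 1)) ^ (-(1 / 2 : ℝ))
      ≤ ((n : ℝ) ^ (4 / 100 * (aa : ℝ)) / 4) ^ (-(1 / 2 : ℝ)) :=
        Real.rpow_le_rpow_of_nonpos (by positivity) h5 (by norm_num)
    _ = (4 : ℝ) ^ (1 / 2 : ℝ) * (n : ℝ) ^ (-(2 / 100 * (aa : ℝ))) := by
        rw [Real.div_rpow hN.le (by norm_num), ← Real.rpow_mul hn0.le,
          Real.rpow_neg (show (0 : ℝ) ≤ 4 by norm_num), div_inv_eq_mul, mul_comm]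
        congr 2
        ring
    _ = _ := by
        congr 1
        rw [← Real.sqrt_eq_rpow, show (4 : ℝ) = 2 ^ 2 by norm_num, Real.sqrt_sq (by norm_num)]

/-- decay beyond the separation radius, any exponent `β < .02 a` -/
theorem s6br_far_decay (d : ℕ) (hd : 3 ≤ d) (CM CR η : ℝ) (Rc : ℕ) (β : ℝ) (hβ : β < 2 / 100 * (aa : ℝ)) :
    ∀ᶠ n : ℕ in atTop, ∀ π : PPair n d, l0 n ≤ π.l → π.WalkOK CM CR η Rc → ∀ z : ℝ, 0 ≤ z → z ≤ zq d →
      (∀ (i : Label n d) (x : Stub n d), π.Far (R0 d n) i.vtx x.1 →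
        π.Amaj (Cmaj d) (Lcut d n) z i x ≤ (n : ℝ) ^ (-β)) ∧
      (∀ x : Stub n d, ¬ π.HasRet (R0 d n) x.1 → π.jmaj (Cmaj d) (Lcut d n) z x ≤ (n : ℝ) ^ (-β)) := by
  obtain ⟨hz0, hz1⟩ := s43w_zq_lt_one d hd
  filter_upwards [s43w_U_bundle d hd,
    s43w_master d hd (|CM| * 2 / (1 - zq d) + 1) 0 (-(2 / 100 * (aa : ℝ))) (-β) (by linarith),
    eventually_ge_atTop 1] with n hU hM hn1 π hl W z hz hz'
  have hn' : (1 : ℝ) ≤ n := by exact_mod_cast hn1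
  obtain ⟨hU1, -, -⟩ := hU π.l hl z hz hz'
  set N2 : ℝ := (n : ℝ) ^ (-(2 / 100 * (aa : ℝ))) with hN2
  have hκ : 0 < 1 - zq d := by linarith
  have hU' : Umaj d (Cmaj d) π.l (Lcut d n) z ≤ N2 :=
    hU1.trans (Real.rpow_le_rpow_of_exponent_le hn' (by rw [parF_aa]; norm_num))
  have hdec : CM * zq d ^ (R0 d n + 1) / (1 - zq d) ≤ |CM| * 2 / (1 - zq d) * N2 := by
    have h1 := s6brb_zq_R0 d hd n hn1
    calc CM * zq d ^ (R0 d n + 1) / (1 - zq d) ≤ |CM| * (2 * N2) / (1 - zq d) := by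
          refine div_le_div_of_nonneg_right ?_ hκ.le
          exact mul_le_mul (le_abs_self CM) h1 (by positivity) (abs_nonneg CM)
      _ = _ := by ring
  rw [pow_zero, mul_one] at hM
  refine ⟨fun i x hF => ?_, fun x hR => ?_⟩
  · have := π.s43x_Amaj_far_le hd W (Cmaj d) z hz hz' (R0 d n) i x hF
    linarith
  · have := π.s43x_jmaj_noret_le hd W (Cmaj d) z hz hz' (R0 d n) x hR
    linarith

theorem s6brb_g0_le_R0 (d n : ℕ) : g0 d n ≤ R0 d n := by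
  rw [g0, R0]
  refine Nat.log_mono_right ?_
  rw [scN, scN]
  refine Nat.pow_le_pow_right (by norm_num) (Int.toNat_le_toNat ?_)
  rw [scZ, scZ]
  exact Int.floor_le_floor (mul_le_mul_of_nonneg_right (by norm_num [aa]) (Nat.cast_nonneg _))

/-- the geometry of a cleanup pair -/
theorem s6br_geom {n d : ℕ} {P : S6Par} {CM CR η0 : ℝ} {Rc : ℕ} {π₁ π : PPair n d} (Cl : S6Cl P CM CR η0 Rc π₁ π)
    {u v : Stub n d} (hu : π₁.s6first π = some u) (hv : v ∈ π₁.s6elig π u) :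
    π.Unres u ∧ π.Unres v ∧ u ≠ v ∧ ¬ π₁.Bad (R0 d n) v ∧ ¬ π.HasRet (R0 d n) v.1 ∧
      (∀ y : Stub n d, π.Unres y → y ≠ v → π.Far (R0 d n) y.1 v.1) ∧
      (∀ x : Stub n d, π.Unres x → ¬ π₁.Bad (R0 d n) x → ∀ y : Stub n d, π.Unres y → y ≠ x → π.Far (R0 d n) x.1 y.1) := by
  obtain ⟨hu1, -, -⟩ := PPair.s6first_spec π₁ π hu
  obtain ⟨-, hv2, hv3, hv4⟩ := (PPair.s6_mem_elig π₁ π u v).1 hv
  have key : ∀ x : Stub n d, π.Unres x → ¬ π₁.Bad (R0 d n) x →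
      ¬ π.HasRet (R0 d n) x.1 ∧ ∀ y : Stub n d, π.Unres y → y ≠ x → π.Far (R0 d n) x.1 y.1 := by
    intro x hx hxb
    have hc := Cl.clean x hx hxb
    unfold PPair.Bad at hc
    push_neg at hc
    obtain ⟨h1, h2⟩ := hc hx
    exact ⟨h1, h2⟩
  refine ⟨hu1, hv3, fun h => hv4 h.symm, hv2, (key v hv3 hv2).1, ?_, fun x hx hxb => (key x hx hxb).2⟩
  intro y hy hyv
  exact s6br_Far_symm π _ _ _ ((key v hv3 hv2).2 y hy hyv)

/-- every cleanup pair is admissible -/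
theorem s6br_adm (d : ℕ) (hd : 3 ≤ d) (P : S6Par) (c : S6Cst) (G : S6Good P c) :
    ∀ᶠ n : ℕ in atTop, ∀ π₁ π : PPair n d, S6Cl P c.CM c.CR c.η0 c.Rc π₁ π →
      ∀ u v : Stub n d, π₁.s6first π = some u → v ∈ π₁.s6elig π u → π.Far (R0 d n) u.1 v.1 ∧
        ∀ h ∈ trackedList d n P.cp, π.S6Adm (Cmaj d) (Lcut d n) ((h : ℚ) : ℝ) (s6N d n P c) u v := by
  filter_upwards [s43v_adm_decay d hd c.CM c.CR c.η0 c.Rc c.c0 G.c0_lt, s43t_tail_le d hd c.CM c.CR c.η0 c.Rc,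
    s6br_range d hd P.cp G.cp_pos G.cp_le] with n hdec htail hrange π₁ π Cl u v hu hv
  obtain ⟨hu1, hv1, huv, -, -, hfar, -⟩ := s6br_geom Cl hu hv
  have hF : π.Far (R0 d n) u.1 v.1 := hfar u hu1 huv
  have hadm : π.Adm (g0 d n) u v := ⟨hu1, hv1, PPair.s6_Far_mono (s6brb_g0_le_R0 d n) hF⟩
  refine ⟨hF, fun h hh => ?_⟩
  obtain ⟨h0, hzq, -, -⟩ := hrange h hh
  exact
    { hu := hu1
      hv := hv1
      huv := huv
      small := hdec π Cl.cur.l_ge Cl.cur.walk u v hadm _ h0.le hzq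
      tail := fun σ hσ a b => htail π Cl.cur.l_ge Cl.cur.walk u v hadm σ _ hσ h0 hzq a b }

/-- transfers which do not decrease the level are small -/
theorem s6br_tr (d : ℕ) (hd : 3 ≤ d) (P : S6Par) (c : S6Cst) (G : S6Good P c) :
    ∀ᶠ n : ℕ in atTop, ∀ π₁ π : PPair n d, S6Cl P c.CM c.CR c.η0 c.Rc π₁ π →
      ∀ u v : Stub n d, π₁.s6first π = some u → v ∈ π₁.s6elig π u →
        ∀ a : Label n d, π.Alive a → a ≠ .stub u → a ≠ .stub v → ∀ h ∈ trackedList d n P.cp,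
          π.S6Tr (Cmaj d) (Lcut d n) ((h : ℚ) : ℝ) π₁.s6lev (s6del n c) u v a := by
  set β' : ℝ := (c.βR + 2 / 100 * (aa : ℝ)) / 2 with hβ'
  have hβ1 : c.βR < β' := by rw [hβ']; linarith [G.β_lt]
  have hβ2 : β' < 2 / 100 * (aa : ℝ) := by rw [hβ']; linarith [G.β_lt]
  filter_upwards [s6br_far_decay d hd c.CM c.CR c.η0 c.Rc β' hβ2,
    s43v_Amaj_le_one_add d hd c.CM c.CR c.η0 c.Rc 0 (by rw [parF_aa]; norm_num),
    s43v_adm_decay d hd c.CM c.CR c.η0 c.Rc c.c0 G.c0_lt,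
    s6br_range d hd P.cp G.cp_pos G.cp_le,
    s43w_master d hd 7 0 (-β') (-c.βR) (by linarith), eventually_ge_atTop 1]
    with n hfd hA2 hdec hrange hM hn1 π₁ π Cl u v hu hv a ha hau hav h hh
  have hn' : (1 : ℝ) ≤ n := by exact_mod_cast hn1
  have hn0 : (0 : ℝ) < n := by linarith
  obtain ⟨hu1, hv1, huv, hvclean, hvret, hfar, hclean⟩ := s6br_geom Cl hu hv
  obtain ⟨h0, hzq, -, -⟩ := hrange h hh
  obtain ⟨hfdA, hfdJ⟩ := hfd π Cl.cur.l_ge Cl.cur.walk _ h0.le hzq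
  have hF : π.Far (R0 d n) u.1 v.1 := hfar u hu1 huv
  have hadm : π.Adm (g0 d n) u v := ⟨hu1, hv1, PPair.s6_Far_mono (s6brb_g0_le_R0 d n) hF⟩
  set ε : ℝ := (n : ℝ) ^ (-β') with hε
  have hε0 : 0 < ε := Real.rpow_pos_of_pos hn0 _
  have hε1 : ε ≤ 1 := Real.rpow_le_one_of_one_le_of_nonpos hn' (by
    have : 0 < c.βR := lt_of_le_of_lt (by
      have h1 : (0 : ℚ) ≤ 16 * P.ρ + P.ζ := by linarith [G.ρ_pos, G.ζ_pos]
      exact_mod_cast h1) G.β_gt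
    linarith)
  rw [pow_zero, mul_one] at hM
  have hδ : 7 * ε ≤ s6del n c := hM
  -- `1 / l ≤ 2 ε`, `1 / l ≤ 1`
  have hl0 := s43w_l0_pos n hn1
  have hl' : (l0 n : ℝ) ≤ π.l := by exact_mod_cast Cl.cur.l_ge
  have hlp : (0 : ℝ) < π.l := by linarith
  have hl1 : 1 / (π.l : ℝ) ≤ 1 := by
    rw [div_le_one hlp]; linarith [s43w_one_le_l0 n]
  have hl2 : 1 / (π.l : ℝ) ≤ 2 * ε := by
    have h1 := (s43w_l0 n hn1).1
    have hN : 0 < (n : ℝ) ^ (2 / 3 + 15 / 100 * (aa : ℝ)) := Real.rpow_pos_of_pos hn0 _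
    calc 1 / (π.l : ℝ) ≤ 1 / ((n : ℝ) ^ (2 / 3 + 15 / 100 * (aa : ℝ)) / 2) :=
          div_le_div_of_nonneg_left zero_le_one (by positivity) (h1.trans hl')
      _ = 2 * (n : ℝ) ^ (-(2 / 3 + 15 / 100 * (aa : ℝ))) := by
          rw [Real.rpow_neg hn0.le]; field_simp
      _ ≤ _ := by
          refine mul_le_mul_of_nonneg_left (Real.rpow_le_rpow_of_exponent_le hn' ?_) (by norm_num)
          have := hβ2
          rw [parF_aa] at this ⊢
          linarith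
  have hnn := fun (i : Label n d) (x y : Stub n d) =>
    π.s43v_maj_nonneg (Cmaj d) (s43w_Cmaj_nonneg d) hd (Lcut d n) ((h : ℚ) : ℝ) h0.le i x y x.1 y.1
  have hA2' : ∀ (i : Label n d) (x : Stub n d), π.Amaj (Cmaj d) (Lcut d n) ((h : ℚ) : ℝ) i x ≤ 2 := by
    intro i x
    have := hA2 π Cl.cur.l_ge Cl.cur.walk _ h0.le hzq i x
    rw [neg_zero, Real.rpow_zero] at this
    linarith
  have hju : π.jmaj (Cmaj d) (Lcut d n) ((h : ℚ) : ℝ) u ≤ 1 := by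
    have h1 := hdec π Cl.cur.l_ge Cl.cur.walk u v hadm _ h0.le hzq
    have h2 : (n : ℝ) ^ (-c.c0) ≤ 1 :=
      Real.rpow_le_one_of_one_le_of_nonpos hn' (by linarith [G.c0_pos])
    have h3 := (hnn (.stub u) v v).2.2.2.2.1
    have h4 := (hnn (.stub u) u v).2.2.2.2.2
    linarith
  have hjv : π.jmaj (Cmaj d) (Lcut d n) ((h : ℚ) : ℝ) v ≤ ε := hfdJ v hvret
  have hjv0 := (hnn (.stub u) v v).2.2.2.2.1
  have hju0 := (hnn (.stub u) u u).2.2.2.2.1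
  cases a with
  | glob i =>
    refine ⟨Or.inl ?_, Or.inl ?_⟩ <;> simp only [PPair.s6lev] <;> split_ifs <;> norm_num
  | stub x =>
    have hx : π.Unres x := ha
    have hxu : x ≠ u := fun e => hau (by rw [e])
    have hxv : x ≠ v := fun e => hav (by rw [e])
    have hAv : π.Amaj (Cmaj d) (Lcut d n) ((h : ℚ) : ℝ) (.stub x) v ≤ ε := hfdA (.stub x) v (hfar x hx hxv)
    have hAv0 := (hnn (.stub x) v v).2.2.2.1
    have hAu0 := (hnn (.stub x) u u).2.2.2.1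
    have hAu := hA2' (.stub x) u
    refine ⟨Or.inr ?_, ?_⟩
    · have h1 : π.Amaj (Cmaj d) (Lcut d n) ((h : ℚ) : ℝ) (.stub x) u *
          (π.jmaj (Cmaj d) (Lcut d n) ((h : ℚ) : ℝ) v + 1 / (π.l : ℝ)) ≤ 2 * (ε + 2 * ε) :=
        mul_le_mul hAu (by linarith) (by positivity) (by norm_num)
      linarith
    · by_cases hb : π₁.Bad (R0 d n) x
      · left
        simp only [PPair.s6lev, if_neg hvclean, if_pos hb]
        norm_num
      · right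
        have hAu' : π.Amaj (Cmaj d) (Lcut d n) ((h : ℚ) : ℝ) (.stub x) u ≤ ε :=
          hfdA (.stub x) u (hclean x hx hb u hu1 (Ne.symm hxu))
        have h1 : π.Amaj (Cmaj d) (Lcut d n) ((h : ℚ) : ℝ) (.stub x) v *
            (π.jmaj (Cmaj d) (Lcut d n) ((h : ℚ) : ℝ) u + 1 / (π.l : ℝ)) ≤ ε * (1 + 1) :=
          mul_le_mul hAv (by linarith) (by positivity) hε0.le
        linarith

end Claimed.Agent.R275
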