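import Claimed.Agent.R275.S6BrB

/-!
# Row 275, Sec 6: THE BRIDGE to Sec 4, assembled (`∀ᶠ n, S6Br`)

Owner: helper208.  PROVED here from the statements of `S6BrA.lean`, `S6BrB.lean`, `S4Cor.lean`.
The internal constants `C0` (row squares) and `CK = CQ = CJ` (entries of `K_all, Q_all, J_all`) are chosen here.
-/

set_option autoImplicit false

namespace Claimed.Agent.R275

open Matrix Filter

/-- entries of the stub matrices (`s4c_entries`) -/
theorem s6br_trace (d : ℕ) (hd : 3 ≤ d) (P : S6Par) (c : S6Cst) (G : S6Good P c) : ∃ Ct : ℝ, 0 < Ct ∧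
    ∀ᶠ n : ℕ in atTop, ∀ π : PPair n d, π.Cur P.cp c.CM c.CR c.η0 c.Rc →
      ∀ h ∈ trackedList d n P.cp, ∀ s : Bool,
        π.S6TrF (sgn s) ((h : ℚ) : ℝ) Ct (Ct / alphaf d ((h : ℚ) : ℝ))
          (Ct * (n : ℝ) ^ ((125 / 1000 : ℝ) * (aa : ℝ)) / alphaf d ((h : ℚ) : ℝ) ^ 2) := by
  obtain ⟨Ct, hCt, H⟩ := s4c_entries d hd P.cp G.cp_pos G.cp_le
  refine ⟨Ct, hCt, ?_⟩
  filter_upwards [H c.CM c.CR c.η0 c.Rc] with n hn π hπ h hh s
  exact ⟨fun x y => (hn π hπ h hh s x y).1, fun x y => (hn π hπ h hh s x y).2.1,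
    fun x y => (hn π hπ h hh s x y).2.2⟩

/-- THE BRIDGE -/
theorem s6_bridge (d : ℕ) (hd : 3 ≤ d) (P : S6Par) (c : S6Cst) (G : S6Good P c) :
    ∃ C0 CK CQ CJ : ℝ, ∀ C : ℝ, ∀ᶠ n : ℕ in atTop, S6Br d n P (c.setInt C0 CK CQ CJ) C := by
  obtain ⟨C0, -, hF⟩ := s6br_facts d hd P c G
  obtain ⟨Ct, -, hT⟩ := s6br_trace d hd P c G
  refine ⟨C0, Ct, Ct, Ct, fun C => ?_⟩
  filter_upwards [hF, hT, s6br_range d hd P.cp G.cp_pos G.cp_le, s6br_umaj d hd, s6br_adm d hd P c G,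
    s6br_tr d hd P c G] with n hF hT hR hU hA hTr
  exact
    { hd := hd
      hrange := fun h hh => ⟨(hR h hh).1, (hR h hh).2.1, (hR h hh).2.2.2⟩
      prim_sub := s6br_prim_sub d n P.cp
      facts := fun π₁ π t I h hh s => hF π₁ π I.cl h hh s
      trace := fun π₁ π t I h hh s => hT π I.cur h hh s
      adm := fun π₁ π t I u v hu hv => hA π₁ π I.cl u v hu hv
      tr := fun π₁ π t I u v hu hv a ha hau hav h hh => hTr π₁ π I.cl u v hu hv a ha hau hav h hh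
      umaj := hU }

end Claimed.Agent.R275
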