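import Claimed.Agent.R275.S6Sum

/-!
# Row 275, Sec 6 (cleanup.tex), package S6-BUD-A (histories, partner sets, Lemma 6.2 along a history) of S6-BUD-*: the accumulated discounts along a history are bounded

Owner of the statements: helper208.  FIXED `n`.  Hypotheses: `O : S6One c.C0 C`, `Br : S6Br d n P c C`, `Nm : S6NumOK d n P c C`, a history `H` all of whose
states `path 0, …, path t` satisfy the invariant `S6Inv`, `t < bb n`, fewer than `bb n` bad stubs at `π₁`.
Conclusion for every account `i`:  `∏_{s ≤ t} ratio i (path s) ≤ 2`.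
May assume every statement of `S6Phase, S6Step, S6Ent, S6Diag, S6Jump, S6Trace, S6Path, S6Sum`, `S3Excess`, `Accounts`.

ROUTE (same for the four analytic families).
1. `s6_hist_chain`: a history is a chain of exposures with `us s = s6first`, `vs s ∈ s6elig`.
2. `s6_hist_set`: at each step the eligible set `I_s` (and `I_s` minus two stubs) is an `S6Set` with `om = bb n + 2`, and `l₀/2 ≤ |I_s|`.
3. `s6_hist_seq`: Lemma 6.2 (`s6_pathwise`, terminal graph `path t`) gives `S6Seq`.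
4. per-step ratio bound (`s6_ratio_*`): `ratio ≤ 1 + c_s`, from `s6_lavg_cands` + `s6_square_step` / `S6One.diag` / `excess_avg_le_sign` (with `S6One.jump`, `Nm.J`).
5. `∑ c_s ≤ 1/2` by `s6_sum_*` and `Nm.L1b / L0b / T1 / E1 + E2`; `s6_prod_le_two`.
-/

set_option autoImplicit false

namespace Claimed.Agent.R275

open Matrix

variable {n d : ℕ} {ιs : Type} {P : S6Par} {c : S6Cst} {C κ : ℝ} {SA : Phase ℝ (PPair n d) ιs} {π₁ : PPair n d}

/-- a history of the cleanup phase all of whose states up to time `t` satisfy the invariant -/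
def S6Hist (P : S6Par) (c : S6Cst) (C : ℝ) (SA : Phase ℝ (PPair n d) ιs) (π₁ : PPair n d) (path : ℕ → PPair n d)
    (t : ℕ) : Prop :=
  (s6Phase ℝ d n P SA π₁).IsHist (S6Inv P c C π₁) π₁ path t

/-- the eligible set as a Finset -/
def s6I (π₁ π : PPair n d) (u : Stub n d) : Finset (Stub n d) := (π₁.s6elig π u).toFinset

/-- the partners for which the labels `a, b` survive -/
def s6Isurv (π₁ π : PPair n d) (u : Stub n d) (a b : Label n d) : Finset (Stub n d) :=
  (s6I π₁ π u).filter fun v => Label.stub v ≠ a ∧ Label.stub v ≠ b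

section Hist

variable {path : ℕ → PPair n d} {t : ℕ}

theorem s6_hist_chain (H : S6Hist P c C SA π₁ path t) :
    ∃ us vs : ℕ → Stub n d, PPair.S6Chain t path us vs ∧
      ∀ s ≤ t, π₁.s6first (path s) = some (us s) ∧ vs s ∈ π₁.s6elig (path s) (us s) := by
  obtain ⟨_, _, hc⟩ := H
  have key : ∀ s ≤ t, ∃ u v, π₁.s6first (path s) = some u ∧ v ∈ π₁.s6elig (path s) u ∧
      path (s + 1) = (path s).resolve u v := fun s hs => (PPair.s6_mem_cands π₁ (path s) _).1 (hc s hs)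
  obtain ⟨u0, v0, _⟩ := key 0 (Nat.zero_le t)
  have key2 : ∀ s, ∃ p : Stub n d × Stub n d, s ≤ t →
      (π₁.s6first (path s) = some p.1 ∧ p.2 ∈ π₁.s6elig (path s) p.1 ∧
        path (s + 1) = (path s).resolve p.1 p.2) := by
    intro s
    by_cases hs : s ≤ t
    · obtain ⟨u, v, h⟩ := key s hs
      exact ⟨(u, v), fun _ => h⟩
    · exact ⟨(u0, v0), fun h => absurd h hs⟩
  choose p hp using key2
  refine ⟨fun s => (p s).1, fun s => (p s).2, ⟨?_, ?_, ?_, ?_⟩, fun s hs => ⟨(hp s hs).1, (hp s hs).2.1⟩⟩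
  · intro s hs
    exact (PPair.s6first_spec π₁ (path s) (hp s hs).1).1
  · intro s hs
    exact ((PPair.s6_mem_elig π₁ (path s) _ _).1 (hp s hs).2.1).2.2.1
  · intro s hs
    exact (((PPair.s6_mem_elig π₁ (path s) _ _).1 (hp s hs).2.1).2.2.2).symm
  · intro s hs
    exact (hp s hs).2.2

end Hist

section Step

variable {t : ℕ} {π : PPair n d} {u : Stub n d}

/-- sizes at a state of the invariant -/
theorem s6_inv_sizes (Nm : S6NumOK d n P c C) (I : S6Inv P c C π₁ t π) (ht : t < bb n) :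
    l0 n + 2 ≤ π.l ∧ π.l ≤ l1 n := by
  have h := I.l_eq
  unfold l1 at h ⊢
  constructor <;> omega

theorem s6ba_mem_I (π₁ π : PPair n d) (u v : Stub n d) :
    v ∈ s6I π₁ π u ↔ π₁.Unres v ∧ ¬ π₁.Bad (R0 d n) v ∧ π.Unres v ∧ v ≠ u := by
  unfold s6I
  rw [List.mem_toFinset]
  exact PPair.s6_mem_elig π₁ π u v

theorem s6ba_I_sub (π₁ π : PPair n d) (u : Stub n d) : s6I π₁ π u ⊆ π.unres.erase u := by
  intro v hv
  have := (s6ba_mem_I π₁ π u v).1 hv
  exact Finset.mem_erase.2 ⟨this.2.2.2, Finset.mem_filter.2 ⟨Finset.mem_univ _, this.2.2.1⟩⟩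

/-- the eligible set is large -/
theorem s6_I_card (Nm : S6NumOK d n P c C) (I : S6Inv P c C π₁ t π) (ht : t < bb n)
    (fb : (π₁.badL (R0 d n)).length < bb n) (hu : π₁.s6first π = some u) :
    (l0 n : ℝ) / 2 ≤ ((s6I π₁ π u).card : ℝ) ∧ ((s6I π₁ π u).card : ℝ) ≤ (π.l : ℝ) := by
  have hnd := PPair.s6_nodup_elig π₁ π u
  have hcard : (s6I π₁ π u).card = (π₁.s6elig π u).length := List.toFinset_card_of_nodup hnd
  have h1 := PPair.s6elig_card π₁ π I.le u
  have h2 := (s6_inv_sizes Nm I ht).1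
  have h3 := Nm.b_le
  have h4 : (s6I π₁ π u).card ≤ π.l :=
    Finset.card_le_card ((s6ba_I_sub π₁ π u).trans (Finset.erase_subset _ _))
  constructor
  · have h5 : l0 n ≤ 2 * (s6I π₁ π u).card := by omega
    have h6 : (l0 n : ℝ) ≤ 2 * ((s6I π₁ π u).card : ℝ) := by exact_mod_cast h5
    linarith
  · exact_mod_cast h4

theorem s6ba_card_stub_eq (a : Label n d) :
    ((Finset.univ : Finset (Stub n d)).filter fun v => Label.stub v = a).card ≤ 1 := by
  rw [Finset.card_le_one]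
  intro x hx y hy
  have h1 := (Finset.mem_filter.1 hx).2
  have h2 := (Finset.mem_filter.1 hy).2
  have h3 : Label.stub x = (Label.stub y : Label n d) := h1.trans h2.symm
  injection h3

/-- the eligible set, and its subsets omitting two more stubs, are partner sets in the sense of `S6Set` -/
theorem s6_inv_set (Br : S6Br d n P c C) (Nm : S6NumOK d n P c C) (I : S6Inv P c C π₁ t π) (ht : t < bb n)
    (fb : (π₁.badL (R0 d n)).length < bb n) (hu : π₁.s6first π = some u) (a b : Label n d)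
    (h : ℚ) (hh : h ∈ trackedList d n P.cp) :
    π.S6Set (Cmaj d) (Lcut d n) ((h : ℚ) : ℝ) (s6N d n P c) (s6om n) u (s6I π₁ π u) ∧
      π.S6Set (Cmaj d) (Lcut d n) ((h : ℚ) : ℝ) (s6N d n P c) (s6om n) u (s6Isurv π₁ π u a b) := by
  have hU := (PPair.s6first_spec π₁ π hu).1
  have hsub := s6ba_I_sub π₁ π u
  have hadm : ∀ v ∈ s6I π₁ π u, π.S6Adm (Cmaj d) (Lcut d n) ((h : ℚ) : ℝ) (s6N d n P c) u v := fun v hv =>
    (Br.adm π₁ π t I u v hu (List.mem_toFinset.1 hv)).2 h hh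
  have hc1 : (π.unres \ s6I π₁ π u).card ≤ bb n := by
    have hs : π.unres \ s6I π₁ π u ⊆ (π₁.badL (R0 d n)).toFinset ∪ {u} := by
      intro x hx
      obtain ⟨hx1, hx2⟩ := Finset.mem_sdiff.1 hx
      have hx3 : π.Unres x := (Finset.mem_filter.1 hx1).2
      have hx4 : π₁.Unres x := PPair.s6_Le_unres π₁ I.le hx3
      rw [Finset.mem_union, List.mem_toFinset, Finset.mem_singleton]
      by_cases hb : π₁.Bad (R0 d n) x
      · exact Or.inl ((PPair.s6_mem_badL π₁ _ x).2 hb)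
      · by_cases hxu : x = u
        · exact Or.inr hxu
        · exact absurd ((s6ba_mem_I π₁ π u x).2 ⟨hx4, hb, hx3, hxu⟩) hx2
    have h1 := Finset.card_le_card hs
    have h2 := Finset.card_union_le (π₁.badL (R0 d n)).toFinset {u}
    have h3 := List.toFinset_card_le (π₁.badL (R0 d n))
    rw [Finset.card_singleton] at h2
    omega
  have hc2 : (π.unres \ s6Isurv π₁ π u a b).card ≤ bb n + 2 := by
    have hs : π.unres \ s6Isurv π₁ π u a b ⊆ (π.unres \ s6I π₁ π u) ∪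
        (((Finset.univ : Finset (Stub n d)).filter fun v => Label.stub v = a) ∪
          ((Finset.univ : Finset (Stub n d)).filter fun v => Label.stub v = b)) := by
      intro x hx
      obtain ⟨hx1, hx2⟩ := Finset.mem_sdiff.1 hx
      simp only [Finset.mem_union, Finset.mem_sdiff, Finset.mem_filter, Finset.mem_univ, true_and]
      by_cases hxI : x ∈ s6I π₁ π u
      · right
        by_contra hcon
        rw [not_or] at hcon
        exact hx2 (Finset.mem_filter.2 ⟨hxI, hcon.1, hcon.2⟩)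
      · exact Or.inl ⟨hx1, hxI⟩
    have h1 := Finset.card_le_card hs
    have h2 := Finset.card_union_le (π.unres \ s6I π₁ π u)
      (((Finset.univ : Finset (Stub n d)).filter fun v => Label.stub v = a) ∪
          ((Finset.univ : Finset (Stub n d)).filter fun v => Label.stub v = b))
    have h3 := Finset.card_union_le ((Finset.univ : Finset (Stub n d)).filter fun v => Label.stub v = a)
          ((Finset.univ : Finset (Stub n d)).filter fun v => Label.stub v = b)
    have h4 := s6ba_card_stub_eq a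
    have h5 := s6ba_card_stub_eq b
    omega
  refine ⟨⟨hU, hsub, ?_, hadm⟩, ⟨hU, (Finset.filter_subset _ _).trans hsub, hc2, ?_⟩⟩
  · unfold s6om
    omega
  · intro v hv
    exact hadm v (Finset.mem_filter.1 hv).1

theorem s6ba_diag (π : PPair n d) (X : Matrix (Fin n) (Fin n) ℝ) (x : Stub n d) :
    ((π.Xi ℝ)ᵀ * (X * π.Xi ℝ)) x x = if π.Unres x then π.ent X (.stub x) (.stub x) else 0 := by
  simp only [Matrix.mul_apply, Matrix.transpose_apply, PPair.Xi]
  split_ifs with hx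
  · simp only [PPair.ent, PPair.lvec, dotProduct, Matrix.mulVec]
  · simp

/-- `∑_{x ∈ S} ξ_xᵀ X ξ_x = Tr(𝒟 X)` -/
theorem s6ba_sum_ent (π : PPair n d) (X : Matrix (Fin n) (Fin n) ℝ) :
    ∑ x ∈ π.unres, π.ent X (.stub x) (.stub x) = (π.Dcal ℝ * X).trace := by
  rw [PPair.Dcal_eq_Xi_mul, Matrix.mul_assoc, Matrix.trace_mul_comm, Matrix.mul_assoc, Matrix.trace]
  simp only [Matrix.diag_apply, s6ba_diag]
  rw [← Finset.sum_filter]
  rfl

/-- `Y_E = L_1 - ∑_x T_{xx}` -/
theorem s6ba_YE_eq (π : PPair n d) (hn : 0 < n) (hl : 0 < π.l) (L : ℕ) (hL : 0 < L) (σ h : ℝ) :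
    π.YE L σ h = π.L1 σ h - ∑ x ∈ π.unres, ∑ k ∈ Finset.range L, (σ * h) ^ k * π.tCoef k x x := by
  have hT : ∀ x : Stub n d, π.ent (π.Pmat L σ h) (.stub x) (.stub x) =
      (∑ k ∈ Finset.range L, (σ * h) ^ k * π.tCoef k x x) + (1 - (π.l : ℝ)⁻¹) := by
    intro x
    rw [π.ft_ent_Pmat hn hl]
    have e : ∑ k ∈ Finset.range L, (σ * h) ^ k * (if k = 0 then (1 : ℝ) - (π.l : ℝ)⁻¹ else 0) =
        1 - (π.l : ℝ)⁻¹ := by
      rw [Finset.sum_eq_single 0 (fun k _ hk => by rw [if_neg hk, mul_zero])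
        (fun h0 => absurd (Finset.mem_range.2 hL) h0)]
      simp
    rw [← e, ← Finset.sum_add_distrib]
    refine Finset.sum_congr rfl fun k _ => ?_
    unfold PPair.tCoef
    rw [if_pos rfl]
    ring
  have hl' : (π.l : ℝ) ≠ 0 := Nat.cast_ne_zero.2 hl.ne'
  have hc : ∑ _x ∈ π.unres, (1 - (π.l : ℝ)⁻¹) = (π.l : ℝ) - 1 := by
    rw [Finset.sum_const, nsmul_eq_mul]
    have : (π.unres.card : ℝ) = (π.l : ℝ) := rfl
    rw [this]
    field_simp
  have hY : π.YE L σ h = ∑ x ∈ π.unres, (π.ent (π.Wmat σ h) (.stub x) (.stub x)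
      - π.ent (π.Pmat L σ h) (.stub x) (.stub x)) := by
    unfold PPair.YE PPair.eEnt PPair.Emat
    exact Finset.sum_congr rfl fun x _ => π.ft_ent_sub _ _ _ _
  rw [hY, Finset.sum_sub_distrib, s6ba_sum_ent, Finset.sum_congr rfl fun x _ => hT x,
    Finset.sum_add_distrib, hc]
  unfold PPair.L1 PPair.F1
  ring

/-- `|Y_E| ≤ n^{.09a}/α_* + Qa` -/
theorem s6_inv_YE (Br : S6Br d n P c C) (I : S6Inv P c C π₁ t π) (h : ℚ) (hh : h ∈ trackedList d n P.cp) (s : Bool) :
    |π.YE (Lcut d n) (sgn s) ((h : ℚ) : ℝ)| ≤ s6YEb d n c := by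
  have F := Br.facts π₁ π t I h hh s
  have hl := F.s6s_l_pos
  rw [s6ba_YE_eq π F.hn hl _ F.hL]
  have h1 : |π.L1 (sgn s) ((h : ℚ) : ℝ)| ≤ (n : ℝ) ^ ((9 / 100 : ℝ) * (aa : ℝ)) / alphaS d n :=
    (I.caps h hh s).hL1
  have h2 : |∑ x ∈ π.unres, ∑ k ∈ Finset.range (Lcut d n), (sgn s * ((h : ℚ) : ℝ)) ^ k * π.tCoef k x x| ≤
      s6Qa d n c := by
    refine (Finset.abs_sum_le_sum_abs _ _).trans (le_trans (Finset.sum_le_sum fun x hx => ?_) F.sumJ1)
    have hx' : π.Unres x := (Finset.mem_filter.1 hx).2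
    exact (PPair.ft_abs_sum_le _ _ F.hσ F.hh.le _ _).trans (F.majJ x hx')
  unfold s6YEb
  have h3 := abs_sub (π.L1 (sgn s) ((h : ℚ) : ℝ))
    (∑ x ∈ π.unres, ∑ k ∈ Finset.range (Lcut d n), (sgn s * ((h : ℚ) : ℝ)) ^ k * π.tCoef k x x)
  linarith

end Step

/-! ### Lemma 6.2 along a history -/

section Seq

variable {path : ℕ → PPair n d} {t : ℕ} {us vs : ℕ → Stub n d}

/-- the sequences of a history satisfy `S6Seq`.  Labels `a, b` are arbitrary: where a label is not alive the entry cap is not available, so the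
sequences are cut off (`0`) there. -/
theorem s6_hist_seq (Br : S6Br d n P c C) (Nm : S6NumOK d n P c C) (H : S6Hist P c C SA π₁ path t) (ht : t < bb n)
    (Ch : PPair.S6Chain t path us vs) (hus : ∀ s ≤ t, π₁.s6first (path s) = some (us s))
    (h : ℚ) (hh : h ∈ trackedList d n P.cp) (s' : Bool) (a b : Label n d) :
    S6Seq d n P c (t + 1) (fun s => (path s).l)
      (fun s => if (path s).Alive a then (path s).rmaj (Cmaj d) (Lcut d n) (sgn s') ((h : ℚ) : ℝ) a (us s) else 0)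
      (fun s => if (path s).Alive b then (path s).rmaj (Cmaj d) (Lcut d n) (sgn s') ((h : ℚ) : ℝ) b (us s) else 0)
      (fun s => (path s).jmaj (Cmaj d) (Lcut d n) ((h : ℚ) : ℝ) (us s))
      (fun s => (path s).YE (Lcut d n) (sgn s') ((h : ℚ) : ℝ))
      (fun s => (path s).TS (Lcut d n) (sgn s') ((h : ℚ) : ℝ)) := by
  obtain ⟨_, hI, _⟩ := H
  have hd := Br.hd
  obtain ⟨hh0, hhz, _⟩ := Br.hrange h hh
  have hCm : 0 ≤ Cmaj d := by unfold Cmaj; positivity
  have hF : ∀ s ≤ t, (path s).S6Facts (Cmaj d) (Lcut d n) (sgn s') ((h : ℚ) : ℝ) c.C0 (s6N d n P c) :=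
    fun s hs => Br.facts π₁ (path s) s (hI s hs) h hh s'
  have hsz : ∀ s ≤ t, l0 n + 2 ≤ (path s).l ∧ (path s).l ≤ l1 n :=
    fun s hs => s6_inv_sizes Nm (hI s hs) (by omega)
  have hlt : ∀ {s : ℕ}, s < t + 1 → s ≤ t := fun hs => by omega
  have hr0 : ∀ (a : Label n d) (s : ℕ),
      0 ≤ (path s).rmaj (Cmaj d) (Lcut d n) (sgn s') ((h : ℚ) : ℝ) a (us s) := fun a s =>
    add_nonneg ((path s).s43v_maj_nonneg (Cmaj d) hCm hd (Lcut d n) _ hh0.le a (us s) (us s) (us s).1 (us s).1).2.2.2.1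
      (abs_nonneg _)
  have hBm0 : 0 ≤ s6Bm n P := by
    unfold s6Bm
    have := Nm.B_pos 4
    linarith
  have hW : (path t).WalkOK c.CM c.CR c.η0 c.Rc := (hI t le_rfl).walk
  have hU : ∀ s ≤ t, |Umaj d (Cmaj d) (path s).l (Lcut d n) ((h : ℚ) : ℝ)| ≤ s6Ub d n := by
    intro s hs
    have h1 := Br.umaj (path s).l (by have := (hsz s hs).1; omega) _ hh0.le hhz
    have h2 : 0 ≤ Cmaj d / ((path s).l : ℝ) := by positivity
    linarith
  have hE : ∀ (a : Label n d), ∀ s ≤ t, (path s).Alive a →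
      |(path s).eEnt (Lcut d n) (sgn s') ((h : ℚ) : ℝ) a (us s)| ≤ s6Bm n P := fun a s hs ha =>
    (hF s hs).cap a (.stub (us s)) ha (Ch.hu s hs)
  have hPW := fun a : Label n d => PPair.s6_pathwise (Cm := Cmaj d) (σ := sgn s') hd Ch hW hh0.le hhz hU a
    (fun s => (path s).Alive a) (hE a)
  have hn0 : (0 : ℝ) ≤ (n : ℝ) ^ c.η0 := by positivity
  have hd0 : (0 : ℝ) ≤ d := Nat.cast_nonneg d
  have htb : (t : ℝ) + 1 ≤ (bb n : ℝ) := by exact_mod_cast ht
  have hCM : 0 ≤ c.CM :=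
    (((path t).Nact_le_Qmat 0 ⟨0, Nm.hn⟩ ⟨0, Nm.hn⟩).1).trans (hW.mult _ _ 0 (Nat.zero_le _))
  have hsqs : 0 ≤ s6Ub d n ^ 2 + s6Bm n P ^ 2 := by positivity
  have hra : ∀ a : Label n d, ∑ s ∈ Finset.range (t + 1),
      (if (path s).Alive a then (path s).rmaj (Cmaj d) (Lcut d n) (sgn s') ((h : ℚ) : ℝ) a (us s) else 0) ^ 2 ≤
        s6R2 d n P c := by
    intro a
    refine (hPW a).1.trans ?_
    unfold s6R2
    have h1 : 3 * ((t : ℝ) + 1) * (s6Ub d n ^ 2 + s6Bm n P ^ 2) ≤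
        3 * (bb n : ℝ) * (s6Ub d n ^ 2 + s6Bm n P ^ 2) :=
      mul_le_mul_of_nonneg_right (by linarith) hsqs
    have h2 : 0 ≤ 2 * (d : ℝ) * (n : ℝ) ^ c.η0 := by positivity
    linarith
  refine
    { hT := ht
      l_le := fun s hs => (hsz s (hlt hs)).2
      l_ge := fun s hs => by have := (hsz s (hlt hs)).1; omega
      ra0 := fun s _ => ?_
      rb0 := fun s _ => ?_
      ju0 := fun s _ =>
        ((path s).s43v_maj_nonneg (Cmaj d) hCm hd (Lcut d n) _ hh0.le a (us s) (us s) (us s).1 (us s).1).2.2.2.2.1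
      rb2 := fun s hs => ?_
      ra_sq := hra a
      rb_sq := hra b
      ju_sq := ?_
      hYE := fun s hs => s6_inv_YE Br (hI s (hlt hs)) h hh s'
      TS0 := fun s _ => Finset.sum_nonneg fun _ _ => sq_nonneg _
      hTS := fun s hs => (hI s (hlt hs)).ts h hh s'
      Bm0 := hBm0
      Qa0 := ?_
      l0pos := lt_of_lt_of_le (by norm_num) Nm.l0_ge }
  · show 0 ≤ if (path s).Alive a then _ else _
    split_ifs
    · exact hr0 a s
    · exact le_rfl
  · show 0 ≤ if (path s).Alive b then _ else _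
    split_ifs
    · exact hr0 b s
    · exact le_rfl
  · show (if (path s).Alive b then _ else _) ≤ (2 : ℝ)
    split_ifs with hb
    · exact (hF s (hlt hs)).supR b (us s) hb (Ch.hu s (hlt hs))
    · norm_num
  · refine (hPW a).2.trans ?_
    unfold s6R2
    have h1 : 2 * ((t : ℝ) + 1) * s6Ub d n ^ 2 ≤ 3 * (bb n : ℝ) * (s6Ub d n ^ 2 + s6Bm n P ^ 2) := by
      have hu2 := sq_nonneg (s6Ub d n)
      have hb2 := sq_nonneg (s6Bm n P)
      have hbb : (0 : ℝ) ≤ bb n := Nat.cast_nonneg _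
      nlinarith [mul_le_mul_of_nonneg_right htb hu2, mul_nonneg hbb hu2, mul_nonneg hbb hb2]
    have h2 : 0 ≤ 6 * (d : ℝ) * c.CM * (Lcut d n : ℝ) ^ 2 := by positivity
    linarith
  · unfold s6Qa
    positivity

end Seq


end Claimed.Agent.R275
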