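import Claimed.Agent.R275.S6BudA

/-!
# Row 275, Sec 6, package S6-BUD-E: budgets of the entry accounts (Lemmas 6.6, 6.7, Cor 3.3)

Owner of the statements: helper208.  ROUTE and hypotheses: see the header of `S6BudA.lean` (all its statements may be assumed).
-/

set_option autoImplicit false

namespace Claimed.Agent.R275

open Matrix

variable {n d : ℕ} {ιs : Type} {P : S6Par} {c : S6Cst} {C κ : ℝ} {SA : Phase ℝ (PPair n d) ιs} {π₁ : PPair n d}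

/-! ### small tools -/

theorem s6be_lev_le (π₁ : PPair n d) (a : Label n d) : π₁.s6lev a ≤ 2 := by
  cases a with
  | glob i => exact le_rfl
  | stub x =>
    show (if π₁.Bad (R0 d n) x then 1 else 0) ≤ 2
    split_ifs <;> omega

theorem s6be_Bk_mono (Nm : S6NumOK d n P c C) : Monotone (s6Bk n P) := by
  intro k k' hk
  unfold s6Bk
  have := Nm.B_mono (min k 4) (min k' 4) (min_le_min_right 4 hk)
  linarith

theorem s6be_Bk_nonneg (Nm : S6NumOK d n P c C) (k : ℕ) : 0 ≤ s6Bk n P k := by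
  unfold s6Bk
  have := Nm.B_pos (min k 4)
  linarith

theorem s6be_Bk_le (Nm : S6NumOK d n P c C) (k : ℕ) : s6Bk n P k ≤ s6Bm n P := by
  unfold s6Bk s6Bm
  have := Nm.B_mono (min k 4) 4 (min_le_right k 4)
  linarith

theorem s6be_l_ge {t : ℕ} {π : PPair n d} (I : S6Inv P c C π₁ t π) : l0 n ≤ π.l := by
  have h1 := I.l_eq
  have h2 := I.t_le
  unfold l1 at h1
  omega

/-- `1 / l ≤ B_m` -/
theorem s6be_inv_l_le (Nm : S6NumOK d n P c C) {t : ℕ} {π : PPair n d} (I : S6Inv P c C π₁ t π) :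
    1 / (π.l : ℝ) ≤ s6Bm n P := by
  have hl0 : (64 : ℝ) ≤ (l0 n : ℝ) := by exact_mod_cast Nm.l0_ge
  have hl : (l0 n : ℝ) ≤ (π.l : ℝ) := by exact_mod_cast s6be_l_ge I
  have hn : (1 : ℝ) ≤ (n : ℝ) := by exact_mod_cast Nm.hn
  have hs0 : 0 < Real.sqrt (l0 n) := Real.sqrt_pos.2 (by linarith)
  have hs1 : Real.sqrt (l0 n) ≤ (l0 n : ℝ) := by
    have h1 : (1 : ℝ) ≤ Real.sqrt (l0 n) := by
      rw [show (1 : ℝ) = Real.sqrt 1 by simp]
      exact Real.sqrt_le_sqrt (by linarith)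
    have h2 := Real.mul_self_sqrt (show (0 : ℝ) ≤ (l0 n : ℝ) by linarith)
    nlinarith
  have h1 : 1 / (π.l : ℝ) ≤ 1 / Real.sqrt (l0 n) :=
    one_div_le_one_div_of_le hs0 (hs1.trans hl)
  have h2 : 1 / Real.sqrt (l0 n) ≤ (n : ℝ) ^ ((33 / 100 : ℝ) * (aa : ℝ)) / Real.sqrt (l0 n) := by
    apply div_le_div_of_nonneg_right _ hs0.le
    apply Real.one_le_rpow hn
    have : (0 : ℝ) ≤ (aa : ℝ) := by unfold aa; norm_num
    positivity
  have h3 := Nm.IE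
  have h4 := Nm.B_mono 0 4 (by norm_num)
  have h5 := Nm.B_pos 4
  unfold s6Bm
  linarith

theorem s6be_mem_surv {π : PPair n d} {u v : Stub n d} {a b : Label n d} :
    v ∈ s6Isurv π₁ π u a b ↔ v ∈ π₁.s6elig π u ∧ Label.stub v ≠ a ∧ Label.stub v ≠ b := by
  unfold s6Isurv s6I
  rw [Finset.mem_filter, List.mem_toFinset]


theorem s6be_mem_unres (π : PPair n d) (x : Stub n d) : x ∈ π.unres ↔ π.Unres x := by
  unfold PPair.unres
  simp

theorem s6be_alive_resolve {π : PPair n d} {u v : Stub n d} (hu : π.Unres u) (hv : π.Unres v) (huv : u ≠ v)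
    (a : Label n d) : (π.resolve u v).Alive a ↔ π.Alive a ∧ a ≠ .stub u ∧ a ≠ .stub v := by
  cases a with
  | glob i => simp [PPair.Alive]
  | stub x =>
    show (π.resolve u v).Unres x ↔ π.Unres x ∧ Label.stub x ≠ .stub u ∧ Label.stub x ≠ .stub v
    rw [← s6be_mem_unres, PPair.resolve_unres hu hv huv, Finset.mem_erase, Finset.mem_erase, s6be_mem_unres]
    constructor
    · rintro ⟨h1, h2, h3⟩
      exact ⟨h3, fun e => h2 (Label.stub.inj e), fun e => h1 (Label.stub.inj e)⟩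
    · rintro ⟨h1, h2, h3⟩
      exact ⟨fun e => h3 (by rw [e]), fun e => h2 (by rw [e]), h1⟩

/-- the value of an entry account -/
theorem s6be_Z_eq (h : ℚ) (s ε : Bool) (a b : Label n d) (π' : PPair n d) :
    (s6Phase ℝ d n P SA π₁).Z (Sum.inr (S6Lab.ent h s ε a b)) π' =
      if π'.Alive a ∧ π'.Alive b then
        excessZ P.p (sgn ε * π'.Eent (Lcut d n) (sgn s) ((h : ℚ) : ℝ) a b) (s6Brl n P (π₁.s6lev a + π₁.s6lev b))
          (s6lamr n P * s6Brl n P (π₁.s6lev a + π₁.s6lev b))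
      else 0 := by
  show s6Zv ℝ d n P π₁ (S6Lab.ent h s ε a b) π' = _
  simp only [s6Zv, s6Brl, s6lamr, Rat.cast_mul]

/-- averages over the candidates as list averages over the eligible partners -/
theorem s6be_avg_eq {π : PPair n d} {u : Stub n d} (hu : π₁.s6first π = some u) (i : ιs ⊕ S6Lab n d) :
    (s6Phase ℝ d n P SA π₁).avg i π =
      lavg (π₁.s6elig π u) (fun v => (s6Phase ℝ d n P SA π₁).Z i (π.resolve u v)) := by
  rw [Phase.avg_eq_lavg]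
  show lavg (π₁.s6cands π) _ = _
  unfold lavg PPair.s6cands
  rw [hu]
  simp only [List.map_map, List.length_map]
  rfl

/-- list averages over the eligible partners as Finset sums -/
theorem s6be_lavg_elig (π : PPair n d) (u : Stub n d) (f : Stub n d → ℝ) :
    lavg (π₁.s6elig π u) f = (∑ v ∈ s6I π₁ π u, f v) / ((s6I π₁ π u).card : ℝ) := by
  have hnd := PPair.s6_nodup_elig π₁ π u
  unfold lavg s6I
  rw [List.toFinset_card_of_nodup hnd, List.sum_toFinset _ hnd]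

section Step

variable {t : ℕ} {π : PPair n d} {u : Stub n d}

/-- LEMMA 6.6 at a state of the invariant: every surviving increment is at most `λ B_k` -/
theorem s6_inv_jump (O : S6One c.C0 C) (Br : S6Br d n P c C) (Nm : S6NumOK d n P c C) (I : S6Inv P c C π₁ t π)
    (hu : π₁.s6first π = some u) (h : ℚ) (hh : h ∈ trackedList d n P.cp) (s : Bool) (a b : Label n d)
    (ha : π.Alive a) (hb : π.Alive b) (hau : a ≠ .stub u) (hbu : b ≠ .stub u) (v : Stub n d)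
    (hv : v ∈ s6Isurv π₁ π u a b) :
    |π.dEent (Lcut d n) (sgn s) ((h : ℚ) : ℝ) u v a b| ≤
      s6lamr n P * s6Brl n P (π₁.s6lev a + π₁.s6lev b) := by
  obtain ⟨hvel, hva, hvb⟩ := s6be_mem_surv.1 hv
  have F := Br.facts π₁ π t I h hh s
  have A := (Br.adm π₁ π t I u v hu hvel).2 h hh
  have Ta := Br.tr π₁ π t I u v hu hvel a ha hau (fun e => hva e.symm) h hh
  have Tb := Br.tr π₁ π t I u v hu hvel b hb hbu (fun e => hvb e.symm) h hh
  have hδ : 0 ≤ s6del n c := by unfold s6del; positivity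
  have key := O.jump π (Cmaj d) (Lcut d n) (sgn s) ((h : ℚ) : ℝ) (s6N d n P c) π₁.s6lev (s6Bk n P) (s6del n c)
    u v a b F A ha hb (s6be_Bk_mono Nm) (s6be_Bk_nonneg Nm) (s6be_Bk_le Nm) (s6be_inv_l_le Nm I)
    (I.lev h hh s) hδ Ta Tb
  have hk : π₁.s6lev a + π₁.s6lev b ≤ 4 := by
    have := s6be_lev_le π₁ a
    have := s6be_lev_le π₁ b
    omega
  exact key.trans (Nm.J _ hk)

/-- a dead entry account, or one whose axis is the prescribed endpoint, has ratio `1` -/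
theorem s6_ratio_ent_dead (hu : π₁.s6first π = some u) (h : ℚ) (s ε : Bool) (a b : Label n d)
    (hdead : ¬ (π.Alive a ∧ π.Alive b) ∨ a = .stub u ∨ b = .stub u) :
    (s6Phase ℝ d n P SA π₁).ratio (Sum.inr (S6Lab.ent h s ε a b)) π = 1 := by
  unfold Phase.ratio
  rcases hdead with hd | hd
  · rw [s6be_Z_eq, if_neg hd, div_zero]
    simp
  · have h0 : (s6Phase ℝ d n P SA π₁).avg (Sum.inr (S6Lab.ent h s ε a b)) π = 0 := by
      rw [s6be_avg_eq hu]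
      have hz : ∀ v ∈ π₁.s6elig π u,
          (s6Phase ℝ d n P SA π₁).Z (Sum.inr (S6Lab.ent h s ε a b)) (π.resolve u v) = 0 := by
        intro v hv
        obtain ⟨hu1, -, -⟩ := PPair.s6first_spec π₁ π hu
        obtain ⟨-, -, hv3, hv4⟩ := (PPair.s6_mem_elig π₁ π u v).1 hv
        rw [s6be_Z_eq, if_neg]
        rintro ⟨h1, h2⟩
        rcases hd with rfl | rfl
        · exact ((s6be_alive_resolve hu1 hv3 (Ne.symm hv4) _).1 h1).2.1 rfl
        · exact ((s6be_alive_resolve hu1 hv3 (Ne.symm hv4) _).1 h2).2.1 rfl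
      unfold lavg
      rw [List.map_congr_left hz]
      simp
    rw [h0, zero_div]
    simp

/-- Cor 3.3 for an alive entry account -/
theorem s6_ratio_ent (O : S6One c.C0 C) (Br : S6Br d n P c C) (Nm : S6NumOK d n P c C) (I : S6Inv P c C π₁ t π)
    (ht : t < bb n) (fb : (π₁.badL (R0 d n)).length < bb n) (hu : π₁.s6first π = some u)
    (h : ℚ) (hh : h ∈ trackedList d n P.cp) (s ε : Bool) (a b : Label n d)
    (ha : π.Alive a) (hb : π.Alive b) (hau : a ≠ .stub u) (hbu : b ≠ .stub u) :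
    (s6Phase ℝ d n P SA π₁).ratio (Sum.inr (S6Lab.ent h s ε a b)) π ≤
      1 + (excessC P.p : ℝ) *
        (|∑ v ∈ s6Isurv π₁ π u a b, π.dEent (Lcut d n) (sgn s) ((h : ℚ) : ℝ) u v a b| / ((l0 n : ℝ) / 2)
            / (s6lamr n P * s6Brl n P 0)
          + (∑ v ∈ s6Isurv π₁ π u a b, π.dEent (Lcut d n) (sgn s) ((h : ℚ) : ℝ) u v a b ^ 2) / ((l0 n : ℝ) / 2)
            / (s6lamr n P * s6Brl n P 0) ^ 2) := by
  classical
  set k := π₁.s6lev a + π₁.s6lev b with hk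
  set X := π.Eent (Lcut d n) (sgn s) ((h : ℚ) : ℝ) a b with hX
  set S1 := ∑ v ∈ s6Isurv π₁ π u a b, π.dEent (Lcut d n) (sgn s) ((h : ℚ) : ℝ) u v a b with hS1
  set S2 := ∑ v ∈ s6Isurv π₁ π u a b, π.dEent (Lcut d n) (sgn s) ((h : ℚ) : ℝ) u v a b ^ 2 with hS2
  have hB : 0 < s6Brl n P k := Nm.B_pos k
  have hB0 : 0 < s6Brl n P 0 := Nm.B_pos 0
  have hB0k : s6Brl n P 0 ≤ s6Brl n P k := Nm.B_mono 0 k (Nat.zero_le _)
  have hlam := Nm.lam_pos
  obtain ⟨hcard, -⟩ := s6_I_card Nm I ht fb hu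
  have hl0 : 0 < (l0 n : ℝ) / 2 := by
    have : (64 : ℝ) ≤ (l0 n : ℝ) := by exact_mod_cast Nm.l0_ge
    linarith
  have hS2nn : 0 ≤ S2 := Finset.sum_nonneg fun v _ => sq_nonneg _
  obtain ⟨hu1, -, -⟩ := PPair.s6first_spec π₁ π hu
  let Δ : Stub n d → ℝ := fun v =>
    if Label.stub v ≠ a ∧ Label.stub v ≠ b then π.dEent (Lcut d n) (sgn s) ((h : ℚ) : ℝ) u v a b else 0
  have hsum1 : ∑ v ∈ s6I π₁ π u, Δ v = S1 := by
    rw [hS1]; unfold s6Isurv; rw [Finset.sum_filter]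
  have hsum2 : ∑ v ∈ s6I π₁ π u, Δ v ^ 2 = S2 := by
    rw [hS2]; unfold s6Isurv; rw [Finset.sum_filter]
    refine Finset.sum_congr rfl fun v _ => ?_
    simp only [Δ]
    split_ifs <;> simp
  have hμ : |lavg (π₁.s6elig π u) Δ| ≤ |S1| / ((l0 n : ℝ) / 2) := by
    rw [s6be_lavg_elig, hsum1, abs_div, Nat.abs_cast]
    exact div_le_div_of_nonneg_left (abs_nonneg _) hl0 hcard
  have hν : lavg (π₁.s6elig π u) (fun v => Δ v ^ 2) ≤ S2 / ((l0 n : ℝ) / 2) := by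
    rw [s6be_lavg_elig, hsum2]
    exact div_le_div_of_nonneg_left hS2nn hl0 hcard
  have hε : (sgn ε : ℝ) = 1 ∨ (sgn ε : ℝ) = -1 := by
    unfold sgn; cases ε <;> simp
  have hΔ : ∀ v ∈ π₁.s6elig π u, |Δ v| ≤ s6lamr n P * s6Brl n P k := by
    intro v hv
    simp only [Δ]
    split_ifs with hs
    · exact s6_inv_jump O Br Nm I hu h hh s a b ha hb hau hbu v (s6be_mem_surv.2 ⟨hv, hs⟩)
    · rw [abs_zero]; positivity
  have hZ : ∀ v ∈ π₁.s6elig π u,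
      (s6Phase ℝ d n P SA π₁).Z (Sum.inr (S6Lab.ent h s ε a b)) (π.resolve u v) ≤
        excessZ P.p (sgn ε * (X + Δ v)) (s6Brl n P k) (s6lamr n P * s6Brl n P k) := by
    intro v hv
    obtain ⟨-, -, hv3, hv4⟩ := (PPair.s6_mem_elig π₁ π u v).1 hv
    rw [s6be_Z_eq]
    simp only [Δ]
    by_cases hs : Label.stub v ≠ a ∧ Label.stub v ≠ b
    · rw [if_pos hs, if_pos ⟨(s6be_alive_resolve hu1 hv3 (Ne.symm hv4) a).2 ⟨ha, hau, hs.1.symm⟩,
        (s6be_alive_resolve hu1 hv3 (Ne.symm hv4) b).2 ⟨hb, hbu, hs.2.symm⟩⟩]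
      apply le_of_eq
      congr 2
      rw [hX]; unfold PPair.dEent; ring
    · rw [if_neg hs, if_neg]
      · exact le_trans zero_le_one (excessZ_pos _ _ _ _ (by positivity))
      · rintro ⟨h1, h2⟩
        apply hs
        exact ⟨((s6be_alive_resolve hu1 hv3 (Ne.symm hv4) a).1 h1).2.2.symm,
          ((s6be_alive_resolve hu1 hv3 (Ne.symm hv4) b).1 h2).2.2.symm⟩
  have hμ0 : 0 ≤ |S1| / ((l0 n : ℝ) / 2) := div_nonneg (abs_nonneg _) hl0.le
  have hν0 : 0 ≤ S2 / ((l0 n : ℝ) / 2) := div_nonneg hS2nn hl0.le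
  have key := excess_avg_le_sign P.p Nm.hp (π₁.s6elig π u) X (s6Brl n P k) (s6Brl n P k) (s6lamr n P)
    (|S1| / ((l0 n : ℝ) / 2)) (S2 / ((l0 n : ℝ) / 2)) (sgn ε) hB hlam hε hν0 Δ
    (fun v => (s6Phase ℝ d n P SA π₁).Z (Sum.inr (S6Lab.ent h s ε a b)) (π.resolve u v)) hΔ hZ hμ hν
  have hZ1 : 1 ≤ excessZ P.p (sgn ε * X) (s6Brl n P k) (s6lamr n P * s6Brl n P k) :=
    excessZ_pos _ _ _ _ (by positivity)
  have hmono : (excessC P.p : ℝ) * (|S1| / ((l0 n : ℝ) / 2) / (s6lamr n P * s6Brl n P k)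
        + S2 / ((l0 n : ℝ) / 2) / (s6lamr n P * s6Brl n P k) ^ 2) ≤
      (excessC P.p : ℝ) * (|S1| / ((l0 n : ℝ) / 2) / (s6lamr n P * s6Brl n P 0)
        + S2 / ((l0 n : ℝ) / 2) / (s6lamr n P * s6Brl n P 0) ^ 2) := by
    have h1 : s6lamr n P * s6Brl n P 0 ≤ s6lamr n P * s6Brl n P k := mul_le_mul_of_nonneg_left hB0k hlam.le
    have h0 : 0 < s6lamr n P * s6Brl n P 0 := by positivity
    apply mul_le_mul_of_nonneg_left _ (Nat.cast_nonneg _)
    apply add_le_add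
    · exact div_le_div_of_nonneg_left hμ0 h0 h1
    · exact div_le_div_of_nonneg_left hν0 (pow_pos h0 2) (pow_le_pow_left₀ h0.le h1 2)
  have hnn : 0 ≤ (excessC P.p : ℝ) * (|S1| / ((l0 n : ℝ) / 2) / (s6lamr n P * s6Brl n P 0)
        + S2 / ((l0 n : ℝ) / 2) / (s6lamr n P * s6Brl n P 0) ^ 2) := by
    have h0 : 0 < s6lamr n P * s6Brl n P 0 := mul_pos hlam hB0
    exact mul_nonneg (Nat.cast_nonneg _) (add_nonneg (div_nonneg hμ0 h0.le) (div_nonneg hν0 (pow_pos h0 2).le))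
  unfold Phase.ratio
  apply max_le (by linarith)
  rw [s6be_avg_eq hu, s6be_Z_eq, if_pos ⟨ha, hb⟩, div_le_iff₀ (by linarith)]
  refine key.trans ?_
  apply mul_le_mul_of_nonneg_right _ (by linarith)
  linarith

theorem s6be_MeanB_nonneg (N : S6Num) (l om : ℕ) (ra rb ju YE : ℝ) (h1 : 0 ≤ ra) (h2 : 0 ≤ rb) (h3 : 0 ≤ ju)
    (h4 : 0 ≤ N.Bm) (h5 : 0 ≤ N.Qa) (h6 : 0 ≤ N.Bt) : 0 ≤ s6MeanB N l om ra rb ju YE := by
  unfold s6MeanB
  positivity

theorem s6be_VarB_nonneg (N : S6Num) (l : ℕ) (ra rb ju TS : ℝ) (h1 : 0 ≤ TS) (h2 : 0 ≤ N.Ne) :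
    0 ≤ s6VarB N l ra rb ju TS := by
  unfold s6VarB
  positivity

/-- the per-step coefficient of an entry account -/
noncomputable def s6beC (n : ℕ) (P : S6Par) (C : ℝ) (M V : ℝ) : ℝ :=
  (excessC P.p : ℝ) * (2 * C * M / (l0 n : ℝ)) / (s6lamr n P * s6Brl n P 0)
    + (excessC P.p : ℝ) * (2 * C * V / (l0 n : ℝ)) / (s6lamr n P * s6Brl n P 0) ^ 2

/-- one step, dead or alive -/
theorem s6be_step (O : S6One c.C0 C) (Br : S6Br d n P c C) (Nm : S6NumOK d n P c C) (I : S6Inv P c C π₁ t π)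
    (ht : t < bb n) (fb : (π₁.badL (R0 d n)).length < bb n) (hu : π₁.s6first π = some u)
    (h : ℚ) (hh : h ∈ trackedList d n P.cp) (s ε : Bool) (a b : Label n d) :
    0 ≤ s6beC n P C
        (s6MeanB (s6N d n P c) π.l (s6om n)
          (if π.Alive a then π.rmaj (Cmaj d) (Lcut d n) (sgn s) ((h : ℚ) : ℝ) a u else 0)
          (if π.Alive b then π.rmaj (Cmaj d) (Lcut d n) (sgn s) ((h : ℚ) : ℝ) b u else 0)
          (π.jmaj (Cmaj d) (Lcut d n) ((h : ℚ) : ℝ) u) (π.YE (Lcut d n) (sgn s) ((h : ℚ) : ℝ)))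
        (s6VarB (s6N d n P c) π.l
          (if π.Alive a then π.rmaj (Cmaj d) (Lcut d n) (sgn s) ((h : ℚ) : ℝ) a u else 0)
          (if π.Alive b then π.rmaj (Cmaj d) (Lcut d n) (sgn s) ((h : ℚ) : ℝ) b u else 0)
          (π.jmaj (Cmaj d) (Lcut d n) ((h : ℚ) : ℝ) u) (π.TS (Lcut d n) (sgn s) ((h : ℚ) : ℝ))
          + C * (∑ v ∈ π.unres, (π.Aact (Lcut d n) ((h : ℚ) : ℝ) a.vtx v.1
                * π.Aact (Lcut d n) ((h : ℚ) : ℝ) u.1 v.1) ^ 2 + (s6N d n P c).Bm ^ 2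
              + (Umaj d (Cmaj d) π.l (Lcut d n) ((h : ℚ) : ℝ) + Cmaj d / (π.l : ℝ)) ^ 2)) ∧
    (s6Phase ℝ d n P SA π₁).ratio (Sum.inr (S6Lab.ent h s ε a b)) π ≤
      1 + s6beC n P C
        (s6MeanB (s6N d n P c) π.l (s6om n)
          (if π.Alive a then π.rmaj (Cmaj d) (Lcut d n) (sgn s) ((h : ℚ) : ℝ) a u else 0)
          (if π.Alive b then π.rmaj (Cmaj d) (Lcut d n) (sgn s) ((h : ℚ) : ℝ) b u else 0)
          (π.jmaj (Cmaj d) (Lcut d n) ((h : ℚ) : ℝ) u) (π.YE (Lcut d n) (sgn s) ((h : ℚ) : ℝ)))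
        (s6VarB (s6N d n P c) π.l
          (if π.Alive a then π.rmaj (Cmaj d) (Lcut d n) (sgn s) ((h : ℚ) : ℝ) a u else 0)
          (if π.Alive b then π.rmaj (Cmaj d) (Lcut d n) (sgn s) ((h : ℚ) : ℝ) b u else 0)
          (π.jmaj (Cmaj d) (Lcut d n) ((h : ℚ) : ℝ) u) (π.TS (Lcut d n) (sgn s) ((h : ℚ) : ℝ))
          + C * (∑ v ∈ π.unres, (π.Aact (Lcut d n) ((h : ℚ) : ℝ) a.vtx v.1
                * π.Aact (Lcut d n) ((h : ℚ) : ℝ) u.1 v.1) ^ 2 + (s6N d n P c).Bm ^ 2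
              + (Umaj d (Cmaj d) π.l (Lcut d n) ((h : ℚ) : ℝ) + Cmaj d / (π.l : ℝ)) ^ 2)) := by
  classical
  have F := Br.facts π₁ π t I h hh s
  have hC : 0 ≤ C := le_trans zero_le_one O.pos
  have hh0 : 0 ≤ ((h : ℚ) : ℝ) := F.hh.le
  have hrn : ∀ (a' : Label n d), 0 ≤ π.rmaj (Cmaj d) (Lcut d n) (sgn s) ((h : ℚ) : ℝ) a' u := by
    intro a'
    unfold PPair.rmaj
    have := (π.s43v_maj_nonneg (Cmaj d) F.hCm F.hd (Lcut d n) _ hh0 a' u u u.1 u.1).2.2.2.1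
    positivity
  have hjn : 0 ≤ π.jmaj (Cmaj d) (Lcut d n) ((h : ℚ) : ℝ) u :=
    (π.s43v_maj_nonneg (Cmaj d) F.hCm F.hd (Lcut d n) _ hh0 a u u u.1 u.1).2.2.2.2.1
  have hra : 0 ≤ (if π.Alive a then π.rmaj (Cmaj d) (Lcut d n) (sgn s) ((h : ℚ) : ℝ) a u else 0) := by
    split_ifs
    · exact hrn a
    · exact le_rfl
  have hrb : 0 ≤ (if π.Alive b then π.rmaj (Cmaj d) (Lcut d n) (sgn s) ((h : ℚ) : ℝ) b u else 0) := by
    split_ifs
    · exact hrn b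
    · exact le_rfl
  have hTS : 0 ≤ π.TS (Lcut d n) (sgn s) ((h : ℚ) : ℝ) := Finset.sum_nonneg fun x _ => sq_nonneg _
  have hM := s6be_MeanB_nonneg (s6N d n P c) π.l (s6om n) _ _ _ (π.YE (Lcut d n) (sgn s) ((h : ℚ) : ℝ)) hra hrb hjn
    F.Bm_nonneg (le_trans zero_le_one F.hQa) F.hBt
  have hV := s6be_VarB_nonneg (s6N d n P c) π.l
    (if π.Alive a then π.rmaj (Cmaj d) (Lcut d n) (sgn s) ((h : ℚ) : ℝ) a u else 0)
    (if π.Alive b then π.rmaj (Cmaj d) (Lcut d n) (sgn s) ((h : ℚ) : ℝ) b u else 0)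
    (π.jmaj (Cmaj d) (Lcut d n) ((h : ℚ) : ℝ) u) _ hTS (le_trans zero_le_one F.hNe)
  have hXn : 0 ≤ ∑ v ∈ π.unres, (π.Aact (Lcut d n) ((h : ℚ) : ℝ) a.vtx v.1
      * π.Aact (Lcut d n) ((h : ℚ) : ℝ) u.1 v.1) ^ 2 := Finset.sum_nonneg fun v _ => sq_nonneg _
  have hlB : 0 < s6lamr n P * s6Brl n P 0 := mul_pos Nm.lam_pos (Nm.B_pos 0)
  have hl0 : (0 : ℝ) < (l0 n : ℝ) := by
    have : (64 : ℝ) ≤ (l0 n : ℝ) := by exact_mod_cast Nm.l0_ge
    linarith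
  generalize hMdef : s6MeanB (s6N d n P c) π.l (s6om n)
          (if π.Alive a then π.rmaj (Cmaj d) (Lcut d n) (sgn s) ((h : ℚ) : ℝ) a u else 0)
          (if π.Alive b then π.rmaj (Cmaj d) (Lcut d n) (sgn s) ((h : ℚ) : ℝ) b u else 0)
          (π.jmaj (Cmaj d) (Lcut d n) ((h : ℚ) : ℝ) u) (π.YE (Lcut d n) (sgn s) ((h : ℚ) : ℝ)) = M at hM ⊢
  generalize hVdef : s6VarB (s6N d n P c) π.l
          (if π.Alive a then π.rmaj (Cmaj d) (Lcut d n) (sgn s) ((h : ℚ) : ℝ) a u else 0)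
          (if π.Alive b then π.rmaj (Cmaj d) (Lcut d n) (sgn s) ((h : ℚ) : ℝ) b u else 0)
          (π.jmaj (Cmaj d) (Lcut d n) ((h : ℚ) : ℝ) u) (π.TS (Lcut d n) (sgn s) ((h : ℚ) : ℝ)) = V at hV ⊢
  generalize hXdef : ∑ v ∈ π.unres, (π.Aact (Lcut d n) ((h : ℚ) : ℝ) a.vtx v.1
                * π.Aact (Lcut d n) ((h : ℚ) : ℝ) u.1 v.1) ^ 2 = X at hXn ⊢
  have hVV : 0 ≤ V + C * (X + (s6N d n P c).Bm ^ 2
      + (Umaj d (Cmaj d) π.l (Lcut d n) ((h : ℚ) : ℝ) + Cmaj d / (π.l : ℝ)) ^ 2) := by positivity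
  have hnn : 0 ≤ s6beC n P C M (V + C * (X + (s6N d n P c).Bm ^ 2
      + (Umaj d (Cmaj d) π.l (Lcut d n) ((h : ℚ) : ℝ) + Cmaj d / (π.l : ℝ)) ^ 2)) := by
    unfold s6beC
    positivity
  refine ⟨hnn, ?_⟩
  by_cases hdead : ¬ (π.Alive a ∧ π.Alive b) ∨ a = .stub u ∨ b = .stub u
  · rw [s6_ratio_ent_dead hu h s ε a b hdead]
    linarith
  · push Not at hdead
    obtain ⟨⟨ha, hb⟩, hau, hbu⟩ := hdead
    refine (s6_ratio_ent O Br Nm I ht fb hu h hh s ε a b ha hb hau hbu).trans ?_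
    have hSet := (s6_inv_set Br Nm I ht fb hu a b h hh).2
    have h1 := O.mean π (Cmaj d) (Lcut d n) (sgn s) ((h : ℚ) : ℝ) (s6N d n P c) (s6om n) u
      (s6Isurv π₁ π u a b) a b F hSet ha hb
    have h2 := O.var π (Cmaj d) (Lcut d n) (sgn s) ((h : ℚ) : ℝ) (s6N d n P c) (s6om n) u
      (s6Isurv π₁ π u a b) a b F hSet ha hb
    rw [if_pos ha, if_pos hb] at hMdef hVdef
    rw [hMdef] at h1
    rw [hVdef] at h2
    have hsub : ∑ v ∈ s6Isurv π₁ π u a b, (π.Aact (Lcut d n) ((h : ℚ) : ℝ) a.vtx v.1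
        * π.Aact (Lcut d n) ((h : ℚ) : ℝ) u.1 v.1) ^ 2 ≤ X := by
      rw [← hXdef]
      apply Finset.sum_le_sum_of_subset_of_nonneg
      · exact hSet.sub.trans (Finset.erase_subset _ _)
      · intro v _ _
        exact sq_nonneg _
    have h2' : ∑ v ∈ s6Isurv π₁ π u a b, π.dEent (Lcut d n) (sgn s) ((h : ℚ) : ℝ) u v a b ^ 2 ≤
        C * (V + C * (X + (s6N d n P c).Bm ^ 2
          + (Umaj d (Cmaj d) π.l (Lcut d n) ((h : ℚ) : ℝ) + Cmaj d / (π.l : ℝ)) ^ 2)) := by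
      refine h2.trans ?_
      apply mul_le_mul_of_nonneg_left _ hC
      have := mul_le_mul_of_nonneg_left hsub hC
      nlinarith
    unfold s6beC
    have e1 : |∑ v ∈ s6Isurv π₁ π u a b, π.dEent (Lcut d n) (sgn s) ((h : ℚ) : ℝ) u v a b| / ((l0 n : ℝ) / 2)
        ≤ 2 * C * M / (l0 n : ℝ) := by
      rw [div_le_div_iff₀ (by linarith) hl0]
      nlinarith
    have e2 : (∑ v ∈ s6Isurv π₁ π u a b, π.dEent (Lcut d n) (sgn s) ((h : ℚ) : ℝ) u v a b ^ 2) / ((l0 n : ℝ) / 2)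
        ≤ 2 * C * (V + C * (X + (s6N d n P c).Bm ^ 2
          + (Umaj d (Cmaj d) π.l (Lcut d n) ((h : ℚ) : ℝ) + Cmaj d / (π.l : ℝ)) ^ 2)) / (l0 n : ℝ) := by
      rw [div_le_div_iff₀ (by linarith) hl0]
      nlinarith
    have e1' := div_le_div_of_nonneg_right e1 hlB.le
    have e2' := div_le_div_of_nonneg_right e2 (pow_pos hlB 2).le
    have hex : (0 : ℝ) ≤ (excessC P.p : ℝ) := Nat.cast_nonneg _
    have g := mul_le_mul_of_nonneg_left (add_le_add e1' e2') hex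
    refine (add_le_add_right g 1).trans (le_of_eq ?_)
    ring

end Step

theorem s6beC_eq (n : ℕ) (P : S6Par) (C M V : ℝ) :
    s6beC n P C M V =
      ((excessC P.p : ℝ) * (2 * C / (l0 n : ℝ)) / (s6lamr n P * s6Brl n P 0)) * M
        + ((excessC P.p : ℝ) * (2 * C / (l0 n : ℝ)) / (s6lamr n P * s6Brl n P 0) ^ 2) * V := by
  unfold s6beC
  ring

section Bud

variable {path : ℕ → PPair n d} {t : ℕ}

/-- LEMMA 6.7 + Cor 3.3 -/
theorem s6_bud_ent (O : S6One c.C0 C) (Br : S6Br d n P c C) (Nm : S6NumOK d n P c C)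
    (H : S6Hist P c C SA π₁ path t) (ht : t < bb n) (fb : (π₁.badL (R0 d n)).length < bb n)
    (h : ℚ) (hh : h ∈ trackedList d n P.cp) (s ε : Bool) (a b : Label n d) :
    ∏ s' ∈ Finset.range (t + 1), (s6Phase ℝ d n P SA π₁).ratio (Sum.inr (S6Lab.ent h s ε a b)) (path s') ≤ 2 := by
  classical
  obtain ⟨us, vs, Ch, hfirst⟩ := s6_hist_chain H
  have Seq := s6_hist_seq Br Nm H ht Ch (fun s hs => (hfirst s hs).1) h hh s a b
  have hInv : ∀ s' ≤ t, S6Inv P c C π₁ s' (path s') := H.2.1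
  have hC : 0 ≤ C := le_trans zero_le_one O.pos
  obtain ⟨hh0, hhz, -⟩ := Br.hrange h hh
  have hlB : 0 < s6lamr n P * s6Brl n P 0 := mul_pos Nm.lam_pos (Nm.B_pos 0)
  have hl0 : (0 : ℝ) < (l0 n : ℝ) := by
    have : (64 : ℝ) ≤ (l0 n : ℝ) := by exact_mod_cast Nm.l0_ge
    linarith
  have hM := s6_sum_meanB Seq
  have hX := PPair.s6_path_joint Br.hd Ch (hInv t le_rfl).walk hh0.le hhz a.vtx
  have hU : ∀ s' < t + 1, |Umaj d (Cmaj d) (path s').l (Lcut d n) ((h : ℚ) : ℝ) + Cmaj d / ((path s').l : ℝ)|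
      ≤ s6Ub d n := by
    intro s' hs'
    have h1 := Br.umaj (path s').l (s6be_l_ge (hInv s' (by omega))) _ hh0.le hhz
    have h2 : 0 ≤ Cmaj d / ((path s').l : ℝ) := by unfold Cmaj; positivity
    calc |Umaj d (Cmaj d) (path s').l (Lcut d n) ((h : ℚ) : ℝ) + Cmaj d / ((path s').l : ℝ)|
        ≤ |Umaj d (Cmaj d) (path s').l (Lcut d n) ((h : ℚ) : ℝ)| + |Cmaj d / ((path s').l : ℝ)| := abs_add_le _ _
      _ = |Umaj d (Cmaj d) (path s').l (Lcut d n) ((h : ℚ) : ℝ)| + Cmaj d / ((path s').l : ℝ) := by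
          rw [abs_of_nonneg h2]
      _ ≤ _ := h1
  have hV := s6_sum_varB C Seq hC
    (fun s' => ∑ v ∈ (path s').unres, ((path s').Aact (Lcut d n) ((h : ℚ) : ℝ) a.vtx v.1
      * (path s').Aact (Lcut d n) ((h : ℚ) : ℝ) (us s').1 v.1) ^ 2)
    (fun s' => Umaj d (Cmaj d) (path s').l (Lcut d n) ((h : ℚ) : ℝ) + Cmaj d / ((path s').l : ℝ)) hX hU
  have hstep := fun (s' : ℕ) (hs' : s' < t + 1) =>
    s6be_step (SA := SA) O Br Nm (hInv s' (by omega)) (by omega) fb (hfirst s' (by omega)).1 h hh s ε a b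
  refine s6_prod_le_two (t + 1) _ _ (fun s' _ => le_trans zero_le_one (Phase.one_le_ratio _ _ _))
    (fun s' hs' => (hstep s' hs').2) (fun s' hs' => (hstep s' hs').1) ?_
  simp only [s6beC_eq]
  rw [Finset.sum_add_distrib, ← Finset.mul_sum, ← Finset.mul_sum]
  have hk1 : 0 ≤ (excessC P.p : ℝ) * (2 * C / (l0 n : ℝ)) / (s6lamr n P * s6Brl n P 0) := by positivity
  have hk2 : 0 ≤ (excessC P.p : ℝ) * (2 * C / (l0 n : ℝ)) / (s6lamr n P * s6Brl n P 0) ^ 2 := by positivity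
  have g1 := mul_le_mul_of_nonneg_left hM hk1
  have g2 := mul_le_mul_of_nonneg_left hV hk2
  have e1 : (excessC P.p : ℝ) * (2 * C / (l0 n : ℝ)) / (s6lamr n P * s6Brl n P 0) * s6MeanSum d n P c ≤ 1 / 4 := by
    have := Nm.E1
    rw [div_mul_eq_mul_div, div_le_iff₀ hlB]
    calc (excessC P.p : ℝ) * (2 * C / (l0 n : ℝ)) * s6MeanSum d n P c
        = (excessC P.p : ℝ) * (2 * C * s6MeanSum d n P c / (l0 n : ℝ)) := by ring
      _ ≤ s6lamr n P * s6Brl n P 0 / 4 := this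
      _ = 1 / 4 * (s6lamr n P * s6Brl n P 0) := by ring
  have e2 : (excessC P.p : ℝ) * (2 * C / (l0 n : ℝ)) / (s6lamr n P * s6Brl n P 0) ^ 2 * s6VarSum d n P c C
      ≤ 1 / 4 := by
    have := Nm.E2
    rw [div_mul_eq_mul_div, div_le_iff₀ (pow_pos hlB 2)]
    calc (excessC P.p : ℝ) * (2 * C / (l0 n : ℝ)) * s6VarSum d n P c C
        = (excessC P.p : ℝ) * (2 * C * s6VarSum d n P c C / (l0 n : ℝ)) := by ring
      _ ≤ (s6lamr n P * s6Brl n P 0) ^ 2 / 4 := this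
      _ = 1 / 4 * (s6lamr n P * s6Brl n P 0) ^ 2 := by ring
  linarith

end Bud

end Claimed.Agent.R275
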