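import Claimed.Agent.R275.S6BudA

/-!
# Row 275, Sec 6, package S6-BUD-S: budgets of the structural accounts and of the trace accounts `L_1`, `L_0` (Lemma 6.3)

Owner of the statements: helper208.  Proofs: helper175 (auxiliary lemmas: prefix `s6bs_`).
ROUTE and hypotheses: see the header of `S6BudA.lean` (all its statements may be assumed).
-/

set_option autoImplicit false

namespace Claimed.Agent.R275

open Matrix

/-! ### abstract lemmas -/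

/-- one step of a square account: ratio form of `s6_square_step` -/
theorem s6bs_square_ratio {ι : Type*} (I : Finset ι) (X S M D lo : ℝ) (hS : 0 < S) (Δ : ι → ℝ)
    (hlo : 0 < lo) (hI : lo ≤ (I.card : ℝ)) (hM : |∑ v ∈ I, Δ v| ≤ M) (hD : ∀ v ∈ I, |Δ v| ≤ D) :
    max 1 ((∑ v ∈ I, (1 + (X + Δ v) ^ 2 / S ^ 2)) / (I.card : ℝ) / (1 + X ^ 2 / S ^ 2)) ≤
      1 + (M / (lo * S) + D ^ 2 / S ^ 2) := by
  have hc : (0 : ℝ) < (I.card : ℝ) := lt_of_lt_of_le hlo hI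
  have hM0 : 0 ≤ M := (abs_nonneg _).trans hM
  have hZ : 0 < 1 + X ^ 2 / S ^ 2 := by positivity
  have hS2 : 0 < S ^ 2 := by positivity
  have t1 : 0 ≤ M / (lo * S) := by positivity
  have t2 : 0 ≤ D ^ 2 / S ^ 2 := by positivity
  refine max_le (by linarith) ?_
  rw [div_le_iff₀ hZ, div_le_iff₀ hc]
  refine (s6_square_step I X S hS Δ).trans ?_
  have e : (1 + (M / (lo * S) + D ^ 2 / S ^ 2)) * (1 + X ^ 2 / S ^ 2) * (I.card : ℝ) =
      ((I.card : ℝ) + (I.card : ℝ) * (M / (lo * S)) + (I.card : ℝ) * (D ^ 2 / S ^ 2)) * (1 + X ^ 2 / S ^ 2) := by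
    ring
  rw [e]
  refine mul_le_mul_of_nonneg_right ?_ hZ.le
  have h1 : |∑ v ∈ I, Δ v| / S ≤ (I.card : ℝ) * (M / (lo * S)) := by
    have a1 : |∑ v ∈ I, Δ v| / S ≤ M / S := div_le_div_of_nonneg_right hM hS.le
    have a2 : M / S = lo * (M / (lo * S)) := by field_simp
    have a3 : lo * (M / (lo * S)) ≤ (I.card : ℝ) * (M / (lo * S)) := mul_le_mul_of_nonneg_right hI t1
    linarith
  have h2 : (∑ v ∈ I, Δ v ^ 2) / S ^ 2 ≤ (I.card : ℝ) * (D ^ 2 / S ^ 2) := by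
    have a1 : ∑ v ∈ I, Δ v ^ 2 ≤ ∑ _v ∈ I, D ^ 2 :=
      Finset.sum_le_sum fun v hv => by
        rw [← sq_abs]
        exact pow_le_pow_left₀ (abs_nonneg _) (hD v hv) 2
    rw [Finset.sum_const, nsmul_eq_mul] at a1
    have a2 := div_le_div_of_nonneg_right a1 hS2.le
    rwa [mul_div_assoc] at a2
  linarith

variable {n d : ℕ} {ιs : Type} {P : S6Par} {c : S6Cst} {C κ : ℝ} {SA : Phase ℝ (PPair n d) ιs} {π₁ : PPair n d}

section Step

variable {t : ℕ} {π : PPair n d} {u : Stub n d}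

theorem s6_ratio_struct (hSA : S6SA c κ SA π₁) (Nm : S6NumOK d n P c C) (I : S6Inv P c C π₁ t π) (ht : t < bb n)
    (fb : (π₁.badL (R0 d n)).length < bb n) (i : ιs) (hi : i ∈ SA.labels) :
    (s6Phase ℝ d n P SA π₁).ratio (Sum.inl i) π ≤ 1 + κ := by
  obtain ⟨hl, -⟩ := s6_inv_sizes Nm I ht
  obtain ⟨u, hu⟩ := PPair.s6first_isSome π₁ π I.le (by omega)
  have hκ := hSA.κ_nonneg
  have hst := hSA.step i hi π u (π₁.s6elig π u) I.le hl (PPair.s6first_spec π₁ π hu).1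
    (PPair.s6_nodup_elig π₁ π u)
    (fun v hv => by
      have := (PPair.s6_mem_elig π₁ π u v).1 hv
      exact ⟨this.2.2.1, this.2.2.2⟩)
    (by
      have := PPair.s6elig_card π₁ π I.le u
      omega)
  have e : (s6Phase ℝ d n P SA π₁).avg (Sum.inl i) π =
      lavg (π₁.s6elig π u) (fun v => SA.Z i (π.resolve u v)) := by
    rw [Phase.avg_eq_lavg]
    show lavg (π₁.s6cands π) (fun π' => SA.Z i π') = _
    unfold lavg PPair.s6cands
    rw [hu]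
    simp only [List.map_map, List.length_map]
    rfl
  unfold Phase.ratio
  refine max_le (by linarith) ?_
  rw [e]
  show lavg (π₁.s6elig π u) (fun v => SA.Z i (π.resolve u v)) / SA.Z i π ≤ 1 + κ
  rcases (hSA.Z_nonneg i π).eq_or_lt with h0 | hpos
  · rw [← h0, div_zero]
    linarith
  · rwa [div_le_iff₀ hpos]

theorem s6_ratio_L1 (O : S6One c.C0 C) (Br : S6Br d n P c C) (Nm : S6NumOK d n P c C) (I : S6Inv P c C π₁ t π)
    (ht : t < bb n) (fb : (π₁.badL (R0 d n)).length < bb n) (hu : π₁.s6first π = some u)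
    (h : ℚ) (hh : h ∈ trackedList d n P.cp) (s : Bool) :
    (s6Phase ℝ d n P SA π₁).ratio (Sum.inr (S6Lab.trL1 h s)) π ≤
      1 + (2 * C * (1 + c.CK) * ((s6om n : ℝ) + (s6N d n P c).Qa
            + (π.l : ℝ) * (π.jmaj (Cmaj d) (Lcut d n) ((h : ℚ) : ℝ) u + (s6N d n P c).Bm))
          / ((l0 n : ℝ) * ((s6S1 d n : ℚ) : ℝ))
        + (C * (1 + c.CK)) ^ 2 / ((s6S1 d n : ℚ) : ℝ) ^ 2) := by
  have F := Br.facts π₁ π t I h hh s
  have T := Br.trace π₁ π t I h hh s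
  obtain ⟨hc1, -⟩ := s6_I_card Nm I ht fb hu
  have hSet := (s6_inv_set Br Nm I ht fb hu (.stub u) (.stub u) h hh).1
  have hM := O.trL1 π (Cmaj d) (Lcut d n) (sgn s) h (s6N d n P c) c.CK _ _ (s6om n) u (s6I π₁ π u) F T hSet
  have hD : ∀ v ∈ s6I π₁ π u, |π.dL1 (sgn s) (h : ℝ) u v| ≤ C * (1 + c.CK) := fun v hv =>
    (O.trAbs π _ _ _ _ _ _ _ _ u v F T (hSet.adm v hv)).1
  have hl0 : (0 : ℝ) < (l0 n : ℝ) := by
    have := Nm.l0_ge
    exact_mod_cast (by omega : 0 < l0 n)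
  have key := s6bs_square_ratio (s6I π₁ π u) (π.L1 (sgn s) (h : ℝ)) ((s6S1 d n : ℚ) : ℝ) _ _ ((l0 n : ℝ) / 2)
    Nm.S1_pos (fun v => π.dL1 (sgn s) (h : ℝ) u v) (by positivity) hc1 hM hD
  have e : (s6Phase ℝ d n P SA π₁).ratio (Sum.inr (S6Lab.trL1 h s)) π =
      max 1 ((∑ v ∈ s6I π₁ π u, (1 + (π.L1 (sgn s) (h : ℝ) + π.dL1 (sgn s) (h : ℝ) u v) ^ 2 / ((s6S1 d n : ℚ) : ℝ) ^ 2))
        / ((s6I π₁ π u).card : ℝ) / (1 + π.L1 (sgn s) (h : ℝ) ^ 2 / ((s6S1 d n : ℚ) : ℝ) ^ 2)) := by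
    unfold Phase.ratio
    rw [Phase.avg_eq_lavg]
    show max 1 (lavg (π₁.s6cands π) (fun π' => 1 + π'.L1 (sgn s) (h : ℝ) ^ 2 / ((s6S1 d n : ℚ) : ℝ) ^ 2)
      / (1 + π.L1 (sgn s) (h : ℝ) ^ 2 / ((s6S1 d n : ℚ) : ℝ) ^ 2)) = _
    rw [PPair.s6_lavg_cands π₁ π hu]
    congr 3
    refine Finset.sum_congr rfl fun v _ => ?_
    unfold PPair.dL1
    rw [add_sub_cancel]
  rw [e]
  refine key.trans (le_of_eq ?_)
  have hS := Nm.S1_pos.ne'
  field_simp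

theorem s6_ratio_L0 (O : S6One c.C0 C) (Br : S6Br d n P c C) (Nm : S6NumOK d n P c C) (I : S6Inv P c C π₁ t π)
    (ht : t < bb n) (fb : (π₁.badL (R0 d n)).length < bb n) (hu : π₁.s6first π = some u)
    (h : ℚ) (hh : h ∈ trackedList d n P.cp) (s : Bool) :
    (s6Phase ℝ d n P SA π₁).ratio (Sum.inr (S6Lab.trL0 h s)) π ≤
      1 + (2 * C * (c.CQ / alphaS d n) * ((s6om n : ℝ) + (s6N d n P c).Qa
            + (π.l : ℝ) * (π.jmaj (Cmaj d) (Lcut d n) ((h : ℚ) : ℝ) u + (s6N d n P c).Bm))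
          / ((l0 n : ℝ) * ((s6S0 d n : ℚ) : ℝ))
        + (C * (c.CQ / alphaS d n)) ^ 2 / ((s6S0 d n : ℚ) : ℝ) ^ 2) := by
  have F := Br.facts π₁ π t I h hh s
  have T := Br.trace π₁ π t I h hh s
  obtain ⟨hc1, -⟩ := s6_I_card Nm I ht fb hu
  have hSet := (s6_inv_set Br Nm I ht fb hu (.stub u) (.stub u) h hh).1
  have hC : 0 ≤ C := le_trans zero_le_one O.pos
  -- comparison of the constants
  have hQ0 : 0 ≤ s6CQ d c (h : ℝ) := (abs_nonneg _).trans (T.hQ u u)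
  obtain ⟨-, -, hal⟩ := Br.hrange h hh
  have hal0 := Nm.al_pos
  have hCQ : 0 ≤ c.CQ := by
    unfold s6CQ at hQ0
    have := mul_nonneg hQ0 (hal0.trans_le hal).le
    rwa [div_mul_cancel₀ _ (hal0.trans_le hal).ne'] at this
  have hQle : s6CQ d c (h : ℝ) ≤ c.CQ / alphaS d n := by
    unfold s6CQ
    exact div_le_div_of_nonneg_left hCQ hal0 hal
  have hj : 0 ≤ π.jmaj (Cmaj d) (Lcut d n) ((h : ℚ) : ℝ) u :=
    (π.s43v_maj_nonneg (Cmaj d) F.hCm F.hd (Lcut d n) _ F.hh.le (.stub u) u u u.1 u.1).2.2.2.2.1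
  have hX : 0 ≤ (s6om n : ℝ) + (s6N d n P c).Qa
      + (π.l : ℝ) * (π.jmaj (Cmaj d) (Lcut d n) ((h : ℚ) : ℝ) u + (s6N d n P c).Bm) := by
    have := F.hQa
    have := F.Bm_nonneg
    positivity
  have hM : |∑ v ∈ s6I π₁ π u, π.dL0 (sgn s) (h : ℝ) u v| ≤ C * (c.CQ / alphaS d n) * ((s6om n : ℝ) + (s6N d n P c).Qa
      + (π.l : ℝ) * (π.jmaj (Cmaj d) (Lcut d n) ((h : ℚ) : ℝ) u + (s6N d n P c).Bm)) :=
    (O.trL0 π (Cmaj d) (Lcut d n) (sgn s) h (s6N d n P c) c.CK _ _ (s6om n) u (s6I π₁ π u) F T hSet).trans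
      (mul_le_mul_of_nonneg_right (mul_le_mul_of_nonneg_left hQle hC) hX)
  have hD : ∀ v ∈ s6I π₁ π u, |π.dL0 (sgn s) (h : ℝ) u v| ≤ C * (c.CQ / alphaS d n) := fun v hv =>
    (O.trAbs π _ _ _ _ _ _ _ _ u v F T (hSet.adm v hv)).2.1.trans (mul_le_mul_of_nonneg_left hQle hC)
  have hl0 : (0 : ℝ) < (l0 n : ℝ) := by
    have := Nm.l0_ge
    exact_mod_cast (by omega : 0 < l0 n)
  have key := s6bs_square_ratio (s6I π₁ π u) (π.L0 (sgn s) (h : ℝ)) ((s6S0 d n : ℚ) : ℝ) _ _ ((l0 n : ℝ) / 2)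
    Nm.S0_pos (fun v => π.dL0 (sgn s) (h : ℝ) u v) (by positivity) hc1 hM hD
  have e : (s6Phase ℝ d n P SA π₁).ratio (Sum.inr (S6Lab.trL0 h s)) π =
      max 1 ((∑ v ∈ s6I π₁ π u, (1 + (π.L0 (sgn s) (h : ℝ) + π.dL0 (sgn s) (h : ℝ) u v) ^ 2 / ((s6S0 d n : ℚ) : ℝ) ^ 2))
        / ((s6I π₁ π u).card : ℝ) / (1 + π.L0 (sgn s) (h : ℝ) ^ 2 / ((s6S0 d n : ℚ) : ℝ) ^ 2)) := by
    unfold Phase.ratio
    rw [Phase.avg_eq_lavg]
    show max 1 (lavg (π₁.s6cands π) (fun π' => 1 + π'.L0 (sgn s) (h : ℝ) ^ 2 / ((s6S0 d n : ℚ) : ℝ) ^ 2)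
      / (1 + π.L0 (sgn s) (h : ℝ) ^ 2 / ((s6S0 d n : ℚ) : ℝ) ^ 2)) = _
    rw [PPair.s6_lavg_cands π₁ π hu]
    congr 3
    refine Finset.sum_congr rfl fun v _ => ?_
    unfold PPair.dL0
    rw [add_sub_cancel]
  rw [e]
  refine key.trans (le_of_eq ?_)
  have hS := Nm.S0_pos.ne'
  have := hal0.ne'
  field_simp

end Step

/-- abstract form of the two budgets of the square accounts -/
theorem s6bs_bud (T b : ℕ) (hT : T ≤ b) (r X : ℕ → ℝ) (A B D XS : ℝ) (hA : 0 ≤ A) (hB : 0 < B) (hD : 0 ≤ D)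
    (hr0 : ∀ s < T, 0 ≤ r s) (hX0 : ∀ s < T, 0 ≤ X s) (hr : ∀ s < T, r s ≤ 1 + (A * X s / B + D))
    (hX : ∑ s ∈ Finset.range T, X s ≤ XS) (hbud : A * XS / B + (b : ℝ) * D ≤ 1 / 2) :
    ∏ s ∈ Finset.range T, r s ≤ 2 := by
  refine s6_prod_le_two T r (fun s => A * X s / B + D) hr0 hr (fun s hs => ?_) ?_
  · have := hX0 s hs
    positivity
  · rw [Finset.sum_add_distrib, Finset.sum_const, Finset.card_range, nsmul_eq_mul, ← Finset.sum_div,
      ← Finset.mul_sum]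
    have h1 : (A * ∑ s ∈ Finset.range T, X s) / B ≤ A * XS / B :=
      div_le_div_of_nonneg_right (mul_le_mul_of_nonneg_left hX hA) hB.le
    have h2 : (T : ℝ) * D ≤ (b : ℝ) * D := mul_le_mul_of_nonneg_right (by exact_mod_cast hT) hD
    linarith

section Bud

variable {path : ℕ → PPair n d} {t : ℕ}

theorem s6_bud_struct (hSA : S6SA c κ SA π₁) (Nm : S6NumOK d n P c C) (H : S6Hist P c C SA π₁ path t) (ht : t < bb n)
    (fb : (π₁.badL (R0 d n)).length < bb n) (i : ιs) (hi : i ∈ SA.labels) :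
    ∏ s ∈ Finset.range (t + 1), (s6Phase ℝ d n P SA π₁).ratio (Sum.inl i) (path s) ≤ 2 := by
  have hκ := hSA.κ_nonneg
  calc ∏ s ∈ Finset.range (t + 1), (s6Phase ℝ d n P SA π₁).ratio (Sum.inl i) (path s)
      ≤ ∏ _s ∈ Finset.range (t + 1), (1 + κ) :=
        Finset.prod_le_prod (fun s _ => (Phase.ratio_pos _ _ _).le) (fun s hs => by
          have hs' : s ≤ t := by
            have := Finset.mem_range.1 hs
            omega
          exact s6_ratio_struct hSA Nm (H.2.1 s hs') (by omega) fb i hi)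
    _ = (1 + κ) ^ (t + 1) := by rw [Finset.prod_const, Finset.card_range]
    _ ≤ (1 + κ) ^ bb n := pow_le_pow_right₀ (by linarith) (by omega)
    _ ≤ 2 := hSA.bud

theorem s6_bud_L1 (O : S6One c.C0 C) (Br : S6Br d n P c C) (Nm : S6NumOK d n P c C)
    (H : S6Hist P c C SA π₁ path t) (ht : t < bb n) (fb : (π₁.badL (R0 d n)).length < bb n)
    (h : ℚ) (hh : h ∈ trackedList d n P.cp) (s : Bool) :
    ∏ s' ∈ Finset.range (t + 1), (s6Phase ℝ d n P SA π₁).ratio (Sum.inr (S6Lab.trL1 h s)) (path s') ≤ 2 := by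
  obtain ⟨us, vs, Ch, hus⟩ := s6_hist_chain H
  have hus' : ∀ s ≤ t, π₁.s6first (path s) = some (us s) := fun s hs => (hus s hs).1
  have S := s6_hist_seq Br Nm H ht Ch hus' h hh s (.stub (us 0)) (.stub (us 0))
  have hsum := s6_sum_tr S
  have T0 := Br.trace π₁ (path 0) 0 (H.2.1 0 (Nat.zero_le _)) h hh s
  have hCK : 0 ≤ c.CK := (abs_nonneg _).trans (T0.hK (us 0) (us 0))
  have hC : 0 ≤ C := le_trans zero_le_one O.pos
  have hl0 : (0 : ℝ) < (l0 n : ℝ) := by exact_mod_cast S.l0pos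
  have hS1 := Nm.S1_pos
  refine s6bs_bud (t + 1) (bb n) (by omega) _
    (fun s' => (s6om n : ℝ) + (s6N d n P c).Qa + ((path s').l : ℝ)
      * ((path s').jmaj (Cmaj d) (Lcut d n) ((h : ℚ) : ℝ) (us s') + (s6N d n P c).Bm))
    (2 * C * (1 + c.CK)) ((l0 n : ℝ) * ((s6S1 d n : ℚ) : ℝ)) ((C * (1 + c.CK)) ^ 2 / ((s6S1 d n : ℚ) : ℝ) ^ 2)
    (s6TrSum d n P c) (by positivity) (by positivity) (by positivity)
    (fun s' _ => (Phase.ratio_pos _ _ _).le) (fun s' hs' => ?_) (fun s' hs' => ?_) hsum ?_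
  · have h1 := S.ju0 s' hs'
    have h2 : 0 ≤ (s6N d n P c).Bm := S.Bm0
    have h3 : 0 ≤ (s6N d n P c).Qa := S.Qa0
    positivity
  · exact s6_ratio_L1 O Br Nm (H.2.1 s' (by omega)) (by omega) fb (hus' s' (by omega)) h hh s
  · have := Nm.L1b
    rw [mul_div_assoc (bb n : ℝ)] at this
    exact this

theorem s6_bud_L0 (O : S6One c.C0 C) (Br : S6Br d n P c C) (Nm : S6NumOK d n P c C)
    (H : S6Hist P c C SA π₁ path t) (ht : t < bb n) (fb : (π₁.badL (R0 d n)).length < bb n)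
    (h : ℚ) (hh : h ∈ trackedList d n P.cp) (s : Bool) :
    ∏ s' ∈ Finset.range (t + 1), (s6Phase ℝ d n P SA π₁).ratio (Sum.inr (S6Lab.trL0 h s)) (path s') ≤ 2 := by
  obtain ⟨us, vs, Ch, hus⟩ := s6_hist_chain H
  have hus' : ∀ s ≤ t, π₁.s6first (path s) = some (us s) := fun s hs => (hus s hs).1
  have S := s6_hist_seq Br Nm H ht Ch hus' h hh s (.stub (us 0)) (.stub (us 0))
  have hsum := s6_sum_tr S
  have T0 := Br.trace π₁ (path 0) 0 (H.2.1 0 (Nat.zero_le _)) h hh s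
  have hQ0 : 0 ≤ s6CQ d c (h : ℝ) := (abs_nonneg _).trans (T0.hQ (us 0) (us 0))
  obtain ⟨-, -, hal⟩ := Br.hrange h hh
  have hal0 := Nm.al_pos
  have hCQ : 0 ≤ c.CQ := by
    unfold s6CQ at hQ0
    have := mul_nonneg hQ0 (hal0.trans_le hal).le
    rwa [div_mul_cancel₀ _ (hal0.trans_le hal).ne'] at this
  have hC : 0 ≤ C := le_trans zero_le_one O.pos
  have hl0 : (0 : ℝ) < (l0 n : ℝ) := by exact_mod_cast S.l0pos
  have hS0 := Nm.S0_pos
  refine s6bs_bud (t + 1) (bb n) (by omega) _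
    (fun s' => (s6om n : ℝ) + (s6N d n P c).Qa + ((path s').l : ℝ)
      * ((path s').jmaj (Cmaj d) (Lcut d n) ((h : ℚ) : ℝ) (us s') + (s6N d n P c).Bm))
    (2 * C * (c.CQ / alphaS d n)) ((l0 n : ℝ) * ((s6S0 d n : ℚ) : ℝ))
    ((C * (c.CQ / alphaS d n)) ^ 2 / ((s6S0 d n : ℚ) : ℝ) ^ 2)
    (s6TrSum d n P c) (by positivity) (by positivity) (by positivity)
    (fun s' _ => (Phase.ratio_pos _ _ _).le) (fun s' hs' => ?_) (fun s' hs' => ?_) hsum ?_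
  · have h1 := S.ju0 s' hs'
    have h2 : 0 ≤ (s6N d n P c).Bm := S.Bm0
    have h3 : 0 ≤ (s6N d n P c).Qa := S.Qa0
    positivity
  · exact s6_ratio_L0 O Br Nm (H.2.1 s' (by omega)) (by omega) fb (hus' s' (by omega)) h hh s
  · have := Nm.L0b
    rw [mul_div_assoc (bb n : ℝ)] at this
    exact this

end Bud

end Claimed.Agent.R275
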