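import Claimed.Agent.R275.S6BudA

/-!
# Row 275, Sec 6, package S6-BUD-T: budget of the `T_S` account (Lemma 6.5)

Owner of the statements: helper208.  Proofs: helper213 (auxiliary lemmas: prefix `s6bt_`).
ROUTE and hypotheses: see the header of `S6BudA.lean` (all its statements may be assumed).
-/

set_option autoImplicit false

namespace Claimed.Agent.R275

open Matrix

/-- abstract ratio form of the one-step bound `S6One.diag` -/
theorem s6bt_ratio (Sg k Z C X lo : ℝ) (hZ : 0 < Z) (hC : 0 ≤ C) (hX : 0 ≤ X) (hlo : 0 < lo)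
    (hk : lo / 2 ≤ k) (hSg : Sg ≤ (k + C * X) * Z) :
    max 1 (Sg / k / Z) ≤ 1 + 2 * C * X / lo := by
  have hk0 : 0 < k := lt_of_lt_of_le (by positivity) hk
  have t : 0 ≤ 2 * C * X / lo := by positivity
  refine max_le (by linarith) ?_
  rw [div_le_iff₀ hZ, div_le_iff₀ hk0]
  refine hSg.trans ?_
  have e : (1 + 2 * C * X / lo) * Z * k = (k + k * (2 * C * X / lo)) * Z := by ring
  rw [e]
  refine mul_le_mul_of_nonneg_right ?_ hZ.le
  have h1 : C * X = lo / 2 * (2 * C * X / lo) := by field_simp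
  have h2 : lo / 2 * (2 * C * X / lo) ≤ k * (2 * C * X / lo) := mul_le_mul_of_nonneg_right hk t
  linarith

variable {n d : ℕ} {ιs : Type} {P : S6Par} {c : S6Cst} {C κ : ℝ} {SA : Phase ℝ (PPair n d) ιs} {π₁ : PPair n d}

section Step

variable {t : ℕ} {π : PPair n d} {u : Stub n d}

/-- the one-step error term of the `T_S` account is nonnegative -/
theorem s6bt_X_nonneg (Br : S6Br d n P c C) (Nm : S6NumOK d n P c C) (I : S6Inv P c C π₁ t π)
    (h : ℚ) (hh : h ∈ trackedList d n P.cp) (s : Bool) (u : Stub n d) :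
    0 ≤ s6DiagMB (s6N d n P c) π.l (s6om n) (π.jmaj (Cmaj d) (Lcut d n) ((h : ℚ) : ℝ) u)
              (π.YE (Lcut d n) (sgn s) ((h : ℚ) : ℝ)) / Real.sqrt ((s6ST P n : ℚ) : ℝ)
            + s6DiagVB (s6N d n P c) π.l (π.jmaj (Cmaj d) (Lcut d n) ((h : ℚ) : ℝ) u)
              (π.TS (Lcut d n) (sgn s) ((h : ℚ) : ℝ)) / ((s6ST P n : ℚ) : ℝ) := by
  have F := Br.facts π₁ π t I h hh s
  have hl1 : 1 ≤ π.l := le_trans (by norm_num) F.hl
  have hTS : 0 ≤ π.TS (Lcut d n) (sgn s) ((h : ℚ) : ℝ) := Finset.sum_nonneg fun _ _ => sq_nonneg _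
  have hMB := (s6d_MB_facts (s6N d n P c) π.l (s6om n) (π.jmaj (Cmaj d) (Lcut d n) ((h : ℚ) : ℝ) u)
    (π.YE (Lcut d n) (sgn s) ((h : ℚ) : ℝ)) hl1 F.Bm_nonneg F.hBt F.hQa (F.s6d_j_nonneg u)).2.2.2
  have hVB : 0 ≤ s6DiagVB (s6N d n P c) π.l (π.jmaj (Cmaj d) (Lcut d n) ((h : ℚ) : ℝ) u)
      (π.TS (Lcut d n) (sgn s) ((h : ℚ) : ℝ)) := by
    unfold s6DiagVB
    have := F.hNe
    positivity
  have hST := Nm.ST_pos
  have : 0 ≤ s6DiagMB (s6N d n P c) π.l (s6om n) (π.jmaj (Cmaj d) (Lcut d n) ((h : ℚ) : ℝ) u)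
      (π.YE (Lcut d n) (sgn s) ((h : ℚ) : ℝ)) := by linarith
  positivity

theorem s6_ratio_TS (O : S6One c.C0 C) (Br : S6Br d n P c C) (Nm : S6NumOK d n P c C) (I : S6Inv P c C π₁ t π)
    (ht : t < bb n) (fb : (π₁.badL (R0 d n)).length < bb n) (hu : π₁.s6first π = some u)
    (h : ℚ) (hh : h ∈ trackedList d n P.cp) (s : Bool) :
    (s6Phase ℝ d n P SA π₁).ratio (Sum.inr (S6Lab.tS h s)) π ≤
      1 + 2 * C * (s6DiagMB (s6N d n P c) π.l (s6om n) (π.jmaj (Cmaj d) (Lcut d n) ((h : ℚ) : ℝ) u)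
              (π.YE (Lcut d n) (sgn s) ((h : ℚ) : ℝ)) / Real.sqrt ((s6ST P n : ℚ) : ℝ)
            + s6DiagVB (s6N d n P c) π.l (π.jmaj (Cmaj d) (Lcut d n) ((h : ℚ) : ℝ) u)
              (π.TS (Lcut d n) (sgn s) ((h : ℚ) : ℝ)) / ((s6ST P n : ℚ) : ℝ)) / (l0 n : ℝ) := by
  have F := Br.facts π₁ π t I h hh s
  obtain ⟨hc1, -⟩ := s6_I_card Nm I ht fb hu
  have hSet := (s6_inv_set Br Nm I ht fb hu (.stub u) (.stub u) h hh).1
  have hC : 0 ≤ C := le_trans zero_le_one O.pos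
  have hST := Nm.ST_pos
  have hTS : 0 ≤ π.TS (Lcut d n) (sgn s) ((h : ℚ) : ℝ) := Finset.sum_nonneg fun _ _ => sq_nonneg _
  have hD := O.diag π (Cmaj d) (Lcut d n) (sgn s) h (s6N d n P c) (s6om n) u (s6I π₁ π u) _ hST F hSet
  have hl0 : (0 : ℝ) < (l0 n : ℝ) := by
    have := Nm.l0_ge
    exact_mod_cast (by omega : 0 < l0 n)
  have key := s6bt_ratio _ _ (1 + π.TS (Lcut d n) (sgn s) ((h : ℚ) : ℝ) / ((s6ST P n : ℚ) : ℝ)) C _ (l0 n : ℝ)
    (by positivity) hC (s6bt_X_nonneg Br Nm I h hh s u) hl0 hc1 hD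
  have e : (s6Phase ℝ d n P SA π₁).ratio (Sum.inr (S6Lab.tS h s)) π =
      max 1 ((∑ v ∈ s6I π₁ π u, (1 + (π.resolve u v).TS (Lcut d n) (sgn s) ((h : ℚ) : ℝ) / ((s6ST P n : ℚ) : ℝ)))
        / ((s6I π₁ π u).card : ℝ) / (1 + π.TS (Lcut d n) (sgn s) ((h : ℚ) : ℝ) / ((s6ST P n : ℚ) : ℝ))) := by
    unfold Phase.ratio
    rw [Phase.avg_eq_lavg]
    show max 1 (lavg (π₁.s6cands π) (fun π' => 1 + π'.TS (Lcut d n) (sgn s) ((h : ℚ) : ℝ) / ((s6ST P n : ℚ) : ℝ))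
      / (1 + π.TS (Lcut d n) (sgn s) ((h : ℚ) : ℝ) / ((s6ST P n : ℚ) : ℝ))) = _
    rw [PPair.s6_lavg_cands π₁ π hu]
    rfl
  rw [e]
  exact key

end Step

section Bud

variable {path : ℕ → PPair n d} {t : ℕ}

theorem s6_bud_TS (O : S6One c.C0 C) (Br : S6Br d n P c C) (Nm : S6NumOK d n P c C)
    (H : S6Hist P c C SA π₁ path t) (ht : t < bb n) (fb : (π₁.badL (R0 d n)).length < bb n)
    (h : ℚ) (hh : h ∈ trackedList d n P.cp) (s : Bool) :
    ∏ s' ∈ Finset.range (t + 1), (s6Phase ℝ d n P SA π₁).ratio (Sum.inr (S6Lab.tS h s)) (path s') ≤ 2 := by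
  obtain ⟨us, vs, Ch, hus⟩ := s6_hist_chain H
  have hus' : ∀ s ≤ t, π₁.s6first (path s) = some (us s) := fun s hs => (hus s hs).1
  have S := s6_hist_seq Br Nm H ht Ch hus' h hh s (.stub (us 0)) (.stub (us 0))
  have hM := s6_sum_diagM S
  have hV := s6_sum_diagV S
  have hC : 0 ≤ C := le_trans zero_le_one O.pos
  have hl0 : (0 : ℝ) < (l0 n : ℝ) := by exact_mod_cast S.l0pos
  have hST := Nm.ST_pos
  have hsq : 0 < Real.sqrt ((s6ST P n : ℚ) : ℝ) := Real.sqrt_pos.2 hST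
  refine s6_prod_le_two (t + 1) _
    (fun s' => 2 * C * (s6DiagMB (s6N d n P c) (path s').l (s6om n)
              ((path s').jmaj (Cmaj d) (Lcut d n) ((h : ℚ) : ℝ) (us s'))
              ((path s').YE (Lcut d n) (sgn s) ((h : ℚ) : ℝ)) / Real.sqrt ((s6ST P n : ℚ) : ℝ)
            + s6DiagVB (s6N d n P c) (path s').l ((path s').jmaj (Cmaj d) (Lcut d n) ((h : ℚ) : ℝ) (us s'))
              ((path s').TS (Lcut d n) (sgn s) ((h : ℚ) : ℝ)) / ((s6ST P n : ℚ) : ℝ)) / (l0 n : ℝ))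
    (fun s' _ => (Phase.ratio_pos _ _ _).le) (fun s' hs' => ?_) (fun s' hs' => ?_) ?_
  · exact s6_ratio_TS O Br Nm (H.2.1 s' (by omega)) (by omega) fb (hus' s' (by omega)) h hh s
  · have := s6bt_X_nonneg Br Nm (H.2.1 s' (by omega)) h hh s (us s')
    positivity
  · rw [← Finset.sum_div, ← Finset.mul_sum, Finset.sum_add_distrib, ← Finset.sum_div, ← Finset.sum_div]
    refine le_trans ?_ Nm.T1
    refine div_le_div_of_nonneg_right (mul_le_mul_of_nonneg_left ?_ (by positivity)) hl0.le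
    exact add_le_add (div_le_div_of_nonneg_right hM hsq.le) (div_le_div_of_nonneg_right hV hST.le)

end Bud

end Claimed.Agent.R275
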