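import Claimed.Agent.R275.TwoByTwo

/-!
# Row 275, Sec 6 (cleanup.tex), package S6-CORE: the scalar core of one exposure

Owner of the statements: helper208.  Proofs: helper295 (auxiliary lemmas: prefix `s6core`).  Prefix `s6`.  May assume every statement of `TwoByTwo.lean`.

This file REPLACES Lemma 6.4 (`lem:cleanup-words`, endpoint word classification) and the identity (6.4) = `eq:original-38`.
Everything here is a statement about finitely many real numbers: index `0 = u` (prescribed endpoint), `1 = v` (random endpoint),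
* `T`  = reference deviation `Uᵀ P U - G_0`, `Ep = Uᵀ E U`  (symmetric `2 × 2`),
* `pa ea pb eb : Fin 2 → ℝ` = the outer entries `p_a(s), e_a(s), p_b(s), e_b(s)`, `s ∈ {u, v}`,
* `H_P = Hgen l σ h T`, `H = Hgen l σ h (T + Ep)`.
The numerical part of the old-axis error increment is `s6dNum = -(w_aᵀ H w_b - p_aᵀ H_P p_b)`.
All inequalities were tested on 3·10⁵ random configurations over 8 orders of magnitude (worst ratio `≈ 2.1`); identities to rounding.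

PROOF ROUTE of `s6_core_decomp` (checked by hand):  `H = H_P - H_P Ep H` (`tb_sub`) gives
`s6dNum = -(e_aᵀ H_P p_b + p_aᵀ H_P e_b + e_aᵀ H_P e_b) + w_aᵀ H_P Ep H w_b`  (`s6_core_split`).
Write `H_P = -σh F + X`, `H = -σh F + Y`; `tb_first_order` bounds `X` (with `a = ju, c = jv, β = buv`) and `Y`
(with `a = ju + Bm, c = jv + Bm, β = buv + Bm`).  The `-σh F` parts give exactly `s6Z + s6S`; the rest is
`-(e_aᵀ X p_b + p_aᵀ X e_b + e_aᵀ X e_b) + w_aᵀ (-σh (X Ep F + F Ep Y) + X Ep Y) w_b`, bounded entry by entry.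
-/

set_option autoImplicit false

namespace Claimed.Agent.R275

open Matrix

/-- the bilinear form `aᵀ M b` -/
def s6q (a : Fin 2 → ℝ) (M : Matrix (Fin 2) (Fin 2) ℝ) (b : Fin 2 → ℝ) : ℝ := a ⬝ᵥ (M *ᵥ b)

/-- numerical part of the old-axis increment of `E_{ab}`: `-(w_aᵀ H w_b - p_aᵀ H_P p_b)` -/
noncomputable def s6dNum (l : ℕ) (σ h : ℝ) (T Ep : Matrix (Fin 2) (Fin 2) ℝ) (pa ea pb eb : Fin 2 → ℝ) : ℝ :=
  -(s6q (pa + ea) (Hgen l σ h (T + Ep)) (pb + eb) - s6q pa (Hgen l σ h T) pb)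

/-- zero-intermediate pure-swap terms with at least one outer `E` -/
def s6Z (σ h : ℝ) (pa ea pb eb : Fin 2 → ℝ) : ℝ :=
  σ * h * ((pa 0 * eb 1 + ea 0 * pb 1 + ea 0 * eb 1) + (pa 1 * eb 0 + ea 1 * pb 0 + ea 1 * eb 0))

/-- the pure single endpoint-`E` term with `W` outers -/
def s6S (h : ℝ) (Ep : Matrix (Fin 2) (Fin 2) ℝ) (wa wb : Fin 2 → ℝ) : ℝ :=
  h ^ 2 * (wa 0 * wb 0 * Ep 1 1 + wa 1 * wb 1 * Ep 0 0 + (wa 0 * wb 1 + wa 1 * wb 0) * Ep 0 1)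

/-- the remainder majorant (classes 1, 4, 5, 6 of Lemma 6.4) -/
noncomputable def s6RemB (l : ℕ) (ra rb : Fin 2 → ℝ) (ju jv buv Bm : ℝ) : ℝ :=
  ra 0 * rb 0 * (jv + buv + Bm ^ 2 + 1 / (l : ℝ)) + ra 1 * rb 1 * (ju + buv + Bm ^ 2 + 1 / (l : ℝ))
    + (ra 0 * rb 1 + ra 1 * rb 0) * (buv + (ju + Bm) * (jv + Bm) + 1 / (l : ℝ))

/-- hypotheses on the two endpoint blocks -/
structure S6Blk (l : ℕ) (σ h : ℝ) (T Ep : Matrix (Fin 2) (Fin 2) ℝ) (ju jv buv Bm : ℝ) : Prop where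
  hT : TBHyp l σ h T
  hTE : TBHyp l σ h (T + Ep)
  h00 : |T 0 0| ≤ ju
  h11 : |T 1 1| ≤ jv
  h01 : |T 0 1| ≤ buv
  hE : ∀ i j, |Ep i j| ≤ Bm
  ju1 : ju ≤ 1
  jv1 : jv ≤ 1
  buv1 : buv ≤ 1
  Bm1 : Bm ≤ 1

/-! ### scalar helpers -/

theorem s6core_abs_mul_le {a b A B : ℝ} (ha : |a| ≤ A) (hb : |b| ≤ B) : |a * b| ≤ A * B := by
  rw [abs_mul]
  exact mul_le_mul ha hb (abs_nonneg _) ((abs_nonneg _).trans ha)

theorem s6core_sum2_le {x0 x1 t0 t1 X0 X1 T0 T1 : ℝ} (h0 : |x0| ≤ X0) (h1 : |x1| ≤ X1)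
    (k0 : |t0| ≤ T0) (k1 : |t1| ≤ T1) : |x0 * t0 + x1 * t1| ≤ X0 * T0 + X1 * T1 :=
  (abs_add_le _ _).trans (add_le_add (s6core_abs_mul_le h0 k0) (s6core_abs_mul_le h1 k1))

theorem s6core_sum4_le {x0 x1 x2 x3 t0 t1 t2 t3 X0 X1 X2 X3 T0 T1 T2 T3 : ℝ} (h0 : |x0| ≤ X0)
    (h1 : |x1| ≤ X1) (h2 : |x2| ≤ X2) (h3 : |x3| ≤ X3) (k0 : |t0| ≤ T0) (k1 : |t1| ≤ T1)
    (k2 : |t2| ≤ T2) (k3 : |t3| ≤ T3) :
    |x0 * t0 + x1 * t1 + x2 * t2 + x3 * t3| ≤ X0 * T0 + X1 * T1 + X2 * T2 + X3 * T3 := by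
  have e : x0 * t0 + x1 * t1 + x2 * t2 + x3 * t3 = (x0 * t0 + x1 * t1) + (x2 * t2 + x3 * t3) := by
    ring
  rw [e]
  refine (abs_add_le _ _).trans ?_
  have := s6core_sum2_le h0 h1 k0 k1
  have := s6core_sum2_le h2 h3 k2 k3
  linarith

theorem s6core_three_le {p e p' e' r r' : ℝ} (h : |p| + |e| ≤ r) (h' : |p'| + |e'| ≤ r') :
    |e * p' + p * e' + e * e'| ≤ r * r' := by
  have h1 : |e * p' + p * e' + e * e'| ≤ |e| * |p'| + |p| * |e'| + |e| * |e'| := by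
    refine (abs_add_le _ _).trans (add_le_add ((abs_add_le _ _).trans ?_) ?_)
    · rw [abs_mul, abs_mul]
    · rw [abs_mul]
  have h2 : (|p| + |e|) * (|p'| + |e'|) ≤ r * r' :=
    mul_le_mul h h' (by positivity) ((by positivity : (0 : ℝ) ≤ |p| + |e|).trans h)
  nlinarith [mul_nonneg (abs_nonneg p) (abs_nonneg p')]

theorem s6core_M_entry {x u v w0 w1 y0 y1 P Q : ℝ} (hx : |x| ≤ 1) (hu : |u| ≤ P) (hv : |v| ≤ Q)
    (hw0 : |w0| ≤ P) (hw1 : |w1| ≤ P) (hy0 : |y0| ≤ 5) (hy1 : |y1| ≤ 5) :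
    |-x * (u + v) + (w0 * y0 + w1 * y1)| ≤ 11 * P + Q := by
  have hP : 0 ≤ P := (abs_nonneg _).trans hu
  have hQ : 0 ≤ Q := (abs_nonneg _).trans hv
  have h1 : |-x * (u + v)| ≤ 1 * (P + Q) :=
    s6core_abs_mul_le (by rwa [abs_neg]) ((abs_add_le _ _).trans (add_le_add hu hv))
  have h2 := s6core_sum2_le hw0 hw1 hy0 hy1
  have := abs_add_le (-x * (u + v)) (w0 * y0 + w1 * y1)
  linarith

/-! ### the polynomial inequalities between the budgets -/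

section Budget

variable {ju jv buv Bm lam : ℝ}

theorem s6core_bud_diag (hju0 : 0 ≤ ju) (hju : ju ≤ 1) (hjv0 : 0 ≤ jv) (hb0 : 0 ≤ buv)
    (hB0 : 0 ≤ Bm) (hB : Bm ≤ 1) (hl : 0 ≤ lam) :
    11 * (Bm * ((jv + lam) + (buv + ju * jv + lam))) +
      Bm * ((jv + Bm + lam) + (buv + Bm + (ju + Bm) * (jv + Bm) + lam)) ≤
      37 * (jv + buv + Bm ^ 2 + lam) := by
  have h1 : ju * jv ≤ jv := by nlinarith
  have h2 : Bm * ((jv + lam) + (buv + ju * jv + lam)) ≤ (jv + lam) + (buv + jv + lam) := by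
    have : 0 ≤ (jv + lam) + (buv + ju * jv + lam) := by positivity
    nlinarith
  have h3 : (ju + Bm) * (jv + Bm) ≤ 2 * (jv + Bm) := by nlinarith
  have h4 : Bm * ((ju + Bm) * (jv + Bm)) ≤ 2 * (Bm * jv + Bm ^ 2) := by nlinarith
  have h5 : Bm * jv ≤ jv := by nlinarith
  have h6 : Bm * lam ≤ lam := by nlinarith
  have h7 : Bm * buv ≤ buv := by nlinarith
  nlinarith

theorem s6core_bud_off (hju0 : 0 ≤ ju) (hjv0 : 0 ≤ jv) (hb0 : 0 ≤ buv)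
    (hB0 : 0 ≤ Bm) (hB : Bm ≤ 1) (hl : 0 ≤ lam) :
    11 * (Bm * ((jv + lam) + (buv + ju * jv + lam))) +
      Bm * ((buv + Bm + (ju + Bm) * (jv + Bm) + lam) + (ju + Bm + lam)) ≤
      25 * (buv + (ju + Bm) * (jv + Bm) + lam) := by
  have h6 : Bm * lam ≤ lam := by nlinarith
  have h7 : Bm * buv ≤ buv := by nlinarith
  have h8 : Bm * (ju * jv) ≤ ju * jv := by nlinarith [mul_nonneg hju0 hjv0]
  have h9 : Bm * ((ju + Bm) * (jv + Bm)) ≤ (ju + Bm) * (jv + Bm) := by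
    nlinarith [mul_nonneg (add_nonneg hju0 hB0) (add_nonneg hjv0 hB0)]
  have e : (ju + Bm) * (jv + Bm) = ju * jv + ju * Bm + Bm * jv + Bm ^ 2 := by ring
  have p1 := mul_nonneg hju0 hjv0
  have p2 := mul_nonneg hju0 hB0
  have p3 := mul_nonneg hB0 hjv0
  nlinarith

end Budget


/-- entries of `X Ep` -/
theorem s6core_XE {X Ep : Matrix (Fin 2) (Fin 2) ℝ} {Bm : ℝ} (hE : ∀ i j, |Ep i j| ≤ Bm) {i : Fin 2}
    {a b : ℝ} (h0 : |X i 0| ≤ a) (h1 : |X i 1| ≤ b) (m : Fin 2) : |(X * Ep) i m| ≤ Bm * (a + b) := by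
  rw [Matrix.mul_apply, Fin.sum_univ_two]
  have := s6core_sum2_le h0 h1 (hE 0 m) (hE 1 m)
  linarith

/-- entries of `Ep Y` -/
theorem s6core_EY {Y Ep : Matrix (Fin 2) (Fin 2) ℝ} {Bm : ℝ} (hE : ∀ i j, |Ep i j| ≤ Bm) {j : Fin 2}
    {a b : ℝ} (h0 : |Y 0 j| ≤ a) (h1 : |Y 1 j| ≤ b) (k : Fin 2) : |(Ep * Y) k j| ≤ Bm * (a + b) := by
  rw [Matrix.mul_apply, Fin.sum_univ_two]
  have := s6core_sum2_le (hE k 0) (hE k 1) h0 h1
  linarith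

/-- the matrix of the second remainder -/
noncomputable def s6coreM (x : ℝ) (X Ep Y : Matrix (Fin 2) (Fin 2) ℝ) : Matrix (Fin 2) (Fin 2) ℝ :=
  -x • (X * Ep * F2 ℝ + F2 ℝ * Ep * Y) + X * Ep * Y

theorem s6coreM_apply (x : ℝ) (X Ep Y : Matrix (Fin 2) (Fin 2) ℝ) (i j : Fin 2) :
    s6coreM x X Ep Y i j = -x * ((X * Ep) i (1 - j) + (Ep * Y) (1 - i) j)
      + ((X * Ep) i 0 * Y 0 j + (X * Ep) i 1 * Y 1 j) := by
  have e1 : (X * Ep * F2 ℝ) i j = (X * Ep) i (1 - j) := by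
    rw [Matrix.mul_apply, Fin.sum_univ_two]
    fin_cases j <;> simp [F2]
  have e2 : (F2 ℝ * Ep * Y) i j = (Ep * Y) (1 - i) j := by
    rw [Matrix.mul_assoc, Matrix.mul_apply, Fin.sum_univ_two]
    fin_cases i <;> simp [F2]
  have e3 : (X * Ep * Y) i j = (X * Ep) i 0 * Y 0 j + (X * Ep) i 1 * Y 1 j := by
    rw [Matrix.mul_apply, Fin.sum_univ_two]
  rw [s6coreM, Matrix.add_apply, Matrix.smul_apply, Matrix.add_apply, e1, e2, e3, smul_eq_mul]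

theorem s6coreM_abs_le {x : ℝ} {X Ep Y : Matrix (Fin 2) (Fin 2) ℝ} {Bm : ℝ} (hx : |x| ≤ 1)
    (hE : ∀ i j, |Ep i j| ≤ Bm) (hY5 : ∀ i j, |Y i j| ≤ 5) {i j : Fin 2} {a b c d : ℝ}
    (h0 : |X i 0| ≤ a) (h1 : |X i 1| ≤ b) (k0 : |Y 0 j| ≤ c) (k1 : |Y 1 j| ≤ d) :
    |s6coreM x X Ep Y i j| ≤ 11 * (Bm * (a + b)) + Bm * (c + d) := by
  rw [s6coreM_apply]
  exact s6core_M_entry hx (s6core_XE hE h0 h1 _) (s6core_EY hE k0 k1 _) (s6core_XE hE h0 h1 _)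
    (s6core_XE hE h0 h1 _) (hY5 _ _) (hY5 _ _)

/-- the four entries of the second remainder -/
theorem s6coreM_bounds {x : ℝ} {X Ep Y : Matrix (Fin 2) (Fin 2) ℝ} {C1 ju jv buv Bm lam : ℝ}
    (hx : |x| ≤ 1) (hC1 : 0 ≤ C1) (hju0 : 0 ≤ ju) (hju : ju ≤ 1) (hjv0 : 0 ≤ jv) (hjv : jv ≤ 1)
    (hb0 : 0 ≤ buv) (hB0 : 0 ≤ Bm) (hB : Bm ≤ 1) (hl : 0 ≤ lam)
    (hE : ∀ i j, |Ep i j| ≤ Bm) (hY5 : ∀ i j, |Y i j| ≤ 5)
    (hX00 : |X 0 0| ≤ C1 * (jv + lam)) (hX11 : |X 1 1| ≤ C1 * (ju + lam))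
    (hX01 : |X 0 1| ≤ C1 * (buv + ju * jv + lam)) (hX10 : |X 1 0| ≤ C1 * (buv + ju * jv + lam))
    (hY00 : |Y 0 0| ≤ C1 * (jv + Bm + lam)) (hY11 : |Y 1 1| ≤ C1 * (ju + Bm + lam))
    (hY01 : |Y 0 1| ≤ C1 * (buv + Bm + (ju + Bm) * (jv + Bm) + lam))
    (hY10 : |Y 1 0| ≤ C1 * (buv + Bm + (ju + Bm) * (jv + Bm) + lam)) :
    |s6coreM x X Ep Y 0 0| ≤ 37 * C1 * (jv + buv + Bm ^ 2 + lam) ∧
    |s6coreM x X Ep Y 1 1| ≤ 37 * C1 * (ju + buv + Bm ^ 2 + lam) ∧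
    |s6coreM x X Ep Y 0 1| ≤ 25 * C1 * (buv + (ju + Bm) * (jv + Bm) + lam) ∧
    |s6coreM x X Ep Y 1 0| ≤ 25 * C1 * (buv + (ju + Bm) * (jv + Bm) + lam) := by
  refine ⟨?_, ?_, ?_, ?_⟩
  · refine (s6coreM_abs_le hx hE hY5 hX00 hX01 hY00 hY10).trans ?_
    have := mul_le_mul_of_nonneg_left (s6core_bud_diag hju0 hju hjv0 hb0 hB0 hB hl) hC1
    linarith
  · refine (s6coreM_abs_le hx hE hY5 hX10 hX11 hY01 hY11).trans ?_
    have := mul_le_mul_of_nonneg_left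
      (s6core_bud_diag (ju := jv) (jv := ju) hjv0 hjv hju0 hb0 hB0 hB hl) hC1
    linarith
  · refine (s6coreM_abs_le hx hE hY5 hX00 hX01 hY01 hY11).trans ?_
    have := mul_le_mul_of_nonneg_left (s6core_bud_off hju0 hjv0 hb0 hB0 hB hl) hC1
    linarith
  · refine (s6coreM_abs_le hx hE hY5 hX10 hX11 hY00 hY10).trans ?_
    have := mul_le_mul_of_nonneg_left
      (s6core_bud_off (ju := jv) (jv := ju) hjv0 hju0 hb0 hB0 hB hl) hC1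
    linarith


/-- the bilinear form in entries -/
theorem s6core_q_eq (a : Fin 2 → ℝ) (M : Matrix (Fin 2) (Fin 2) ℝ) (b : Fin 2 → ℝ) :
    s6q a M b = a 0 * (M 0 0 * b 0 + M 0 1 * b 1) + a 1 * (M 1 0 * b 0 + M 1 1 * b 1) := by
  simp only [s6q, dotProduct, mulVec, Fin.sum_univ_two]

/-- exact splitting, abstract form -/
theorem s6core_split_abs {A B Ep : Matrix (Fin 2) (Fin 2) ℝ} (hB : B = A - A * Ep * B)
    (pa ea pb eb : Fin 2 → ℝ) :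
    -(s6q (pa + ea) B (pb + eb) - s6q pa A pb) =
      -(s6q ea A pb + s6q pa A eb + s6q ea A eb) + s6q (pa + ea) (A * Ep * B) (pb + eb) := by
  have h1 : s6q (pa + ea) B (pb + eb) =
      s6q (pa + ea) A (pb + eb) - s6q (pa + ea) (A * Ep * B) (pb + eb) := by
    conv_lhs => rw [hB]
    simp only [s6core_q_eq, Matrix.sub_apply]
    ring
  rw [h1]
  simp only [s6core_q_eq, Pi.add_apply]
  ring

/-- exact splitting -/
theorem s6_core_split {l : ℕ} {σ h : ℝ} {T Ep : Matrix (Fin 2) (Fin 2) ℝ} (hT : TBHyp l σ h T)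
    (hTE : TBHyp l σ h (T + Ep)) (pa ea pb eb : Fin 2 → ℝ) :
    s6dNum l σ h T Ep pa ea pb eb =
      -(s6q ea (Hgen l σ h T) pb + s6q pa (Hgen l σ h T) eb + s6q ea (Hgen l σ h T) eb)
        + s6q (pa + ea) (Hgen l σ h T * Ep * Hgen l σ h (T + Ep)) (pb + eb) := by
  exact s6core_split_abs (tb_sub hT hTE) pa ea pb eb

/-- the decomposition identity -/
theorem s6core_decomp_id {A B Ep : Matrix (Fin 2) (Fin 2) ℝ} (hB : B = A - A * Ep * B) {σ h : ℝ}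
    (hσ : σ ^ 2 = 1) (hsym : Ep 1 0 = Ep 0 1) (pa ea pb eb : Fin 2 → ℝ) :
    -(s6q (pa + ea) B (pb + eb) - s6q pa A pb) - s6Z σ h pa ea pb eb - s6S h Ep (pa + ea) (pb + eb) =
      -(s6q ea (A + (σ * h) • F2 ℝ) pb + s6q pa (A + (σ * h) • F2 ℝ) eb
          + s6q ea (A + (σ * h) • F2 ℝ) eb)
        + s6q (pa + ea) (s6coreM (σ * h) (A + (σ * h) • F2 ℝ) Ep (B + (σ * h) • F2 ℝ)) (pb + eb) := by
  rw [s6core_split_abs hB, s6coreM]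
  simp only [s6core_q_eq, s6Z, s6S, Pi.add_apply, Matrix.add_apply, Matrix.smul_apply, Matrix.mul_apply,
    Fin.sum_univ_two, F2, smul_eq_mul]
  simp only [Fin.isValue, if_true, one_ne_zero, zero_ne_one, if_false]
  linear_combination (h ^ 2 * ((pa 0 + ea 0) * (pb 0 + eb 0) * Ep 1 1 + (pa 0 + ea 0) * (pb 1 + eb 1) * Ep 1 0
    + (pa 1 + ea 1) * (pb 0 + eb 0) * Ep 0 1 + (pa 1 + ea 1) * (pb 1 + eb 1) * Ep 0 0)) * hσ
    + (h ^ 2 * (pa 0 + ea 0) * (pb 1 + eb 1)) * hsym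

/-! ### consequences of `TBHyp` -/

theorem s6core_abs_x {l : ℕ} {σ h : ℝ} {D : Matrix (Fin 2) (Fin 2) ℝ} (H : TBHyp l σ h D) :
    |σ * h| ≤ 1 := by
  have h1 : |σ| = 1 := by
    have := H.hσ
    rw [← sq_abs] at this
    nlinarith [abs_nonneg σ]
  rw [abs_mul, h1, one_mul, abs_of_pos H.hh]
  exact H.hh1

theorem s6core_lam_nonneg (l : ℕ) : 0 ≤ 1 / (l : ℝ) := by positivity

/-- entries of `H + σ h F` -/
theorem s6core_shift_apply (A : Matrix (Fin 2) (Fin 2) ℝ) (x : ℝ) :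
    (A + x • F2 ℝ) 0 0 = A 0 0 ∧ (A + x • F2 ℝ) 1 1 = A 1 1 ∧ (A + x • F2 ℝ) 0 1 = A 0 1 + x ∧
      (A + x • F2 ℝ) 1 0 = A 1 0 + x := by
  refine ⟨?_, ?_, ?_, ?_⟩ <;> simp [F2]

theorem s6core_shift_le5 {l : ℕ} {σ h : ℝ} {D : Matrix (Fin 2) (Fin 2) ℝ} (H : TBHyp l σ h D)
    (i j : Fin 2) : |(Hgen l σ h D + (σ * h) • F2 ℝ) i j| ≤ 5 := by
  have h1 := tb_abs_le H i j
  have h2 := s6core_abs_x H
  have h3 : |((σ * h) • F2 ℝ) i j| ≤ 1 := by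
    rw [Matrix.smul_apply, smul_eq_mul, F2]
    split_ifs
    · simp
    · simpa using h2
  rw [Matrix.add_apply]
  have := abs_add_le (Hgen l σ h D i j) (((σ * h) • F2 ℝ) i j)
  linarith

/-- the first order bounds for `X = H + σ h F` -/
theorem s6core_shift_bounds {C1 : ℝ}
    (hC : ∀ (l : ℕ) (σ h : ℝ) (D : Matrix (Fin 2) (Fin 2) ℝ) (a c β : ℝ),
      TBHyp l σ h D → |D 0 0| ≤ a → |D 1 1| ≤ c → |D 0 1| ≤ β →
      |Hgen l σ h D 0 0| ≤ C1 * (c + 1 / (l : ℝ)) ∧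
      |Hgen l σ h D 1 1| ≤ C1 * (a + 1 / (l : ℝ)) ∧
      |Hgen l σ h D 0 1 + σ * h| ≤ C1 * (β + a * c + 1 / (l : ℝ)))
    {l : ℕ} {σ h : ℝ} {D : Matrix (Fin 2) (Fin 2) ℝ} {a c β : ℝ} (H : TBHyp l σ h D)
    (h00 : |D 0 0| ≤ a) (h11 : |D 1 1| ≤ c) (h01 : |D 0 1| ≤ β) :
    |(Hgen l σ h D + (σ * h) • F2 ℝ) 0 0| ≤ C1 * (c + 1 / (l : ℝ)) ∧
    |(Hgen l σ h D + (σ * h) • F2 ℝ) 1 1| ≤ C1 * (a + 1 / (l : ℝ)) ∧
    |(Hgen l σ h D + (σ * h) • F2 ℝ) 0 1| ≤ C1 * (β + a * c + 1 / (l : ℝ)) ∧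
    |(Hgen l σ h D + (σ * h) • F2 ℝ) 1 0| ≤ C1 * (β + a * c + 1 / (l : ℝ)) := by
  obtain ⟨e0, e1, e2, e3⟩ := s6core_shift_apply (Hgen l σ h D) (σ * h)
  obtain ⟨b0, b1, b2⟩ := hC l σ h D a c β H h00 h11 h01
  rw [e0, e1, e2, e3, (tb_formula H).2.2.2]
  exact ⟨b0, b1, b2, b2⟩

/-- bound of the bilinear form by entrywise majorants -/
theorem s6core_q_abs_le {a b ra rb : Fin 2 → ℝ} {M : Matrix (Fin 2) (Fin 2) ℝ} {m00 m01 m10 m11 : ℝ}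
    (ha : ∀ s, |a s| ≤ ra s) (hb : ∀ s, |b s| ≤ rb s) (h00 : |M 0 0| ≤ m00) (h01 : |M 0 1| ≤ m01)
    (h10 : |M 1 0| ≤ m10) (h11 : |M 1 1| ≤ m11) :
    |s6q a M b| ≤ m00 * (ra 0 * rb 0) + m01 * (ra 0 * rb 1) + m10 * (ra 1 * rb 0)
      + m11 * (ra 1 * rb 1) := by
  have e : s6q a M b = M 0 0 * (a 0 * b 0) + M 0 1 * (a 0 * b 1) + M 1 0 * (a 1 * b 0)
      + M 1 1 * (a 1 * b 1) := by
    rw [s6core_q_eq]; ring
  rw [e]
  exact s6core_sum4_le h00 h01 h10 h11 (s6core_abs_mul_le (ha 0) (hb 0))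
    (s6core_abs_mul_le (ha 0) (hb 1)) (s6core_abs_mul_le (ha 1) (hb 0))
    (s6core_abs_mul_le (ha 1) (hb 1))

/-- the three outer terms -/
theorem s6core_outer_le {pa ea pb eb ra rb : Fin 2 → ℝ} {M : Matrix (Fin 2) (Fin 2) ℝ}
    {m00 m01 m10 m11 : ℝ} (ha : ∀ s, |pa s| + |ea s| ≤ ra s) (hb : ∀ s, |pb s| + |eb s| ≤ rb s)
    (h00 : |M 0 0| ≤ m00) (h01 : |M 0 1| ≤ m01) (h10 : |M 1 0| ≤ m10) (h11 : |M 1 1| ≤ m11) :
    |s6q ea M pb + s6q pa M eb + s6q ea M eb| ≤ m00 * (ra 0 * rb 0) + m01 * (ra 0 * rb 1)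
      + m10 * (ra 1 * rb 0) + m11 * (ra 1 * rb 1) := by
  have e : s6q ea M pb + s6q pa M eb + s6q ea M eb =
      M 0 0 * (ea 0 * pb 0 + pa 0 * eb 0 + ea 0 * eb 0)
      + M 0 1 * (ea 0 * pb 1 + pa 0 * eb 1 + ea 0 * eb 1)
      + M 1 0 * (ea 1 * pb 0 + pa 1 * eb 0 + ea 1 * eb 0)
      + M 1 1 * (ea 1 * pb 1 + pa 1 * eb 1 + ea 1 * eb 1) := by
    simp only [s6core_q_eq]; ring
  rw [e]
  exact s6core_sum4_le h00 h01 h10 h11 (s6core_three_le (ha 0) (hb 0)) (s6core_three_le (ha 0) (hb 1))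
    (s6core_three_le (ha 1) (hb 0)) (s6core_three_le (ha 1) (hb 1))

theorem S6Blk.symE {l : ℕ} {σ h : ℝ} {T Ep : Matrix (Fin 2) (Fin 2) ℝ} {ju jv buv Bm : ℝ}
    (H : S6Blk l σ h T Ep ju jv buv Bm) : Ep 1 0 = Ep 0 1 := by
  have h1 := H.hT.sym
  have h2 := H.hTE.sym
  rw [Matrix.add_apply, Matrix.add_apply] at h2
  linarith

/-- LEMMA 6.4' (numerical part): `s6dNum = Z + S + O(s6RemB)` -/
theorem s6_core_decomp : ∃ C : ℝ, 0 < C ∧ ∀ (l : ℕ) (σ h : ℝ) (T Ep : Matrix (Fin 2) (Fin 2) ℝ)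
    (ju jv buv Bm : ℝ) (pa ea pb eb ra rb : Fin 2 → ℝ),
    S6Blk l σ h T Ep ju jv buv Bm →
    (∀ s, |pa s| + |ea s| ≤ ra s) → (∀ s, |pb s| + |eb s| ≤ rb s) →
    |s6dNum l σ h T Ep pa ea pb eb - s6Z σ h pa ea pb eb - s6S h Ep (pa + ea) (pb + eb)|
      ≤ C * s6RemB l ra rb ju jv buv Bm := by
  obtain ⟨C1, hC1, hC⟩ := tb_first_order
  refine ⟨38 * C1, by positivity, ?_⟩
  intro l σ h T Ep ju jv buv Bm pa ea pb eb ra rb H ha hb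
  have hju0 : 0 ≤ ju := (abs_nonneg _).trans H.h00
  have hjv0 : 0 ≤ jv := (abs_nonneg _).trans H.h11
  have hb0 : 0 ≤ buv := (abs_nonneg _).trans H.h01
  have hB0 : 0 ≤ Bm := (abs_nonneg _).trans (H.hE 0 0)
  have hl := s6core_lam_nonneg l
  set lam : ℝ := 1 / (l : ℝ) with hlam
  have hadd : ∀ i j (c : ℝ), |T i j| ≤ c → |(T + Ep) i j| ≤ c + Bm := fun i j c hc => by
    rw [Matrix.add_apply]
    exact (abs_add_le _ _).trans (add_le_add hc (H.hE i j))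
  obtain ⟨x00, x11, x01, x10⟩ := s6core_shift_bounds hC H.hT H.h00 H.h11 H.h01
  obtain ⟨y00, y11, y01, y10⟩ := s6core_shift_bounds hC H.hTE (hadd 0 0 _ H.h00) (hadd 1 1 _ H.h11)
    (hadd 0 1 _ H.h01)
  obtain ⟨m00, m11, m01, m10⟩ := s6coreM_bounds (s6core_abs_x H.hT) hC1.le hju0 H.ju1 hjv0 H.jv1 hb0
    hB0 H.Bm1 hl H.hE (s6core_shift_le5 H.hTE) x00 x11 x01 x10 y00 y11 y01 y10
  have hra : ∀ s, 0 ≤ ra s := fun s => (by positivity : (0 : ℝ) ≤ |pa s| + |ea s|).trans (ha s)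
  have hrb : ∀ s, 0 ≤ rb s := fun s => (by positivity : (0 : ℝ) ≤ |pb s| + |eb s|).trans (hb s)
  have hwa : ∀ s, |(pa + ea) s| ≤ ra s := fun s => (abs_add_le _ _).trans (ha s)
  have hwb : ∀ s, |(pb + eb) s| ≤ rb s := fun s => (abs_add_le _ _).trans (hb s)
  unfold s6dNum
  rw [s6core_decomp_id (tb_sub H.hT H.hTE) H.hT.hσ H.symE]
  have t1 := s6core_outer_le ha hb x00 x01 x10 x11
  have t2 := s6core_q_abs_le hwa hwb m00 m01 m10 m11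
  refine (abs_add_le _ _).trans ?_
  rw [abs_neg]
  refine (add_le_add t1 t2).trans ?_
  unfold s6RemB
  rw [← hlam]
  have p00 := mul_nonneg (hra 0) (hrb 0)
  have p01 := mul_nonneg (hra 0) (hrb 1)
  have p10 := mul_nonneg (hra 1) (hrb 0)
  have p11 := mul_nonneg (hra 1) (hrb 1)
  -- comparison of the budgets
  have g0 : jv + lam ≤ jv + buv + Bm ^ 2 + lam := by nlinarith [sq_nonneg Bm]
  have g1 : ju + lam ≤ ju + buv + Bm ^ 2 + lam := by nlinarith [sq_nonneg Bm]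
  have g2 : buv + ju * jv + lam ≤ buv + (ju + Bm) * (jv + Bm) + lam := by
    nlinarith [mul_nonneg hju0 hB0, mul_nonneg hB0 hjv0, sq_nonneg Bm]
  have q0 := mul_le_mul_of_nonneg_left (mul_le_mul_of_nonneg_left g0 hC1.le) p00
  have q1 := mul_le_mul_of_nonneg_left (mul_le_mul_of_nonneg_left g1 hC1.le) p11
  have q2 := mul_le_mul_of_nonneg_left (mul_le_mul_of_nonneg_left g2 hC1.le) p01
  have q3 := mul_le_mul_of_nonneg_left (mul_le_mul_of_nonneg_left g2 hC1.le) p10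
  have G2 : 0 ≤ C1 * (buv + (ju + Bm) * (jv + Bm) + lam) := by positivity
  have r2 := mul_nonneg p01 G2
  have r3 := mul_nonneg p10 G2
  linarith

/-- uniform version of `s6core_q_abs_le` -/
theorem s6core_q_abs_le_unif {a b : Fin 2 → ℝ} {M : Matrix (Fin 2) (Fin 2) ℝ} {ra rb m : ℝ}
    (ha : ∀ s, |a s| ≤ ra) (hb : ∀ s, |b s| ≤ rb) (hM : ∀ i j, |M i j| ≤ m) :
    |s6q a M b| ≤ 4 * (m * (ra * rb)) := by
  have := s6core_q_abs_le (ra := fun _ => ra) (rb := fun _ => rb) ha hb (hM 0 0) (hM 0 1) (hM 1 0)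
    (hM 1 1)
  linarith

/-- crude bound: every term of `s6dNum` contains an `E` factor -/
theorem s6_core_crude : ∃ C : ℝ, 0 < C ∧ ∀ (l : ℕ) (σ h : ℝ) (T Ep : Matrix (Fin 2) (Fin 2) ℝ)
    (ju jv buv Bm : ℝ) (pa ea pb eb : Fin 2 → ℝ),
    S6Blk l σ h T Ep ju jv buv Bm →
    (∀ s, |pa s| ≤ 2) → (∀ s, |pb s| ≤ 2) → (∀ s, |ea s| ≤ Bm) → (∀ s, |eb s| ≤ Bm) →
    |s6dNum l σ h T Ep pa ea pb eb| ≤ C * Bm := by
  refine ⟨2384, by norm_num, ?_⟩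
  intro l σ h T Ep ju jv buv Bm pa ea pb eb H hpa hpb hea heb
  have hB0 : 0 ≤ Bm := (abs_nonneg _).trans (H.hE 0 0)
  have hB1 := H.Bm1
  rw [s6_core_split H.hT H.hTE]
  have hA := tb_abs_le H.hT
  have hB := tb_abs_le H.hTE
  have t1 := s6core_q_abs_le_unif hea hpb hA
  have t2 := s6core_q_abs_le_unif hpa heb hA
  have t3 := s6core_q_abs_le_unif hea heb hA
  have hwa : ∀ s, |(pa + ea) s| ≤ 3 := fun s =>
    (abs_add_le _ _).trans (by linarith [hpa s, hea s])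
  have hwb : ∀ s, |(pb + eb) s| ≤ 3 := fun s =>
    (abs_add_le _ _).trans (by linarith [hpb s, heb s])
  have hM : ∀ i j, |(Hgen l σ h T * Ep * Hgen l σ h (T + Ep)) i j| ≤ 64 * Bm := by
    intro i j
    rw [Matrix.mul_apply, Fin.sum_univ_two]
    have := s6core_sum2_le (s6core_XE H.hE (hA i 0) (hA i 1) 0) (s6core_XE H.hE (hA i 0) (hA i 1) 1)
      (hB 0 j) (hB 1 j)
    linarith
  have t4 := s6core_q_abs_le_unif hwa hwb hM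
  have hsq : Bm * Bm ≤ Bm := by nlinarith
  refine (abs_add_le _ _).trans ?_
  rw [abs_neg]
  have t5 := abs_add_le (s6q ea (Hgen l σ h T) pb + s6q pa (Hgen l σ h T) eb)
    (s6q ea (Hgen l σ h T) eb)
  have t6 := abs_add_le (s6q ea (Hgen l σ h T) pb) (s6q pa (Hgen l σ h T) eb)
  linarith

/-- the tail majorant coefficient: `âᵀ (Ĥ_P - h F) b̂` -/
theorem s6_core_tail : ∃ C : ℝ, 0 < C ∧ ∀ (l : ℕ) (h : ℝ) (t : Matrix (Fin 2) (Fin 2) ℝ) (ju jv buv : ℝ)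
    (aA bA : Fin 2 → ℝ),
    TBHyp l (-1) h (-t) → (∀ i j, 0 ≤ t i j) → t 0 0 ≤ ju → t 1 1 ≤ jv → t 0 1 ≤ buv →
    (∀ s, 0 ≤ aA s) → (∀ s, 0 ≤ bA s) →
    aA ⬝ᵥ ((Hgen l (-1) h (-t) - h • F2 ℝ) *ᵥ bA) ≤
      C * (aA 0 * bA 0 * (jv + 1 / (l : ℝ)) + aA 1 * bA 1 * (ju + 1 / (l : ℝ))
        + (aA 0 * bA 1 + aA 1 * bA 0) * (buv + ju * jv + 1 / (l : ℝ))) := by
  obtain ⟨C1, hC1, hC⟩ := tb_first_order
  refine ⟨C1, hC1, ?_⟩
  intro l h t ju jv buv aA bA H ht h00 h11 h01 ha hb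
  have habs : ∀ i j (c : ℝ), t i j ≤ c → |(-t) i j| ≤ c := fun i j c hc => by
    rw [Matrix.neg_apply, abs_neg, abs_of_nonneg (ht i j)]
    exact hc
  obtain ⟨b0, b1, b2⟩ := hC l (-1) h (-t) ju jv buv H (habs 0 0 _ h00) (habs 1 1 _ h11)
    (habs 0 1 _ h01)
  have e : aA ⬝ᵥ ((Hgen l (-1) h (-t) - h • F2 ℝ) *ᵥ bA) =
      s6q aA (Hgen l (-1) h (-t) - h • F2 ℝ) bA := rfl
  have e00 : (Hgen l (-1) h (-t) - h • F2 ℝ) 0 0 = Hgen l (-1) h (-t) 0 0 := by simp [F2]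
  have e11 : (Hgen l (-1) h (-t) - h • F2 ℝ) 1 1 = Hgen l (-1) h (-t) 1 1 := by simp [F2]
  have e01 : (Hgen l (-1) h (-t) - h • F2 ℝ) 0 1 = Hgen l (-1) h (-t) 0 1 + -1 * h := by
    simp [F2]; ring
  have e10 : (Hgen l (-1) h (-t) - h • F2 ℝ) 1 0 = Hgen l (-1) h (-t) 0 1 + -1 * h := by
    rw [← (tb_formula H).2.2.2]
    simp [F2]; ring
  rw [← e00] at b0
  rw [← e11] at b1
  have b3 := b2
  rw [← e01] at b2
  rw [← e10] at b3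
  have key := s6core_q_abs_le (a := aA) (b := bA) (ra := aA) (rb := bA)
    (M := Hgen l (-1) h (-t) - h • F2 ℝ) (fun s => (abs_of_nonneg (ha s)).le)
    (fun s => (abs_of_nonneg (hb s)).le) b0 b2 b3 b1
  rw [e]
  refine (le_abs_self _).trans (key.trans (le_of_eq ?_))
  ring

/-! ## the identity (6.4) and the transfer coefficients (Lemma 6.6) -/

/-- transfer coefficients `c_a(x) = ∑_s p_a(s) (H_P)_{sx}` -/
noncomputable def s6c (l : ℕ) (σ h : ℝ) (T : Matrix (Fin 2) (Fin 2) ℝ) (pa : Fin 2 → ℝ) : Fin 2 → ℝ :=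
  Hgen l σ h T *ᵥ pa

theorem s6core_transpose_eq {A : Matrix (Fin 2) (Fin 2) ℝ} (hA : A 1 0 = A 0 1) : Aᵀ = A := by
  ext i j
  fin_cases i <;> fin_cases j <;> simp [hA]

/-- the identity (6.4), abstract form -/
theorem s6core_jump_abs {A B Ep : Matrix (Fin 2) (Fin 2) ℝ} (hB : B = A - A * Ep * B)
    (hA : A 1 0 = A 0 1) (hBs : B 1 0 = B 0 1) (hE : Ep 1 0 = Ep 0 1) (pa ea pb eb : Fin 2 → ℝ) :
    -(s6q (pa + ea) B (pb + eb) - s6q pa A pb) =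
      -((A *ᵥ pa) ⬝ᵥ eb) - ea ⬝ᵥ (A *ᵥ pb) + s6q (A *ᵥ pa) Ep (A *ᵥ pb)
        - s6q (ea - Ep *ᵥ (A *ᵥ pa)) B (eb - Ep *ᵥ (A *ᵥ pb)) := by
  have hB2 : B = A - B * Ep * A := by
    have h := congrArg transpose hB
    rw [transpose_sub, transpose_mul, transpose_mul, s6core_transpose_eq hA,
      s6core_transpose_eq hBs, s6core_transpose_eq hE, ← Matrix.mul_assoc] at h
    exact h
  have d1 : ∀ i j, B i j = A i j - ((A i 0 * Ep 0 0 + A i 1 * Ep 1 0) * B 0 j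
      + (A i 0 * Ep 0 1 + A i 1 * Ep 1 1) * B 1 j) := by
    intro i j
    have h := congrFun (congrFun hB i) j
    rw [Matrix.sub_apply, Matrix.mul_apply, Fin.sum_univ_two, Matrix.mul_apply, Matrix.mul_apply,
      Fin.sum_univ_two, Fin.sum_univ_two] at h
    exact h
  have d2 : ∀ i j, B i j = A i j - ((B i 0 * Ep 0 0 + B i 1 * Ep 1 0) * A 0 j
      + (B i 0 * Ep 0 1 + B i 1 * Ep 1 1) * A 1 j) := by
    intro i j
    have h := congrFun (congrFun hB2 i) j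
    rw [Matrix.sub_apply, Matrix.mul_apply, Fin.sum_univ_two, Matrix.mul_apply, Matrix.mul_apply,
      Fin.sum_univ_two, Fin.sum_univ_two] at h
    exact h
  have d100 := d1 0 0
  have d101 := d1 0 1
  have d110 := d1 1 0
  have d111 := d1 1 1
  have d200 := d2 0 0
  have d201 := d2 0 1
  have d210 := d2 1 0
  have d211 := d2 1 1
  simp only [s6core_q_eq, dotProduct, mulVec, Fin.sum_univ_two, Pi.add_apply, Pi.sub_apply]
  rw [hA, hE] at *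
  linear_combination (-(pa 0 * eb 0 + pa 0 * pb 0)) * d100 + (-(pa 0 * eb 1 + pa 0 * pb 1)) * d101
    + (-(pa 1 * eb 0 + pa 1 * pb 0)) * d110 + (-(pa 1 * eb 1 + pa 1 * pb 1)) * d111
    + (-(ea 0 * pb 0) + ((pa 0 * A 0 0 + pa 1 * A 0 1) * Ep 0 0 + (pa 0 * A 0 1 + pa 1 * A 1 1) * Ep 0 1) * pb 0) * d200
    + (-(ea 0 * pb 1) + ((pa 0 * A 0 0 + pa 1 * A 0 1) * Ep 0 0 + (pa 0 * A 0 1 + pa 1 * A 1 1) * Ep 0 1) * pb 1) * d201
    + (-(ea 1 * pb 0) + ((pa 0 * A 0 0 + pa 1 * A 0 1) * Ep 0 1 + (pa 0 * A 0 1 + pa 1 * A 1 1) * Ep 1 1) * pb 0) * d210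
    + (-(ea 1 * pb 1) + ((pa 0 * A 0 0 + pa 1 * A 0 1) * Ep 0 1 + (pa 0 * A 0 1 + pa 1 * A 1 1) * Ep 1 1) * pb 1) * d211

/-- (6.4) in entries: `𝓕(W) - 𝓕(P) = T_P (E - E U H Uᵀ E) T_Pᵀ` minus the persisting identity term `E_{ab}` -/
theorem s6_core_jump_id {l : ℕ} {σ h : ℝ} {T Ep : Matrix (Fin 2) (Fin 2) ℝ} (hT : TBHyp l σ h T)
    (hTE : TBHyp l σ h (T + Ep)) (pa ea pb eb : Fin 2 → ℝ) :
    s6dNum l σ h T Ep pa ea pb eb =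
      -(s6c l σ h T pa ⬝ᵥ eb) - ea ⬝ᵥ s6c l σ h T pb + s6q (s6c l σ h T pa) Ep (s6c l σ h T pb)
        - s6q (ea - Ep *ᵥ s6c l σ h T pa) (Hgen l σ h (T + Ep)) (eb - Ep *ᵥ s6c l σ h T pb) := by
  have hE : Ep 1 0 = Ep 0 1 := by
    have h1 := hT.sym
    have h2 := hTE.sym
    rw [Matrix.add_apply, Matrix.add_apply] at h2
    linarith
  exact s6core_jump_abs (tb_sub hT hTE) (tb_formula hT).2.2.2 (tb_formula hTE).2.2.2 hE pa ea pb eb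

/-- `|c_a(u)| ≤ C (|p_a(u)| (j_v + 1/l) + |p_a(v)|)`, `|c_a(v)| ≤ C (|p_a(u)| + |p_a(v)| (j_u + 1/l))` -/
theorem s6_core_coef : ∃ C : ℝ, 0 < C ∧ ∀ (l : ℕ) (σ h : ℝ) (T : Matrix (Fin 2) (Fin 2) ℝ) (ju jv : ℝ)
    (pa : Fin 2 → ℝ), TBHyp l σ h T → |T 0 0| ≤ ju → |T 1 1| ≤ jv →
    |s6c l σ h T pa 0| ≤ C * (|pa 0| * (jv + 1 / (l : ℝ)) + |pa 1|) ∧
    |s6c l σ h T pa 1| ≤ C * (|pa 0| + |pa 1| * (ju + 1 / (l : ℝ))) := by
  obtain ⟨C1, hC1, hC⟩ := tb_first_order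
  refine ⟨C1 + 4, by positivity, ?_⟩
  intro l σ h T ju jv pa H h00 h11
  obtain ⟨b0, b1, -⟩ := hC l σ h T ju jv _ H h00 h11 le_rfl
  have hju0 : 0 ≤ ju := (abs_nonneg _).trans h00
  have hjv0 : 0 ≤ jv := (abs_nonneg _).trans h11
  have hl : 0 ≤ 1 / (l : ℝ) := by positivity
  have e0 : s6c l σ h T pa 0 = Hgen l σ h T 0 0 * pa 0 + Hgen l σ h T 0 1 * pa 1 := by
    simp only [s6c, mulVec, dotProduct, Fin.sum_univ_two]
  have e1 : s6c l σ h T pa 1 = Hgen l σ h T 1 0 * pa 0 + Hgen l σ h T 1 1 * pa 1 := by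
    simp only [s6c, mulVec, dotProduct, Fin.sum_univ_two]
  have p0 := abs_nonneg (pa 0)
  have p1 := abs_nonneg (pa 1)
  constructor
  · rw [e0]
    refine (s6core_sum2_le b0 (tb_abs_le H 0 1) le_rfl le_rfl).trans ?_
    have q1 : 0 ≤ |pa 0| * (jv + 1 / (l : ℝ)) := by positivity
    nlinarith
  · rw [e1]
    refine (s6core_sum2_le (tb_abs_le H 1 0) b1 le_rfl le_rfl).trans ?_
    have q1 : 0 ≤ |pa 1| * (ju + 1 / (l : ℝ)) := by positivity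
    nlinarith

/-- the jump bound in scalar form.  `ca cb` bound the transfer coefficients, `Xb s ≥ |E_{s b}|`, `Xa s ≥ |E_{a s}|`,
`Xp ≥ |E_{s s'}|` entrywise. -/
theorem s6_core_jump : ∃ C : ℝ, 0 < C ∧ ∀ (l : ℕ) (σ h : ℝ) (T Ep : Matrix (Fin 2) (Fin 2) ℝ)
    (ju jv buv Bm : ℝ) (pa ea pb eb ca cb : Fin 2 → ℝ),
    S6Blk l σ h T Ep ju jv buv Bm →
    (∀ s, |s6c l σ h T pa s| ≤ ca s) → (∀ s, |s6c l σ h T pb s| ≤ cb s) → (∀ s, ca s ≤ 16) → (∀ s, cb s ≤ 16) →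
    (∀ s, |ea s| ≤ Bm) → (∀ s, |eb s| ≤ Bm) →
    |s6dNum l σ h T Ep pa ea pb eb| ≤
      ∑ s, ca s * |eb s| + ∑ s, cb s * |ea s| + ∑ s, ∑ s', ca s * cb s' * |Ep s s'| + C * Bm ^ 2 := by
  refine ⟨17424, by norm_num, ?_⟩
  intro l σ h T Ep ju jv buv Bm pa ea pb eb ca cb H hca hcb hca16 hcb16 hea heb
  have hB0 : 0 ≤ Bm := (abs_nonneg _).trans (H.hE 0 0)
  rw [s6_core_jump_id H.hT H.hTE]
  set A := s6c l σ h T pa with hA
  set B := s6c l σ h T pb with hB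
  have t1 : |A ⬝ᵥ eb| ≤ ∑ s, ca s * |eb s| := by
    simp only [dotProduct, Fin.sum_univ_two]
    exact s6core_sum2_le (hca 0) (hca 1) le_rfl le_rfl
  have t2 : |ea ⬝ᵥ B| ≤ ∑ s, cb s * |ea s| := by
    simp only [dotProduct, Fin.sum_univ_two]
    have := s6core_sum2_le (le_refl |ea 0|) (le_refl |ea 1|) (hcb 0) (hcb 1)
    linarith
  have t3 : |s6q A Ep B| ≤ ∑ s, ∑ s', ca s * cb s' * |Ep s s'| := by
    simp only [Fin.sum_univ_two]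
    have := s6core_q_abs_le hca hcb (le_refl |Ep 0 0|) (le_refl |Ep 0 1|) (le_refl |Ep 1 0|)
      (le_refl |Ep 1 1|)
    linarith
  have hv : ∀ (e c : Fin 2 → ℝ) (cc : Fin 2 → ℝ), (∀ s, |e s| ≤ Bm) → (∀ s, |c s| ≤ cc s) →
      (∀ s, cc s ≤ 16) → ∀ s, |(e - Ep *ᵥ c) s| ≤ 33 * Bm := by
    intro e c cc he hc hcc s
    have e1 : (e - Ep *ᵥ c) s = e s - (Ep s 0 * c 0 + Ep s 1 * c 1) := by
      simp only [Pi.sub_apply, mulVec, dotProduct, Fin.sum_univ_two]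
    rw [e1]
    have h1 := s6core_sum2_le (H.hE s 0) (H.hE s 1) ((hc 0).trans (hcc 0)) ((hc 1).trans (hcc 1))
    have h2 := abs_sub (e s) (Ep s 0 * c 0 + Ep s 1 * c 1)
    linarith [he s]
  have t4 := s6core_q_abs_le_unif (hv ea A ca hea hca hca16) (hv eb B cb heb hcb hcb16)
    (tb_abs_le H.hTE)
  have a1 := abs_sub (-(A ⬝ᵥ eb) - ea ⬝ᵥ B + s6q A Ep B)
    (s6q (ea - Ep *ᵥ A) (Hgen l σ h (T + Ep)) (eb - Ep *ᵥ B))
  have a2 := abs_add_le (-(A ⬝ᵥ eb) - ea ⬝ᵥ B) (s6q A Ep B)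
  have a3 := abs_sub (-(A ⬝ᵥ eb)) (ea ⬝ᵥ B)
  rw [abs_neg] at a3
  nlinarith

end Claimed.Agent.R275
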