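import Claimed.Agent.R275.S6Ent

/-!
# Row 275, Sec 6 (cleanup.tex), package S6-DIAG: the surviving diagonal-square statistic `T_S` in one step

Owner of the statements: helper208.  May assume every statement of `S6Step.lean`, `S6Ent.lean`, `FormalTail.lean`.

(6.3) = `eq:original-37` and the per-step part of Lemma 6.5 (`lem:cleanup-diagonal`), in SUM form (sums over the partner `v ∈ I`).
`M_x = ∑_{v ∈ I, v ≠ x} Δe_x(x)`, `V = ∑_{v ∈ I} ∑_{x ∈ S \ {u,v}} (Δe_x(x))²`.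
No operator norm is used: only row squares, suprema, the symmetry `r_x(y) = r_y(x)` and Cauchy-Schwarz.

HAND PROOF of `s6_diag_mean` (`‖·‖` = `ℓ²` norm over `x ∈ S \ {u}`; `I_x = I \ {x}` omits `≤ om + 1` stubs; `‖(r_x(u))_x‖ ≤ √C0`,
`‖(r_x(u)²)_x‖ ≤ 2 √C0` by symmetry):
* `Z`: `|M^Z_x| ≤ 2 r_x(u) ((om+1) Bm + √((om+1) C0))`;   `TZ`: `|M^{TZ}_x| ≤ 2 r_x(u) √((om+1) C0)`;
* `S`: `r_x(u)² (|Y_E| + (om+1) Bm)`;  `|e_u(u)| ∑_v w_x(v)² ≤ Bm C0` for each `x` (norm `≤ Bm C0 √l`);  `2 r_x(u) C0`;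
* `Rem`: `r_x(u)² (2 Qa + l Bm² + 1)`;  `∑_v r_x(v)² (j_u + Bm² + 1/l) ≤ C0 (..)` for each `x`;
  `‖(∑_v r_x(v)² b_uv)_x‖ ≤ C0^{3/2}` since `(∑_v r_x(v)² b_uv)² ≤ C0 ∑_v r_x(v)² b_uv²` and `∑_x r_x(v)² ≤ C0`;
  `2 r_x(u) (C0 + (j_u + Bm) √(C0 l) + 1)`;  `(Bm + Bt)` for each `x` (norm `≤ (Bm + Bt) √l`).
-/

set_option autoImplicit false

namespace Claimed.Agent.R275

open Matrix

/-! ### abstract finite sums -/

section Abs

variable {ι : Type*}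

/-- Cauchy-Schwarz with a cardinality bound -/
theorem s6d_sum_le_sqrt (s : Finset ι) (f : ι → ℝ) (c K : ℝ) (hc : (s.card : ℝ) ≤ c)
    (hK : ∑ i ∈ s, f i ^ 2 ≤ K) : ∑ i ∈ s, f i ≤ Real.sqrt c * Real.sqrt K := by
  have h1 := Real.sum_mul_le_sqrt_mul_sqrt s (fun _ => (1 : ℝ)) f
  simp only [one_mul, one_pow, Finset.sum_const, nsmul_eq_mul, mul_one] at h1
  refine h1.trans ?_
  exact mul_le_mul (Real.sqrt_le_sqrt hc) (Real.sqrt_le_sqrt hK) (Real.sqrt_nonneg _) (Real.sqrt_nonneg _)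

theorem s6d_omit [DecidableEq ι] (S J : Finset ι) (hJ : J ⊆ S) (f : ι → ℝ) (hf : ∑ v ∈ S, f v = 0) :
    ∑ v ∈ J, f v = -∑ v ∈ S \ J, f v := by
  have := Finset.sum_sdiff hJ (f := f)
  linarith

/-- omitted sum of a centred array, sup bound -/
theorem s6d_omit_sup [DecidableEq ι] (S J : Finset ι) (hJ : J ⊆ S) (f : ι → ℝ) (hf : ∑ v ∈ S, f v = 0)
    (om B : ℝ) (hB : 0 ≤ B) (hc : ((S \ J).card : ℝ) ≤ om) (hb : ∀ v ∈ S, |f v| ≤ B) :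
    |∑ v ∈ J, f v| ≤ om * B := by
  rw [s6d_omit S J hJ f hf, abs_neg]
  refine (Finset.abs_sum_le_sum_abs _ _).trans ?_
  calc ∑ v ∈ S \ J, |f v| ≤ ∑ _v ∈ S \ J, B :=
        Finset.sum_le_sum fun v hv => hb v (Finset.mem_sdiff.1 hv).1
    _ = ((S \ J).card : ℝ) * B := by rw [Finset.sum_const, nsmul_eq_mul]
    _ ≤ om * B := mul_le_mul_of_nonneg_right hc hB

/-- omitted sum of a centred array, `ℓ²` bound -/
theorem s6d_omit_l2 [DecidableEq ι] (S J : Finset ι) (hJ : J ⊆ S) (f r : ι → ℝ) (hf : ∑ v ∈ S, f v = 0)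
    (om K : ℝ) (hc : ((S \ J).card : ℝ) ≤ om) (hb : ∀ v ∈ S, |f v| ≤ r v) (hK : ∑ v ∈ S, r v ^ 2 ≤ K) :
    |∑ v ∈ J, f v| ≤ Real.sqrt om * Real.sqrt K := by
  rw [s6d_omit S J hJ f hf, abs_neg]
  refine (Finset.abs_sum_le_sum_abs _ _).trans ?_
  refine (Finset.sum_le_sum fun v hv => hb v (Finset.mem_sdiff.1 hv).1).trans ?_
  refine s6d_sum_le_sqrt _ _ _ _ hc ?_
  exact (Finset.sum_le_sum_of_subset_of_nonneg Finset.sdiff_subset fun _ _ _ => sq_nonneg _).trans hK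

/-- `∑ f g ≤ K` from two row squares -/
theorem s6d_sum_mul_le (S J : Finset ι) (hJ : J ⊆ S) (f g : ι → ℝ) (K : ℝ) (hf : ∑ v ∈ S, f v ^ 2 ≤ K)
    (hg : ∑ v ∈ S, g v ^ 2 ≤ K) : ∑ v ∈ J, f v * g v ≤ K := by
  have h1 : ∑ v ∈ J, f v * g v ≤ ∑ v ∈ J, (f v ^ 2 + g v ^ 2) / 2 :=
    Finset.sum_le_sum fun v _ => by nlinarith [sq_nonneg (f v - g v)]
  have h2 : ∑ v ∈ J, (f v ^ 2 + g v ^ 2) / 2 ≤ ∑ v ∈ S, (f v ^ 2 + g v ^ 2) / 2 :=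
    Finset.sum_le_sum_of_subset_of_nonneg hJ fun _ _ _ => by positivity
  have h3 : ∑ v ∈ S, (f v ^ 2 + g v ^ 2) / 2 = (∑ v ∈ S, f v ^ 2 + ∑ v ∈ S, g v ^ 2) / 2 := by
    rw [← Finset.sum_add_distrib, Finset.sum_div]
  linarith

/-- the `Z` part -/
theorem s6d_Z [DecidableEq ι] (S J : Finset ι) (hJ : J ⊆ S) (p e r : ι → ℝ) (x pu eu ρ om Bm C0 : ℝ)
    (hx : |x| ≤ 1) (hBm : 0 ≤ Bm) (hc : ((S \ J).card : ℝ) ≤ om)
    (hp0 : ∑ v ∈ S, p v = 0) (he0 : ∑ v ∈ S, e v = 0) (hpe : ∀ v ∈ S, |p v| + |e v| ≤ r v)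
    (he : ∀ v ∈ S, |e v| ≤ Bm) (hr2 : ∑ v ∈ S, r v ^ 2 ≤ C0) (hu : |pu| + |eu| ≤ ρ) :
    |∑ v ∈ J, x * ((pu * e v + eu * p v + eu * e v) + (p v * eu + e v * pu + e v * eu))| ≤
      2 * ρ * (om * Bm + Real.sqrt om * Real.sqrt C0) := by
  have e1 : ∑ v ∈ J, x * ((pu * e v + eu * p v + eu * e v) + (p v * eu + e v * pu + e v * eu)) =
      x * (2 * (pu + eu) * ∑ v ∈ J, e v + 2 * eu * ∑ v ∈ J, p v) := by
    rw [Finset.mul_sum, Finset.mul_sum, ← Finset.sum_add_distrib, Finset.mul_sum]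
    exact Finset.sum_congr rfl fun v _ => by ring
  have h1 := s6d_omit_sup S J hJ e he0 om Bm hBm hc he
  have h2 := s6d_omit_l2 S J hJ p r hp0 om C0 hc
    (fun v hv => by linarith [hpe v hv, abs_nonneg (e v)]) hr2
  have h3 : |pu + eu| ≤ ρ := (abs_add_le _ _).trans hu
  have h4 : |eu| ≤ ρ := by linarith [abs_nonneg pu]
  have hρ : 0 ≤ ρ := (abs_nonneg _).trans h4
  rw [e1, abs_mul]
  have h5 : |2 * (pu + eu) * ∑ v ∈ J, e v + 2 * eu * ∑ v ∈ J, p v| ≤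
      2 * ρ * (om * Bm) + 2 * ρ * (Real.sqrt om * Real.sqrt C0) := by
    refine (abs_add_le _ _).trans (add_le_add ?_ ?_)
    · rw [abs_mul, abs_mul, abs_two]
      exact mul_le_mul (by linarith) h1 (abs_nonneg _) (by positivity)
    · rw [abs_mul, abs_mul, abs_two]
      exact mul_le_mul (by linarith) h2 (abs_nonneg _) (by positivity)
  calc |x| * _ ≤ 1 * _ := mul_le_mul_of_nonneg_right hx (abs_nonneg _)
    _ ≤ _ := by rw [one_mul]; linarith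

/-- the `TZ` part -/
theorem s6d_TZ [DecidableEq ι] (S J : Finset ι) (hJ : J ⊆ S) (tz r : ι → ℝ) (ρ om C0 : ℝ) (hρ : 0 ≤ ρ)
    (hc : ((S \ J).card : ℝ) ≤ om) (h0 : ∑ v ∈ S, tz v = 0) (hb : ∀ v ∈ S, |tz v| ≤ 2 * ρ * r v)
    (hr2 : ∑ v ∈ S, r v ^ 2 ≤ C0) :
    |∑ v ∈ J, tz v| ≤ 2 * ρ * (Real.sqrt om * Real.sqrt C0) := by
  rw [s6d_omit S J hJ tz h0, abs_neg]
  refine (Finset.abs_sum_le_sum_abs _ _).trans ?_
  refine (Finset.sum_le_sum fun v hv => hb v (Finset.mem_sdiff.1 hv).1).trans ?_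
  rw [← Finset.mul_sum]
  refine mul_le_mul_of_nonneg_left ?_ (by positivity)
  refine s6d_sum_le_sqrt _ _ _ _ hc ?_
  exact (Finset.sum_le_sum_of_subset_of_nonneg Finset.sdiff_subset fun _ _ _ => sq_nonneg _).trans hr2

/-- the `S` part -/
theorem s6d_S [DecidableEq ι] (S J : Finset ι) (hJ : J ⊆ S) (w r dg eU rU : ι → ℝ)
    (h2 wu euu ρ om Bm C0 : ℝ) (hh0 : 0 ≤ h2) (hh1 : h2 ≤ 1) (hBm : 0 ≤ Bm)
    (hc : ((S \ J).card : ℝ) ≤ om) (hw : ∀ v ∈ S, |w v| ≤ r v) (hr2 : ∑ v ∈ S, r v ^ 2 ≤ C0)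
    (hdg : ∀ v ∈ S, |dg v| ≤ Bm) (heU : ∀ v ∈ S, |eU v| ≤ rU v) (hrU2 : ∑ v ∈ S, rU v ^ 2 ≤ C0)
    (hwu : |wu| ≤ ρ) (heuu : |euu| ≤ Bm) :
    |∑ v ∈ J, h2 * (wu * wu * dg v + w v * w v * euu + (wu * w v + w v * wu) * eU v)| ≤
      ρ ^ 2 * (|∑ v ∈ S, dg v| + om * Bm) + Bm * C0 + 2 * ρ * C0 := by
  have hρ : 0 ≤ ρ := (abs_nonneg _).trans hwu
  have e1 : ∑ v ∈ J, h2 * (wu * wu * dg v + w v * w v * euu + (wu * w v + w v * wu) * eU v) =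
      h2 * (wu ^ 2 * ∑ v ∈ J, dg v + euu * ∑ v ∈ J, w v ^ 2 + 2 * wu * ∑ v ∈ J, w v * eU v) := by
    rw [Finset.mul_sum, Finset.mul_sum, Finset.mul_sum, ← Finset.sum_add_distrib,
      ← Finset.sum_add_distrib, Finset.mul_sum]
    exact Finset.sum_congr rfl fun v _ => by ring
  have h3 : |∑ v ∈ J, dg v| ≤ |∑ v ∈ S, dg v| + om * Bm := by
    have h4 := Finset.sum_sdiff hJ (f := dg)
    have h5 : ∑ v ∈ J, dg v = ∑ v ∈ S, dg v - ∑ v ∈ S \ J, dg v := by linarith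
    rw [h5]
    refine (abs_sub _ _).trans (add_le_add le_rfl ?_)
    refine (Finset.abs_sum_le_sum_abs _ _).trans ?_
    calc ∑ v ∈ S \ J, |dg v| ≤ ∑ _v ∈ S \ J, Bm :=
          Finset.sum_le_sum fun v hv => hdg v (Finset.mem_sdiff.1 hv).1
      _ = ((S \ J).card : ℝ) * Bm := by rw [Finset.sum_const, nsmul_eq_mul]
      _ ≤ om * Bm := mul_le_mul_of_nonneg_right hc hBm
  have h4 : |∑ v ∈ J, w v ^ 2| ≤ C0 := by
    rw [abs_of_nonneg (Finset.sum_nonneg fun _ _ => sq_nonneg _)]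
    refine le_trans ?_ hr2
    refine (Finset.sum_le_sum_of_subset_of_nonneg hJ fun _ _ _ => sq_nonneg _).trans ?_
    exact Finset.sum_le_sum fun v hv => by
      rw [← sq_abs (w v)]
      exact pow_le_pow_left₀ (abs_nonneg _) (hw v hv) 2
  have h5 : |∑ v ∈ J, w v * eU v| ≤ C0 := by
    refine (Finset.abs_sum_le_sum_abs _ _).trans ?_
    refine le_trans ?_ (s6d_sum_mul_le S J hJ r rU C0 hr2 hrU2)
    exact Finset.sum_le_sum fun v hv => by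
      rw [abs_mul]
      exact mul_le_mul (hw v (hJ hv)) (heU v (hJ hv)) (abs_nonneg _) ((abs_nonneg _).trans (hw v (hJ hv)))
  have hC0 : 0 ≤ C0 := (abs_nonneg _).trans h4
  rw [e1, abs_mul, abs_of_nonneg hh0]
  have h6 : |wu ^ 2 * ∑ v ∈ J, dg v + euu * ∑ v ∈ J, w v ^ 2 + 2 * wu * ∑ v ∈ J, w v * eU v| ≤
      ρ ^ 2 * (|∑ v ∈ S, dg v| + om * Bm) + Bm * C0 + 2 * ρ * C0 := by
    refine (abs_add_le _ _).trans (add_le_add ((abs_add_le _ _).trans (add_le_add ?_ ?_)) ?_)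
    · rw [abs_mul, abs_pow]
      exact mul_le_mul (pow_le_pow_left₀ (abs_nonneg _) hwu 2) h3 (abs_nonneg _) (by positivity)
    · rw [abs_mul]
      exact mul_le_mul heuu h4 (abs_nonneg _) hBm
    · rw [abs_mul, abs_mul, abs_two]
      exact mul_le_mul (by linarith) h5 (abs_nonneg _) (by positivity)
  calc h2 * _ ≤ 1 * _ := mul_le_mul_of_nonneg_right hh1 (abs_nonneg _)
    _ ≤ _ := by rw [one_mul]; exact h6

/-- the remainder part -/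
theorem s6d_R (S J : Finset ι) (hJ : J ⊆ S) (r jm bm : ι → ℝ) (ρ ju Bm Bt C0 Qa l : ℝ)
    (hl : (S.card : ℝ) = l) (hl1 : 1 ≤ l) (hρ : 0 ≤ ρ) (hju : 0 ≤ ju) (hBm : 0 ≤ Bm) (hBm1 : Bm ≤ 1 / 64)
    (hBt : 0 ≤ Bt) (hr0 : ∀ v ∈ S, 0 ≤ r v) (hr2 : ∑ v ∈ S, r v ^ 2 ≤ C0)
    (hj0 : ∀ v ∈ S, 0 ≤ jm v) (hjs : ∑ v ∈ S, jm v ≤ Qa) (hjJ : ∀ v ∈ J, jm v ≤ 1 / 64)
    (hb0 : ∀ v ∈ S, 0 ≤ bm v) (hbs : ∑ v ∈ S, bm v ≤ Qa) (hb2 : ∑ v ∈ S, bm v ^ 2 ≤ C0) :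
    ∑ v ∈ J, (ρ * ρ * (jm v + bm v + Bm ^ 2 + 1 / l) + r v * r v * (ju + bm v + Bm ^ 2 + 1 / l)
        + (ρ * r v + r v * ρ) * (bm v + (ju + Bm) * (jm v + Bm) + 1 / l) + (Bm + Bt) / l) ≤
      ρ ^ 2 * (2 * Qa + l * Bm ^ 2 + 1) + C0 * (ju + Bm ^ 2 + 1 / l) + ∑ v ∈ S, r v ^ 2 * bm v
        + 2 * ρ * (C0 + (ju + Bm) * (Real.sqrt l * Real.sqrt C0) + Real.sqrt C0) + (Bm + Bt) := by
  have hl0 : 0 < l := by linarith
  have hil : 0 ≤ 1 / l := by positivity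
  set G : ι → ℝ := fun v => ρ ^ 2 * (jm v + bm v + Bm ^ 2 + 1 / l) + r v ^ 2 * (ju + Bm ^ 2 + 1 / l)
    + r v ^ 2 * bm v + 2 * ρ * (r v * bm v + (ju + Bm) * r v + r v / l) + (Bm + Bt) / l with hG
  have h1 : ∀ v ∈ J, (ρ * ρ * (jm v + bm v + Bm ^ 2 + 1 / l) + r v * r v * (ju + bm v + Bm ^ 2 + 1 / l)
        + (ρ * r v + r v * ρ) * (bm v + (ju + Bm) * (jm v + Bm) + 1 / l) + (Bm + Bt) / l) ≤ G v := by
    intro v hv
    have hr := hr0 v (hJ hv)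
    have hj := hjJ v hv
    have hj' := hj0 v (hJ hv)
    have h2 : (ju + Bm) * (jm v + Bm) ≤ (ju + Bm) * 1 :=
      mul_le_mul_of_nonneg_left (by linarith) (by linarith)
    have h3 : 0 ≤ ρ * r v := mul_nonneg hρ hr
    have h4 : ρ * r v * ((ju + Bm) * (jm v + Bm)) ≤ ρ * r v * ((ju + Bm) * 1) :=
      mul_le_mul_of_nonneg_left h2 h3
    simp only [hG]
    have e : r v / l = r v * (1 / l) := by ring
    rw [e]
    nlinarith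
  have h2 : ∀ v ∈ S, 0 ≤ G v := by
    intro v hv
    have hr := hr0 v hv
    have hj' := hj0 v hv
    have hb := hb0 v hv
    simp only [hG]
    positivity
  have hsr : ∑ v ∈ S, r v ≤ Real.sqrt l * Real.sqrt C0 := s6d_sum_le_sqrt S r l C0 hl.le hr2
  have hsr0 : 0 ≤ ∑ v ∈ S, r v := Finset.sum_nonneg hr0
  have hsrb : ∑ v ∈ S, r v * bm v ≤ C0 := s6d_sum_mul_le S S (Finset.Subset.refl _) r bm C0 hr2 hb2
  have hsl : Real.sqrt l ≤ l := by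
    have h3 : Real.sqrt l ^ 2 = l := Real.sq_sqrt hl0.le
    have h4 : 1 ≤ Real.sqrt l := by
      rw [show (1 : ℝ) = Real.sqrt 1 from Real.sqrt_one.symm]
      exact Real.sqrt_le_sqrt hl1
    nlinarith
  have hsrl : (∑ v ∈ S, r v) / l ≤ Real.sqrt C0 := by
    rw [div_le_iff₀ hl0]
    calc ∑ v ∈ S, r v ≤ Real.sqrt l * Real.sqrt C0 := hsr
      _ ≤ l * Real.sqrt C0 := mul_le_mul_of_nonneg_right hsl (Real.sqrt_nonneg _)
      _ = Real.sqrt C0 * l := mul_comm _ _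
  have e3 : ∑ v ∈ S, G v = ρ ^ 2 * (∑ v ∈ S, jm v + ∑ v ∈ S, bm v + l * Bm ^ 2 + 1)
      + (∑ v ∈ S, r v ^ 2) * (ju + Bm ^ 2 + 1 / l) + ∑ v ∈ S, r v ^ 2 * bm v
      + 2 * ρ * (∑ v ∈ S, r v * bm v + (ju + Bm) * ∑ v ∈ S, r v + (∑ v ∈ S, r v) / l) + (Bm + Bt) := by
    simp only [hG, Finset.sum_add_distrib, ← Finset.mul_sum, ← Finset.sum_mul, ← Finset.sum_div,
      Finset.sum_const, nsmul_eq_mul, hl]
    field_simp
  calc _ ≤ ∑ v ∈ J, G v := Finset.sum_le_sum h1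
    _ ≤ ∑ v ∈ S, G v := Finset.sum_le_sum_of_subset_of_nonneg hJ fun v hv _ => h2 v hv
    _ = _ := e3
    _ ≤ _ := by
      have a1 : ρ ^ 2 * (∑ v ∈ S, jm v + ∑ v ∈ S, bm v + l * Bm ^ 2 + 1) ≤
          ρ ^ 2 * (2 * Qa + l * Bm ^ 2 + 1) := mul_le_mul_of_nonneg_left (by linarith) (by positivity)
      have a2 : (∑ v ∈ S, r v ^ 2) * (ju + Bm ^ 2 + 1 / l) ≤ C0 * (ju + Bm ^ 2 + 1 / l) :=
        mul_le_mul_of_nonneg_right hr2 (by positivity)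
      have a3 : (ju + Bm) * ∑ v ∈ S, r v ≤ (ju + Bm) * (Real.sqrt l * Real.sqrt C0) :=
        mul_le_mul_of_nonneg_left hsr (by linarith)
      have a4 : 2 * ρ * (∑ v ∈ S, r v * bm v + (ju + Bm) * ∑ v ∈ S, r v + (∑ v ∈ S, r v) / l) ≤
          2 * ρ * (C0 + (ju + Bm) * (Real.sqrt l * Real.sqrt C0) + Real.sqrt C0) :=
        mul_le_mul_of_nonneg_left (by linarith) (by positivity)
      linarith

/-- triangle inequality for the four parts -/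
theorem s6d_four (J : Finset ι) (Δ Z St tz R : ι → ℝ) (Cd bZ bS bT bR : ℝ) (hCd : 0 ≤ Cd)
    (hΔ : ∀ v ∈ J, |Δ v - Z v - St v + tz v| ≤ Cd * R v) (hZ : |∑ v ∈ J, Z v| ≤ bZ)
    (hS : |∑ v ∈ J, St v| ≤ bS) (hT : |∑ v ∈ J, tz v| ≤ bT) (hR : ∑ v ∈ J, R v ≤ bR) :
    |∑ v ∈ J, Δ v| ≤ bZ + bS + bT + Cd * bR := by
  have e : ∑ v ∈ J, Δ v = ∑ v ∈ J, (Δ v - Z v - St v + tz v) + ∑ v ∈ J, Z v + ∑ v ∈ J, St v
      - ∑ v ∈ J, tz v := by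
    simp only [Finset.sum_add_distrib, Finset.sum_sub_distrib]
    ring
  have h1 : |∑ v ∈ J, (Δ v - Z v - St v + tz v)| ≤ Cd * bR := by
    refine (Finset.abs_sum_le_sum_abs _ _).trans ((Finset.sum_le_sum hΔ).trans ?_)
    rw [← Finset.mul_sum]
    exact mul_le_mul_of_nonneg_left hR hCd
  rw [e]
  refine (abs_sub _ _).trans ?_
  have h2 := abs_add_le (∑ v ∈ J, (Δ v - Z v - St v + tz v) + ∑ v ∈ J, Z v) (∑ v ∈ J, St v)
  have h3 := abs_add_le (∑ v ∈ J, (Δ v - Z v - St v + tz v)) (∑ v ∈ J, Z v)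
  linarith

theorem s6d_collect1 (X1 sq sC C0 Cd Y sl K : ℝ) (hX1 : 0 ≤ X1) (hsq : 0 ≤ sq) (hsC : sC ≤ C0)
    (hCd : 0 ≤ Cd) (hY : 0 ≤ Y) (hsl : 0 ≤ sl) (k1 : 2 ≤ K) (k2 : 4 * C0 ≤ K)
    (k3 : 2 * C0 + 4 * (Cd * C0) ≤ K) (k4 : 2 * (Cd * C0) ≤ K) :
    2 * (X1 + sq * sC) + 2 * C0 + 2 * (sq * sC) + Cd * (2 * (C0 + Y * (sl * sC) + sC)) ≤
      K * (X1 + sq + 1 + Y * sl) := by
  have b1 : sq * sC ≤ sq * C0 := mul_le_mul_of_nonneg_left hsC hsq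
  have hYs : 0 ≤ Y * sl := mul_nonneg hY hsl
  have b2 : Y * sl * sC ≤ Y * sl * C0 := mul_le_mul_of_nonneg_left hsC hYs
  have b5 : Cd * (Y * sl * sC) ≤ Cd * (Y * sl * C0) := mul_le_mul_of_nonneg_left b2 hCd
  have b6 : Cd * sC ≤ Cd * C0 := mul_le_mul_of_nonneg_left hsC hCd
  have c1 := mul_nonneg (sub_nonneg.2 k1) hX1
  have c2 := mul_nonneg (sub_nonneg.2 k2) hsq
  have c4 := mul_nonneg (sub_nonneg.2 k4) hYs
  nlinarith

theorem s6d_collect2 (YE X1 Qa X2 Cd K : ℝ) (hYE : 0 ≤ YE) (hX1 : 0 ≤ X1) (hQa : 1 ≤ Qa) (hX2 : 0 ≤ X2)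
    (hCd : 0 ≤ Cd) (k1 : 1 + 3 * Cd ≤ K) :
    (YE + X1) + Cd * (2 * Qa + X2 + 1) ≤ K * (YE + X1 + Qa + X2) := by
  have c1 : (1 + 3 * Cd) * (YE + X1 + Qa + X2) ≤ K * (YE + X1 + Qa + X2) :=
    mul_le_mul_of_nonneg_right k1 (by linarith)
  have c2 := mul_nonneg hCd hYE
  have c3 := mul_nonneg hCd hX1
  have c4 := mul_nonneg hCd hX2
  have c5 := mul_nonneg hCd (sub_nonneg.2 hQa)
  nlinarith

theorem s6d_collect3 (Bm Bt C0 Cd ju il K : ℝ) (hBm : 0 ≤ Bm) (hBm1 : Bm ≤ 1 / 64) (hBt : 0 ≤ Bt)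
    (hC0 : 1 ≤ C0) (hCd : 0 ≤ Cd) (hju : 0 ≤ ju) (hil : 0 ≤ il) (k1 : C0 + 2 * (Cd * C0) ≤ K) :
    Bm * C0 + Cd * (C0 * (ju + Bm ^ 2 + il) + (Bm + Bt)) ≤ K * (ju + Bm + Bt + il) := by
  have b1 : Bm ^ 2 ≤ Bm := by nlinarith
  have hCC : 0 ≤ Cd * C0 := by positivity
  have c1 : (C0 + 2 * (Cd * C0)) * (ju + Bm + Bt + il) ≤ K * (ju + Bm + Bt + il) :=
    mul_le_mul_of_nonneg_right k1 (by linarith)
  have c2 : Cd * C0 * (ju + Bm ^ 2 + il) ≤ Cd * C0 * (ju + Bm + il) :=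
    mul_le_mul_of_nonneg_left (by linarith) hCC
  have c3 : Cd * (Bm + Bt) ≤ Cd * C0 * (Bm + Bt) := by
    have : Cd * 1 ≤ Cd * C0 := mul_le_mul_of_nonneg_left hC0 hCd
    exact mul_le_mul_of_nonneg_right (by linarith) (by linarith)
  have c4 : 0 ≤ C0 * (ju + Bt + il) := by positivity
  have c5 : 0 ≤ Cd * C0 * (ju + il) := by positivity
  have c6 : 0 ≤ Cd * C0 * Bt := by positivity
  nlinarith

/-- collecting the constants of the pointwise bound -/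
theorem s6d_collect (ρ om sq Bm Bt C0 sC Qa l sl ju YE t Cd : ℝ) (hρ : 0 ≤ ρ) (hom : 0 ≤ om) (hsq : 0 ≤ sq)
    (hBm : 0 ≤ Bm) (hBm1 : Bm ≤ 1 / 64) (hBt : 0 ≤ Bt) (hC0 : 1 ≤ C0) (hsC : sC ≤ C0)
    (hQa : 1 ≤ Qa) (hl : 1 ≤ l) (hsl : 0 ≤ sl) (hju : 0 ≤ ju) (hYE : 0 ≤ YE) (ht : 0 ≤ t) (hCd : 0 ≤ Cd) :
    2 * ρ * (om * Bm + sq * sC) + (ρ ^ 2 * (YE + om * Bm) + Bm * C0 + 2 * ρ * C0) + 2 * ρ * (sq * sC)
      + Cd * (ρ ^ 2 * (2 * Qa + l * Bm ^ 2 + 1) + C0 * (ju + Bm ^ 2 + 1 / l) + t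
        + 2 * ρ * (C0 + (ju + Bm) * (sl * sC) + sC) + (Bm + Bt)) ≤
    (4 * C0 + 4 * (Cd * C0) + 1 + 3 * Cd) *
      (ρ * (om * Bm + sq + 1 + (ju + Bm) * sl) + ρ ^ 2 * (YE + om * Bm + Qa + l * Bm ^ 2)
        + (ju + Bm + Bt + 1 / l) + t) := by
  have hil : 0 ≤ 1 / l := by positivity
  have hCC : 0 ≤ Cd * C0 := by positivity
  obtain ⟨K, hK⟩ : ∃ K, K = 4 * C0 + 4 * (Cd * C0) + 1 + 3 * Cd := ⟨_, rfl⟩
  rw [← hK]
  have t1 := s6d_collect1 (om * Bm) sq sC C0 Cd (ju + Bm) sl K (by positivity) hsq hsC hCd (by linarith) hsl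
    (by linarith) (by linarith) (by linarith) (by linarith)
  have t2 := s6d_collect2 YE (om * Bm) Qa (l * Bm ^ 2) Cd K hYE (by positivity) hQa (by positivity) hCd
    (by linarith)
  have t3 := s6d_collect3 Bm Bt C0 Cd ju (1 / l) K hBm hBm1 hBt hC0 hCd hju hil (by linarith)
  have t4 : Cd * t ≤ K * t := mul_le_mul_of_nonneg_right (by linarith) ht
  have u1 := mul_le_mul_of_nonneg_left t1 hρ
  have u2 := mul_le_mul_of_nonneg_left t2 (sq_nonneg ρ)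
  linarith

/-- Schur-type bound of the array `t_x = ∑_v r_x(v)² b_v` -/
theorem s6d_tsum (X S : Finset ι) (r : ι → ι → ℝ) (b : ι → ℝ) (C0 : ℝ) (hC0 : 0 ≤ C0)
    (hrow : ∀ x ∈ X, ∑ v ∈ S, r x v ^ 2 ≤ C0) (hcol : ∀ v ∈ S, ∑ x ∈ X, r x v ^ 2 ≤ C0)
    (hb : ∑ v ∈ S, b v ^ 2 ≤ C0) :
    ∑ x ∈ X, (∑ v ∈ S, r x v ^ 2 * b v) ^ 2 ≤ C0 ^ 3 := by
  have h1 : ∀ x ∈ X, (∑ v ∈ S, r x v ^ 2 * b v) ^ 2 ≤ C0 * ∑ v ∈ S, r x v ^ 2 * b v ^ 2 := by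
    intro x hx
    have h2 := Finset.sum_mul_sq_le_sq_mul_sq S (fun v => r x v) (fun v => r x v * b v)
    have e1 : ∑ v ∈ S, r x v * (r x v * b v) = ∑ v ∈ S, r x v ^ 2 * b v :=
      Finset.sum_congr rfl fun v _ => by ring
    have e2 : ∑ v ∈ S, (r x v * b v) ^ 2 = ∑ v ∈ S, r x v ^ 2 * b v ^ 2 :=
      Finset.sum_congr rfl fun v _ => by ring
    rw [e1, e2] at h2
    refine h2.trans ?_
    exact mul_le_mul_of_nonneg_right (hrow x hx) (Finset.sum_nonneg fun _ _ => by positivity)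
  calc ∑ x ∈ X, (∑ v ∈ S, r x v ^ 2 * b v) ^ 2 ≤ ∑ x ∈ X, C0 * ∑ v ∈ S, r x v ^ 2 * b v ^ 2 :=
        Finset.sum_le_sum h1
    _ = C0 * ∑ v ∈ S, b v ^ 2 * ∑ x ∈ X, r x v ^ 2 := by
        rw [← Finset.mul_sum, Finset.sum_comm]
        congr 1
        refine Finset.sum_congr rfl fun v _ => ?_
        rw [Finset.mul_sum]
        exact Finset.sum_congr rfl fun x _ => by ring
    _ ≤ C0 * ∑ v ∈ S, b v ^ 2 * C0 := by
        refine mul_le_mul_of_nonneg_left ?_ hC0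
        exact Finset.sum_le_sum fun v hv => mul_le_mul_of_nonneg_left (hcol v hv) (sq_nonneg _)
    _ = C0 * C0 * ∑ v ∈ S, b v ^ 2 := by rw [← Finset.sum_mul]; ring
    _ ≤ C0 * C0 * C0 := mul_le_mul_of_nonneg_left hb (by positivity)
    _ = C0 ^ 3 := by ring

/-- from the pointwise bound to the `ℓ²` norm -/
theorem s6d_l2 (X : Finset ι) (M ρ t : ι → ℝ) (C A1 A2 A3 C0 l MB : ℝ)
    (hC : 0 ≤ C) (hA1 : 0 ≤ A1) (hA2 : 0 ≤ A2) (hA3 : 0 ≤ A3) (hC0 : 1 ≤ C0)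
    (hM : ∀ x ∈ X, |M x| ≤ C * (ρ x * A1 + ρ x ^ 2 * A2 + A3 + t x))
    (hρ0 : ∀ x ∈ X, 0 ≤ ρ x) (hρ2 : ∀ x ∈ X, ρ x ≤ 2) (hρs : ∑ x ∈ X, ρ x ^ 2 ≤ C0)
    (hts : ∑ x ∈ X, t x ^ 2 ≤ C0 ^ 3) (hcard : (X.card : ℝ) ≤ l)
    (h1 : A1 ≤ 2 * MB) (h2 : A2 ≤ MB) (h3 : l * A3 ^ 2 ≤ MB ^ 2) (h4 : 1 ≤ MB) :
    Real.sqrt (∑ x ∈ X, M x ^ 2) ≤ 2 * C * (8 * C0 + 1 + C0 ^ 3) * MB := by
  have hpt : ∀ x ∈ X, M x ^ 2 ≤
      4 * C ^ 2 * (ρ x ^ 2 * A1 ^ 2 + 4 * ρ x ^ 2 * A2 ^ 2 + A3 ^ 2 + t x ^ 2) := by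
    intro x hx
    have a0 := hρ0 x hx
    have a2 := hρ2 x hx
    have b1 : M x ^ 2 ≤ (C * (ρ x * A1 + ρ x ^ 2 * A2 + A3 + t x)) ^ 2 := by
      rw [← sq_abs (M x)]
      exact pow_le_pow_left₀ (abs_nonneg _) (hM x hx) 2
    have b2 : (ρ x * A1 + ρ x ^ 2 * A2 + A3 + t x) ^ 2 ≤
        4 * ((ρ x * A1) ^ 2 + (ρ x ^ 2 * A2) ^ 2 + A3 ^ 2 + t x ^ 2) := by
      nlinarith [sq_nonneg (ρ x * A1 - ρ x ^ 2 * A2), sq_nonneg (ρ x * A1 - A3), sq_nonneg (ρ x * A1 - t x),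
        sq_nonneg (ρ x ^ 2 * A2 - A3), sq_nonneg (ρ x ^ 2 * A2 - t x), sq_nonneg (A3 - t x)]
    have b3 : (ρ x ^ 2 * A2) ^ 2 ≤ 4 * ρ x ^ 2 * A2 ^ 2 := by
      have : ρ x ^ 2 ≤ 4 := by nlinarith
      have h5 : ρ x ^ 2 * ρ x ^ 2 ≤ 4 * ρ x ^ 2 := mul_le_mul_of_nonneg_right this (sq_nonneg _)
      have h6 := mul_le_mul_of_nonneg_right h5 (sq_nonneg A2)
      nlinarith
    have b4 : (C * (ρ x * A1 + ρ x ^ 2 * A2 + A3 + t x)) ^ 2 =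
        C ^ 2 * (ρ x * A1 + ρ x ^ 2 * A2 + A3 + t x) ^ 2 := by ring
    have b5 : C ^ 2 * (ρ x * A1 + ρ x ^ 2 * A2 + A3 + t x) ^ 2 ≤
        C ^ 2 * (4 * (ρ x ^ 2 * A1 ^ 2 + 4 * ρ x ^ 2 * A2 ^ 2 + A3 ^ 2 + t x ^ 2)) := by
      refine mul_le_mul_of_nonneg_left ?_ (sq_nonneg C)
      have : (ρ x * A1) ^ 2 = ρ x ^ 2 * A1 ^ 2 := by ring
      linarith
    linarith
  have hsum : ∑ x ∈ X, M x ^ 2 ≤ 4 * C ^ 2 * ((8 * C0 + 1 + C0 ^ 3) * MB ^ 2) := by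
    refine (Finset.sum_le_sum hpt).trans ?_
    rw [← Finset.mul_sum]
    refine mul_le_mul_of_nonneg_left ?_ (by positivity)
    have e : ∑ x ∈ X, (ρ x ^ 2 * A1 ^ 2 + 4 * ρ x ^ 2 * A2 ^ 2 + A3 ^ 2 + t x ^ 2) =
        (∑ x ∈ X, ρ x ^ 2) * A1 ^ 2 + 4 * (∑ x ∈ X, ρ x ^ 2) * A2 ^ 2 + (X.card : ℝ) * A3 ^ 2
          + ∑ x ∈ X, t x ^ 2 := by
      simp only [Finset.sum_add_distrib, Finset.sum_const, nsmul_eq_mul, Finset.sum_mul, Finset.mul_sum]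
    rw [e]
    have hMB2 : 1 ≤ MB ^ 2 := by nlinarith
    have c1 : A1 ^ 2 ≤ 4 * MB ^ 2 := by nlinarith
    have c2 : A2 ^ 2 ≤ MB ^ 2 := by nlinarith
    have c3 : (X.card : ℝ) * A3 ^ 2 ≤ MB ^ 2 :=
      (mul_le_mul_of_nonneg_right hcard (sq_nonneg _)).trans h3
    have d1 : (∑ x ∈ X, ρ x ^ 2) * A1 ^ 2 ≤ C0 * (4 * MB ^ 2) :=
      mul_le_mul hρs c1 (sq_nonneg _) (by linarith)
    have d2 : (∑ x ∈ X, ρ x ^ 2) * A2 ^ 2 ≤ C0 * MB ^ 2 :=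
      mul_le_mul hρs c2 (sq_nonneg _) (by linarith)
    have d3 : C0 ^ 3 * 1 ≤ C0 ^ 3 * MB ^ 2 := mul_le_mul_of_nonneg_left hMB2 (by positivity)
    nlinarith
  rw [Real.sqrt_le_iff]
  refine ⟨by positivity, hsum.trans ?_⟩
  have hK : 1 ≤ 8 * C0 + 1 + C0 ^ 3 := by
    have : 0 ≤ C0 ^ 3 := by positivity
    linarith
  have e : (2 * C * (8 * C0 + 1 + C0 ^ 3) * MB) ^ 2 =
      4 * C ^ 2 * ((8 * C0 + 1 + C0 ^ 3) * (8 * C0 + 1 + C0 ^ 3) * MB ^ 2) := by ring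
  rw [e]
  refine mul_le_mul_of_nonneg_left ?_ (by positivity)
  refine mul_le_mul_of_nonneg_right ?_ (sq_nonneg _)
  nlinarith

end Abs

/-- bound of `‖M‖₂` -/
noncomputable def s6DiagMB (N : S6Num) (l om : ℕ) (ju YE : ℝ) : ℝ :=
  ((om : ℝ) + 1) * N.Bm + Real.sqrt ((om : ℝ) + 1) + |YE| + N.Qa + (ju + N.Bm + N.Bt) * Real.sqrt l
    + (l : ℝ) * N.Bm ^ 2

/-- bound of `V` -/
noncomputable def s6DiagVB (N : S6Num) (l : ℕ) (ju TS : ℝ) : ℝ :=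
  N.Ne + TS + (l : ℝ) * (ju ^ 2 + N.Bm ^ 2) + N.Bt ^ 2

/-- the scalar comparisons with `s6DiagMB` -/
theorem s6d_MB_facts (N : S6Num) (l om : ℕ) (ju YE : ℝ) (hl : 1 ≤ l) (hBm : 0 ≤ N.Bm) (hBt : 0 ≤ N.Bt)
    (hQa : 1 ≤ N.Qa) (hju : 0 ≤ ju) :
    (((om + 1 : ℕ) : ℝ) * N.Bm + Real.sqrt ((om + 1 : ℕ) : ℝ) + 1 + (ju + N.Bm) * Real.sqrt l
        ≤ 2 * s6DiagMB N l om ju YE) ∧
    (|YE| + ((om + 1 : ℕ) : ℝ) * N.Bm + N.Qa + (l : ℝ) * N.Bm ^ 2 ≤ s6DiagMB N l om ju YE) ∧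
    ((l : ℝ) * (ju + N.Bm + N.Bt + 1 / (l : ℝ)) ^ 2 ≤ s6DiagMB N l om ju YE ^ 2) ∧
    1 ≤ s6DiagMB N l om ju YE := by
  have hl' : (1 : ℝ) ≤ (l : ℝ) := by exact_mod_cast hl
  have hom : (0 : ℝ) ≤ (om : ℝ) := Nat.cast_nonneg _
  have hs1 := Real.sqrt_nonneg ((om : ℝ) + 1)
  have hs2 := Real.sqrt_nonneg (l : ℝ)
  have hY := abs_nonneg YE
  have p1 : 0 ≤ ((om : ℝ) + 1) * N.Bm := by positivity
  have p2 : 0 ≤ (l : ℝ) * N.Bm ^ 2 := by positivity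
  have p3 : 0 ≤ (ju + N.Bm) * Real.sqrt l := by positivity
  have p4 : 0 ≤ N.Bt * Real.sqrt l := by positivity
  have e : (ju + N.Bm + N.Bt) * Real.sqrt l = (ju + N.Bm) * Real.sqrt l + N.Bt * Real.sqrt l := by ring
  unfold s6DiagMB
  push_cast
  rw [e]
  refine ⟨by linarith, by linarith, ?_, by linarith⟩
  have hsq : Real.sqrt l ^ 2 = (l : ℝ) := Real.sq_sqrt (by linarith)
  have hs3 : 1 ≤ Real.sqrt l := by
    rw [show (1 : ℝ) = Real.sqrt 1 from Real.sqrt_one.symm]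
    exact Real.sqrt_le_sqrt hl'
  have e2 : (l : ℝ) * (ju + N.Bm + N.Bt + 1 / (l : ℝ)) ^ 2 =
      ((ju + N.Bm) * Real.sqrt l + N.Bt * Real.sqrt l + Real.sqrt l / (l : ℝ)) ^ 2 := by
    have : (l : ℝ) ≠ 0 := by linarith
    have e3 : (ju + N.Bm) * Real.sqrt l + N.Bt * Real.sqrt l + Real.sqrt l / (l : ℝ) =
        Real.sqrt l * (ju + N.Bm + N.Bt + 1 / (l : ℝ)) := by ring
    rw [e3, mul_pow, hsq]
  rw [e2]
  have h5 : Real.sqrt l / (l : ℝ) ≤ 1 := by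
    rw [div_le_one (by linarith)]
    nlinarith
  have h6 : 0 ≤ Real.sqrt l / (l : ℝ) := by positivity
  exact pow_le_pow_left₀ (by positivity) (by linarith) 2

namespace PPair

variable {n d : ℕ}

theorem s6d_Zt_eq (π : PPair n d) (L : ℕ) (σ h : ℝ) (u v : Stub n d) (a : Label n d) :
    π.s6Zt L σ h u v a a = (σ * h) *
      ((π.pEnt L σ h a u * π.eEnt L σ h a v + π.eEnt L σ h a u * π.pEnt L σ h a v
          + π.eEnt L σ h a u * π.eEnt L σ h a v)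
        + (π.pEnt L σ h a v * π.eEnt L σ h a u + π.eEnt L σ h a v * π.pEnt L σ h a u
          + π.eEnt L σ h a v * π.eEnt L σ h a u)) := by
  unfold s6Zt s6Z s6p s6ee s6e
  simp only [if_true, one_ne_zero, if_false]

theorem s6d_St_eq (π : PPair n d) (L : ℕ) (σ h : ℝ) (u v : Stub n d) (a : Label n d) :
    π.s6St L σ h u v a a = h ^ 2 *
      (π.wEnt σ h a u * π.wEnt σ h a u * π.eEnt L σ h (.stub v) v
        + π.wEnt σ h a v * π.wEnt σ h a v * π.eEnt L σ h (.stub u) u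
        + (π.wEnt σ h a u * π.wEnt σ h a v + π.wEnt σ h a v * π.wEnt σ h a u) * π.eEnt L σ h (.stub u) v) := by
  unfold s6St s6S Epair
  rw [blk_eq_ent, blk_eq_ent, blk_eq_ent]
  simp only [Pi.add_apply, s6p, s6ee, s6e, if_true, one_ne_zero, if_false, ← π.s6_wEnt_eq L σ h]
  rfl

theorem s6d_Rt_eq (π : PPair n d) (Cm : ℝ) (L : ℕ) (σ h : ℝ) (N : S6Num) (u v : Stub n d) (a : Label n d) :
    π.s6Rt Cm L σ h N u v a a =
      π.rmaj Cm L σ h a u * π.rmaj Cm L σ h a u *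
          (π.jmaj Cm L h v + π.bmaj Cm L h u v + N.Bm ^ 2 + 1 / (π.l : ℝ))
        + π.rmaj Cm L σ h a v * π.rmaj Cm L σ h a v *
          (π.jmaj Cm L h u + π.bmaj Cm L h u v + N.Bm ^ 2 + 1 / (π.l : ℝ))
        + (π.rmaj Cm L σ h a u * π.rmaj Cm L σ h a v + π.rmaj Cm L σ h a v * π.rmaj Cm L σ h a u) *
          (π.bmaj Cm L h u v + (π.jmaj Cm L h u + N.Bm) * (π.jmaj Cm L h v + N.Bm) + 1 / (π.l : ℝ))
        + (N.Bm + N.Bt) / (π.l : ℝ) := by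
  unfold s6Rt s6RemB s6r s6e
  simp only [if_true, one_ne_zero, if_false]

theorem s6d_mem_unres (π : PPair n d) (v : Stub n d) : v ∈ π.unres ↔ π.Unres v := by
  unfold unres
  simp

section

variable {π : PPair n d} {Cm : ℝ} {L : ℕ} {σ h C0 : ℝ} {N : S6Num}

theorem S6Facts.s6d_r_nonneg (F : π.S6Facts Cm L σ h C0 N) {a : Label n d} {x : Stub n d} (ha : π.Alive a)
    (hx : π.Unres x) : 0 ≤ π.rmaj Cm L σ h a x :=
  le_trans (add_nonneg (abs_nonneg _) (abs_nonneg _)) (F.abs_add_le ha hx)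

theorem S6Facts.s6d_pAbs_le (F : π.S6Facts Cm L σ h C0 N) {a : Label n d} {x : Stub n d} (ha : π.Alive a)
    (hx : π.Unres x) : π.pAbs L h a (.stub x) ≤ π.rmaj Cm L σ h a x := by
  have h1 := F.majP a x ha hx
  unfold rmaj
  linarith [abs_nonneg (π.eEnt L σ h a x)]

theorem S6Facts.s6d_abs_TZ (F : π.S6Facts Cm L σ h C0 N) {a : Label n d} {u v : Stub n d} (ha : π.Alive a)
    (hu : π.Unres u) (hv : π.Unres v) :
    |π.TZ L σ h u v a a| ≤ 2 * π.rmaj Cm L σ h a u * π.rmaj Cm L σ h a v := by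
  have h1 := s6_abs_TZ_le π L σ h F.hσ F.hh.le F.hh1.le u v a a
  have h2 := F.s6d_pAbs_le ha hu
  have h3 := F.s6d_pAbs_le ha hv
  have h4 := π.ft_pAbs_nonneg L F.hh.le a (.stub u)
  have h5 := π.ft_pAbs_nonneg L F.hh.le a (.stub v)
  have h6 : π.pAbs L h a (.stub u) * π.pAbs L h a (.stub v) ≤ π.rmaj Cm L σ h a u * π.rmaj Cm L σ h a v :=
    mul_le_mul h2 h3 h5 (h4.trans h2)
  nlinarith

theorem S6Facts.s6d_j_nonneg (F : π.S6Facts Cm L σ h C0 N) (x : Stub n d) : 0 ≤ π.jmaj Cm L h x :=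
  (π.s43v_maj_nonneg Cm F.hCm F.hd L h F.hh.le (.stub x) x x x.1 x.1).2.2.2.2.1

theorem S6Facts.s6d_b_nonneg (F : π.S6Facts Cm L σ h C0 N) (x y : Stub n d) : 0 ≤ π.bmaj Cm L h x y :=
  (π.s43v_maj_nonneg Cm F.hCm F.hd L h F.hh.le (.stub x) x y x.1 x.1).2.2.2.2.2

end

/-- pointwise bound of the signed sum of a diagonal increment -/
theorem s6d_point (C0 : ℝ) : ∃ C : ℝ, 0 < C ∧ ∀ {n d : ℕ} (π : PPair n d) (Cm : ℝ) (L : ℕ) (σ h : ℝ) (N : S6Num)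
    (om : ℕ) (u : Stub n d) (J : Finset (Stub n d)) (a : Label n d),
    π.S6Facts Cm L σ h C0 N → π.S6Set Cm L h N om u J → π.Alive a →
    |∑ v ∈ J, π.dEent L σ h u v a a| ≤
      C * (π.rmaj Cm L σ h a u *
            ((om : ℝ) * N.Bm + Real.sqrt om + 1 + (π.jmaj Cm L h u + N.Bm) * Real.sqrt π.l)
        + π.rmaj Cm L σ h a u ^ 2 * (|π.YE L σ h| + (om : ℝ) * N.Bm + N.Qa + (π.l : ℝ) * N.Bm ^ 2)
        + (π.jmaj Cm L h u + N.Bm + N.Bt + 1 / (π.l : ℝ))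
        + ∑ v ∈ π.unres, π.rmaj Cm L σ h a v ^ 2 * π.bmaj Cm L h u v) := by
  by_cases hC0 : 1 ≤ C0
  swap
  · exact ⟨1, one_pos, fun π Cm L σ h N om u J a F _ _ => absurd F.hC0 hC0⟩
  obtain ⟨Cd, hCd, hdec⟩ := s6_decomp C0
  refine ⟨4 * C0 + 4 * (Cd * C0) + 1 + 3 * Cd, by positivity, ?_⟩
  intro n d π Cm L σ h N om u J a F T ha
  have hJS : J ⊆ π.unres := T.sub.trans (Finset.erase_subset _ _)
  have hU : ∀ v ∈ π.unres, π.Unres v := fun v hv => (π.s6d_mem_unres v).1 hv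
  have hBm := F.Bm_nonneg
  have hc : ((π.unres \ J).card : ℝ) ≤ (om : ℝ) := by exact_mod_cast T.card
  have hρ := F.s6d_r_nonneg ha T.hu
  have hr2 := F.rowR a ha
  have hx : |σ * h| ≤ 1 := by rw [ft_abs_sigma_mul σ h F.hσ F.hh.le]; exact F.hh1.le
  have hl1 : (1 : ℝ) ≤ (π.l : ℝ) := by
    have : (64 : ℝ) ≤ (π.l : ℝ) := by exact_mod_cast F.hl
    linarith
  have hZ := s6d_Z π.unres J hJS (fun v => π.pEnt L σ h a v) (fun v => π.eEnt L σ h a v)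
    (fun v => π.rmaj Cm L σ h a v) (σ * h) (π.pEnt L σ h a u) (π.eEnt L σ h a u) (π.rmaj Cm L σ h a u) om N.Bm C0
    hx hBm hc (π.sum_pEnt L σ h a) (π.sum_eEnt L σ h a) (fun v hv => F.abs_add_le ha (hU v hv))
    (fun v hv => F.cap a (.stub v) ha (hU v hv)) hr2 (F.abs_add_le ha T.hu)
  have hT := s6d_TZ π.unres J hJS (fun v => π.TZ L σ h u v a a) (fun v => π.rmaj Cm L σ h a v)
    (π.rmaj Cm L σ h a u) om C0 hρ hc (s6_sum_TZ π L σ h u a a)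
    (fun v hv => F.s6d_abs_TZ ha T.hu (hU v hv)) hr2
  have hS := s6d_S π.unres J hJS (fun v => π.wEnt σ h a v) (fun v => π.rmaj Cm L σ h a v)
    (fun v => π.eEnt L σ h (.stub v) v) (fun v => π.eEnt L σ h (.stub u) v)
    (fun v => π.rmaj Cm L σ h (.stub u) v) (h ^ 2) (π.wEnt σ h a u) (π.eEnt L σ h (.stub u) u)
    (π.rmaj Cm L σ h a u) om N.Bm C0 (sq_nonneg h) (by nlinarith [F.hh, F.hh1]) hBm hc
    (fun v hv => F.abs_wEnt_le ha (hU v hv)) hr2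
    (fun v hv => F.cap (.stub v) (.stub v) (hU v hv) (hU v hv))
    (fun v hv => by
      have := F.abs_add_le (a := .stub u) T.hu (hU v hv)
      linarith [abs_nonneg (π.pEnt L σ h (.stub u) v)])
    (F.rowR (.stub u) T.hu) (F.abs_wEnt_le ha T.hu) (F.cap (.stub u) (.stub u) T.hu T.hu)
  have hR := s6d_R π.unres J hJS (fun v => π.rmaj Cm L σ h a v) (fun v => π.jmaj Cm L h v)
    (fun v => π.bmaj Cm L h u v) (π.rmaj Cm L σ h a u) (π.jmaj Cm L h u) N.Bm N.Bt C0 N.Qa (π.l : ℝ) rfl hl1 hρ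
    (F.s6d_j_nonneg u) hBm F.hBm F.hBt (fun v hv => F.s6d_r_nonneg ha (hU v hv)) hr2
    (fun v _ => F.s6d_j_nonneg v) F.sumJ1 (fun v hv => (F.s6s_maj (T.adm v hv)).2.1.2)
    (fun v _ => F.s6d_b_nonneg u v) (F.rowB1 u T.hu) (F.rowB2 u T.hu)
  have h4 := s6d_four J (fun v => π.dEent L σ h u v a a) (fun v => π.s6Zt L σ h u v a a)
    (fun v => π.s6St L σ h u v a a) (fun v => π.TZ L σ h u v a a) (fun v => π.s6Rt Cm L σ h N u v a a) Cd _ _ _ _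
    hCd.le (fun v hv => hdec π Cm L σ h N u v a a F (T.adm v hv) ha ha)
    (by simp only [s6d_Zt_eq]; exact hZ) (by simp only [s6d_St_eq]; exact hS) hT
    (by simp only [s6d_Rt_eq]; exact hR)
  refine h4.trans ?_
  have hsC : Real.sqrt C0 ≤ C0 := by
    have h3 : Real.sqrt C0 ^ 2 = C0 := Real.sq_sqrt (by linarith)
    have h5 : 1 ≤ Real.sqrt C0 := by
      rw [show (1 : ℝ) = Real.sqrt 1 from Real.sqrt_one.symm]
      exact Real.sqrt_le_sqrt hC0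
    nlinarith
  exact s6d_collect (π.rmaj Cm L σ h a u) om (Real.sqrt om) N.Bm N.Bt C0 (Real.sqrt C0) N.Qa π.l
    (Real.sqrt π.l) (π.jmaj Cm L h u) |π.YE L σ h| _ Cd hρ (Nat.cast_nonneg _) (Real.sqrt_nonneg _) hBm F.hBm
    F.hBt hC0 hsC F.hQa hl1 (Real.sqrt_nonneg _) (F.s6d_j_nonneg u) (abs_nonneg _)
    (Finset.sum_nonneg fun v _ => mul_nonneg (sq_nonneg _) (F.s6d_b_nonneg u v)) hCd.le

/-- `M_x` -/
noncomputable def s6M (π : PPair n d) (L : ℕ) (σ h : ℝ) (u : Stub n d) (I : Finset (Stub n d)) (x : Stub n d) : ℝ :=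
  ∑ v ∈ I.erase x, π.dEent L σ h u v (.stub x) (.stub x)

/-- `V` -/
noncomputable def s6V (π : PPair n d) (L : ℕ) (σ h : ℝ) (u : Stub n d) (I : Finset (Stub n d)) : ℝ :=
  ∑ v ∈ I, ∑ x ∈ (π.unres.erase u).erase v, π.dEent L σ h u v (.stub x) (.stub x) ^ 2

/-- exchange of the sums over the partner and the surviving stub -/
theorem s6d_swap (X I : Finset (Stub n d)) (f : Stub n d → Stub n d → ℝ) :
    ∑ v ∈ I, ∑ x ∈ X.erase v, f v x = ∑ x ∈ X, ∑ v ∈ I.erase x, f v x := by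
  refine Finset.sum_comm' fun v x => ?_
  simp only [Finset.mem_erase]
  constructor
  · rintro ⟨h1, h2, h3⟩
    exact ⟨⟨fun e => h2 e.symm, h1⟩, h3⟩
  · rintro ⟨⟨h1, h2⟩, h3⟩
    exact ⟨h2, fun e => h1 e.symm, h3⟩

/-- (6.3), exact Cauchy-Schwarz; no hypothesis on the state -/
theorem s6_TS_cs (π : PPair n d) (L : ℕ) (σ h : ℝ) (u : Stub n d) (I : Finset (Stub n d)) (hu : π.Unres u)
    (hI : I ⊆ π.unres.erase u) :
    ∑ v ∈ I, (π.resolve u v).TS L σ h ≤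
      (I.card : ℝ) * π.TS L σ h
        + 2 * Real.sqrt (π.TS L σ h) * Real.sqrt (∑ x ∈ π.unres.erase u, π.s6M L σ h u I x ^ 2)
        + π.s6V L σ h u I := by
  set X := π.unres.erase u with hX
  set e : Stub n d → ℝ := fun x => π.eEnt L σ h (.stub x) x with he
  set Δ : Stub n d → Stub n d → ℝ := fun v x => π.dEent L σ h u v (.stub x) (.stub x) with hΔ
  have h1 : ∀ v ∈ I, (π.resolve u v).TS L σ h =
      ∑ x ∈ X.erase v, e x ^ 2 + 2 * ∑ x ∈ X.erase v, e x * Δ v x + ∑ x ∈ X.erase v, Δ v x ^ 2 := by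
    intro v hv
    have hv' := Finset.mem_erase.1 (hI hv)
    have hvU : π.Unres v := (π.s6d_mem_unres v).1 hv'.2
    unfold TS
    rw [resolve_unres hu hvU hv'.1.symm, Finset.mul_sum, ← Finset.sum_add_distrib,
      ← Finset.sum_add_distrib]
    refine Finset.sum_congr rfl fun x _ => ?_
    have e1 : (π.resolve u v).eEnt L σ h (.stub x) x = e x + Δ v x := by
      simp only [he, hΔ, dEent]
      rw [s6_eEnt_eq_Eent, s6_eEnt_eq_Eent]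
      ring
    rw [e1]
    ring
  rw [Finset.sum_congr rfl h1, Finset.sum_add_distrib, Finset.sum_add_distrib]
  have hTS0 : 0 ≤ π.TS L σ h := Finset.sum_nonneg fun _ _ => sq_nonneg _
  have hA : ∑ v ∈ I, ∑ x ∈ X.erase v, e x ^ 2 ≤ (I.card : ℝ) * π.TS L σ h := by
    rw [← nsmul_eq_mul]
    refine Finset.sum_le_card_nsmul _ _ _ fun v _ => ?_
    exact Finset.sum_le_sum_of_subset_of_nonneg
      ((Finset.erase_subset _ _).trans (Finset.erase_subset _ _)) fun _ _ _ => sq_nonneg _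
  have hB : ∑ v ∈ I, 2 * ∑ x ∈ X.erase v, e x * Δ v x ≤
      2 * Real.sqrt (π.TS L σ h) * Real.sqrt (∑ x ∈ X, π.s6M L σ h u I x ^ 2) := by
    rw [← Finset.mul_sum, s6d_swap X I fun v x => e x * Δ v x, mul_assoc]
    refine mul_le_mul_of_nonneg_left ?_ (by norm_num)
    have e2 : ∑ x ∈ X, ∑ v ∈ I.erase x, e x * Δ v x = ∑ x ∈ X, e x * π.s6M L σ h u I x :=
      Finset.sum_congr rfl fun x _ => by rw [← Finset.mul_sum]; rfl
    rw [e2]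
    refine (Real.sum_mul_le_sqrt_mul_sqrt X e _).trans ?_
    refine mul_le_mul_of_nonneg_right (Real.sqrt_le_sqrt ?_) (Real.sqrt_nonneg _)
    exact Finset.sum_le_sum_of_subset_of_nonneg (Finset.erase_subset _ _) fun _ _ _ => sq_nonneg _
  have hC : ∑ v ∈ I, ∑ x ∈ X.erase v, Δ v x ^ 2 = π.s6V L σ h u I := rfl
  linarith

/-- the partner set with one more stub removed -/
theorem S6Set.s6d_erase {π : PPair n d} {Cm : ℝ} {L : ℕ} {h : ℝ} {N : S6Num} {om : ℕ} {u : Stub n d}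
    {I : Finset (Stub n d)} (T : π.S6Set Cm L h N om u I) (x : Stub n d) :
    π.S6Set Cm L h N (om + 1) u (I.erase x) := by
  refine ⟨T.hu, (Finset.erase_subset _ _).trans T.sub, ?_, fun v hv => T.adm v (Finset.mem_of_mem_erase hv)⟩
  have h1 : π.unres \ I.erase x ⊆ insert x (π.unres \ I) := by
    intro y hy
    rw [Finset.mem_sdiff, Finset.mem_erase] at hy
    rw [Finset.mem_insert, Finset.mem_sdiff]
    by_cases hyx : y = x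
    · exact Or.inl hyx
    · exact Or.inr ⟨hy.1, fun hyI => hy.2 ⟨hyx, hyI⟩⟩
  exact (Finset.card_le_card h1).trans ((Finset.card_insert_le _ _).trans (Nat.succ_le_succ T.card))

theorem S6Facts.s6d_col {π : PPair n d} {Cm : ℝ} {L : ℕ} {σ h C0 : ℝ} {N : S6Num}
    (F : π.S6Facts Cm L σ h C0 N) (u v : Stub n d) (hv : π.Unres v) :
    ∑ x ∈ π.unres.erase u, π.rmaj Cm L σ h (.stub x) v ^ 2 ≤ C0 := by
  rw [Finset.sum_congr rfl fun x _ => by rw [π.s6_rmaj_symm Cm L σ h x v]]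
  exact (Finset.sum_le_sum_of_subset_of_nonneg (Finset.erase_subset _ _) fun _ _ _ => sq_nonneg _).trans
    (F.rowR (.stub v) hv)

theorem s6_diag_mean (C0 : ℝ) : ∃ C : ℝ, 0 < C ∧ ∀ {n d : ℕ} (π : PPair n d) (Cm : ℝ) (L : ℕ) (σ h : ℝ) (N : S6Num)
    (om : ℕ) (u : Stub n d) (I : Finset (Stub n d)),
    π.S6Facts Cm L σ h C0 N → π.S6Set Cm L h N om u I →
    Real.sqrt (∑ x ∈ π.unres.erase u, π.s6M L σ h u I x ^ 2) ≤
      C * s6DiagMB N π.l om (π.jmaj Cm L h u) (π.YE L σ h) := by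
  by_cases hC0 : 1 ≤ C0
  swap
  · exact ⟨1, one_pos, fun π Cm L σ h N om u I F _ => absurd F.hC0 hC0⟩
  obtain ⟨C, hC, hpt⟩ := s6d_point C0
  refine ⟨2 * C * (8 * C0 + 1 + C0 ^ 3), by positivity, ?_⟩
  intro n d π Cm L σ h N om u I F T
  have hBm := F.Bm_nonneg
  have hju := F.s6d_j_nonneg u
  have hl1 : 1 ≤ π.l := le_trans (by norm_num) F.hl
  obtain ⟨f1, f2, f3, f4⟩ := s6d_MB_facts N π.l om (π.jmaj Cm L h u) (π.YE L σ h) hl1 hBm F.hBt F.hQa hju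
  have hXU : ∀ x ∈ π.unres.erase u, π.Unres x := fun x hx =>
    (π.s6d_mem_unres x).1 (Finset.mem_of_mem_erase hx)
  refine s6d_l2 (π.unres.erase u) (π.s6M L σ h u I) (fun x => π.rmaj Cm L σ h (.stub x) u)
    (fun x => ∑ v ∈ π.unres, π.rmaj Cm L σ h (.stub x) v ^ 2 * π.bmaj Cm L h u v) C _ _ _ C0 π.l _ hC.le
    (by positivity) (by have : 0 ≤ N.Qa := by linarith [F.hQa]
                        positivity) (by have := F.hBt; positivity) hC0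
    (fun x hx => hpt π Cm L σ h N (om + 1) u (I.erase x) (.stub x) F (T.s6d_erase x) (hXU x hx))
    (fun x hx => F.s6d_r_nonneg (a := .stub x) (hXU x hx) T.hu)
    (fun x hx => F.supR (.stub x) u (hXU x hx) T.hu) (F.s6d_col u u T.hu) ?_ ?_ f1 f2 f3 f4
  · exact s6d_tsum (π.unres.erase u) π.unres (fun x v => π.rmaj Cm L σ h (.stub x) v)
      (fun v => π.bmaj Cm L h u v) C0 (by linarith) (fun x hx => F.rowR (.stub x) (hXU x hx))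
      (fun v hv => F.s6d_col u v ((π.s6d_mem_unres v).1 hv)) (F.rowB2 u T.hu)
  · exact_mod_cast Finset.card_le_card (Finset.erase_subset u π.unres)

theorem s6d_var_arith (C0 TS Ne lB lB4 lj Bt2 il : ℝ) (hC0 : 1 ≤ C0) (hTS : 0 ≤ TS) (hNe : 1 ≤ Ne)
    (hlB : 0 ≤ lB) (h4 : lB4 ≤ lB) (hlj : 0 ≤ lj) (hBt2 : 0 ≤ Bt2) (hil : il ≤ 1) :
    C0 * (2 + 4 * (TS + Ne + lB4)) + (lj + lB + il + Bt2) + 4 * C0 ^ 2 ≤
      (6 * C0 + 4 * C0 ^ 2 + 2) * (Ne + TS + (lj + lB) + Bt2) := by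
  have hC2 : 0 ≤ C0 ^ 2 := sq_nonneg _
  have m1 := mul_nonneg (by linarith : (0 : ℝ) ≤ 2 * C0 + 4 * C0 ^ 2 + 2) (sub_nonneg.2 hNe)
  have m2 := mul_nonneg (by linarith : (0 : ℝ) ≤ 2 * C0 + 4 * C0 ^ 2 + 2) hTS
  have m3 := mul_nonneg (by linarith : (0 : ℝ) ≤ 6 * C0 + 4 * C0 ^ 2 + 1) hlj
  have m4 := mul_nonneg (by linarith : (0 : ℝ) ≤ 2 * C0 + 4 * C0 ^ 2 + 1) hlB
  have m5 := mul_nonneg (by linarith : (0 : ℝ) ≤ C0) (sub_nonneg.2 h4)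
  have m6 := mul_nonneg (by linarith : (0 : ℝ) ≤ 6 * C0 + 4 * C0 ^ 2 + 1) hBt2
  nlinarith

/-- summation of the per-stub second moments -/
theorem s6d_var_abs {ι : Type*} (X : Finset ι) (W ρ c : ι → ℝ) (C C0 TS Ne Bm Bt ju l : ℝ) (hC : 0 ≤ C)
    (hC0 : 1 ≤ C0) (hTS : 0 ≤ TS) (hNe : 1 ≤ Ne) (hBm : 0 ≤ Bm) (hBm1 : Bm ≤ 1 / 64) (hl : 1 ≤ l)
    (hW : ∀ x ∈ X, W x ≤ C * ((ρ x ^ 2 + ρ x ^ 2 + ρ x ^ 2 * ρ x ^ 2 * (TS + Ne + l * Bm ^ 4) + Bm ^ 2 + ju ^ 2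
      + 1 / l ^ 2 + Bt ^ 2 / l) + c x))
    (hρ0 : ∀ x ∈ X, 0 ≤ ρ x) (hρ2 : ∀ x ∈ X, ρ x ≤ 2) (hρs : ∑ x ∈ X, ρ x ^ 2 ≤ C0)
    (hc : ∑ x ∈ X, c x ≤ 4 * C0 ^ 2) (hcard : (X.card : ℝ) ≤ l) :
    ∑ x ∈ X, W x ≤ C * (6 * C0 + 4 * C0 ^ 2 + 2) * (Ne + TS + l * (ju ^ 2 + Bm ^ 2) + Bt ^ 2) := by
  have hl0 : 0 < l := by linarith
  have hQ : 0 ≤ TS + Ne + l * Bm ^ 4 := by positivity
  have h1 : ∀ x ∈ X, W x ≤ C * (ρ x ^ 2 * (2 + 4 * (TS + Ne + l * Bm ^ 4))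
      + (Bm ^ 2 + ju ^ 2 + 1 / l ^ 2 + Bt ^ 2 / l) + c x) := by
    intro x hx
    refine (hW x hx).trans (mul_le_mul_of_nonneg_left ?_ hC)
    have a0 := hρ0 x hx
    have a2 := hρ2 x hx
    have a3 : ρ x ^ 2 ≤ 4 := by nlinarith
    have a4 : ρ x ^ 2 * ρ x ^ 2 ≤ ρ x ^ 2 * 4 := mul_le_mul_of_nonneg_left a3 (sq_nonneg _)
    have a5 := mul_le_mul_of_nonneg_right a4 hQ
    linarith
  refine (Finset.sum_le_sum h1).trans ?_
  rw [← Finset.mul_sum, mul_assoc]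
  refine mul_le_mul_of_nonneg_left ?_ hC
  rw [Finset.sum_add_distrib, Finset.sum_add_distrib, ← Finset.sum_mul, Finset.sum_const, nsmul_eq_mul]
  have hP : 0 ≤ Bm ^ 2 + ju ^ 2 + 1 / l ^ 2 + Bt ^ 2 / l := by positivity
  have b1 : (∑ x ∈ X, ρ x ^ 2) * (2 + 4 * (TS + Ne + l * Bm ^ 4)) ≤ C0 * (2 + 4 * (TS + Ne + l * Bm ^ 4)) :=
    mul_le_mul_of_nonneg_right hρs (by linarith)
  have b2 : (X.card : ℝ) * (Bm ^ 2 + ju ^ 2 + 1 / l ^ 2 + Bt ^ 2 / l) ≤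
      l * (Bm ^ 2 + ju ^ 2 + 1 / l ^ 2 + Bt ^ 2 / l) := mul_le_mul_of_nonneg_right hcard hP
  have e1 : l * (Bm ^ 2 + ju ^ 2 + 1 / l ^ 2 + Bt ^ 2 / l) = l * ju ^ 2 + l * Bm ^ 2 + 1 / l + Bt ^ 2 := by
    field_simp
    ring
  have b3 : 1 / l ≤ 1 := by
    rw [div_le_one hl0]
    exact hl
  have b4 : Bm ^ 4 ≤ Bm ^ 2 := by
    have h5 : Bm ^ 2 ≤ 1 := by nlinarith
    have h6 := mul_le_mul_of_nonneg_left h5 (sq_nonneg Bm)
    nlinarith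
  have b5 : l * Bm ^ 4 ≤ l * Bm ^ 2 := mul_le_mul_of_nonneg_left b4 hl0.le
  have key := s6d_var_arith C0 TS Ne (l * Bm ^ 2) (l * Bm ^ 4) (l * ju ^ 2) (Bt ^ 2) (1 / l) hC0 hTS hNe
    (by positivity) b5 (by positivity) (sq_nonneg _) b3
  have e2 : l * (ju ^ 2 + Bm ^ 2) = l * ju ^ 2 + l * Bm ^ 2 := by ring
  rw [e2]
  linarith

theorem s6_diag_var (C0 : ℝ) : ∃ C : ℝ, 0 < C ∧ ∀ {n d : ℕ} (π : PPair n d) (Cm : ℝ) (L : ℕ) (σ h : ℝ) (N : S6Num)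
    (om : ℕ) (u : Stub n d) (I : Finset (Stub n d)),
    π.S6Facts Cm L σ h C0 N → π.S6Set Cm L h N om u I →
    π.s6V L σ h u I ≤ C * s6DiagVB N π.l (π.jmaj Cm L h u) (π.TS L σ h) := by
  by_cases hC0 : 1 ≤ C0
  swap
  · exact ⟨1, one_pos, fun π Cm L σ h N om u I F _ => absurd F.hC0 hC0⟩
  obtain ⟨C, hC, hv⟩ := s6_ent_var C0
  refine ⟨C * (6 * C0 + 4 * C0 ^ 2 + 2), by positivity, ?_⟩
  intro n d π Cm L σ h N om u I F T
  have hXU : ∀ x ∈ π.unres.erase u, π.Unres x := fun x hx =>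
    (π.s6d_mem_unres x).1 (Finset.mem_of_mem_erase hx)
  have hl1 : (1 : ℝ) ≤ (π.l : ℝ) := by
    have : (64 : ℝ) ≤ (π.l : ℝ) := by exact_mod_cast F.hl
    linarith
  unfold s6V s6DiagVB
  rw [s6d_swap (π.unres.erase u) I fun v x => π.dEent L σ h u v (.stub x) (.stub x) ^ 2]
  refine s6d_var_abs (π.unres.erase u) _ (fun x => π.rmaj Cm L σ h (.stub x) u)
    (fun x => ∑ v ∈ I.erase x,
      (π.rmaj Cm L σ h (.stub x) v * π.rmaj Cm L σ h (.stub x) v * π.bmaj Cm L h u v) ^ 2)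
    C C0 _ N.Ne N.Bm N.Bt _ π.l hC.le hC0 (Finset.sum_nonneg fun _ _ => sq_nonneg _) F.hNe F.Bm_nonneg F.hBm hl1
    (fun x hx => hv π Cm L σ h N (om + 1) u (I.erase x) (.stub x) (.stub x) F (T.s6d_erase x) (hXU x hx)
      (hXU x hx))
    (fun x hx => F.s6d_r_nonneg (a := .stub x) (hXU x hx) T.hu)
    (fun x hx => F.supR (.stub x) u (hXU x hx) T.hu) (F.s6d_col u u T.hu) ?_ ?_
  · have hIS : ∀ x, I.erase x ⊆ π.unres := fun x =>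
      (Finset.erase_subset _ _).trans (T.sub.trans (Finset.erase_subset _ _))
    calc ∑ x ∈ π.unres.erase u, ∑ v ∈ I.erase x,
          (π.rmaj Cm L σ h (.stub x) v * π.rmaj Cm L σ h (.stub x) v * π.bmaj Cm L h u v) ^ 2
        ≤ ∑ x ∈ π.unres.erase u, ∑ v ∈ π.unres,
          4 * (π.bmaj Cm L h u v ^ 2 * π.rmaj Cm L σ h (.stub x) v ^ 2) := by
          refine Finset.sum_le_sum fun x hx => ?_
          refine (Finset.sum_le_sum_of_subset_of_nonneg (hIS x) fun _ _ _ => sq_nonneg _).trans ?_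
          refine Finset.sum_le_sum fun v hv => ?_
          have a0 := F.s6d_r_nonneg (a := .stub x) (hXU x hx) ((π.s6d_mem_unres v).1 hv)
          have a2 := F.supR (.stub x) v (hXU x hx) ((π.s6d_mem_unres v).1 hv)
          have a3 : π.rmaj Cm L σ h (.stub x) v ^ 2 ≤ 4 := by nlinarith
          have a4 : π.rmaj Cm L σ h (.stub x) v ^ 2 * π.rmaj Cm L σ h (.stub x) v ^ 2 ≤
              4 * π.rmaj Cm L σ h (.stub x) v ^ 2 := mul_le_mul_of_nonneg_right a3 (sq_nonneg _)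
          have a5 := mul_le_mul_of_nonneg_left a4 (sq_nonneg (π.bmaj Cm L h u v))
          nlinarith
      _ = 4 * ∑ v ∈ π.unres, π.bmaj Cm L h u v ^ 2 *
            ∑ x ∈ π.unres.erase u, π.rmaj Cm L σ h (.stub x) v ^ 2 := by
          rw [Finset.sum_comm, Finset.mul_sum]
          refine Finset.sum_congr rfl fun v _ => ?_
          rw [← Finset.mul_sum, ← Finset.mul_sum]
      _ ≤ 4 * ∑ v ∈ π.unres, π.bmaj Cm L h u v ^ 2 * C0 := by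
          refine mul_le_mul_of_nonneg_left ?_ (by norm_num)
          exact Finset.sum_le_sum fun v hv =>
            mul_le_mul_of_nonneg_left (F.s6d_col u v ((π.s6d_mem_unres v).1 hv)) (sq_nonneg _)
      _ ≤ 4 * C0 ^ 2 := by
          rw [← Finset.sum_mul, sq]
          refine mul_le_mul_of_nonneg_left ?_ (by norm_num)
          exact mul_le_mul_of_nonneg_right (F.rowB2 u T.hu) (by linarith)
  · exact_mod_cast Finset.card_le_card (Finset.erase_subset u π.unres)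

/-- `F_1 = Tr(𝒟 W) = ∑_{x ∈ S} w_x(x)` -/
theorem s6d_F1_eq (π : PPair n d) (σ h : ℝ) : π.F1 σ h = ∑ x ∈ π.unres, π.wEnt σ h (.stub x) x := by
  unfold F1
  rw [Dcal_eq_Xi_mul, Matrix.mul_assoc, Matrix.trace_mul_comm, Matrix.trace]
  have h1 : ∀ x : Stub n d, Matrix.diag ((π.Xi ℝ)ᵀ * π.Wmat σ h * π.Xi ℝ) x =
      if π.Unres x then π.wEnt σ h (.stub x) x else 0 := by
    intro x
    rw [Matrix.diag_apply, Matrix.mul_apply]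
    simp only [Matrix.mul_apply, Matrix.transpose_apply, Xi]
    split_ifs with hx
    · unfold wEnt ent lvec
      simp only [dotProduct, Matrix.mulVec, Finset.sum_mul, Finset.mul_sum]
      rw [Finset.sum_comm]
      refine Finset.sum_congr rfl fun i _ => Finset.sum_congr rfl fun j _ => ?_
      ring
    · simp
  rw [Finset.sum_congr rfl fun x _ => h1 x, unres, Finset.sum_filter]

/-- the diagonal reference deviation -/
theorem s6d_abs_pdiag {π : PPair n d} {Cm : ℝ} {L : ℕ} {σ h C0 : ℝ} {N : S6Num} (F : π.S6Facts Cm L σ h C0 N)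
    (x : Stub n d) (hx : π.Unres x) :
    |π.pEnt L σ h (.stub x) x - (1 - (π.l : ℝ)⁻¹)| ≤ π.jmaj Cm L h x := by
  refine le_trans ?_ (F.majJ x hx)
  have e : π.pEnt L σ h (.stub x) x - (1 - (π.l : ℝ)⁻¹) =
      ∑ k ∈ Finset.range L, (σ * h) ^ k * π.tCoef k x x := by
    unfold pEnt
    rw [π.ft_ent_Pmat F.hn F.s6s_l_pos]
    simp only [tCoef, mul_sub, Finset.sum_sub_distrib]
    congr 1
    rw [Finset.sum_eq_single 0 (fun k _ hk => by rw [if_neg hk, mul_zero])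
      (fun h0 => absurd (Finset.mem_range.2 F.hL) h0)]
    simp
  rw [e]
  exact ft_abs_sum_le σ h F.hσ F.hh.le L _

/-- `Y_E = L_1 - ∑_x T_xx`, hence `|Y_E| ≤ |L_1| + Qa` -/
theorem s6_YE_le {π : PPair n d} {Cm : ℝ} {L : ℕ} {σ h C0 : ℝ} {N : S6Num} (F : π.S6Facts Cm L σ h C0 N) :
    |π.YE L σ h| ≤ |π.L1 σ h| + N.Qa := by
  have hl0 : (π.l : ℝ) ≠ 0 := by
    have : 0 < π.l := F.s6s_l_pos
    positivity
  have e : π.YE L σ h = π.L1 σ h - ∑ x ∈ π.unres, (π.pEnt L σ h (.stub x) x - (1 - (π.l : ℝ)⁻¹)) := by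
    unfold YE L1
    rw [s6d_F1_eq, Finset.sum_congr rfl fun x _ => π.s6_wEnt_eq L σ h (.stub x) x, Finset.sum_add_distrib,
      Finset.sum_sub_distrib, Finset.sum_const, nsmul_eq_mul]
    have : ((π.unres.card : ℕ) : ℝ) * (1 - (π.l : ℝ)⁻¹) = (π.l : ℝ) - 1 := by
      show (π.l : ℝ) * (1 - (π.l : ℝ)⁻¹) = (π.l : ℝ) - 1
      field_simp
    rw [this]
    ring
  rw [e]
  refine (abs_sub _ _).trans (add_le_add le_rfl ?_)
  refine (Finset.abs_sum_le_sum_abs _ _).trans (le_trans ?_ F.sumJ1)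
  exact Finset.sum_le_sum fun x hx => s6d_abs_pdiag F x ((π.s6d_mem_unres x).1 hx)

/-- scalar part of `s6_TS_step` -/
theorem s6d_step_arith (c TS ST MB VB sM V C1 C2 Sg : ℝ) (hST : 0 < ST) (hTS : 0 ≤ TS) (hMB : 0 ≤ MB)
    (hVB : 0 ≤ VB) (hC1 : 0 ≤ C1) (hC2 : 0 ≤ C2) (hsM : sM ≤ C1 * MB) (hV : V ≤ C2 * VB)
    (hSg : Sg ≤ c * TS + 2 * Real.sqrt TS * sM + V) :
    c + Sg / ST ≤ (c + (C1 + C2) * (MB / Real.sqrt ST + VB / ST)) * (1 + TS / ST) := by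
  have hs : 0 < Real.sqrt ST := Real.sqrt_pos.2 hST
  have hs2 : Real.sqrt ST ^ 2 = ST := Real.sq_sqrt hST.le
  have ht : 0 ≤ Real.sqrt TS := Real.sqrt_nonneg _
  have ht2 : Real.sqrt TS ^ 2 = TS := Real.sq_sqrt hTS
  set τ := Real.sqrt TS / Real.sqrt ST with hτ
  have hτ0 : 0 ≤ τ := by positivity
  have hτ2 : τ ^ 2 = TS / ST := by rw [hτ, div_pow, ht2, hs2]
  have h1 : 2 * τ ≤ 1 + TS / ST := by
    rw [← hτ2]
    nlinarith [sq_nonneg (τ - 1)]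
  have hq : 0 ≤ TS / ST := by positivity
  have e1 : 2 * Real.sqrt TS * (C1 * MB) / ST = 2 * τ * (C1 * (MB / Real.sqrt ST)) := by
    rw [hτ]
    field_simp
    rw [hs2]
  have h2 : Sg / ST ≤ c * (TS / ST) + 2 * τ * (C1 * (MB / Real.sqrt ST)) + C2 * (VB / ST) := by
    have h3 : Sg ≤ c * TS + 2 * Real.sqrt TS * (C1 * MB) + C2 * VB := by
      have := mul_le_mul_of_nonneg_left hsM (by positivity : 0 ≤ 2 * Real.sqrt TS)
      linarith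
    calc Sg / ST ≤ (c * TS + 2 * Real.sqrt TS * (C1 * MB) + C2 * VB) / ST :=
          div_le_div_of_nonneg_right h3 hST.le
      _ = c * (TS / ST) + 2 * Real.sqrt TS * (C1 * MB) / ST + C2 * (VB / ST) := by ring
      _ = _ := by rw [e1]
  have hm : 0 ≤ MB / Real.sqrt ST := by positivity
  have hv : 0 ≤ VB / ST := by positivity
  have h4 : 2 * τ * (C1 * (MB / Real.sqrt ST)) ≤ (1 + TS / ST) * (C1 * (MB / Real.sqrt ST)) :=
    mul_le_mul_of_nonneg_right h1 (by positivity)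
  have h5 : C2 * (VB / ST) ≤ (1 + TS / ST) * (C2 * (VB / ST)) := by
    have : 0 ≤ C2 * (VB / ST) := by positivity
    nlinarith
  have h6 : 0 ≤ (1 + TS / ST) * (C2 * (MB / Real.sqrt ST)) := by positivity
  have h7 : 0 ≤ (1 + TS / ST) * (C1 * (VB / ST)) := by positivity
  nlinarith

/-- one step of the account `1 + T_S / S_T` (sum form) -/
theorem s6_TS_step (C0 : ℝ) : ∃ C : ℝ, 0 < C ∧ ∀ {n d : ℕ} (π : PPair n d) (Cm : ℝ) (L : ℕ) (σ h : ℝ) (N : S6Num)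
    (om : ℕ) (u : Stub n d) (I : Finset (Stub n d)) (ST : ℝ), 0 < ST →
    π.S6Facts Cm L σ h C0 N → π.S6Set Cm L h N om u I →
    ∑ v ∈ I, (1 + (π.resolve u v).TS L σ h / ST) ≤
      ((I.card : ℝ) + C * (s6DiagMB N π.l om (π.jmaj Cm L h u) (π.YE L σ h) / Real.sqrt ST
        + s6DiagVB N π.l (π.jmaj Cm L h u) (π.TS L σ h) / ST)) * (1 + π.TS L σ h / ST) := by
  obtain ⟨C1, hC1, hm⟩ := s6_diag_mean C0
  obtain ⟨C2, hC2, hv⟩ := s6_diag_var C0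
  refine ⟨C1 + C2, by positivity, ?_⟩
  intro n d π Cm L σ h N om u I ST hST F T
  have hTS : 0 ≤ π.TS L σ h := Finset.sum_nonneg fun _ _ => sq_nonneg _
  have hl1 : 1 ≤ π.l := le_trans (by norm_num) F.hl
  have hMB : 0 ≤ s6DiagMB N π.l om (π.jmaj Cm L h u) (π.YE L σ h) := by
    have := (s6d_MB_facts N π.l om (π.jmaj Cm L h u) (π.YE L σ h) hl1 F.Bm_nonneg F.hBt F.hQa
      (F.s6d_j_nonneg u)).2.2.2
    linarith
  have hVB : 0 ≤ s6DiagVB N π.l (π.jmaj Cm L h u) (π.TS L σ h) := by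
    unfold s6DiagVB
    have := F.hNe
    positivity
  have e : ∑ v ∈ I, (1 + (π.resolve u v).TS L σ h / ST) =
      (I.card : ℝ) + (∑ v ∈ I, (π.resolve u v).TS L σ h) / ST := by
    rw [Finset.sum_add_distrib, Finset.sum_const, nsmul_eq_mul, mul_one, Finset.sum_div]
  rw [e]
  exact s6d_step_arith _ _ ST _ _ _ _ C1 C2 _ hST hTS hMB hVB hC1.le hC2.le (hm π Cm L σ h N om u I F T)
    (hv π Cm L σ h N om u I F T) (s6_TS_cs π L σ h u I T.hu T.sub)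

end PPair

end Claimed.Agent.R275
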