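import Claimed.Agent.R275.S6Step

/-!
# Row 275, Sec 6 (cleanup.tex), package S6-ENT: one-step sums of an entry increment over the random endpoint

Owner of the statements: helper208.  May assume every statement of `S6Step.lean`, `FormalTail.lean` (`sum_eEnt`, `sum_pEnt`).

Per-step part of Lemma 6.7 (`lem:cleanup-entry-budgets`).  `u` = prescribed endpoint, `I` = ANY set of partners with
`I ⊆ S \ {u}`, `|S \ I| ≤ om`, all pairs `(u, v)`, `v ∈ I`, admissible.  SUMS over `v ∈ I` (not averages): divide by the number of candidates later.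
Only finite sums, Cauchy-Schwarz, the centring `∑_{v ∈ S} e_b(v) = ∑ p_b(v) = ∑ TZ = 0` and the fields of `S6Facts` are used.

HAND PROOF (mean).  By `s6_decomp`, `ΔE = Z + S - TZ + Rem`.
* `Z`: `|∑_I e_b(v)| = |∑_{S\I} e_b(v)| ≤ om Bm`, `|∑_I p_b(v)| ≤ √(om C0)`; prefactors `≤ r_a(u)` resp. `r_b(u)`.
* `TZ`: `|∑_I TZ| = |∑_{S\I} TZ| ≤ (r_a(u) + r_b(u)) √(om C0)` (`s6_sum_TZ`, `s6_abs_TZ_le`, `majP`).
* `S`: `|∑_I e_v(v)| ≤ |Y_E| + om Bm`;  `|e_u(u)| ∑ |w_a(v) w_b(v)| ≤ Bm C0`;  `|w_a(u)| ∑ |w_b(v) e_u(v)| ≤ r_a(u) C0`.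
* `Rem`: `r_a(u) r_b(u) ∑ (j_v + b_uv + Bm² + 1/l) ≤ r_a(u) r_b(u) (2 Qa + l Bm² + 1)`;  `∑ r_a(v) r_b(v) (..) ≤ 4 C0`;
  `r_a(u) ∑ r_b(v) (b_uv + (j_u + Bm)(j_v + Bm) + 1/l) ≤ r_a(u) (C0 + (j_u + Bm) √(C0 l) + 1)`;  `∑ (Bm + Bt)/l ≤ Bm + Bt`.
-/

set_option autoImplicit false

namespace Claimed.Agent.R275

open Matrix

/-- bound of `|∑_{v ∈ I} ΔE_{ab}|` -/
noncomputable def s6MeanB (N : S6Num) (l om : ℕ) (ra rb ju YE : ℝ) : ℝ :=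
  (ra + rb) * ((om : ℝ) * N.Bm + Real.sqrt om + 1 + (ju + N.Bm) * Real.sqrt l)
    + ra * rb * (|YE| + (om : ℝ) * N.Bm + N.Qa + (l : ℝ) * N.Bm ^ 2) + 1 + N.Bt

/-- bound of `∑_{v ∈ I} ΔE_{ab}²` apart from the joint cross term -/
noncomputable def s6VarB (N : S6Num) (l : ℕ) (ra rb ju TS : ℝ) : ℝ :=
  ra ^ 2 + rb ^ 2 + ra ^ 2 * rb ^ 2 * (TS + N.Ne + (l : ℝ) * N.Bm ^ 4) + N.Bm ^ 2 + ju ^ 2 + 1 / (l : ℝ) ^ 2
    + N.Bt ^ 2 / (l : ℝ)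

namespace PPair

variable {n d : ℕ}

/-- the partner set of one cleanup step -/
structure S6Set (π : PPair n d) (Cm : ℝ) (L : ℕ) (h : ℝ) (N : S6Num) (om : ℕ) (u : Stub n d)
    (I : Finset (Stub n d)) : Prop where
  hu : π.Unres u
  sub : I ⊆ π.unres.erase u
  card : (π.unres \ I).card ≤ om
  adm : ∀ v ∈ I, π.S6Adm Cm L h N u v

/-- omitted sums of a centred array -/
theorem s6_sum_centred (π : PPair n d) (I : Finset (Stub n d)) (hI : I ⊆ π.unres) (f : Stub n d → ℝ)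
    (hf : ∑ v ∈ π.unres, f v = 0) : ∑ v ∈ I, f v = -∑ v ∈ π.unres \ I, f v := by
  have := Finset.sum_sdiff (f := f) hI
  linarith

/-! ### general finite-sum tools -/

theorem s6en_sum_mul_le {ι : Type*} (T : Finset ι) (f g : ι → ℝ) (A B : ℝ) (hf : ∑ v ∈ T, f v ^ 2 ≤ A)
    (hg : ∑ v ∈ T, g v ^ 2 ≤ B) : ∑ v ∈ T, |f v * g v| ≤ (A + B) / 2 := by
  have h1 : ∀ v ∈ T, |f v * g v| ≤ (f v ^ 2 + g v ^ 2) / 2 := by
    intro v _
    rw [abs_le]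
    constructor <;> nlinarith [sq_nonneg (f v - g v), sq_nonneg (f v + g v)]
  refine le_trans (Finset.sum_le_sum h1) ?_
  rw [← Finset.sum_div, Finset.sum_add_distrib]
  linarith

theorem s6en_sum_le_sqrt {ι : Type*} (T : Finset ι) (r : ι → ℝ) (m : ℕ) (A : ℝ) (hT : T.card ≤ m)
    (hr : ∑ v ∈ T, r v ^ 2 ≤ A) (hA : 1 ≤ A) : ∑ v ∈ T, r v ≤ A * Real.sqrt m := by
  have h1 : (∑ v ∈ T, r v) ^ 2 ≤ (T.card : ℝ) * ∑ v ∈ T, r v ^ 2 := sq_sum_le_card_mul_sum_sq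
  have h0 : 0 ≤ ∑ v ∈ T, r v ^ 2 := Finset.sum_nonneg fun _ _ => sq_nonneg _
  have hm : (T.card : ℝ) ≤ (m : ℝ) := by exact_mod_cast hT
  have h2 : (∑ v ∈ T, r v) ^ 2 ≤ (A * Real.sqrt m) ^ 2 := by
    rw [mul_pow, Real.sq_sqrt (Nat.cast_nonneg m)]
    calc (∑ v ∈ T, r v) ^ 2 ≤ (T.card : ℝ) * ∑ v ∈ T, r v ^ 2 := h1
      _ ≤ (m : ℝ) * A := mul_le_mul hm hr h0 (Nat.cast_nonneg m)
      _ ≤ A ^ 2 * (m : ℝ) := by
        have h3 : A ≤ A ^ 2 := by nlinarith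
        nlinarith [mul_le_mul_of_nonneg_right h3 (Nat.cast_nonneg (α := ℝ) m)]
  exact abs_le_of_sq_le_sq' h2 (by positivity) |>.2

theorem s6en_abs_sum_le_card {ι : Type*} (T : Finset ι) (f : ι → ℝ) (m : ℕ) (B : ℝ) (hT : T.card ≤ m) (hB : 0 ≤ B)
    (hf : ∀ v ∈ T, |f v| ≤ B) : |∑ v ∈ T, f v| ≤ (m : ℝ) * B := by
  refine le_trans (Finset.abs_sum_le_sum_abs _ _) (le_trans (Finset.sum_le_card_nsmul _ _ _ hf) ?_)
  rw [nsmul_eq_mul]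
  exact mul_le_mul_of_nonneg_right (by exact_mod_cast hT) hB

theorem s6en_mem_unres {π : PPair n d} {x : Stub n d} : x ∈ π.unres ↔ π.Unres x := by
  simp [unres]

/-! ### explicit forms of the terms -/

theorem s6en_Zt_eq (π : PPair n d) (L : ℕ) (σ h : ℝ) (u v : Stub n d) (a b : Label n d) :
    π.s6Zt L σ h u v a b = σ * h *
      ((π.pEnt L σ h a u * π.eEnt L σ h b v + π.eEnt L σ h a u * π.pEnt L σ h b v
          + π.eEnt L σ h a u * π.eEnt L σ h b v)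
        + (π.pEnt L σ h a v * π.eEnt L σ h b u + π.eEnt L σ h a v * π.pEnt L σ h b u
          + π.eEnt L σ h a v * π.eEnt L σ h b u)) := rfl

theorem s6en_St_eq (π : PPair n d) (L : ℕ) (σ h : ℝ) (u v : Stub n d) (a b : Label n d) :
    π.s6St L σ h u v a b = h ^ 2 *
      (π.wEnt σ h a u * π.wEnt σ h b u * π.eEnt L σ h (.stub v) v
        + π.wEnt σ h a v * π.wEnt σ h b v * π.eEnt L σ h (.stub u) u
        + (π.wEnt σ h a u * π.wEnt σ h b v + π.wEnt σ h a v * π.wEnt σ h b u) * π.eEnt L σ h (.stub u) v) := by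
  have e : ∀ i j : Fin 2, π.Epair L σ h u v i j =
      π.eEnt L σ h (.stub (if i = 0 then u else v)) (if j = 0 then u else v) := fun i j => π.blk_eq_ent _ u v i j
  rw [π.s6_wEnt_eq L σ h a u, π.s6_wEnt_eq L σ h a v, π.s6_wEnt_eq L σ h b u, π.s6_wEnt_eq L σ h b v]
  unfold s6St s6S
  rw [e, e, e]
  rfl

theorem s6en_Rt_eq (π : PPair n d) (Cm : ℝ) (L : ℕ) (σ h : ℝ) (N : S6Num) (u v : Stub n d) (a b : Label n d) :
    π.s6Rt Cm L σ h N u v a b =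
      π.rmaj Cm L σ h a u * π.rmaj Cm L σ h b u
          * (π.jmaj Cm L h v + π.bmaj Cm L h u v + N.Bm ^ 2 + 1 / (π.l : ℝ))
        + π.rmaj Cm L σ h a v * π.rmaj Cm L σ h b v
          * (π.jmaj Cm L h u + π.bmaj Cm L h u v + N.Bm ^ 2 + 1 / (π.l : ℝ))
        + (π.rmaj Cm L σ h a u * π.rmaj Cm L σ h b v + π.rmaj Cm L σ h a v * π.rmaj Cm L σ h b u)
          * (π.bmaj Cm L h u v + (π.jmaj Cm L h u + N.Bm) * (π.jmaj Cm L h v + N.Bm) + 1 / (π.l : ℝ))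
        + (N.Bm + N.Bt) / (π.l : ℝ) := rfl

/-! ### the facts in the form used below -/

section Ctx

variable {π : PPair n d} {Cm : ℝ} {L : ℕ} {σ h C0 : ℝ} {N : S6Num} {om : ℕ} {u : Stub n d}
  {I : Finset (Stub n d)}

theorem S6Set.s6en_sub (hS : π.S6Set Cm L h N om u I) : I ⊆ π.unres :=
  hS.sub.trans (Finset.erase_subset _ _)

theorem S6Set.s6en_unres (hS : π.S6Set Cm L h N om u I) {v : Stub n d} (hv : v ∈ I) : π.Unres v :=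
  s6en_mem_unres.1 (hS.s6en_sub hv)

theorem S6Set.s6en_card (hS : π.S6Set Cm L h N om u I) : (I.card : ℝ) ≤ (π.l : ℝ) := by
  exact_mod_cast Finset.card_le_card hS.s6en_sub

theorem S6Facts.s6en_r_nonneg (F : π.S6Facts Cm L σ h C0 N) {a : Label n d} {x : Stub n d} (ha : π.Alive a)
    (hx : π.Unres x) : 0 ≤ π.rmaj Cm L σ h a x :=
  le_trans (add_nonneg (abs_nonneg _) (abs_nonneg _)) (F.abs_add_le ha hx)

theorem S6Facts.s6en_abs_p (F : π.S6Facts Cm L σ h C0 N) {a : Label n d} {x : Stub n d} (ha : π.Alive a)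
    (hx : π.Unres x) : |π.pEnt L σ h a x| ≤ π.rmaj Cm L σ h a x := by
  linarith [F.abs_add_le ha hx, abs_nonneg (π.eEnt L σ h a x)]

theorem S6Facts.s6en_abs_e (F : π.S6Facts Cm L σ h C0 N) {a : Label n d} {x : Stub n d} (ha : π.Alive a)
    (hx : π.Unres x) : |π.eEnt L σ h a x| ≤ π.rmaj Cm L σ h a x := by
  linarith [F.abs_add_le ha hx, abs_nonneg (π.pEnt L σ h a x)]

theorem S6Facts.s6en_abs_e_Bm (F : π.S6Facts Cm L σ h C0 N) {a : Label n d} {x : Stub n d} (ha : π.Alive a)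
    (hx : π.Unres x) : |π.eEnt L σ h a x| ≤ N.Bm := F.cap a (.stub x) ha hx

theorem S6Facts.s6en_pAbs (F : π.S6Facts Cm L σ h C0 N) {a : Label n d} {x : Stub n d} (ha : π.Alive a)
    (hx : π.Unres x) : π.pAbs L h a (.stub x) ≤ π.rmaj Cm L σ h a x := by
  have := F.majP a x ha hx
  unfold rmaj
  linarith [abs_nonneg (π.eEnt L σ h a x)]

theorem S6Facts.s6en_row (F : π.S6Facts Cm L σ h C0 N) {a : Label n d} (ha : π.Alive a)
    {T : Finset (Stub n d)} (hT : T ⊆ π.unres) : ∑ x ∈ T, π.rmaj Cm L σ h a x ^ 2 ≤ C0 :=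
  le_trans (Finset.sum_le_sum_of_subset_of_nonneg hT fun _ _ _ => sq_nonneg _) (F.rowR a ha)

theorem S6Facts.s6en_sum_r (F : π.S6Facts Cm L σ h C0 N) {a : Label n d} (ha : π.Alive a)
    {T : Finset (Stub n d)} (hT : T ⊆ π.unres) (m : ℕ) (hm : T.card ≤ m) :
    ∑ x ∈ T, π.rmaj Cm L σ h a x ≤ C0 * Real.sqrt m :=
  s6en_sum_le_sqrt T _ m C0 hm (F.s6en_row ha hT) F.hC0

/-- Cauchy-Schwarz (in the form `xy ≤ (x² + y²)/2`) for two arrays dominated by rows of `r` -/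
theorem S6Facts.s6en_sum_fg (F : π.S6Facts Cm L σ h C0 N) {a b : Label n d} (ha : π.Alive a) (hb : π.Alive b)
    {T : Finset (Stub n d)} (hT : T ⊆ π.unres) (f g : Stub n d → ℝ)
    (hf : ∀ v ∈ T, |f v| ≤ π.rmaj Cm L σ h a v) (hg : ∀ v ∈ T, |g v| ≤ π.rmaj Cm L σ h b v) :
    ∑ v ∈ T, |f v * g v| ≤ C0 := by
  have h1 := s6en_sum_mul_le T _ _ C0 C0 (F.s6en_row ha hT) (F.s6en_row hb hT)
  have h2 : ∀ v ∈ T, |f v * g v| ≤ |π.rmaj Cm L σ h a v * π.rmaj Cm L σ h b v| := by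
    intro v hv
    rw [abs_mul, abs_mul]
    exact mul_le_mul ((hf v hv).trans (le_abs_self _)) ((hg v hv).trans (le_abs_self _)) (abs_nonneg _)
      (abs_nonneg _)
  linarith [Finset.sum_le_sum h2]

theorem S6Facts.s6en_sumI_e (F : π.S6Facts Cm L σ h C0 N) (hS : π.S6Set Cm L h N om u I) {c : Label n d}
    (hc : π.Alive c) : |∑ v ∈ I, π.eEnt L σ h c v| ≤ (om : ℝ) * N.Bm := by
  rw [s6_sum_centred π I hS.s6en_sub _ (π.sum_eEnt L σ h c), abs_neg]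
  exact s6en_abs_sum_le_card _ _ om _ hS.card F.Bm_nonneg fun v hv =>
    F.s6en_abs_e_Bm hc (s6en_mem_unres.1 (Finset.sdiff_subset hv))

theorem S6Facts.s6en_sumI_p (F : π.S6Facts Cm L σ h C0 N) (hS : π.S6Set Cm L h N om u I) {c : Label n d}
    (hc : π.Alive c) : |∑ v ∈ I, π.pEnt L σ h c v| ≤ C0 * Real.sqrt om := by
  rw [s6_sum_centred π I hS.s6en_sub _ (π.sum_pEnt L σ h c), abs_neg]
  refine le_trans (Finset.abs_sum_le_sum_abs _ _) (le_trans (Finset.sum_le_sum fun v hv => ?_)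
    (F.s6en_sum_r hc Finset.sdiff_subset om hS.card))
  exact F.s6en_abs_p hc (s6en_mem_unres.1 (Finset.sdiff_subset hv))

/-- scalar part of the `Z` bound -/
theorem s6en_Z_scalar (x pau eau pbu ebu Ea Eb Pa Pb ra rb M1 M2 : ℝ) (hx : |x| ≤ 1)
    (hra : |pau| + |eau| ≤ ra) (hrb : |pbu| + |ebu| ≤ rb) (hEa : |Ea| ≤ M1) (hEb : |Eb| ≤ M1)
    (hPa : |Pa| ≤ M2) (hPb : |Pb| ≤ M2) :
    |x * ((pau * Eb + eau * Pb + eau * Eb) + (Pa * ebu + Ea * pbu + Ea * ebu))| ≤ (ra + rb) * (M1 + M2) := by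
  have hM1 : 0 ≤ M1 := (abs_nonneg _).trans hEa
  have hM2 : 0 ≤ M2 := (abs_nonneg _).trans hPa
  have a1 := abs_nonneg pau
  have a2 := abs_nonneg eau
  have a3 := abs_nonneg pbu
  have a4 := abs_nonneg ebu
  have t1 : |pau * Eb| ≤ |pau| * M1 := by rw [abs_mul]; exact mul_le_mul_of_nonneg_left hEb a1
  have t2 : |eau * Pb| ≤ |eau| * M2 := by rw [abs_mul]; exact mul_le_mul_of_nonneg_left hPb a2
  have t3 : |eau * Eb| ≤ |eau| * M1 := by rw [abs_mul]; exact mul_le_mul_of_nonneg_left hEb a2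
  have t4 : |Pa * ebu| ≤ |ebu| * M2 := by rw [abs_mul, mul_comm]; exact mul_le_mul_of_nonneg_left hPa a4
  have t5 : |Ea * pbu| ≤ |pbu| * M1 := by rw [abs_mul, mul_comm]; exact mul_le_mul_of_nonneg_left hEa a3
  have t6 : |Ea * ebu| ≤ |ebu| * M1 := by rw [abs_mul, mul_comm]; exact mul_le_mul_of_nonneg_left hEa a4
  have s1 : |(pau * Eb + eau * Pb + eau * Eb) + (Pa * ebu + Ea * pbu + Ea * ebu)| ≤
      |pau * Eb| + |eau * Pb| + |eau * Eb| + (|Pa * ebu| + |Ea * pbu| + |Ea * ebu|) := by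
    refine le_trans (abs_add_le _ _) (add_le_add ?_ ?_)
    · exact le_trans (abs_add_le _ _) (add_le_add (abs_add_le _ _) le_rfl)
    · exact le_trans (abs_add_le _ _) (add_le_add (abs_add_le _ _) le_rfl)
  rw [abs_mul]
  have s2 : |x| * |(pau * Eb + eau * Pb + eau * Eb) + (Pa * ebu + Ea * pbu + Ea * ebu)| ≤
      1 * |(pau * Eb + eau * Pb + eau * Eb) + (Pa * ebu + Ea * pbu + Ea * ebu)| :=
    mul_le_mul_of_nonneg_right hx (abs_nonneg _)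
  have u1 : (|pau| + |eau|) * M1 ≤ ra * M1 := mul_le_mul_of_nonneg_right hra hM1
  have u2 : |eau| * M2 ≤ ra * M2 := mul_le_mul_of_nonneg_right (by linarith) hM2
  have u3 : (|pbu| + |ebu|) * M1 ≤ rb * M1 := mul_le_mul_of_nonneg_right hrb hM1
  have u4 : |ebu| * M2 ≤ rb * M2 := mul_le_mul_of_nonneg_right (by linarith) hM2
  nlinarith

theorem S6Facts.s6en_abs_x (F : π.S6Facts Cm L σ h C0 N) : |σ * h| ≤ 1 := by
  rw [ft_abs_sigma_mul σ h F.hσ F.hh.le]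
  exact F.hh1.le

/-- the `Z` part of the mean -/
theorem S6Facts.s6en_Z (F : π.S6Facts Cm L σ h C0 N) (hS : π.S6Set Cm L h N om u I) {a b : Label n d}
    (ha : π.Alive a) (hb : π.Alive b) :
    |∑ v ∈ I, π.s6Zt L σ h u v a b| ≤
      (π.rmaj Cm L σ h a u + π.rmaj Cm L σ h b u) * ((om : ℝ) * N.Bm + C0 * Real.sqrt om) := by
  have e : ∑ v ∈ I, π.s6Zt L σ h u v a b = σ * h *
      ((π.pEnt L σ h a u * (∑ v ∈ I, π.eEnt L σ h b v) + π.eEnt L σ h a u * (∑ v ∈ I, π.pEnt L σ h b v)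
          + π.eEnt L σ h a u * (∑ v ∈ I, π.eEnt L σ h b v))
        + ((∑ v ∈ I, π.pEnt L σ h a v) * π.eEnt L σ h b u + (∑ v ∈ I, π.eEnt L σ h a v) * π.pEnt L σ h b u
          + (∑ v ∈ I, π.eEnt L σ h a v) * π.eEnt L σ h b u)) := by
    simp only [s6en_Zt_eq, Finset.mul_sum, Finset.sum_mul, ← Finset.sum_add_distrib]
  rw [e]
  exact s6en_Z_scalar _ _ _ _ _ _ _ _ _ _ _ _ _ F.s6en_abs_x (F.abs_add_le ha hS.hu) (F.abs_add_le hb hS.hu)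
    (F.s6en_sumI_e hS ha) (F.s6en_sumI_e hS hb) (F.s6en_sumI_p hS ha) (F.s6en_sumI_p hS hb)

/-- pointwise bound of `TZ` by rows of `r` -/
theorem S6Facts.s6en_abs_TZ (F : π.S6Facts Cm L σ h C0 N) {a b : Label n d} (ha : π.Alive a) (hb : π.Alive b)
    {u v : Stub n d} (hu : π.Unres u) (hv : π.Unres v) :
    |π.TZ L σ h u v a b| ≤ π.rmaj Cm L σ h a u * π.rmaj Cm L σ h b v
      + π.rmaj Cm L σ h a v * π.rmaj Cm L σ h b u := by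
  refine le_trans (s6_abs_TZ_le π L σ h F.hσ F.hh.le F.hh1.le u v a b) (add_le_add ?_ ?_)
  · exact mul_le_mul (F.s6en_pAbs ha hu) (F.s6en_pAbs hb hv) (π.ft_pAbs_nonneg L F.hh.le _ _)
      (F.s6en_r_nonneg ha hu)
  · exact mul_le_mul (F.s6en_pAbs ha hv) (F.s6en_pAbs hb hu) (π.ft_pAbs_nonneg L F.hh.le _ _)
      (F.s6en_r_nonneg ha hv)

/-- the `TZ` part of the mean -/
theorem S6Facts.s6en_TZ (F : π.S6Facts Cm L σ h C0 N) (hS : π.S6Set Cm L h N om u I) {a b : Label n d}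
    (ha : π.Alive a) (hb : π.Alive b) :
    |∑ v ∈ I, π.TZ L σ h u v a b| ≤
      (π.rmaj Cm L σ h a u + π.rmaj Cm L σ h b u) * (C0 * Real.sqrt om) := by
  rw [s6_sum_centred π I hS.s6en_sub _ (s6_sum_TZ π L σ h u a b), abs_neg]
  refine le_trans (Finset.abs_sum_le_sum_abs _ _) (le_trans (Finset.sum_le_sum fun v hv =>
    F.s6en_abs_TZ ha hb hS.hu (s6en_mem_unres.1 (Finset.sdiff_subset hv))) ?_)
  rw [Finset.sum_add_distrib, ← Finset.mul_sum, ← Finset.sum_mul]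
  have h1 := F.s6en_sum_r ha Finset.sdiff_subset om hS.card
  have h2 := F.s6en_sum_r hb Finset.sdiff_subset om hS.card
  have h3 := mul_le_mul_of_nonneg_left h2 (F.s6en_r_nonneg ha hS.hu)
  have h4 := mul_le_mul_of_nonneg_right h1 (F.s6en_r_nonneg hb hS.hu)
  linarith

/-- scalar part of the `S` bound -/
theorem s6en_S_scalar (h wau wbu euu D WW WbE WaE ra rb Bm MD K : ℝ) (hh0 : 0 ≤ h) (hh1 : h ≤ 1)
    (hwa : |wau| ≤ ra) (hwb : |wbu| ≤ rb) (he : |euu| ≤ Bm) (hD : |D| ≤ MD) (hWW : |WW| ≤ K)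
    (hWb : |WbE| ≤ K) (hWa : |WaE| ≤ K) :
    |h ^ 2 * (wau * wbu * D + WW * euu + wau * WbE + wbu * WaE)| ≤
      ra * rb * MD + K * Bm + (ra + rb) * K := by
  have hK : 0 ≤ K := (abs_nonneg _).trans hWW
  have hra : 0 ≤ ra := (abs_nonneg _).trans hwa
  have hrb : 0 ≤ rb := (abs_nonneg _).trans hwb
  have hMD : 0 ≤ MD := (abs_nonneg _).trans hD
  have t1 : |wau * wbu * D| ≤ ra * rb * MD := by
    rw [abs_mul, abs_mul]
    exact mul_le_mul (mul_le_mul hwa hwb (abs_nonneg _) hra) hD (abs_nonneg _) (mul_nonneg hra hrb)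
  have t2 : |WW * euu| ≤ K * Bm := by
    rw [abs_mul]; exact mul_le_mul hWW he (abs_nonneg _) hK
  have t3 : |wau * WbE| ≤ ra * K := by
    rw [abs_mul]; exact mul_le_mul hwa hWb (abs_nonneg _) hra
  have t4 : |wbu * WaE| ≤ rb * K := by
    rw [abs_mul]; exact mul_le_mul hwb hWa (abs_nonneg _) hrb
  have s1 : |wau * wbu * D + WW * euu + wau * WbE + wbu * WaE| ≤
      |wau * wbu * D| + |WW * euu| + |wau * WbE| + |wbu * WaE| :=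
    le_trans (abs_add_le _ _) (add_le_add (le_trans (abs_add_le _ _) (add_le_add (abs_add_le _ _) le_rfl)) le_rfl)
  have hh2 : h ^ 2 ≤ 1 := pow_le_one₀ hh0 hh1
  rw [abs_mul, abs_of_nonneg (sq_nonneg h)]
  have s2 := mul_le_mul_of_nonneg_right hh2 (abs_nonneg (wau * wbu * D + WW * euu + wau * WbE + wbu * WaE))
  linarith

/-- the `S` part of the mean -/
theorem S6Facts.s6en_S (F : π.S6Facts Cm L σ h C0 N) (hS : π.S6Set Cm L h N om u I) {a b : Label n d}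
    (ha : π.Alive a) (hb : π.Alive b) :
    |∑ v ∈ I, π.s6St L σ h u v a b| ≤
      π.rmaj Cm L σ h a u * π.rmaj Cm L σ h b u * (|π.YE L σ h| + (om : ℝ) * N.Bm) + C0 * N.Bm
        + (π.rmaj Cm L σ h a u + π.rmaj Cm L σ h b u) * C0 := by
  have e : ∑ v ∈ I, π.s6St L σ h u v a b = h ^ 2 *
      (π.wEnt σ h a u * π.wEnt σ h b u * (∑ v ∈ I, π.eEnt L σ h (.stub v) v)
        + (∑ v ∈ I, π.wEnt σ h a v * π.wEnt σ h b v) * π.eEnt L σ h (.stub u) u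
        + π.wEnt σ h a u * (∑ v ∈ I, π.wEnt σ h b v * π.eEnt L σ h (.stub u) v)
        + π.wEnt σ h b u * (∑ v ∈ I, π.wEnt σ h a v * π.eEnt L σ h (.stub u) v)) := by
    simp only [Finset.mul_sum, Finset.sum_mul, ← Finset.sum_add_distrib]
    refine Finset.sum_congr rfl fun v _ => ?_
    rw [s6en_St_eq]
    ring
  have hu' : π.Alive (.stub u) := hS.hu
  have hD : |∑ v ∈ I, π.eEnt L σ h (.stub v) v| ≤ |π.YE L σ h| + (om : ℝ) * N.Bm := by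
    have h1 := Finset.sum_sdiff (f := fun v => π.eEnt L σ h (.stub v) v) hS.s6en_sub
    have h2 : ∑ v ∈ I, π.eEnt L σ h (.stub v) v =
        π.YE L σ h - ∑ v ∈ π.unres \ I, π.eEnt L σ h (.stub v) v := by
      unfold YE
      linarith
    rw [h2]
    refine le_trans (abs_sub _ _) (add_le_add le_rfl ?_)
    exact s6en_abs_sum_le_card _ _ om _ hS.card F.Bm_nonneg fun v hv =>
      F.s6en_abs_e_Bm (a := .stub v) (s6en_mem_unres.1 (Finset.sdiff_subset hv))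
        (s6en_mem_unres.1 (Finset.sdiff_subset hv))
  have hw : ∀ c : Label n d, π.Alive c → ∀ v ∈ I, |π.wEnt σ h c v| ≤ π.rmaj Cm L σ h c v :=
    fun c hc v hv => F.abs_wEnt_le hc (hS.s6en_unres hv)
  have heu : ∀ v ∈ I, |π.eEnt L σ h (.stub u) v| ≤ π.rmaj Cm L σ h (.stub u) v :=
    fun v hv => F.s6en_abs_e hu' (hS.s6en_unres hv)
  rw [e]
  exact s6en_S_scalar _ _ _ _ _ _ _ _ _ _ _ _ _ F.hh.le F.hh1.le (F.abs_wEnt_le ha hS.hu)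
    (F.abs_wEnt_le hb hS.hu) (F.s6en_abs_e_Bm hu' hS.hu) hD
    (le_trans (Finset.abs_sum_le_sum_abs _ _) (F.s6en_sum_fg ha hb hS.s6en_sub _ _ (hw a ha) (hw b hb)))
    (le_trans (Finset.abs_sum_le_sum_abs _ _) (F.s6en_sum_fg hb hu' hS.s6en_sub _ _ (hw b hb) heu))
    (le_trans (Finset.abs_sum_le_sum_abs _ _) (F.s6en_sum_fg ha hu' hS.s6en_sub _ _ (hw a ha) heu))

/-- scalar (pointwise) part of the remainder bound -/
theorem s6en_R_scalar (ra rb x y ju jv bv Bm Bt e : ℝ) (hra : 0 ≤ ra) (hrb : 0 ≤ rb) (hx : 0 ≤ x) (hx2 : x ≤ 2)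
    (hy : 0 ≤ y) (hy2 : y ≤ 2) (hju : 0 ≤ ju) (hju1 : ju ≤ 1 / 64) (hjv : 0 ≤ jv) (hjv1 : jv ≤ 1 / 64)
    (hbv : 0 ≤ bv) (hbv1 : bv ≤ 1 / 64) (hBm : 0 ≤ Bm) (hBm1 : Bm ≤ 1 / 64) (he : 0 ≤ e) (he1 : e ≤ 1 / 64) :
    ra * rb * (jv + bv + Bm ^ 2 + e) + x * y * (ju + bv + Bm ^ 2 + e)
        + (ra * y + x * rb) * (bv + (ju + Bm) * (jv + Bm) + e) + (Bm + Bt) * e ≤
      ra * rb * jv + ra * rb * bv + ra * rb * (Bm ^ 2 + e) + x * y + ra * (y * bv) + ra * (ju + Bm) * y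
        + rb * (x * bv) + rb * (ju + Bm) * x + ((ra + rb) * 2 + Bm + Bt) * e := by
  have hB2 : Bm ^ 2 ≤ 1 / 64 := by nlinarith
  have h1 : x * y * (ju + bv + Bm ^ 2 + e) ≤ x * y * 1 :=
    mul_le_mul_of_nonneg_left (by linarith) (mul_nonneg hx hy)
  have h2 : ra * (ju + Bm) * y * (jv + Bm) ≤ ra * (ju + Bm) * y * 1 :=
    mul_le_mul_of_nonneg_left (by linarith) (by positivity)
  have h3 : rb * (ju + Bm) * x * (jv + Bm) ≤ rb * (ju + Bm) * x * 1 :=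
    mul_le_mul_of_nonneg_left (by linarith) (by positivity)
  have h4 : ra * e * y ≤ ra * e * 2 := mul_le_mul_of_nonneg_left hy2 (by positivity)
  have h5 : rb * e * x ≤ rb * e * 2 := mul_le_mul_of_nonneg_left hx2 (by positivity)
  linarith

theorem S6Facts.s6en_j_nonneg (F : π.S6Facts Cm L σ h C0 N) (x : Stub n d) : 0 ≤ π.jmaj Cm L h x :=
  (π.s43v_maj_nonneg Cm F.hCm F.hd L h F.hh.le (.stub x) x x x.1 x.1).2.2.2.2.1

theorem S6Facts.s6en_b_nonneg (F : π.S6Facts Cm L σ h C0 N) (x y : Stub n d) : 0 ≤ π.bmaj Cm L h x y :=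
  (π.s43v_maj_nonneg Cm F.hCm F.hd L h F.hh.le (.stub x) x y x.1 x.1).2.2.2.2.2

theorem S6Facts.s6en_inv_l (F : π.S6Facts Cm L σ h C0 N) : 0 < 1 / (π.l : ℝ) ∧ 1 / (π.l : ℝ) ≤ 1 / 64 := by
  have hl : (64 : ℝ) ≤ (π.l : ℝ) := by exact_mod_cast F.hl
  exact ⟨by positivity, one_div_le_one_div_of_le (by norm_num) hl⟩

theorem S6Facts.s6en_card_mul (F : π.S6Facts Cm L σ h C0 N) (hS : π.S6Set Cm L h N om u I) :
    (I.card : ℝ) * (1 / (π.l : ℝ)) ≤ 1 := by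
  have hl : (64 : ℝ) ≤ (π.l : ℝ) := by exact_mod_cast F.hl
  rw [mul_one_div, div_le_one (by linarith)]
  exact hS.s6en_card

/-- the remainder part of the mean -/
theorem S6Facts.s6en_R (F : π.S6Facts Cm L σ h C0 N) (hS : π.S6Set Cm L h N om u I) {a b : Label n d}
    (ha : π.Alive a) (hb : π.Alive b) :
    ∑ v ∈ I, π.s6Rt Cm L σ h N u v a b ≤
      π.rmaj Cm L σ h a u * π.rmaj Cm L σ h b u * (2 * N.Qa + (π.l : ℝ) * N.Bm ^ 2 + 1) + C0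
        + (π.rmaj Cm L σ h a u + π.rmaj Cm L σ h b u)
          * (C0 + (π.jmaj Cm L h u + N.Bm) * (C0 * Real.sqrt π.l) + 2) + (N.Bm + N.Bt) := by
  set ra := π.rmaj Cm L σ h a u with hra
  set rb := π.rmaj Cm L σ h b u with hrb
  set ju := π.jmaj Cm L h u with hju
  set e := 1 / (π.l : ℝ) with he
  have ra0 : 0 ≤ ra := F.s6en_r_nonneg ha hS.hu
  have rb0 : 0 ≤ rb := F.s6en_r_nonneg hb hS.hu
  have ju0 : 0 ≤ ju := F.s6en_j_nonneg u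
  have hBm := F.Bm_nonneg
  have hBt := F.hBt
  obtain ⟨e0, e1⟩ := F.s6en_inv_l
  have hp : ∀ v ∈ I, π.s6Rt Cm L σ h N u v a b ≤
      ra * rb * π.jmaj Cm L h v + ra * rb * π.bmaj Cm L h u v + ra * rb * (N.Bm ^ 2 + e)
        + π.rmaj Cm L σ h a v * π.rmaj Cm L σ h b v + ra * (π.rmaj Cm L σ h b v * π.bmaj Cm L h u v)
        + ra * (ju + N.Bm) * π.rmaj Cm L σ h b v + rb * (π.rmaj Cm L σ h a v * π.bmaj Cm L h u v)
        + rb * (ju + N.Bm) * π.rmaj Cm L σ h a v + ((ra + rb) * 2 + N.Bm + N.Bt) * e := by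
    intro v hv
    obtain ⟨⟨-, ju1⟩, ⟨jv0, jv1⟩, ⟨b0, b1⟩⟩ := F.s6s_maj (hS.adm v hv)
    have hv' := hS.s6en_unres hv
    rw [s6en_Rt_eq, div_eq_mul_one_div (N.Bm + N.Bt)]
    exact s6en_R_scalar ra rb _ _ ju _ _ N.Bm N.Bt e ra0 rb0 (F.s6en_r_nonneg ha hv') (F.supR a v ha hv')
      (F.s6en_r_nonneg hb hv') (F.supR b v hb hv') ju0 ju1 jv0 jv1 b0 b1 hBm F.hBm e0.le e1
  refine le_trans (Finset.sum_le_sum hp) ?_
  simp only [Finset.sum_add_distrib, ← Finset.mul_sum, Finset.sum_const, nsmul_eq_mul]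
  have hsub := hS.s6en_sub
  have s1 : ∑ v ∈ I, π.jmaj Cm L h v ≤ N.Qa :=
    le_trans (Finset.sum_le_sum_of_subset_of_nonneg hsub fun v _ _ => F.s6en_j_nonneg v) F.sumJ1
  have s2 : ∑ v ∈ I, π.bmaj Cm L h u v ≤ N.Qa :=
    le_trans (Finset.sum_le_sum_of_subset_of_nonneg hsub fun v _ _ => F.s6en_b_nonneg u v) (F.rowB1 u hS.hu)
  have hB2 : ∑ v ∈ I, π.bmaj Cm L h u v ^ 2 ≤ C0 :=
    le_trans (Finset.sum_le_sum_of_subset_of_nonneg hsub fun v _ _ => sq_nonneg _) (F.rowB2 u hS.hu)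
  have s3 : ∑ v ∈ I, π.rmaj Cm L σ h a v * π.rmaj Cm L σ h b v ≤ C0 := by
    have := s6en_sum_mul_le I _ _ C0 C0 (F.s6en_row ha hsub) (F.s6en_row hb hsub)
    linarith [Finset.sum_le_sum fun v (_ : v ∈ I) => le_abs_self (π.rmaj Cm L σ h a v * π.rmaj Cm L σ h b v)]
  have s4 : ∀ c : Label n d, π.Alive c → ∑ v ∈ I, π.rmaj Cm L σ h c v * π.bmaj Cm L h u v ≤ C0 := by
    intro c hc
    have := s6en_sum_mul_le I _ _ C0 C0 (F.s6en_row hc hsub) hB2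
    linarith [Finset.sum_le_sum fun v (_ : v ∈ I) => le_abs_self (π.rmaj Cm L σ h c v * π.bmaj Cm L h u v)]
  have s5 : ∀ c : Label n d, π.Alive c → ∑ v ∈ I, π.rmaj Cm L σ h c v ≤ C0 * Real.sqrt π.l :=
    fun c hc => F.s6en_sum_r hc hsub π.l (Finset.card_le_card hsub)
  have hc1 := hS.s6en_card
  have hc2 := F.s6en_card_mul hS
  have hrr : 0 ≤ ra * rb := mul_nonneg ra0 rb0
  have t1 := mul_le_mul_of_nonneg_left s1 hrr
  have t2 := mul_le_mul_of_nonneg_left s2 hrr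
  have t3 : (I.card : ℝ) * (ra * rb * (N.Bm ^ 2 + e)) ≤ ra * rb * ((π.l : ℝ) * N.Bm ^ 2 + 1) := by
    have h1 : (I.card : ℝ) * N.Bm ^ 2 ≤ (π.l : ℝ) * N.Bm ^ 2 := mul_le_mul_of_nonneg_right hc1 (sq_nonneg _)
    have := mul_le_mul_of_nonneg_left (add_le_add h1 hc2) hrr
    linarith
  have t4 := mul_le_mul_of_nonneg_left (s4 b hb) ra0
  have t5 := mul_le_mul_of_nonneg_left (s4 a ha) rb0
  have t6 := mul_le_mul_of_nonneg_left (s5 b hb) (mul_nonneg ra0 (add_nonneg ju0 hBm))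
  have t7 := mul_le_mul_of_nonneg_left (s5 a ha) (mul_nonneg rb0 (add_nonneg ju0 hBm))
  have t8 : (I.card : ℝ) * (((ra + rb) * 2 + N.Bm + N.Bt) * e) ≤ (ra + rb) * 2 + N.Bm + N.Bt := by
    have := mul_le_mul_of_nonneg_left hc2 (by positivity : 0 ≤ (ra + rb) * 2 + N.Bm + N.Bt)
    linarith
  linarith

end Ctx

/-- final arithmetic of the mean bound -/
theorem s6en_mean_scalar (C0 Cd s p oB sO jL lB Y0 Qa Bm Bt : ℝ) (hC0 : 1 ≤ C0) (hCd : 0 ≤ Cd) (hs : 0 ≤ s)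
    (hp : 0 ≤ p) (hoB : 0 ≤ oB) (hsO : 0 ≤ sO) (hjL : 0 ≤ jL) (hlB : 0 ≤ lB) (hY0 : 0 ≤ Y0) (hQa : 1 ≤ Qa)
    (hBm1 : Bm ≤ 1) (hBt : 0 ≤ Bt) :
    s * (oB + C0 * sO) + (p * (Y0 + oB) + C0 * Bm + s * C0) + s * (C0 * sO)
      + Cd * (p * (2 * Qa + lB + 1) + C0 + s * (C0 + C0 * jL + 2) + (Bm + Bt)) ≤
    (3 * C0 + 1 + Cd * (4 * C0 + 3)) * (s * (oB + sO + 1 + jL) + p * (Y0 + oB + Qa + lB) + 1 + Bt) := by
  have hC : 0 ≤ C0 := le_trans zero_le_one hC0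
  have hCC : 0 ≤ Cd * C0 := mul_nonneg hCd hC
  -- the `s` part
  have a1 : 0 ≤ s * oB := mul_nonneg hs hoB
  have a2 : 0 ≤ s * sO := mul_nonneg hs hsO
  have a3 : 0 ≤ s * jL := mul_nonneg hs hjL
  have S1 : s * (oB + C0 * sO) + s * C0 + s * (C0 * sO) + Cd * (s * (C0 + C0 * jL + 2)) ≤
      (3 * C0 + 1 + Cd * (4 * C0 + 3)) * (s * (oB + sO + 1 + jL)) := by
    have b1 : 0 ≤ (3 * C0 + Cd * (4 * C0 + 3)) * (s * oB) := mul_nonneg (by positivity) a1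
    have b2 : 0 ≤ (C0 + 1 + Cd * (4 * C0 + 3)) * (s * sO) := mul_nonneg (by positivity) a2
    have b3 : 0 ≤ (2 * C0 + 1 + Cd * (3 * C0 + 1)) * s := mul_nonneg (by positivity) hs
    have b4 : 0 ≤ (3 * C0 + 1 + Cd * (3 * C0 + 3)) * (s * jL) := mul_nonneg (by positivity) a3
    linarith
  have S2 : p * (Y0 + oB) + Cd * (p * (2 * Qa + lB + 1)) ≤
      (3 * C0 + 1 + Cd * (4 * C0 + 3)) * (p * (Y0 + oB + Qa + lB)) := by
    have b1 : 0 ≤ (3 * C0 + Cd * (4 * C0 + 3)) * (p * (Y0 + oB)) := mul_nonneg (by positivity) (by positivity)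
    have b2 : 0 ≤ (3 * C0 + 1 + Cd * (4 * C0 + 2)) * (p * lB) := mul_nonneg (by positivity) (by positivity)
    have b3 : 0 ≤ (3 * C0 + 1 + Cd * (4 * C0)) * (p * Qa) := mul_nonneg (by positivity) (by positivity)
    have b4 : 0 ≤ Cd * (p * (Qa - 1)) := mul_nonneg hCd (mul_nonneg hp (by linarith))
    linarith
  have S3 : C0 * Bm + Cd * (C0 + (Bm + Bt)) ≤ (3 * C0 + 1 + Cd * (4 * C0 + 3)) * (1 + Bt) := by
    have b1 : C0 * Bm ≤ C0 * 1 := mul_le_mul_of_nonneg_left hBm1 hC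
    have b2 : Cd * Bm ≤ Cd * 1 := mul_le_mul_of_nonneg_left hBm1 hCd
    have b3 : 0 ≤ (3 * C0 + 1 + Cd * (4 * C0 + 2)) * Bt := mul_nonneg (by positivity) hBt
    linarith
  linarith

/-- signed mean (sum form) -/
theorem s6_ent_mean (C0 : ℝ) : ∃ C : ℝ, 0 < C ∧ ∀ {n d : ℕ} (π : PPair n d) (Cm : ℝ) (L : ℕ) (σ h : ℝ) (N : S6Num)
    (om : ℕ) (u : Stub n d) (I : Finset (Stub n d)) (a b : Label n d),
    π.S6Facts Cm L σ h C0 N → π.S6Set Cm L h N om u I → π.Alive a → π.Alive b →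
    |∑ v ∈ I, π.dEent L σ h u v a b| ≤
      C * s6MeanB N π.l om (π.rmaj Cm L σ h a u) (π.rmaj Cm L σ h b u) (π.jmaj Cm L h u) (π.YE L σ h) := by
  rcases lt_or_ge C0 1 with hC0 | hC0
  · exact ⟨1, one_pos, fun π Cm L σ h N om u I a b F => absurd F.hC0 (not_le.2 hC0)⟩
  obtain ⟨Cd, hCd, hdec⟩ := s6_decomp C0
  refine ⟨3 * C0 + 1 + Cd * (4 * C0 + 3), by positivity, ?_⟩
  intro n d π Cm L σ h N om u I a b F hS ha hb
  have hZ := F.s6en_Z hS ha hb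
  have hT := F.s6en_TZ hS ha hb
  have hSt := F.s6en_S hS ha hb
  have hR := F.s6en_R hS ha hb
  have hρ : |∑ v ∈ I, (π.dEent L σ h u v a b - π.s6Zt L σ h u v a b - π.s6St L σ h u v a b
      + π.TZ L σ h u v a b)| ≤ Cd * ∑ v ∈ I, π.s6Rt Cm L σ h N u v a b := by
    rw [Finset.mul_sum]
    exact le_trans (Finset.abs_sum_le_sum_abs _ _) (Finset.sum_le_sum fun v hv =>
      hdec π Cm L σ h N u v a b F (hS.adm v hv) ha hb)
  have e : ∑ v ∈ I, π.dEent L σ h u v a b = ∑ v ∈ I, π.s6Zt L σ h u v a b + ∑ v ∈ I, π.s6St L σ h u v a b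
      - ∑ v ∈ I, π.TZ L σ h u v a b + ∑ v ∈ I, (π.dEent L σ h u v a b - π.s6Zt L σ h u v a b
        - π.s6St L σ h u v a b + π.TZ L σ h u v a b) := by
    simp only [Finset.sum_add_distrib, Finset.sum_sub_distrib]
    ring
  rw [e]
  refine le_trans (abs_add_le _ _) ?_
  refine le_trans (add_le_add (abs_sub _ _) le_rfl) ?_
  refine le_trans (add_le_add (add_le_add (abs_add_le _ _) le_rfl) le_rfl) ?_
  have ra0 := F.s6en_r_nonneg ha hS.hu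
  have rb0 := F.s6en_r_nonneg hb hS.hu
  have key := s6en_mean_scalar C0 Cd (π.rmaj Cm L σ h a u + π.rmaj Cm L σ h b u)
    (π.rmaj Cm L σ h a u * π.rmaj Cm L σ h b u) ((om : ℝ) * N.Bm) (Real.sqrt om)
    ((π.jmaj Cm L h u + N.Bm) * Real.sqrt π.l) ((π.l : ℝ) * N.Bm ^ 2) |π.YE L σ h| N.Qa N.Bm N.Bt hC0 hCd.le
    (add_nonneg ra0 rb0) (mul_nonneg ra0 rb0) (mul_nonneg (Nat.cast_nonneg _) F.Bm_nonneg) (Real.sqrt_nonneg _)
    (mul_nonneg (add_nonneg (F.s6en_j_nonneg u) F.Bm_nonneg) (Real.sqrt_nonneg _))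
    (mul_nonneg (Nat.cast_nonneg _) (sq_nonneg _)) (abs_nonneg _) F.hQa (by linarith [F.hBm]) F.hBt
  have hR' := mul_le_mul_of_nonneg_left hR hCd.le
  unfold s6MeanB
  refine le_trans ?_ key
  have e2 : (π.jmaj Cm L h u + N.Bm) * (C0 * Real.sqrt π.l) = C0 * ((π.jmaj Cm L h u + N.Bm) * Real.sqrt π.l) := by
    ring
  rw [e2] at hR'
  linarith
/-- pointwise bound of the zero-intermediate terms -/
theorem s6en_Zpt_scalar (t pau eau pbu ebu pav eav pbv ebv ra rb x y : ℝ) (ht : |t| ≤ 1)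
    (hra : |pau| + |eau| ≤ ra) (hrb : |pbu| + |ebu| ≤ rb) (hx : |pav| + |eav| ≤ x) (hy : |pbv| + |ebv| ≤ y) :
    |t * ((pau * ebv + eau * pbv + eau * ebv) + (pav * ebu + eav * pbu + eav * ebu))| ≤ ra * y + x * rb := by
  have a1 := abs_nonneg pau
  have a2 := abs_nonneg eau
  have a3 := abs_nonneg pbu
  have a4 := abs_nonneg ebu
  have a5 := abs_nonneg pav
  have a6 := abs_nonneg eav
  have a7 := abs_nonneg pbv
  have a8 := abs_nonneg ebv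
  have s1 : |(pau * ebv + eau * pbv + eau * ebv) + (pav * ebu + eav * pbu + eav * ebu)| ≤
      |pau| * |ebv| + |eau| * |pbv| + |eau| * |ebv| + (|pav| * |ebu| + |eav| * |pbu| + |eav| * |ebu|) := by
    simp only [← abs_mul]
    refine le_trans (abs_add_le _ _) (add_le_add ?_ ?_)
    · exact le_trans (abs_add_le _ _) (add_le_add (abs_add_le _ _) le_rfl)
    · exact le_trans (abs_add_le _ _) (add_le_add (abs_add_le _ _) le_rfl)
  have s2 : (|pau| + |eau|) * (|pbv| + |ebv|) ≤ ra * y :=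
    mul_le_mul hra hy (by positivity) (le_trans (by positivity) hra)
  have s3 : (|pav| + |eav|) * (|pbu| + |ebu|) ≤ x * rb :=
    mul_le_mul hx hrb (by positivity) (le_trans (by positivity) hx)
  have s4 := mul_nonneg a1 a7
  have s5 := mul_nonneg a5 a3
  rw [abs_mul]
  have s6 := mul_le_mul_of_nonneg_right ht
    (abs_nonneg ((pau * ebv + eau * pbv + eau * ebv) + (pav * ebu + eav * pbu + eav * ebu)))
  nlinarith

/-- pointwise bound of the single endpoint-`E` term -/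
theorem s6en_Spt_scalar (h wau wbu wav wbv evv euu euv ra rb x y Bm : ℝ) (hh0 : 0 ≤ h) (hh1 : h ≤ 1)
    (hra : |wau| ≤ ra) (hrb : |wbu| ≤ rb) (hx : |wav| ≤ x) (hy : |wbv| ≤ y) (huu : |euu| ≤ Bm)
    (huv : |euv| ≤ Bm) :
    |h ^ 2 * (wau * wbu * evv + wav * wbv * euu + (wau * wbv + wav * wbu) * euv)| ≤
      ra * rb * |evv| + x * y * Bm + (ra * y + x * rb) * Bm := by
  have ra0 : 0 ≤ ra := (abs_nonneg _).trans hra
  have rb0 : 0 ≤ rb := (abs_nonneg _).trans hrb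
  have x0 : 0 ≤ x := (abs_nonneg _).trans hx
  have y0 : 0 ≤ y := (abs_nonneg _).trans hy
  have t1 : |wau * wbu * evv| ≤ ra * rb * |evv| := by
    rw [abs_mul, abs_mul]
    exact mul_le_mul_of_nonneg_right (mul_le_mul hra hrb (abs_nonneg _) ra0) (abs_nonneg _)
  have t2 : |wav * wbv * euu| ≤ x * y * Bm := by
    rw [abs_mul, abs_mul]
    exact mul_le_mul (mul_le_mul hx hy (abs_nonneg _) x0) huu (abs_nonneg _) (mul_nonneg x0 y0)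
  have t3 : |(wau * wbv + wav * wbu) * euv| ≤ (ra * y + x * rb) * Bm := by
    rw [abs_mul]
    refine mul_le_mul (le_trans (abs_add_le _ _) (add_le_add ?_ ?_)) huv (abs_nonneg _) (by positivity)
    · rw [abs_mul]; exact mul_le_mul hra hy (abs_nonneg _) ra0
    · rw [abs_mul]; exact mul_le_mul hx hrb (abs_nonneg _) x0
  have hh2 : h ^ 2 ≤ 1 := pow_le_one₀ hh0 hh1
  rw [abs_mul, abs_of_nonneg (sq_nonneg h)]
  have s1 : |wau * wbu * evv + wav * wbv * euu + (wau * wbv + wav * wbu) * euv| ≤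
      |wau * wbu * evv| + |wav * wbv * euu| + |(wau * wbv + wav * wbu) * euv| :=
    le_trans (abs_add_le _ _) (add_le_add (abs_add_le _ _) le_rfl)
  have s2 := mul_le_mul_of_nonneg_right hh2
    (abs_nonneg (wau * wbu * evv + wav * wbv * euu + (wau * wbv + wav * wbu) * euv))
  linarith

/-- pointwise bound of a full increment -/
theorem s6en_point_scalar (Cd dE Z S TZ ra rb x y ed ju jv bv Bm Bt e : ℝ) (hCd : 0 ≤ Cd)
    (hdec : |dE - Z - S + TZ| ≤ Cd * (ra * rb * (jv + bv + Bm ^ 2 + e) + x * y * (ju + bv + Bm ^ 2 + e)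
      + (ra * y + x * rb) * (bv + (ju + Bm) * (jv + Bm) + e) + (Bm + Bt) * e))
    (hZ : |Z| ≤ ra * y + x * rb) (hTZ : |TZ| ≤ ra * y + x * rb)
    (hS : |S| ≤ ra * rb * ed + x * y * Bm + (ra * y + x * rb) * Bm)
    (hra : 0 ≤ ra) (hrb : 0 ≤ rb) (hx : 0 ≤ x) (hy : 0 ≤ y) (hy2 : y ≤ 2) (hed : 0 ≤ ed)
    (hju : 0 ≤ ju) (hju1 : ju ≤ 1 / 64) (hjv : 0 ≤ jv) (hjv1 : jv ≤ 1 / 64)
    (hbv : 0 ≤ bv) (hbv1 : bv ≤ 1 / 64) (hBm : 0 ≤ Bm) (hBm1 : Bm ≤ 1 / 64) (hBt : 0 ≤ Bt) (he : 0 ≤ e)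
    (he1 : e ≤ 1 / 64) :
    |dE| ≤ (3 + 2 * Cd) * ((ra * y + x * rb) + ra * rb * (ed + jv + bv + (Bm ^ 2 + e)) + x * (Bm + ju + e)
      + (x * y * bv + (Bm + Bt) * e)) := by
  have hG : 0 ≤ ra * y + x * rb := by positivity
  have hrr : 0 ≤ ra * rb := mul_nonneg hra hrb
  have hB2 : Bm ^ 2 ≤ Bm := by nlinarith
  have hB20 : 0 ≤ Bm ^ 2 := sq_nonneg _
  have e0 : dE = (dE - Z - S + TZ) + Z + S - TZ := by ring
  have t0 : |dE| ≤ |dE - Z - S + TZ| + |Z| + |S| + |TZ| := by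
    conv_lhs => rw [e0]
    refine le_trans (abs_sub _ _) (add_le_add ?_ le_rfl)
    exact le_trans (abs_add_le _ _) (add_le_add (abs_add_le _ _) le_rfl)
  have t1 : x * y * Bm ≤ x * 2 * Bm :=
    mul_le_mul_of_nonneg_right (mul_le_mul_of_nonneg_left hy2 hx) hBm
  have t2 : (ra * y + x * rb) * Bm ≤ (ra * y + x * rb) * 1 := mul_le_mul_of_nonneg_left (by linarith) hG
  have t3 : x * y * (ju + Bm ^ 2 + e) ≤ x * 2 * (ju + Bm + e) :=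
    mul_le_mul (mul_le_mul_of_nonneg_left hy2 hx) (by linarith) (by positivity) (by positivity)
  have t4 : (ra * y + x * rb) * (bv + (ju + Bm) * (jv + Bm) + e) ≤ (ra * y + x * rb) * 1 := by
    refine mul_le_mul_of_nonneg_left ?_ hG
    have : (ju + Bm) * (jv + Bm) ≤ (1 / 32) * (1 / 32) :=
      mul_le_mul (by linarith) (by linarith) (by positivity) (by norm_num)
    linarith
  have t5 : ra * rb * (jv + bv + Bm ^ 2 + e) + x * y * (ju + bv + Bm ^ 2 + e)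
      + (ra * y + x * rb) * (bv + (ju + Bm) * (jv + Bm) + e) + (Bm + Bt) * e ≤
      ra * rb * (jv + bv + Bm ^ 2 + e) + x * y * bv + x * 2 * (ju + Bm + e) + (ra * y + x * rb)
        + (Bm + Bt) * e := by linarith
  have t6 := mul_le_mul_of_nonneg_left t5 hCd
  have p1 : 0 ≤ Cd * (ra * y + x * rb) := mul_nonneg hCd hG
  have p2 : 0 ≤ (2 + 2 * Cd) * (ra * rb * ed) := by positivity
  have p3 : 0 ≤ (3 + Cd) * (ra * rb * (jv + bv + Bm ^ 2 + e)) := by positivity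
  have p4 : 0 ≤ x * Bm + 3 * (x * (ju + e)) := by positivity
  have p5 : 0 ≤ (3 + Cd) * (x * y * bv + (Bm + Bt) * e) := by positivity
  linarith

theorem s6en_sq4 (a b c d : ℝ) : (a + b + c + d) ^ 2 ≤ 4 * (a ^ 2 + b ^ 2 + c ^ 2 + d ^ 2) := by
  nlinarith [sq_nonneg (a - b), sq_nonneg (a - c), sq_nonneg (a - d), sq_nonneg (b - c), sq_nonneg (b - d),
    sq_nonneg (c - d)]

theorem s6en_sq3 (a b c : ℝ) : (a + b + c) ^ 2 ≤ 3 * (a ^ 2 + b ^ 2 + c ^ 2) := by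
  nlinarith [sq_nonneg (a - b), sq_nonneg (a - c), sq_nonneg (b - c)]

theorem s6en_sq2 (a b : ℝ) : (a + b) ^ 2 ≤ 2 * (a ^ 2 + b ^ 2) := by
  nlinarith [sq_nonneg (a - b)]

/-- square of the pointwise bound -/
theorem s6en_point_sq (K dE ra rb x y ed jv bv c g X t : ℝ)
    (hd : |dE| ≤ K * ((ra * y + x * rb) + ra * rb * (ed + jv + bv + c) + x * g + (X + t))) :
    dE ^ 2 ≤ 4 * K ^ 2 * (2 * ra ^ 2 * y ^ 2 + 2 * rb ^ 2 * x ^ 2
      + 4 * (ra * rb) ^ 2 * (ed ^ 2 + jv ^ 2 + bv ^ 2 + c ^ 2) + g ^ 2 * x ^ 2 + 2 * X ^ 2 + 2 * t ^ 2) := by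
  have h1 : dE ^ 2 ≤ (K * ((ra * y + x * rb) + ra * rb * (ed + jv + bv + c) + x * g + (X + t))) ^ 2 := by
    rw [← sq_abs dE]
    exact pow_le_pow_left₀ (abs_nonneg _) hd 2
  have h2 := s6en_sq4 (ra * y + x * rb) (ra * rb * (ed + jv + bv + c)) (x * g) (X + t)
  have h3 := s6en_sq2 (ra * y) (x * rb)
  have h4 := mul_le_mul_of_nonneg_left (s6en_sq4 ed jv bv c) (sq_nonneg (ra * rb))
  have h5 := s6en_sq2 X t
  have h6 : (ra * y + x * rb) ^ 2 + (ra * rb * (ed + jv + bv + c)) ^ 2 + (x * g) ^ 2 + (X + t) ^ 2 ≤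
      2 * ra ^ 2 * y ^ 2 + 2 * rb ^ 2 * x ^ 2
      + 4 * (ra * rb) ^ 2 * (ed ^ 2 + jv ^ 2 + bv ^ 2 + c ^ 2) + g ^ 2 * x ^ 2 + 2 * X ^ 2 + 2 * t ^ 2 := by
    have e1 : (ra * rb * (ed + jv + bv + c)) ^ 2 = (ra * rb) ^ 2 * (ed + jv + bv + c) ^ 2 := by ring
    have e2 : (x * g) ^ 2 = g ^ 2 * x ^ 2 := by ring
    have e3 : (ra * y) ^ 2 + (x * rb) ^ 2 = ra ^ 2 * y ^ 2 + rb ^ 2 * x ^ 2 := by ring
    rw [e1, e2]
    linarith
  have h7 := mul_le_mul_of_nonneg_left (h2.trans (mul_le_mul_of_nonneg_left h6 (by norm_num : (0:ℝ) ≤ 4)))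
    (sq_nonneg K)
  rw [mul_pow] at h1
  linarith

/-- final arithmetic of the variance bound -/
theorem s6en_var_scalar (C0 A B P TS Ne lB4 e Bm2 ju2 e2 Bt2e cross S1 S2 S3 S4 S5 cc g2 tc : ℝ)
    (hC0 : 1 ≤ C0) (hA : 0 ≤ A) (hB : 0 ≤ B) (hP : 0 ≤ P) (hTS : 0 ≤ TS) (hNe : 1 ≤ Ne) (hlB4 : 0 ≤ lB4)
    (he1 : e ≤ 1) (hBm2 : 0 ≤ Bm2) (hju2 : 0 ≤ ju2) (he2 : 0 ≤ e2) (hBt : 0 ≤ Bt2e) (hcr : 0 ≤ cross)
    (hS1 : S1 ≤ C0) (hS2 : S2 ≤ C0) (hS20 : 0 ≤ S2) (hS3 : S3 ≤ TS) (hS4 : S4 ≤ Ne) (hS5 : S5 ≤ C0)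
    (hcc : cc ≤ 2 * lB4 + 2 * e) (hg2 : g2 ≤ 3 * (Bm2 + ju2 + e2)) (htc : tc ≤ 2 * Bm2 + 2 * Bt2e) :
    2 * A * S1 + 2 * B * S2 + 4 * P * (S3 + S4 + S5 + cc) + g2 * S2 + 2 * cross + 2 * tc ≤
      (4 * C0 + 12) * (A + B + P * (TS + Ne + lB4) + Bm2 + ju2 + e2 + Bt2e + cross) := by
  have hC : 0 ≤ C0 := le_trans zero_le_one hC0
  have t1 : A * S1 ≤ A * C0 := mul_le_mul_of_nonneg_left hS1 hA
  have t2 : B * S2 ≤ B * C0 := mul_le_mul_of_nonneg_left hS2 hB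
  have t3 : P * (S3 + S4 + S5 + cc) ≤ P * (TS + Ne + C0 + (2 * lB4 + 2 * e)) :=
    mul_le_mul_of_nonneg_left (by linarith) hP
  have t4 : g2 * S2 ≤ 3 * (Bm2 + ju2 + e2) * C0 := mul_le_mul hg2 hS2 hS20 (by positivity)
  have t5 : 4 * (TS + Ne + C0 + (2 * lB4 + 2 * e)) ≤ (4 * C0 + 12) * (TS + Ne + lB4) := by
    have q1 : 0 ≤ (4 * C0 + 8) * TS := by positivity
    have q2 : 0 ≤ (4 * C0 + 4) * lB4 := by positivity
    have q3 : 0 ≤ (4 * C0 + 8) * (Ne - 1) := mul_nonneg (by positivity) (by linarith)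
    linarith
  have t6 := mul_le_mul_of_nonneg_left t5 hP
  have q4 : 0 ≤ (2 * C0 + 12) * (A + B) := by positivity
  have q5 : 0 ≤ (C0 + 8) * (Bm2 + ju2 + e2) + 4 * (ju2 + e2) := by positivity
  have q6 : 0 ≤ (4 * C0 + 8) * Bt2e := by positivity
  have q7 : 0 ≤ (4 * C0 + 10) * cross := by positivity
  linarith

/-- pointwise bound of an increment at an admissible partner -/
theorem s6en_point {π : PPair n d} {Cm : ℝ} {L : ℕ} {σ h C0 : ℝ} {N : S6Num} {om : ℕ} {u : Stub n d}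
    {I : Finset (Stub n d)} (F : π.S6Facts Cm L σ h C0 N) (hS : π.S6Set Cm L h N om u I) {a b : Label n d}
    (ha : π.Alive a) (hb : π.Alive b) (Cd : ℝ) (hCd : 0 ≤ Cd) {v : Stub n d} (hv : v ∈ I)
    (hdec : |π.dEent L σ h u v a b - π.s6Zt L σ h u v a b - π.s6St L σ h u v a b + π.TZ L σ h u v a b|
      ≤ Cd * π.s6Rt Cm L σ h N u v a b) :
    |π.dEent L σ h u v a b| ≤ (3 + 2 * Cd) *
      ((π.rmaj Cm L σ h a u * π.rmaj Cm L σ h b v + π.rmaj Cm L σ h a v * π.rmaj Cm L σ h b u)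
        + π.rmaj Cm L σ h a u * π.rmaj Cm L σ h b u
          * (|π.eEnt L σ h (.stub v) v| + π.jmaj Cm L h v + π.bmaj Cm L h u v + (N.Bm ^ 2 + 1 / (π.l : ℝ)))
        + π.rmaj Cm L σ h a v * (N.Bm + π.jmaj Cm L h u + 1 / (π.l : ℝ))
        + (π.rmaj Cm L σ h a v * π.rmaj Cm L σ h b v * π.bmaj Cm L h u v
          + (N.Bm + N.Bt) * (1 / (π.l : ℝ)))) := by
  obtain ⟨⟨ju0, ju1⟩, ⟨jv0, jv1⟩, ⟨b0, b1⟩⟩ := F.s6s_maj (hS.adm v hv)
  obtain ⟨e0, e1⟩ := F.s6en_inv_l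
  have hv' := hS.s6en_unres hv
  have hu' : π.Alive (.stub u) := hS.hu
  rw [s6en_Rt_eq, div_eq_mul_one_div (N.Bm + N.Bt)] at hdec
  refine s6en_point_scalar Cd _ _ _ _ _ _ _ _ _ _ _ _ _ _ _ hCd hdec ?_ (F.s6en_abs_TZ ha hb hS.hu hv') ?_
    (F.s6en_r_nonneg ha hS.hu) (F.s6en_r_nonneg hb hS.hu) (F.s6en_r_nonneg ha hv') (F.s6en_r_nonneg hb hv')
    (F.supR b v hb hv') (abs_nonneg _) ju0 ju1 jv0 jv1 b0 b1 F.Bm_nonneg F.hBm F.hBt e0.le e1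
  · rw [s6en_Zt_eq]
    exact s6en_Zpt_scalar _ _ _ _ _ _ _ _ _ _ _ _ _ F.s6en_abs_x (F.abs_add_le ha hS.hu) (F.abs_add_le hb hS.hu)
      (F.abs_add_le ha hv') (F.abs_add_le hb hv')
  · rw [s6en_St_eq]
    exact s6en_Spt_scalar _ _ _ _ _ _ _ _ _ _ _ _ _ F.hh.le F.hh1.le (F.abs_wEnt_le ha hS.hu)
      (F.abs_wEnt_le hb hS.hu) (F.abs_wEnt_le ha hv') (F.abs_wEnt_le hb hv') (F.s6en_abs_e_Bm hu' hS.hu)
      (F.s6en_abs_e_Bm hu' hv')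

/-- second moment (sum form); the cross term with two random outers is kept: it needs a joint sum over steps and partners -/
theorem s6_ent_var (C0 : ℝ) : ∃ C : ℝ, 0 < C ∧ ∀ {n d : ℕ} (π : PPair n d) (Cm : ℝ) (L : ℕ) (σ h : ℝ) (N : S6Num)
    (om : ℕ) (u : Stub n d) (I : Finset (Stub n d)) (a b : Label n d),
    π.S6Facts Cm L σ h C0 N → π.S6Set Cm L h N om u I → π.Alive a → π.Alive b →
    ∑ v ∈ I, π.dEent L σ h u v a b ^ 2 ≤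
      C * (s6VarB N π.l (π.rmaj Cm L σ h a u) (π.rmaj Cm L σ h b u) (π.jmaj Cm L h u) (π.TS L σ h)
        + ∑ v ∈ I, (π.rmaj Cm L σ h a v * π.rmaj Cm L σ h b v * π.bmaj Cm L h u v) ^ 2) := by
  rcases lt_or_ge C0 1 with hC0 | hC0
  · exact ⟨1, one_pos, fun π Cm L σ h N om u I a b F => absurd F.hC0 (not_le.2 hC0)⟩
  obtain ⟨Cd, hCd, hdec⟩ := s6_decomp C0
  refine ⟨4 * (3 + 2 * Cd) ^ 2 * (4 * C0 + 12), by positivity, ?_⟩
  intro n d π Cm L σ h N om u I a b F hS ha hb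
  have hsub := hS.s6en_sub
  obtain ⟨e0, e1⟩ := F.s6en_inv_l
  have hl : (64 : ℝ) ≤ (π.l : ℝ) := by exact_mod_cast F.hl
  have hp : ∀ v ∈ I, π.dEent L σ h u v a b ^ 2 ≤ 4 * (3 + 2 * Cd) ^ 2 *
      (2 * π.rmaj Cm L σ h a u ^ 2 * π.rmaj Cm L σ h b v ^ 2
        + 2 * π.rmaj Cm L σ h b u ^ 2 * π.rmaj Cm L σ h a v ^ 2
        + 4 * (π.rmaj Cm L σ h a u * π.rmaj Cm L σ h b u) ^ 2
          * (|π.eEnt L σ h (.stub v) v| ^ 2 + π.jmaj Cm L h v ^ 2 + π.bmaj Cm L h u v ^ 2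
            + (N.Bm ^ 2 + 1 / (π.l : ℝ)) ^ 2)
        + (N.Bm + π.jmaj Cm L h u + 1 / (π.l : ℝ)) ^ 2 * π.rmaj Cm L σ h a v ^ 2
        + 2 * (π.rmaj Cm L σ h a v * π.rmaj Cm L σ h b v * π.bmaj Cm L h u v) ^ 2
        + 2 * ((N.Bm + N.Bt) * (1 / (π.l : ℝ))) ^ 2) := fun v hv =>
    s6en_point_sq _ _ _ _ _ _ _ _ _ _ _ _ _
      (s6en_point F hS ha hb Cd hCd.le hv (hdec π Cm L σ h N u v a b F (hS.adm v hv) ha hb))
  refine le_trans (Finset.sum_le_sum hp) ?_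
  rw [← Finset.mul_sum, mul_assoc (4 * (3 + 2 * Cd) ^ 2)]
  refine mul_le_mul_of_nonneg_left ?_ (by positivity)
  simp only [Finset.sum_add_distrib, ← Finset.mul_sum, Finset.sum_const, nsmul_eq_mul, sq_abs]
  have hc1 := hS.s6en_card
  have hc0 : (0 : ℝ) ≤ (I.card : ℝ) := Nat.cast_nonneg _
  have hle : (π.l : ℝ) * (1 / (π.l : ℝ)) = 1 := by
    rw [mul_one_div, div_self (by linarith)]
  have s3 : ∑ v ∈ I, π.eEnt L σ h (.stub v) v ^ 2 ≤ π.TS L σ h :=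
    Finset.sum_le_sum_of_subset_of_nonneg hsub fun v _ _ => sq_nonneg _
  have s4 : ∑ v ∈ I, π.jmaj Cm L h v ^ 2 ≤ N.Ne :=
    le_trans (Finset.sum_le_sum_of_subset_of_nonneg hsub fun v _ _ => sq_nonneg _) F.sumJ2
  have s5 : ∑ v ∈ I, π.bmaj Cm L h u v ^ 2 ≤ C0 :=
    le_trans (Finset.sum_le_sum_of_subset_of_nonneg hsub fun v _ _ => sq_nonneg _) (F.rowB2 u hS.hu)
  have hcc : (I.card : ℝ) * (N.Bm ^ 2 + 1 / (π.l : ℝ)) ^ 2 ≤
      2 * ((π.l : ℝ) * N.Bm ^ 4) + 2 * (1 / (π.l : ℝ)) := by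
    have h1 := s6en_sq2 (N.Bm ^ 2) (1 / (π.l : ℝ))
    have h2 : (I.card : ℝ) * (N.Bm ^ 2 + 1 / (π.l : ℝ)) ^ 2 ≤
        (π.l : ℝ) * (2 * ((N.Bm ^ 2) ^ 2 + (1 / (π.l : ℝ)) ^ 2)) :=
      mul_le_mul hc1 h1 (sq_nonneg _) (by linarith)
    have h3 : (π.l : ℝ) * (2 * ((N.Bm ^ 2) ^ 2 + (1 / (π.l : ℝ)) ^ 2)) =
        2 * ((π.l : ℝ) * N.Bm ^ 4) + 2 * ((π.l : ℝ) * (1 / (π.l : ℝ))) * (1 / (π.l : ℝ)) := by ring
    rw [h3, hle] at h2
    linarith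
  have htc : (I.card : ℝ) * ((N.Bm + N.Bt) * (1 / (π.l : ℝ))) ^ 2 ≤
      2 * N.Bm ^ 2 + 2 * (N.Bt ^ 2 / (π.l : ℝ)) := by
    have h1 := s6en_sq2 N.Bm N.Bt
    have h2 : (I.card : ℝ) * ((N.Bm + N.Bt) * (1 / (π.l : ℝ))) ^ 2 ≤
        (π.l : ℝ) * ((N.Bm + N.Bt) * (1 / (π.l : ℝ))) ^ 2 := mul_le_mul_of_nonneg_right hc1 (sq_nonneg _)
    have h3 : (π.l : ℝ) * ((N.Bm + N.Bt) * (1 / (π.l : ℝ))) ^ 2 =
        ((π.l : ℝ) * (1 / (π.l : ℝ))) * ((N.Bm + N.Bt) ^ 2 * (1 / (π.l : ℝ))) := by ring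
    rw [h3, hle, one_mul] at h2
    have h4 := mul_le_mul_of_nonneg_right h1 e0.le
    have h5 : N.Bm ^ 2 * (1 / (π.l : ℝ)) ≤ N.Bm ^ 2 * 1 :=
      mul_le_mul_of_nonneg_left (by linarith) (sq_nonneg _)
    have h6 : N.Bt ^ 2 / (π.l : ℝ) = N.Bt ^ 2 * (1 / (π.l : ℝ)) := div_eq_mul_one_div _ _
    rw [h6]
    linarith
  have key := s6en_var_scalar C0 (π.rmaj Cm L σ h a u ^ 2) (π.rmaj Cm L σ h b u ^ 2)
    ((π.rmaj Cm L σ h a u * π.rmaj Cm L σ h b u) ^ 2) (π.TS L σ h) N.Ne ((π.l : ℝ) * N.Bm ^ 4) (1 / (π.l : ℝ))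
    (N.Bm ^ 2) (π.jmaj Cm L h u ^ 2) ((1 / (π.l : ℝ)) ^ 2) (N.Bt ^ 2 / (π.l : ℝ))
    (∑ v ∈ I, (π.rmaj Cm L σ h a v * π.rmaj Cm L σ h b v * π.bmaj Cm L h u v) ^ 2)
    (∑ v ∈ I, π.rmaj Cm L σ h b v ^ 2) (∑ v ∈ I, π.rmaj Cm L σ h a v ^ 2)
    (∑ v ∈ I, π.eEnt L σ h (.stub v) v ^ 2) (∑ v ∈ I, π.jmaj Cm L h v ^ 2) (∑ v ∈ I, π.bmaj Cm L h u v ^ 2)
    ((I.card : ℝ) * (N.Bm ^ 2 + 1 / (π.l : ℝ)) ^ 2) ((N.Bm + π.jmaj Cm L h u + 1 / (π.l : ℝ)) ^ 2)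
    ((I.card : ℝ) * ((N.Bm + N.Bt) * (1 / (π.l : ℝ))) ^ 2) hC0 (sq_nonneg _) (sq_nonneg _) (sq_nonneg _)
    (Finset.sum_nonneg fun _ _ => sq_nonneg _) F.hNe (by positivity) (by linarith) (sq_nonneg _) (sq_nonneg _)
    (sq_nonneg _) (by positivity) (Finset.sum_nonneg fun _ _ => sq_nonneg _) (F.s6en_row hb hsub)
    (F.s6en_row ha hsub) (Finset.sum_nonneg fun _ _ => sq_nonneg _) s3 s4 s5 hcc (s6en_sq3 _ _ _) htc
  unfold s6VarB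
  have e3 : (π.rmaj Cm L σ h a u * π.rmaj Cm L σ h b u) ^ 2 =
      π.rmaj Cm L σ h a u ^ 2 * π.rmaj Cm L σ h b u ^ 2 := mul_pow _ _ _
  have e4 : (1 / (π.l : ℝ)) ^ 2 = 1 / (π.l : ℝ) ^ 2 := by rw [div_pow, one_pow]
  rw [e4] at key
  rw [← e3]
  linarith

/-- pointwise part of the cross term -/
theorem s6en_cross_scalar (α β U κ ε Bm y : ℝ) (hα : 0 ≤ α) (hU : 0 ≤ U) (hUκ : U ≤ κ) (hε : 0 ≤ ε)
    (hεB : ε ≤ Bm) (hy : 0 ≤ y) (hy2 : y ≤ 2) :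
    ((α + U + ε) * y * (β + κ)) ^ 2 ≤
      12 * ((α * β) ^ 2 + κ ^ 2 * (α + U + ε) ^ 2 + 2 * (κ ^ 2 + Bm ^ 2) * (β + κ) ^ 2) := by
  have e1 : ((α + U + ε) * y * (β + κ)) ^ 2 = y ^ 2 * (α * β + α * κ + (U + ε) * (β + κ)) ^ 2 := by ring
  have h1 : y ^ 2 ≤ 4 := by nlinarith
  have h2 := s6en_sq3 (α * β) (α * κ) ((U + ε) * (β + κ))
  have h3 : (α * κ) ^ 2 ≤ κ ^ 2 * (α + U + ε) ^ 2 := by
    have : α ^ 2 ≤ (α + U + ε) ^ 2 := pow_le_pow_left₀ hα (by linarith) 2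
    have := mul_le_mul_of_nonneg_left this (sq_nonneg κ)
    calc (α * κ) ^ 2 = κ ^ 2 * α ^ 2 := by ring
      _ ≤ _ := this
  have h4 : ((U + ε) * (β + κ)) ^ 2 ≤ 2 * (κ ^ 2 + Bm ^ 2) * (β + κ) ^ 2 := by
    have q1 : (U + ε) ^ 2 ≤ 2 * (κ ^ 2 + Bm ^ 2) := by
      have := s6en_sq2 U ε
      have : U ^ 2 ≤ κ ^ 2 := pow_le_pow_left₀ hU hUκ 2
      have : ε ^ 2 ≤ Bm ^ 2 := pow_le_pow_left₀ hε hεB 2
      linarith
    rw [mul_pow]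
    exact mul_le_mul_of_nonneg_right q1 (sq_nonneg _)
  rw [e1]
  calc y ^ 2 * (α * β + α * κ + (U + ε) * (β + κ)) ^ 2
      ≤ 4 * (α * β + α * κ + (U + ε) * (β + κ)) ^ 2 := mul_le_mul_of_nonneg_right h1 (sq_nonneg _)
    _ ≤ _ := by linarith

/-- the joint cross term in terms of actual walks: `r_b ≤ 2`, `r_a² ≤ 2 A_a² + 2 Bm²`, `A = Aact + 𝖴`, `b = Aact + 𝖴 + C/l` -/
theorem s6_cross_le (C0 : ℝ) : ∃ C : ℝ, 0 < C ∧ ∀ {n d : ℕ} (π : PPair n d) (Cm : ℝ) (L : ℕ) (σ h : ℝ) (N : S6Num)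
    (om : ℕ) (u : Stub n d) (I : Finset (Stub n d)) (a b : Label n d),
    π.S6Facts Cm L σ h C0 N → π.S6Set Cm L h N om u I → π.Alive a → π.Alive b →
    ∑ v ∈ I, (π.rmaj Cm L σ h a v * π.rmaj Cm L σ h b v * π.bmaj Cm L h u v) ^ 2 ≤
      C * (∑ v ∈ I, (π.Aact L h a.vtx v.1 * π.Aact L h u.1 v.1) ^ 2 + N.Bm ^ 2
        + (Umaj d Cm π.l L h + Cm / (π.l : ℝ)) ^ 2) := by
  rcases lt_or_ge C0 1 with hC0 | hC0
  · exact ⟨1, one_pos, fun π Cm L σ h N om u I a b F => absurd F.hC0 (not_le.2 hC0)⟩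
  refine ⟨36 * C0, by positivity, ?_⟩
  intro n d π Cm L σ h N om u I a b F hS ha hb
  have hsub := hS.s6en_sub
  have hl : (64 : ℝ) ≤ (π.l : ℝ) := by exact_mod_cast F.hl
  have hCl : 0 ≤ Cm / (π.l : ℝ) := div_nonneg F.hCm (by linarith)
  set κ := Umaj d Cm π.l L h + Cm / (π.l : ℝ) with hκ
  have hp : ∀ v ∈ I, (π.rmaj Cm L σ h a v * π.rmaj Cm L σ h b v * π.bmaj Cm L h u v) ^ 2 ≤
      12 * ((π.Aact L h a.vtx v.1 * π.Aact L h u.1 v.1) ^ 2 + κ ^ 2 * π.rmaj Cm L σ h a v ^ 2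
        + 2 * (κ ^ 2 + N.Bm ^ 2) * π.bmaj Cm L h u v ^ 2) := by
    intro v hv
    have hv' := hS.s6en_unres hv
    obtain ⟨hA, -, hU, -, -, -⟩ := π.s43v_maj_nonneg Cm F.hCm F.hd L h F.hh.le a u v a.vtx v.1
    have e1 : π.rmaj Cm L σ h a v = π.Aact L h a.vtx v.1 + Umaj d Cm π.l L h + |π.eEnt L σ h a v| := rfl
    have e2 : π.bmaj Cm L h u v = π.Aact L h u.1 v.1 + κ := by
      rw [hκ, ← add_assoc]; rfl
    rw [e1, e2]
    exact s6en_cross_scalar _ _ _ _ _ N.Bm _ hA hU (by rw [hκ]; linarith) (abs_nonneg _)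
      (F.s6en_abs_e_Bm ha hv') (F.s6en_r_nonneg hb hv') (F.supR b v hb hv')
  refine le_trans (Finset.sum_le_sum hp) ?_
  rw [← Finset.mul_sum]
  simp only [Finset.sum_add_distrib, ← Finset.mul_sum]
  have s1 := F.s6en_row ha hsub
  have s2 : ∑ v ∈ I, π.bmaj Cm L h u v ^ 2 ≤ C0 :=
    le_trans (Finset.sum_le_sum_of_subset_of_nonneg hsub fun v _ _ => sq_nonneg _) (F.rowB2 u hS.hu)
  have t1 := mul_le_mul_of_nonneg_left s1 (sq_nonneg κ)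
  have t2 := mul_le_mul_of_nonneg_left s2 (by positivity : 0 ≤ 2 * (κ ^ 2 + N.Bm ^ 2))
  have hX : 0 ≤ ∑ v ∈ I, (π.Aact L h a.vtx v.1 * π.Aact L h u.1 v.1) ^ 2 :=
    Finset.sum_nonneg fun _ _ => sq_nonneg _
  have t3 : 0 ≤ (C0 - 1) * ∑ v ∈ I, (π.Aact L h a.vtx v.1 * π.Aact L h u.1 v.1) ^ 2 :=
    mul_nonneg (by linarith) hX
  have t4 : 0 ≤ C0 * N.Bm ^ 2 := by positivity
  have t5 : 0 ≤ C0 * ∑ v ∈ I, (π.Aact L h a.vtx v.1 * π.Aact L h u.1 v.1) ^ 2 := by positivity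
  nlinarith

end PPair

end Claimed.Agent.R275
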