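import Claimed.Agent.R275.S6ExtG
import Claimed.Agent.R275.S6BudA

/-!
# Row 275, Sec 6, package S6-EXT-COMB (see the header of `S6ExtG.lean`)
-/

set_option autoImplicit false

namespace Claimed.Agent.R275

open Matrix

variable {n d : ℕ} {ιs : Type} {P : S6Par} {c : S6Cst} {C κ : ℝ} {SA : Phase ℝ (PPair n d) ιs} {π₁ : PPair n d}

/-! ## S6-EXT-COMB -/

/-- unresolved stubs after one exposure -/
theorem s6ec_unres_resolve {π : PPair n d} {u v : Stub n d} (hu : π.Unres u) (hv : π.Unres v) (huv : u ≠ v)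
    (x : Stub n d) : (π.resolve u v).Unres x ↔ π.Unres x ∧ x ≠ u ∧ x ≠ v := by
  have hm : ∀ (ρ : PPair n d) (y : Stub n d), y ∈ ρ.unres ↔ ρ.Unres y := fun ρ y =>
    ⟨fun h => (Finset.mem_filter.1 h).2, fun h => Finset.mem_filter.2 ⟨Finset.mem_univ _, h⟩⟩
  rw [← hm, PPair.resolve_unres hu hv huv, Finset.mem_erase, Finset.mem_erase, hm]
  tauto

theorem s6ec_lamB_pos (Nm : S6NumOK d n P c C) (k : ℕ) : (0 : ℝ) < ((s6lam P n * s6B P n k : ℚ) : ℝ) := by
  have h1 := Nm.lam_pos
  have h2 := Nm.B_pos k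
  unfold s6lamr at h1
  unfold s6Brl at h2
  push_cast
  exact mul_pos h1 h2

theorem s6ec_Zv_pos (Nm : S6NumOK d n P c C) (j : S6Lab n d) (π : PPair n d) :
    s6Zv ℝ d n P π₁ j π = 0 ∨ 1 ≤ s6Zv ℝ d n P π₁ j π := by
  cases j with
  | trL1 h s =>
    right
    simp only [s6Zv]
    have : 0 ≤ π.L1 (sgn s) (h : ℝ) ^ 2 / ((s6S1 d n : ℚ) : ℝ) ^ 2 := by positivity
    linarith
  | trL0 h s =>
    right
    simp only [s6Zv]
    have : 0 ≤ π.L0 (sgn s) (h : ℝ) ^ 2 / ((s6S0 d n : ℚ) : ℝ) ^ 2 := by positivity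
    linarith
  | tS h s =>
    right
    simp only [s6Zv]
    have h1 : 0 ≤ π.TS (Lcut d n) (sgn s) (h : ℝ) := Finset.sum_nonneg fun x _ => sq_nonneg _
    have : 0 ≤ π.TS (Lcut d n) (sgn s) (h : ℝ) / ((s6ST P n : ℚ) : ℝ) := div_nonneg h1 Nm.ST_pos.le
    linarith
  | ent h s ε a b =>
    simp only [s6Zv]
    split_ifs with hal
    · right
      exact excessZ_pos _ _ _ _ (s6ec_lamB_pos Nm _)
    · left; rfl

theorem s6_ok (hSA : S6SA c κ SA π₁) (Nm : S6NumOK d n P c C) : (s6Phase ℝ d n P SA π₁).Ok := by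
  refine ⟨?_, ?_, ?_⟩
  · intro i
    cases i with
    | inl j => exact hSA.wt_nonneg j
    | inr j =>
      show 0 ≤ s6wt ℝ d n P.cp j
      cases j <;> simp only [s6wt] <;> positivity
  · intro i π
    cases i with
    | inl j => exact hSA.Z_nonneg j π
    | inr j =>
      show 0 ≤ s6Zv ℝ d n P π₁ j π
      rcases s6ec_Zv_pos (π₁ := π₁) Nm j π with h | h
      · rw [h]
      · linarith
  · intro i π h0 π' hπ'
    obtain ⟨u, v, hu, hv, rfl⟩ := (PPair.s6_mem_cands π₁ π π').1 hπ'
    cases i with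
    | inl j => exact hSA.dead j π u v h0
    | inr j =>
      change s6Zv ℝ d n P π₁ j π = 0 at h0
      show s6Zv ℝ d n P π₁ j (π.resolve u v) = 0
      have hu' := (PPair.s6first_spec π₁ π hu).1
      obtain ⟨-, -, hv', hvu⟩ := (PPair.s6_mem_elig π₁ π u v).1 hv
      cases j with
      | trL1 h s =>
        exfalso
        simp only [s6Zv] at h0
        have : 0 ≤ π.L1 (sgn s) (h : ℝ) ^ 2 / ((s6S1 d n : ℚ) : ℝ) ^ 2 := by positivity
        linarith
      | trL0 h s =>
        exfalso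
        simp only [s6Zv] at h0
        have : 0 ≤ π.L0 (sgn s) (h : ℝ) ^ 2 / ((s6S0 d n : ℚ) : ℝ) ^ 2 := by positivity
        linarith
      | tS h s =>
        exfalso
        simp only [s6Zv] at h0
        have h1 : 0 ≤ π.TS (Lcut d n) (sgn s) (h : ℝ) := Finset.sum_nonneg fun x _ => sq_nonneg _
        have : 0 ≤ π.TS (Lcut d n) (sgn s) (h : ℝ) / ((s6ST P n : ℚ) : ℝ) := div_nonneg h1 Nm.ST_pos.le
        linarith
      | ent h s ε a b =>
        simp only [s6Zv] at h0 ⊢
        have hmono : ∀ a : Label n d, (π.resolve u v).Alive a → π.Alive a := by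
          intro a ha
          cases a with
          | glob i => trivial
          | stub x => exact ((s6ec_unres_resolve hu' hv' hvu.symm x).1 ha).1
        by_cases hal : π.Alive a ∧ π.Alive b
        · rw [if_pos hal] at h0
          have := excessZ_pos P.p (sgn ε * π.Eent (Lcut d n) (sgn s) (h : ℝ) a b)
            ((s6B P n (π₁.s6lev a + π₁.s6lev b) : ℚ) : ℝ) _ (s6ec_lamB_pos Nm (π₁.s6lev a + π₁.s6lev b))
          linarith
        · rw [if_neg]
          exact fun h' => hal ⟨hmono a h'.1, hmono b h'.2⟩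

/-- monotonicity of `n ^ (x a)` in `x` -/
theorem s6ec_rpow_mono (hn : 0 < n) {x y : ℝ} (h : x ≤ y) : (n : ℝ) ^ (x * (aa : ℝ)) ≤ (n : ℝ) ^ (y * (aa : ℝ)) := by
  apply Real.rpow_le_rpow_of_exponent_le
  · exact_mod_cast hn
  · apply mul_le_mul_of_nonneg_right h
    unfold aa; norm_num

theorem s6ec_ent0 (Nm : S6NumOK d n P c C) (E : π₁.EarlyOut P.cp c.CM c.CR c.η0 c.Rc c.cT c.θ)
    {h : ℚ} (hh : h ∈ trackedList d n P.cp) (s : Bool) (a b : Label n d) (ha : π₁.Alive a) (hb : π₁.Alive b) (k : ℕ) :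
    |π₁.Eent (Lcut d n) (sgn s) ((h : ℚ) : ℝ) a b| ≤ s6Brl n P k :=
  le_trans (le_trans ((E.caps h hh s).hE a b ha hb) Nm.IE) (Nm.B_mono 0 k (Nat.zero_le _))

theorem s6_inv_zero (Nm : S6NumOK d n P c C) (E : π₁.EarlyOut P.cp c.CM c.CR c.η0 c.Rc c.cT c.θ) :
    S6Inv P c C π₁ 0 π₁ := by
  refine
    { t_le := Nat.zero_le _
      le := PPair.s6_Le_refl π₁
      l_eq := by rw [E.l_eq]; rfl
      badc := Or.inl (by rw [Nat.add_zero]; exact List.length_filter_le _ _)
      clean := fun x _ h => h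
      walk := E.walk
      caps := ?_
      lev := ?_
      ts := fun h hh s => le_trans (E.ts h hh s) Nm.IT'
      tlow := fun h _ s => by simp }
  · intro h hh s
    have e := E.caps h hh s
    have hα := Nm.al_pos
    refine ⟨e.pos, le_trans e.hL1 ?_, le_trans e.hL0 ?_, fun a b ha hb => le_trans (e.hE a b ha hb) ?_⟩
    · exact div_le_div_of_nonneg_right (s6ec_rpow_mono Nm.hn (by norm_num)) hα.le
    · exact div_le_div_of_nonneg_right (s6ec_rpow_mono Nm.hn (by norm_num)) (by positivity)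
    · exact div_le_div_of_nonneg_right (s6ec_rpow_mono Nm.hn (by norm_num)) (Real.sqrt_nonneg _)
  · intro h hh s a b ha hb
    have h1 := s6ec_ent0 Nm E hh s a b ha hb (min (π₁.s6lev a + π₁.s6lev b) 4)
    have h2 := Nm.B_pos (min (π₁.s6lev a + π₁.s6lev b) 4)
    unfold s6Bk
    linarith

theorem s6ec_sum_flatMap_le {α β : Type} (l : List α) (f : α → List β) (g : β → ℝ) (M : ℝ)
    (h : ∀ a ∈ l, ((f a).map g).sum ≤ M) : ((l.flatMap f).map g).sum ≤ (l.length : ℝ) * M := by
  induction l with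
  | nil => simp
  | cons a l ih =>
    rw [List.flatMap_cons, List.map_append, List.sum_append, List.length_cons]
    have h1 := h a List.mem_cons_self
    have h2 := ih fun b hb => h b (List.mem_cons_of_mem _ hb)
    push_cast
    linarith

theorem s6ec_sum_map_le {α β : Type} (l : List α) (f : α → β) (g : β → ℝ) (M : ℝ)
    (h : ∀ a ∈ l, g (f a) ≤ M) : ((l.map f).map g).sum ≤ (l.length : ℝ) * M := by
  induction l with
  | nil => simp
  | cons a l ih =>
    rw [List.map_cons, List.map_cons, List.sum_cons, List.length_cons]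
    have h1 := h a List.mem_cons_self
    have h2 := ih fun b hb => h b (List.mem_cons_of_mem _ hb)
    push_cast
    linarith

theorem s6ec_sq_div_le {x S : ℝ} (hS : 0 < S) (h : |x| ≤ S) : 1 + x ^ 2 / S ^ 2 ≤ 2 := by
  have : x ^ 2 / S ^ 2 ≤ 1 := by
    rw [div_le_one (by positivity), ← sq_abs x]
    exact pow_le_pow_left₀ (abs_nonneg _) h 2
  linarith

theorem s6ec_abs_sgn_mul (ε : Bool) (x : ℝ) : sgn ε * x ≤ |x| := by
  cases ε <;> simp [sgn, le_abs_self, neg_le_abs]

/-- the initial total: scalars `≤ 2` each, entry accounts `= 1` or `0` with total weight `≤ 1`, structural accounts `≤ K₀/2` -/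
theorem s6_init_score (hSA : S6SA c κ SA π₁) (Nm : S6NumOK d n P c C)
    (E : π₁.EarlyOut P.cp c.CM c.CR c.η0 c.Rc c.cT c.θ) :
    (s6Phase ℝ d n P SA π₁).score (fun _ => 1) π₁ ≤ s6K0 n c := by
  set g : S6Lab n d → ℝ := fun j => s6wt ℝ d n P.cp j * 1 * s6Zv ℝ d n P π₁ j π₁ with hg
  set Fi : ℝ := (((trackedList d n P.cp).length * 4 * (n + n * d) ^ 2 : ℕ) : ℝ)⁻¹ with hFi
  have hFi0 : 0 ≤ Fi := by rw [hFi]; positivity
  have e : (s6Phase ℝ d n P SA π₁).score (fun _ => 1) π₁ =
      (SA.labels.map fun i => SA.wt i * SA.Z i π₁).sum + ((s6labels d n P.cp).map g).sum := by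
    unfold Phase.score s6Phase
    simp only [List.map_append, List.sum_append, List.map_map]
    congr 1
    congr 1
    apply List.map_congr_left
    intro i _
    simp
  rw [e]
  have hent : ∀ h ∈ trackedList d n P.cp, ∀ (s ε : Bool) (a b : Label n d), g (S6Lab.ent h s ε a b) ≤ Fi := by
    intro h hh s ε a b
    have hZ : s6Zv ℝ d n P π₁ (S6Lab.ent h s ε a b) π₁ ≤ 1 := by
      simp only [s6Zv]
      split_ifs with hal
      · have h1 := s6ec_ent0 Nm E hh s a b hal.1 hal.2 (π₁.s6lev a + π₁.s6lev b)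
        have h2 := s6ec_abs_sgn_mul ε (π₁.Eent (Lcut d n) (sgn s) ((h : ℚ) : ℝ) a b)
        unfold s6Brl at h1
        unfold excessZ
        rw [max_eq_right (by linarith), zero_div, zero_pow (by have := Nm.hp; omega)]
        simp
      · exact zero_le_one
    show Fi * 1 * _ ≤ Fi
    calc Fi * 1 * s6Zv ℝ d n P π₁ (S6Lab.ent h s ε a b) π₁ ≤ Fi * 1 * 1 :=
          mul_le_mul_of_nonneg_left hZ (by linarith)
      _ = Fi := by ring
  have hN : ((labelList n d).length : ℝ) = ((n + n * d : ℕ) : ℝ) := by rw [PPair.s6_length_labelList]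
  have hsum : ((s6labels d n P.cp).map g).sum ≤ ((trackedList d n P.cp).length : ℝ) *
      (2 * (6 + 2 * (((n + n * d : ℕ) : ℝ) * (((n + n * d : ℕ) : ℝ) * Fi)))) := by
    unfold s6labels
    apply s6ec_sum_flatMap_le
    intro h hh
    have := s6ec_sum_flatMap_le [false, true] (fun s =>
      [S6Lab.trL1 h s, S6Lab.trL0 h s, S6Lab.tS h s] ++
      [false, true].flatMap fun ε => (labelList n d).flatMap fun a => (labelList n d).map fun b =>
        S6Lab.ent h s ε a b) g (6 + 2 * (((n + n * d : ℕ) : ℝ) * (((n + n * d : ℕ) : ℝ) * Fi))) ?_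
    · simpa using this
    intro s _
    rw [List.map_append, List.sum_append]
    have cp := E.caps h hh s
    have a1 : g (S6Lab.trL1 h s) ≤ 2 := by
      show (1 : ℝ) * 1 * (1 + _ / _) ≤ 2
      rw [one_mul, one_mul]
      exact s6ec_sq_div_le Nm.S1_pos (le_trans cp.hL1 Nm.I1)
    have a2 : g (S6Lab.trL0 h s) ≤ 2 := by
      show (1 : ℝ) * 1 * (1 + _ / _) ≤ 2
      rw [one_mul, one_mul]
      exact s6ec_sq_div_le Nm.S0_pos (le_trans cp.hL0 Nm.I0)
    have a3 : g (S6Lab.tS h s) ≤ 2 := by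
      show (1 : ℝ) * 1 * (1 + _ / _) ≤ 2
      rw [one_mul, one_mul]
      have : π₁.TS (Lcut d n) (sgn s) ((h : ℚ) : ℝ) / ((s6ST P n : ℚ) : ℝ) ≤ 1 := by
        rw [div_le_one Nm.ST_pos]
        exact le_trans (E.ts h hh s) Nm.IT
      linarith
    have a4 : (([false, true].flatMap fun ε => (labelList n d).flatMap fun a => (labelList n d).map fun b =>
        S6Lab.ent h s ε a b).map g).sum ≤ 2 * (((n + n * d : ℕ) : ℝ) * (((n + n * d : ℕ) : ℝ) * Fi)) := by
      have := s6ec_sum_flatMap_le [false, true] (fun ε => (labelList n d).flatMap fun a =>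
        (labelList n d).map fun b => S6Lab.ent h s ε a b) g
        (((n + n * d : ℕ) : ℝ) * (((n + n * d : ℕ) : ℝ) * Fi)) ?_
      · simpa using this
      intro ε _
      rw [← hN]
      apply s6ec_sum_flatMap_le
      intro a _
      apply s6ec_sum_map_le
      intro b _
      exact hent h hh s ε a b
    simp only [List.map_cons, List.map_nil, List.sum_cons, List.sum_nil]
    linarith
  have hF1 : ((trackedList d n P.cp).length : ℝ) * 4 * ((n + n * d : ℕ) : ℝ) ^ 2 * Fi ≤ 1 := by
    have e2 : ((trackedList d n P.cp).length : ℝ) * 4 * ((n + n * d : ℕ) : ℝ) ^ 2 =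
        (((trackedList d n P.cp).length * 4 * (n + n * d) ^ 2 : ℕ) : ℝ) := by push_cast; ring
    rw [e2, hFi]
    exact mul_inv_le_one
  have h1 := hSA.init
  have h2 := Nm.IK
  nlinarith

theorem s6_cands_ne (Nm : S6NumOK d n P c C) {t : ℕ} {π : PPair n d} (I : S6Inv P c C π₁ t π) (ht : t < bb n)
    (fb : (π₁.badL (R0 d n)).length < bb n) : (s6Phase ℝ d n P SA π₁).cands π ≠ [] := by
  have hl : π.l + 2 * t = l0 n + 2 * bb n := I.l_eq
  have hb := Nm.b_le
  obtain ⟨u, hu⟩ := PPair.s6first_isSome π₁ π I.le (by omega)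
  have hc := PPair.s6elig_card π₁ π I.le u
  show π₁.s6cands π ≠ []
  unfold PPair.s6cands
  rw [hu]
  simp only
  intro h
  have := congrArg List.length h
  rw [List.length_map, List.length_nil] at this
  omega

theorem s6_ext_comb (Nm : S6NumOK d n P c C) {t : ℕ} {π : PPair n d} (I : S6Inv P c C π₁ t π) {u v : Stub n d}
    (hu : π₁.s6first π = some u) (hv : v ∈ π₁.s6elig π u) :
    π₁.Le (π.resolve u v) ∧ (π.resolve u v).l + 2 * (t + 1) = l1 n ∧
    (((π₁.badL (R0 d n)).filter fun x => decide ((π.resolve u v).Unres x)).length + (t + 1)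
        ≤ (π₁.badL (R0 d n)).length ∨ ∀ x, π₁.Bad (R0 d n) x → ¬ (π.resolve u v).Unres x) ∧
    (∀ x, (π.resolve u v).Unres x → ¬ π₁.Bad (R0 d n) x → ¬ (π.resolve u v).Bad (R0 d n) x) := by
  obtain ⟨hu', -, hbad⟩ := PPair.s6first_spec π₁ π hu
  obtain ⟨-, -, hv', hvu⟩ := (PPair.s6_mem_elig π₁ π u v).1 hv
  have hU := s6ec_unres_resolve hu' hv' hvu.symm
  refine ⟨PPair.s6_Le_trans π₁ I.le (PPair.s6_le_resolve π hu' hv'), ?_, ?_, ?_⟩
  · have := PPair.resolve_l hu' hv' hvu.symm
    have := I.l_eq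
    omega
  · by_cases hex : ∃ x, π₁.Bad (R0 d n) x ∧ π.Unres x
    · rcases I.badc with h1 | h1
      · left
        have hub := hbad hex
        -- the filtered list loses `u`
        have hlt : ((π₁.badL (R0 d n)).filter fun x => decide ((π.resolve u v).Unres x)).length <
            ((π₁.badL (R0 d n)).filter fun x => decide (π.Unres x)).length := by
          have e : ((π₁.badL (R0 d n)).filter fun x => decide ((π.resolve u v).Unres x)) =
              ((π₁.badL (R0 d n)).filter fun x => decide (π.Unres x)).filter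
                fun x => decide ((π.resolve u v).Unres x) := by
            rw [List.filter_filter]
            apply List.filter_congr
            intro x _
            by_cases hx : (π.resolve u v).Unres x
            · simp [hx, ((hU x).1 hx).1]
            · simp [hx]
          rw [e]
          apply List.length_filter_lt_length_iff_exists.2
          refine ⟨u, List.mem_filter.2 ⟨(PPair.s6_mem_badL π₁ _ u).2 hub, by simpa using hu'⟩, ?_⟩
          have : ¬ (π.resolve u v).Unres u := fun h => ((hU u).1 h).2.1 rfl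
          simpa using this
        omega
      · obtain ⟨x, hx1, hx2⟩ := hex
        exact absurd hx2 (h1 x hx1)
    · right
      intro x hx hx'
      exact hex ⟨x, hx, ((hU x).1 hx').1⟩
  · intro x hx hnb
    obtain ⟨h1, h2, h3⟩ := (hU x).1 hx
    exact PPair.s6_clean_resolve hu' hv' hvu.symm _ h1 h2 h3 (I.clean x h1 hnb)

theorem s6_out (Nm : S6NumOK d n P c C) {π : PPair n d} (I : S6Inv P c C π₁ (bb n) π)
    (E : π₁.EarlyOut P.cp c.CM c.CR c.η0 c.Rc c.cT c.θ) :
    π.CleanOut P.cp c.CM c.CR c.ηT c.Rc c.cT c.θ := by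
  have hl : π.l = l0 n := by
    have : π.l + 2 * bb n = l0 n + 2 * bb n := I.l_eq
    omega
  refine ⟨hl, PPair.s6_WalkOK_mono Nm.IT' I.walk, I.caps, ?_, I.ts, ?_⟩
  · intro h hh s
    have h1 := I.tlow h hh s
    have h2 := E.tlow h hh s
    have h3 := Nm.XTt h hh
    rw [E.l_eq] at h2
    rw [hl]
    linarith
  · intro x hx
    have hall : ∀ x, π₁.Bad (R0 d n) x → ¬ π.Unres x := by
      rcases I.badc with h1 | h1
      · have := E.fewBad
        omega
      · exact h1
    by_cases hb : π₁.Bad (R0 d n) x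
    · exact hall x hb hx.1
    · exact I.clean x hx.1 hb hx

end Claimed.Agent.R275
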