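import Claimed.Agent.R275.S6ExtG
import Claimed.Agent.R275.S6BudA

/-!
# Row 275, Sec 6, package S6-EXT-CAPS (see the header of `S6ExtG.lean`)

Proofs: helper175 (auxiliary lemmas: prefix `s6ek_`).
-/

set_option autoImplicit false

namespace Claimed.Agent.R275

open Matrix

/-! ### scalar lemmas -/

/-- extraction from a square account -/
theorem s6ek_square {X S K B : ℝ} (hS : 0 < S) (hB : 0 ≤ B) (h : 1 * (1 + X ^ 2 / S ^ 2) ≤ K)
    (hK : S ^ 2 * K ≤ B ^ 2) : |X| ≤ B := by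
  have hS2 : 0 < S ^ 2 := by positivity
  have h1 : X ^ 2 / S ^ 2 ≤ K := by linarith
  rw [div_le_iff₀ hS2] at h1
  exact abs_le_of_sq_le_sq (by linarith) hB

/-- extraction from a linear account -/
theorem s6ek_linear {X S K B : ℝ} (hS : 0 < S) (h : 1 * (1 + X / S) ≤ K) (hK : S * K ≤ B) : X ≤ B := by
  have h1 : X / S ≤ K := by linarith
  rw [div_le_iff₀ hS] at h1
  linarith

variable {n d : ℕ} {ιs : Type} {P : S6Par} {c : S6Cst} {C κ : ℝ} {SA : Phase ℝ (PPair n d) ιs} {π₁ : PPair n d}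

/-! ### membership in the list of the accounts -/

theorem s6ek_mem_bool (s : Bool) : s ∈ [false, true] := by cases s <;> simp

theorem s6ek_mem_trL1 {h : ℚ} (hh : h ∈ trackedList d n P.cp) (s : Bool) :
    (S6Lab.trL1 h s : S6Lab n d) ∈ s6labels d n P.cp := by
  unfold s6labels
  refine List.mem_flatMap.2 ⟨h, hh, List.mem_flatMap.2 ⟨s, s6ek_mem_bool s, ?_⟩⟩
  simp

theorem s6ek_mem_trL0 {h : ℚ} (hh : h ∈ trackedList d n P.cp) (s : Bool) :
    (S6Lab.trL0 h s : S6Lab n d) ∈ s6labels d n P.cp := by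
  unfold s6labels
  refine List.mem_flatMap.2 ⟨h, hh, List.mem_flatMap.2 ⟨s, s6ek_mem_bool s, ?_⟩⟩
  simp

theorem s6ek_mem_tS {h : ℚ} (hh : h ∈ trackedList d n P.cp) (s : Bool) :
    (S6Lab.tS h s : S6Lab n d) ∈ s6labels d n P.cp := by
  unfold s6labels
  refine List.mem_flatMap.2 ⟨h, hh, List.mem_flatMap.2 ⟨s, s6ek_mem_bool s, ?_⟩⟩
  simp

theorem s6ek_mem_ent {h : ℚ} (hh : h ∈ trackedList d n P.cp) (s ε : Bool) (a b : Label n d) :
    S6Lab.ent h s ε a b ∈ s6labels d n P.cp := by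
  unfold s6labels
  refine List.mem_flatMap.2 ⟨h, hh, List.mem_flatMap.2 ⟨s, s6ek_mem_bool s, ?_⟩⟩
  refine List.mem_append_right _ (List.mem_flatMap.2 ⟨ε, s6ek_mem_bool ε, List.mem_flatMap.2
    ⟨a, PPair.s6_mem_labelList a, List.mem_map.2 ⟨b, PPair.s6_mem_labelList b, rfl⟩⟩⟩)

theorem s6ek_lev_le (π₁ : PPair n d) (a : Label n d) : π₁.s6lev a ≤ 2 := by
  unfold PPair.s6lev
  cases a with
  | glob i => simp
  | stub x =>
    simp only
    split_ifs <;> omega

/-! ## S6-EXT-CAPS -/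

section Caps

variable {t : ℕ} {π : PPair n d} {u v : Stub n d}

/-- tier 1: the structural accounts give the walk facts at the new state -/
theorem s6_ext_walk (Br : S6Br d n P c C) (hSA : S6SA c κ SA π₁) (Nm : S6NumOK d n P c C) (I : S6Inv P c C π₁ t π)
    (ht : t < bb n) (hu : π₁.s6first π = some u) (hv : v ∈ π₁.s6elig π u)
    (hb : ∀ i ∈ SA.labels, SA.wt i * SA.Z i (π.resolve u v) ≤ s6K0 n c * 2) :
    (π.resolve u v).WalkOK c.CM c.CR c.η0 c.Rc := by
  obtain ⟨hl, -⟩ := s6_inv_sizes Nm I ht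
  have hU : π.Unres u := (PPair.s6first_spec π₁ π hu).1
  obtain ⟨-, -, hV, hvu⟩ := (PPair.s6_mem_elig π₁ π u v).1 hv
  have hfar := (Br.adm π₁ π t I u v hu hv).1
  have hl2 := PPair.resolve_l hU hV (Ne.symm hvu)
  exact hSA.extract _ (PPair.s6_Le_trans π₁ I.le (PPair.s6_le_resolve π hU hV)) (by omega)
    (PPair.s6_girth_resolve hU hV (Ne.symm hvu) _ I.walk.girth (PPair.s6_Far_mono Nm.g0_le hfar)) hb

/-- the bound of all analytic accounts at a state -/
def S6AccBd (P : S6Par) (c : S6Cst) (π₁ π' : PPair n d) : Prop :=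
  ∀ j ∈ s6labels d n P.cp, s6wt ℝ d n P.cp j * s6Zv ℝ d n P π₁ j π' ≤ s6K0 n c * 2

/-- level caps from the entry accounts (`le_of_excess_le` with `m = 1/λ`, `Nm.XE`) -/
theorem s6_ext_lev (Nm : S6NumOK d n P c C) {π' : PPair n d} (hb : S6AccBd P c π₁ π') :
    ∀ h ∈ trackedList d n P.cp, ∀ (s : Bool) (a b : Label n d), π'.Alive a → π'.Alive b →
      |π'.Eent (Lcut d n) (sgn s) ((h : ℚ) : ℝ) a b| ≤ s6Bk n P (π₁.s6lev a + π₁.s6lev b) := by
  intro h hh s a b ha hb'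
  set k := π₁.s6lev a + π₁.s6lev b with hk
  have hk4 : k ≤ 4 := by
    have := s6ek_lev_le π₁ a
    have := s6ek_lev_le π₁ b
    omega
  have hB := Nm.B_pos k
  have hlam := Nm.lam_pos
  have hF : (0 : ℝ) < (s6F d n P : ℝ) := by
    have h1 : 0 < (trackedList d n P.cp).length := List.length_pos_iff.2 Nm.tracked_ne
    have h2 := Nm.hn
    have : 0 < s6F d n P := by
      unfold s6F
      positivity
    exact_mod_cast this
  have key : ∀ ε : Bool, sgn ε * π'.Eent (Lcut d n) (sgn s) ((h : ℚ) : ℝ) a b ≤ 2 * s6Brl n P k := by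
    intro ε
    have h1 := hb _ (s6ek_mem_ent hh s ε a b)
    have e1 : s6wt ℝ d n P.cp (S6Lab.ent h s ε a b) = ((s6F d n P : ℕ) : ℝ)⁻¹ := rfl
    have e2 : s6Zv ℝ d n P π₁ (S6Lab.ent h s ε a b) π' =
        excessZ P.p (sgn ε * π'.Eent (Lcut d n) (sgn s) ((h : ℚ) : ℝ) a b) (s6Brl n P k)
          (s6lamr n P * s6Brl n P k) := by
      show (if π'.Alive a ∧ π'.Alive b then _ else _) = _
      rw [if_pos ⟨ha, hb'⟩]
      unfold s6Brl s6lamr
      rw [Rat.cast_mul]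
    rw [e1, e2, inv_mul_le_iff₀ hF] at h1
    have h2 : excessZ P.p (sgn ε * π'.Eent (Lcut d n) (sgn s) ((h : ℚ) : ℝ) a b) (s6Brl n P k)
        (s6lamr n P * s6Brl n P k) ≤ (s6lamr n P)⁻¹ ^ P.p := by
      refine h1.trans (le_trans (le_of_eq ?_) Nm.XE)
      ring
    have h3 := le_of_excess_le P.p (by have := Nm.hp; omega) _ _ _ _ (mul_pos hlam hB)
      (inv_nonneg.2 hlam.le) h2
    have e3 : s6lamr n P * s6Brl n P k * (s6lamr n P)⁻¹ = s6Brl n P k := by
      field_simp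
    rw [e3] at h3
    linarith
  have e4 : s6Bk n P k = 2 * s6Brl n P k := by
    unfold s6Bk
    rw [min_eq_left hk4]
  rw [e4, abs_le]
  have k1 := key true
  have k2 := key false
  have s1 : (sgn true : ℝ) = 1 := rfl
  have s2 : (sgn false : ℝ) = -1 := rfl
  rw [s1] at k1
  rw [s2] at k2
  constructor <;> linarith

/-- the caps (4.8): positivity by the inertia lemma (`S6Facts.pos_next`), traces from the square accounts, entries from the level caps -/
theorem s6_ext_caps (Br : S6Br d n P c C) (Nm : S6NumOK d n P c C) (I : S6Inv P c C π₁ t π)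
    (hu : π₁.s6first π = some u) (hv : v ∈ π₁.s6elig π u) (hb : S6AccBd P c π₁ (π.resolve u v)) :
    (π.resolve u v).Caps P.cp (9 / 100) (12 / 100) (37 / 100) := by
  intro h hh s
  have F := Br.facts π₁ π t I h hh s
  have A := (Br.adm π₁ π t I u v hu hv).2 h hh
  have hal := Nm.al_pos
  refine ⟨(F.pos_next A).1, ?_, ?_, ?_⟩
  · exact s6ek_square Nm.S1_pos (by positivity) (hb _ (s6ek_mem_trL1 hh s)) Nm.X1
  · exact s6ek_square Nm.S0_pos (by positivity) (hb _ (s6ek_mem_trL0 hh s)) Nm.X0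
  · intro a b ha hb'
    refine (s6_ext_lev Nm hb h hh s a b ha hb').trans (le_trans ?_ Nm.XB)
    unfold s6Bk s6Bm
    have := Nm.B_mono (min (π₁.s6lev a + π₁.s6lev b) 4) 4 (min_le_right _ _)
    linarith

theorem s6_ext_ts (Nm : S6NumOK d n P c C) {π' : PPair n d} (hb : S6AccBd P c π₁ π') : π'.TSBd P.cp c.ηT := by
  intro h hh s
  exact s6ek_linear Nm.ST_pos (hb _ (s6ek_mem_tS hh s)) Nm.XT

/-- `𝒯` : deterministic bound for every candidate -/
theorem s6_ext_tlow (O : S6One c.C0 C) (Br : S6Br d n P c C) (I : S6Inv P c C π₁ t π)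
    (hu : π₁.s6first π = some u) (hv : v ∈ π₁.s6elig π u) :
    ∀ h ∈ primList d n P.cp, ∀ s : Bool,
      π₁.Ttr (sgn s) ((h : ℚ) : ℝ)
          - ((t + 1 : ℕ) : ℝ) * (C * (s6CQ d c ((h : ℚ) : ℝ) * (1 + c.CK) + s6CJ d n c ((h : ℚ) : ℝ)))
        ≤ (π.resolve u v).Ttr (sgn s) ((h : ℚ) : ℝ) := by
  intro h hp s
  have hh := Br.prim_sub h hp
  have F := Br.facts π₁ π t I h hh s
  have T := Br.trace π₁ π t I h hh s
  have A := (Br.adm π₁ π t I u v hu hv).2 h hh
  have h1 := (O.trAbs π _ _ _ _ _ _ _ _ u v F T A).2.2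
  have h2 := I.tlow h hp s
  unfold PPair.dTtr at h1
  have h3 := (abs_le.1 h1).1
  push_cast
  linarith

end Caps

end Claimed.Agent.R275
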