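import Claimed.Agent.R275.S6Inv

/-!
# Row 275, Sec 6: the conditions on the constants of cleanup (order of choices)

Owner: helper208.  Definitions only.
ORDER OF CHOICES: `d`; `a = 10⁻⁴`; `cp`; `CM, CR` (walk facts, depend on `d`); `θ < .3a` (Sec 7 wants it small); `ρ < .00125 a`; `ζ < 4ρ`; `βR ∈ (16ρ + ζ, .02a)`;
`ηT ≤ .01a` (output exponent of `T_S`, prescribed by Sec 7); then `xT, ηs` with `xT + ηs < ηT`; `η < xT`; `η0 < η` (structural and early-phase losses);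
`p ≥ 3/ζ`; the internal constants `C0, CK, CQ, CJ` (bridge to Sec 4), `C` (one-step lemmas); finally `n₀`.
`S6Good` does NOT mention the internal constants.
-/

set_option autoImplicit false

namespace Claimed.Agent.R275

/-- admissible constants -/
structure S6Good (P : S6Par) (c : S6Cst) : Prop where
  cp_pos : 0 < P.cp
  cp_le : P.cp ≤ 1 / 4
  ρ_pos : 0 < P.ρ
  ρ_lt : 16 * P.ρ < 2 / 100 * aa
  ζ_pos : 0 < P.ζ
  ζ_lt : P.ζ < 4 * P.ρ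
  β_gt : ((16 * P.ρ + P.ζ : ℚ) : ℝ) < c.βR
  β_lt : c.βR < 2 / 100 * (aa : ℝ)
  η0_nonneg : 0 ≤ c.η0
  η0_lt : c.η0 < c.η
  η_lt : c.η < (P.xT : ℝ)
  xT_lt : (P.xT : ℝ) + c.ηs < c.ηT
  ηT_le : c.ηT ≤ (aa : ℝ) / 100
  ηs_pos : 0 < c.ηs
  c0_pos : 0 < c.c0
  c0_lt : c.c0 < (aa : ℝ) / 1000
  θ_pos : 0 < c.θ
  θ_lt : c.θ < 3 / 10 * (aa : ℝ)
  cT_pos : 0 < c.cT
  hp : 2 ≤ P.p
  hpζ : 3 ≤ (P.p : ℚ) * P.ζ
  CM_ge : 1 ≤ c.CM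
  CR_nonneg : 0 ≤ c.CR

theorem S6Good.setInt {P : S6Par} {c : S6Cst} (G : S6Good P c) (C0 CK CQ CJ : ℝ) :
    S6Good P (c.setInt C0 CK CQ CJ) :=
  { cp_pos := G.cp_pos, cp_le := G.cp_le, ρ_pos := G.ρ_pos, ρ_lt := G.ρ_lt, ζ_pos := G.ζ_pos, ζ_lt := G.ζ_lt
    β_gt := G.β_gt, β_lt := G.β_lt, η0_nonneg := G.η0_nonneg, η0_lt := G.η0_lt, η_lt := G.η_lt, xT_lt := G.xT_lt
    ηT_le := G.ηT_le, ηs_pos := G.ηs_pos, c0_pos := G.c0_pos, c0_lt := G.c0_lt, θ_pos := G.θ_pos, θ_lt := G.θ_lt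
    cT_pos := G.cT_pos, hp := G.hp, hpζ := G.hpζ, CM_ge := G.CM_ge, CR_nonneg := G.CR_nonneg }

end Claimed.Agent.R275
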