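import Claimed.Agent.R275.S6Step

/-!
# Row 275, Sec 6 (cleanup.tex), package S6-JUMP: the level-sensitive jump bound (Lemma 6.6 `lem:cleanup-jumps`)

Owner of the statements: helper208.  Proof: helper175 (auxiliary lemmas: prefix `s6j_`).  May assume every statement of `S6Core.lean`, `S6Step.lean`.

`ν : Label → ℕ` = level (2 global, 1 initially bad stub, 0 initially clean stub), `Bk k` = the bootstrap cap of an entry of total level `k`
(the factor 2 of the paper is inside `Bk`), `δ = n^{-β_R}` = smallness of every transfer which does not decrease the level.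
Transfer coefficients: `c_a(u) = p_a(u) (H_P)_{uu} + p_a(v) (H_P)_{vu}`, `c_a(v) = p_a(u) (H_P)_{uv} + p_a(v) (H_P)_{vv}`, so (`s6_core_coef`)
`|c_a(u)| ≤ C (A_a(u) (j_v + 1/l) + A_a(v))`, `|c_a(v)| ≤ C (A_a(u) + A_a(v) (j_u + 1/l))`.
PROOF: `Eold_sub` + `s6_core_jump` + case distinction for each of the (at most 8) transfer terms + tail `≤ Bt` + recentring
(`s6_Eent_resolve_eq`, `s6_Eold_le`).
SIMPLIFICATION w.r.t. the paper: the bound holds for EVERY allowed step, so no special/ordinary distinction and no comparators are needed.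

TWO HYPOTHESES ADDED by helper175 (the statement is false without them):
* `∀ k, 0 ≤ Bk k`  (otherwise `ν ≡ 1`, `Bk 1 = -10^9`, `δ = 100` makes the right-hand side negative);
* `1 / l ≤ Bm`  (the recentring part `(E'_{ub} + E'_{vb}) / (l - 2)` has size `Bm / l`: its entries have the level of `u, v`, not of `a`).
-/

set_option autoImplicit false

namespace Claimed.Agent.R275

open Matrix

/-! ### scalar lemmas -/

/-- one single-transfer term -/
theorem s6j_t1 {c e K D Bm : ℝ} (hc : c ≤ 16) (he0 : 0 ≤ e) (he : e ≤ Bm) (hK : 0 ≤ K)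
    (hD : 0 ≤ D) (h : e ≤ K ∨ c ≤ D) : c * e ≤ 16 * K + D * Bm := by
  have hBm : 0 ≤ Bm := he0.trans he
  have hDB := mul_nonneg hD hBm
  rcases h with h | h
  · have : c * e ≤ 16 * K := mul_le_mul hc h he0 (by norm_num)
    linarith
  · have : c * e ≤ D * Bm := mul_le_mul h he he0 hD
    linarith

/-- one double-transfer term -/
theorem s6j_t2 {c c' e K D Bm : ℝ} (hc : c ≤ 16) (hc0' : 0 ≤ c') (hc' : c' ≤ 16)
    (he0 : 0 ≤ e) (he : e ≤ Bm) (hK : 0 ≤ K) (hD : 0 ≤ D) (h : e ≤ K ∨ c ≤ D ∨ c' ≤ D) :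
    c * c' * e ≤ 256 * K + 16 * (D * Bm) := by
  have hBm : 0 ≤ Bm := he0.trans he
  have hDB := mul_nonneg hD hBm
  rcases h with h | h | h
  · have h1 : c * c' ≤ 16 * 16 := mul_le_mul hc hc' hc0' (by norm_num)
    have : c * c' * e ≤ 16 * 16 * K := mul_le_mul h1 h he0 (by norm_num)
    linarith
  · have h1 : c * c' ≤ D * 16 := mul_le_mul h hc' hc0' hD
    have : c * c' * e ≤ D * 16 * Bm := mul_le_mul h1 he he0 (by positivity)
    linarith
  · have h1 : c * c' ≤ 16 * D := mul_le_mul hc h hc0' (by norm_num)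
    have : c * c' * e ≤ 16 * D * Bm := mul_le_mul h1 he he0 (by positivity)
    linarith

namespace PPair

variable {n d : ℕ}

/-- transfer condition for the output axis `a`: each selected endpoint either has smaller level or a small transfer coefficient -/
structure S6Tr (π : PPair n d) (Cm : ℝ) (L : ℕ) (h : ℝ) (ν : Label n d → ℕ) (δ : ℝ) (u v : Stub n d)
    (a : Label n d) : Prop where
  tu : ν (.stub u) < ν a ∨
    π.Amaj Cm L h a u * (π.jmaj Cm L h v + 1 / (π.l : ℝ)) + π.Amaj Cm L h a v ≤ δ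
  tv : ν (.stub v) < ν a ∨
    π.Amaj Cm L h a u + π.Amaj Cm L h a v * (π.jmaj Cm L h u + 1 / (π.l : ℝ)) ≤ δ

section Aux

variable {π : PPair n d} {Cm : ℝ} {L : ℕ} {σ h C0 : ℝ} {N : S6Num}

/-- `|p_a(s)| ≤ A_a(s)` -/
theorem s6j_abs_p_le (F : π.S6Facts Cm L σ h C0 N) {u v : Stub n d} (A : π.S6Adm Cm L h N u v)
    {a : Label n d} (ha : π.Alive a) (s : Fin 2) :
    |π.s6p L σ h u v a s| ≤ π.Amaj Cm L h a (s6e u v s) :=
  le_trans (π.abs_pEnt_le F.hn F.s6s_l_pos L σ h F.hσ F.hh.le a _) (F.majP a _ ha (A.s6s_unres s))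

/-- every transfer coefficient is at most `16` -/
theorem s6j_c_le (F : π.S6Facts Cm L σ h C0 N) {u v : Stub n d} (A : π.S6Adm Cm L h N u v)
    {a : Label n d} (ha : π.Alive a) (s : Fin 2) :
    |s6c π.l σ h (π.Tp L σ h u v) (π.s6p L σ h u v a) s| ≤ 16 := by
  have e : s6c π.l σ h (π.Tp L σ h u v) (π.s6p L σ h u v a) s =
      Hgen π.l σ h (π.Tp L σ h u v) s 0 * π.s6p L σ h u v a 0
        + Hgen π.l σ h (π.Tp L σ h u v) s 1 * π.s6p L σ h u v a 1 := by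
    simp only [s6c, mulVec, dotProduct, Fin.sum_univ_two]
  rw [e]
  have := s6core_sum2_le (tb_abs_le (F.blk A).hT s 0) (tb_abs_le (F.blk A).hT s 1)
    (F.s6s_abs_p_le A ha 0) (F.s6s_abs_p_le A ha 1)
  linarith

end Aux

/-- the alternative of the transfer condition in terms of the actual coefficients -/
theorem s6j_alt : ∃ C : ℝ, 0 < C ∧ ∀ {n d : ℕ} (π : PPair n d) (Cm : ℝ) (L : ℕ) (σ h C0 : ℝ) (N : S6Num)
    (ν : Label n d → ℕ) (δ : ℝ) (u v : Stub n d) (a : Label n d),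
    π.S6Facts Cm L σ h C0 N → π.S6Adm Cm L h N u v → π.Alive a → π.S6Tr Cm L h ν δ u v a →
    ∀ s : Fin 2, ν (.stub (s6e u v s)) < ν a ∨
      |s6c π.l σ h (π.Tp L σ h u v) (π.s6p L σ h u v a) s| ≤ C * δ := by
  obtain ⟨C, hC, hco⟩ := s6_core_coef
  refine ⟨C, hC, ?_⟩
  intro n d π Cm L σ h C0 N ν δ u v a F A ha T s
  obtain ⟨t00, t11, -, -⟩ := F.s6s_abs_Tp_le A
  obtain ⟨⟨ju0, -⟩, ⟨jv0, -⟩, -⟩ := F.s6s_maj A
  obtain ⟨c0, c1⟩ := hco π.l σ h (π.Tp L σ h u v) _ _ (π.s6p L σ h u v a) (F.blk A).hT t00 t11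
  have p0 : |π.s6p L σ h u v a 0| ≤ π.Amaj Cm L h a u := s6j_abs_p_le F A ha 0
  have p1 : |π.s6p L σ h u v a 1| ≤ π.Amaj Cm L h a v := s6j_abs_p_le F A ha 1
  have hl : 0 ≤ 1 / (π.l : ℝ) := by positivity
  fin_cases s
  · rcases T.tu with t | t
    · exact Or.inl t
    · refine Or.inr (c0.trans (mul_le_mul_of_nonneg_left (le_trans ?_ t) hC.le))
      have := mul_le_mul_of_nonneg_right p0 (add_nonneg jv0 hl)
      linarith
  · rcases T.tv with t | t
    · exact Or.inl t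
    · refine Or.inr (c1.trans (mul_le_mul_of_nonneg_left (le_trans ?_ t) hC.le))
      have := mul_le_mul_of_nonneg_right p1 (add_nonneg ju0 hl)
      linarith

/-- the numerical part of the old-axis increment -/
theorem s6j_num : ∃ C : ℝ, 0 < C ∧ ∀ {n d : ℕ} (π : PPair n d) (Cm : ℝ) (L : ℕ) (σ h C0 : ℝ) (N : S6Num)
    (ν : Label n d → ℕ) (Bk : ℕ → ℝ) (δ : ℝ) (u v : Stub n d) (a b : Label n d),
    π.S6Facts Cm L σ h C0 N → π.S6Adm Cm L h N u v → π.Alive a → π.Alive b →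
    Monotone Bk → (∀ k, 0 ≤ Bk k) →
    (∀ a' b' : Label n d, π.Alive a' → π.Alive b' → |π.Eent L σ h a' b'| ≤ Bk (ν a' + ν b')) →
    0 ≤ δ → π.S6Tr Cm L h ν δ u v a → π.S6Tr Cm L h ν δ u v b →
    |s6dNum π.l σ h (π.Tp L σ h u v) (π.Epair L σ h u v) (π.s6p L σ h u v a) (π.s6ee L σ h u v a)
        (π.s6p L σ h u v b) (π.s6ee L σ h u v b)| ≤
      C * ((if ν a + ν b = 0 then 0 else Bk (ν a + ν b - 1)) + δ * N.Bm + N.Bm ^ 2) := by
  obtain ⟨C2, hC2, hj⟩ := s6_core_jump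
  obtain ⟨C3, hC3, halt⟩ := s6j_alt
  refine ⟨1088 + 68 * C3 + C2, by positivity, ?_⟩
  intro n d π Cm L σ h C0 N ν Bk δ u v a b F A ha hb hmono hBk0 hcap hδ Ta Tb
  set K : ℝ := if ν a + ν b = 0 then 0 else Bk (ν a + ν b - 1) with hK
  have hK0 : 0 ≤ K := by
    rw [hK]
    split_ifs
    · exact le_rfl
    · exact hBk0 _
  have hBm := F.Bm_nonneg
  have hD : 0 ≤ C3 * δ := by positivity
  -- levels
  have hlev : ∀ k : ℕ, k + 1 ≤ ν a + ν b → Bk k ≤ K := by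
    intro k hk
    rw [hK, if_neg (by omega)]
    exact hmono (by omega)
  set ca : Fin 2 → ℝ := fun s => |s6c π.l σ h (π.Tp L σ h u v) (π.s6p L σ h u v a) s| with hca
  set cb : Fin 2 → ℝ := fun s => |s6c π.l σ h (π.Tp L σ h u v) (π.s6p L σ h u v b) s| with hcb
  have h1 := hj π.l σ h _ _ _ _ _ _ (π.s6p L σ h u v a) (π.s6ee L σ h u v a) (π.s6p L σ h u v b)
    (π.s6ee L σ h u v b) ca cb (F.blk A) (fun s => le_rfl) (fun s => le_rfl) (s6j_c_le F A ha)
    (s6j_c_le F A hb) (F.s6s_abs_e_le A ha) (F.s6s_abs_e_le A hb)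
  have alive : ∀ s : Fin 2, π.Alive (.stub (s6e u v s)) := fun s => A.s6s_unres s
  have ea : ∀ s, |π.s6ee L σ h u v a s| ≤ Bk (ν a + ν (.stub (s6e u v s))) :=
    fun s => hcap a _ ha (alive s)
  have eb : ∀ s, |π.s6ee L σ h u v b s| ≤ Bk (ν b + ν (.stub (s6e u v s))) :=
    fun s => hcap b _ hb (alive s)
  have ep : ∀ s s', |π.Epair L σ h u v s s'| ≤ Bk (ν (.stub (s6e u v s)) + ν (.stub (s6e u v s'))) := by
    intro s s'
    unfold Epair
    rw [blk_eq_ent]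
    exact hcap _ _ (alive s) (alive s')
  have A1 : ∀ s, ca s * |π.s6ee L σ h u v b s| ≤ 16 * K + C3 * δ * N.Bm := by
    intro s
    refine s6j_t1 (s6j_c_le F A ha s) (abs_nonneg _) (F.s6s_abs_e_le A hb s) hK0 hD ?_
    rcases halt π Cm L σ h C0 N ν δ u v a F A ha Ta s with t | t
    · exact Or.inl ((eb s).trans (hlev _ (by omega)))
    · exact Or.inr t
  have A2 : ∀ s, cb s * |π.s6ee L σ h u v a s| ≤ 16 * K + C3 * δ * N.Bm := by
    intro s
    refine s6j_t1 (s6j_c_le F A hb s) (abs_nonneg _) (F.s6s_abs_e_le A ha s) hK0 hD ?_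
    rcases halt π Cm L σ h C0 N ν δ u v b F A hb Tb s with t | t
    · exact Or.inl ((ea s).trans (hlev _ (by omega)))
    · exact Or.inr t
  have A3 : ∀ s s', ca s * cb s' * |π.Epair L σ h u v s s'| ≤ 256 * K + 16 * (C3 * δ * N.Bm) := by
    intro s s'
    refine s6j_t2 (s6j_c_le F A ha s) (abs_nonneg _) (s6j_c_le F A hb s') (abs_nonneg _)
      (F.s6s_abs_Epair_le A s s') hK0 hD ?_
    rcases halt π Cm L σ h C0 N ν δ u v a F A ha Ta s with t | t
    · rcases halt π Cm L σ h C0 N ν δ u v b F A hb Tb s' with t' | t'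
      · exact Or.inl ((ep s s').trans (hlev _ (by omega)))
      · exact Or.inr (Or.inr t')
    · exact Or.inr (Or.inl t)
  simp only [Fin.sum_univ_two] at h1
  have a10 := A1 0
  have a11 := A1 1
  have a20 := A2 0
  have a21 := A2 1
  have a300 := A3 0 0
  have a301 := A3 0 1
  have a310 := A3 1 0
  have a311 := A3 1 1
  have q1 : 0 ≤ δ * N.Bm := by positivity
  have q2 : 0 ≤ N.Bm ^ 2 := by positivity
  have q3 : 0 ≤ C3 * K := by positivity
  have q4 : 0 ≤ C2 * K := by positivity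
  have q5 : 0 ≤ C2 * (δ * N.Bm) := by positivity
  have q6 : 0 ≤ C3 * N.Bm ^ 2 := by positivity
  nlinarith

/-- LEMMA 6.6 -/
theorem s6_jump (C0 : ℝ) : ∃ C : ℝ, 0 < C ∧ ∀ {n d : ℕ} (π : PPair n d) (Cm : ℝ) (L : ℕ) (σ h : ℝ) (N : S6Num)
    (ν : Label n d → ℕ) (Bk : ℕ → ℝ) (δ : ℝ) (u v : Stub n d) (a b : Label n d),
    π.S6Facts Cm L σ h C0 N → π.S6Adm Cm L h N u v → π.Alive a → π.Alive b →
    Monotone Bk → (∀ k, 0 ≤ Bk k) → (∀ k, Bk k ≤ N.Bm) → 1 / (π.l : ℝ) ≤ N.Bm →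
    (∀ a' b' : Label n d, π.Alive a' → π.Alive b' → |π.Eent L σ h a' b'| ≤ Bk (ν a' + ν b')) →
    0 ≤ δ → π.S6Tr Cm L h ν δ u v a → π.S6Tr Cm L h ν δ u v b →
    |π.dEent L σ h u v a b| ≤
      C * ((if ν a + ν b = 0 then 0 else Bk (ν a + ν b - 1)) + δ * N.Bm + N.Bm ^ 2 + N.Bt) := by
  obtain ⟨C1, hC1, hE⟩ := s6_Eold_le C0
  obtain ⟨C2, hC2, hnum⟩ := s6j_num
  refine ⟨C2 + 16 * C1 + 2, by positivity, ?_⟩
  intro n d π Cm L σ h N ν Bk δ u v a b F A ha hb hmono hBk0 _ hlB hcap hδ Ta Tb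
  set K : ℝ := if ν a + ν b = 0 then 0 else Bk (ν a + ν b - 1) with hK
  have hK0 : 0 ≤ K := by
    rw [hK]
    split_ifs
    · exact le_rfl
    · exact hBk0 _
  have hBm := F.Bm_nonneg
  have hBt := F.hBt
  have hl : (64 : ℝ) ≤ (π.l : ℝ) := by exact_mod_cast F.hl
  have h1 := s6s_rec_le F A ha hb (C1 * N.Bm + N.Bt) (fun x y hx hy => hE π Cm L σ h N u v x y F A hx hy)
  have h2 := hnum π Cm L σ h C0 N ν Bk δ u v a b F A ha hb hmono hBk0 hcap hδ Ta Tb
  rw [← hK] at h2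
  have h3 := A.tail σ F.hσ a b
  have h4 := F.Eold_sub A a b
  have hl64 : 1 / (π.l : ℝ) ≤ 1 / 64 := one_div_le_one_div_of_le (by norm_num) hl
  have hl0 : 0 ≤ 1 / (π.l : ℝ) := by positivity
  have h5 : 8 * (2 / (π.l : ℝ)) * (C1 * N.Bm + N.Bt) ≤ 16 * C1 * N.Bm ^ 2 + N.Bt := by
    have e : 8 * (2 / (π.l : ℝ)) * (C1 * N.Bm + N.Bt) =
        16 * C1 * (1 / (π.l : ℝ) * N.Bm) + 16 * (1 / (π.l : ℝ)) * N.Bt := by ring
    rw [e]
    have g1 : 1 / (π.l : ℝ) * N.Bm ≤ N.Bm * N.Bm := mul_le_mul_of_nonneg_right hlB hBm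
    have g2 : 16 * (1 / (π.l : ℝ)) * N.Bt ≤ 1 * N.Bt := mul_le_mul_of_nonneg_right (by linarith) hBt
    have g3 := mul_le_mul_of_nonneg_left g1 (by positivity : (0 : ℝ) ≤ 16 * C1)
    nlinarith
  have e : π.dEent L σ h u v a b = (π.dEent L σ h u v a b - (π.Eold L σ h u v a b - π.Eent L σ h a b))
      + (s6dNum π.l σ h (π.Tp L σ h u v) (π.Epair L σ h u v) (π.s6p L σ h u v a) (π.s6ee L σ h u v a)
        (π.s6p L σ h u v b) (π.s6ee L σ h u v b) - π.ent (π.tailR L σ h u v) a b) := by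
    rw [← h4]
    ring
  rw [e]
  have h6 := abs_add_le (π.dEent L σ h u v a b - (π.Eold L σ h u v a b - π.Eent L σ h a b))
    (s6dNum π.l σ h (π.Tp L σ h u v) (π.Epair L σ h u v) (π.s6p L σ h u v a) (π.s6ee L σ h u v a)
        (π.s6p L σ h u v b) (π.s6ee L σ h u v b) - π.ent (π.tailR L σ h u v) a b)
  have h7 := abs_sub (s6dNum π.l σ h (π.Tp L σ h u v) (π.Epair L σ h u v) (π.s6p L σ h u v a)
    (π.s6ee L σ h u v a) (π.s6p L σ h u v b) (π.s6ee L σ h u v b)) (π.ent (π.tailR L σ h u v) a b)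
  have q1 : 0 ≤ δ * N.Bm := by positivity
  have q2 : 0 ≤ N.Bm ^ 2 := by positivity
  have q3 : 0 ≤ C1 * K := by positivity
  have q4 : 0 ≤ C1 * (δ * N.Bm) := by positivity
  have q5 : 0 ≤ C1 * N.Bt := by positivity
  have q6 : 0 ≤ C2 * N.Bt := by positivity
  nlinarith

end PPair

end Claimed.Agent.R275
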