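import Claimed.Agent.R275.Stage
import Claimed.Agent.R275.Accounts
import Claimed.Agent.R275.S3Excess
import Claimed.Agent.R275.L41

/-!
# Row 275, Sec 6 (cleanup.tex): THE CLEANUP PHASE (definitions over a generic ordered field `K`)

Owner: helper208.  Definitions + two small packages of statements at the end (S6-PHASE).

STATE = `PPair n d`.  The state `π₁` at `l₁` is a PARAMETER of the phase (it freezes the bad list, the order of first endpoints and the levels).
RUN   = `(s6Phase ℚ d n P SA π₁).run π₁ (bb n)`  (`Accounts.Phase`, greedy discounted rule).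
* first endpoint `u` = first unresolved stub in the fixed order `badL ++ clean` (`s6first`);
* candidates = `π.resolve u v`, `v` in the list of the unresolved initially clean stubs `≠ u` (`s6elig`) : every such pair is admissible;
* accounts (per tracked `h`, sign `s`):  `1 + L_1²/S_1²`,  `1 + L_0²/S_0²`,  `1 + T_S/S_T`,  and for every ordered pair of labels and sign `ε` the
  excess account `1 + ((ε E_ab - B_k)_+ / (λ B_k))^p` while both labels are alive, `0` after a death (`k` = total level);
  plus the structural accounts `SA` (STRUCT-ACCOUNTS, helper153), appended as `Sum.inl`.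
CHANGES w.r.t. the paper (all justified in `S6Trace.lean`, `S6Jump.lean`, `S6Bud.lean`): no `𝒯`-deviation account, no special/ordinary split, comparators `≡ 1`.
Machine side (helper23): `labelList n d` enumerates `Label n d` in the order of `iall (Label n d)`, `stubList` in the order of `iall (Stub n d)`.
-/

set_option autoImplicit false

namespace Claimed.Agent.R275

open Matrix

/-- the rational parameters of the cleanup phase -/
structure S6Par where
  /-- the constant of the primaries (Sec 2) -/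
  cp : ℚ
  /-- level gap: `B_k = B_c n^{4 k ρ}` -/
  ρ : ℚ
  /-- `λ = n^{-ζ}` -/
  ζ : ℚ
  /-- `S_T = n^{xT}` -/
  xT : ℚ
  /-- moment order of the entry accounts -/
  p : ℕ

/-- all labels: global coordinates first, then stubs -/
def labelList (n d : ℕ) : List (Label n d) :=
  (List.finRange n).map Label.glob ++ (stubList n d).map Label.stub

namespace PPair

variable {n d : ℕ}

instance s6AliveDec (π : PPair n d) : (a : Label n d) → Decidable (π.Alive a)
  | .glob _ => isTrue trivial
  | .stub x => inferInstanceAs (Decidable (π.Unres x))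

/-- initially clean stubs -/
def s6clean (π₁ : PPair n d) : List (Stub n d) :=
  π₁.unresL.filter fun x => !decide (π₁.Bad (R0 d n) x)

/-- the fixed order of first endpoints: bad stubs first -/
def s6ord (π₁ : PPair n d) : List (Stub n d) := π₁.badL (R0 d n) ++ π₁.s6clean

/-- the prescribed first endpoint -/
def s6first (π₁ π : PPair n d) : Option (Stub n d) := π₁.s6ord.find? fun x => decide (π.Unres x)

/-- the eligible partners -/
def s6elig (π₁ π : PPair n d) (u : Stub n d) : List (Stub n d) :=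
  π₁.s6clean.filter fun v => decide (π.Unres v) && decide (v ≠ u)

/-- the candidates of one cleanup step -/
def s6cands (π₁ π : PPair n d) : List (PPair n d) :=
  match π₁.s6first π with
  | none => []
  | some u => (π₁.s6elig π u).map (π.resolve u)

/-- level of a label: 2 global, 1 initially bad stub, 0 otherwise -/
def s6lev (π₁ : PPair n d) : Label n d → ℕ
  | .glob _ => 2
  | .stub x => if π₁.Bad (R0 d n) x then 1 else 0

end PPair

/-! ## scales (rational, computable) -/

/-- `B_k ≍ n^{.35a + 4kρ} / √l₀` -/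
def s6B (P : S6Par) (n k : ℕ) : ℚ := scQ (35 / 100 * aa + 4 * k * P.ρ - (1 / 3 + 75 / 1000 * aa)) n

/-- `λ ≍ n^{-ζ}` -/
def s6lam (P : S6Par) (n : ℕ) : ℚ := scQ (-P.ζ) n

/-- `S_1 ≍ n^{.085a}/α_*`, `S_0 ≍ n^{.115a}/α_*²`, `S_T ≍ n^{xT}` -/
def s6S1 (d n : ℕ) : ℚ := scQ (85 / 1000 * aa) n / alphaf d (prim d n 0)
def s6S0 (d n : ℕ) : ℚ := scQ (115 / 1000 * aa) n / alphaf d (prim d n 0) ^ 2
def s6ST (P : S6Par) (n : ℕ) : ℚ := scQ P.xT n

/-! ## accounts -/

/-- labels of the analytic accounts of cleanup -/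
inductive S6Lab (n d : ℕ) : Type
  | trL1 (h : ℚ) (s : Bool)
  | trL0 (h : ℚ) (s : Bool)
  | tS (h : ℚ) (s : Bool)
  | ent (h : ℚ) (s : Bool) (ε : Bool) (a b : Label n d)

/-- the list of the analytic accounts -/
def s6labels (d n : ℕ) (cp : ℚ) : List (S6Lab n d) :=
  (trackedList d n cp).flatMap fun h => [false, true].flatMap fun s =>
    [S6Lab.trL1 h s, S6Lab.trL0 h s, S6Lab.tS h s] ++
      [false, true].flatMap fun ε => (labelList n d).flatMap fun a => (labelList n d).map fun b =>
        S6Lab.ent h s ε a b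

section Field

variable (K : Type) [Field K] [LinearOrder K] [IsStrictOrderedRing K]

/-- weights: `1` for the scalar accounts, `1 / F` for the entry accounts, `F` = number of entry accounts -/
def s6wt (d n : ℕ) (cp : ℚ) : S6Lab n d → K
  | .ent _ _ _ _ _ => (((trackedList d n cp).length * 4 * (n + n * d) ^ 2 : ℕ) : K)⁻¹
  | _ => 1

/-- values of the analytic accounts -/
noncomputable def s6Zv (d n : ℕ) (P : S6Par) (π₁ : PPair n d) : S6Lab n d → PPair n d → K
  | .trL1 h s, π => 1 + π.L1 (sgn s) (h : K) ^ 2 / ((s6S1 d n : ℚ) : K) ^ 2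
  | .trL0 h s, π => 1 + π.L0 (sgn s) (h : K) ^ 2 / ((s6S0 d n : ℚ) : K) ^ 2
  | .tS h s, π => 1 + π.TS (Lcut d n) (sgn s) (h : K) / ((s6ST P n : ℚ) : K)
  | .ent h s ε a b, π =>
      if π.Alive a ∧ π.Alive b then
        excessZ P.p (sgn ε * π.Eent (Lcut d n) (sgn s) (h : K) a b) ((s6B P n (π₁.s6lev a + π₁.s6lev b) : ℚ) : K)
          (((s6lam P n * s6B P n (π₁.s6lev a + π₁.s6lev b) : ℚ)) : K)
      else 0

/-- THE CLEANUP PHASE -/
noncomputable def s6Phase {ιs : Type} (d n : ℕ) (P : S6Par) (SA : Phase K (PPair n d) ιs) (π₁ : PPair n d) :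
    Phase K (PPair n d) (ιs ⊕ S6Lab n d) where
  labels := SA.labels.map Sum.inl ++ (s6labels d n P.cp).map Sum.inr
  wt := Sum.elim SA.wt (s6wt K d n P.cp)
  Z := fun i π => Sum.elim (fun j => SA.Z j π) (fun j => s6Zv K d n P π₁ j π) i
  cands := π₁.s6cands

end Field

/-- the state after cleanup -/
noncomputable def s6Run {ιs : Type} (d n : ℕ) (P : S6Par) (SA : Phase ℚ (PPair n d) ιs) (π₁ : PPair n d) : PPair n d :=
  ((s6Phase ℚ d n P SA π₁).run π₁ (bb n)).1

/-! ## package S6-PHASE, part 1: naturality (the machine runs over `ℚ`, the analysis over `ℝ`) -/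

theorem s6p_cast_sgn (b : Bool) : (((sgn b : ℚ)) : ℝ) = sgn b := by
  cases b <;> simp [sgn]

theorem s6p_cast_L1 {n d : ℕ} (π : PPair n d) (b : Bool) (h : ℚ) :
    ((π.L1 (sgn b) h : ℚ) : ℝ) = π.L1 (sgn b) (h : ℝ) := by
  have := π.map_L1 (Rat.castHom ℝ) (sgn b) h
  simpa [s6p_cast_sgn] using this

theorem s6p_cast_L0 {n d : ℕ} (π : PPair n d) (b : Bool) (h : ℚ) :
    ((π.L0 (sgn b) h : ℚ) : ℝ) = π.L0 (sgn b) (h : ℝ) := by
  have := π.map_L0 (Rat.castHom ℝ) (sgn b) h
  simpa [s6p_cast_sgn] using this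

theorem s6p_cast_TS {n d : ℕ} (π : PPair n d) (L : ℕ) (b : Bool) (h : ℚ) :
    ((π.TS L (sgn b) h : ℚ) : ℝ) = π.TS L (sgn b) (h : ℝ) := by
  have := π.map_TS (Rat.castHom ℝ) L (sgn b) h
  simpa [s6p_cast_sgn] using this

theorem s6p_cast_Eent {n d : ℕ} (π : PPair n d) (L : ℕ) (b : Bool) (h : ℚ) (x y : Label n d) :
    ((π.Eent L (sgn b) h x y : ℚ) : ℝ) = π.Eent L (sgn b) (h : ℝ) x y := by
  have := π.map_ent (Rat.castHom ℝ) (π.Emat L (sgn b) h) x y
  rw [π.map_Emat] at this
  simpa [s6p_cast_sgn, PPair.Eent] using this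

theorem s6p_cast_excessZ (p : ℕ) (X T b : ℚ) :
    ((excessZ p X T b : ℚ) : ℝ) = excessZ p (X : ℝ) (T : ℝ) (b : ℝ) := by
  unfold excessZ
  push_cast
  rfl

theorem s6Zv_cast (d n : ℕ) (P : S6Par) (π₁ : PPair n d) (j : S6Lab n d) (π : PPair n d) :
    ((s6Zv ℚ d n P π₁ j π : ℚ) : ℝ) = s6Zv ℝ d n P π₁ j π := by
  cases j with
  | trL1 h s =>
    simp only [s6Zv, Rat.cast_id]
    push_cast
    rw [s6p_cast_L1]
  | trL0 h s =>
    simp only [s6Zv, Rat.cast_id]
    push_cast
    rw [s6p_cast_L0]
  | tS h s =>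
    simp only [s6Zv, Rat.cast_id]
    push_cast
    rw [s6p_cast_TS]
  | ent h s ε a b =>
    simp only [s6Zv, Rat.cast_id]
    split_ifs
    · rw [s6p_cast_excessZ]
      push_cast
      rw [s6p_cast_Eent, s6p_cast_sgn]
    · simp

theorem s6p_cast_wt (d n : ℕ) (cp : ℚ) (j : S6Lab n d) :
    ((s6wt ℚ d n cp j : ℚ) : ℝ) = s6wt ℝ d n cp j := by
  cases j <;> simp [s6wt]

theorem s6Phase_map {ιs : Type} (d n : ℕ) (P : S6Par) (SA : Phase ℚ (PPair n d) ιs) (π₁ : PPair n d) :
    (s6Phase ℚ d n P SA π₁).map (Rat.castHom ℝ) = s6Phase ℝ d n P (SA.map (Rat.castHom ℝ)) π₁ := by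
  unfold s6Phase Phase.map
  congr 1
  · funext i
    cases i with
    | inl j => rfl
    | inr j => exact s6p_cast_wt d n P.cp j
  · funext i π
    cases i with
    | inl j => rfl
    | inr j => exact s6Zv_cast d n P π₁ j π

/-- the rational and the real run visit the same states -/
theorem s6Run_eq {ιs : Type} (d n : ℕ) (P : S6Par) (SA : Phase ℚ (PPair n d) ιs) (π₁ : PPair n d) :
    s6Run d n P SA π₁ = ((s6Phase ℝ d n P (SA.map (Rat.castHom ℝ)) π₁).run π₁ (bb n)).1 := by
  rw [← s6Phase_map, Phase.map_run (Rat.castHom ℝ) Rat.cast_strictMono]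
  rfl

/-! ## package S6-PHASE, part 2: combinatorics of the candidates -/

namespace PPair

variable {n d : ℕ} (π₁ π : PPair n d)

theorem s6_mem_stubList (x : Stub n d) : x ∈ stubList n d := by
  unfold stubList
  rw [List.mem_flatMap]
  exact ⟨x.1, List.mem_finRange _, List.mem_map.2 ⟨x.2, List.mem_finRange _, rfl⟩⟩

theorem s6_nodup_stubList : (stubList n d).Nodup :=
  (List.nodup_finRange n).product (List.nodup_finRange d)

theorem s6_mem_labelList (a : Label n d) : a ∈ labelList n d := by
  unfold labelList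
  rw [List.mem_append]
  cases a with
  | glob i => exact Or.inl (List.mem_map.2 ⟨i, List.mem_finRange _, rfl⟩)
  | stub x => exact Or.inr (List.mem_map.2 ⟨x, s6_mem_stubList x, rfl⟩)

theorem s6_length_labelList : (labelList n d).length = n + n * d := by
  have h : (stubList n d).length = n * d := by
    have := List.length_product (List.finRange n) (List.finRange d)
    simp only [List.length_finRange] at this
    exact this
  unfold labelList
  rw [List.length_append, List.length_map, List.length_map, List.length_finRange, h]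

theorem s6_mem_unresL (x : Stub n d) : x ∈ π.unresL ↔ π.Unres x := by
  unfold unresL
  rw [List.mem_filter, decide_eq_true_eq]
  exact ⟨fun h => h.2, fun h => ⟨s6_mem_stubList x, h⟩⟩

theorem s6_mem_badL (R : ℕ) (x : Stub n d) : x ∈ π.badL R ↔ π.Bad R x := by
  unfold badL
  rw [List.mem_filter, decide_eq_true_eq]
  exact ⟨fun h => h.2, fun h => ⟨s6_mem_stubList x, h⟩⟩

theorem s6_mem_clean (x : Stub n d) : x ∈ π₁.s6clean ↔ π₁.Unres x ∧ ¬ π₁.Bad (R0 d n) x := by
  unfold s6clean
  rw [List.mem_filter, s6_mem_unresL, Bool.not_eq_true', decide_eq_false_iff_not]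

theorem s6_nodup_elig (u : Stub n d) : (π₁.s6elig π u).Nodup :=
  ((s6_nodup_stubList.filter _).filter _).filter _

theorem s6_mem_elig (u v : Stub n d) :
    v ∈ π₁.s6elig π u ↔ π₁.Unres v ∧ ¬ π₁.Bad (R0 d n) v ∧ π.Unres v ∧ v ≠ u := by
  unfold s6elig
  rw [List.mem_filter, s6_mem_clean, Bool.and_eq_true, decide_eq_true_eq, decide_eq_true_eq]
  tauto

/-- the first endpoint is unresolved; it is bad as long as an initially bad stub is unresolved -/
theorem s6first_spec {u : Stub n d} (h : π₁.s6first π = some u) :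
    π.Unres u ∧ π₁.Unres u ∧ ((∃ x, π₁.Bad (R0 d n) x ∧ π.Unres x) → π₁.Bad (R0 d n) u) := by
  unfold s6first at h
  have h1 : π.Unres u := by
    have := List.find?_some h
    simpa using this
  have h2 : u ∈ π₁.s6ord := List.mem_of_find?_eq_some h
  refine ⟨h1, ?_, ?_⟩
  · unfold s6ord at h2
    rcases List.mem_append.1 h2 with h3 | h3
    · exact ((s6_mem_badL π₁ _ u).1 h3).1
    · exact ((s6_mem_clean π₁ u).1 h3).1
  · rintro ⟨x, hx1, hx2⟩
    unfold s6ord at h
    rw [List.find?_append] at h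
    have h3 : ((π₁.badL (R0 d n)).find? fun x => decide (π.Unres x)).isSome := by
      rw [List.find?_isSome]
      exact ⟨x, (s6_mem_badL π₁ _ x).2 hx1, by simpa using hx2⟩
    obtain ⟨y, hy⟩ := Option.isSome_iff_exists.1 h3
    rw [hy, Option.some_or] at h
    have : y = u := Option.some.inj h
    subst this
    exact (s6_mem_badL π₁ _ y).1 (List.mem_of_find?_eq_some hy)

/-- extension of pairings -/
theorem s6_Le_refl : π.Le π := fun _ _ => rfl

theorem s6_Le_trans {π₂ π₃ : PPair n d} (h₁ : π.Le π₂) (h₂ : π₂.Le π₃) : π.Le π₃ := by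
  intro x hx
  have e := h₁ x hx
  have hx2 : ¬ π₂.Unres x := by
    intro h
    apply hx
    have : π₂.mate x = x := h
    rw [e] at this
    exact this
  rw [h₂ x hx2, e]

theorem s6_Le_unres {π₂ : PPair n d} (h : π.Le π₂) {x : Stub n d} (hx : π₂.Unres x) : π.Unres x := by
  by_contra hc
  have e := h x hc
  have : π₂.mate x = x := hx
  rw [e] at this
  exact hc this

theorem s6_le_resolve {u v : Stub n d} (hu : π.Unres u) (hv : π.Unres v) : π.Le (π.resolve u v) := by
  intro x hx
  have h1 : x ≠ u := fun e => hx (by rw [e]; exact hu)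
  have h2 : x ≠ v := fun e => hx (by rw [e]; exact hv)
  rw [resolve_mate hu hv, if_neg h1, if_neg h2]

theorem s6first_isSome (hle : π₁.Le π) (hl : 0 < π.l) : ∃ u, π₁.s6first π = some u := by
  obtain ⟨x, hx⟩ := Finset.card_pos.1 hl
  have hx2 : π.Unres x := (Finset.mem_filter.1 hx).2
  have hx1 : π₁.Unres x := s6_Le_unres π₁ hle hx2
  have hmem : x ∈ π₁.s6ord := by
    unfold s6ord
    rw [List.mem_append]
    by_cases hb : π₁.Bad (R0 d n) x
    · exact Or.inl ((s6_mem_badL π₁ _ x).2 hb)
    · exact Or.inr ((s6_mem_clean π₁ x).2 ⟨hx1, hb⟩)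
  apply Option.isSome_iff_exists.1
  unfold s6first
  rw [List.find?_isSome]
  exact ⟨x, hmem, by simpa using hx2⟩

theorem s6_mem_cands (π' : PPair n d) :
    π' ∈ π₁.s6cands π ↔ ∃ u v, π₁.s6first π = some u ∧ v ∈ π₁.s6elig π u ∧ π' = π.resolve u v := by
  unfold s6cands
  cases h : π₁.s6first π with
  | none => simp
  | some u =>
    simp only [List.mem_map, Option.some.injEq]
    constructor
    · rintro ⟨v, hv, rfl⟩
      exact ⟨u, v, rfl, hv, rfl⟩
    · rintro ⟨u', v, rfl, hv, rfl⟩
      exact ⟨v, hv, rfl⟩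

/-- the eligible list omits at most the initially bad stubs and `u` -/
theorem s6elig_card (hle : π₁.Le π) (u : Stub n d) :
    π.l ≤ (π₁.s6elig π u).length + (π₁.badL (R0 d n)).length + 1 := by
  have hsub : π.unres ⊆ ((π₁.s6elig π u).toFinset ∪ (π₁.badL (R0 d n)).toFinset) ∪ {u} := by
    intro x hx
    have hx2 : π.Unres x := (Finset.mem_filter.1 hx).2
    have hx1 : π₁.Unres x := s6_Le_unres π₁ hle hx2
    simp only [Finset.mem_union, List.mem_toFinset, Finset.mem_singleton]
    by_cases hb : π₁.Bad (R0 d n) x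
    · exact Or.inl (Or.inr ((s6_mem_badL π₁ _ x).2 hb))
    · by_cases hxu : x = u
      · exact Or.inr hxu
      · exact Or.inl (Or.inl ((s6_mem_elig π₁ π u x).2 ⟨hx1, hb, hx2, hxu⟩))
  calc π.l = π.unres.card := rfl
    _ ≤ _ := Finset.card_le_card hsub
    _ ≤ ((π₁.s6elig π u).toFinset ∪ (π₁.badL (R0 d n)).toFinset).card + ({u} : Finset (Stub n d)).card :=
        Finset.card_union_le _ _
    _ ≤ ((π₁.s6elig π u).toFinset.card + (π₁.badL (R0 d n)).toFinset.card) + 1 :=
        Nat.add_le_add (Finset.card_union_le _ _) (by simp)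
    _ ≤ _ := by
        have h1 := List.toFinset_card_le (π₁.s6elig π u)
        have h2 := List.toFinset_card_le (π₁.badL (R0 d n))
        omega

/-- list averages over the candidates as Finset sums over the eligible set -/
theorem s6_lavg_cands {u : Stub n d} (h : π₁.s6first π = some u) (f : PPair n d → ℝ) :
    lavg (π₁.s6cands π) f =
      (∑ v ∈ (π₁.s6elig π u).toFinset, f (π.resolve u v)) / ((π₁.s6elig π u).toFinset.card : ℝ) := by
  have hnd := s6_nodup_elig π₁ π u
  unfold lavg s6cands
  rw [h]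
  simp only
  rw [List.map_map, List.length_map, List.toFinset_card_of_nodup hnd, List.sum_toFinset _ hnd]
  rfl

end PPair

end Claimed.Agent.R275
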