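import Claimed.Agent.R275.S6Step
import Claimed.Agent.R275.S6Phase

/-!
# Row 275, Sec 6 (cleanup.tex), package S6-PATH: pathwise summation (Lemma 6.2 `lem:cleanup-pathwise`)

Owner of the statements: helper208.  May assume every statement of `S43V.lean` (`s43v_Nact_symm`, `s43v_Nact_row_sum_le`, `s43v_maj_mono`,
`s43v_maj_nonneg`), `L41A.lean`, `S6Phase.lean` (`s6_Le_*`).  No asymptotics: fixed `n`.

A CHAIN is a sequence of exposures `path (s+1) = (path s).resolve (us s) (vs s)`, `s ≤ t`.  The first endpoints `us s` are distinct stubs, at most `d`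
of them sit at one vertex, and every actual walk of `path s` is an actual walk of the last graph `path t` (`s6_Nact_mono`).  So sums over the steps of
actual-walk quantities at `us s` are bounded by `d ×` sums over ALL vertices in the last graph, which are controlled by `WalkOK.mult` and `WalkOK.retsq`:
`∑_w (∑_{k<L} N_k(v,w) z^k)² ≤ L ∑_k z^{2k} CM ∑_w N_k(v,w) ≤ 2 CM L²`  (`z² ≤ 1/q`, `∑_w N_k(v,w) ≤ d q^{k-1}`, `d/q ≤ 2`, `1 ≤ CM`).
-/

set_option autoImplicit false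

namespace Claimed.Agent.R275

open Matrix

namespace PPair

variable {n d : ℕ}

/-- a chain of exposures with steps `0, …, t` (states `path 0, …, path (t+1)`) -/
structure S6Chain (t : ℕ) (path : ℕ → PPair n d) (us vs : ℕ → Stub n d) : Prop where
  hu : ∀ s ≤ t, (path s).Unres (us s)
  hv : ∀ s ≤ t, (path s).Unres (vs s)
  huv : ∀ s ≤ t, us s ≠ vs s
  step : ∀ s ≤ t, path (s + 1) = (path s).resolve (us s) (vs s)

/-! ### entrywise monotonicity of products of nonnegative matrices -/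

theorem s6pa_mul_mono {a b c : Type*} [Fintype b] {A A' : Matrix a b ℝ} {B B' : Matrix b c ℝ}
    (hA : ∀ i j, 0 ≤ A i j) (hB : ∀ i j, 0 ≤ B i j) (hAA : ∀ i j, A i j ≤ A' i j)
    (hBB : ∀ i j, B i j ≤ B' i j) (i : a) (j : c) : (A * B) i j ≤ (A' * B') i j := by
  rw [Matrix.mul_apply, Matrix.mul_apply]
  exact Finset.sum_le_sum fun k _ => mul_le_mul (hAA i k) (hBB k j) (hB k j) ((hA i k).trans (hAA i k))

theorem s6pa_pow_mono {a : Type*} [Fintype a] [DecidableEq a] {A A' : Matrix a a ℝ}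
    (hA : ∀ i j, 0 ≤ A i j) (hAA : ∀ i j, A i j ≤ A' i j) (k : ℕ) (i j : a) :
    (A ^ k) i j ≤ (A' ^ k) i j := by
  induction k generalizing i j with
  | zero => simp
  | succ k ih =>
    rw [pow_succ, pow_succ]
    exact s6pa_mul_mono (s43v_pow_nonneg hA k) hA ih hAA i j

theorem s6pa_Pact_mono {π π' : PPair n d} (h : π.Le π') (x y : Stub n d) :
    π.Pact ℝ x y ≤ π'.Pact ℝ x y := by
  by_cases hx : π.Unres x
  · have e : π.Pact ℝ x y = 0 := by simp [Pact, hx]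
    rw [e]
    exact π'.s43v_Pact_nonneg x y
  · have h1 : π'.mate x = π.mate x := h x hx
    have h2 : ¬ π'.Unres x := fun e => hx (by unfold Unres at e ⊢; rw [← h1]; exact e)
    simp only [Pact, hx, h2, if_false, h1]
    exact le_rfl

/-- actual walks persist -/
theorem s6_Nact_mono {π π' : PPair n d} (h : π.Le π') (k : ℕ) (v w : Fin n) :
    π.Nact ℝ k v w ≤ π'.Nact ℝ k v w := by
  cases k with
  | zero => exact le_rfl
  | succ j =>
    have hC : ∀ i j, 0 ≤ Cinc ℝ n d i j := s43v_Cinc_nonneg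
    have hCt : ∀ i j, 0 ≤ (Cinc ℝ n d)ᵀ i j := fun i j => s43v_Cinc_nonneg j i
    have hP := π.s43v_Pact_nonneg
    have hN : ∀ i j, 0 ≤ NBm ℝ n d i j := s43v_NBm_nonneg
    have hPP := s6pa_Pact_mono h
    simp only [Nact]
    refine s6pa_mul_mono
      (s43v_mul_nonneg (s43v_mul_nonneg hC hP) (s43v_pow_nonneg (s43v_mul_nonneg hN hP) j)) hCt ?_
      (fun _ _ => le_rfl) v w
    refine s6pa_mul_mono (s43v_mul_nonneg hC hP) (s43v_pow_nonneg (s43v_mul_nonneg hN hP) j) ?_ ?_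
    · exact s6pa_mul_mono hC hP (fun _ _ => le_rfl) hPP
    · exact s6pa_pow_mono (s43v_mul_nonneg hN hP) (s6pa_mul_mono hN hP (fun _ _ => le_rfl) hPP) j

theorem s6_Aact_mono {π π' : PPair n d} (h : π.Le π') (L : ℕ) {z : ℝ} (hz : 0 ≤ z) (v w : Fin n) :
    π.Aact L z v w ≤ π'.Aact L z v w ∧ π.Ract L z v ≤ π'.Ract L z v :=
  ⟨Finset.sum_le_sum fun k _ => mul_le_mul_of_nonneg_right (s6_Nact_mono h k v w) (pow_nonneg hz k),
    Finset.sum_le_sum fun k _ => mul_le_mul_of_nonneg_right (s6_Nact_mono h k v v) (pow_nonneg hz k)⟩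

theorem s6pa_Aact_nonneg (π : PPair n d) (L : ℕ) {z : ℝ} (hz : 0 ≤ z) (v w : Fin n) : 0 ≤ π.Aact L z v w :=
  Finset.sum_nonneg fun k _ => mul_nonneg (π.Nact_le_Qmat k v w).1 (pow_nonneg hz k)

theorem s6pa_Ract_nonneg (π : PPair n d) (L : ℕ) {z : ℝ} (hz : 0 ≤ z) (v : Fin n) : 0 ≤ π.Ract L z v :=
  Finset.sum_nonneg fun k _ => mul_nonneg (π.Nact_le_Qmat k v v).1 (pow_nonneg hz k)

theorem s6pa_Aact_symm (π : PPair n d) (L : ℕ) (z : ℝ) (v w : Fin n) : π.Aact L z v w = π.Aact L z w v :=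
  Finset.sum_congr rfl fun k _ => by rw [π.s43v_Nact_symm k v w]

theorem s6pa_Ract_mono_z (π : PPair n d) (L : ℕ) {z z' : ℝ} (hz : 0 ≤ z) (hzz : z ≤ z') (v : Fin n) :
    π.Ract L z v ≤ π.Ract L z' v :=
  Finset.sum_le_sum fun k _ =>
    mul_le_mul_of_nonneg_left (pow_le_pow_left₀ hz hzz k) (π.Nact_le_Qmat k v v).1

section Chain

variable {t : ℕ} {path : ℕ → PPair n d} {us vs : ℕ → Stub n d}

theorem S6Chain.le (Ch : S6Chain t path us vs) {s s' : ℕ} (h : s ≤ s') (hs' : s' ≤ t + 1) :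
    (path s).Le (path s') := by
  induction s', h using Nat.le_induction with
  | base => exact s6_Le_refl _
  | succ m hm ih =>
    have hmt : m ≤ t := by omega
    refine s6_Le_trans _ (ih (by omega)) ?_
    rw [Ch.step m hmt]
    exact s6_le_resolve _ (Ch.hu m hmt) (Ch.hv m hmt)

theorem S6Chain.s6pa_lt_ne (Ch : S6Chain t path us vs) {s s' : ℕ} (hlt : s < s') (hs' : s' ≤ t) :
    us s ≠ us s' := by
  intro h
  have hs : s ≤ t := by omega
  have h1 : (path (s + 1)).Unres (us s) :=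
    s6_Le_unres _ (Ch.le (show s + 1 ≤ s' from hlt) (by omega)) (h ▸ Ch.hu s' hs')
  have h2 : us s ∈ (path (s + 1)).unres := Finset.mem_filter.2 ⟨Finset.mem_univ _, h1⟩
  rw [Ch.step s hs, resolve_unres (Ch.hu s hs) (Ch.hv s hs) (Ch.huv s hs)] at h2
  exact (Finset.mem_erase.1 (Finset.mem_erase.1 h2).2).1 rfl

/-- the first endpoints are distinct -/
theorem S6Chain.us_inj (Ch : S6Chain t path us vs) {s s' : ℕ} (hs : s ≤ t) (hs' : s' ≤ t) (h : us s = us s') :
    s = s' := by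
  rcases lt_trichotomy s s' with hlt | he | hgt
  · exact absurd h (Ch.s6pa_lt_ne hlt hs')
  · exact he
  · exact absurd h.symm (Ch.s6pa_lt_ne hgt hs)

theorem s6pa_sum_stub (f : Fin n → ℝ) : ∑ x : Stub n d, f x.1 = (d : ℝ) * ∑ w, f w := by
  rw [Fintype.sum_prod_type, Finset.mul_sum]
  refine Finset.sum_congr rfl fun w _ => ?_
  simp

/-- at most `d` of the first endpoints sit at one vertex -/
theorem S6Chain.sum_le (Ch : S6Chain t path us vs) (f : Fin n → ℝ) (hf : ∀ w, 0 ≤ f w) :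
    ∑ s ∈ Finset.range (t + 1), f (us s).1 ≤ (d : ℝ) * ∑ w, f w := by
  have hinj : Set.InjOn us (Finset.range (t + 1) : Set ℕ) := by
    intro s hs s' hs' h
    have h1 : s < t + 1 := Finset.mem_range.1 hs
    have h2 : s' < t + 1 := Finset.mem_range.1 hs'
    exact Ch.us_inj (by omega) (by omega) h
  rw [← s6pa_sum_stub (d := d) f, ← Finset.sum_image (f := fun x : Stub n d => f x.1) hinj]
  exact Finset.sum_le_sum_of_subset_of_nonneg (Finset.subset_univ _) fun x _ _ => hf x.1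

end Chain

/-- sums over the unresolved stubs are at most `d ×` sums over the vertices -/
theorem s6_sum_unres_le (π : PPair n d) (f : Fin n → ℝ) (hf : ∀ w, 0 ≤ f w) :
    ∑ x ∈ π.unres, f x.1 ≤ (d : ℝ) * ∑ w, f w := by
  rw [← s6pa_sum_stub (d := d) f]
  exact Finset.sum_le_sum_of_subset_of_nonneg (Finset.subset_univ _) fun x _ _ => hf x.1

/-- `z^{2k} ∑_w N_k(v, w) ≤ 2` -/
theorem s6pa_row_k (hd : 3 ≤ d) (π : PPair n d) {z : ℝ} (hz : 0 ≤ z) (hz' : z ≤ zq d) (v : Fin n) (k : ℕ) :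
    (∑ w, π.Nact ℝ k v w) * (z ^ k) ^ 2 ≤ 2 := by
  have hd' : (3 : ℝ) ≤ d := by exact_mod_cast hd
  have hq : (0 : ℝ) < (d : ℝ) - 1 := by linarith
  obtain ⟨_, hf2, hf3⟩ := s43v_sqrt_facts d hd
  have hzq2 : zq d ^ 2 = ((d : ℝ) - 1)⁻¹ := by
    rw [zq, inv_pow, Real.sq_sqrt hq.le]
  have hz2 : z ^ 2 ≤ ((d : ℝ) - 1)⁻¹ := by
    rw [← hzq2]
    exact pow_le_pow_left₀ hz hz' 2
  have hzk : (z ^ k) ^ 2 ≤ (((d : ℝ) - 1)⁻¹) ^ k := by
    rw [← pow_mul, mul_comm, pow_mul]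
    exact pow_le_pow_left₀ (sq_nonneg z) hz2 k
  have hs0 : 0 ≤ ∑ w, π.Nact ℝ k v w := Finset.sum_nonneg fun w _ => (π.Nact_le_Qmat k v w).1
  cases k with
  | zero =>
    simp only [Nact, Matrix.one_apply, Finset.sum_ite_eq, Finset.mem_univ, if_true, pow_zero, one_pow, mul_one]
    norm_num
  | succ k =>
    calc (∑ w, π.Nact ℝ (k + 1) v w) * (z ^ (k + 1)) ^ 2
        ≤ ((d : ℝ) * ((d : ℝ) - 1) ^ k) * (((d : ℝ) - 1)⁻¹) ^ (k + 1) :=
          mul_le_mul (π.s43v_Nact_row_sum_le k v) hzk (sq_nonneg _) (by positivity)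
      _ = (d : ℝ) * ((d : ℝ) - 1)⁻¹ := by
          rw [pow_succ, inv_pow]
          field_simp
      _ ≤ 2 := by
          rw [← div_eq_mul_inv, div_le_iff₀ hq]
          linarith

/-- ALL-VERTEX row squares of the actual walks -/
theorem s6_row_all (hd : 3 ≤ d) {π : PPair n d} {CM CR η : ℝ} {Rc : ℕ} (W : π.WalkOK CM CR η Rc) {z : ℝ}
    (hz : 0 ≤ z) (hz' : z ≤ zq d) (v : Fin n) :
    ∑ w, π.Aact (Lcut d n) z v w ^ 2 ≤ 2 * CM * (Lcut d n : ℝ) ^ 2 := by
  have hCM : 0 ≤ CM := ((π.Nact_le_Qmat 0 v v).1).trans (W.mult v v 0 (Nat.zero_le _))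
  have h1 : ∀ w, π.Aact (Lcut d n) z v w ^ 2 ≤
      (Lcut d n : ℝ) * ∑ k ∈ Finset.range (Lcut d n), CM * (π.Nact ℝ k v w * (z ^ k) ^ 2) := by
    intro w
    have hcs := sq_sum_le_card_mul_sum_sq (s := Finset.range (Lcut d n))
      (f := fun k => π.Nact ℝ k v w * z ^ k)
    rw [Finset.card_range] at hcs
    refine hcs.trans (mul_le_mul_of_nonneg_left (Finset.sum_le_sum fun k hk => ?_) (Nat.cast_nonneg _))
    have hk' : k ≤ Lcut d n := (Finset.mem_range.1 hk).le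
    have hN0 := (π.Nact_le_Qmat k v w).1
    have hN1 := W.mult v w k hk'
    calc (π.Nact ℝ k v w * z ^ k) ^ 2 = π.Nact ℝ k v w * (π.Nact ℝ k v w * (z ^ k) ^ 2) := by ring
      _ ≤ CM * (π.Nact ℝ k v w * (z ^ k) ^ 2) :=
          mul_le_mul_of_nonneg_right hN1 (mul_nonneg hN0 (sq_nonneg _))
  calc ∑ w, π.Aact (Lcut d n) z v w ^ 2
      ≤ ∑ w, (Lcut d n : ℝ) * ∑ k ∈ Finset.range (Lcut d n), CM * (π.Nact ℝ k v w * (z ^ k) ^ 2) :=
        Finset.sum_le_sum fun w _ => h1 w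
    _ = (Lcut d n : ℝ) * ∑ k ∈ Finset.range (Lcut d n), CM * ((∑ w, π.Nact ℝ k v w) * (z ^ k) ^ 2) := by
        rw [← Finset.mul_sum, Finset.sum_comm]
        congr 1
        refine Finset.sum_congr rfl fun k _ => ?_
        rw [← Finset.mul_sum, Finset.sum_mul]
    _ ≤ (Lcut d n : ℝ) * ∑ _k ∈ Finset.range (Lcut d n), CM * 2 :=
        mul_le_mul_of_nonneg_left
          (Finset.sum_le_sum fun k _ => mul_le_mul_of_nonneg_left (s6pa_row_k hd π hz hz' v k) hCM)
          (Nat.cast_nonneg _)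
    _ = 2 * CM * (Lcut d n : ℝ) ^ 2 := by
        rw [Finset.sum_const, Finset.card_range, nsmul_eq_mul]
        ring

section L62

variable {t : ℕ} {path : ℕ → PPair n d} {us vs : ℕ → Stub n d} {CM CR η : ℝ} {Rc : ℕ}

/-- (6.2), actual rows -/
theorem s6_path_row (hd : 3 ≤ d) (Ch : S6Chain t path us vs) (W : (path t).WalkOK CM CR η Rc) {z : ℝ}
    (hz : 0 ≤ z) (hz' : z ≤ zq d) (w : Fin n) :
    ∑ s ∈ Finset.range (t + 1), (path s).Aact (Lcut d n) z w (us s).1 ^ 2 ≤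
      2 * d * CM * (Lcut d n : ℝ) ^ 2 := by
  calc ∑ s ∈ Finset.range (t + 1), (path s).Aact (Lcut d n) z w (us s).1 ^ 2
      ≤ ∑ s ∈ Finset.range (t + 1), (path t).Aact (Lcut d n) z w (us s).1 ^ 2 := by
        refine Finset.sum_le_sum fun s hs => ?_
        have hst : s ≤ t := by have := Finset.mem_range.1 hs; omega
        exact pow_le_pow_left₀ (s6pa_Aact_nonneg _ _ hz _ _)
          (s6_Aact_mono (Ch.le hst (by omega)) _ hz _ _).1 2
    _ ≤ (d : ℝ) * ∑ w', (path t).Aact (Lcut d n) z w w' ^ 2 :=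
        Ch.sum_le (fun w' => (path t).Aact (Lcut d n) z w w' ^ 2) fun _ => sq_nonneg _
    _ ≤ (d : ℝ) * (2 * CM * (Lcut d n : ℝ) ^ 2) :=
        mul_le_mul_of_nonneg_left (s6_row_all hd W hz hz' w) (Nat.cast_nonneg _)
    _ = _ := by ring

/-- (6.2), actual returns -/
theorem s6_path_ret (hd : 3 ≤ d) (Ch : S6Chain t path us vs) (W : (path t).WalkOK CM CR η Rc) {z : ℝ}
    (hz : 0 ≤ z) (hz' : z ≤ zq d) :
    ∑ s ∈ Finset.range (t + 1), (path s).Ract (Lcut d n) z (us s).1 ^ 2 ≤ d * (n : ℝ) ^ η := by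
  calc ∑ s ∈ Finset.range (t + 1), (path s).Ract (Lcut d n) z (us s).1 ^ 2
      ≤ ∑ s ∈ Finset.range (t + 1), (path t).Ract (Lcut d n) (zq d) (us s).1 ^ 2 := by
        refine Finset.sum_le_sum fun s hs => ?_
        have hst : s ≤ t := by have := Finset.mem_range.1 hs; omega
        exact pow_le_pow_left₀ (s6pa_Ract_nonneg _ _ hz _)
          (((s6_Aact_mono (Ch.le hst (by omega)) _ hz (us s).1 (us s).1).2).trans
            (s6pa_Ract_mono_z _ _ hz hz' _)) 2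
    _ ≤ (d : ℝ) * ∑ w', (path t).Ract (Lcut d n) (zq d) w' ^ 2 :=
        Ch.sum_le (fun w' => (path t).Ract (Lcut d n) (zq d) w' ^ 2) fun _ => sq_nonneg _
    _ ≤ d * (n : ℝ) ^ η := mul_le_mul_of_nonneg_left W.retsq (Nat.cast_nonneg _)

/-- the joint sum over steps and partners (second moments of Lemma 6.7, cross topology with two random outers) -/
theorem s6_path_joint (hd : 3 ≤ d) (Ch : S6Chain t path us vs) (W : (path t).WalkOK CM CR η Rc) {z : ℝ}
    (hz : 0 ≤ z) (hz' : z ≤ zq d) (w : Fin n) :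
    ∑ s ∈ Finset.range (t + 1), ∑ v ∈ (path s).unres,
        ((path s).Aact (Lcut d n) z w v.1 * (path s).Aact (Lcut d n) z (us s).1 v.1) ^ 2 ≤
      (2 * d * CM * (Lcut d n : ℝ) ^ 2) ^ 2 := by
  have hd0 : (0 : ℝ) ≤ d := Nat.cast_nonneg _
  have hB0 : 0 ≤ 2 * CM * (Lcut d n : ℝ) ^ 2 :=
    (Finset.sum_nonneg fun _ _ => sq_nonneg _).trans (s6_row_all hd W hz hz' w)
  calc ∑ s ∈ Finset.range (t + 1), ∑ v ∈ (path s).unres,
        ((path s).Aact (Lcut d n) z w v.1 * (path s).Aact (Lcut d n) z (us s).1 v.1) ^ 2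
      ≤ ∑ s ∈ Finset.range (t + 1), (d : ℝ) * ∑ w',
          ((path t).Aact (Lcut d n) z w w' * (path t).Aact (Lcut d n) z (us s).1 w') ^ 2 := by
        refine Finset.sum_le_sum fun s hs => ?_
        have hst : s ≤ t := by have := Finset.mem_range.1 hs; omega
        have hle := Ch.le hst (show t ≤ t + 1 by omega)
        refine le_trans (Finset.sum_le_sum fun v _ => ?_)
          (s6_sum_unres_le (path s) (fun w' =>
            ((path t).Aact (Lcut d n) z w w' * (path t).Aact (Lcut d n) z (us s).1 w') ^ 2)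
            fun _ => sq_nonneg _)
        exact pow_le_pow_left₀ (mul_nonneg (s6pa_Aact_nonneg _ _ hz _ _) (s6pa_Aact_nonneg _ _ hz _ _))
          (mul_le_mul (s6_Aact_mono hle _ hz _ _).1 (s6_Aact_mono hle _ hz _ _).1
            (s6pa_Aact_nonneg _ _ hz _ _) (s6pa_Aact_nonneg _ _ hz _ _)) 2
    _ = (d : ℝ) * ∑ w', (path t).Aact (Lcut d n) z w w' ^ 2 *
          ∑ s ∈ Finset.range (t + 1), (path t).Aact (Lcut d n) z w' (us s).1 ^ 2 := by
        rw [← Finset.mul_sum, Finset.sum_comm]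
        congr 1
        refine Finset.sum_congr rfl fun w' _ => ?_
        rw [Finset.mul_sum]
        refine Finset.sum_congr rfl fun s _ => ?_
        rw [mul_pow, s6pa_Aact_symm (path t) _ z (us s).1 w']
    _ ≤ (d : ℝ) * ∑ w', (path t).Aact (Lcut d n) z w w' ^ 2 * ((d : ℝ) * (2 * CM * (Lcut d n : ℝ) ^ 2)) := by
        refine mul_le_mul_of_nonneg_left (Finset.sum_le_sum fun w' _ => ?_) hd0
        refine mul_le_mul_of_nonneg_left ?_ (sq_nonneg _)
        exact (Ch.sum_le (fun x => (path t).Aact (Lcut d n) z w' x ^ 2) fun _ => sq_nonneg _).trans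
          (mul_le_mul_of_nonneg_left (s6_row_all hd W hz hz' w') hd0)
    _ = (d : ℝ) * ((∑ w', (path t).Aact (Lcut d n) z w w' ^ 2) * ((d : ℝ) * (2 * CM * (Lcut d n : ℝ) ^ 2))) := by
        rw [Finset.sum_mul]
    _ ≤ (d : ℝ) * ((2 * CM * (Lcut d n : ℝ) ^ 2) * ((d : ℝ) * (2 * CM * (Lcut d n : ℝ) ^ 2))) :=
        mul_le_mul_of_nonneg_left
          (mul_le_mul_of_nonneg_right (s6_row_all hd W hz hz' w) (mul_nonneg hd0 hB0)) hd0
    _ = _ := by ring

/-- LEMMA 6.2 for the majorants.  `Ub` bounds the uniform part, `Bm` the entries; `A s` = "the label `a` is alive at step `s`"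
(the entry cap is available only there; the other steps are cut off). -/
theorem s6_pathwise (hd : 3 ≤ d) (Ch : S6Chain t path us vs) (W : (path t).WalkOK CM CR η Rc) {Cm σ h Ub Bm : ℝ}
    (hh : 0 ≤ h) (hh' : h ≤ zq d)
    (hU : ∀ s ≤ t, |Umaj d Cm (path s).l (Lcut d n) h| ≤ Ub) (a : Label n d) (A : ℕ → Prop) [DecidablePred A]
    (hE : ∀ s ≤ t, A s → |(path s).eEnt (Lcut d n) σ h a (us s)| ≤ Bm) :
    ∑ s ∈ Finset.range (t + 1), (if A s then (path s).rmaj Cm (Lcut d n) σ h a (us s) else 0) ^ 2 ≤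
        6 * d * CM * (Lcut d n : ℝ) ^ 2 + 3 * ((t : ℝ) + 1) * (Ub ^ 2 + Bm ^ 2) ∧
    ∑ s ∈ Finset.range (t + 1), (path s).jmaj Cm (Lcut d n) h (us s) ^ 2 ≤
        2 * d * (n : ℝ) ^ η + 2 * ((t : ℝ) + 1) * Ub ^ 2 := by
  have hsq : ∀ {x B : ℝ}, |x| ≤ B → x ^ 2 ≤ B ^ 2 := fun {x B} hx => by
    rw [← sq_abs x]
    exact pow_le_pow_left₀ (abs_nonneg x) hx 2
  constructor
  · have h1 : ∀ s ∈ Finset.range (t + 1),
        (if A s then (path s).rmaj Cm (Lcut d n) σ h a (us s) else 0) ^ 2 ≤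
          3 * (path s).Aact (Lcut d n) h a.vtx (us s).1 ^ 2 + 3 * (Ub ^ 2 + Bm ^ 2) := by
      intro s hs
      have hst : s ≤ t := by have := Finset.mem_range.1 hs; omega
      have hu2 := hsq (hU s hst)
      by_cases hA : A s
      · rw [if_pos hA]
        have he2 : |(path s).eEnt (Lcut d n) σ h a (us s)| ^ 2 ≤ Bm ^ 2 :=
          pow_le_pow_left₀ (abs_nonneg _) (hE s hst hA) 2
        unfold rmaj Amaj
        nlinarith [sq_nonneg ((path s).Aact (Lcut d n) h a.vtx (us s).1 - Umaj d Cm (path s).l (Lcut d n) h),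
          sq_nonneg ((path s).Aact (Lcut d n) h a.vtx (us s).1 - |(path s).eEnt (Lcut d n) σ h a (us s)|),
          sq_nonneg (Umaj d Cm (path s).l (Lcut d n) h - |(path s).eEnt (Lcut d n) σ h a (us s)|)]
      · rw [if_neg hA]
        have := sq_nonneg ((path s).Aact (Lcut d n) h a.vtx (us s).1)
        have := sq_nonneg Ub
        have := sq_nonneg Bm
        nlinarith
    refine (Finset.sum_le_sum h1).trans ?_
    rw [Finset.sum_add_distrib, ← Finset.mul_sum, Finset.sum_const, Finset.card_range, nsmul_eq_mul]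
    have := s6_path_row hd Ch W hh hh' a.vtx
    push_cast
    nlinarith
  · have h1 : ∀ s ∈ Finset.range (t + 1), (path s).jmaj Cm (Lcut d n) h (us s) ^ 2 ≤
          2 * (path s).Ract (Lcut d n) h (us s).1 ^ 2 + 2 * Ub ^ 2 := by
      intro s hs
      have hst : s ≤ t := by have := Finset.mem_range.1 hs; omega
      have hu2 := hsq (hU s hst)
      unfold jmaj
      nlinarith [sq_nonneg ((path s).Ract (Lcut d n) h (us s).1 - Umaj d Cm (path s).l (Lcut d n) h)]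
    refine (Finset.sum_le_sum h1).trans ?_
    rw [Finset.sum_add_distrib, ← Finset.mul_sum, Finset.sum_const, Finset.card_range, nsmul_eq_mul]
    have := s6_path_ret hd Ch W hh hh'
    push_cast
    nlinarith

end L62

end PPair

/-! ## Cauchy-Schwarz bookkeeping for sums over the steps (abstract sequences) -/

theorem s6pa_sum_mul_le (T : ℕ) (x y : ℕ → ℝ) (R2 : ℝ) (hx : ∑ s ∈ Finset.range T, x s ^ 2 ≤ R2)
    (hy : ∑ s ∈ Finset.range T, y s ^ 2 ≤ R2) : ∑ s ∈ Finset.range T, x s * y s ≤ R2 := by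
  have h1 : ∑ s ∈ Finset.range T, x s * y s ≤ ∑ s ∈ Finset.range T, (x s ^ 2 + y s ^ 2) / 2 :=
    Finset.sum_le_sum fun s _ => by nlinarith [sq_nonneg (x s - y s)]
  rw [← Finset.sum_div, Finset.sum_add_distrib] at h1
  linarith

/-- `∑ x ≤ √(T ∑ x²)`, `∑ x y ≤ √(∑ x²) √(∑ y²)` in the form used by the budgets -/
theorem s6_cs_sums (T : ℕ) (x y j : ℕ → ℝ) (R2 : ℝ) (hx : ∑ s ∈ Finset.range T, x s ^ 2 ≤ R2)
    (hy : ∑ s ∈ Finset.range T, y s ^ 2 ≤ R2) (hj : ∑ s ∈ Finset.range T, j s ^ 2 ≤ R2) :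
    ∑ s ∈ Finset.range T, x s ≤ Real.sqrt (T * R2) ∧ ∑ s ∈ Finset.range T, x s * y s ≤ R2 ∧
      ∑ s ∈ Finset.range T, x s * j s ≤ R2 := by
  refine ⟨?_, s6pa_sum_mul_le T x y R2 hx hy, s6pa_sum_mul_le T x j R2 hx hj⟩
  have hcs := sq_sum_le_card_mul_sum_sq (s := Finset.range T) (f := x)
  rw [Finset.card_range] at hcs
  apply Real.le_sqrt_of_sq_le
  exact hcs.trans (mul_le_mul_of_nonneg_left hx (Nat.cast_nonneg _))

end Claimed.Agent.R275
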