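import Claimed.Agent.R275.S6Phase
import Claimed.Agent.R275.S6Diag
import Claimed.Agent.R275.S6Jump
import Claimed.Agent.R275.S6Trace
import Claimed.Agent.R275.S6Path

/-!
# Row 275, Sec 6 (cleanup.tex): invariant, interfaces and numerical conditions of the cleanup phase

Owner: helper208.  DEFINITIONS ONLY (the statements about them are in `S6Bridge.lean`, `S6Asym.lean`, `S6Bud.lean`, `S6Ext.lean`, `S6Main.lean`).

ARCHITECTURE.  The whole analysis of cleanup is done at FIXED `n` under three hypotheses: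
* `S6Br`    : "the consequences of Sec 4 hold at every state satisfying the invariant" (package S6-BRIDGE proves `∀ᶠ n, S6Br`),
* `S6NumOK` : finitely many inequalities between the scales (package S6-ASYM proves `∀ C, ∀ᶠ n, S6NumOK C`; pure exponent arithmetic),
* `S6SA`    : the interface of the structural accounts (STRUCT-ACCOUNTS, helper153).
`S6Inv P c π₁ t π` = all caps at time `t` (= Caps C1-C6 of the blueprint).
-/

set_option autoImplicit false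

namespace Claimed.Agent.R275

open Matrix

/-- the real constants of the analysis of cleanup -/
structure S6Cst where
  /-- walk facts -/
  CM : ℝ
  CR : ℝ
  Rc : ℕ
  /-- lower bound of `𝒯` -/
  cT : ℝ
  θ : ℝ
  /-- loss exponent of the walk facts and of `T_S` at `l₁` -/
  η0 : ℝ
  /-- loss exponent `Ne = n^η`, `Qa = n^η q^{L/2}` -/
  η : ℝ
  /-- exponent of the cap of `T_S` during and after cleanup -/
  ηT : ℝ
  /-- exponent of the total initial account value `K₀ = n^{ηs}` -/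
  ηs : ℝ
  /-- decay at admissible pairs `e0 = n^{-c0}` -/
  c0 : ℝ
  /-- decay beyond the separation radius `δ = n^{-βR}` -/
  βR : ℝ
  /-- row-square constant -/
  C0 : ℝ
  /-- `|K_xy| ≤ CK`, `|Q_xy| ≤ CQ / α`, `|J_xy| ≤ CJ n^{v*} / α²` -/
  CK : ℝ
  CQ : ℝ
  CJ : ℝ

/-- replace the internal constants (they are chosen by the bridge to Sec 4) -/
def S6Cst.setInt (c : S6Cst) (C0 CK CQ CJ : ℝ) : S6Cst := { c with C0 := C0, CK := CK, CQ := CQ, CJ := CJ }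

section Scales

variable (d n : ℕ) (P : S6Par) (c : S6Cst)

/-- real versions of the scales -/
noncomputable def s6Brl (k : ℕ) : ℝ := ((s6B P n k : ℚ) : ℝ)
noncomputable def s6lamr : ℝ := ((s6lam P n : ℚ) : ℝ)
noncomputable def s6Bm : ℝ := 2 * s6Brl n P 4
noncomputable def s6Bt : ℝ := (n : ℝ) ^ ((30 / 100 : ℝ) * (aa : ℝ)) / Real.sqrt (l0 n)
noncomputable def s6Qa : ℝ := (n : ℝ) ^ c.η * Real.sqrt ((d : ℝ) - 1) ^ Lcut d n
/-- bound of `𝖴_l(h) + C/l` -/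
noncomputable def s6Ub : ℝ := (n : ℝ) ^ (-(28 / 100 : ℝ) * (aa : ℝ)) / Real.sqrt (l0 n) + Cmaj d / (l0 n : ℝ)
noncomputable def s6del : ℝ := (n : ℝ) ^ (-c.βR)
/-- total initial account value -/
noncomputable def s6K0 : ℝ := (n : ℝ) ^ c.ηs
/-- the cap function of the levels (`2 B_k`, constant beyond `k = 4`) -/
noncomputable def s6Bk (k : ℕ) : ℝ := 2 * s6Brl n P (min k 4)
/-- number of omitted partners: bad stubs, `u`, and the two axes of an entry -/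
def s6om : ℕ := bb n + 2

/-- the numerical scales of `S6Facts` -/
noncomputable def s6N : S6Num where
  Ne := (n : ℝ) ^ c.η
  Qa := s6Qa d n c
  e0 := (n : ℝ) ^ (-c.c0)
  Bm := s6Bm n P
  Bt := s6Bt n

/-- bounds of `|K|, |Q|, |J|` at the parameter `h` -/
noncomputable def s6CQ (h : ℝ) : ℝ := c.CQ / alphaf d h
noncomputable def s6CJ (h : ℝ) : ℝ := c.CJ * (n : ℝ) ^ ((125 / 1000 : ℝ) * (aa : ℝ)) / alphaf d h ^ 2

end Scales

/-! ## one constant for all one-step lemmas -/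

/-- `C` is admissible in every one-step lemma of Sec 6 (with the row-square constant `C0`).  `s6_one : ∀ C0, ∃ C, S6One C0 C` is in `S6One.lean`. -/
structure S6One (C0 C : ℝ) : Prop where
  pos : 1 ≤ C
  mean : ∀ {n d : ℕ} (π : PPair n d) (Cm : ℝ) (L : ℕ) (σ h : ℝ) (N : S6Num)
    (om : ℕ) (u : Stub n d) (I : Finset (Stub n d)) (a b : Label n d),
    π.S6Facts Cm L σ h C0 N → π.S6Set Cm L h N om u I → π.Alive a → π.Alive b →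
    |∑ v ∈ I, π.dEent L σ h u v a b| ≤
      C * s6MeanB N π.l om (π.rmaj Cm L σ h a u) (π.rmaj Cm L σ h b u) (π.jmaj Cm L h u) (π.YE L σ h)
  var : ∀ {n d : ℕ} (π : PPair n d) (Cm : ℝ) (L : ℕ) (σ h : ℝ) (N : S6Num)
    (om : ℕ) (u : Stub n d) (I : Finset (Stub n d)) (a b : Label n d),
    π.S6Facts Cm L σ h C0 N → π.S6Set Cm L h N om u I → π.Alive a → π.Alive b →
    ∑ v ∈ I, π.dEent L σ h u v a b ^ 2 ≤
      C * (s6VarB N π.l (π.rmaj Cm L σ h a u) (π.rmaj Cm L σ h b u) (π.jmaj Cm L h u) (π.TS L σ h)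
        + C * (∑ v ∈ I, (π.Aact L h a.vtx v.1 * π.Aact L h u.1 v.1) ^ 2 + N.Bm ^ 2
          + (Umaj d Cm π.l L h + Cm / (π.l : ℝ)) ^ 2))
  diag : ∀ {n d : ℕ} (π : PPair n d) (Cm : ℝ) (L : ℕ) (σ h : ℝ) (N : S6Num)
    (om : ℕ) (u : Stub n d) (I : Finset (Stub n d)) (ST : ℝ), 0 < ST →
    π.S6Facts Cm L σ h C0 N → π.S6Set Cm L h N om u I →
    ∑ v ∈ I, (1 + (π.resolve u v).TS L σ h / ST) ≤
      ((I.card : ℝ) + C * (s6DiagMB N π.l om (π.jmaj Cm L h u) (π.YE L σ h) / Real.sqrt ST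
        + s6DiagVB N π.l (π.jmaj Cm L h u) (π.TS L σ h) / ST)) * (1 + π.TS L σ h / ST)
  jump : ∀ {n d : ℕ} (π : PPair n d) (Cm : ℝ) (L : ℕ) (σ h : ℝ) (N : S6Num)
    (ν : Label n d → ℕ) (Bk : ℕ → ℝ) (δ : ℝ) (u v : Stub n d) (a b : Label n d),
    π.S6Facts Cm L σ h C0 N → π.S6Adm Cm L h N u v → π.Alive a → π.Alive b →
    Monotone Bk → (∀ k, 0 ≤ Bk k) → (∀ k, Bk k ≤ N.Bm) → 1 / (π.l : ℝ) ≤ N.Bm →
    (∀ a' b' : Label n d, π.Alive a' → π.Alive b' → |π.Eent L σ h a' b'| ≤ Bk (ν a' + ν b')) →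
    0 ≤ δ → π.S6Tr Cm L h ν δ u v a → π.S6Tr Cm L h ν δ u v b →
    |π.dEent L σ h u v a b| ≤
      C * ((if ν a + ν b = 0 then 0 else Bk (ν a + ν b - 1)) + δ * N.Bm + N.Bm ^ 2 + N.Bt)
  trAbs : ∀ {n d : ℕ} (π : PPair n d) (Cm : ℝ) (L : ℕ) (σ h : ℝ) (N : S6Num)
    (CK CQ CJ : ℝ) (u v : Stub n d),
    π.S6Facts Cm L σ h C0 N → π.S6TrF σ h CK CQ CJ → π.S6Adm Cm L h N u v →
    |π.dL1 σ h u v| ≤ C * (1 + CK) ∧ |π.dL0 σ h u v| ≤ C * CQ ∧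
      |π.dTtr σ h u v| ≤ C * (CQ * (1 + CK) + CJ)
  trL1 : ∀ {n d : ℕ} (π : PPair n d) (Cm : ℝ) (L : ℕ) (σ h : ℝ) (N : S6Num)
    (CK CQ CJ : ℝ) (om : ℕ) (u : Stub n d) (I : Finset (Stub n d)),
    π.S6Facts Cm L σ h C0 N → π.S6TrF σ h CK CQ CJ → π.S6Set Cm L h N om u I →
    |∑ v ∈ I, π.dL1 σ h u v| ≤
      C * (1 + CK) * ((om : ℝ) + N.Qa + (π.l : ℝ) * (π.jmaj Cm L h u + N.Bm))
  trL0 : ∀ {n d : ℕ} (π : PPair n d) (Cm : ℝ) (L : ℕ) (σ h : ℝ) (N : S6Num)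
    (CK CQ CJ : ℝ) (om : ℕ) (u : Stub n d) (I : Finset (Stub n d)),
    π.S6Facts Cm L σ h C0 N → π.S6TrF σ h CK CQ CJ → π.S6Set Cm L h N om u I →
    |∑ v ∈ I, π.dL0 σ h u v| ≤
      C * CQ * ((om : ℝ) + N.Qa + (π.l : ℝ) * (π.jmaj Cm L h u + N.Bm))

/-! ## the invariant -/

/-- ALL CAPS of cleanup at time `t` -/
structure S6Inv {n d : ℕ} (P : S6Par) (c : S6Cst) (C : ℝ) (π₁ : PPair n d) (t : ℕ) (π : PPair n d) : Prop where
  t_le : t ≤ bb n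
  le : π₁.Le π
  l_eq : π.l + 2 * t = l1 n
  /-- the initially bad stubs are resolved one per step -/
  badc : ((π₁.badL (R0 d n)).filter fun x => decide (π.Unres x)).length + t ≤ (π₁.badL (R0 d n)).length ∨
    ∀ x, π₁.Bad (R0 d n) x → ¬ π.Unres x
  /-- surviving initially clean stubs are still clean -/
  clean : ∀ x, π.Unres x → ¬ π₁.Bad (R0 d n) x → ¬ π.Bad (R0 d n) x
  walk : π.WalkOK c.CM c.CR c.η0 c.Rc
  caps : π.Caps P.cp (9 / 100) (12 / 100) (37 / 100)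
  /-- level-dependent entry caps -/
  lev : ∀ h ∈ trackedList d n P.cp, ∀ (s : Bool) (a b : Label n d), π.Alive a → π.Alive b →
    |π.Eent (Lcut d n) (sgn s) ((h : ℚ) : ℝ) a b| ≤ s6Bk n P (π₁.s6lev a + π₁.s6lev b)
  ts : π.TSBd P.cp c.ηT
  /-- `𝒯` loses at most a fixed amount per step -/
  tlow : ∀ h ∈ primList d n P.cp, ∀ s : Bool,
    π₁.Ttr (sgn s) ((h : ℚ) : ℝ)
        - (t : ℝ) * (C * (s6CQ d c ((h : ℚ) : ℝ) * (1 + c.CK) + s6CJ d n c ((h : ℚ) : ℝ)))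
      ≤ π.Ttr (sgn s) ((h : ℚ) : ℝ)

/-! ## the interface of the structural accounts -/

/-- what cleanup needs from the structural accounts (real form: apply it to `SA.map (Rat.castHom ℝ)`); `κ` = per-step growth (may depend on `n`) -/
structure S6SA {n d : ℕ} {ιs : Type} (c : S6Cst) (κ : ℝ) (SA : Phase ℝ (PPair n d) ιs) (π₁ : PPair n d) : Prop where
  wt_nonneg : ∀ i, 0 ≤ SA.wt i
  Z_nonneg : ∀ i π, 0 ≤ SA.Z i π
  dead : ∀ i π u v, SA.Z i π = 0 → SA.Z i (π.resolve u v) = 0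
  /-- initial total -/
  init : (SA.labels.map fun i => SA.wt i * SA.Z i π₁).sum ≤ s6K0 n c / 2
  /-- one step with a PRESCRIBED first endpoint and a partner list omitting at most `b + 1` unresolved stubs -/
  step : ∀ i ∈ SA.labels, ∀ (π : PPair n d) (u : Stub n d) (I : List (Stub n d)), π₁.Le π → l0 n + 2 ≤ π.l →
    π.Unres u → I.Nodup → (∀ v ∈ I, π.Unres v ∧ v ≠ u) → π.l ≤ I.length + bb n + 1 →
    lavg I (fun v => SA.Z i (π.resolve u v)) ≤ (1 + κ) * SA.Z i π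
  κ_nonneg : 0 ≤ κ
  /-- total discount -/
  bud : (1 + κ) ^ bb n ≤ 2
  /-- extraction: bounded accounts and girth give the walk facts -/
  extract : ∀ π : PPair n d, π₁.Le π → l0 n ≤ π.l → π.GirthGE (g0 d n) →
    (∀ i ∈ SA.labels, SA.wt i * SA.Z i π ≤ s6K0 n c * 2) → π.WalkOK c.CM c.CR c.η0 c.Rc

/-! ## the consequences of Sec 4 at the states of cleanup -/

/-- "`n` is so large that the consequences of Sec 4 hold" -/
structure S6Br (d n : ℕ) (P : S6Par) (c : S6Cst) (C : ℝ) : Prop where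
  hd : 3 ≤ d
  /-- range of the tracked parameters -/
  hrange : ∀ h ∈ trackedList d n P.cp, 0 < ((h : ℚ) : ℝ) ∧ ((h : ℚ) : ℝ) ≤ zq d ∧ alphaS d n ≤ alphaf d ((h : ℚ) : ℝ)
  prim_sub : ∀ h ∈ primList d n P.cp, h ∈ trackedList d n P.cp
  facts : ∀ (π₁ π : PPair n d) (t : ℕ), S6Inv P c C π₁ t π → ∀ h ∈ trackedList d n P.cp, ∀ s : Bool,
    π.S6Facts (Cmaj d) (Lcut d n) (sgn s) ((h : ℚ) : ℝ) c.C0 (s6N d n P c)
  trace : ∀ (π₁ π : PPair n d) (t : ℕ), S6Inv P c C π₁ t π → ∀ h ∈ trackedList d n P.cp, ∀ s : Bool,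
    π.S6TrF (sgn s) ((h : ℚ) : ℝ) c.CK (s6CQ d c ((h : ℚ) : ℝ)) (s6CJ d n c ((h : ℚ) : ℝ))
  /-- every cleanup pair is admissible -/
  adm : ∀ (π₁ π : PPair n d) (t : ℕ), S6Inv P c C π₁ t π → ∀ u v : Stub n d, π₁.s6first π = some u →
    v ∈ π₁.s6elig π u → π.Far (R0 d n) u.1 v.1 ∧
      ∀ h ∈ trackedList d n P.cp, π.S6Adm (Cmaj d) (Lcut d n) ((h : ℚ) : ℝ) (s6N d n P c) u v
  /-- transfers which do not decrease the level are small -/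
  tr : ∀ (π₁ π : PPair n d) (t : ℕ), S6Inv P c C π₁ t π → ∀ u v : Stub n d, π₁.s6first π = some u →
    v ∈ π₁.s6elig π u → ∀ a : Label n d, π.Alive a → a ≠ .stub u → a ≠ .stub v →
      ∀ h ∈ trackedList d n P.cp, π.S6Tr (Cmaj d) (Lcut d n) ((h : ℚ) : ℝ) π₁.s6lev (s6del n c) u v a
  /-- the uniform part of the majorants -/
  umaj : ∀ l : ℕ, l0 n ≤ l → ∀ z : ℝ, 0 ≤ z → z ≤ zq d →
    |Umaj d (Cmaj d) l (Lcut d n) z| + Cmaj d / (l : ℝ) ≤ s6Ub d n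

/-! ## the numerical conditions -/

section Num

variable (d n : ℕ) (P : S6Par) (c : S6Cst) (C : ℝ)

/-- bound of the pathwise squared sums of Lemma 6.2 -/
noncomputable def s6R2 : ℝ :=
  6 * d * c.CM * (Lcut d n : ℝ) ^ 2 + 2 * d * (n : ℝ) ^ c.η0 + 3 * (bb n : ℝ) * (s6Ub d n ^ 2 + s6Bm n P ^ 2)

/-- bound of `|Y_E|` -/
noncomputable def s6YEb : ℝ := (n : ℝ) ^ ((9 / 100 : ℝ) * (aa : ℝ)) / alphaS d n + s6Qa d n c

/-- cumulative bound of `s6MeanB` -/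
noncomputable def s6MeanSum : ℝ :=
  2 * Real.sqrt (bb n * s6R2 d n P c) * ((s6om n : ℝ) * s6Bm n P + Real.sqrt (s6om n) + 1)
    + (2 * s6R2 d n P c + 2 * s6Bm n P * Real.sqrt (bb n * s6R2 d n P c)) * Real.sqrt (l1 n)
    + s6R2 d n P c * (s6YEb d n c + (s6om n : ℝ) * s6Bm n P + s6Qa d n c + (l1 n : ℝ) * s6Bm n P ^ 2)
    + (bb n : ℝ) * (1 + s6Bt n)

/-- cumulative bound of `s6VarB` and of the joint cross term -/
noncomputable def s6VarSum : ℝ :=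
  3 * s6R2 d n P c
    + 4 * s6R2 d n P c * ((n : ℝ) ^ c.ηT + (n : ℝ) ^ c.η + (l1 n : ℝ) * s6Bm n P ^ 4)
    + (bb n : ℝ) * (s6Bm n P ^ 2 + 1 / (l0 n : ℝ) ^ 2 + s6Bt n ^ 2 / (l0 n : ℝ))
    + C * ((2 * d * c.CM * (Lcut d n : ℝ) ^ 2) ^ 2 + (bb n : ℝ) * (s6Bm n P ^ 2 + s6Ub d n ^ 2))

/-- cumulative bounds of `s6DiagMB`, `s6DiagVB` -/
noncomputable def s6DiagMSum : ℝ :=
  (bb n : ℝ) * (((s6om n : ℝ) + 1) * s6Bm n P + Real.sqrt ((s6om n : ℝ) + 1) + s6YEb d n c + s6Qa d n c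
      + (l1 n : ℝ) * s6Bm n P ^ 2)
    + (Real.sqrt (bb n * s6R2 d n P c) + (bb n : ℝ) * (s6Bm n P + s6Bt n)) * Real.sqrt (l1 n)
noncomputable def s6DiagVSum : ℝ :=
  (bb n : ℝ) * ((n : ℝ) ^ c.η + (n : ℝ) ^ c.ηT + s6Bt n ^ 2)
    + (l1 n : ℝ) * (s6R2 d n P c + (bb n : ℝ) * s6Bm n P ^ 2)

/-- cumulative bound of the signed sums of the trace increments (without the prefactor) -/
noncomputable def s6TrSum : ℝ :=
  (bb n : ℝ) * ((s6om n : ℝ) + s6Qa d n c)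
    + (l1 n : ℝ) * (Real.sqrt (bb n * s6R2 d n P c) + (bb n : ℝ) * s6Bm n P)

/-- number of entry accounts -/
def s6F : ℕ := (trackedList d n P.cp).length * 4 * (n + n * d) ^ 2

/-- ALL numerical inequalities used by the analysis of cleanup.  `C` = the largest constant of the one-step lemmas. -/
structure S6NumOK : Prop where
  hn : 0 < n
  /-- sizes -/
  b_le : 2 * (bb n + 3) ≤ l0 n
  l0_ge : 64 ≤ l0 n
  g0_le : g0 d n ≤ R0 d n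
  tracked_ne : trackedList d n P.cp ≠ []
  hp : 2 ≤ P.p
  /-- positivity and monotonicity of the scales -/
  B_pos : ∀ k, 0 < s6Brl n P k
  B_mono : ∀ k k', k ≤ k' → s6Brl n P k ≤ s6Brl n P k'
  lam_pos : 0 < s6lamr n P
  S1_pos : 0 < ((s6S1 d n : ℚ) : ℝ)
  S0_pos : 0 < ((s6S0 d n : ℚ) : ℝ)
  ST_pos : 0 < ((s6ST P n : ℚ) : ℝ)
  al_pos : 0 < alphaS d n
  /-- initial values (table of Sec 4.5, column `l₁`) -/
  I1 : (n : ℝ) ^ ((75 / 1000 : ℝ) * (aa : ℝ)) / alphaS d n ≤ ((s6S1 d n : ℚ) : ℝ)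
  I0 : (n : ℝ) ^ ((105 / 1000 : ℝ) * (aa : ℝ)) / alphaS d n ^ 2 ≤ ((s6S0 d n : ℚ) : ℝ)
  IT : (n : ℝ) ^ c.η0 ≤ ((s6ST P n : ℚ) : ℝ)
  IT' : (n : ℝ) ^ c.η0 ≤ (n : ℝ) ^ c.ηT
  IE : (n : ℝ) ^ ((33 / 100 : ℝ) * (aa : ℝ)) / Real.sqrt (l0 n) ≤ s6Brl n P 0
  IK : 12 * ((trackedList d n P.cp).length : ℝ) + 1 ≤ s6K0 n c / 2
  /-- jump bound (Lemma 6.6): every increment is at most `λ B_k` -/
  J : ∀ k ≤ 4, C * ((if k = 0 then 0 else s6Bk n P (k - 1)) + s6del n c * s6Bm n P + s6Bm n P ^ 2 + s6Bt n)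
    ≤ s6lamr n P * s6Brl n P k
  /-- entry budgets (Lemma 6.7) -/
  E1 : (excessC P.p : ℝ) * (2 * C * s6MeanSum d n P c / (l0 n : ℝ)) ≤ s6lamr n P * s6Brl n P 0 / 4
  E2 : (excessC P.p : ℝ) * (2 * C * s6VarSum d n P c C / (l0 n : ℝ)) ≤ (s6lamr n P * s6Brl n P 0) ^ 2 / 4
  /-- `T_S` budget (Lemma 6.5) -/
  T1 : 2 * C * (s6DiagMSum d n P c / Real.sqrt ((s6ST P n : ℚ) : ℝ) + s6DiagVSum d n P c / ((s6ST P n : ℚ) : ℝ))
    / (l0 n : ℝ) ≤ 1 / 2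
  /-- trace budgets (Lemma 6.3) -/
  L1b : 2 * C * (1 + c.CK) * s6TrSum d n P c / ((l0 n : ℝ) * ((s6S1 d n : ℚ) : ℝ))
    + (bb n : ℝ) * (C * (1 + c.CK)) ^ 2 / ((s6S1 d n : ℚ) : ℝ) ^ 2 ≤ 1 / 2
  L0b : 2 * C * (c.CQ / alphaS d n) * s6TrSum d n P c / ((l0 n : ℝ) * ((s6S0 d n : ℚ) : ℝ))
    + (bb n : ℝ) * (C * (c.CQ / alphaS d n)) ^ 2 / ((s6S0 d n : ℚ) : ℝ) ^ 2 ≤ 1 / 2
  /-- extractions -/
  X1 : ((s6S1 d n : ℚ) : ℝ) ^ 2 * (s6K0 n c * 2) ≤ ((n : ℝ) ^ ((9 / 100 : ℝ) * (aa : ℝ)) / alphaS d n) ^ 2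
  X0 : ((s6S0 d n : ℚ) : ℝ) ^ 2 * (s6K0 n c * 2) ≤ ((n : ℝ) ^ ((12 / 100 : ℝ) * (aa : ℝ)) / alphaS d n ^ 2) ^ 2
  XT : ((s6ST P n : ℚ) : ℝ) * (s6K0 n c * 2) ≤ (n : ℝ) ^ c.ηT
  XE : s6K0 n c * 2 * (s6F d n P : ℝ) ≤ (s6lamr n P)⁻¹ ^ P.p
  XB : s6Bm n P ≤ (n : ℝ) ^ ((37 / 100 : ℝ) * (aa : ℝ)) / Real.sqrt (l0 n)
  /-- the total loss of `𝒯` -/
  XTt : ∀ h ∈ primList d n P.cp,
    c.cT * (n : ℝ) ^ (-c.θ) * ((n : ℝ)⁻¹ + alphaf d ((h : ℚ) : ℝ) / (l0 n : ℝ))⁻¹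
        + (bb n : ℝ) * (C * (s6CQ d c ((h : ℚ) : ℝ) * (1 + c.CK) + s6CJ d n c ((h : ℚ) : ℝ)))
      ≤ c.cT * (n : ℝ) ^ (-(c.θ / 2)) * ((n : ℝ)⁻¹ + alphaf d ((h : ℚ) : ℝ) / (l1 n : ℝ))⁻¹

end Num

end Claimed.Agent.R275
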