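import Claimed.Agent.R275.S6Ext

/-!
# Row 275, Sec 6 (cleanup.tex): PROPOSITION 6.1 (`prop:cleanup`), assembled from the packages

Owner: helper208.  `s6_main_fixed` (fixed `n`) is PROVED here from the statements of `S6Bud.lean`, `S6Ext.lean` via `Phase.invariant_run`.
-/

set_option autoImplicit false

namespace Claimed.Agent.R275

open Matrix

variable {n d : ℕ} {ιs : Type} {P : S6Par} {c : S6Cst} {C κ : ℝ} {SA : Phase ℝ (PPair n d) ιs} {π₁ : PPair n d}

/-- membership in the list of labels of the phase -/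
theorem s6_mem_labels (i : ιs ⊕ S6Lab n d) :
    i ∈ (s6Phase ℝ d n P SA π₁).labels ↔
      (∃ j ∈ SA.labels, i = Sum.inl j) ∨ (∃ j ∈ s6labels d n P.cp, i = Sum.inr j) := by
  unfold s6Phase
  simp only [List.mem_append, List.mem_map]
  constructor
  · rintro (⟨j, hj, rfl⟩ | ⟨j, hj, rfl⟩)
    · exact Or.inl ⟨j, hj, rfl⟩
    · exact Or.inr ⟨j, hj, rfl⟩
  · rintro (⟨j, hj, rfl⟩ | ⟨j, hj, rfl⟩)
    · exact Or.inl ⟨j, hj, rfl⟩
    · exact Or.inr ⟨j, hj, rfl⟩

/-- the tracked parameter of an analytic label in the list -/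
theorem s6_mem_s6labels (cp : ℚ) (j : S6Lab n d) (hj : j ∈ s6labels d n cp) :
    (∃ h ∈ trackedList d n cp, ∃ s, j = .trL1 h s) ∨ (∃ h ∈ trackedList d n cp, ∃ s, j = .trL0 h s) ∨
      (∃ h ∈ trackedList d n cp, ∃ s, j = .tS h s) ∨
      (∃ h ∈ trackedList d n cp, ∃ s ε a b, j = .ent h s ε a b) := by
  unfold s6labels at hj
  simp only [List.mem_flatMap, List.mem_append, List.mem_cons, List.mem_map, List.not_mem_nil, or_false] at hj
  obtain ⟨h, hh, s, _, hj⟩ := hj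
  rcases hj with (rfl | rfl | rfl) | ⟨ε, _, a, _, b, _, rfl⟩
  · exact Or.inl ⟨h, hh, s, rfl⟩
  · exact Or.inr (Or.inl ⟨h, hh, s, rfl⟩)
  · exact Or.inr (Or.inr (Or.inl ⟨h, hh, s, rfl⟩))
  · exact Or.inr (Or.inr (Or.inr ⟨h, hh, s, ε, a, b, rfl⟩))

/-- all budgets -/
theorem s6_bud_all (O : S6One c.C0 C) (Br : S6Br d n P c C) (Nm : S6NumOK d n P c C) (hSA : S6SA c κ SA π₁)
    {path : ℕ → PPair n d} {t : ℕ} (H : S6Hist P c C SA π₁ path t) (ht : t < bb n)
    (fb : (π₁.badL (R0 d n)).length < bb n) (i : ιs ⊕ S6Lab n d) (hi : i ∈ (s6Phase ℝ d n P SA π₁).labels) :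
    ∏ s ∈ Finset.range (t + 1), (s6Phase ℝ d n P SA π₁).ratio i (path s) ≤ 2 := by
  rcases (s6_mem_labels i).1 hi with ⟨j, hj, rfl⟩ | ⟨j, hj, rfl⟩
  · exact s6_bud_struct hSA Nm H ht fb j hj
  · rcases s6_mem_s6labels P.cp j hj with ⟨h, hh, s, rfl⟩ | ⟨h, hh, s, rfl⟩ | ⟨h, hh, s, rfl⟩ |
      ⟨h, hh, s, ε, a, b, rfl⟩
    · exact s6_bud_L1 O Br Nm H ht fb h hh s
    · exact s6_bud_L0 O Br Nm H ht fb h hh s
    · exact s6_bud_TS O Br Nm H ht fb h hh s
    · exact s6_bud_ent O Br Nm H ht fb h hh s ε a b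

/-- PROPOSITION 6.1 at fixed `n`: the invariant holds along the greedy run -/
theorem s6_inv_run (O : S6One c.C0 C) (Br : S6Br d n P c C) (Nm : S6NumOK d n P c C) (hSA : S6SA c κ SA π₁)
    (E : π₁.EarlyOut P.cp c.CM c.CR c.η0 c.Rc c.cT c.θ) :
    ∀ t ≤ bb n, S6Inv P c C π₁ t ((s6Phase ℝ d n P SA π₁).run π₁ t).1 := by
  set Φ := s6Phase ℝ d n P SA π₁ with hΦ
  have hOk : Φ.Ok := s6_ok hSA Nm
  have fb := E.fewBad
  refine Φ.invariant_run hOk π₁ (bb n) (S6Inv P c C π₁)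
    (fun _ x => x.WalkOK c.CM c.CR c.η0 c.Rc) (fun i => i.isLeft = true)
    (fun i x => Φ.ratio i x - 1) (fun _ => 2) (s6K0 n c) (s6_init_score hSA Nm E) (s6_inv_zero Nm E)
    ?_ ?_ ?_ ?_ ?_ ?_
  · -- candidates exist
    intro t ht x hx
    exact s6_cands_ne Nm hx ht fb
  · -- one step: by the definition of the ratio
    intro t _ x _ i _
    refine ⟨by have := Φ.one_le_ratio i x; linarith, ?_⟩
    have := Φ.avg_le_ratio_mul hOk i x
    simpa using this
  · -- budgets, tier 1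
    intro t ht path H i hi _
    have := s6_bud_all O Br Nm hSA (path := path) (t := t) H ht fb i hi
    simpa using this
  · -- extraction, tier 1
    intro t ht path H hb
    obtain ⟨_, hInv, hstep⟩ := H
    obtain ⟨u, v, hu, hv, hp⟩ := (π₁.s6_mem_cands (path t) (path (t + 1))).1 (hstep t le_rfl)
    rw [hp]
    refine s6_ext_walk Br hSA Nm (hInv t le_rfl) ht hu hv ?_
    intro i hi
    have := hb (Sum.inl i) ((s6_mem_labels _).2 (Or.inl ⟨i, hi, rfl⟩)) rfl
    rw [hp] at this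
    exact this
  · -- budgets, tier 2
    intro t ht path H _ i hi _
    have := s6_bud_all O Br Nm hSA (path := path) (t := t) H ht fb i hi
    simpa using this
  · -- extraction, tier 2
    intro t ht path H hW hb
    obtain ⟨_, hInv, hstep⟩ := H
    obtain ⟨u, v, hu, hv, hp⟩ := (π₁.s6_mem_cands (path t) (path (t + 1))).1 (hstep t le_rfl)
    have hI := hInv t le_rfl
    have hacc : S6AccBd P c π₁ ((path t).resolve u v) := by
      intro j hj
      have := hb (Sum.inr j) ((s6_mem_labels _).2 (Or.inr ⟨j, hj, rfl⟩))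
      rw [hp] at this
      exact this
    rw [hp] at hW ⊢
    obtain ⟨h1, h2, h3, h4⟩ := s6_ext_comb Nm hI hu hv
    exact
      { t_le := ht
        le := h1
        l_eq := h2
        badc := h3
        clean := h4
        walk := hW
        caps := s6_ext_caps Br Nm hI hu hv hacc
        lev := s6_ext_lev Nm hacc
        ts := s6_ext_ts Nm hacc
        tlow := s6_ext_tlow O Br hI hu hv }

/-- PROPOSITION 6.1 at fixed `n`, real run -/
theorem s6_main_fixed (O : S6One c.C0 C) (Br : S6Br d n P c C) (Nm : S6NumOK d n P c C) (hSA : S6SA c κ SA π₁)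
    (E : π₁.EarlyOut P.cp c.CM c.CR c.η0 c.Rc c.cT c.θ) :
    ((s6Phase ℝ d n P SA π₁).run π₁ (bb n)).1.CleanOut P.cp c.CM c.CR c.ηT c.Rc c.cT c.θ :=
  s6_out Nm (s6_inv_run O Br Nm hSA E (bb n) le_rfl) E

/-- PROPOSITION 6.1 at fixed `n`, for the rational run of the machine -/
theorem s6_main_rat {SAq : Phase ℚ (PPair n d) ιs} (O : S6One c.C0 C) (Br : S6Br d n P c C)
    (Nm : S6NumOK d n P c C) (hSA : S6SA c κ (SAq.map (Rat.castHom ℝ)) π₁)
    (E : π₁.EarlyOut P.cp c.CM c.CR c.η0 c.Rc c.cT c.θ) :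
    (s6Run d n P SAq π₁).CleanOut P.cp c.CM c.CR c.ηT c.Rc c.cT c.θ := by
  rw [s6Run_eq]
  exact s6_main_fixed O Br Nm hSA E

end Claimed.Agent.R275
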