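import Claimed.Agent.R275.S6Core
import Claimed.Agent.R275.S43V

/-!
# Row 275, Sec 6 (cleanup.tex), package S6-STEP: one exposure of the error entries, pointwise

Owner of the statements: helper208.  May assume every statement of `L41*.lean`, `TwoByTwo.lean`, `Formal.lean`, `FormalTail.lean`,
`S6Core.lean`, `S43V.lean` (`s43v_Nact_symm`, `s43v_maj_nonneg`, ...).

* `S6Num` : the numerical scales of a cleanup state;  `S6Facts` : ALL the properties of a state (at one signed parameter) which the one-step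
  estimates of Sec 6 use (they come from Sec 4 via the caps: package S6-BRIDGE);  `S6Adm` : the properties of the exposed pair.
* `s6_decomp` = Lemma 6.4' : `ΔE_{ab} = Z + S - TZ + Rem` INCLUDING the recentring of surviving stub axes.
No graph theory, no asymptotics in this file.
-/

set_option autoImplicit false

namespace Claimed.Agent.R275

open Matrix

/-- numerical scales: `Ne = n^η`, `Qa = n^η q^{L/2}`, `e0` = smallness of admissible pairs, `Bm` = entry cap, `Bt` = tail bound -/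
structure S6Num where
  Ne : ℝ
  Qa : ℝ
  e0 : ℝ
  Bm : ℝ
  Bt : ℝ

/-- endpoint selector -/
def s6e {n d : ℕ} (u v : Stub n d) (s : Fin 2) : Stub n d := if s = 0 then u else v

namespace PPair

variable {n d : ℕ} (π : PPair n d)

/-- outer entries at the two endpoints -/
noncomputable def s6p (L : ℕ) (σ h : ℝ) (u v : Stub n d) (a : Label n d) : Fin 2 → ℝ :=
  fun s => π.pEnt L σ h a (s6e u v s)
noncomputable def s6ee (L : ℕ) (σ h : ℝ) (u v : Stub n d) (a : Label n d) : Fin 2 → ℝ :=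
  fun s => π.eEnt L σ h a (s6e u v s)
noncomputable def s6r (Cm : ℝ) (L : ℕ) (σ h : ℝ) (u v : Stub n d) (a : Label n d) : Fin 2 → ℝ :=
  fun s => π.rmaj Cm L σ h a (s6e u v s)

/-- `E_pair = Uᵀ E U` -/
noncomputable def Epair (L : ℕ) (σ h : ℝ) (u v : Stub n d) : Matrix (Fin 2) (Fin 2) ℝ :=
  π.blk (π.Emat L σ h) u v

/-- the new error matrix on the OLD axes -/
noncomputable def Eold (L : ℕ) (σ h : ℝ) (u v : Stub n d) (a b : Label n d) : ℝ :=
  π.ent ((π.resolve u v).Emat L σ h) a b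

/-- the properties of a cleanup state at one signed parameter `(σ, h)` used by the one-step estimates.
`C0` : a constant depending only on `d`. -/
structure S6Facts (Cm : ℝ) (L : ℕ) (σ h C0 : ℝ) (N : S6Num) : Prop where
  hn : 0 < n
  hd : 3 ≤ d
  hCm : 0 ≤ Cm
  hL : 0 < L
  hσ : σ ^ 2 = 1
  hh : 0 < h
  hh1 : h < 1
  hl : 64 ≤ π.l
  pos : PosOn1 (π.Mmat σ h)
  /-- coefficient majorants of Lemma 4.3 -/
  majP : ∀ (a : Label n d) (x : Stub n d), π.Alive a → π.Unres x → π.pAbs L h a (.stub x) ≤ π.Amaj Cm L h a x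
  majJ : ∀ x : Stub n d, π.Unres x → π.TAbs L h x x ≤ π.jmaj Cm L h x
  majB : ∀ x y : Stub n d, π.Unres x → π.Unres y → x ≠ y → π.TAbs L h x y ≤ π.bmaj Cm L h x y
  /-- row squares and suprema of `r_a(x) = A_a(x) + |e_a(x)|` -/
  rowR : ∀ a : Label n d, π.Alive a → ∑ x ∈ π.unres, π.rmaj Cm L σ h a x ^ 2 ≤ C0
  supR : ∀ (a : Label n d) (x : Stub n d), π.Alive a → π.Unres x → π.rmaj Cm L σ h a x ≤ 2
  /-- (4.4) -/
  sumJ2 : ∑ x ∈ π.unres, π.jmaj Cm L h x ^ 2 ≤ N.Ne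
  sumJ1 : ∑ x ∈ π.unres, π.jmaj Cm L h x ≤ N.Qa
  rowB2 : ∀ x : Stub n d, π.Unres x → ∑ y ∈ π.unres, π.bmaj Cm L h x y ^ 2 ≤ C0
  rowB1 : ∀ x : Stub n d, π.Unres x → ∑ y ∈ π.unres, π.bmaj Cm L h x y ≤ N.Qa
  /-- entry cap -/
  cap : ∀ a b : Label n d, π.Alive a → π.Alive b → |π.Eent L σ h a b| ≤ N.Bm
  /-- numerical side conditions -/
  hC0 : 1 ≤ C0
  hNe : 1 ≤ N.Ne
  hQa : 1 ≤ N.Qa
  he0 : N.e0 ≤ 1 / 64
  hBm : N.Bm ≤ 1 / 64
  hBt : 0 ≤ N.Bt

/-- the exposed pair: distinct unresolved stubs with small endpoint majorants ((4.5) at an admissible pair) and the tail bound (4.6)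
(which Sec 4 proves for admissible pairs only: `s43t_tail_le`) -/
structure S6Adm (Cm : ℝ) (L : ℕ) (h : ℝ) (N : S6Num) (u v : Stub n d) : Prop where
  hu : π.Unres u
  hv : π.Unres v
  huv : u ≠ v
  small : π.jmaj Cm L h u + π.jmaj Cm L h v + π.bmaj Cm L h u v ≤ N.e0
  tail : ∀ σ : ℝ, σ ^ 2 = 1 → ∀ a b : Label n d, |π.ent (π.tailR L σ h u v) a b| ≤ N.Bt

/-! ## symmetry and positivity of the basic objects -/

theorem s6_Pmat_transpose (L : ℕ) (σ h : ℝ) : (π.Pmat L σ h)ᵀ = π.Pmat L σ h := by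
  have e : π.Pmat L σ h = ∑ j ∈ Finset.range L, (σ * h) ^ j • (Pi1 ℝ n * π.Qmat ℝ j * Pi1 ℝ n) := rfl
  rw [e, Matrix.transpose_sum]
  refine Finset.sum_congr rfl fun j _ => ?_
  rw [Matrix.transpose_smul, Matrix.transpose_mul, Matrix.transpose_mul, Pi1_transpose, Qmat_transpose,
    Matrix.mul_assoc]

theorem s6_Wmat_transpose (σ h : ℝ) : (π.Wmat σ h)ᵀ = π.Wmat σ h := by
  have e : π.Wmat σ h = (mh h)⁻¹ • ((compN (π.Mmat σ h))⁻¹ - J1 ℝ n) := rfl
  rw [e, Matrix.transpose_smul, Matrix.transpose_sub, Matrix.transpose_nonsing_inv,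
    compN_transpose _ (π.Mmat_transpose σ h), J1_transpose]

theorem s6_Emat_transpose (L : ℕ) (σ h : ℝ) : (π.Emat L σ h)ᵀ = π.Emat L σ h := by
  rw [Emat, Matrix.transpose_sub, s6_Wmat_transpose, s6_Pmat_transpose]

theorem s6_ent_symm {X : Matrix (Fin n) (Fin n) ℝ} (hX : Xᵀ = X) (a b : Label n d) : π.ent X a b = π.ent X b a := by
  unfold ent
  rw [Matrix.dotProduct_mulVec, ← Matrix.mulVec_transpose, hX, dotProduct_comm]

theorem s6_bmaj_symm (Cm : ℝ) (L : ℕ) (z : ℝ) (x y : Stub n d) : π.bmaj Cm L z x y = π.bmaj Cm L z y x := by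
  unfold bmaj Amaj Aact
  simp only [Label.vtx]
  rw [Finset.sum_congr rfl fun k _ => by rw [π.s43v_Nact_symm k x.1 y.1]]

/-- on stub labels the array `r_x(y)` is symmetric -/
theorem s6_rmaj_symm (Cm : ℝ) (L : ℕ) (σ h : ℝ) (x y : Stub n d) :
    π.rmaj Cm L σ h (.stub x) y = π.rmaj Cm L σ h (.stub y) x := by
  unfold rmaj eEnt Amaj Aact
  simp only [Label.vtx]
  rw [π.s6_ent_symm (π.s6_Emat_transpose L σ h) (.stub x) (.stub y),
    Finset.sum_congr rfl fun k _ => by rw [π.s43v_Nact_symm k x.1 y.1]]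

/-- `e_a(x) = E_{a, x}` -/
theorem s6_eEnt_eq_Eent (L : ℕ) (σ h : ℝ) (a : Label n d) (x : Stub n d) :
    π.eEnt L σ h a x = π.Eent L σ h a (.stub x) := rfl

/-- `ent` is additive in the matrix -/
theorem s6s_ent_add (X Y : Matrix (Fin n) (Fin n) ℝ) (a b : Label n d) :
    π.ent (X + Y) a b = π.ent X a b + π.ent Y a b := by
  unfold ent
  rw [Matrix.add_mulVec, dotProduct_add]

theorem s6s_ent_sub (X Y : Matrix (Fin n) (Fin n) ℝ) (a b : Label n d) :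
    π.ent (X - Y) a b = π.ent X a b - π.ent Y a b := by
  unfold ent
  rw [Matrix.sub_mulVec, dotProduct_sub]

theorem s6s_Wmat_eq (L : ℕ) (σ h : ℝ) : π.Wmat σ h = π.Pmat L σ h + π.Emat L σ h := by
  rw [Emat]; abel

theorem s6_wEnt_eq (L : ℕ) (σ h : ℝ) (a : Label n d) (x : Stub n d) :
    π.wEnt σ h a x = π.pEnt L σ h a x + π.eEnt L σ h a x := by
  unfold wEnt pEnt eEnt
  rw [← s6s_ent_add, ← s6s_Wmat_eq]

variable {π}

section Facts

variable {Cm : ℝ} {L : ℕ} {σ h C0 : ℝ} {N : S6Num}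

theorem S6Facts.Bm_nonneg (F : π.S6Facts Cm L σ h C0 N) : 0 ≤ N.Bm :=
  le_trans (abs_nonneg _) (F.cap (.glob ⟨0, F.hn⟩) (.glob ⟨0, F.hn⟩) trivial trivial)

theorem S6Facts.s6s_l_pos (F : π.S6Facts Cm L σ h C0 N) : 0 < π.l := lt_of_lt_of_le (by norm_num) F.hl

/-- `|p_a(x)| + |e_a(x)| ≤ r_a(x)` -/
theorem S6Facts.abs_add_le (F : π.S6Facts Cm L σ h C0 N) {a : Label n d} {x : Stub n d} (ha : π.Alive a)
    (hx : π.Unres x) : |π.pEnt L σ h a x| + |π.eEnt L σ h a x| ≤ π.rmaj Cm L σ h a x := by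
  have h1 := π.abs_pEnt_le F.hn F.s6s_l_pos L σ h F.hσ F.hh.le a x
  have h2 := F.majP a x ha hx
  unfold rmaj
  linarith

theorem S6Facts.abs_wEnt_le (F : π.S6Facts Cm L σ h C0 N) {a : Label n d} {x : Stub n d} (ha : π.Alive a)
    (hx : π.Unres x) : |π.wEnt σ h a x| ≤ π.rmaj Cm L σ h a x := by
  rw [π.s6_wEnt_eq L σ h a x]
  exact le_trans (_root_.abs_add_le _ _) (F.abs_add_le ha hx)

theorem s6s_Tp_symm (L : ℕ) (σ h : ℝ) (u v : Stub n d) (i j : Fin 2) :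
    π.Tp L σ h u v i j = π.Tp L σ h u v j i := by
  unfold Tp
  rw [Matrix.sub_apply, Matrix.sub_apply, blk_eq_ent, blk_eq_ent,
    π.s6_ent_symm (π.s6_Pmat_transpose L σ h)]
  congr 1
  simp only [G0, J2, Matrix.sub_apply, Matrix.smul_apply, Matrix.one_apply, eq_comm]

theorem s6s_Epair_symm (L : ℕ) (σ h : ℝ) (u v : Stub n d) (i j : Fin 2) :
    π.Epair L σ h u v i j = π.Epair L σ h u v j i := by
  unfold Epair
  rw [blk_eq_ent, blk_eq_ent, π.s6_ent_symm (π.s6_Emat_transpose L σ h)]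

theorem S6Adm.s6s_alive {u v : Stub n d} (A : π.S6Adm Cm L h N u v) (s : Fin 2) :
    π.Unres (if s = 0 then u else v) := by
  split_ifs
  · exact A.hu
  · exact A.hv

theorem S6Facts.s6s_abs_Epair_le (F : π.S6Facts Cm L σ h C0 N) {u v : Stub n d} (A : π.S6Adm Cm L h N u v)
    (i j : Fin 2) : |π.Epair L σ h u v i j| ≤ N.Bm := by
  unfold Epair
  rw [blk_eq_ent]
  exact F.cap _ _ (A.s6s_alive i) (A.s6s_alive j)

/-- the four entries of `T` against the majorants -/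
theorem S6Facts.s6s_abs_Tp_le (F : π.S6Facts Cm L σ h C0 N) {u v : Stub n d} (A : π.S6Adm Cm L h N u v) :
    |π.Tp L σ h u v 0 0| ≤ π.jmaj Cm L h u ∧ |π.Tp L σ h u v 1 1| ≤ π.jmaj Cm L h v ∧
      |π.Tp L σ h u v 0 1| ≤ π.bmaj Cm L h u v ∧ |π.Tp L σ h u v 1 0| ≤ π.bmaj Cm L h u v := by
  have key := fun s s' => π.abs_Tp_le F.hn F.s6s_l_pos L F.hL σ h F.hσ F.hh.le A.huv s s'
  refine ⟨?_, ?_, ?_, ?_⟩
  · exact le_trans (key 0 0) (by simpa using F.majJ u A.hu)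
  · exact le_trans (key 1 1) (by simpa using F.majJ v A.hv)
  · exact le_trans (key 0 1) (by simpa using F.majB u v A.hu A.hv A.huv)
  · rw [s6s_Tp_symm]
    exact le_trans (key 0 1) (by simpa using F.majB u v A.hu A.hv A.huv)

/-- nonnegativity and smallness of the three endpoint majorants -/
theorem S6Facts.s6s_maj (F : π.S6Facts Cm L σ h C0 N) {u v : Stub n d} (A : π.S6Adm Cm L h N u v) :
    (0 ≤ π.jmaj Cm L h u ∧ π.jmaj Cm L h u ≤ 1 / 64) ∧ (0 ≤ π.jmaj Cm L h v ∧ π.jmaj Cm L h v ≤ 1 / 64) ∧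
      (0 ≤ π.bmaj Cm L h u v ∧ π.bmaj Cm L h u v ≤ 1 / 64) := by
  obtain ⟨-, -, -, -, h1, h3⟩ := π.s43v_maj_nonneg Cm F.hCm F.hd L h F.hh.le (.stub u) u v u.1 u.1
  obtain ⟨-, -, -, -, h2, -⟩ := π.s43v_maj_nonneg Cm F.hCm F.hd L h F.hh.le (.stub u) v v u.1 u.1
  have h4 := A.small
  have h5 := F.he0
  refine ⟨⟨h1, ?_⟩, ⟨h2, ?_⟩, ⟨h3, ?_⟩⟩ <;> linarith

/-- the two endpoint blocks satisfy the hypotheses of `S6Core` -/
theorem S6Facts.blk (F : π.S6Facts Cm L σ h C0 N) {u v : Stub n d} (A : π.S6Adm Cm L h N u v) :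
    S6Blk π.l σ h (π.Tp L σ h u v) (π.Epair L σ h u v) (π.jmaj Cm L h u) (π.jmaj Cm L h v) (π.bmaj Cm L h u v)
      N.Bm := by
  obtain ⟨t00, t11, t01, t10⟩ := F.s6s_abs_Tp_le A
  obtain ⟨⟨ju0, ju1⟩, ⟨jv0, jv1⟩, ⟨b0, b1⟩⟩ := F.s6s_maj A
  have hE := F.s6s_abs_Epair_le A
  have hB := F.hBm
  have hT : ∀ i j, |π.Tp L σ h u v i j| ≤ 1 / 64 := by
    intro i j
    fin_cases i <;> fin_cases j <;> simp only [Fin.zero_eta, Fin.mk_one] <;> linarith
  have hl4 : 4 ≤ π.l := le_trans (by norm_num) F.hl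
  refine ⟨⟨hl4, F.hσ, F.hh, F.hh1.le, s6s_Tp_symm _ _ _ _ _ _ _, fun i j => by linarith [hT i j]⟩,
    ⟨hl4, F.hσ, F.hh, F.hh1.le, ?_, fun i j => ?_⟩, t00, t11, t01, hE, by linarith, by linarith, by linarith,
    by linarith⟩
  · rw [Matrix.add_apply, Matrix.add_apply, s6s_Tp_symm, s6s_Epair_symm]
  · rw [Matrix.add_apply]
    have := _root_.abs_add_le (π.Tp L σ h u v i j) (π.Epair L σ h u v i j)
    linarith [hT i j, hE i j]

/-- `D_p = T + E_pair` -/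
theorem s6_Dp_eq_add (L : ℕ) (σ h : ℝ) (u v : Stub n d) :
    π.Dp σ h u v = π.Tp L σ h u v + π.Epair L σ h u v := by
  unfold Dp Tp Epair PPair.blk
  rw [π.s6s_Wmat_eq L σ h, Matrix.mul_add, Matrix.add_mul]
  abel

/-- the next precision is positive, and the update formulas of Lemma 4.1 apply -/
theorem S6Facts.pos_next (F : π.S6Facts Cm L σ h C0 N) {u v : Stub n d} (A : π.S6Adm Cm L h N u v) :
    PosOn1 ((π.resolve u v).Mmat σ h) ∧ IsUnit ((H0 π.l σ h)⁻¹ + π.Dp σ h u v) ∧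
      IsUnit (compN (π.Mmat σ h)) := by
  have hB := (F.blk A).hTE.small
  have h1 := posOn1_resolve F.hn A.hu A.hv A.huv (le_trans (by norm_num) F.hl) σ h F.hσ F.hh F.hh1 F.pos
    (fun i j => by rw [s6_Dp_eq_add L]; linarith [hB i j])
  exact ⟨h1.1, h1.2, (π.isUnit_of_posOn1 F.hn σ h F.pos).1⟩

/-- a rank-two update with symmetric outer matrix, as a `2 × 2` bilinear form -/
theorem s6s_ent_update_symm {X : Matrix (Fin n) (Fin n) ℝ} (hX : Xᵀ = X) (Hm : Matrix (Fin 2) (Fin 2) ℝ)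
    (u v : Stub n d) (a b : Label n d) :
    π.ent (X * π.Upair ℝ u v * Hm * (π.Upair ℝ u v)ᵀ * X) a b =
      s6q (fun s => π.ent X a (.stub (s6e u v s))) Hm (fun s => π.ent X b (.stub (s6e u v s))) := by
  rw [ent_update, s6core_q_eq]
  simp only [Fin.sum_univ_two, s6e, if_true, one_ne_zero, if_false]
  rw [π.s6_ent_symm hX (.stub u) b, π.s6_ent_symm hX (.stub v) b]
  ring

/-- the old-axis increment: numerical part and tail -/
theorem S6Facts.Eold_sub (F : π.S6Facts Cm L σ h C0 N) {u v : Stub n d} (A : π.S6Adm Cm L h N u v)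
    (a b : Label n d) :
    π.Eold L σ h u v a b - π.Eent L σ h a b =
      s6dNum π.l σ h (π.Tp L σ h u v) (π.Epair L σ h u v) (π.s6p L σ h u v a) (π.s6ee L σ h u v a)
        (π.s6p L σ h u v b) (π.s6ee L σ h u v b) - π.ent (π.tailR L σ h u v) a b := by
  obtain ⟨-, hH, hU⟩ := F.pos_next A
  have hh1 : h ^ 2 ≠ 1 := by
    have := F.hh
    have := F.hh1
    nlinarith
  have hw : ∀ c : Label n d, π.s6p L σ h u v c + π.s6ee L σ h u v c =
      fun s => π.ent (π.Wmat σ h) c (.stub (s6e u v s)) := by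
    intro c
    funext s
    exact (π.s6_wEnt_eq L σ h c (s6e u v s)).symm
  unfold Eold Eent
  rw [Emat_resolve F.hn A.hu A.hv A.huv (lt_of_lt_of_le (by norm_num) F.hl) L σ h F.hσ F.hh.ne' hh1 hU hH,
    s6s_ent_sub, s6s_ent_sub, s6s_ent_sub, s6s_ent_update_symm (π.s6_Wmat_transpose σ h),
    s6s_ent_update_symm (π.s6_Pmat_transpose L σ h), Hp_eq_Hgen, HP_eq_Hgen, s6_Dp_eq_add L, s6dNum, hw, hw]
  unfold s6p pEnt
  ring

end Facts

/-- recentring weight of a label: `1 / (l - 2)` for a stub label, `0` for a global label -/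
noncomputable def s6cw (l : ℕ) : Label n d → ℝ
  | .glob _ => 0
  | .stub _ => ((l : ℝ) - 2)⁻¹

theorem s6s_lvec_resolve {u v : Stub n d} (hu : π.Unres u) (hv : π.Unres v) (huv : u ≠ v) (hl : 2 < π.l)
    (a : Label n d) :
    (π.resolve u v).lvec ℝ a = π.lvec ℝ a + s6cw π.l a • (π.lvec ℝ (.stub u) + π.lvec ℝ (.stub v)) := by
  cases a with
  | glob i => simp [lvec, s6cw]
  | stub x => exact xi_resolve π ℝ hu hv huv hl x

/-- output recentring `ξ'_x = ξ_x + (ξ_u + ξ_v)/(l - 2)` in entries -/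
theorem s6_Eent_resolve_eq {u v : Stub n d} (hu : π.Unres u) (hv : π.Unres v) (huv : u ≠ v) (hl : 2 < π.l)
    (L : ℕ) (σ h : ℝ) (a b : Label n d) :
    (π.resolve u v).Eent L σ h a b =
      π.Eold L σ h u v a b
        + s6cw π.l b * (π.Eold L σ h u v a (.stub u) + π.Eold L σ h u v a (.stub v))
        + s6cw π.l a * (π.Eold L σ h u v (.stub u) b + π.Eold L σ h u v (.stub v) b)
        + s6cw π.l a * s6cw π.l b *
          (π.Eold L σ h u v (.stub u) (.stub u) + π.Eold L σ h u v (.stub u) (.stub v)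
            + π.Eold L σ h u v (.stub v) (.stub u) + π.Eold L σ h u v (.stub v) (.stub v)) := by
  unfold Eent Eold ent
  rw [s6s_lvec_resolve hu hv huv hl a, s6s_lvec_resolve hu hv huv hl b]
  simp only [Matrix.mulVec_add, Matrix.mulVec_smul, dotProduct_add, add_dotProduct, dotProduct_smul,
    smul_dotProduct, smul_eq_mul]
  ring

section Facts2

variable {Cm : ℝ} {L : ℕ} {σ h C0 : ℝ} {N : S6Num}

theorem S6Adm.s6s_unres {u v : Stub n d} (A : π.S6Adm Cm L h N u v) (s : Fin 2) : π.Unres (s6e u v s) :=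
  A.s6s_alive s

theorem S6Facts.s6s_abs_p_le (F : π.S6Facts Cm L σ h C0 N) {u v : Stub n d} (A : π.S6Adm Cm L h N u v)
    {a : Label n d} (ha : π.Alive a) (s : Fin 2) : |π.s6p L σ h u v a s| ≤ 2 := by
  have h1 := F.abs_add_le ha (A.s6s_unres s)
  have h2 := F.supR a _ ha (A.s6s_unres s)
  have h3 := abs_nonneg (π.eEnt L σ h a (s6e u v s))
  unfold s6p
  linarith

theorem S6Facts.s6s_abs_e_le (F : π.S6Facts Cm L σ h C0 N) {u v : Stub n d} (A : π.S6Adm Cm L h N u v)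
    {a : Label n d} (ha : π.Alive a) (s : Fin 2) : |π.s6ee L σ h u v a s| ≤ N.Bm :=
  F.cap a (.stub (s6e u v s)) ha (A.s6s_unres s)

theorem S6Facts.s6s_abs_pe_le (F : π.S6Facts Cm L σ h C0 N) {u v : Stub n d} (A : π.S6Adm Cm L h N u v)
    {a : Label n d} (ha : π.Alive a) (s : Fin 2) :
    |π.s6p L σ h u v a s| + |π.s6ee L σ h u v a s| ≤ π.s6r Cm L σ h u v a s :=
  F.abs_add_le ha (A.s6s_unres s)

/-- the recentring weight -/
theorem S6Facts.s6s_cw (F : π.S6Facts Cm L σ h C0 N) (a : Label n d) :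
    0 ≤ s6cw π.l a ∧ s6cw π.l a ≤ 2 / (π.l : ℝ) ∧ s6cw π.l a ≤ 1 := by
  have hl : (64 : ℝ) ≤ (π.l : ℝ) := by exact_mod_cast F.hl
  have h0 : (0 : ℝ) < (π.l : ℝ) - 2 := by linarith
  have h1 : ((π.l : ℝ) - 2)⁻¹ ≤ 2 / (π.l : ℝ) := by
    rw [inv_eq_one_div, div_le_div_iff₀ h0 (by linarith)]
    linarith
  have h2 : 2 / (π.l : ℝ) ≤ 1 := by
    rw [div_le_one (by linarith)]
    linarith
  cases a with
  | glob i =>
    refine ⟨le_refl _, ?_, zero_le_one⟩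
    show (0 : ℝ) ≤ 2 / (π.l : ℝ)
    positivity
  | stub x => exact ⟨(inv_pos.2 h0).le, h1, h1.trans h2⟩

end Facts2

/-- "the old-axis error after a candidate update is `O(B_m)`" -/
theorem s6_Eold_le (C0 : ℝ) : ∃ C : ℝ, 0 < C ∧ ∀ {n d : ℕ} (π : PPair n d) (Cm : ℝ) (L : ℕ) (σ h : ℝ) (N : S6Num)
    (u v : Stub n d) (a b : Label n d), π.S6Facts Cm L σ h C0 N → π.S6Adm Cm L h N u v → π.Alive a → π.Alive b →
    |π.Eold L σ h u v a b| ≤ C * N.Bm + N.Bt := by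
  obtain ⟨C, hC, hcr⟩ := s6_core_crude
  refine ⟨C + 1, by linarith, ?_⟩
  intro n d π Cm L σ h N u v a b F A ha hb
  have h1 := hcr π.l σ h _ _ _ _ _ _ (π.s6p L σ h u v a) (π.s6ee L σ h u v a) (π.s6p L σ h u v b)
    (π.s6ee L σ h u v b) (F.blk A) (F.s6s_abs_p_le A ha) (F.s6s_abs_p_le A hb) (F.s6s_abs_e_le A ha)
    (F.s6s_abs_e_le A hb)
  have h2 := A.tail σ F.hσ a b
  have h3 := F.cap a b ha hb
  have h4 := F.Eold_sub A a b
  have e : π.Eold L σ h u v a b = π.Eent L σ h a b + s6dNum π.l σ h (π.Tp L σ h u v) (π.Epair L σ h u v)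
      (π.s6p L σ h u v a) (π.s6ee L σ h u v a) (π.s6p L σ h u v b) (π.s6ee L σ h u v b)
      - π.ent (π.tailR L σ h u v) a b := by linarith
  rw [e]
  refine le_trans (abs_sub _ _) ?_
  have := abs_add_le (π.Eent L σ h a b) (s6dNum π.l σ h (π.Tp L σ h u v) (π.Epair L σ h u v)
      (π.s6p L σ h u v a) (π.s6ee L σ h u v a) (π.s6p L σ h u v b) (π.s6ee L σ h u v b))
  linarith

/-- scalar bound of the recentring terms -/
theorem s6s_rec_scalar (ca cb κ M x1 x2 x3 x4 x5 x6 x7 x8 : ℝ) (ha0 : 0 ≤ ca) (ha : ca ≤ κ) (hb0 : 0 ≤ cb)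
    (hb : cb ≤ κ) (hb1 : cb ≤ 1) (h1 : |x1| ≤ M) (h2 : |x2| ≤ M) (h3 : |x3| ≤ M) (h4 : |x4| ≤ M)
    (h5 : |x5| ≤ M) (h6 : |x6| ≤ M) (h7 : |x7| ≤ M) (h8 : |x8| ≤ M) :
    |cb * (x1 + x2) + ca * (x3 + x4) + ca * cb * (x5 + x6 + x7 + x8)| ≤ 8 * κ * M := by
  have hM : 0 ≤ M := le_trans (abs_nonneg _) h1
  have hκ : 0 ≤ κ := le_trans ha0 ha
  have e1 : |cb * (x1 + x2)| ≤ κ * (2 * M) := by
    rw [abs_mul, abs_of_nonneg hb0]
    exact mul_le_mul hb (by linarith [abs_add_le x1 x2]) (abs_nonneg _) hκ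
  have e2 : |ca * (x3 + x4)| ≤ κ * (2 * M) := by
    rw [abs_mul, abs_of_nonneg ha0]
    exact mul_le_mul ha (by linarith [abs_add_le x3 x4]) (abs_nonneg _) hκ
  have e3 : |ca * cb * (x5 + x6 + x7 + x8)| ≤ κ * (4 * M) := by
    rw [abs_mul, abs_of_nonneg (mul_nonneg ha0 hb0)]
    have h9 : ca * cb ≤ κ := by
      calc ca * cb ≤ κ * 1 := mul_le_mul ha hb1 hb0 hκ
        _ = κ := mul_one _
    refine mul_le_mul h9 ?_ (abs_nonneg _) hκ
    have := abs_add_le (x5 + x6 + x7) x8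
    have := abs_add_le (x5 + x6) x7
    have := abs_add_le x5 x6
    linarith
  have := abs_add_le (cb * (x1 + x2) + ca * (x3 + x4)) (ca * cb * (x5 + x6 + x7 + x8))
  have := abs_add_le (cb * (x1 + x2)) (ca * (x3 + x4))
  linarith

/-- the recentring part of an increment -/
theorem s6s_rec_le {Cm : ℝ} {L : ℕ} {σ h C0 : ℝ} {N : S6Num} (F : π.S6Facts Cm L σ h C0 N) {u v : Stub n d}
    (A : π.S6Adm Cm L h N u v) {a b : Label n d} (ha : π.Alive a) (hb : π.Alive b) (M : ℝ)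
    (hM : ∀ x y : Label n d, π.Alive x → π.Alive y → |π.Eold L σ h u v x y| ≤ M) :
    |π.dEent L σ h u v a b - (π.Eold L σ h u v a b - π.Eent L σ h a b)| ≤ 8 * (2 / (π.l : ℝ)) * M := by
  have e : π.dEent L σ h u v a b - (π.Eold L σ h u v a b - π.Eent L σ h a b) =
      s6cw π.l b * (π.Eold L σ h u v a (.stub u) + π.Eold L σ h u v a (.stub v))
        + s6cw π.l a * (π.Eold L σ h u v (.stub u) b + π.Eold L σ h u v (.stub v) b)
        + s6cw π.l a * s6cw π.l b *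
          (π.Eold L σ h u v (.stub u) (.stub u) + π.Eold L σ h u v (.stub u) (.stub v)
            + π.Eold L σ h u v (.stub v) (.stub u) + π.Eold L σ h u v (.stub v) (.stub v)) := by
    unfold dEent
    rw [s6_Eent_resolve_eq A.hu A.hv A.huv (lt_of_lt_of_le (by norm_num) F.hl)]
    ring
  rw [e]
  obtain ⟨a0, a1, -⟩ := F.s6s_cw a
  obtain ⟨b0, b1, b2⟩ := F.s6s_cw b
  have hu : π.Alive (.stub u) := A.hu
  have hv : π.Alive (.stub v) := A.hv
  exact s6s_rec_scalar _ _ _ _ _ _ _ _ _ _ _ _ a0 a1 b0 b1 b2 (hM _ _ ha hu) (hM _ _ ha hv) (hM _ _ hu hb)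
    (hM _ _ hv hb) (hM _ _ hu hu) (hM _ _ hu hv) (hM _ _ hv hu) (hM _ _ hv hv)

/-- crude bound of a full increment -/
theorem s6_dEent_le (C0 : ℝ) : ∃ C : ℝ, 0 < C ∧ ∀ {n d : ℕ} (π : PPair n d) (Cm : ℝ) (L : ℕ) (σ h : ℝ) (N : S6Num)
    (u v : Stub n d) (a b : Label n d), π.S6Facts Cm L σ h C0 N → π.S6Adm Cm L h N u v → π.Alive a → π.Alive b →
    |π.dEent L σ h u v a b| ≤ C * (N.Bm + N.Bt) := by
  obtain ⟨C, hC, hE⟩ := s6_Eold_le C0
  refine ⟨9 * (C + 1) + 1, by linarith, ?_⟩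
  intro n d π Cm L σ h N u v a b F A ha hb
  have hBm := F.Bm_nonneg
  have hBt := F.hBt
  have hl : (64 : ℝ) ≤ (π.l : ℝ) := by exact_mod_cast F.hl
  have h1 := s6s_rec_le F A ha hb (C * N.Bm + N.Bt) (fun x y hx hy => hE π Cm L σ h N u v x y F A hx hy)
  have h2 := hE π Cm L σ h N u v a b F A ha hb
  have h3 := F.cap a b ha hb
  have hM : 0 ≤ C * N.Bm + N.Bt := by positivity
  have h4 : 8 * (2 / (π.l : ℝ)) * (C * N.Bm + N.Bt) ≤ 8 * (C * N.Bm + N.Bt) := by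
    have : 2 / (π.l : ℝ) ≤ 1 := by
      rw [div_le_one (by linarith)]
      linarith
    nlinarith
  have e : π.dEent L σ h u v a b = (π.dEent L σ h u v a b - (π.Eold L σ h u v a b - π.Eent L σ h a b))
      + (π.Eold L σ h u v a b - π.Eent L σ h a b) := by ring
  rw [e]
  have h5 := abs_add_le (π.dEent L σ h u v a b - (π.Eold L σ h u v a b - π.Eent L σ h a b))
      (π.Eold L σ h u v a b - π.Eent L σ h a b)
  have h6 := abs_sub (π.Eold L σ h u v a b) (π.Eent L σ h a b)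
  have h7 : 0 ≤ C * N.Bt := by positivity
  nlinarith

/-- the `Z`, `S` terms of an entry -/
noncomputable def s6Zt (π : PPair n d) (L : ℕ) (σ h : ℝ) (u v : Stub n d) (a b : Label n d) : ℝ :=
  s6Z σ h (π.s6p L σ h u v a) (π.s6ee L σ h u v a) (π.s6p L σ h u v b) (π.s6ee L σ h u v b)
noncomputable def s6St (π : PPair n d) (L : ℕ) (σ h : ℝ) (u v : Stub n d) (a b : Label n d) : ℝ :=
  s6S h (π.Epair L σ h u v) (π.s6p L σ h u v a + π.s6ee L σ h u v a) (π.s6p L σ h u v b + π.s6ee L σ h u v b)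

/-- the remainder majorant of an entry -/
noncomputable def s6Rt (π : PPair n d) (Cm : ℝ) (L : ℕ) (σ h : ℝ) (N : S6Num) (u v : Stub n d) (a b : Label n d) : ℝ :=
  s6RemB π.l (π.s6r Cm L σ h u v a) (π.s6r Cm L σ h u v b) (π.jmaj Cm L h u) (π.jmaj Cm L h v) (π.bmaj Cm L h u v) N.Bm
    + (N.Bm + N.Bt) / (π.l : ℝ)

/-- monotonicity of the tail majorant into `s6RemB` -/
theorem s6s_tail_scalar (a0 a1 b0 b1 A0 A1 B0 B1 ju jv buv Bm e : ℝ) (ha0 : 0 ≤ a0) (ha1 : 0 ≤ a1)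
    (hb0 : 0 ≤ b0) (hb1 : 0 ≤ b1) (hA0 : a0 ≤ A0) (hA1 : a1 ≤ A1) (hB0 : b0 ≤ B0) (hB1 : b1 ≤ B1)
    (hju : 0 ≤ ju) (hjv : 0 ≤ jv) (hbuv : 0 ≤ buv) (hBm : 0 ≤ Bm) (he : 0 ≤ e) :
    a0 * b0 * (jv + e) + a1 * b1 * (ju + e) + (a0 * b1 + a1 * b0) * (buv + ju * jv + e) ≤
      A0 * B0 * (jv + buv + Bm ^ 2 + e) + A1 * B1 * (ju + buv + Bm ^ 2 + e)
        + (A0 * B1 + A1 * B0) * (buv + (ju + Bm) * (jv + Bm) + e) := by
  have p00 : a0 * b0 ≤ A0 * B0 := mul_le_mul hA0 hB0 hb0 (ha0.trans hA0)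
  have p11 : a1 * b1 ≤ A1 * B1 := mul_le_mul hA1 hB1 hb1 (ha1.trans hA1)
  have p01 : a0 * b1 ≤ A0 * B1 := mul_le_mul hA0 hB1 hb1 (ha0.trans hA0)
  have p10 : a1 * b0 ≤ A1 * B0 := mul_le_mul hA1 hB0 hb0 (ha1.trans hA1)
  have q1 : jv + e ≤ jv + buv + Bm ^ 2 + e := by nlinarith [sq_nonneg Bm]
  have q2 : ju + e ≤ ju + buv + Bm ^ 2 + e := by nlinarith [sq_nonneg Bm]
  have q3 : buv + ju * jv + e ≤ buv + (ju + Bm) * (jv + Bm) + e := by
    have := mul_nonneg hju hBm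
    have := mul_nonneg hBm hjv
    have := mul_nonneg hBm hBm
    nlinarith
  have r1 := mul_le_mul p00 q1 (by positivity) ((mul_nonneg ha0 hb0).trans p00)
  have r2 := mul_le_mul p11 q2 (by positivity) ((mul_nonneg ha1 hb1).trans p11)
  have r3 := mul_le_mul (add_le_add p01 p10) q3 (by positivity)
    ((add_nonneg (mul_nonneg ha0 hb1) (mul_nonneg ha1 hb0)).trans (add_le_add p01 p10))
  linarith

/-- nonnegativity of `s6RemB` -/
theorem s6s_RemB_nonneg (l : ℕ) (ra rb : Fin 2 → ℝ) (ju jv buv Bm : ℝ) (hra : ∀ s, 0 ≤ ra s)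
    (hrb : ∀ s, 0 ≤ rb s) (hju : 0 ≤ ju) (hjv : 0 ≤ jv) (hbuv : 0 ≤ buv) (hBm : 0 ≤ Bm) :
    0 ≤ s6RemB l ra rb ju jv buv Bm := by
  have := hra 0
  have := hra 1
  have := hrb 0
  have := hrb 1
  unfold s6RemB
  positivity

/-- the tail minus its zero-intermediate part -/
theorem s6s_tail_le : ∃ C : ℝ, 0 < C ∧ ∀ {n d : ℕ} (π : PPair n d) (Cm : ℝ) (L : ℕ) (σ h C0 : ℝ) (N : S6Num)
    (u v : Stub n d) (a b : Label n d), π.S6Facts Cm L σ h C0 N → π.S6Adm Cm L h N u v → π.Alive a → π.Alive b →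
    |π.ent (π.tailR L σ h u v) a b - π.TZ L σ h u v a b| ≤
      C * s6RemB π.l (π.s6r Cm L σ h u v a) (π.s6r Cm L σ h u v b) (π.jmaj Cm L h u) (π.jmaj Cm L h v)
        (π.bmaj Cm L h u v) N.Bm := by
  obtain ⟨C, hC, hct⟩ := s6_core_tail
  refine ⟨C, hC, ?_⟩
  intro n d π Cm L σ h C0 N u v a b F A ha hb
  obtain ⟨⟨ju0, ju1⟩, ⟨jv0, jv1⟩, ⟨b0, b1⟩⟩ := F.s6s_maj A
  set ju := π.jmaj Cm L h u with hju
  set jv := π.jmaj Cm L h v with hjv
  set buv := π.bmaj Cm L h u v with hbuv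
  set t : Matrix (Fin 2) (Fin 2) ℝ := !![ju, buv; buv, jv] with ht
  have t00 : t 0 0 = ju := rfl
  have t01 : t 0 1 = buv := rfl
  have t10 : t 1 0 = buv := rfl
  have t11 : t 1 1 = jv := rfl
  have tnn : ∀ i j, 0 ≤ t i j := by
    intro i j
    fin_cases i <;> fin_cases j <;> simp only [Fin.zero_eta, Fin.mk_one, t00, t01, t10, t11] <;> assumption
  have tle : ∀ i j, t i j ≤ 1 / 64 := by
    intro i j
    fin_cases i <;> fin_cases j <;> simp only [Fin.zero_eta, Fin.mk_one, t00, t01, t10, t11] <;> assumption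
  have H : TBHyp π.l (-1) h (-t) := by
    refine ⟨le_trans (by norm_num) F.hl, by norm_num, F.hh, F.hh1.le, ?_, fun i j => ?_⟩
    · rw [Matrix.neg_apply, Matrix.neg_apply, t10, t01]
    · rw [Matrix.neg_apply, abs_neg, abs_of_nonneg (tnn i j)]
      linarith [tle i j]
  have hAn : ∀ (c : Label n d) (s : Fin 2), 0 ≤ π.Amaj Cm L h c (s6e u v s) := fun c s =>
    (π.s43v_maj_nonneg Cm F.hCm F.hd L h F.hh.le c (s6e u v s) u u.1 u.1).2.2.2.1
  have hAr : ∀ (c : Label n d) (s : Fin 2), π.Amaj Cm L h c (s6e u v s) ≤ π.s6r Cm L σ h u v c s := by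
    intro c s
    unfold s6r rmaj
    linarith [abs_nonneg (π.eEnt L σ h c (s6e u v s))]
  have hT : ∀ s s' : Fin 2, π.TAbs L h (if s = 0 then u else v) (if s' = 0 then u else v) ≤ t s s' := by
    intro s s'
    fin_cases s <;> fin_cases s' <;>
      simp only [Fin.zero_eta, Fin.mk_one, t00, t01, t10, t11, if_true, one_ne_zero, if_false]
    · exact F.majJ u A.hu
    · exact F.majB u v A.hu A.hv A.huv
    · rw [hbuv, s6_bmaj_symm]
      exact F.majB v u A.hv A.hu A.huv.symm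
    · exact F.majJ v A.hv
  have h1 := tail_decomp A.hu A.hv A.huv F.hn L σ h F.hσ a b (fun s => π.Amaj Cm L h a (s6e u v s))
    (fun s => π.Amaj Cm L h b (s6e u v s)) t H (fun s => F.majP a _ ha (A.s6s_unres s))
    (fun s => F.majP b _ hb (A.s6s_unres s)) hT
  have h2 := hct π.l h t ju jv buv (fun s => π.Amaj Cm L h a (s6e u v s))
    (fun s => π.Amaj Cm L h b (s6e u v s)) H tnn le_rfl le_rfl le_rfl (hAn a) (hAn b)
  have h3 := s6s_tail_scalar _ _ _ _ _ _ _ _ ju jv buv N.Bm (1 / (π.l : ℝ)) (hAn a 0) (hAn a 1) (hAn b 0) (hAn b 1)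
    (hAr a 0) (hAr a 1) (hAr b 0) (hAr b 1) ju0 jv0 b0 F.Bm_nonneg (by positivity)
  refine h1.trans (h2.trans ?_)
  exact mul_le_mul_of_nonneg_left h3 hC.le

/-- LEMMA 6.4' : `ΔE_{ab} = Z + S - TZ + Rem`, increments INCLUDING recentring, for all labels alive before the step -/
theorem s6_decomp (C0 : ℝ) : ∃ C : ℝ, 0 < C ∧ ∀ {n d : ℕ} (π : PPair n d) (Cm : ℝ) (L : ℕ) (σ h : ℝ) (N : S6Num)
    (u v : Stub n d) (a b : Label n d), π.S6Facts Cm L σ h C0 N → π.S6Adm Cm L h N u v → π.Alive a → π.Alive b →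
    |π.dEent L σ h u v a b - π.s6Zt L σ h u v a b - π.s6St L σ h u v a b + π.TZ L σ h u v a b|
      ≤ C * π.s6Rt Cm L σ h N u v a b := by
  obtain ⟨C1, hC1, hd⟩ := s6_core_decomp
  obtain ⟨C2, hC2, ht⟩ := s6s_tail_le
  obtain ⟨C3, hC3, hE⟩ := s6_Eold_le C0
  refine ⟨C1 + C2 + 16 * (C3 + 1), by positivity, ?_⟩
  intro n d π Cm L σ h N u v a b F A ha hb
  obtain ⟨⟨ju0, -⟩, ⟨jv0, -⟩, ⟨b0, -⟩⟩ := F.s6s_maj A
  have hBm := F.Bm_nonneg
  have hBt := F.hBt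
  have hl : (64 : ℝ) ≤ (π.l : ℝ) := by exact_mod_cast F.hl
  have hr : ∀ (c : Label n d), π.Alive c → ∀ s, 0 ≤ π.s6r Cm L σ h u v c s := fun c hc s =>
    le_trans (add_nonneg (abs_nonneg _) (abs_nonneg _)) (F.s6s_abs_pe_le A hc s)
  have hR := s6s_RemB_nonneg π.l _ _ _ _ _ _ (hr a ha) (hr b hb) ju0 jv0 b0 hBm
  have h1 := hd π.l σ h _ _ _ _ _ _ (π.s6p L σ h u v a) (π.s6ee L σ h u v a) (π.s6p L σ h u v b)
    (π.s6ee L σ h u v b) _ _ (F.blk A) (F.s6s_abs_pe_le A ha) (F.s6s_abs_pe_le A hb)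
  have h2 := ht π Cm L σ h C0 N u v a b F A ha hb
  have h3 := s6s_rec_le F A ha hb (C3 * N.Bm + N.Bt) (fun x y hx hy => hE π Cm L σ h N u v x y F A hx hy)
  have h4 := F.Eold_sub A a b
  have e : π.dEent L σ h u v a b - π.s6Zt L σ h u v a b - π.s6St L σ h u v a b + π.TZ L σ h u v a b =
      (s6dNum π.l σ h (π.Tp L σ h u v) (π.Epair L σ h u v) (π.s6p L σ h u v a) (π.s6ee L σ h u v a)
        (π.s6p L σ h u v b) (π.s6ee L σ h u v b)
        - s6Z σ h (π.s6p L σ h u v a) (π.s6ee L σ h u v a) (π.s6p L σ h u v b) (π.s6ee L σ h u v b)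
        - s6S h (π.Epair L σ h u v) (π.s6p L σ h u v a + π.s6ee L σ h u v a)
            (π.s6p L σ h u v b + π.s6ee L σ h u v b))
      - (π.ent (π.tailR L σ h u v) a b - π.TZ L σ h u v a b)
      + (π.dEent L σ h u v a b - (π.Eold L σ h u v a b - π.Eent L σ h a b)) := by
    rw [h4]
    unfold s6Zt s6St
    ring
  rw [e]
  refine le_trans (abs_add_le _ _) ?_
  refine le_trans (add_le_add (abs_sub _ _) le_rfl) ?_
  have h5 : 8 * (2 / (π.l : ℝ)) * (C3 * N.Bm + N.Bt) ≤ 16 * (C3 + 1) * ((N.Bm + N.Bt) / (π.l : ℝ)) := by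
    have e1 : 8 * (2 / (π.l : ℝ)) * (C3 * N.Bm + N.Bt) = 16 * (C3 * N.Bm + N.Bt) / (π.l : ℝ) := by ring
    have e2 : 16 * (C3 + 1) * ((N.Bm + N.Bt) / (π.l : ℝ)) = 16 * (C3 + 1) * (N.Bm + N.Bt) / (π.l : ℝ) := by ring
    rw [e1, e2]
    refine div_le_div_of_nonneg_right ?_ (by linarith)
    have := mul_nonneg hC3.le hBt
    nlinarith
  have h6 : 0 ≤ (N.Bm + N.Bt) / (π.l : ℝ) := by positivity
  unfold s6Rt
  have h7 := mul_nonneg (add_nonneg hC1.le hC2.le) h6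
  have h8 := mul_nonneg (by positivity : 0 ≤ 16 * (C3 + 1)) hR
  nlinarith

/-! ## the zero-intermediate tail `TZ` -/

theorem s6s_qEnt_symm (π : PPair n d) (k : ℕ) (a b : Label n d) : π.qEnt k a b = π.qEnt k b a :=
  π.s6_ent_symm (π.Qmat_transpose ℝ k) a b

/-- centred in the random endpoint, coefficient by coefficient (the artificial partner `v = u` included) -/
theorem s6_sum_TZ (π : PPair n d) (L : ℕ) (σ h : ℝ) (u : Stub n d) (a b : Label n d) :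
    ∑ v ∈ π.unres, π.TZ L σ h u v a b = 0 := by
  unfold TZ
  rw [← Finset.mul_sum, Finset.sum_comm]
  refine mul_eq_zero_of_right _ (Finset.sum_eq_zero fun k₁ _ => ?_)
  rw [Finset.sum_comm]
  refine Finset.sum_eq_zero fun k₂ _ => ?_
  split_ifs with hk
  · rw [← Finset.mul_sum, Finset.sum_add_distrib, ← Finset.mul_sum, ← Finset.sum_mul, π.sum_qEnt k₁ a,
      Finset.sum_congr rfl fun v _ => π.s6s_qEnt_symm k₂ (.stub v) b, π.sum_qEnt k₂ b]
    ring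
  · exact Finset.sum_const_zero

theorem s6_abs_TZ_le (π : PPair n d) (L : ℕ) (σ h : ℝ) (hσ : σ ^ 2 = 1) (hh : 0 ≤ h) (hh1 : h ≤ 1) (u v : Stub n d)
    (a b : Label n d) :
    |π.TZ L σ h u v a b| ≤ π.pAbs L h a (.stub u) * π.pAbs L h b (.stub v)
      + π.pAbs L h a (.stub v) * π.pAbs L h b (.stub u) := by
  have hx : |σ * h| = h := by
    have h1 : |σ| = 1 := by
      have : |σ| ^ 2 = 1 := by rw [sq_abs, hσ]
      nlinarith [abs_nonneg σ]
    rw [abs_mul, h1, one_mul, abs_of_nonneg hh]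
  unfold TZ pAbs
  rw [abs_mul, abs_neg, hx, Finset.sum_mul_sum, Finset.sum_mul_sum, ← Finset.sum_add_distrib]
  have key : |∑ k₁ ∈ Finset.range L, ∑ k₂ ∈ Finset.range L,
      if L ≤ k₁ + k₂ + 1 then
        (σ * h) ^ (k₁ + k₂) * (π.qEnt k₁ a (.stub u) * π.qEnt k₂ (.stub v) b
          + π.qEnt k₁ a (.stub v) * π.qEnt k₂ (.stub u) b)
      else 0| ≤ ∑ k₁ ∈ Finset.range L, (∑ k₂ ∈ Finset.range L,
        h ^ k₁ * |π.qEnt k₁ a (.stub u)| * (h ^ k₂ * |π.qEnt k₂ b (.stub v)|)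
        + ∑ k₂ ∈ Finset.range L, h ^ k₁ * |π.qEnt k₁ a (.stub v)| * (h ^ k₂ * |π.qEnt k₂ b (.stub u)|)) := by
    refine le_trans (Finset.abs_sum_le_sum_abs _ _) (Finset.sum_le_sum fun k₁ _ => ?_)
    rw [← Finset.sum_add_distrib]
    refine le_trans (Finset.abs_sum_le_sum_abs _ _) (Finset.sum_le_sum fun k₂ _ => ?_)
    have hnn : 0 ≤ h ^ k₁ * |π.qEnt k₁ a (.stub u)| * (h ^ k₂ * |π.qEnt k₂ b (.stub v)|)
        + h ^ k₁ * |π.qEnt k₁ a (.stub v)| * (h ^ k₂ * |π.qEnt k₂ b (.stub u)|) := by positivity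
    split_ifs with hk
    · rw [abs_mul, abs_pow, hx, π.s6s_qEnt_symm k₂ (.stub v) b, π.s6s_qEnt_symm k₂ (.stub u) b]
      have h2 := abs_add_le (π.qEnt k₁ a (.stub u) * π.qEnt k₂ b (.stub v))
        (π.qEnt k₁ a (.stub v) * π.qEnt k₂ b (.stub u))
      rw [abs_mul, abs_mul] at h2
      calc h ^ (k₁ + k₂) * |π.qEnt k₁ a (.stub u) * π.qEnt k₂ b (.stub v)
            + π.qEnt k₁ a (.stub v) * π.qEnt k₂ b (.stub u)|
          ≤ h ^ (k₁ + k₂) * (|π.qEnt k₁ a (.stub u)| * |π.qEnt k₂ b (.stub v)|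
            + |π.qEnt k₁ a (.stub v)| * |π.qEnt k₂ b (.stub u)|) :=
            mul_le_mul_of_nonneg_left h2 (by positivity)
        _ = _ := by rw [pow_add]; ring
    · rw [abs_zero]; exact hnn
  have h0 := abs_nonneg (∑ k₁ ∈ Finset.range L, ∑ k₂ ∈ Finset.range L,
      if L ≤ k₁ + k₂ + 1 then
        (σ * h) ^ (k₁ + k₂) * (π.qEnt k₁ a (.stub u) * π.qEnt k₂ (.stub v) b
          + π.qEnt k₁ a (.stub v) * π.qEnt k₂ (.stub u) b)
      else 0)
  calc h * _ ≤ 1 * _ := mul_le_mul_of_nonneg_right hh1 h0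
    _ = _ := one_mul _
    _ ≤ _ := key

end PPair

end Claimed.Agent.R275
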