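import Claimed.Agent.R275.S6Inv

/-!
# Row 275, Sec 6, package S6-SUM: one constant for the one-step lemmas; sums of the per-step bounds over the steps

Owner of the statements: helper208.  No paper needed.  Everything is elementary: `s6_one` takes the maximum of the constants of
`s6_ent_mean, s6_ent_var + s6_cross_le, s6_TS_step, s6_jump, s6_dtrace_abs, s6_dL1_sum, s6_dL0_sum` (each right-hand side is `C ×` a quantity which is
`≥ 0` because the left-hand side is); the other statements are Cauchy-Schwarz for abstract sequences (`s6_cs_sums`) and monotonicity.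
-/

set_option autoImplicit false

namespace Claimed.Agent.R275

/-- enlarging a constant -/
theorem s6sum_enl {x C₁ C Y : ℝ} (hx : 0 ≤ x) (h : x ≤ C₁ * Y) (h1 : 0 < C₁) (hC : C₁ ≤ C) : x ≤ C * Y := by
  have hY : 0 ≤ Y := by
    by_contra hcon
    push Not at hcon
    have : C₁ * Y < 0 := mul_neg_of_pos_of_neg h1 hcon
    linarith
  exact le_trans h (mul_le_mul_of_nonneg_right hC hY)

theorem s6_one (C0 : ℝ) : ∃ C : ℝ, S6One C0 C := by
  obtain ⟨C1, p1, H1⟩ := PPair.s6_ent_mean C0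
  obtain ⟨C2, p2, H2⟩ := PPair.s6_ent_var C0
  obtain ⟨C3, p3, H3⟩ := PPair.s6_cross_le C0
  obtain ⟨C4, p4, H4⟩ := PPair.s6_TS_step C0
  obtain ⟨C5, p5, H5⟩ := PPair.s6_jump C0
  obtain ⟨C6, p6, H6⟩ := s6_dtrace_abs C0
  obtain ⟨C7, p7, H7⟩ := s6_dL1_sum C0
  obtain ⟨C8, p8, H8⟩ := s6_dL0_sum C0
  refine ⟨1 + C1 + C2 + C3 + C4 + C5 + C6 + C7 + C8, ?_⟩
  set C := 1 + C1 + C2 + C3 + C4 + C5 + C6 + C7 + C8 with hC
  have hC0 : 0 ≤ C := by linarith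
  refine ⟨by linarith, ?_, ?_, ?_, ?_, ?_, ?_, ?_⟩
  · intro n d π Cm L σ h N om u I a b F hS ha hb
    exact s6sum_enl (abs_nonneg _) (H1 π Cm L σ h N om u I a b F hS ha hb) p1 (by linarith)
  · intro n d π Cm L σ h N om u I a b F hS ha hb
    have h2 := H2 π Cm L σ h N om u I a b F hS ha hb
    have h3 := H3 π Cm L σ h N om u I a b F hS ha hb
    have h2' := s6sum_enl (Finset.sum_nonneg fun v _ => sq_nonneg _) h2 p2 (by linarith : C2 ≤ C)
    refine le_trans h2' (mul_le_mul_of_nonneg_left ?_ hC0)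
    have h3' := s6sum_enl (Finset.sum_nonneg fun v _ => sq_nonneg _) h3 p3 (by linarith : C3 ≤ C)
    linarith
  · intro n d π Cm L σ h N om u I ST hST F hS
    refine le_trans (H4 π Cm L σ h N om u I ST hST F hS) ?_
    have hTS : 0 ≤ π.TS L σ h := Finset.sum_nonneg fun x _ => sq_nonneg _
    have hj := F.s6en_j_nonneg u
    have hBm := F.Bm_nonneg
    have hBt := F.hBt
    have hQa := F.hQa
    have hNe := F.hNe
    have hM : 0 ≤ s6DiagMB N π.l om (π.jmaj Cm L h u) (π.YE L σ h) := by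
      unfold s6DiagMB
      positivity
    have hV : 0 ≤ s6DiagVB N π.l (π.jmaj Cm L h u) (π.TS L σ h) := by
      unfold s6DiagVB
      positivity
    apply mul_le_mul_of_nonneg_right _ (by positivity)
    have : 0 ≤ s6DiagMB N π.l om (π.jmaj Cm L h u) (π.YE L σ h) / Real.sqrt ST
        + s6DiagVB N π.l (π.jmaj Cm L h u) (π.TS L σ h) / ST := by positivity
    have := mul_le_mul_of_nonneg_right (by linarith : C4 ≤ C) this
    linarith
  · intro n d π Cm L σ h N ν Bk δ u v a b F hA ha hb hm hB0 hB hl hcap hδ ta tb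
    exact s6sum_enl (abs_nonneg _) (H5 π Cm L σ h N ν Bk δ u v a b F hA ha hb hm hB0 hB hl hcap hδ ta tb) p5
      (by linarith)
  · intro n d π Cm L σ h N CK CQ CJ u v F hT hA
    obtain ⟨a1, a2, a3⟩ := H6 π Cm L σ h N CK CQ CJ u v F hT hA
    exact ⟨s6sum_enl (abs_nonneg _) a1 p6 (by linarith), s6sum_enl (abs_nonneg _) a2 p6 (by linarith),
      s6sum_enl (abs_nonneg _) a3 p6 (by linarith)⟩
  · intro n d π Cm L σ h N CK CQ CJ om u I F hT hS
    have := H7 π Cm L σ h N CK CQ CJ om u I F hT hS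
    rw [mul_assoc] at this ⊢
    exact s6sum_enl (abs_nonneg _) this p7 (by linarith)
  · intro n d π Cm L σ h N CK CQ CJ om u I F hT hS
    have := H8 π Cm L σ h N CK CQ CJ om u I F hT hS
    rw [mul_assoc] at this ⊢
    exact s6sum_enl (abs_nonneg _) this p8 (by linarith)

/-- `∏ (1 + c_s) ≤ 2` if `∑ c_s ≤ 1/2` -/
theorem s6_prod_le_two (T : ℕ) (r cs : ℕ → ℝ) (hr0 : ∀ s < T, 0 ≤ r s) (hr : ∀ s < T, r s ≤ 1 + cs s)
    (hc : ∀ s < T, 0 ≤ cs s) (hsum : ∑ s ∈ Finset.range T, cs s ≤ 1 / 2) :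
    ∏ s ∈ Finset.range T, r s ≤ 2 := by
  have h1 : ∏ s ∈ Finset.range T, r s ≤ ∏ s ∈ Finset.range T, Real.exp (cs s) := by
    apply Finset.prod_le_prod
    · intro s hs; exact hr0 s (Finset.mem_range.mp hs)
    · intro s hs
      have := Real.add_one_le_exp (cs s)
      have := hr s (Finset.mem_range.mp hs)
      linarith
  rw [← Real.exp_sum] at h1
  have h2 : Real.exp (∑ s ∈ Finset.range T, cs s) ≤ Real.exp (1 / 2) := Real.exp_le_exp.mpr hsum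
  have h3 : Real.exp (1 / 2) ≤ 2 := by
    have e : Real.exp (1 / 2) * Real.exp (1 / 2) = Real.exp 1 := by
      rw [← Real.exp_add]; norm_num
    have := Real.exp_one_lt_d9
    have hp := Real.exp_pos (1 / 2)
    nlinarith
  linarith

/-! ### `α_* ≥ 0` (needed for `T = 0`) -/

theorem s6sum_rho_aux (q T : ℕ) (hT : 0 < T) :
    (q : ℚ) * ((Nat.sqrt ((T * T - 1) / q) : ℚ) / (T : ℚ)) ^ 2 ≤ 1 := by
  generalize hm : Nat.sqrt ((T * T - 1) / q) = m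
  have h1 : m * m ≤ (T * T - 1) / q := by rw [← hm]; exact Nat.sqrt_le _
  have h2 : m * m * q ≤ T * T - 1 := le_trans (Nat.mul_le_mul_right _ h1) (Nat.div_mul_le_self _ _)
  have h3 : m * m * q ≤ T * T := le_trans h2 (Nat.sub_le _ _)
  have h4 : (m : ℚ) * m * (q : ℚ) ≤ (T : ℚ) * T := by exact_mod_cast h3
  have hTq : (0 : ℚ) < T := by exact_mod_cast hT
  rw [div_pow, mul_div_assoc', div_le_one (by positivity)]
  nlinarith

theorem s6sum_alpha_aux (q ρ δ : ℚ) (h5 : q * ρ ^ 2 ≤ 1) (h0 : 0 ≤ δ) (h1 : δ ≤ 1) :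
    0 ≤ 1 - q * (ρ * (1 - 2 ^ 0 * δ)) ^ 2 := by
  have h6 : (1 - 2 ^ 0 * δ) ^ 2 ≤ 1 := by
    rw [pow_zero, one_mul]
    nlinarith
  have h7 : q * (ρ * (1 - 2 ^ 0 * δ)) ^ 2 ≤ 1 := by
    rw [mul_pow, ← mul_assoc]
    calc q * ρ ^ 2 * (1 - 2 ^ 0 * δ) ^ 2 ≤ 1 * 1 := mul_le_mul h5 h6 (sq_nonneg _) (by norm_num)
      _ = 1 := by norm_num
  linarith

theorem s6sum_alpha_aux' (q x : ℚ) (hq : q ≤ 0) : 0 ≤ 1 - q * x ^ 2 := by
  nlinarith [sq_nonneg x]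

theorem s6sum_alphaS_nonneg (d n : ℕ) : 0 ≤ alphaS d n := by
  unfold alphaS
  have key : (0 : ℚ) ≤ alphaf d (prim d n 0) := by
    rcases Nat.lt_or_ge d 2 with hd | hd
    · have : ((d : ℚ) - 1) ≤ 0 := by
        have : (d : ℚ) ≤ 1 := by exact_mod_cast (by omega : d ≤ 1)
        linarith
      exact s6sum_alpha_aux' _ _ this
    · have hq : (1 : ℚ) ≤ (d : ℚ) - 1 := by
        have : (2 : ℚ) ≤ (d : ℚ) := by exact_mod_cast hd
        linarith
      have hT : 0 < rhoT n := Nat.pow_pos (by norm_num)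
      have hc : ((d - 1 : ℕ) : ℚ) = (d : ℚ) - 1 := by
        rw [Nat.cast_sub (by omega)]; norm_num
      have h5 : ((d : ℚ) - 1) * rhoQ d n ^ 2 ≤ 1 := by
        rw [← hc]
        exact s6sum_rho_aux (d - 1) (rhoT n) hT
      have hs0 : 0 < scQ (-(1 / 3) + aa / 2) n := zpow_pos (by norm_num) _
      have hs1 : scQ (-(1 / 3) + aa / 2) n ≤ 1 := by
        apply zpow_le_one_of_nonpos₀ (by norm_num)
        apply Int.floor_nonpos
        apply mul_nonpos_of_nonpos_of_nonneg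
        · unfold aa; norm_num
        · exact Nat.cast_nonneg _
      have hδ0 : 0 ≤ delta0 d n := div_nonneg hs0.le (by linarith)
      have hδ1 : delta0 d n ≤ 1 := by
        unfold delta0
        generalize scQ (-(1 / 3) + aa / 2) n = s at *
        rw [div_le_one (by linarith)]
        linarith
      exact s6sum_alpha_aux _ _ _ h5 hδ0 hδ1
  exact_mod_cast key

/-! ### abstract sums -/

/-- the abstract data of the sums over the steps -/
structure S6sumA (T : ℕ) (lr ra rb ju YE TS : ℕ → ℝ) (b L0 L1 R2 q Bm Qa YEb NT : ℝ) : Prop where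
  hT : (T : ℝ) ≤ b
  l_le : ∀ s < T, lr s ≤ L1
  l_ge : ∀ s < T, L0 ≤ lr s
  L0pos : 0 < L0
  L01 : L0 ≤ L1
  ra0 : ∀ s < T, 0 ≤ ra s
  rb0 : ∀ s < T, 0 ≤ rb s
  ju0 : ∀ s < T, 0 ≤ ju s
  rb2 : ∀ s < T, rb s ≤ 2
  ra_sq : ∑ s ∈ Finset.range T, ra s ^ 2 ≤ R2
  rb_sq : ∑ s ∈ Finset.range T, rb s ^ 2 ≤ R2
  ju_sq : ∑ s ∈ Finset.range T, ju s ^ 2 ≤ R2
  Sra : ∑ s ∈ Finset.range T, ra s ≤ q
  Srb : ∑ s ∈ Finset.range T, rb s ≤ q
  Sju : ∑ s ∈ Finset.range T, ju s ≤ q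
  Sab : ∑ s ∈ Finset.range T, ra s * rb s ≤ R2
  Saj : ∑ s ∈ Finset.range T, ra s * ju s ≤ R2
  Sbj : ∑ s ∈ Finset.range T, rb s * ju s ≤ R2
  hYE : ∀ s < T, |YE s| ≤ YEb
  YEb0 : 0 ≤ YEb
  TS0 : ∀ s < T, 0 ≤ TS s
  hTS : ∀ s < T, TS s ≤ NT
  NT0 : 0 ≤ NT
  Bm0 : 0 ≤ Bm
  Qa0 : 0 ≤ Qa
  R20 : 0 ≤ R2
  q0 : 0 ≤ q

section A

variable {T : ℕ} {lr ra rb ju YE TS : ℕ → ℝ} {b L0 L1 R2 q Bm Qa YEb NT : ℝ}

theorem S6sumA.b0 (A : S6sumA T lr ra rb ju YE TS b L0 L1 R2 q Bm Qa YEb NT) : 0 ≤ b :=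
  le_trans (Nat.cast_nonneg T) A.hT

theorem S6sumA.const (A : S6sumA T lr ra rb ju YE TS b L0 L1 R2 q Bm Qa YEb NT) {k : ℝ} (hk : 0 ≤ k) :
    (T : ℝ) * k ≤ b * k := mul_le_mul_of_nonneg_right A.hT hk

theorem S6sumA.mean (A : S6sumA T lr ra rb ju YE TS b L0 L1 R2 q Bm Qa YEb NT) (om Bt : ℝ) (hom : 0 ≤ om)
    (hBt : 0 ≤ Bt) :
    ∑ s ∈ Finset.range T, ((ra s + rb s) * (om * Bm + Real.sqrt om + 1 + (ju s + Bm) * Real.sqrt (lr s))
      + ra s * rb s * (|YE s| + om * Bm + Qa + lr s * Bm ^ 2) + 1 + Bt) ≤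
    2 * q * (om * Bm + Real.sqrt om + 1) + (2 * R2 + 2 * Bm * q) * Real.sqrt L1
      + R2 * (YEb + om * Bm + Qa + L1 * Bm ^ 2) + b * (1 + Bt) := by
  have hBm := A.Bm0
  have hQa := A.Qa0
  have hL1 : 0 ≤ L1 := le_trans A.L0pos.le A.L01
  set a1 := om * Bm + Real.sqrt om + 1 with ha1
  set w := Real.sqrt L1 with hw
  set a2 := YEb + om * Bm + Qa + L1 * Bm ^ 2 with ha2
  have h1 : 0 ≤ a1 := by have := Real.sqrt_nonneg om; positivity
  have hw0 : 0 ≤ w := Real.sqrt_nonneg _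
  have h2 : 0 ≤ a2 := by have := A.YEb0; positivity
  have hp : ∀ s ∈ Finset.range T,
      ((ra s + rb s) * (a1 + (ju s + Bm) * Real.sqrt (lr s))
      + ra s * rb s * (|YE s| + om * Bm + Qa + lr s * Bm ^ 2) + 1 + Bt) ≤
      a1 * ra s + a1 * rb s + w * (ra s * ju s) + w * (rb s * ju s) + w * Bm * ra s + w * Bm * rb s
        + a2 * (ra s * rb s) + (1 + Bt) := by
    intro s hs
    have hs' := Finset.mem_range.mp hs
    have r1 := A.ra0 s hs'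
    have r2 := A.rb0 s hs'
    have r3 := A.ju0 s hs'
    have e1 : Real.sqrt (lr s) ≤ w := Real.sqrt_le_sqrt (A.l_le s hs')
    have e2 : (ra s + rb s) * (ju s + Bm) * Real.sqrt (lr s) ≤ (ra s + rb s) * (ju s + Bm) * w :=
      mul_le_mul_of_nonneg_left e1 (by positivity)
    have e3 : |YE s| + om * Bm + Qa + lr s * Bm ^ 2 ≤ a2 := by
      have := A.hYE s hs'
      have := mul_le_mul_of_nonneg_right (A.l_le s hs') (sq_nonneg Bm)
      rw [ha2]; linarith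
    have e4 := mul_le_mul_of_nonneg_left e3 (mul_nonneg r1 r2)
    nlinarith
  refine le_trans (Finset.sum_le_sum hp) ?_
  simp only [Finset.sum_add_distrib, ← Finset.mul_sum, Finset.sum_const, Finset.card_range, nsmul_eq_mul]
  have t1 := mul_le_mul_of_nonneg_left A.Sra h1
  have t2 := mul_le_mul_of_nonneg_left A.Srb h1
  have t3 := mul_le_mul_of_nonneg_left A.Saj hw0
  have t4 := mul_le_mul_of_nonneg_left A.Sbj hw0
  have t5 := mul_le_mul_of_nonneg_left A.Sra (mul_nonneg hw0 hBm)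
  have t6 := mul_le_mul_of_nonneg_left A.Srb (mul_nonneg hw0 hBm)
  have t7 := mul_le_mul_of_nonneg_left A.Sab h2
  have t8 := A.const (k := 1 + Bt) (by linarith)
  linarith

theorem S6sumA.var (A : S6sumA T lr ra rb ju YE TS b L0 L1 R2 q Bm Qa YEb NT) (Ne Bt C XX Ub : ℝ) (hNe : 0 ≤ Ne)
    (hC : 0 ≤ C) (X U : ℕ → ℝ) (hX : ∑ s ∈ Finset.range T, X s ≤ XX) (hU : ∀ s < T, |U s| ≤ Ub) :
    ∑ s ∈ Finset.range T, ((ra s ^ 2 + rb s ^ 2 + ra s ^ 2 * rb s ^ 2 * (TS s + Ne + lr s * Bm ^ 4) + Bm ^ 2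
        + ju s ^ 2 + 1 / lr s ^ 2 + Bt ^ 2 / lr s) + C * (X s + Bm ^ 2 + U s ^ 2)) ≤
    3 * R2 + 4 * R2 * (NT + Ne + L1 * Bm ^ 4) + b * (Bm ^ 2 + 1 / L0 ^ 2 + Bt ^ 2 / L0)
      + C * (XX + b * (Bm ^ 2 + Ub ^ 2)) := by
  have hBm := A.Bm0
  have hL0 := A.L0pos
  have hL1 : 0 ≤ L1 := le_trans A.L0pos.le A.L01
  set a2 := NT + Ne + L1 * Bm ^ 4 with ha2
  have h2 : 0 ≤ a2 := by have := A.NT0; positivity
  set k := Bm ^ 2 + 1 / L0 ^ 2 + Bt ^ 2 / L0 with hk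
  have hk0 : 0 ≤ k := by positivity
  have hp : ∀ s ∈ Finset.range T,
      ((ra s ^ 2 + rb s ^ 2 + ra s ^ 2 * rb s ^ 2 * (TS s + Ne + lr s * Bm ^ 4) + Bm ^ 2
        + ju s ^ 2 + 1 / lr s ^ 2 + Bt ^ 2 / lr s) + C * (X s + Bm ^ 2 + U s ^ 2)) ≤
      ra s ^ 2 + rb s ^ 2 + ju s ^ 2 + 4 * a2 * ra s ^ 2 + k + C * X s + C * (Bm ^ 2 + Ub ^ 2) := by
    intro s hs
    have hs' := Finset.mem_range.mp hs
    have r2 := A.rb0 s hs'
    have r2' := A.rb2 s hs'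
    have hl := A.l_ge s hs'
    have hl0 : 0 < lr s := lt_of_lt_of_le hL0 hl
    have e1 : rb s ^ 2 ≤ 4 := by nlinarith
    have e3 : TS s + Ne + lr s * Bm ^ 4 ≤ a2 := by
      have := A.hTS s hs'
      have := mul_le_mul_of_nonneg_right (A.l_le s hs') (by positivity : 0 ≤ Bm ^ 4)
      rw [ha2]; linarith
    have e30 : 0 ≤ TS s + Ne + lr s * Bm ^ 4 := by have := A.TS0 s hs'; positivity
    have e4 : ra s ^ 2 * rb s ^ 2 * (TS s + Ne + lr s * Bm ^ 4) ≤ ra s ^ 2 * 4 * a2 :=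
      mul_le_mul (mul_le_mul_of_nonneg_left e1 (sq_nonneg _)) e3 e30 (by positivity)
    have e5 : 1 / lr s ^ 2 ≤ 1 / L0 ^ 2 :=
      one_div_le_one_div_of_le (by positivity) (pow_le_pow_left₀ hL0.le hl 2)
    have e6 : Bt ^ 2 / lr s ≤ Bt ^ 2 / L0 := div_le_div_of_nonneg_left (sq_nonneg _) hL0 hl
    have e7 : U s ^ 2 ≤ Ub ^ 2 := by
      rw [← sq_abs (U s)]
      exact pow_le_pow_left₀ (abs_nonneg _) (hU s hs') 2
    have e8 := mul_le_mul_of_nonneg_left e7 hC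
    rw [hk]
    nlinarith
  refine le_trans (Finset.sum_le_sum hp) ?_
  simp only [Finset.sum_add_distrib, ← Finset.mul_sum, Finset.sum_const, Finset.card_range, nsmul_eq_mul]
  have t1 := mul_le_mul_of_nonneg_left A.ra_sq (by positivity : 0 ≤ 4 * a2)
  have t2 := A.const hk0
  have t3 := mul_le_mul_of_nonneg_left hX hC
  have t4 := A.const (k := C * (Bm ^ 2 + Ub ^ 2)) (by positivity)
  have := A.ra_sq
  have := A.rb_sq
  have := A.ju_sq
  linarith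

theorem S6sumA.diagM (A : S6sumA T lr ra rb ju YE TS b L0 L1 R2 q Bm Qa YEb NT) (om Bt : ℝ) (hom : 0 ≤ om)
    (hBt : 0 ≤ Bt) :
    ∑ s ∈ Finset.range T, ((om + 1) * Bm + Real.sqrt (om + 1) + |YE s| + Qa
      + (ju s + Bm + Bt) * Real.sqrt (lr s) + lr s * Bm ^ 2) ≤
    b * ((om + 1) * Bm + Real.sqrt (om + 1) + YEb + Qa + L1 * Bm ^ 2)
      + (q + b * (Bm + Bt)) * Real.sqrt L1 := by
  have hBm := A.Bm0
  have hQa := A.Qa0
  have hL1 : 0 ≤ L1 := le_trans A.L0pos.le A.L01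
  set w := Real.sqrt L1 with hw
  have hw0 : 0 ≤ w := Real.sqrt_nonneg _
  set k := (om + 1) * Bm + Real.sqrt (om + 1) + YEb + Qa + L1 * Bm ^ 2 with hk
  have hk0 : 0 ≤ k := by
    have := A.YEb0
    have := Real.sqrt_nonneg (om + 1)
    positivity
  have hp : ∀ s ∈ Finset.range T,
      ((om + 1) * Bm + Real.sqrt (om + 1) + |YE s| + Qa
      + (ju s + Bm + Bt) * Real.sqrt (lr s) + lr s * Bm ^ 2) ≤ k + w * ju s + w * (Bm + Bt) := by
    intro s hs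
    have hs' := Finset.mem_range.mp hs
    have r3 := A.ju0 s hs'
    have e1 : Real.sqrt (lr s) ≤ w := Real.sqrt_le_sqrt (A.l_le s hs')
    have e2 : (ju s + Bm + Bt) * Real.sqrt (lr s) ≤ (ju s + Bm + Bt) * w :=
      mul_le_mul_of_nonneg_left e1 (by positivity)
    have := A.hYE s hs'
    have := mul_le_mul_of_nonneg_right (A.l_le s hs') (sq_nonneg Bm)
    rw [hk]
    nlinarith
  refine le_trans (Finset.sum_le_sum hp) ?_
  simp only [Finset.sum_add_distrib, ← Finset.mul_sum, Finset.sum_const, Finset.card_range, nsmul_eq_mul]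
  have t1 := A.const hk0
  have t2 := mul_le_mul_of_nonneg_left A.Sju hw0
  have t3 := A.const (k := w * (Bm + Bt)) (by positivity)
  linarith

theorem S6sumA.diagV (A : S6sumA T lr ra rb ju YE TS b L0 L1 R2 q Bm Qa YEb NT) (Ne Bt : ℝ) (hNe : 0 ≤ Ne) :
    ∑ s ∈ Finset.range T, (Ne + TS s + lr s * (ju s ^ 2 + Bm ^ 2) + Bt ^ 2) ≤
    b * (Ne + NT + Bt ^ 2) + L1 * (R2 + b * Bm ^ 2) := by
  have hL1 : 0 ≤ L1 := le_trans A.L0pos.le A.L01
  have hp : ∀ s ∈ Finset.range T, (Ne + TS s + lr s * (ju s ^ 2 + Bm ^ 2) + Bt ^ 2) ≤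
      (Ne + NT + Bt ^ 2) + L1 * ju s ^ 2 + L1 * Bm ^ 2 := by
    intro s hs
    have hs' := Finset.mem_range.mp hs
    have := A.hTS s hs'
    have := mul_le_mul_of_nonneg_right (A.l_le s hs') (by positivity : 0 ≤ ju s ^ 2 + Bm ^ 2)
    nlinarith
  refine le_trans (Finset.sum_le_sum hp) ?_
  simp only [Finset.sum_add_distrib, ← Finset.mul_sum, Finset.sum_const, Finset.card_range, nsmul_eq_mul]
  have t1 := A.const (k := Ne + NT + Bt ^ 2) (by have := A.NT0; positivity)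
  have t2 := mul_le_mul_of_nonneg_left A.ju_sq hL1
  have t3 := A.const (k := L1 * Bm ^ 2) (by positivity)
  linarith

theorem S6sumA.tr (A : S6sumA T lr ra rb ju YE TS b L0 L1 R2 q Bm Qa YEb NT) (om : ℝ) (hom : 0 ≤ om) :
    ∑ s ∈ Finset.range T, (om + Qa + lr s * (ju s + Bm)) ≤ b * (om + Qa) + L1 * (q + b * Bm) := by
  have hBm := A.Bm0
  have hQa := A.Qa0
  have hL1 : 0 ≤ L1 := le_trans A.L0pos.le A.L01
  have hp : ∀ s ∈ Finset.range T, (om + Qa + lr s * (ju s + Bm)) ≤ (om + Qa) + L1 * ju s + L1 * Bm := by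
    intro s hs
    have hs' := Finset.mem_range.mp hs
    have r3 := A.ju0 s hs'
    have := mul_le_mul_of_nonneg_right (A.l_le s hs') (by positivity : 0 ≤ ju s + Bm)
    nlinarith
  refine le_trans (Finset.sum_le_sum hp) ?_
  simp only [Finset.sum_add_distrib, ← Finset.mul_sum, Finset.sum_const, Finset.card_range, nsmul_eq_mul]
  have t1 := A.const (k := om + Qa) (by positivity)
  have t2 := mul_le_mul_of_nonneg_left A.Sju hL1
  have t3 := A.const (k := L1 * Bm) (by positivity)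
  linarith

end A

section Sums

variable (d n : ℕ) (P : S6Par) (c : S6Cst) (C : ℝ)

/-- the data of the steps `s < T` of a history: sizes, majorants at the prescribed endpoint, `Y_E`, `T_S` -/
structure S6Seq (T : ℕ) (l : ℕ → ℕ) (ra rb ju YE TS : ℕ → ℝ) : Prop where
  hT : T ≤ bb n
  l_le : ∀ s < T, l s ≤ l1 n
  l_ge : ∀ s < T, l0 n ≤ l s
  ra0 : ∀ s < T, 0 ≤ ra s
  rb0 : ∀ s < T, 0 ≤ rb s
  ju0 : ∀ s < T, 0 ≤ ju s
  rb2 : ∀ s < T, rb s ≤ 2
  ra_sq : ∑ s ∈ Finset.range T, ra s ^ 2 ≤ s6R2 d n P c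
  rb_sq : ∑ s ∈ Finset.range T, rb s ^ 2 ≤ s6R2 d n P c
  ju_sq : ∑ s ∈ Finset.range T, ju s ^ 2 ≤ s6R2 d n P c
  hYE : ∀ s < T, |YE s| ≤ s6YEb d n c
  TS0 : ∀ s < T, 0 ≤ TS s
  hTS : ∀ s < T, TS s ≤ (n : ℝ) ^ c.ηT
  Bm0 : 0 ≤ s6Bm n P
  Qa0 : 0 ≤ s6Qa d n c
  l0pos : 0 < l0 n

variable {d n P c} {T : ℕ} {l : ℕ → ℕ} {ra rb ju YE TS : ℕ → ℝ}

theorem S6Seq.toA (S : S6Seq d n P c T l ra rb ju YE TS) :
    S6sumA T (fun s => (l s : ℝ)) ra rb ju YE TS (bb n) (l0 n) (l1 n) (s6R2 d n P c)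
      (Real.sqrt (bb n * s6R2 d n P c)) (s6Bm n P) (s6Qa d n c) (s6YEb d n c) ((n : ℝ) ^ c.ηT) := by
  have hR : 0 ≤ s6R2 d n P c := le_trans (Finset.sum_nonneg fun s _ => sq_nonneg _) S.ra_sq
  have hTb : (T : ℝ) ≤ bb n := by exact_mod_cast S.hT
  have hq : Real.sqrt (T * s6R2 d n P c) ≤ Real.sqrt (bb n * s6R2 d n P c) :=
    Real.sqrt_le_sqrt (mul_le_mul_of_nonneg_right hTb hR)
  obtain ⟨a1, a2, a3⟩ := s6_cs_sums T ra rb ju _ S.ra_sq S.rb_sq S.ju_sq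
  obtain ⟨b1, -, b3⟩ := s6_cs_sums T rb ra ju _ S.rb_sq S.ra_sq S.ju_sq
  obtain ⟨c1, -, -⟩ := s6_cs_sums T ju ra rb _ S.ju_sq S.ra_sq S.rb_sq
  refine
    { hT := hTb
      l_le := fun s hs => by exact_mod_cast S.l_le s hs
      l_ge := fun s hs => by exact_mod_cast S.l_ge s hs
      L0pos := by exact_mod_cast S.l0pos
      L01 := by
        have : l0 n ≤ l1 n := Nat.le_add_right _ _
        exact_mod_cast this
      ra0 := S.ra0, rb0 := S.rb0, ju0 := S.ju0, rb2 := S.rb2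
      ra_sq := S.ra_sq, rb_sq := S.rb_sq, ju_sq := S.ju_sq
      Sra := le_trans a1 hq, Srb := le_trans b1 hq, Sju := le_trans c1 hq
      Sab := a2, Saj := a3, Sbj := b3
      hYE := S.hYE
      YEb0 := ?_
      TS0 := S.TS0, hTS := S.hTS
      NT0 := Real.rpow_nonneg (Nat.cast_nonneg _) _
      Bm0 := S.Bm0, Qa0 := S.Qa0, R20 := hR, q0 := Real.sqrt_nonneg _ }
  unfold s6YEb
  exact add_nonneg (div_nonneg (Real.rpow_nonneg (Nat.cast_nonneg _) _) (s6sum_alphaS_nonneg d n)) S.Qa0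

theorem s6sum_Bt_nonneg (n : ℕ) : 0 ≤ s6Bt n :=
  div_nonneg (Real.rpow_nonneg (Nat.cast_nonneg _) _) (Real.sqrt_nonneg _)

theorem s6_sum_meanB (S : S6Seq d n P c T l ra rb ju YE TS) :
    ∑ s ∈ Finset.range T, s6MeanB (s6N d n P c) (l s) (s6om n) (ra s) (rb s) (ju s) (YE s) ≤ s6MeanSum d n P c := by
  exact S.toA.mean (s6om n) (s6Bt n) (Nat.cast_nonneg _) (s6sum_Bt_nonneg n)

/-- `X s` = the joint cross term of step `s`, `U s` = the uniform part -/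
theorem s6_sum_varB (S : S6Seq d n P c T l ra rb ju YE TS) (hC : 0 ≤ C) (X U : ℕ → ℝ)
    (hX : ∑ s ∈ Finset.range T, X s ≤ (2 * d * c.CM * (Lcut d n : ℝ) ^ 2) ^ 2)
    (hU : ∀ s < T, |U s| ≤ s6Ub d n) :
    ∑ s ∈ Finset.range T, (s6VarB (s6N d n P c) (l s) (ra s) (rb s) (ju s) (TS s)
        + C * (X s + (s6N d n P c).Bm ^ 2 + U s ^ 2)) ≤ s6VarSum d n P c C := by
  exact S.toA.var ((n : ℝ) ^ c.η) (s6Bt n) C _ (s6Ub d n) (Real.rpow_nonneg (Nat.cast_nonneg _) _) hC X U hX hU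

theorem s6_sum_diagM (S : S6Seq d n P c T l ra rb ju YE TS) :
    ∑ s ∈ Finset.range T, s6DiagMB (s6N d n P c) (l s) (s6om n) (ju s) (YE s) ≤ s6DiagMSum d n P c := by
  exact S.toA.diagM (s6om n) (s6Bt n) (Nat.cast_nonneg _) (s6sum_Bt_nonneg n)

theorem s6_sum_diagV (S : S6Seq d n P c T l ra rb ju YE TS) :
    ∑ s ∈ Finset.range T, s6DiagVB (s6N d n P c) (l s) (ju s) (TS s) ≤ s6DiagVSum d n P c := by
  exact S.toA.diagV ((n : ℝ) ^ c.η) (s6Bt n) (Real.rpow_nonneg (Nat.cast_nonneg _) _)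

theorem s6_sum_tr (S : S6Seq d n P c T l ra rb ju YE TS) :
    ∑ s ∈ Finset.range T, ((s6om n : ℝ) + (s6N d n P c).Qa + (l s : ℝ) * (ju s + (s6N d n P c).Bm)) ≤
      s6TrSum d n P c := by
  exact S.toA.tr (s6om n) (Nat.cast_nonneg _)

end Sums

end Claimed.Agent.R275
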