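import Claimed.Agent.R275.S6Main
import Claimed.Agent.R275.S6Bridge

/-!
# Row 275, Sec 6 (cleanup.tex): PROPOSITION 6.1 (`prop:cleanup`), FINAL FORM  (= stage theorem T6 of `Top.lean`)

Owner: helper208.  PROVED here from `s6_bridge` (Sec 4 at cleanup states), `s6_one` (one-step lemmas), `s6_asym` (exponent arithmetic), `s6_main_rat` (fixed `n`).

CONSTANTS.  `P : S6Par` = the rational parameters which the MACHINE sees (`cp, ρ, ζ, xT, p`); `c : S6Cst` = the real constants of the analysis; only the fields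
`CM CR Rc cT θ η0 η ηT ηs c0 βR` matter (the fields `C0 CK CQ CJ` are overwritten).  `S6Good P c` = the conditions on them (`S6Good.lean`, with the order of choices).
INPUT:  `π₁.EarlyOut cp CM CR η0 Rc cT θ` (table of Sec 4.5, column `l₁`) and the interface `S6SA` of the structural accounts `SAq` (any label type, any per-step growth `κ`).
OUTPUT: `CleanOut cp CM CR ηT Rc cT θ` at `s6Run d n P SAq π₁`.
-/

set_option autoImplicit false

namespace Claimed.Agent.R275

open Matrix Filter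

/-- the interface of the structural accounts does not see the internal constants -/
theorem S6SA.setInt {n d : ℕ} {ιs : Type} {c : S6Cst} {κ : ℝ} {SA : Phase ℝ (PPair n d) ιs} {π₁ : PPair n d}
    (h : S6SA c κ SA π₁) (C0 CK CQ CJ : ℝ) : S6SA (c.setInt C0 CK CQ CJ) κ SA π₁ :=
  { wt_nonneg := h.wt_nonneg, Z_nonneg := h.Z_nonneg, dead := h.dead, init := h.init, step := h.step
    κ_nonneg := h.κ_nonneg, bud := h.bud, extract := h.extract }

/-- PROPOSITION 6.1 -/
theorem s6_main (d : ℕ) (hd : 3 ≤ d) (P : S6Par) (c : S6Cst) (G : S6Good P c) :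
    ∀ᶠ n : ℕ in atTop, ∀ (π₁ : PPair n d) (ιs : Type) (SAq : Phase ℚ (PPair n d) ιs) (κ : ℝ),
      S6SA c κ (SAq.map (Rat.castHom ℝ)) π₁ → π₁.EarlyOut P.cp c.CM c.CR c.η0 c.Rc c.cT c.θ →
        (s6Run d n P SAq π₁).CleanOut P.cp c.CM c.CR c.ηT c.Rc c.cT c.θ := by
  obtain ⟨C0, CK, CQ, CJ, hBr⟩ := s6_bridge d hd P c G
  obtain ⟨C, hO⟩ := s6_one C0
  filter_upwards [hBr C, s6_asym d P (c.setInt C0 CK CQ CJ) hd (G.setInt C0 CK CQ CJ) C] with n Br Nm π₁ ιs SAq κ hSA E
  exact s6_main_rat (c := c.setInt C0 CK CQ CJ) hO Br Nm (hSA.setInt C0 CK CQ CJ) E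

end Claimed.Agent.R275
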