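import Claimed.Agent.R275.S43Bridge
import Claimed.Agent.R275.NbWalk
import Claimed.Agent.R275.S43V

/-!
# Row 275, Lemma 7.2, leaf S72-WALK: walk algebra W0, W1, W2 on `PPair` (helper183, prefix `s72x_`)

* `s72x_Nact_add_le` (W0): `N_{j+k} ≤ N_j N_k` entrywise (`CᵀC = N + 1`, nonnegative remainder);
* `s72x_Nact_unique` (W1): no return of length `≤ 2K` at `v` gives at most one NB walk of length `≤ K` from `v` to `w`
  (counting through `stubW` of `S43Bridge.lean`: two walks to `v` which leave a vertex through different stubs give a return);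
* `s72x_Nact_join` (W2): through `nbwReach` of `NbWalk.lean`.
No sorry.
-/

set_option autoImplicit false

namespace Claimed.Agent.R275

open Matrix Finset

namespace PPair

variable {n d : ℕ} (π : PPair n d)

/-! ### transfer between `ℚ` and `ℝ` -/

theorem s72x_ne_rat {k : ℕ} {v w : Fin n} (h : π.Nact ℝ k v w ≠ 0) : π.Nact ℚ k v w ≠ 0 := by
  rw [← s43v_Nact_cast] at h
  exact_mod_cast h

theorem s72x_ne_real {k : ℕ} {v w : Fin n} (h : π.Nact ℚ k v w ≠ 0) : π.Nact ℝ k v w ≠ 0 := by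
  rw [← s43v_Nact_cast]
  exact_mod_cast h

theorem s72x_eq_rat {k : ℕ} {v w : Fin n} (h : π.Nact ℝ k v w = 0) : π.Nact ℚ k v w = 0 := by
  rw [← s43v_Nact_cast] at h
  exact_mod_cast h

/-! ### W2 -/

theorem s72x_reach {k : ℕ} {v w : Fin n} (h : π.Nact ℚ k v w ≠ 0) : π.nbwReach k v w :=
  (π.nbw_not_far_iff k v w).1 ((π.nbw_not_far k v w).2 ⟨k, le_refl _, h⟩)

/-- **W2** reduction of a concatenation. -/
theorem s72x_Nact_join (j k : ℕ) (v w i : Fin n) (hj : π.Nact ℝ j v i ≠ 0) (hk : π.Nact ℝ k w i ≠ 0) :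
    ∃ m, m ≤ j + k ∧ π.Nact ℝ m v w ≠ 0 := by
  have h1 := π.s72x_reach (π.s72x_ne_rat hj)
  have h2 := π.s72x_reach (π.s72x_ne_rat hk)
  obtain ⟨m, hm, h⟩ := (π.nbw_not_far (j + k) v w).1 ((π.nbw_not_far_iff (j + k) v w).2 (h1.trans h2.symm))
  exact ⟨m, hm, π.s72x_ne_real h⟩

/-! ### W0 -/

theorem s72x_CtC : (Cinc ℚ n d)ᵀ * Cinc ℚ n d = NBm ℚ n d + 1 := by
  rw [NBm_eq, sub_add_cancel]

theorem s72x_Nact_mul (a b : ℕ) :
    π.Nact ℚ (a + 1) * π.Nact ℚ (b + 1) = π.Nact ℚ (a + b + 1 + 1) +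
      Cinc ℚ n d * ((π.Pact ℚ * (NBm ℚ n d * π.Pact ℚ) ^ a) * (π.Pact ℚ * (NBm ℚ n d * π.Pact ℚ) ^ b)) *
        (Cinc ℚ n d)ᵀ := by
  have e1 : π.Nact ℚ (a + 1) * π.Nact ℚ (b + 1) =
      Cinc ℚ n d * ((π.Pact ℚ * (NBm ℚ n d * π.Pact ℚ) ^ a) * ((Cinc ℚ n d)ᵀ * Cinc ℚ n d) *
        (π.Pact ℚ * (NBm ℚ n d * π.Pact ℚ) ^ b)) * (Cinc ℚ n d)ᵀ := by
    simp only [Nact, Matrix.mul_assoc]
  have e2 : π.Nact ℚ (a + b + 1 + 1) =
      Cinc ℚ n d * ((π.Pact ℚ * (NBm ℚ n d * π.Pact ℚ) ^ a) * NBm ℚ n d *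
        (π.Pact ℚ * (NBm ℚ n d * π.Pact ℚ) ^ b)) * (Cinc ℚ n d)ᵀ := by
    have : a + b + 1 = a + 1 + b := by omega
    simp only [Nact, this, pow_add, pow_one, Matrix.mul_assoc]
  rw [e1, e2, s72x_CtC, Matrix.mul_add, Matrix.mul_one, Matrix.add_mul, Matrix.mul_add, Matrix.add_mul]

theorem s72x_Nact_add_le_rat (j k : ℕ) (v w : Fin n) :
    π.Nact ℚ (j + k) v w ≤ ∑ i, π.Nact ℚ j v i * π.Nact ℚ k i w := by
  rw [← Matrix.mul_apply]
  cases j with
  | zero =>
    rw [Nat.zero_add]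
    show _ ≤ ((1 : Matrix (Fin n) (Fin n) ℚ) * π.Nact ℚ k) v w
    rw [Matrix.one_mul]
  | succ a =>
    cases k with
    | zero =>
      show _ ≤ (π.Nact ℚ (a + 1) * (1 : Matrix (Fin n) (Fin n) ℚ)) v w
      rw [Matrix.mul_one]
    | succ b =>
      have e : a + 1 + (b + 1) = a + b + 1 + 1 := by omega
      rw [e, s72x_Nact_mul, Matrix.add_apply]
      have hCT : ∀ (i : Stub n d) (j : Fin n), 0 ≤ (Cinc ℚ n d)ᵀ i j := fun i j => nbw_Cinc_nonneg j i
      have := nbw_mul_nonneg (nbw_mul_nonneg nbw_Cinc_nonneg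
        (nbw_mul_nonneg (π.nbw_W_nonneg a) (π.nbw_W_nonneg b))) hCT v w
      linarith

/-- **W0** a nonbacktracking walk splits into a prefix and a suffix. -/
theorem s72x_Nact_add_le (j k : ℕ) (v w : Fin n) :
    π.Nact ℝ (j + k) v w ≤ ∑ i, π.Nact ℝ j v i * π.Nact ℝ k i w := by
  have h := π.s72x_Nact_add_le_rat j k v w
  simp only [← s43v_Nact_cast]
  exact_mod_cast h

/-! ### W1 -/

/-- a positive count gives a walk -/
theorem s72x_stubW_SW (j : ℕ) (x : Stub n d) (w : Fin n) (h : π.stubW j x w ≠ 0) :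
    ∃ y : Stub n d, y.1 = w ∧ π.nbwSW j x y := by
  induction j generalizing x with
  | zero =>
    have hc : ¬ π.Unres x ∧ (π.mate x).1 = w := by
      by_contra hc
      exact h (if_neg hc)
    exact ⟨π.mate x, hc.2, hc.1, rfl⟩
  | succ j ih =>
    have hx : ¬ π.Unres x := by
      intro hx
      exact h (if_pos hx)
    have e : π.stubW (j + 1) x w =
        ∑ x' ∈ Finset.univ.filter (fun x' : Stub n d => x'.1 = (π.mate x).1 ∧ x' ≠ π.mate x),
          π.stubW j x' w := if_neg hx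
    rw [e] at h
    obtain ⟨x', hx', hne⟩ := Finset.exists_ne_zero_of_sum_ne_zero h
    obtain ⟨y, hy, hSW⟩ := ih x' hne
    have hf := (Finset.mem_filter.1 hx').2
    exact ⟨y, hy, nbwSW.cons hx hf.1.symm hf.2.symm hSW⟩

/-- number of NB walks of length in `[1, K]` which leave through the stub `x` and end at `v` -/
def s72xB (K : ℕ) (x : Stub n d) (v : Fin n) : ℕ := ∑ j ∈ Finset.range K, π.stubW j x v

theorem s72x_B_SW {K : ℕ} {x : Stub n d} {v : Fin n} (h : π.s72xB K x v ≠ 0) :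
    ∃ j < K, ∃ y : Stub n d, y.1 = v ∧ π.nbwSW j x y := by
  obtain ⟨j, hj, hne⟩ := Finset.exists_ne_zero_of_sum_ne_zero h
  exact ⟨j, Finset.mem_range.1 hj, π.s72x_stubW_SW j x v hne⟩

theorem s72x_B_succ_unres (K : ℕ) (x : Stub n d) (v : Fin n) (hx : π.Unres x) : π.s72xB K x v = 0 := by
  apply Finset.sum_eq_zero
  intro j _
  cases j with
  | zero => exact if_neg fun h => h.1 hx
  | succ j => exact if_pos hx

theorem s72x_B_succ (K : ℕ) (x : Stub n d) (v : Fin n) (hx : ¬ π.Unres x) :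
    π.s72xB (K + 1) x v = (if (π.mate x).1 = v then 1 else 0) +
      ∑ x' ∈ Finset.univ.filter (fun x' : Stub n d => x'.1 = (π.mate x).1 ∧ x' ≠ π.mate x),
        π.s72xB K x' v := by
  unfold s72xB
  rw [Finset.sum_range_succ', Finset.sum_comm, add_comm]
  congr 1
  · show (if ¬ π.Unres x ∧ (π.mate x).1 = v then 1 else 0) = _
    by_cases h : (π.mate x).1 = v
    · rw [if_pos ⟨hx, h⟩, if_pos h]
    · rw [if_neg fun h' => h h'.2, if_neg h]
  · apply Finset.sum_congr rfl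
    intro j _
    exact if_neg hx

theorem s72x_sum_le_one {ι : Type*} (s : Finset ι) (f : ι → ℕ) (h1 : ∀ i ∈ s, f i ≤ 1)
    (h2 : ∀ i ∈ s, ∀ j ∈ s, f i ≠ 0 → f j ≠ 0 → i = j) : ∑ i ∈ s, f i ≤ 1 := by
  by_cases h : ∃ i ∈ s, f i ≠ 0
  · obtain ⟨i, hi, hne⟩ := h
    rw [Finset.sum_eq_single_of_mem i hi]
    · exact h1 i hi
    · intro j hj hji
      by_contra hcon
      exact hji (h2 j hj i hi hcon hne)
  · push Not at h
    rw [Finset.sum_eq_zero h]
    exact Nat.zero_le _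

section W1

variable {π} {v : Fin n} {K : ℕ}

/-- two walks to `v` which leave a vertex through different stubs give a return at `v` -/
theorem s72x_two (hv : ∀ k, 1 ≤ k → k ≤ 2 * K → π.Nact ℚ k v v = 0) {x x' : Stub n d}
    (hxx : x.1 = x'.1) (hne : x ≠ x') (h : π.s72xB K x v ≠ 0) (h' : π.s72xB K x' v ≠ 0) : False := by
  obtain ⟨j, hj, y, hy, hSW⟩ := π.s72x_B_SW h
  obtain ⟨j', hj', y', hy', hSW'⟩ := π.s72x_B_SW h'
  have hW := hSW.symm.append hxx hne hSW'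
  exact (π.nbw_Nact_succ_ne_zero (j + j' + 1) v v).2 ⟨y, y', hy, hy', hW⟩
    (hv (j + j' + 1 + 1) (by omega) (by omega))

/-- a walk from `v` to `v` is a return -/
theorem s72x_ret (hv : ∀ k, 1 ≤ k → k ≤ 2 * K → π.Nact ℚ k v v = 0) {x : Stub n d} (hx : x.1 = v) :
    π.s72xB K x v = 0 := by
  by_contra h
  obtain ⟨j, hj, y, hy, hSW⟩ := π.s72x_B_SW h
  exact (π.nbw_Nact_succ_ne_zero j v v).2 ⟨x, y, hx, hy, hSW⟩ (hv (j + 1) (by omega) (by omega))

theorem s72x_B_le_one (hv : ∀ k, 1 ≤ k → k ≤ 2 * K → π.Nact ℚ k v v = 0) (x : Stub n d) :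
    π.s72xB K x v ≤ 1 := by
  induction K generalizing x with
  | zero => simp [s72xB]
  | succ K ih =>
    have hv' : ∀ k, 1 ≤ k → k ≤ 2 * K → π.Nact ℚ k v v = 0 := fun k h1 h2 => hv k h1 (by omega)
    by_cases hx : π.Unres x
    · rw [π.s72x_B_succ_unres _ x v hx]
      exact Nat.zero_le _
    · rw [π.s72x_B_succ K x v hx]
      by_cases hm : (π.mate x).1 = v
      · rw [if_pos hm, Finset.sum_eq_zero fun x' hx' =>
          s72x_ret hv' ((Finset.mem_filter.1 hx').2.1.trans hm)]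
        exact le_refl _
      · rw [if_neg hm, Nat.zero_add]
        refine s72x_sum_le_one _ _ (fun x' _ => ih hv' x') ?_
        intro x' hx' x'' hx'' h' h''
        by_contra hne
        exact s72x_two hv' ((Finset.mem_filter.1 hx').2.1.trans (Finset.mem_filter.1 hx'').2.1.symm)
          hne h' h''

end W1

theorem s72x_sum_Nact (K : ℕ) (w v : Fin n) :
    ∑ k ∈ Finset.range (K + 1), π.Nact ℝ k w v =
      (((if w = v then 1 else 0) +
        ∑ x ∈ Finset.univ.filter (fun x : Stub n d => x.1 = w), π.s72xB K x v : ℕ) : ℝ) := by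
  rw [Finset.sum_range_succ', add_comm]
  push_cast
  congr 1
  unfold s72xB
  push_cast
  rw [Finset.sum_comm]
  apply Finset.sum_congr rfl
  intro j _
  rw [s43_Nact_succ_eq]
  push_cast
  rfl

/-- **W1** local uniqueness: no return of length `≤ 2K` at `v` ⟹ at most one walk of length `≤ K` from `v` to any `w`. -/
theorem s72x_Nact_unique (K : ℕ) (v : Fin n) (hv : ∀ k, 1 ≤ k → k ≤ 2 * K → π.Nact ℝ k v v = 0) (w : Fin n) :
    ∑ k ∈ Finset.range (K + 1), π.Nact ℝ k v w ≤ 1 := by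
  have hv' : ∀ k, 1 ≤ k → k ≤ 2 * K → π.Nact ℚ k v v = 0 := fun k h1 h2 => π.s72x_eq_rat (hv k h1 h2)
  have e : ∑ k ∈ Finset.range (K + 1), π.Nact ℝ k v w = ∑ k ∈ Finset.range (K + 1), π.Nact ℝ k w v :=
    Finset.sum_congr rfl fun k _ => π.s43v_Nact_symm k v w
  rw [e, s72x_sum_Nact]
  have key : (if w = v then 1 else 0) +
      ∑ x ∈ Finset.univ.filter (fun x : Stub n d => x.1 = w), π.s72xB K x v ≤ 1 := by
    by_cases hwv : w = v
    · rw [if_pos hwv, Finset.sum_eq_zero fun x hx =>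
        s72x_ret hv' ((Finset.mem_filter.1 hx).2.trans hwv)]
      exact le_refl _
    · rw [if_neg hwv, Nat.zero_add]
      refine s72x_sum_le_one _ _ (fun x _ => s72x_B_le_one hv' x) ?_
      intro x hx x' hx' h h'
      by_contra hne
      exact s72x_two hv' ((Finset.mem_filter.1 hx).2.trans (Finset.mem_filter.1 hx').2.symm) hne h h'
  exact_mod_cast key

end PPair

end Claimed.Agent.R275
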