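import Claimed.Agent.R275.S7Inv

/-!
# Row 275, Section 7, package S7-NUM: numerical toolkit (scales `scQ`, sizes, `ω_l`, harmonic sums)

Statements by helper245; proofs by helper81.
Every asymptotic leaf of Section 7 imports this file and uses ONLY these facts (and `Params.lean`) about the scales.
`scQ x n = 2 ^ ⌊x * log₂ n⌋` (`Nat.log 2 n`), so all the calculus below is floor arithmetic.
-/

set_option autoImplicit false

namespace Claimed.Agent.R275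

open Filter

/-! ## `scQ` calculus (exact, all `n`) -/

theorem s7n_scQ_pos (x : ℚ) (n : ℕ) : 0 < scQ x n := scQ_pos x n

theorem s7n_scQ_zero (n : ℕ) : scQ 0 n = 1 := by
  unfold scQ scZ
  simp

theorem s7n_scQ_mono {x y : ℚ} (h : x ≤ y) (n : ℕ) : scQ x n ≤ scQ y n := by
  unfold scQ scZ
  refine zpow_le_zpow_right₀ (by norm_num) (Int.floor_le_floor ?_)
  exact mul_le_mul_of_nonneg_right h (by positivity)

theorem s7n_scQ_le_one {x : ℚ} (h : x ≤ 0) (n : ℕ) : scQ x n ≤ 1 := by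
  rw [← s7n_scQ_zero n]
  exact s7n_scQ_mono h n

theorem s7n_one_le_scQ {x : ℚ} (h : 0 ≤ x) (n : ℕ) : 1 ≤ scQ x n := by
  rw [← s7n_scQ_zero n]
  exact s7n_scQ_mono h n

theorem s7n_scQ_mul_le (x y : ℚ) (n : ℕ) : scQ x n * scQ y n ≤ scQ (x + y) n := by
  unfold scQ scZ
  rw [← zpow_add₀ (by norm_num : (2 : ℚ) ≠ 0), add_mul]
  exact zpow_le_zpow_right₀ (by norm_num) (Int.le_floor_add _ _)

theorem s7n_scQ_add_le (x y : ℚ) (n : ℕ) : scQ (x + y) n ≤ 2 * (scQ x n * scQ y n) := by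
  unfold scQ scZ
  rw [← zpow_add₀ (by norm_num : (2 : ℚ) ≠ 0), add_mul]
  have h1 : (2 : ℚ) * 2 ^ (⌊x * (Nat.log 2 n : ℚ)⌋ + ⌊y * (Nat.log 2 n : ℚ)⌋) =
      2 ^ (1 + (⌊x * (Nat.log 2 n : ℚ)⌋ + ⌊y * (Nat.log 2 n : ℚ)⌋)) := by
    rw [zpow_add₀ (by norm_num : (2 : ℚ) ≠ 0) 1, zpow_one]
  rw [h1]
  refine zpow_le_zpow_right₀ (by norm_num) ?_
  have := Int.le_floor_add_floor (x * (Nat.log 2 n : ℚ)) (y * (Nat.log 2 n : ℚ))
  omega

theorem s7n_scQ_neg_le (x : ℚ) (n : ℕ) : scQ (-x) n ≤ (scQ x n)⁻¹ := by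
  have h1 := s7n_scQ_mul_le x (-x) n
  rw [add_neg_cancel, s7n_scQ_zero] at h1
  rw [le_inv_comm₀ (scQ_pos _ _) (scQ_pos _ _), inv_eq_one_div, le_div_iff₀ (scQ_pos _ _)]
  exact h1

theorem s7n_scQ_inv_le (x : ℚ) (n : ℕ) : (scQ x n)⁻¹ ≤ 2 * scQ (-x) n := by
  have h1 := s7n_scQ_add_le x (-x) n
  rw [add_neg_cancel, s7n_scQ_zero] at h1
  rw [inv_eq_one_div, div_le_iff₀ (scQ_pos _ _)]
  linarith

theorem s7n_scQ_pow_le (x : ℚ) (k n : ℕ) : scQ x n ^ k ≤ scQ (k * x) n := by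
  induction k with
  | zero => simp [s7n_scQ_zero]
  | succ k ih =>
    have h1 : (((k + 1 : ℕ) : ℚ)) * x = k * x + x := by push_cast; ring
    rw [pow_succ, h1]
    exact (mul_le_mul_of_nonneg_right ih (scQ_pos _ _).le).trans (s7n_scQ_mul_le _ _ _)

theorem s7n_scQ_le_pow (x : ℚ) (k n : ℕ) : scQ (k * x) n ≤ 2 ^ k * scQ x n ^ k := by
  induction k with
  | zero => simp [s7n_scQ_zero]
  | succ k ih =>
    have h1 : (((k + 1 : ℕ) : ℚ)) * x = k * x + x := by push_cast; ring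
    rw [h1]
    refine (s7n_scQ_add_le _ _ _).trans ?_
    have h2 := mul_le_mul_of_nonneg_right ih (scQ_pos x n).le
    calc 2 * (scQ (k * x) n * scQ x n) ≤ 2 * (2 ^ k * scQ x n ^ k * scQ x n) := by linarith
      _ = 2 ^ (k + 1) * scQ x n ^ (k + 1) := by ring

theorem s7n_cast_pos (x : ℚ) (n : ℕ) : (0 : ℝ) < (scQ x n : ℝ) := by exact_mod_cast scQ_pos x n

theorem s7n_sqrt_scQ_le (x : ℚ) (n : ℕ) : Real.sqrt (scQ x n : ℝ) ≤ 2 * (scQ (x / 2) n : ℝ) := by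
  have h0 := s7n_cast_pos (x / 2) n
  rw [Real.sqrt_le_iff]
  refine ⟨by linarith, ?_⟩
  have h1 := s7n_scQ_add_le (x / 2) (x / 2) n
  rw [add_halves] at h1
  have h2 : (scQ x n : ℝ) ≤ 2 * ((scQ (x / 2) n : ℝ) * (scQ (x / 2) n : ℝ)) := by exact_mod_cast h1
  nlinarith

theorem s7n_scQ_le_sqrt (x : ℚ) (n : ℕ) : (scQ (x / 2) n : ℝ) ≤ Real.sqrt (scQ x n : ℝ) := by
  have h0 := s7n_cast_pos (x / 2) n
  rw [Real.le_sqrt' h0]
  have h1 := s7n_scQ_mul_le (x / 2) (x / 2) n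
  rw [add_halves] at h1
  have h2 : (scQ (x / 2) n : ℝ) * (scQ (x / 2) n : ℝ) ≤ (scQ x n : ℝ) := by exact_mod_cast h1
  nlinarith

/-! ## The basic asymptotic comparison -/

/-- `C (log n)^k ≤ n^c` eventually -/
theorem s7n_ev_logpow (C c : ℝ) (hc : 0 < c) (k : ℕ) :
    ∀ᶠ n : ℕ in atTop, C * Real.log n ^ k ≤ (n : ℝ) ^ c := by
  have h1 := (isLittleO_log_rpow_rpow_atTop (k : ℝ) hc).bound (c := 1 / (|C| + 1)) (by positivity)
  filter_upwards [tendsto_natCast_atTop_atTop.eventually h1, eventually_ge_atTop 1] with n hn hn1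
  have hn1' : (1 : ℝ) ≤ (n : ℝ) := by exact_mod_cast hn1
  have hl : 0 ≤ Real.log n := Real.log_nonneg hn1'
  rw [Real.rpow_natCast, Real.norm_of_nonneg (by positivity), Real.norm_of_nonneg (by positivity),
    one_div, inv_mul_eq_div, le_div_iff₀ (by positivity)] at hn
  have h2 : C ≤ |C| + 1 := by linarith [le_abs_self C]
  calc C * Real.log n ^ k ≤ (|C| + 1) * Real.log n ^ k := mul_le_mul_of_nonneg_right h2 (by positivity)
    _ = Real.log n ^ k * (|C| + 1) := mul_comm _ _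
    _ ≤ _ := hn

/-- `C (log n)^k n^x ≤ n^y` for `x < y`. -/
theorem s7n_scQ_lt {x y : ℚ} (h : x < y) (C : ℝ) (k : ℕ) :
    ∀ᶠ n : ℕ in atTop, C * Real.log n ^ k * (scQ x n : ℝ) ≤ (scQ y n : ℝ) := by
  have hxy : 0 < y - x := by linarith
  have hxy' : (0 : ℝ) < ((y - x : ℚ) : ℝ) := by exact_mod_cast hxy
  filter_upwards [s7n_ev_logpow (C * 2 ^ (((y - x : ℚ) : ℝ) + 1)) ((y - x : ℚ) : ℝ) hxy' k,
    eventually_ge_atTop 1] with n hn hn1
  have h1 := le_scQ_of_nonneg (y - x) hxy.le n hn1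
  rw [div_le_iff₀ (by positivity)] at h1
  have h2 : C * Real.log n ^ k ≤ (scQ (y - x) n : ℝ) := by
    have h3 : (C * Real.log n ^ k) * 2 ^ (((y - x : ℚ) : ℝ) + 1) ≤
        (scQ (y - x) n : ℝ) * 2 ^ (((y - x : ℚ) : ℝ) + 1) := by
      refine le_trans (le_of_eq (by ring)) (hn.trans h1)
    exact le_of_mul_le_mul_right h3 (by positivity)
  have h4 := s7n_scQ_mul_le (y - x) x n
  rw [sub_add_cancel] at h4
  have h5 : (scQ (y - x) n : ℝ) * (scQ x n : ℝ) ≤ (scQ y n : ℝ) := by exact_mod_cast h4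
  exact (mul_le_mul_of_nonneg_right h2 (s7n_cast_pos x n).le).trans h5

/-- `n^x → 0` for `x < 0`. -/
theorem s7n_scQ_small {x : ℚ} (h : x < 0) (ε : ℝ) (hε : 0 < ε) :
    ∀ᶠ n : ℕ in atTop, (scQ x n : ℝ) ≤ ε := by
  have hx : (x : ℝ) < 0 := by exact_mod_cast h
  filter_upwards [parF_ev_small (x : ℝ) hx (ε / 2 ^ (-(x : ℝ))) (by positivity), eventually_ge_atTop 1]
    with n hn hn1
  rw [le_div_iff₀ (by positivity)] at hn
  exact (scQ_le_of_nonpos x h.le n hn1).trans hn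

/-- comparison with powers of `n`: `(n/2)^k ≤ scQ x n ^ p` if `k ≤ p x`. -/
theorem s7n_pow_le_scQ_pow {x : ℚ} (hx : 0 ≤ x) (k p : ℕ) (h : (k : ℚ) ≤ p * x) (n : ℕ) (hn : 1 ≤ n) :
    ((n : ℝ) / 2) ^ k ≤ ((scQ (-x) n : ℝ)⁻¹) ^ p := by
  have hL : (0 : ℝ) ≤ ((Nat.log 2 n : ℕ) : ℝ) := Nat.cast_nonneg _
  have h1 : (n : ℝ) / 2 ≤ (2 : ℝ) ^ ((Nat.log 2 n : ℕ) : ℝ) := by
    have h2 := parF_lt_log n
    rw [Real.rpow_add (by norm_num), Real.rpow_one] at h2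
    linarith
  have h3 : (2 : ℝ) ^ ((x : ℝ) * ((Nat.log 2 n : ℕ) : ℝ)) ≤ (scQ (-x) n : ℝ)⁻¹ := by
    have h4 := parF_scQ_le (-x) n
    rw [le_inv_comm₀ (by positivity) (s7n_cast_pos _ _), ← Real.rpow_neg (by norm_num)]
    refine h4.trans (le_of_eq ?_)
    congr 1
    push_cast
    ring
  have hk : (k : ℝ) ≤ (p : ℝ) * (x : ℝ) := by exact_mod_cast h
  calc ((n : ℝ) / 2) ^ k ≤ ((2 : ℝ) ^ ((Nat.log 2 n : ℕ) : ℝ)) ^ k := pow_le_pow_left₀ (by positivity) h1 _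
    _ = (2 : ℝ) ^ (((Nat.log 2 n : ℕ) : ℝ) * (k : ℝ)) := by
        rw [Real.rpow_mul (by norm_num)]
        exact (Real.rpow_natCast _ _).symm
    _ ≤ (2 : ℝ) ^ (((x : ℝ) * ((Nat.log 2 n : ℕ) : ℝ)) * (p : ℝ)) := by
        refine Real.rpow_le_rpow_of_exponent_le (by norm_num) ?_
        nlinarith
    _ = ((2 : ℝ) ^ ((x : ℝ) * ((Nat.log 2 n : ℕ) : ℝ))) ^ p := by
        rw [Real.rpow_mul (by norm_num) (_ * _)]
        exact Real.rpow_natCast _ _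
    _ ≤ _ := pow_le_pow_left₀ (by positivity) h3 _

/-! ## Sizes -/

theorem s7n_X_nonneg : (0 : ℚ) ≤ 2 / 3 + 15 / 100 * aa := by unfold aa; norm_num

theorem s7n_X2_nonneg {g : ℚ} (hg : S7gOK g) : (0 : ℚ) ≤ 2 / 3 + 15 / 100 * aa - 2 * g := by
  have h1 := hg.2
  unfold aa at h1 ⊢
  linarith

theorem s7n_chi_nonneg : (0 : ℚ) ≤ s7chi := by unfold s7chi aa; norm_num

theorem s7n_l0 (n : ℕ) : (l0 n : ℚ) = 2 * scQ (2 / 3 + 15 / 100 * aa) n := by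
  unfold l0
  rw [Nat.cast_mul, scN_cast _ s7n_X_nonneg]
  norm_num

theorem s7n_l2 {g : ℚ} (hg : S7gOK g) (n : ℕ) :
    (s7l2 g n : ℚ) = 2 * scQ (2 / 3 + 15 / 100 * aa - 2 * g) n := by
  unfold s7l2 l2
  rw [Nat.cast_mul, scN_cast _ (s7n_X2_nonneg hg)]
  norm_num

theorem s7n_l3 (n : ℕ) : (s7l3 n : ℚ) = 2 * scQ s7chi n := by
  unfold s7l3 l3
  rw [Nat.cast_mul, scN_cast _ s7n_chi_nonneg]
  norm_num

theorem s7n_l2_le_l0 {g : ℚ} (hg : S7gOK g) (n : ℕ) : s7l2 g n ≤ l0 n := by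
  have h1 : (s7l2 g n : ℚ) ≤ (l0 n : ℚ) := by
    rw [s7n_l2 hg, s7n_l0]
    have := s7n_scQ_mono (by linarith [hg.1] :
      2 / 3 + 15 / 100 * aa - 2 * g ≤ 2 / 3 + 15 / 100 * aa) n
    linarith
  exact_mod_cast h1

theorem s7n_l3_le_l2 {g : ℚ} (hg : S7gOK g) (n : ℕ) : s7l3 n ≤ s7l2 g n := by
  have h1 : (s7l3 n : ℚ) ≤ (s7l2 g n : ℚ) := by
    rw [s7n_l2 hg, s7n_l3]
    have h2 : s7chi ≤ 2 / 3 + 15 / 100 * aa - 2 * g := by
      have h3 := hg.2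
      unfold s7chi
      unfold aa at h3 ⊢
      linarith
    have := s7n_scQ_mono h2 n
    linarith
  exact_mod_cast h1

theorem s7n_even_l2 (g : ℚ) (n : ℕ) : Even (s7l2 g n) := even_l2 _ _

theorem s7n_even_l3 (n : ℕ) : Even (s7l3 n) := even_l3 _ _

/-- every fixed bound is eventually below `l₃` (hence below all sizes of Section 7). -/
theorem s7n_l3_large (m : ℕ) : ∀ᶠ n : ℕ in atTop, m ≤ s7l3 n := by
  have hchi : (0 : ℝ) < (s7chi : ℝ) := by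
    have : (0 : ℚ) < s7chi := by unfold s7chi aa; norm_num
    exact_mod_cast this
  filter_upwards [parF_ev_large (s7chi : ℝ) hchi ((m : ℝ) * 2 ^ ((s7chi : ℝ) + 1)), eventually_ge_atTop 1]
    with n hn hn1
  have h1 := le_scQ_of_nonneg s7chi s7n_chi_nonneg n hn1
  rw [div_le_iff₀ (by positivity)] at h1
  have h2 : (m : ℝ) ≤ (scQ s7chi n : ℝ) := le_of_mul_le_mul_right (hn.trans h1) (by positivity)
  have h3 : ((s7l3 n : ℕ) : ℝ) = 2 * (scQ s7chi n : ℝ) := by exact_mod_cast s7n_l3 n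
  have h4 : (m : ℝ) ≤ ((s7l3 n : ℕ) : ℝ) := by
    rw [h3]
    linarith [s7n_cast_pos s7chi n]
  exact_mod_cast h4

/-- `l₀ ≤ n`, used for crude polynomial bounds. -/
theorem s7n_l0_le : ∀ᶠ n : ℕ in atTop, l0 n ≤ n := by
  have hX : (((2 / 3 + 15 / 100 * aa : ℚ)) : ℝ) < 1 := by
    have : (2 / 3 + 15 / 100 * aa : ℚ) < 1 := by unfold aa; norm_num
    exact_mod_cast this
  filter_upwards [parF_ev_large (1 - (((2 / 3 + 15 / 100 * aa : ℚ)) : ℝ)) (by linarith) 2,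
    eventually_ge_atTop 1] with n hn hn1
  have hn0 : (0 : ℝ) < (n : ℝ) := by exact_mod_cast hn1
  have h1 := scQ_le_of_nonneg _ s7n_X_nonneg n hn1
  have h3 : ((l0 n : ℕ) : ℝ) = 2 * (scQ (2 / 3 + 15 / 100 * aa) n : ℝ) := by exact_mod_cast s7n_l0 n
  have h4 : ((l0 n : ℕ) : ℝ) ≤ (n : ℝ) := by
    rw [h3]
    calc 2 * (scQ (2 / 3 + 15 / 100 * aa) n : ℝ) ≤ 2 * (n : ℝ) ^ (((2 / 3 + 15 / 100 * aa : ℚ)) : ℝ) := by
          linarith
      _ ≤ (n : ℝ) ^ (1 - (((2 / 3 + 15 / 100 * aa : ℚ)) : ℝ)) * (n : ℝ) ^ (((2 / 3 + 15 / 100 * aa : ℚ)) : ℝ) :=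
          mul_le_mul_of_nonneg_right hn (by positivity)
      _ = (n : ℝ) := by
          rw [← Real.rpow_add hn0, sub_add_cancel, Real.rpow_one]
  exact_mod_cast h4

/-- `α_* ≍ n^{-1/3+a/2}`. -/
theorem s7n_alS (d : ℕ) (hd : 3 ≤ d) : ∀ᶠ n : ℕ in atTop,
    (scQ (-(1 / 3) + aa / 2) n : ℝ) / (32 * ((d : ℝ) - 1)) ≤ (s7alS d n : ℝ) ∧
      (s7alS d n : ℝ) ≤ 2 * (scQ (-(1 / 3) + aa / 2) n : ℝ) := by
  have hd' : (3 : ℝ) ≤ (d : ℝ) := by exact_mod_cast hd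
  filter_upwards [prim_zero_facts d hd, eventually_ge_atTop 1] with n hn hn1
  obtain ⟨-, -, h1, h2⟩ := hn
  have hx : (-(1 / 3) + aa / 2 : ℚ) ≤ 0 := by unfold aa; norm_num
  have hx' : (-(1 / 3) : ℚ) ≤ -(1 / 3) + aa / 2 := by unfold aa; norm_num
  have hc : (((-(1 / 3) + aa / 2 : ℚ)) : ℝ) = -(1 / 3 : ℝ) + (aa : ℝ) / 2 := by push_cast; ring
  have h3 := parF_scQ_neg_le _ hx hx' n hn1
  have h4 := le_scQ_of_nonpos _ hx n hn1
  rw [hc] at h3 h4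
  have h5 : (s7alS d n : ℝ) = alphaS d n := rfl
  rw [h5]
  have hE : 0 < (n : ℝ) ^ (-(1 / 3 : ℝ) + (aa : ℝ) / 2) := parF_parE_pos n hn1
  constructor
  · refine le_trans ?_ h1
    rw [div_le_div_iff₀ (by linarith) (by linarith)]
    nlinarith
  · linarith

/-- the number of (primary, sign) pairs is logarithmic. -/
theorem s7n_Npt (d : ℕ) (hd : 3 ≤ d) (cp : ℚ) (h0 : 0 < cp) (h1 : cp ≤ 1 / 4) :
    ∀ᶠ n : ℕ in atTop, (s7Npt n d cp : ℝ) ≤ 2 * Real.log n + 2 := by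
  filter_upwards [Nprim_le d hd cp h0 h1] with n hn
  unfold s7Npt
  push_cast
  linarith

/-- range of the primaries. -/
theorem s7n_prim (d : ℕ) (hd : 3 ≤ d) (cp : ℚ) (h0 : 0 < cp) (h1 : cp ≤ 1 / 4) :
    ∀ᶠ n : ℕ in atTop, ∀ j ≤ Nprim d n cp,
      1 / (2 * Real.sqrt ((d : ℝ) - 1)) ≤ ((prim d n j : ℚ) : ℝ) ∧
      ((prim d n j : ℚ) : ℝ) < 1 / Real.sqrt ((d : ℝ) - 1) ∧ ((prim d n j : ℚ) : ℝ) ≤ 3 / 4 := by
  have hd' : (3 : ℝ) ≤ (d : ℝ) := by exact_mod_cast hd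
  filter_upwards [tracked_range d hd cp h0 h1] with n hn j hj
  have hmem : prim d n j ∈ trackedList d n cp := by
    unfold trackedList primList
    refine List.mem_append_left _ (List.mem_append_left _ ?_)
    exact List.mem_map.2 ⟨j, List.mem_range.2 (by omega), rfl⟩
  obtain ⟨a1, a2⟩ := hn _ hmem
  refine ⟨a1, a2, a2.le.trans ?_⟩
  have h2 : (4 / 3 : ℝ) ≤ Real.sqrt ((d : ℝ) - 1) := by
    rw [Real.le_sqrt' (by norm_num)]
    norm_num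
    linarith
  rw [div_le_iff₀ (by linarith)]
  linarith

/-! ## The comparator `ū_l` and the weights `ω_l` -/

theorem s7n_l0_pos (n : ℕ) : 2 ≤ l0 n := by
  unfold l0 scN
  have : 1 ≤ 2 ^ (scZ (2 / 3 + 15 / 100 * aa) n).toNat := Nat.one_le_two_pow
  omega

theorem s7n_del_pos (g : ℚ) (n : ℕ) : 0 < s7del g n := scQ_pos _ _

theorem s7n_A_pos (g : ℚ) (n : ℕ) : 0 < s7del g n * (l0 n : ℚ) := by
  have h1 : (2 : ℚ) ≤ (l0 n : ℚ) := by exact_mod_cast s7n_l0_pos n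
  exact mul_pos (s7n_del_pos g n) (by linarith)

theorem s7n_ubar_pos (g : ℚ) (n l : ℕ) (hl : 0 < l) : 0 < s7ubar g n l ∧ s7ubar g n l < 1 := by
  have hA := s7n_A_pos g n
  have hl' : (0 : ℚ) < (l : ℚ) := by exact_mod_cast hl
  unfold s7ubar
  constructor
  · positivity
  · rw [div_lt_one (by linarith)]
    linarith

theorem s7n_ubar_mono (g : ℚ) (n : ℕ) {l l' : ℕ} (h : l ≤ l') : s7ubar g n l ≤ s7ubar g n l' := by
  have hA := s7n_A_pos g n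
  have hl : (0 : ℚ) ≤ (l : ℚ) := Nat.cast_nonneg _
  have hll : (l : ℚ) ≤ (l' : ℚ) := by exact_mod_cast h
  unfold s7ubar
  rw [div_le_div_iff₀ (by linarith) (by linarith)]
  nlinarith

/-- `d_l = 1 - ū_l ≥ δ/2` for `l ≤ l₀`. -/
theorem s7n_d_lower {g : ℚ} (hg : S7gOK g) (n l : ℕ) (hl : l ≤ l0 n) (hl0 : 0 < l) :
    s7del g n / 2 ≤ 1 - s7ubar g n l := by
  have hδ := s7n_del_pos g n
  have hδ1 : s7del g n ≤ 1 := s7n_scQ_le_one (by linarith [hg.1]) n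
  have hl' : (0 : ℚ) < (l : ℚ) := by exact_mod_cast hl0
  have hll : (l : ℚ) ≤ (l0 n : ℚ) := by exact_mod_cast hl
  have hA := s7n_A_pos g n
  unfold s7ubar
  have e : 1 - (l : ℚ) / ((l : ℚ) + s7del g n * (l0 n : ℚ)) =
      s7del g n * (l0 n : ℚ) / ((l : ℚ) + s7del g n * (l0 n : ℚ)) := by
    field_simp
    ring
  rw [e, div_le_div_iff₀ (by norm_num) (by linarith)]
  nlinarith

/-- `ū_{l₀} = 1/(1+δ) ≥ 1 - δ`. -/
theorem s7n_ubar_l0 (g : ℚ) (n : ℕ) : 1 - s7del g n ≤ s7ubar g n (l0 n) := by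
  have hδ := s7n_del_pos g n
  have h1 : (2 : ℚ) ≤ (l0 n : ℚ) := by exact_mod_cast s7n_l0_pos n
  have hA := s7n_A_pos g n
  unfold s7ubar
  rw [le_div_iff₀ (by linarith)]
  nlinarith

theorem s7n_ubar_sub (g : ℚ) (n l : ℕ) (hl : 2 ≤ l) :
    s7ubar g n (l - 2) = ((l : ℚ) - 2) / (((l : ℚ) - 2) + s7del g n * (l0 n : ℚ)) := by
  unfold s7ubar
  rw [Nat.cast_sub hl]
  norm_num

/-- the comparator step: `ū_l - ū_{l-2} ≤ 2 ū_l (1 - ū_l)/(l - 3) + 4/(l (l-2))`. -/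
theorem s7n_ubar_step (g : ℚ) (n l : ℕ) (hl : 4 ≤ l) :
    s7ubar g n l - s7ubar g n (l - 2) ≤
      2 * s7ubar g n l * (1 - s7ubar g n l) / ((l : ℚ) - 3) + 4 / ((l : ℚ) * ((l : ℚ) - 2)) ∧
    0 ≤ s7ubar g n l - s7ubar g n (l - 2) ∧
    s7ubar g n l - s7ubar g n (l - 2) ≤ 2 / ((l : ℚ) - 2) := by
  have hA := s7n_A_pos g n
  have hl' : (4 : ℚ) ≤ (l : ℚ) := by exact_mod_cast hl
  rw [s7n_ubar_sub g n l (by omega)]
  unfold s7ubar
  generalize s7del g n * (l0 n : ℚ) = A at hA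
  generalize (l : ℚ) = x at hl'
  have e1 : x / (x + A) - (x - 2) / (x - 2 + A) = 2 * A / ((x + A) * (x - 2 + A)) := by
    have h1 : x + A ≠ 0 := by linarith
    have h2 : x - 2 + A ≠ 0 := by linarith
    field_simp
    ring
  have e2 : 2 * (x / (x + A)) * (1 - x / (x + A)) / (x - 3) = 2 * x * A / ((x + A) ^ 2 * (x - 3)) := by
    have h1 : x + A ≠ 0 := by linarith
    have h2 : x - 3 ≠ 0 := by linarith
    field_simp
    ring
  rw [e1, e2]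
  have p1 : 0 < x + A := by linarith
  have p2 : 0 < x - 2 + A := by linarith
  have p3 : 0 < x - 3 := by linarith
  have p4 : 0 < x - 2 := by linarith
  refine ⟨?_, by positivity, ?_⟩
  · have h3 : 2 * A / ((x + A) * (x - 2 + A)) ≤ 2 * x * A / ((x + A) ^ 2 * (x - 3)) := by
      rw [div_le_div_iff₀ (by positivity) (by positivity)]
      have h4 : 0 ≤ 2 * A * (x + A) * (x + 3 * A) := by positivity
      nlinarith
    have h5 : 0 ≤ 4 / (x * (x - 2)) := by positivity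
    linarith
  · rw [div_le_div_iff₀ (by positivity) p4]
    have h4 : 0 ≤ x * (x - 2) + x * A + A * A := by positivity
    nlinarith

theorem s7n_om_l0 (g : ℚ) (n : ℕ) : s7om g n (l0 n) = 1 := by
  unfold s7om
  simp

theorem s7n_om_step (g : ℚ) (n l t : ℕ) (h : l + 2 * t = l0 n) (hl : 2 ≤ l) :
    s7om g n (l - 2) = s7om g n l * (1 - (1 - s7ubar g n l) / (l : ℚ)) := by
  have e1 : (l0 n - (l - 2)) / 2 = t + 1 := by omega
  have e2 : (l0 n - l) / 2 = t := by omega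
  have e3 : l0 n - 2 * t = l := by omega
  unfold s7om
  rw [e1, e2, Finset.prod_range_succ, e3]

theorem s7n_om_pos (g : ℚ) (n l t : ℕ) (h : l + 2 * t = l0 n) (hl : 2 ≤ l) :
    0 < s7om g n l ∧ s7om g n l ≤ 1 := by
  have e2 : (l0 n - l) / 2 = t := by omega
  unfold s7om
  rw [e2]
  have hf : ∀ s ∈ Finset.range t,
      0 < 1 - (1 - s7ubar g n (l0 n - 2 * s)) / ((l0 n - 2 * s : ℕ) : ℚ) ∧
        1 - (1 - s7ubar g n (l0 n - 2 * s)) / ((l0 n - 2 * s : ℕ) : ℚ) ≤ 1 := by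
    intro s hs
    have hs' := Finset.mem_range.1 hs
    have hm : 2 ≤ l0 n - 2 * s := by omega
    obtain ⟨u0, u1⟩ := s7n_ubar_pos g n (l0 n - 2 * s) (by omega)
    have hm' : (2 : ℚ) ≤ ((l0 n - 2 * s : ℕ) : ℚ) := by exact_mod_cast hm
    have h1 : (1 - s7ubar g n (l0 n - 2 * s)) / ((l0 n - 2 * s : ℕ) : ℚ) < 1 := by
      rw [div_lt_one (by linarith)]
      linarith
    have h2 : 0 ≤ (1 - s7ubar g n (l0 n - 2 * s)) / ((l0 n - 2 * s : ℕ) : ℚ) :=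
      div_nonneg (by linarith) (by linarith)
    constructor <;> linarith
  exact ⟨Finset.prod_pos fun s hs => (hf s hs).1,
    Finset.prod_le_one (fun s hs => (hf s hs).1.le) (fun s hs => (hf s hs).2)⟩

/-- pure algebra behind `ω² ≍ ū` -/
theorem s7n_alg (x A : ℚ) (hx : 2 ≤ x) (hA : 0 < A) :
    x / (x + A) * (1 - (1 - x / (x + A)) / x) ^ 2 = ((x + A) * x - A) ^ 2 / ((x + A) ^ 3 * x) := by
  have h1 : x + A ≠ 0 := by linarith
  have h2 : x ≠ 0 := by linarith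
  field_simp
  ring

theorem s7n_alg_low (x A : ℚ) (hx : 2 ≤ x) (hA : 0 < A) :
    (x - 2) / (x - 2 + A) ≤ x / (x + A) * (1 - (1 - x / (x + A)) / x) ^ 2 := by
  rw [s7n_alg x A hx hA, div_le_div_iff₀ (by linarith) (by positivity)]
  have key : ((x + A) * x - A) ^ 2 * (x - 2 + A) - (x - 2) * ((x + A) ^ 3 * x) =
      A * ((x + A) ^ 2 + (3 * x - 2) * (x + A) + 2 * x) := by ring
  have hp : 0 ≤ A * ((x + A) ^ 2 + (3 * x - 2) * (x + A) + 2 * x) := by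
    have : 0 ≤ 3 * x - 2 := by linarith
    positivity
  linarith

theorem s7n_alg_up (x A : ℚ) (hx : 4 ≤ x) (hA : 0 < A) :
    x / (x + A) * (1 - (1 - x / (x + A)) / x) ^ 2 ≤ (x - 2) / (x - 2 + A) * (1 + 5 / (x * (x - 2))) := by
  rw [s7n_alg x A (by linarith) hA]
  have e : (x - 2) / (x - 2 + A) * (1 + 5 / (x * (x - 2))) = (x * (x - 2) + 5) / ((x - 2 + A) * x) := by
    have h1 : x - 2 + A ≠ 0 := by linarith
    have h2 : x ≠ 0 := by linarith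
    have h3 : x - 2 ≠ 0 := by linarith
    field_simp
  have p2 : 0 < x - 2 + A := by linarith
  have p0 : 0 < x := by linarith
  rw [e, div_le_div_iff₀ (by positivity) (by positivity)]
  have key : ((x + A) * x - A) ^ 2 * (x - 2 + A) - (x - 2) * ((x + A) ^ 3 * x) =
      A * ((x + A) ^ 2 + (3 * x - 2) * (x + A) + 2 * x) := by ring
  have hb : A * ((x + A) ^ 2 + (3 * x - 2) * (x + A) + 2 * x) ≤ 5 * (x + A) ^ 3 := by
    have h1 : A ≤ x + A := by linarith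
    have h2 : (x + A) ^ 2 + (3 * x - 2) * (x + A) + 2 * x ≤ 5 * (x + A) ^ 2 := by nlinarith
    have h3 : 0 ≤ (x + A) ^ 2 + (3 * x - 2) * (x + A) + 2 * x := by
      have : 0 ≤ 3 * x - 2 := by linarith
      positivity
    calc A * ((x + A) ^ 2 + (3 * x - 2) * (x + A) + 2 * x)
        ≤ (x + A) * (5 * (x + A) ^ 2) := mul_le_mul h1 h2 h3 (by linarith)
      _ = 5 * (x + A) ^ 3 := by ring
  have h4 : ((x + A) * x - A) ^ 2 * (x - 2 + A) ≤ (x * (x - 2) + 5) * (x + A) ^ 3 := by nlinarith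
  calc ((x + A) * x - A) ^ 2 * ((x - 2 + A) * x) = (((x + A) * x - A) ^ 2 * (x - 2 + A)) * x := by ring
    _ ≤ ((x * (x - 2) + 5) * (x + A) ^ 3) * x := mul_le_mul_of_nonneg_right h4 p0.le
    _ = (x * (x - 2) + 5) * ((x + A) ^ 3 * x) := by ring

theorem s7n_ubar_low (g : ℚ) (n l : ℕ) (hl : 2 ≤ l) :
    s7ubar g n (l - 2) ≤ s7ubar g n l * (1 - (1 - s7ubar g n l) / (l : ℚ)) ^ 2 := by
  rw [s7n_ubar_sub g n l hl]
  unfold s7ubar
  exact s7n_alg_low _ _ (by exact_mod_cast hl) (s7n_A_pos g n)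

theorem s7n_ubar_up (g : ℚ) (n l : ℕ) (hl : 4 ≤ l) :
    s7ubar g n l * (1 - (1 - s7ubar g n l) / (l : ℚ)) ^ 2 ≤
      s7ubar g n (l - 2) * (1 + 5 / ((l : ℚ) * ((l : ℚ) - 2))) := by
  rw [s7n_ubar_sub g n l (by omega)]
  unfold s7ubar
  exact s7n_alg_up _ _ (by exact_mod_cast hl) (s7n_A_pos g n)

/-- `ω_l² ≥ ū_l / ū_{l₀}`. -/
theorem s7n_om_sq_ge (g : ℚ) (n l t : ℕ) (h : l + 2 * t = l0 n) (hl : 2 ≤ l) :
    s7ubar g n l / s7ubar g n (l0 n) ≤ s7om g n l ^ 2 := by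
  have hu0 := (s7n_ubar_pos g n (l0 n) (by have := s7n_l0_pos n; omega)).1
  induction t generalizing l with
  | zero =>
    have e : l = l0 n := by omega
    subst e
    rw [s7n_om_l0, div_self hu0.ne']
    norm_num
  | succ t ih =>
    have h' : (l + 2) + 2 * t = l0 n := by omega
    have ih' := ih (l + 2) h' (by omega)
    have hs := s7n_om_step g n (l + 2) t h' (by omega)
    have key := s7n_ubar_low g n (l + 2) (by omega)
    rw [Nat.add_sub_cancel] at hs key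
    rw [hs, mul_pow]
    calc s7ubar g n l / s7ubar g n (l0 n)
        ≤ s7ubar g n (l + 2) * (1 - (1 - s7ubar g n (l + 2)) / ((l + 2 : ℕ) : ℚ)) ^ 2 / s7ubar g n (l0 n) :=
          div_le_div_of_nonneg_right key hu0.le
      _ = s7ubar g n (l + 2) / s7ubar g n (l0 n) * (1 - (1 - s7ubar g n (l + 2)) / ((l + 2 : ℕ) : ℚ)) ^ 2 := by
          ring
      _ ≤ _ := mul_le_mul_of_nonneg_right ih' (by positivity)

/-- sharper form of `s7n_om_sq_le` -/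
theorem s7n_om_sq_le' (g : ℚ) (n l t : ℕ) (h : l + 2 * t = l0 n) (hl : 8 ≤ l) :
    s7om g n l ^ 2 ≤ s7ubar g n l / s7ubar g n (l0 n) * (1 + 4 / (l : ℚ)) := by
  have hu0 := (s7n_ubar_pos g n (l0 n) (by have := s7n_l0_pos n; omega)).1
  induction t generalizing l with
  | zero =>
    have e : l = l0 n := by omega
    subst e
    rw [s7n_om_l0, div_self hu0.ne']
    have : (0 : ℚ) ≤ 4 / (l0 n : ℚ) := by positivity
    linarith
  | succ t ih =>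
    have h' : (l + 2) + 2 * t = l0 n := by omega
    have ih' := ih (l + 2) h' (by omega)
    have hs := s7n_om_step g n (l + 2) t h' (by omega)
    have key := s7n_ubar_up g n (l + 2) (by omega)
    rw [Nat.add_sub_cancel] at hs key
    rw [hs, mul_pow]
    have hl' : (8 : ℚ) ≤ (l : ℚ) := by exact_mod_cast hl
    have hul := (s7n_ubar_pos g n l (by omega)).1
    have e2 : (((l + 2 : ℕ) : ℚ)) = (l : ℚ) + 2 := by push_cast; ring
    rw [e2] at ih' key ⊢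
    have hnum : (1 + 4 / ((l : ℚ) + 2)) * (1 + 5 / (((l : ℚ) + 2) * ((l : ℚ) + 2 - 2))) ≤ 1 + 4 / (l : ℚ) := by
      have h1 : (l : ℚ) + 2 ≠ 0 := by linarith
      have h2 : (l : ℚ) ≠ 0 := by linarith
      have e3 : (l : ℚ) + 2 - 2 = (l : ℚ) := by ring
      rw [e3]
      have e4 : (1 + 4 / ((l : ℚ) + 2)) * (1 + 5 / (((l : ℚ) + 2) * (l : ℚ))) =
          (((l : ℚ) + 6) * (((l : ℚ) + 2) * (l : ℚ) + 5)) / (((l : ℚ) + 2) ^ 2 * (l : ℚ)) := by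
        field_simp
        ring
      have e5 : 1 + 4 / (l : ℚ) = ((l : ℚ) + 4) / (l : ℚ) := by
        field_simp
      rw [e4, e5, div_le_div_iff₀ (by positivity) (by linarith)]
      nlinarith
    calc s7om g n (l + 2) ^ 2 * (1 - (1 - s7ubar g n (l + 2)) / ((l : ℚ) + 2)) ^ 2
        ≤ s7ubar g n (l + 2) / s7ubar g n (l0 n) * (1 + 4 / ((l : ℚ) + 2)) *
            (1 - (1 - s7ubar g n (l + 2)) / ((l : ℚ) + 2)) ^ 2 :=
          mul_le_mul_of_nonneg_right ih' (by positivity)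
      _ = (s7ubar g n (l + 2) * (1 - (1 - s7ubar g n (l + 2)) / ((l : ℚ) + 2)) ^ 2) *
            ((1 + 4 / ((l : ℚ) + 2)) / s7ubar g n (l0 n)) := by ring
      _ ≤ (s7ubar g n l * (1 + 5 / (((l : ℚ) + 2) * ((l : ℚ) + 2 - 2)))) *
            ((1 + 4 / ((l : ℚ) + 2)) / s7ubar g n (l0 n)) :=
          mul_le_mul_of_nonneg_right key (by positivity)
      _ = s7ubar g n l / s7ubar g n (l0 n) *
            ((1 + 4 / ((l : ℚ) + 2)) * (1 + 5 / (((l : ℚ) + 2) * ((l : ℚ) + 2 - 2)))) := by ring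
      _ ≤ _ := mul_le_mul_of_nonneg_left hnum (by positivity)

/-- `ω_l² ≤ 2 ū_l / ū_{l₀}` (`l ≥ 8`). -/
theorem s7n_om_sq_le (g : ℚ) (n l t : ℕ) (h : l + 2 * t = l0 n) (hl : 8 ≤ l) :
    s7om g n l ^ 2 ≤ 2 * (s7ubar g n l / s7ubar g n (l0 n)) := by
  have hu0 := (s7n_ubar_pos g n (l0 n) (by have := s7n_l0_pos n; omega)).1
  have hul := (s7n_ubar_pos g n l (by omega)).1
  have hl' : (8 : ℚ) ≤ (l : ℚ) := by exact_mod_cast hl
  refine (s7n_om_sq_le' g n l t h hl).trans ?_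
  have h1 : 4 / (l : ℚ) ≤ 1 := by
    rw [div_le_one (by linarith)]
    linarith
  have h2 : 0 < s7ubar g n l / s7ubar g n (l0 n) := by positivity
  nlinarith

theorem s7n_l2_pos (g : ℚ) (n : ℕ) : 2 ≤ s7l2 g n := by
  unfold s7l2 l2 scN
  have : 1 ≤ 2 ^ (scZ (2 / 3 + 15 / 100 * aa - 2 * g) n).toNat := Nat.one_le_two_pow
  omega

theorem s7n_l3_pos (n : ℕ) : 2 ≤ s7l3 n := by
  unfold s7l3 l3 scN
  have : 1 ≤ 2 ^ (scZ s7chi n).toNat := Nat.one_le_two_pow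
  omega

/-- `δ² l₀ ≤ l₂` -/
theorem s7n_del_sq_l0 {g : ℚ} (hg : S7gOK g) (n : ℕ) :
    s7del g n ^ 2 * (l0 n : ℚ) ≤ (s7l2 g n : ℚ) := by
  rw [s7n_l0, s7n_l2 hg]
  unfold s7del
  have h1 := s7n_scQ_pow_le (-g) 2 n
  have h2 := s7n_scQ_mul_le (((2 : ℕ) : ℚ) * -g) (2 / 3 + 15 / 100 * aa) n
  have e : ((2 : ℕ) : ℚ) * -g + (2 / 3 + 15 / 100 * aa) = 2 / 3 + 15 / 100 * aa - 2 * g := by
    push_cast
    ring
  rw [e] at h2
  have h3 := mul_le_mul_of_nonneg_right h1 (scQ_pos (2 / 3 + 15 / 100 * aa) n).le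
  linarith

/-- `l₂ ≤ 4 δ² l₀` -/
theorem s7n_l2_le_del_sq {g : ℚ} (hg : S7gOK g) (n : ℕ) :
    (s7l2 g n : ℚ) ≤ 4 * s7del g n ^ 2 * (l0 n : ℚ) := by
  rw [s7n_l0, s7n_l2 hg]
  unfold s7del
  have h1 := s7n_scQ_mul_le (2 / 3 + 15 / 100 * aa - 2 * g) (((2 : ℕ) : ℚ) * g) n
  have e : 2 / 3 + 15 / 100 * aa - 2 * g + ((2 : ℕ) : ℚ) * g = 2 / 3 + 15 / 100 * aa := by
    push_cast
    ring
  rw [e] at h1
  have h2 := s7n_scQ_pow_le g 2 n
  have h3 := s7n_scQ_inv_le g n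
  have p1 := scQ_pos g n
  have p2 := scQ_pos (-g) n
  have p3 := scQ_pos (2 / 3 + 15 / 100 * aa - 2 * g) n
  have p4 := scQ_pos (2 / 3 + 15 / 100 * aa) n
  -- `1 ≤ 2 scQ g scQ (-g)`
  have h4 : 1 ≤ 2 * scQ (-g) n * scQ g n := by
    rw [inv_eq_one_div, div_le_iff₀ p1] at h3
    exact h3
  have h5 : 1 ≤ (2 * scQ (-g) n * scQ g n) ^ 2 := one_le_pow₀ h4
  have h6 : scQ (2 / 3 + 15 / 100 * aa - 2 * g) n * scQ g n ^ 2 ≤ scQ (2 / 3 + 15 / 100 * aa) n :=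
    (mul_le_mul_of_nonneg_left h2 p3.le).trans h1
  calc 2 * scQ (2 / 3 + 15 / 100 * aa - 2 * g) n
      ≤ 2 * scQ (2 / 3 + 15 / 100 * aa - 2 * g) n * (2 * scQ (-g) n * scQ g n) ^ 2 :=
        le_mul_of_one_le_right (by positivity) h5
    _ = 8 * scQ (-g) n ^ 2 * (scQ (2 / 3 + 15 / 100 * aa - 2 * g) n * scQ g n ^ 2) := by ring
    _ ≤ 8 * scQ (-g) n ^ 2 * scQ (2 / 3 + 15 / 100 * aa) n :=
        mul_le_mul_of_nonneg_left h6 (by positivity)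
    _ = 4 * scQ (-g) n ^ 2 * (2 * scQ (2 / 3 + 15 / 100 * aa) n) := by ring

/-- `ω_l² ≥ n^{-g}/3` throughout Phase A. -/
theorem s7n_om_lower {g : ℚ} (hg : S7gOK g) (n l t : ℕ) (h : l + 2 * t = l0 n) (hl : s7l2 g n ≤ l) :
    scQ (-g) n / 3 ≤ s7om g n l ^ 2 := by
  have hl2 := s7n_l2_pos g n
  have hu0 := s7n_ubar_pos g n (l0 n) (by have := s7n_l0_pos n; omega)
  have hul := (s7n_ubar_pos g n l (by omega)).1
  refine le_trans ?_ (s7n_om_sq_ge g n l t h (by omega))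
  have h1 : s7ubar g n l ≤ s7ubar g n l / s7ubar g n (l0 n) := by
    rw [le_div_iff₀ hu0.1]
    nlinarith [hu0.2]
  refine le_trans ?_ ((s7n_ubar_mono g n hl).trans h1)
  have hδ := s7n_del_pos g n
  have hδ1 : s7del g n ≤ 1 := s7n_scQ_le_one (by linarith [hg.1]) n
  have h2 := s7n_del_sq_l0 hg n
  have hA := s7n_A_pos g n
  have hp : (2 : ℚ) ≤ (s7l2 g n : ℚ) := by exact_mod_cast hl2
  have e : scQ (-g) n = s7del g n := rfl
  rw [e]
  unfold s7ubar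
  rw [div_le_div_iff₀ (by norm_num) (by linarith)]
  nlinarith

/-- `ω_{l₂}² ≤ 16 n^{-g}`. -/
theorem s7n_om_l2 {g : ℚ} (hg : S7gOK g) : ∀ᶠ n : ℕ in atTop,
    s7om g n (s7l2 g n) ^ 2 ≤ 16 * scQ (-g) n := by
  filter_upwards [s7n_l3_large 8] with n hn
  have hl8 : 8 ≤ s7l2 g n := hn.trans (s7n_l3_le_l2 hg n)
  have hle := s7n_l2_le_l0 hg n
  obtain ⟨a, ha⟩ := s7n_even_l2 g n
  obtain ⟨b, hb⟩ := even_l0 n
  have ht : s7l2 g n + 2 * (b - a) = l0 n := by omega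
  refine (s7n_om_sq_le g n _ _ ht hl8).trans ?_
  have hδ := s7n_del_pos g n
  have hδ1 : s7del g n ≤ 1 := s7n_scQ_le_one (by linarith [hg.1]) n
  have hu0 := s7n_ubar_pos g n (l0 n) (by have := s7n_l0_pos n; omega)
  have h0 : (2 : ℚ) ≤ (l0 n : ℚ) := by exact_mod_cast s7n_l0_pos n
  have hA := s7n_A_pos g n
  have hp : (8 : ℚ) ≤ (s7l2 g n : ℚ) := by exact_mod_cast hl8
  have h2 := s7n_l2_le_del_sq hg n
  -- `ū_{l₂} ≤ 4 δ`
  have h3 : s7ubar g n (s7l2 g n) ≤ 4 * s7del g n := by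
    unfold s7ubar
    rw [div_le_iff₀ (by linarith)]
    nlinarith
  -- `1/2 ≤ ū_{l₀}`
  have h4 : 1 / 2 ≤ s7ubar g n (l0 n) := by
    unfold s7ubar
    rw [div_le_div_iff₀ (by norm_num) (by linarith)]
    nlinarith
  have e : scQ (-g) n = s7del g n := rfl
  rw [e]
  have h5 : s7ubar g n (s7l2 g n) / s7ubar g n (l0 n) ≤ 8 * s7del g n := by
    rw [div_le_iff₀ hu0.1]
    nlinarith
  linarith

/-! ## Products and harmonic sums -/

theorem s7n_prod_le_exp (t : ℕ) (c : ℕ → ℝ) (hc : ∀ s, 0 ≤ c s) :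
    ∏ s ∈ Finset.range t, (1 + c s) ≤ Real.exp (∑ s ∈ Finset.range t, c s) := by
  rw [Real.exp_sum]
  refine Finset.prod_le_prod (fun s _ => by linarith [hc s]) fun s _ => ?_
  linarith [Real.add_one_le_exp (c s)]

/-- `∑_{s<t} 2/(L - 2s) ≤ log (L/(L - 2t))`. -/
theorem s7n_harm (L t : ℕ) (h : 2 * t < L) :
    ∑ s ∈ Finset.range t, (2 : ℝ) / ((L - 2 * s : ℕ) : ℝ) ≤
      Real.log ((L : ℝ) / ((L - 2 * t : ℕ) : ℝ)) := by
  induction t with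
  | zero =>
    have hL : (L : ℝ) ≠ 0 := by
      have : 0 < L := by omega
      exact_mod_cast this.ne'
    simp [hL]
  | succ t ih =>
    have ih' := ih (by omega)
    rw [Finset.sum_range_succ]
    have hm : 2 < L - 2 * t := by omega
    have e1 : L - 2 * (t + 1) = (L - 2 * t) - 2 := by omega
    rw [e1]
    generalize L - 2 * t = m at hm ih'
    have hm' : (2 : ℝ) < (m : ℝ) := by exact_mod_cast hm
    have hL : (0 : ℝ) < (L : ℝ) := by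
      have : 0 < L := by omega
      exact_mod_cast this
    have e2 : ((m - 2 : ℕ) : ℝ) = (m : ℝ) - 2 := by
      rw [Nat.cast_sub hm.le]
      norm_num
    rw [e2]
    have h1 := Real.log_le_sub_one_of_pos (show (0 : ℝ) < ((m : ℝ) - 2) / (m : ℝ) by
      apply div_pos <;> linarith)
    have e3 : ((m : ℝ) - 2) / (m : ℝ) - 1 = -(2 / (m : ℝ)) := by
      field_simp
      ring
    rw [e3, Real.log_div (by linarith) (by linarith)] at h1
    rw [Real.log_div hL.ne' (by linarith)] at ih' ⊢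
    linarith

theorem s7n_log_l0_l2 {g : ℚ} (hg : S7gOK g) (n : ℕ) (hn : 1 ≤ n) :
    Real.log ((l0 n : ℝ) / (s7l2 g n : ℝ)) ≤ 2 * (g : ℝ) * Real.log n + 1 := by
  have hn0 : (0 : ℝ) < (n : ℝ) := by exact_mod_cast hn
  have h1 := s7n_scQ_add_le (2 / 3 + 15 / 100 * aa - 2 * g) (2 * g) n
  rw [sub_add_cancel] at h1
  have h2 : (l0 n : ℚ) ≤ 2 * scQ (2 * g) n * (s7l2 g n : ℚ) := by
    rw [s7n_l0, s7n_l2 hg]
    linarith
  have h2' : (l0 n : ℝ) ≤ 2 * (scQ (2 * g) n : ℝ) * (s7l2 g n : ℝ) := by exact_mod_cast h2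
  have hp : (0 : ℝ) < (s7l2 g n : ℝ) := by
    have := s7n_l2_pos g n
    exact_mod_cast (by omega : 0 < s7l2 g n)
  have hp0 : (0 : ℝ) < (l0 n : ℝ) := by
    have := s7n_l0_pos n
    exact_mod_cast (by omega : 0 < l0 n)
  have h3 := scQ_le_of_nonneg (2 * g) (by linarith [hg.1]) n hn
  have h4 : (l0 n : ℝ) / (s7l2 g n : ℝ) ≤ 2 * (n : ℝ) ^ (((2 * g : ℚ)) : ℝ) := by
    rw [div_le_iff₀ hp]
    nlinarith
  have h5 := Real.log_le_log (by positivity) h4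
  rw [Real.log_mul (by norm_num) (by positivity), Real.log_rpow hn0] at h5
  have h6 : Real.log 2 ≤ 1 := by linarith [Real.log_two_lt_d9]
  push_cast at h5
  linarith

theorem s7n_log_l2_l3 {g : ℚ} (hg : S7gOK g) (n : ℕ) (hn : 1 ≤ n) :
    Real.log ((s7l2 g n : ℝ) / (s7l3 n : ℝ)) ≤ Real.log n := by
  have hn1 : (1 : ℝ) ≤ (n : ℝ) := by exact_mod_cast hn
  have hp : (0 : ℝ) < (s7l2 g n : ℝ) := by
    have := s7n_l2_pos g n
    exact_mod_cast (by omega : 0 < s7l2 g n)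
  have hp3 : (0 : ℝ) < (s7l3 n : ℝ) := by
    have := s7n_l3_pos n
    exact_mod_cast (by omega : 0 < s7l3 n)
  refine Real.log_le_log (by positivity) ?_
  rw [div_le_iff₀ hp3]
  have e2 : (s7l2 g n : ℝ) = 2 * (scQ (2 / 3 + 15 / 100 * aa - 2 * g) n : ℝ) := by
    exact_mod_cast s7n_l2 hg n
  have e3 : (s7l3 n : ℝ) = 2 * (scQ s7chi n : ℝ) := by exact_mod_cast s7n_l3 n
  have h1 := scQ_le_of_nonneg _ (s7n_X2_nonneg hg) n hn
  have h2 : (n : ℝ) ^ (((2 / 3 + 15 / 100 * aa - 2 * g : ℚ)) : ℝ) ≤ (n : ℝ) := by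
    have hX : (((2 / 3 + 15 / 100 * aa - 2 * g : ℚ)) : ℝ) ≤ 1 := by
      have : (2 / 3 + 15 / 100 * aa - 2 * g : ℚ) ≤ 1 := by
        have := hg.1
        unfold aa
        linarith
      exact_mod_cast this
    calc (n : ℝ) ^ (((2 / 3 + 15 / 100 * aa - 2 * g : ℚ)) : ℝ) ≤ (n : ℝ) ^ (1 : ℝ) :=
          Real.rpow_le_rpow_of_exponent_le hn1 hX
      _ = (n : ℝ) := Real.rpow_one _
  have h3 : (1 : ℝ) ≤ (scQ s7chi n : ℝ) := by exact_mod_cast s7n_one_le_scQ s7n_chi_nonneg n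
  rw [e2, e3]
  nlinarith


end Claimed.Agent.R275
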