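import Claimed.Agent.R275.S7PhaseA
import Claimed.Agent.R275.S7Num

/-!
# Row 275, Section 7, package S7-A-BUD: the budgets of Phase A (pure numerics)

Proofs of `StS7ABud0`, `StS7ABudNrm`, `StS7ABudGap` (statements in `S7PhaseA.lean`, helper245); proofs by helper81.
-/

set_option autoImplicit false

namespace Claimed.Agent.R275

open Filter

/-- the harmonic sum of Phase A: `∑_{s<t} 1/(l₀ - 2s) ≤ g log n + 1/2`. -/
theorem s7ab_harm {g : ℚ} (hg : S7gOK g) (n : ℕ) (hn : 1 ≤ n) (t : ℕ) (ht : s7l2 g n + 2 * t ≤ l0 n) :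
    ∑ s ∈ Finset.range t, (1 : ℝ) / ((l0 n - 2 * s : ℕ) : ℝ) ≤ (g : ℝ) * Real.log n + 1 / 2 := by
  have h2 := s7n_l2_pos g n
  have h1 := s7n_harm (l0 n) t (by omega)
  have h3 := s7n_log_l0_l2 hg n hn
  have hp : (0 : ℝ) < (s7l2 g n : ℝ) := by exact_mod_cast (by omega : 0 < s7l2 g n)
  have hp0 : (0 : ℝ) < (l0 n : ℝ) := by exact_mod_cast (by omega : 0 < l0 n)
  have hle : (s7l2 g n : ℝ) ≤ ((l0 n - 2 * t : ℕ) : ℝ) := by exact_mod_cast (by omega : s7l2 g n ≤ l0 n - 2 * t)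
  have h4 : Real.log ((l0 n : ℝ) / ((l0 n - 2 * t : ℕ) : ℝ)) ≤ Real.log ((l0 n : ℝ) / (s7l2 g n : ℝ)) := by
    refine Real.log_le_log (div_pos hp0 (by linarith)) ?_
    exact div_le_div_of_nonneg_left hp0.le hp hle
  have e : ∑ s ∈ Finset.range t, (2 : ℝ) / ((l0 n - 2 * s : ℕ) : ℝ) =
      2 * ∑ s ∈ Finset.range t, (1 : ℝ) / ((l0 n - 2 * s : ℕ) : ℝ) := by
    rw [Finset.mul_sum]
    refine Finset.sum_congr rfl fun s _ => ?_
    ring
  rw [e] at h1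
  linarith

theorem s7ab_harm_nonneg (n t : ℕ) :
    0 ≤ ∑ s ∈ Finset.range t, (1 : ℝ) / ((l0 n - 2 * s : ℕ) : ℝ) :=
  Finset.sum_nonneg fun s _ => by positivity

/-- `∏ (1 + A/l) ≤ exp (A (g log n + 1/2))`. -/
theorem s7ab_prod {g : ℚ} (hg : S7gOK g) (n : ℕ) (hn : 1 ≤ n) (t : ℕ) (ht : s7l2 g n + 2 * t ≤ l0 n)
    (A : ℝ) (hA : 0 ≤ A) :
    ∏ s ∈ Finset.range t, (1 + A / ((l0 n - 2 * s : ℕ) : ℝ)) ≤
      Real.exp (A * ((g : ℝ) * Real.log n + 1 / 2)) := by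
  refine (s7n_prod_le_exp t (fun s => A / ((l0 n - 2 * s : ℕ) : ℝ)) fun s => by positivity).trans ?_
  refine Real.exp_le_exp.mpr ?_
  have e : ∑ s ∈ Finset.range t, A / ((l0 n - 2 * s : ℕ) : ℝ) =
      A * ∑ s ∈ Finset.range t, (1 : ℝ) / ((l0 n - 2 * s : ℕ) : ℝ) := by
    rw [Finset.mul_sum]
    refine Finset.sum_congr rfl fun s _ => ?_
    ring
  rw [e]
  exact mul_le_mul_of_nonneg_left (s7ab_harm hg n hn t ht) hA

/-- `exp (x log n + K) ≤ n^y` eventually, for `x < y`, `0 ≤ y`. -/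
theorem s7ab_exp_le_scQ (x K : ℝ) (y : ℚ) (hy : 0 ≤ y) (hxy : x < (y : ℝ)) :
    ∀ᶠ n : ℕ in atTop, Real.exp (x * Real.log n + K) ≤ (scQ y n : ℝ) := by
  filter_upwards [s7n_ev_logpow (Real.exp K * 2 ^ ((y : ℝ) + 1)) ((y : ℝ) - x) (by linarith) 0,
    eventually_ge_atTop 1] with n hn hn1
  have hn0 : (0 : ℝ) < (n : ℝ) := by exact_mod_cast hn1
  refine le_trans ?_ (le_scQ_of_nonneg y hy n hn1)
  rw [le_div_iff₀ (by positivity), Real.exp_add, mul_comm x, ← Real.rpow_def_of_pos hn0]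
  rw [pow_zero, mul_one] at hn
  calc (n : ℝ) ^ x * Real.exp K * 2 ^ ((y : ℝ) + 1)
      = (n : ℝ) ^ x * (Real.exp K * 2 ^ ((y : ℝ) + 1)) := by ring
    _ ≤ (n : ℝ) ^ x * (n : ℝ) ^ ((y : ℝ) - x) := mul_le_mul_of_nonneg_left hn (by positivity)
    _ = (n : ℝ) ^ (y : ℝ) := by
        rw [← Real.rpow_add hn0]
        congr 1
        ring

/-- `C κ (log n)^k ≤ ε` eventually. -/
theorem s7ab_kap_small {g : ℚ} (hg : S7gOK g) (C ε : ℝ) (hε : 0 < ε) (k : ℕ) :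
    ∀ᶠ n : ℕ in atTop, C * (s7kap g n : ℝ) * Real.log n ^ k ≤ ε := by
  have hx : (-(2 * s7eta0 g) : ℚ) < 0 := by
    have := hg.1
    unfold s7eta0
    linarith
  filter_upwards [s7n_scQ_lt hx (C / ε) k] with n hn
  rw [s7n_scQ_zero] at hn
  have e : C / ε * Real.log n ^ k * (scQ (-(2 * s7eta0 g)) n : ℝ) =
      (C * (s7kap g n : ℝ) * Real.log n ^ k) / ε := by
    unfold s7kap
    ring
  rw [e, div_le_iff₀ hε] at hn
  simpa using hn

theorem s7ab_kap_nonneg (g : ℚ) (n : ℕ) : (0 : ℝ) ≤ (s7kap g n : ℝ) := (s7n_cast_pos _ n).le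

theorem s7ab_exp_half_le : Real.exp (1 / 2) ≤ 2 := by
  have h1 : Real.exp (1 / 2) * Real.exp (1 / 2) = Real.exp 1 := by
    rw [← Real.exp_add]
    norm_num
  have h2 := Real.exp_one_lt_d9
  have h3 := Real.exp_pos (1 / 2)
  nlinarith

/-- **S7-A-BUD-0** -/
theorem s7ABud0 : StS7ABud0 := by
  intro d par hpar C hC
  have hg := hpar.2.1
  filter_upwards [s7ab_kap_small hg (C * (par.g : ℝ)) (1 / 4) (by norm_num) 1,
    s7ab_kap_small hg C (1 / 2) (by norm_num) 0, eventually_ge_atTop 1] with n h1 h2 hn1 t ht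
  have hk := s7ab_kap_nonneg par.g n
  refine (s7ab_prod hg n hn1 t ht (C * (s7kap par.g n : ℝ)) (by positivity)).trans ?_
  refine le_trans (Real.exp_le_exp.mpr ?_) s7ab_exp_half_le
  rw [pow_one] at h1
  rw [pow_zero, mul_one] at h2
  nlinarith

/-- **S7-A-BUD-GAP** -/
theorem s7ABudGap : StS7ABudGap := by
  intro d par hpar C hC
  have hg := hpar.2.1
  have hg0 : (0 : ℝ) < (par.g : ℝ) := by exact_mod_cast hg.1
  have hy : (11 / 2 : ℝ) * (par.g : ℝ) < ((6 * par.g : ℚ) : ℝ) := by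
    push_cast
    linarith
  filter_upwards [s7ab_kap_small hg C (1 / 2) (by norm_num) 0,
    s7ab_exp_le_scQ (11 / 2 * (par.g : ℝ)) (11 / 4) (6 * par.g) (by linarith [hg.1]) hy,
    eventually_ge_atTop 1] with n h2 h3 hn1 t ht
  have hk := s7ab_kap_nonneg par.g n
  have hn1' : (1 : ℝ) ≤ (n : ℝ) := by exact_mod_cast hn1
  have hl : 0 ≤ Real.log n := Real.log_nonneg hn1'
  rw [pow_zero, mul_one] at h2
  have e : ∀ s : ℕ, (1 + (5 / ((l0 n - 2 * s : ℕ) : ℝ)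
        + C * (s7kap par.g n : ℝ) / ((l0 n - 2 * s : ℕ) : ℝ))) =
      1 + (5 + C * (s7kap par.g n : ℝ)) / ((l0 n - 2 * s : ℕ) : ℝ) := by
    intro s
    ring
  simp only [e]
  refine (s7ab_prod hg n hn1 t ht (5 + C * (s7kap par.g n : ℝ)) (by positivity)).trans ?_
  refine le_trans (Real.exp_le_exp.mpr ?_) h3
  have h4 : 0 ≤ (par.g : ℝ) * Real.log n + 1 / 2 := by positivity
  calc (5 + C * (s7kap par.g n : ℝ)) * ((par.g : ℝ) * Real.log n + 1 / 2)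
      ≤ (11 / 2) * ((par.g : ℝ) * Real.log n + 1 / 2) := mul_le_mul_of_nonneg_right (by linarith) h4
    _ = 11 / 2 * (par.g : ℝ) * Real.log n + 11 / 4 := by ring

/-- `S_N ≥ l₀ / 64` -/
theorem s7ab_SN_ge (d : ℕ) (hd : 3 ≤ d) : ∀ᶠ n : ℕ in atTop, (l0 n : ℝ) / 64 ≤ (s7SN d n : ℝ) := by
  filter_upwards [s7n_alS d hd] with n hn
  obtain ⟨h1, h2⟩ := hn
  have hd' : (3 : ℝ) ≤ (d : ℝ) := by exact_mod_cast hd
  have hx : (-(1 / 3) + aa / 2 : ℚ) ≤ 0 := by unfold aa; norm_num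
  have h3 : (scQ (-(1 / 3) + aa / 2) n : ℝ) ≤ 1 := by exact_mod_cast s7n_scQ_le_one hx n
  have h4 : (1 : ℝ) ≤ (scQ (13 / 100 * aa) n : ℝ) := by
    exact_mod_cast s7n_one_le_scQ (by unfold aa; norm_num) n
  have h5 : (0 : ℝ) < (s7alS d n : ℝ) := by
    refine lt_of_lt_of_le ?_ h1
    have := s7n_cast_pos (-(1 / 3) + aa / 2) n
    have h6 : (0 : ℝ) < 32 * ((d : ℝ) - 1) := by linarith
    positivity
  have h6 : (1 / 2 : ℝ) ≤ (scQ (13 / 100 * aa) n : ℝ) / (s7alS d n : ℝ) := by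
    rw [le_div_iff₀ h5]
    linarith
  have h7 : (1 / 2 : ℝ) ^ 6 ≤ ((scQ (13 / 100 * aa) n : ℝ) / (s7alS d n : ℝ)) ^ 6 :=
    pow_le_pow_left₀ (by norm_num) h6 6
  have e : (s7SN d n : ℝ) = (l0 n : ℝ) * ((scQ (13 / 100 * aa) n : ℝ) / (s7alS d n : ℝ)) ^ 6 := by
    unfold s7SN
    push_cast
    ring
  rw [e]
  have hp0 : (0 : ℝ) ≤ (l0 n : ℝ) := by positivity
  nlinarith

/-- **S7-A-BUD-NRM** -/
theorem s7ABudNrm : StS7ABudNrm := by
  intro d C hd hC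
  have haa : (0 : ℝ) < (aa : ℝ) := by
    unfold aa
    norm_num
  obtain ⟨g₀, hg1, hg2⟩ := exists_rat_btwn (show (0 : ℝ) < (aa : ℝ) / (20 * C) by positivity)
  refine ⟨g₀, by exact_mod_cast hg1, fun par hpar hle => ?_⟩
  have hg := hpar.2.1
  have hg0 : (0 : ℝ) < (par.g : ℝ) := by exact_mod_cast hg.1
  have hle' : (par.g : ℝ) ≤ (g₀ : ℝ) := by exact_mod_cast hle
  have hCg : C * (par.g : ℝ) ≤ (aa : ℝ) / 20 := by
    have h1 : (par.g : ℝ) ≤ (aa : ℝ) / (20 * C) := by linarith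
    rw [le_div_iff₀ (by positivity)] at h1
    linarith
  have hy : C * (par.g : ℝ) < ((aa / 10 : ℚ) : ℝ) := by
    push_cast
    linarith
  filter_upwards [s7ab_SN_ge d hd,
    s7ab_exp_le_scQ (C * (par.g : ℝ)) (C / 2 + 32 * C) (aa / 10) (by unfold aa; norm_num) hy,
    eventually_ge_atTop 1] with n h2 h3 hn1 t ht
  have hp0 : (0 : ℝ) < (l0 n : ℝ) := by
    have := s7n_l0_pos n
    exact_mod_cast (by omega : 0 < l0 n)
  have hSN : (0 : ℝ) < (s7SN d n : ℝ) := by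
    refine lt_of_lt_of_le ?_ h2
    positivity
  refine (s7n_prod_le_exp t (fun s => C / ((l0 n - 2 * s : ℕ) : ℝ) + C / (s7SN d n : ℝ))
    fun s => by positivity).trans ?_
  refine le_trans (Real.exp_le_exp.mpr ?_) h3
  rw [Finset.sum_add_distrib, Finset.sum_const, Finset.card_range, nsmul_eq_mul]
  have e : ∑ s ∈ Finset.range t, C / ((l0 n - 2 * s : ℕ) : ℝ) =
      C * ∑ s ∈ Finset.range t, (1 : ℝ) / ((l0 n - 2 * s : ℕ) : ℝ) := by
    rw [Finset.mul_sum]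
    refine Finset.sum_congr rfl fun s _ => ?_
    ring
  rw [e]
  have h4 := mul_le_mul_of_nonneg_left (s7ab_harm hg n hn1 t ht) hC.le
  have ht' : (t : ℝ) ≤ (l0 n : ℝ) / 2 := by
    have : 2 * t ≤ l0 n := by omega
    have h5 : (2 : ℝ) * (t : ℝ) ≤ (l0 n : ℝ) := by exact_mod_cast this
    linarith
  have h5 : (t : ℝ) * (C / (s7SN d n : ℝ)) ≤ 32 * C := by
    rw [← mul_div_assoc, div_le_iff₀ hSN]
    nlinarith
  linarith

end Claimed.Agent.R275
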