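import Claimed.Agent.R275.S7PhaseB
import Claimed.Agent.R275.S7Num

/-!
# Row 275, Section 7: the two numerical packages of S7-A-DER / S7-B-DER (pure `scQ` numerics)

Statements: helper167 (msg 11014, items (4), (5)).   Proofs: helper201.   No sorry.
-/

set_option autoImplicit false

namespace Claimed.Agent.R275

open Filter

/-- `1 / l ≤ scQ (-x) n` for `l ≥ 2 scQ x n` -/
theorem s7dm_inv_le (x : ℚ) (n L l : ℕ) (hL : (L : ℚ) = 2 * scQ x n) (hl : L ≤ l) :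
    1 / (l : ℝ) ≤ (scQ (-x) n : ℝ) := by
  have hpos : (0 : ℝ) < (scQ x n : ℝ) := s7n_cast_pos x n
  have hL' : (L : ℝ) = 2 * (scQ x n : ℝ) := by exact_mod_cast hL
  have hLpos : (0 : ℝ) < (L : ℝ) := by rw [hL']; positivity
  have hl' : (L : ℝ) ≤ (l : ℝ) := by exact_mod_cast hl
  have h1 : 1 / (l : ℝ) ≤ 1 / (L : ℝ) := one_div_le_one_div_of_le hLpos hl'
  have h2 : ((scQ x n : ℝ))⁻¹ ≤ 2 * (scQ (-x) n : ℝ) := by exact_mod_cast s7n_scQ_inv_le x n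
  have h3 : 1 / (L : ℝ) = ((scQ x n : ℝ))⁻¹ / 2 := by
    rw [hL']
    field_simp
  linarith

theorem s7dn_numA {g : ℚ} (hg : S7gOK g) : ∀ᶠ n : ℕ in atTop,
    3 * (s7rho n : ℝ) + 13 * (s7BA g n : ℝ) ≤ (s7eps n : ℝ) ∧ (s7eps n : ℝ) ≤ 1 / 40 ∧
      20 * (scQ (-(2 * g)) n : ℝ) ≤ (scQ (-g) n : ℝ) ∧
      ∀ l : ℕ, s7l2 g n ≤ l → 1 / (l : ℝ) ≤ (s7eps n : ℝ) := by
  obtain ⟨hg0, hg1⟩ := hg
  have hgs : g ≤ 1 / 1000000000 := by unfold aa at hg1; linarith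
  have e1 : -(2 * aa / 1000) < -(aa / 1000) := by unfold aa; norm_num
  have e2 : 38 / 100 * aa - (2 / 3 + 15 / 100 * aa - 2 * g) / 2 < -(aa / 1000) := by
    unfold aa; linarith
  have e3 : -(aa / 1000) < 0 := by unfold aa; norm_num
  have e4 : -(2 * g) < -g := by linarith
  have e5 : -(2 / 3 + 15 / 100 * aa - 2 * g) ≤ -(aa / 1000) := by unfold aa; linarith
  filter_upwards [s7n_scQ_lt e1 6 0, s7n_scQ_lt e2 26 0, s7n_scQ_small e3 (1 / 40) (by norm_num),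
    s7n_scQ_lt e4 20 0] with n h1 h2 h3 h4
  rw [pow_zero, mul_one] at h1 h2 h4
  refine ⟨?_, h3, h4, ?_⟩
  · unfold s7rho s7BA s7eps
    linarith
  · intro l hl
    unfold s7eps
    have h5 := s7dm_inv_le _ n _ l (s7n_l2 ⟨hg0, hg1⟩ n) hl
    have h6 : (scQ (-(2 / 3 + 15 / 100 * aa - 2 * g)) n : ℝ) ≤ (scQ (-(aa / 1000)) n : ℝ) := by
      exact_mod_cast s7n_scQ_mono e5 n
    exact h5.trans h6

theorem s7dn_numB {g : ℚ} (hg : S7gOK g) : ∀ᶠ n : ℕ in atTop,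
    3 * (s7rho n : ℝ) + 13 * (s7BB g n : ℝ) ≤ (s7eps n : ℝ) ∧ (s7eps n : ℝ) ≤ 1 / 40 ∧
      (s7GS g n : ℝ) ≤ (s7GV g n : ℝ) ∧ (s7GV g n : ℝ) ≤ 1 ∧
      36 * (s7rho n : ℝ) ^ 2 ≤ 2 * (s7GS g n : ℝ) ∧
      ∀ l : ℕ, s7l3 n ≤ l → 1 / (l : ℝ) ≤ (s7eps n : ℝ) := by
  obtain ⟨hg0, hg1⟩ := hg
  have hgs : g ≤ 1 / 1000000000 := by unfold aa at hg1; linarith
  have e1 : -(2 * aa / 1000) < -(aa / 1000) := by unfold aa; norm_num
  have e2 : 40 / 100 * aa - (2 / 3 + 15 / 100 * aa - 2 * g) / 2 < -(aa / 1000) := by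
    unfold aa; linarith
  have e3 : -(aa / 1000) < 0 := by unfold aa; norm_num
  have e4 : ((2 : ℕ) : ℚ) * -(2 * aa / 1000) < -(3 / 10 * g) := by unfold aa; push_cast; linarith
  have e5 : -(3 / 10 * g) ≤ -(2 / 10 * g) := by linarith
  have e6 : -(2 / 10 * g) ≤ 0 := by linarith
  filter_upwards [s7n_scQ_lt e1 6 0, s7n_scQ_lt e2 26 0, s7n_scQ_small e3 (1 / 40) (by norm_num),
    s7n_scQ_lt e4 18 0] with n h1 h2 h3 h4
  rw [pow_zero, mul_one] at h1 h2 h4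
  refine ⟨?_, h3, ?_, ?_, ?_, ?_⟩
  · unfold s7rho s7BB s7eps
    linarith
  · unfold s7GS s7GV
    exact_mod_cast s7n_scQ_mono e5 n
  · unfold s7GV
    exact_mod_cast s7n_scQ_le_one e6 n
  · unfold s7rho s7GS
    have h5 : (scQ (-(2 * aa / 1000)) n : ℝ) ^ 2 ≤ (scQ (((2 : ℕ) : ℚ) * -(2 * aa / 1000)) n : ℝ) := by
      exact_mod_cast s7n_scQ_pow_le (-(2 * aa / 1000)) 2 n
    linarith
  · intro l hl
    unfold s7eps
    have h5 := s7dm_inv_le _ n _ l (s7n_l3 n) hl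
    unfold s7chi at h5
    exact h5

end Claimed.Agent.R275
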