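import Claimed.Agent.R275.S7Step

/-!
# Row 275, Section 7, leaf S7-SCHATTEN: `Tr (Q M Q)⁸ ≤ Tr M⁸` and the extraction of the norm

Prover: helper143.  Prefix `s7sch_`.  Only the Cauchy-Schwarz inequality of the trace form `Tr Xᵀ Y` and cyclicity:
with `N = Q M Q`, `x = Tr N⁸ = Tr N⁷ M`, `u₂ = Tr N⁶ M²`, `u₃ = Tr N⁴ M⁴`, `y = Tr M⁸` one has
`x² ≤ x u₂`, `u₂² ≤ x u₃`, `u₃² ≤ x y`, hence `x ≤ y`.
-/

set_option autoImplicit false

namespace Claimed.Agent.R275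

open Matrix

section Tools

variable {ι : Type} [Fintype ι] [DecidableEq ι]

omit [DecidableEq ι] in
theorem s7sch_trace_eq (X Y : Matrix ι ι ℝ) :
    (Xᵀ * Y).trace = ∑ p : ι × ι, X p.1 p.2 * Y p.1 p.2 := by
  rw [Fintype.sum_prod_type, Finset.sum_comm]
  simp only [Matrix.trace, Matrix.diag_apply, Matrix.mul_apply, Matrix.transpose_apply]

omit [DecidableEq ι] in
/-- Cauchy-Schwarz for the trace form -/
theorem s7sch_cs (X Y : Matrix ι ι ℝ) :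
    (Xᵀ * Y).trace ^ 2 ≤ (Xᵀ * X).trace * (Yᵀ * Y).trace := by
  rw [s7sch_trace_eq, s7sch_trace_eq, s7sch_trace_eq]
  have h := Finset.sum_mul_sq_le_sq_mul_sq (Finset.univ : Finset (ι × ι))
    (fun p => X p.1 p.2) (fun p => Y p.1 p.2)
  simpa only [sq] using h

omit [DecidableEq ι] in
theorem s7sch_fro_nonneg (X : Matrix ι ι ℝ) : 0 ≤ (Xᵀ * X).trace := by
  rw [s7sch_trace_eq]
  exact Finset.sum_nonneg fun p _ => mul_self_nonneg _

theorem s7sch_real {x u₂ u₃ y : ℝ} (hx : 0 ≤ x) (hy : 0 ≤ y) (h1 : x ^ 2 ≤ x * u₂)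
    (h2 : u₂ ^ 2 ≤ x * u₃) (h3 : u₃ ^ 2 ≤ x * y) : x ≤ y := by
  rcases hx.eq_or_lt with h0 | hpos
  · rw [← h0]; exact hy
  · have a1 : x ≤ u₂ := by
      rw [sq] at h1; exact le_of_mul_le_mul_left h1 hpos
    have a2 : x ≤ u₃ := by
      have : x * x ≤ x * u₃ := by nlinarith
      exact le_of_mul_le_mul_left this hpos
    have : x * x ≤ x * y := by nlinarith
    exact le_of_mul_le_mul_left this hpos

theorem s7sch_pow_symm {M : Matrix ι ι ℝ} (hM : Mᵀ = M) (k : ℕ) : (M ^ k)ᵀ = M ^ k := by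
  rw [Matrix.transpose_pow, hM]

end Tools

/-- **S7-STEP-7** -/
theorem s7_schatten : StS7Schatten := by
  intro ι _ _ M Q hM hQ hQQ
  set N := Q * M * Q with hN
  have hNs : Nᵀ = N := by
    rw [hN, Matrix.transpose_mul, Matrix.transpose_mul, hM, hQ, Matrix.mul_assoc]
  have hQN : Q * N = N := by
    rw [hN, ← Matrix.mul_assoc, ← Matrix.mul_assoc, hQQ]
  have hNQ : N * Q = N := by
    rw [hN, Matrix.mul_assoc, hQQ]
  have hN4 := s7sch_pow_symm hNs 4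
  have hM4 := s7sch_pow_symm hM 4
  -- the four numbers
  have ex : (N ^ 8).trace = ((N ^ 4)ᵀ * N ^ 4).trace := by rw [hN4, ← pow_add]
  have ey : (M ^ 8).trace = ((M ^ 4)ᵀ * M ^ 4).trace := by rw [hM4, ← pow_add]
  have e1 : (N ^ 8).trace = ((N ^ 4)ᵀ * (N ^ 3 * M)).trace := by
    have hQ7 : Q * N ^ 7 * Q = N ^ 7 := by
      have : N ^ 7 = N * N ^ 5 * N := by rw [← pow_succ', ← pow_succ]
      rw [this]
      calc Q * (N * N ^ 5 * N) * Q = (Q * N) * N ^ 5 * (N * Q) := by simp only [Matrix.mul_assoc]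
        _ = _ := by rw [hQN, hNQ]
    calc (N ^ 8).trace = (N ^ 7 * (Q * M * Q)).trace := by rw [← hN, ← pow_succ]
      _ = ((N ^ 7 * (Q * M)) * Q).trace := by simp only [Matrix.mul_assoc]
      _ = (Q * (N ^ 7 * (Q * M))).trace := Matrix.trace_mul_comm _ _
      _ = ((Q * N ^ 7 * Q) * M).trace := by simp only [Matrix.mul_assoc]
      _ = (N ^ 7 * M).trace := by rw [hQ7]
      _ = _ := by rw [hN4, ← Matrix.mul_assoc, ← pow_add]
  have f1 : ((N ^ 3 * M)ᵀ * (N ^ 3 * M)).trace = ((N ^ 4)ᵀ * (N ^ 2 * M ^ 2)).trace := by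
    rw [Matrix.transpose_mul, s7sch_pow_symm hNs 3, hM, hN4]
    calc (M * N ^ 3 * (N ^ 3 * M)).trace = (M * (N ^ 3 * N ^ 3 * M)).trace := by
          simp only [Matrix.mul_assoc]
      _ = ((N ^ 3 * N ^ 3 * M) * M).trace := Matrix.trace_mul_comm _ _
      _ = _ := by
          rw [← pow_add, Matrix.mul_assoc, ← sq, ← Matrix.mul_assoc, ← pow_add]
  have f2 : ((N ^ 2 * M ^ 2)ᵀ * (N ^ 2 * M ^ 2)).trace = ((N ^ 4)ᵀ * M ^ 4).trace := by
    rw [Matrix.transpose_mul, s7sch_pow_symm hNs 2, s7sch_pow_symm hM 2, hN4]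
    calc (M ^ 2 * N ^ 2 * (N ^ 2 * M ^ 2)).trace = (M ^ 2 * (N ^ 2 * N ^ 2 * M ^ 2)).trace := by
          simp only [Matrix.mul_assoc]
      _ = ((N ^ 2 * N ^ 2 * M ^ 2) * M ^ 2).trace := Matrix.trace_mul_comm _ _
      _ = _ := by rw [← pow_add, Matrix.mul_assoc, ← pow_add]
  have c1 := s7sch_cs (N ^ 4) (N ^ 3 * M)
  have c2 := s7sch_cs (N ^ 4) (N ^ 2 * M ^ 2)
  have c3 := s7sch_cs (N ^ 4) (M ^ 4)
  rw [← e1, ← ex, f1] at c1
  rw [← ex, f2] at c2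
  rw [← ex, ← ey] at c3
  exact s7sch_real (by rw [ex]; exact s7sch_fro_nonneg _) (by rw [ey]; exact s7sch_fro_nonneg _)
    c1 c2 c3

section Extract

variable {ι : Type} [Fintype ι] [DecidableEq ι]

omit [DecidableEq ι] in
theorem s7sch_sq_nonneg (x : ι → ℝ) : 0 ≤ s7sq x := by
  unfold s7sq dotProduct
  exact Finset.sum_nonneg fun i _ => mul_self_nonneg _

omit [DecidableEq ι] in
/-- Cauchy-Schwarz for arrays -/
theorem s7sch_dot_cs (x y : ι → ℝ) : (x ⬝ᵥ y) ^ 2 ≤ s7sq x * s7sq y := by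
  unfold s7sq dotProduct
  have h := Finset.sum_mul_sq_le_sq_mul_sq (Finset.univ : Finset ι) x y
  simpa only [sq] using h

omit [DecidableEq ι] in
theorem s7sch_sq_mulVec {D : Matrix ι ι ℝ} (hD : Dᵀ = D) (x : ι → ℝ) :
    s7sq (D *ᵥ x) = x ⬝ᵥ ((D * D) *ᵥ x) := by
  unfold s7sq
  rw [Matrix.dotProduct_mulVec, ← Matrix.mulVec_transpose, hD, Matrix.mulVec_mulVec,
    dotProduct_comm]

omit [DecidableEq ι] in
/-- `‖D x‖⁴ ≤ ‖x‖² ‖D² x‖²` -/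
theorem s7sch_half {D : Matrix ι ι ℝ} (hD : Dᵀ = D) (x : ι → ℝ) :
    s7sq (D *ᵥ x) ^ 2 ≤ s7sq x * s7sq ((D * D) *ᵥ x) := by
  rw [s7sch_sq_mulVec hD]
  exact s7sch_dot_cs _ _

omit [DecidableEq ι] in
theorem s7sch_fro_cols (X : Matrix ι ι ℝ) :
    (Xᵀ * X).trace = ∑ j, s7sq (fun i => X i j) := by
  simp only [Matrix.trace, Matrix.diag_apply, Matrix.mul_apply, Matrix.transpose_apply, s7sq,
    dotProduct]

omit [DecidableEq ι] in
theorem s7sch_fro_rows (X : Matrix ι ι ℝ) :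
    (Xᵀ * X).trace = ∑ i, s7sq (fun j => X i j) := by
  rw [s7sch_fro_cols, ]
  simp only [s7sq, dotProduct]
  exact Finset.sum_comm

omit [DecidableEq ι] in
/-- the Frobenius norm dominates the operator norm -/
theorem s7sch_fro_op (A : Matrix ι ι ℝ) (x : ι → ℝ) :
    s7sq (A *ᵥ x) ≤ (Aᵀ * A).trace * s7sq x := by
  rw [s7sch_fro_rows, Finset.sum_mul]
  have : s7sq (A *ᵥ x) = ∑ i, ((fun j => A i j) ⬝ᵥ x) ^ 2 := by
    simp only [s7sq, dotProduct, Matrix.mulVec, sq]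
  rw [this]
  exact Finset.sum_le_sum fun i _ => s7sch_dot_cs _ _

omit [DecidableEq ι] in
/-- `‖D X‖_F² ≤ Z² ‖X‖_F²` -/
theorem s7sch_fro_mul {D : Matrix ι ι ℝ} {Z : ℝ} (hZ : s7opLE D Z) (X : Matrix ι ι ℝ) :
    ((D * X)ᵀ * (D * X)).trace ≤ Z ^ 2 * (Xᵀ * X).trace := by
  rw [s7sch_fro_cols, s7sch_fro_cols, Finset.mul_sum]
  refine Finset.sum_le_sum fun j _ => ?_
  have : (fun i => (D * X) i j) = D *ᵥ (fun i => X i j) := by
    funext i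
    simp only [Matrix.mul_apply, Matrix.mulVec, dotProduct]
  rw [this]
  exact hZ.2 _

theorem s7sch_real2 {a1 a2 a4 n T : ℝ} (hn : 0 ≤ n)
    (c1 : a1 ^ 2 ≤ n * a2) (c2 : a2 ^ 2 ≤ n * a4) (c3 : a4 ≤ T * n) : a1 ^ 4 ≤ T * n ^ 4 := by
  have e1 : a1 ^ 4 ≤ (n * a2) ^ 2 := by
    have : a1 ^ 4 = (a1 ^ 2) ^ 2 := by ring
    rw [this]
    exact pow_le_pow_left₀ (sq_nonneg _) c1 2
  have e2 : (n * a2) ^ 2 ≤ n ^ 2 * (n * a4) := by
    rw [mul_pow]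
    exact mul_le_mul_of_nonneg_left c2 (sq_nonneg _)
  have e3 : n ^ 2 * (n * a4) ≤ n ^ 2 * (n * (T * n)) :=
    mul_le_mul_of_nonneg_left (mul_le_mul_of_nonneg_left c3 hn) (sq_nonneg _)
  calc a1 ^ 4 ≤ n ^ 2 * (n * (T * n)) := e1.trans (e2.trans e3)
    _ = T * n ^ 4 := by ring

end Extract

/-- **S7-STEP-8** -/
theorem s7_normExtract : StS7NormExtract := by
  intro ι _ _ D hD
  have hD4 := s7sch_pow_symm hD 4
  have e8 : (D ^ 8).trace = ((D ^ 4)ᵀ * D ^ 4).trace := by rw [hD4, ← pow_add]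
  refine ⟨by rw [e8]; exact s7sch_fro_nonneg _, fun x => ?_, fun Z hZ => ?_⟩
  · have hD2 : (D * D)ᵀ = D * D := by rw [Matrix.transpose_mul, hD]
    have c1 := s7sch_half hD x
    have c2 := s7sch_half hD2 x
    have c3 := s7sch_fro_op (D ^ 4) x
    have e4 : D * D * (D * D) = D ^ 4 := by
      rw [← sq, ← sq, ← pow_mul]
    rw [e4] at c2
    rw [← e8] at c3
    exact s7sch_real2 (s7sch_sq_nonneg _) c1 c2 c3
  · have b1 := s7sch_fro_mul hZ (D ^ 3)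
    have b2 := s7sch_fro_mul hZ (D ^ 2)
    have b3 := s7sch_fro_mul hZ D
    rw [← pow_succ'] at b1 b2
    rw [← sq] at b3
    have hX : s7X D = (Dᵀ * D).trace := by rw [hD]; rfl
    rw [e8, hX]
    have hz : 0 ≤ Z ^ 2 := sq_nonneg _
    calc ((D ^ 4)ᵀ * D ^ 4).trace ≤ Z ^ 2 * ((D ^ 3)ᵀ * D ^ 3).trace := b1
      _ ≤ Z ^ 2 * (Z ^ 2 * ((D ^ 2)ᵀ * D ^ 2).trace) := mul_le_mul_of_nonneg_left b2 hz
      _ ≤ Z ^ 2 * (Z ^ 2 * (Z ^ 2 * (Dᵀ * D).trace)) :=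
          mul_le_mul_of_nonneg_left (mul_le_mul_of_nonneg_left b3 hz) hz
      _ = Z ^ 6 * (Dᵀ * D).trace := by ring

end Claimed.Agent.R275
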