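import Claimed.Agent.R275.S7Step

/-!
# Row 275, Section 7: shared tools for the one-step leaves (S7-ENERGYSTEP, TRACESTEP, ROWSTEP, ...)

Author: helper102.  Prefix `s7t_` (and the predicate `s7nb`).  No sorry.  Contents:
* `s7nb A c` : all entries of a `2 × 2` matrix are bounded by `c`; calculus (`mul` costs a factor `2`), traces;
* entries of `F2`, `B2`, `H0`;
* `s7avg`: monotonicity, linearity, averages of functions of one endpoint, off-diagonal sums;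
* facts on a symmetric centred `D`: rows vanish outside `R`, `(D²)_xx = ∑ D_xy²`, `X ≤ C0 l`, Cauchy-Schwarz for the entries of
  `D²`, `D³`, Frobenius norms of `D²`, `D³` against the operator norm.
-/

set_option autoImplicit false
set_option linter.unusedSectionVars false
set_option linter.unusedVariables false

namespace Claimed.Agent.R275

open Matrix

/-! ## Entrywise bounds of `2 × 2` matrices -/

/-- all entries are bounded by `c` -/
def s7nb (A : Matrix (Fin 2) (Fin 2) ℝ) (c : ℝ) : Prop := ∀ i j, |A i j| ≤ c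

namespace s7nb

variable {A B : Matrix (Fin 2) (Fin 2) ℝ} {a b : ℝ}

theorem nonneg (h : s7nb A a) : 0 ≤ a := (abs_nonneg _).trans (h 0 0)

theorem mono (h : s7nb A a) (hab : a ≤ b) : s7nb A b := fun i j => (h i j).trans hab

theorem mul (hA : s7nb A a) (hB : s7nb B b) : s7nb (A * B) (2 * a * b) := by
  intro i j
  rw [Matrix.mul_apply, Fin.sum_univ_two]
  have h1 : |A i 0 * B 0 j| ≤ a * b := by
    rw [abs_mul]; exact mul_le_mul (hA i 0) (hB 0 j) (abs_nonneg _) hA.nonneg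
  have h2 : |A i 1 * B 1 j| ≤ a * b := by
    rw [abs_mul]; exact mul_le_mul (hA i 1) (hB 1 j) (abs_nonneg _) hA.nonneg
  have := abs_add_le (A i 0 * B 0 j) (A i 1 * B 1 j)
  linarith

theorem add (hA : s7nb A a) (hB : s7nb B b) : s7nb (A + B) (a + b) := by
  intro i j
  rw [Matrix.add_apply]
  exact (abs_add_le _ _).trans (add_le_add (hA i j) (hB i j))

theorem neg (hA : s7nb A a) : s7nb (-A) a := by
  intro i j
  rw [Matrix.neg_apply, abs_neg]
  exact hA i j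

theorem sub (hA : s7nb A a) (hB : s7nb B b) : s7nb (A - B) (a + b) := by
  rw [sub_eq_add_neg]; exact hA.add hB.neg

theorem smul (hA : s7nb A a) (t : ℝ) : s7nb (t • A) (|t| * a) := by
  intro i j
  rw [Matrix.smul_apply, smul_eq_mul, abs_mul]
  exact mul_le_mul_of_nonneg_left (hA i j) (abs_nonneg _)

theorem trace (hA : s7nb A a) : |A.trace| ≤ 2 * a := by
  rw [Matrix.trace_fin_two]
  have := abs_add_le (A 0 0) (A 1 1)
  have h1 := hA 0 0
  have h2 := hA 1 1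
  linarith

theorem trace_le (hA : s7nb A a) : A.trace ≤ 2 * a := (le_abs_self _).trans hA.trace

theorem neg_le_trace (hA : s7nb A a) : -(2 * a) ≤ A.trace := (abs_le.1 hA.trace).1

end s7nb

theorem s7t_nb_F2 : s7nb (F2 ℝ) 1 := by
  intro i j
  unfold F2
  split_ifs <;> simp

theorem s7t_nb_one : s7nb (1 : Matrix (Fin 2) (Fin 2) ℝ) 1 := by
  intro i j
  rw [Matrix.one_apply]
  split_ifs <;> simp

theorem s7t_inv_sub_two_le {l : ℕ} (hl : 3 ≤ l) : ((l : ℝ) - 2)⁻¹ ≤ 3 / l := by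
  have h3 : (3 : ℝ) ≤ l := by exact_mod_cast hl
  rw [inv_eq_one_div, div_le_div_iff₀ (by linarith) (by linarith)]
  linarith

theorem s7t_nb_B2_sub_one {l : ℕ} (hl : 3 ≤ l) : s7nb (B2 ℝ l - 1) (3 / l) := by
  intro i j
  have h3 : (3 : ℝ) ≤ l := by exact_mod_cast hl
  have e : (B2 ℝ l - 1) i j = ((l : ℝ) - 2)⁻¹ := by
    simp [B2, J2]
  rw [e, abs_of_nonneg (inv_nonneg.2 (by linarith))]
  exact s7t_inv_sub_two_le hl

theorem s7t_nb_B2 {l : ℕ} (hl : 3 ≤ l) : s7nb (B2 ℝ l) 2 := by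
  have h3 : (3 : ℝ) ≤ l := by exact_mod_cast hl
  have h := (s7t_nb_B2_sub_one hl).add s7t_nb_one
  rw [sub_add_cancel] at h
  refine h.mono ?_
  have : (3 : ℝ) / l ≤ 1 := by rw [div_le_one (by linarith)]; exact h3
  linarith

/-- `H₀ = -σh F + E₀`, `|E₀| ≤ 3 |σh| / l` -/
theorem s7t_nb_H0_sub {l : ℕ} (hl : 3 ≤ l) (σ h : ℝ) :
    s7nb (H0 l σ h - (-(σ * h)) • F2 ℝ) (|σ * h| * (3 / l)) := by
  intro i j
  have h3 : (3 : ℝ) ≤ l := by exact_mod_cast hl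
  have e : (H0 l σ h - (-(σ * h)) • F2 ℝ) i j = -(σ * h) * ((l : ℝ) - 2)⁻¹ := by
    fin_cases i <;> fin_cases j <;> simp [H0, B2, J2, F2, Matrix.mul_apply, Fin.sum_univ_two] <;> ring
  rw [e, abs_mul, abs_neg, abs_of_nonneg (inv_nonneg.2 (by linarith : (0 : ℝ) ≤ (l : ℝ) - 2))]
  exact mul_le_mul_of_nonneg_left (s7t_inv_sub_two_le hl) (abs_nonneg _)

theorem s7t_nb_H0 {l : ℕ} (hl : 3 ≤ l) (σ h : ℝ) : s7nb (H0 l σ h) (2 * |σ * h|) := by
  have h3 : (3 : ℝ) ≤ l := by exact_mod_cast hl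
  have hh := (s7t_nb_H0_sub hl σ h).add (s7t_nb_F2.smul (-(σ * h)))
  rw [sub_add_cancel, abs_neg] at hh
  refine hh.mono ?_
  have h1 : (3 : ℝ) / l ≤ 1 := by rw [div_le_one (by linarith)]; exact h3
  have := mul_le_mul_of_nonneg_left h1 (abs_nonneg (σ * h))
  linarith

/-! ## Averages over ordered pairs -/

section Avg

variable {ι : Type*} [DecidableEq ι]

theorem s7t_den_pos {I : Finset ι} (hI : 2 ≤ I.card) : 0 < (I.card : ℝ) * ((I.card : ℝ) - 1) := by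
  have h2 : (2 : ℝ) ≤ I.card := by exact_mod_cast hI
  exact mul_pos (by linarith) (by linarith)

theorem s7t_avg_mono {I : Finset ι} (hI : 2 ≤ I.card) {f g : ι → ι → ℝ}
    (h : ∀ u ∈ I, ∀ v ∈ I, u ≠ v → f u v ≤ g u v) : s7avg I f ≤ s7avg I g := by
  unfold s7avg
  refine div_le_div_of_nonneg_right ?_ (s7t_den_pos hI).le
  refine Finset.sum_le_sum (fun u hu => Finset.sum_le_sum (fun v hv => ?_))
  exact h u hu v (Finset.mem_of_mem_erase hv) (Finset.ne_of_mem_erase hv).symm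

theorem s7t_avg_congr {I : Finset ι} {f g : ι → ι → ℝ}
    (h : ∀ u ∈ I, ∀ v ∈ I, u ≠ v → f u v = g u v) : s7avg I f = s7avg I g := by
  unfold s7avg
  congr 1
  refine Finset.sum_congr rfl (fun u hu => Finset.sum_congr rfl (fun v hv => ?_))
  exact h u hu v (Finset.mem_of_mem_erase hv) (Finset.ne_of_mem_erase hv).symm

theorem s7t_avg_add (I : Finset ι) (f g : ι → ι → ℝ) :
    s7avg I (fun u v => f u v + g u v) = s7avg I f + s7avg I g := by
  unfold s7avg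
  rw [← add_div]
  congr 1
  simp only [Finset.sum_add_distrib]

theorem s7t_avg_sub (I : Finset ι) (f g : ι → ι → ℝ) :
    s7avg I (fun u v => f u v - g u v) = s7avg I f - s7avg I g := by
  unfold s7avg
  rw [← sub_div]
  congr 1
  simp only [Finset.sum_sub_distrib]

theorem s7t_avg_smul (I : Finset ι) (c : ℝ) (f : ι → ι → ℝ) :
    s7avg I (fun u v => c * f u v) = c * s7avg I f := by
  unfold s7avg
  rw [← mul_div_assoc]
  congr 1
  simp only [Finset.mul_sum]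

theorem s7t_avg_const {I : Finset ι} (hI : 2 ≤ I.card) (c : ℝ) : s7avg I (fun _ _ => c) = c := by
  unfold s7avg
  have h2 : (2 : ℝ) ≤ I.card := by exact_mod_cast hI
  have e : ∑ u ∈ I, ∑ _v ∈ I.erase u, c = (I.card : ℝ) * ((I.card : ℝ) - 1) * c := by
    have : ∀ u ∈ I, ∑ _v ∈ I.erase u, c = ((I.card : ℝ) - 1) * c := by
      intro u hu
      rw [Finset.sum_const, Finset.card_erase_of_mem hu, nsmul_eq_mul, Nat.cast_sub (by omega)]
      simp
    rw [Finset.sum_congr rfl this, Finset.sum_const, nsmul_eq_mul]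
    ring
  rw [e, mul_div_cancel_left₀ _ (s7t_den_pos hI).ne']

/-- a function of the first endpoint -/
theorem s7t_avg_fst {I : Finset ι} (hI : 2 ≤ I.card) (f : ι → ℝ) :
    s7avg I (fun u _ => f u) = (∑ u ∈ I, f u) / I.card := by
  unfold s7avg
  have h2 : (2 : ℝ) ≤ I.card := by exact_mod_cast hI
  have e : ∑ u ∈ I, ∑ _v ∈ I.erase u, f u = ((I.card : ℝ) - 1) * ∑ u ∈ I, f u := by
    rw [Finset.mul_sum]
    refine Finset.sum_congr rfl (fun u hu => ?_)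
    rw [Finset.sum_const, Finset.card_erase_of_mem hu, nsmul_eq_mul, Nat.cast_sub (by omega)]
    simp
  have h1 : ((I.card : ℝ) - 1) ≠ 0 := by linarith
  have h0 : (I.card : ℝ) ≠ 0 := by linarith
  rw [e]
  field_simp

/-- a function of the second endpoint -/
theorem s7t_avg_snd {I : Finset ι} (hI : 2 ≤ I.card) (f : ι → ℝ) :
    s7avg I (fun _ v => f v) = (∑ u ∈ I, f u) / I.card := by
  unfold s7avg
  have h2 : (2 : ℝ) ≤ I.card := by exact_mod_cast hI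
  have e : ∑ u ∈ I, ∑ v ∈ I.erase u, f v = ((I.card : ℝ) - 1) * ∑ u ∈ I, f u := by
    have : ∀ u ∈ I, ∑ v ∈ I.erase u, f v = (∑ v ∈ I, f v) - f u := by
      intro u hu
      rw [← Finset.add_sum_erase I f hu]; ring
    rw [Finset.sum_congr rfl this, Finset.sum_sub_distrib, Finset.sum_const, nsmul_eq_mul]
    ring
  have h1 : ((I.card : ℝ) - 1) ≠ 0 := by linarith
  have h0 : (I.card : ℝ) ≠ 0 := by linarith
  rw [e]
  field_simp

/-- a nonnegative kernel: the off-diagonal sum is bounded by the full sum -/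
theorem s7t_avg_le_full [Fintype ι] {I : Finset ι} (hI : 2 ≤ I.card) (f : ι → ι → ℝ)
    (hf : ∀ u v, 0 ≤ f u v) :
    s7avg I f ≤ (∑ u, ∑ v, f u v) / ((I.card : ℝ) * ((I.card : ℝ) - 1)) := by
  unfold s7avg
  refine div_le_div_of_nonneg_right ?_ (s7t_den_pos hI).le
  calc ∑ u ∈ I, ∑ v ∈ I.erase u, f u v ≤ ∑ u ∈ I, ∑ v, f u v :=
        Finset.sum_le_sum (fun u _ => Finset.sum_le_sum_of_subset_of_nonneg (Finset.subset_univ _)
          (fun v _ _ => hf u v))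
    _ ≤ ∑ u, ∑ v, f u v := Finset.sum_le_sum_of_subset_of_nonneg (Finset.subset_univ _)
          (fun u _ _ => Finset.sum_nonneg (fun v _ => hf u v))

theorem s7t_avg_nonneg {I : Finset ι} (hI : 2 ≤ I.card) {f : ι → ι → ℝ}
    (h : ∀ u ∈ I, ∀ v ∈ I, u ≠ v → 0 ≤ f u v) : 0 ≤ s7avg I f := by
  have := s7t_avg_mono hI (f := fun _ _ => 0) (g := f) h
  rwa [s7t_avg_const hI] at this

/-- `1 / (l (l-1)) ≤ 2 / l²` -/
theorem s7t_inv_den_le {l : ℝ} (hl : 2 ≤ l) : 1 / (l * (l - 1)) ≤ 2 / l ^ 2 := by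
  rw [div_le_div_iff₀ (mul_pos (by linarith) (by linarith)) (by positivity)]
  nlinarith

end Avg

/-! ## Facts on a symmetric centred matrix -/

section Facts

variable {ι : Type*} [Fintype ι] [DecidableEq ι]

theorem s7t_symm_apply {D : Matrix ι ι ℝ} (hs : Dᵀ = D) (x y : ι) : D x y = D y x := by
  conv_lhs => rw [← hs]
  rfl

omit [DecidableEq ι] in
theorem s7t_sq_symm {D : Matrix ι ι ℝ} (hs : Dᵀ = D) : (D * D)ᵀ = D * D := by
  rw [Matrix.transpose_mul, hs]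

omit [DecidableEq ι] in
theorem s7t_cube_symm {D : Matrix ι ι ℝ} (hs : Dᵀ = D) : (D * D * D)ᵀ = D * D * D := by
  rw [Matrix.transpose_mul, Matrix.transpose_mul, hs, Matrix.mul_assoc]

theorem s7t_sq_cent {R : Finset ι} {D : Matrix ι ι ℝ} (hc : s7Pi ℝ R * D = D) :
    s7Pi ℝ R * (D * D) = D * D := by
  rw [← Matrix.mul_assoc, hc]

theorem s7t_cube_cent {R : Finset ι} {D : Matrix ι ι ℝ} (hc : s7Pi ℝ R * D = D) :
    s7Pi ℝ R * (D * D * D) = D * D * D := by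
  rw [← Matrix.mul_assoc, ← Matrix.mul_assoc, hc]

/-- rows vanish outside `R` -/
theorem s7t_row_zero {R : Finset ι} {D : Matrix ι ι ℝ} (hc : s7Pi ℝ R * D = D) {x : ι}
    (hx : x ∉ R) (y : ι) : D x y = 0 := by
  rw [← hc, Matrix.mul_apply]
  refine Finset.sum_eq_zero (fun z _ => ?_)
  simp [s7Pi, hx]

omit [DecidableEq ι] in
/-- `(D²)_xy = ∑_z D_xz D_yz` -/
theorem s7t_sq_apply {D : Matrix ι ι ℝ} (hs : Dᵀ = D) (x y : ι) :
    (D * D) x y = ∑ z, D x z * D y z := by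
  rw [Matrix.mul_apply]
  refine Finset.sum_congr rfl (fun z _ => ?_)
  have : D z y = D y z := by
    conv_lhs => rw [← hs]
    rfl
  rw [this]

omit [DecidableEq ι] in
theorem s7t_sq_diag {D : Matrix ι ι ℝ} (hs : Dᵀ = D) (x : ι) : (D * D) x x = ∑ z, D x z ^ 2 := by
  rw [s7t_sq_apply hs]
  exact Finset.sum_congr rfl (fun z _ => (sq _).symm)

omit [DecidableEq ι] in
theorem s7t_sq_diag_nonneg {D : Matrix ι ι ℝ} (hs : Dᵀ = D) (x : ι) : 0 ≤ (D * D) x x := by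
  rw [s7t_sq_diag hs]
  exact Finset.sum_nonneg (fun z _ => sq_nonneg _)

omit [DecidableEq ι] in
/-- the `x`-th row as an array; `‖D e_x‖² = (D²)_xx` -/
theorem s7t_sq_row {D : Matrix ι ι ℝ} (hs : Dᵀ = D) (x : ι) : s7sq (D x) = (D * D) x x := by
  rw [s7t_sq_diag hs]
  unfold s7sq
  rw [dotProduct]
  exact Finset.sum_congr rfl (fun z _ => (sq _).symm)

theorem s7t_sq_diag_zero {R : Finset ι} {D : Matrix ι ι ℝ} (hs : Dᵀ = D)
    (hc : s7Pi ℝ R * D = D) {x : ι} (hx : x ∉ R) : (D * D) x x = 0 := by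
  rw [s7t_sq_diag hs]
  exact Finset.sum_eq_zero (fun z _ => by rw [s7t_row_zero hc hx]; simp)

/-- `X = ∑_{x ∈ R} (D²)_xx` -/
theorem s7t_X_eq {R : Finset ι} {D : Matrix ι ι ℝ} (hs : Dᵀ = D) (hc : s7Pi ℝ R * D = D) :
    s7X D = ∑ x ∈ R, (D * D) x x := by
  unfold s7X
  rw [Matrix.trace]
  symm
  refine Finset.sum_subset (Finset.subset_univ _) (fun x _ hx => ?_)
  exact s7t_sq_diag_zero hs hc hx

omit [DecidableEq ι] in
theorem s7t_X_nonneg {D : Matrix ι ι ℝ} (hs : Dᵀ = D) : 0 ≤ s7X D :=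
  Finset.sum_nonneg (fun x _ => s7t_sq_diag_nonneg hs x)

theorem s7t_X_le {R : Finset ι} {D : Matrix ι ι ℝ} {C0 : ℝ} (hs : Dᵀ = D)
    (hc : s7Pi ℝ R * D = D) (hr : ∀ x, (D * D) x x ≤ C0) : s7X D ≤ C0 * R.card := by
  rw [s7t_X_eq hs hc]
  calc ∑ x ∈ R, (D * D) x x ≤ ∑ _x ∈ R, C0 := Finset.sum_le_sum (fun x _ => hr x)
    _ = C0 * R.card := by rw [Finset.sum_const, nsmul_eq_mul]; ring

omit [DecidableEq ι] in
theorem s7t_T_nonneg (D : Matrix ι ι ℝ) : 0 ≤ s7T D := Finset.sum_nonneg (fun x _ => sq_nonneg _)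

omit [DecidableEq ι] in
theorem s7t_sum_diag_sq_le (D : Matrix ι ι ℝ) (I : Finset ι) : ∑ x ∈ I, D x x ^ 2 ≤ s7T D :=
  Finset.sum_le_sum_of_subset_of_nonneg (Finset.subset_univ _) (fun x _ _ => sq_nonneg _)

omit [DecidableEq ι] in
/-- Cauchy-Schwarz for arrays -/
theorem s7t_cs (a b : ι → ℝ) : |a ⬝ᵥ b| ≤ Real.sqrt (s7sq a) * Real.sqrt (s7sq b) := by
  rw [← Real.sqrt_mul (by exact Finset.sum_nonneg (fun i _ => mul_self_nonneg _))]
  refine Real.abs_le_sqrt ?_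
  have h := Finset.sum_mul_sq_le_sq_mul_sq (Finset.univ : Finset ι) a b
  simpa only [s7sq, dotProduct, sq] using h

omit [DecidableEq ι] in
theorem s7t_sq_nonneg (a : ι → ℝ) : 0 ≤ s7sq a := Finset.sum_nonneg (fun i _ => mul_self_nonneg _)

omit [DecidableEq ι] in
/-- `|(D²)_xy| ≤ ((D²)_xx + (D²)_yy) / 2` -/
theorem s7t_sq_offdiag {D : Matrix ι ι ℝ} (hs : Dᵀ = D) (x y : ι) :
    |(D * D) x y| ≤ ((D * D) x x + (D * D) y y) / 2 := by
  rw [s7t_sq_apply hs, s7t_sq_diag hs, s7t_sq_diag hs, ← Finset.sum_add_distrib, Finset.sum_div]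
  refine (Finset.abs_sum_le_sum_abs _ _).trans (Finset.sum_le_sum (fun z _ => ?_))
  rw [abs_le]
  constructor <;> nlinarith [sq_nonneg (D x z - D y z), sq_nonneg (D x z + D y z)]

omit [DecidableEq ι] in
/-- `(D³)_xy = ⟨D e_x, D (D e_y)⟩` -/
theorem s7t_cube_apply {D : Matrix ι ι ℝ} (hs : Dᵀ = D) (x y : ι) :
    (D * D * D) x y = D x ⬝ᵥ (D *ᵥ D y) := by
  rw [Matrix.mul_assoc, Matrix.mul_apply, dotProduct]
  refine Finset.sum_congr rfl (fun z _ => ?_)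
  rw [s7t_sq_apply hs]
  rfl

omit [DecidableEq ι] in
theorem s7t_op_sqrt {D : Matrix ι ι ℝ} {Z : ℝ} (hZ : s7opLE D Z) (a : ι → ℝ) :
    Real.sqrt (s7sq (D *ᵥ a)) ≤ Z * Real.sqrt (s7sq a) := by
  have h := Real.sqrt_le_sqrt (hZ.2 a)
  rwa [Real.sqrt_mul (sq_nonneg _), Real.sqrt_sq hZ.1] at h

omit [DecidableEq ι] in
/-- `|(D³)_xy| ≤ Z √((D²)_xx) √((D²)_yy)` -/
theorem s7t_cube_le {D : Matrix ι ι ℝ} {Z : ℝ} (hs : Dᵀ = D) (hZ : s7opLE D Z) (x y : ι) :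
    |(D * D * D) x y| ≤ Z * (Real.sqrt ((D * D) x x) * Real.sqrt ((D * D) y y)) := by
  rw [s7t_cube_apply hs, ← s7t_sq_row hs x, ← s7t_sq_row hs y]
  refine (s7t_cs _ _).trans ?_
  have h1 := s7t_op_sqrt hZ (D y)
  have h2 := Real.sqrt_nonneg (s7sq (D x))
  calc Real.sqrt (s7sq (D x)) * Real.sqrt (s7sq (D *ᵥ D y))
      ≤ Real.sqrt (s7sq (D x)) * (Z * Real.sqrt (s7sq (D y))) := mul_le_mul_of_nonneg_left h1 h2
    _ = Z * (Real.sqrt (s7sq (D x)) * Real.sqrt (s7sq (D y))) := by ring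

omit [DecidableEq ι] in
/-- row of `D²`: `∑_v (D²)_uv² = ‖D (D e_u)‖² ≤ Z² (D²)_uu` -/
theorem s7t_sq_row_sum {D : Matrix ι ι ℝ} {Z : ℝ} (hs : Dᵀ = D) (hZ : s7opLE D Z) (u : ι) :
    ∑ v, (D * D) u v ^ 2 ≤ Z ^ 2 * (D * D) u u := by
  have e : ∑ v, (D * D) u v ^ 2 = s7sq (D *ᵥ D u) := by
    unfold s7sq
    rw [dotProduct]
    refine Finset.sum_congr rfl (fun v _ => ?_)
    have : (D * D) u v = (D *ᵥ D u) v := by
      rw [s7t_sq_apply hs, Matrix.mulVec, dotProduct]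
      exact Finset.sum_congr rfl (fun z _ => mul_comm _ _)
    rw [this, sq]
  rw [e, ← s7t_sq_row hs u]
  exact hZ.2 _

omit [DecidableEq ι] in
/-- `Tr D⁴ ≤ Z² X` -/
theorem s7t_sq_fro {D : Matrix ι ι ℝ} {Z : ℝ} (hs : Dᵀ = D) (hZ : s7opLE D Z) :
    ∑ u, ∑ v, (D * D) u v ^ 2 ≤ Z ^ 2 * s7X D := by
  unfold s7X
  rw [Matrix.trace, Finset.mul_sum]
  exact Finset.sum_le_sum (fun u _ => s7t_sq_row_sum hs hZ u)

omit [DecidableEq ι] in
/-- row of `D³`: `∑_v (D³)_uv² ≤ Z⁴ (D²)_uu` -/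
theorem s7t_cube_row_sum {D : Matrix ι ι ℝ} {Z : ℝ} (hs : Dᵀ = D) (hZ : s7opLE D Z) (u : ι) :
    ∑ v, (D * D * D) u v ^ 2 ≤ Z ^ 4 * (D * D) u u := by
  have e : ∑ v, (D * D * D) u v ^ 2 = s7sq (D *ᵥ (D *ᵥ D u)) := by
    unfold s7sq
    rw [dotProduct]
    refine Finset.sum_congr rfl (fun v _ => ?_)
    have : (D * D * D) u v = (D *ᵥ (D *ᵥ D u)) v := by
      have h1 : (D * D * D) u v = (D * D * D) v u := by
        conv_lhs => rw [← s7t_cube_symm hs]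
        rfl
      rw [h1, s7t_cube_apply hs]
      rfl
    rw [this, sq]
  rw [e, ← s7t_sq_row hs u]
  calc s7sq (D *ᵥ (D *ᵥ D u)) ≤ Z ^ 2 * s7sq (D *ᵥ D u) := hZ.2 _
    _ ≤ Z ^ 2 * (Z ^ 2 * s7sq (D u)) := mul_le_mul_of_nonneg_left (hZ.2 _) (sq_nonneg _)
    _ = Z ^ 4 * s7sq (D u) := by ring

omit [DecidableEq ι] in
/-- `Tr D⁶ ≤ Z⁴ X` -/
theorem s7t_cube_fro {D : Matrix ι ι ℝ} {Z : ℝ} (hs : Dᵀ = D) (hZ : s7opLE D Z) :
    ∑ u, ∑ v, (D * D * D) u v ^ 2 ≤ Z ^ 4 * s7X D := by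
  unfold s7X
  rw [Matrix.trace, Finset.mul_sum]
  exact Finset.sum_le_sum (fun u _ => s7t_cube_row_sum hs hZ u)

end Facts

end Claimed.Agent.R275
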