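import Claimed.Agent.R275.S7PhaseB
import Claimed.Agent.R275.S7Num
import Claimed.Agent.R275.S7Schatten
import Claimed.Agent.R275.S7Tools

/-!
# Row 275, Section 7: three tools for S7-A-DER / S7-B-DER (requested by helper167, msg 11014)

Prover: helper102.  Prefix `s7dn_`.
-/

set_option autoImplicit false
set_option linter.unusedSectionVars false
set_option linter.unusedVariables false

namespace Claimed.Agent.R275

open Matrix Filter

/-- `‖D⁴‖_F² = Tr D⁸` for symmetric `D` -/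
theorem s7dn_F8_eq {ι : Type} [Fintype ι] [DecidableEq ι] {D : Matrix ι ι ℝ} (hD : Dᵀ = D) :
    s7F8 D = (D ^ 8).trace := by
  have hD4 := s7sch_pow_symm hD 4
  have e8 : (D ^ 8).trace = ((D ^ 4)ᵀ * D ^ 4).trace := by rw [hD4, ← pow_add]
  rw [e8, s7sch_trace_eq, Fintype.sum_prod_type]
  unfold s7F8
  refine Finset.sum_congr rfl (fun x _ => Finset.sum_congr rfl (fun y _ => ?_))
  ring

/-- (1) the operator norm from the 8-th moment -/
theorem s7dn_op_of_F8 {ι : Type} [Fintype ι] [DecidableEq ι] {D : Matrix ι ι ℝ} (hD : Dᵀ = D)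
    {c : ℝ} (hc : 0 ≤ c) (h : s7F8 D ≤ c ^ 4) : s7opLE D (Real.sqrt c) := by
  refine ⟨Real.sqrt_nonneg _, fun x => ?_⟩
  rw [Real.sq_sqrt hc]
  have h1 := (s7_normExtract ι D hD).2.1 x
  rw [← s7dn_F8_eq hD] at h1
  have hx : 0 ≤ s7sq x := s7t_sq_nonneg x
  have h2 : s7sq (D *ᵥ x) ^ 4 ≤ (c * s7sq x) ^ 4 := by
    rw [mul_pow]
    exact h1.trans (mul_le_mul_of_nonneg_right h (by positivity))
  exact (pow_le_pow_iff_left₀ (s7t_sq_nonneg _) (by positivity) (by norm_num)).1 h2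

/-- (2) the operator norm from the Frobenius norm -/
theorem s7dn_op_of_X {ι : Type} [Fintype ι] [DecidableEq ι] {D : Matrix ι ι ℝ} (hD : Dᵀ = D)
    {c : ℝ} (h : s7X D ≤ c) : s7opLE D (Real.sqrt c) := by
  have hc : 0 ≤ c := (s7t_X_nonneg hD).trans h
  refine ⟨Real.sqrt_nonneg _, fun x => ?_⟩
  rw [Real.sq_sqrt hc]
  have h1 := s7sch_fro_op D x
  have hX : s7X D = (Dᵀ * D).trace := by rw [hD]; rfl
  rw [← hX] at h1
  exact h1.trans (mul_le_mul_of_nonneg_right h (s7t_sq_nonneg x))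

/-- (3) the gap -/
theorem s7dn_gap {g : ℚ} (hg : S7gOK g) (n l : ℕ) (hl : l ≤ l0 n) (hl0 : 0 < l) (u : ℝ)
    (hnum : 20 * (scQ (-(2 * g)) n : ℝ) ≤ (scQ (-g) n : ℝ))
    (hu : u ≤ (s7ubar g n l : ℝ) + (scQ (-(2 * g)) n : ℝ)) :
    9 / 10 * (1 - (s7ubar g n l : ℝ)) ≤ 1 - u := by
  have h1 : (s7del g n : ℝ) / 2 ≤ 1 - (s7ubar g n l : ℝ) := by
    exact_mod_cast s7n_d_lower hg n l hl hl0
  have h2 : (s7del g n : ℝ) = (scQ (-g) n : ℝ) := rfl
  rw [h2] at h1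
  linarith

end Claimed.Agent.R275
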