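import Claimed.Agent.R275.S7DerD
import Claimed.Agent.R275.S7DerN
import Claimed.Agent.R275.S7DerM

/-!
# Row 275, Section 7, leaf S7-A-DER (#3745): the bounds derived from the caps of Phase A

Statement `StS7ADer` in `R275/S7PhaseA.lean` (helper245).  Assembly: helper167, from `s7dc_com` (S7DerD.lean, common fields), `s7dn_op_of_F8`, `s7dn_gap`
(helper102, S7DerN.lean), `s7dn_numA` (helper201, S7DerM.lean).  The only hypothesis is `StS7RefAll`.
-/

set_option autoImplicit false
set_option linter.unusedVariables false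

namespace Claimed.Agent.R275

open Matrix Filter

/-- **S7-A-DER** -/
theorem s7_aDer (hRef : StS7RefAll) : StS7ADer := by
  intro d par hpar
  obtain ⟨hd, hg, hp, hcp0, hcp1⟩ := hpar
  have hd' : (3 : ℝ) ≤ (d : ℝ) := by exact_mod_cast hd
  unfold S7EvA
  filter_upwards [s7n_prim d hd par.cp hcp0 hcp1, s7dn_numA hg] with n hprim hnum φ π₀ π t hstop hinv
    hl j hj b
  obtain ⟨hlo, -, hhi⟩ := hprim j hj
  obtain ⟨num1, num3, hgap, hl2⟩ := hnum
  have cap := hinv.cap j hj b
  have hl2' : 2 ≤ π.l := (s7n_l2_pos par.g n).trans hl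
  have hll0 : π.l ≤ l0 n := by have := hinv.card; omega
  obtain ⟨om0, om1⟩ := s7n_om_pos par.g n π.l t hinv.card hl2'
  have om0' : (0 : ℝ) < (s7om par.g n π.l : ℝ) := by exact_mod_cast om0
  have om1' : (s7om par.g n π.l : ℝ) ≤ 1 := by exact_mod_cast om1
  have hT1 := s7dc_ThS_cast d
  have hT2 := s7dc_ThV0_cast d
  have hT3 := s7dc_ThV1_cast d
  have hS0 : (0 : ℝ) ≤ (s7ThS d : ℝ) + 1 := by linarith
  have hV0 : (0 : ℝ) ≤ (s7ThV1 d : ℝ) + 1 := by linarith
  have grow : ∀ i, s7sq (s7r π₀ π (s7t0 d n) (sgn b) ((prim d n j : ℚ) : ℝ) i)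
      ≤ ((s7ThV1 d : ℝ) + 1) * (s7om par.g n π.l : ℝ) := by
    intro i
    refine (cap.grow i).trans (mul_le_mul_of_nonneg_right ?_ om0'.le)
    split_ifs
    · exact le_refl _
    · linarith
  obtain ⟨com, H⟩ := s7dc_com hRef hd (hstop.ref j hj b) hinv.ext hlo hhi cap.crow grow cap.ent
    (s7n_cast_pos _ n).le (mul_nonneg hS0 om0'.le)
    (by nlinarith) (by nlinarith) num1 (hl2 π.l hl) num3
  exact
    { sig := com.sig
      refAt := com.refAt
      baseD := com.baseD
      baseDh := com.baseDh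
      opD := s7dn_op_of_F8 H.symD (mul_nonneg (Nat.cast_nonneg _) (s7n_cast_pos _ n).le) cap.nrm
      opDh := com.opDh
      rowG := H.rowD
      tailE := com.tailE
      tailC := com.tailC
      dDiff := com.dDiff
      oDiff := com.oDiff
      outer := com.outer
      big := com.big
      gapD := s7dn_gap hg n π.l hll0 (by omega) _ hgap cap.gap }

end Claimed.Agent.R275
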