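import Claimed.Agent.R275.S8Ana
import Claimed.Agent.R275.Params

/-!
# Row 275, Sec 8, package ASYM1: the numeric conditions `S8Num` for large `n`.   Statements: helper118.  Proofs: helper64.  No sorry.

Method: a small calculus of power bounds.  `S8UpF OK X α` : `0 ≤ X n p ≤ C n^α` and `S8LoF OK X α` : `c n^α ≤ X n p` (`c > 0`), uniformly in the
parameters `p = (C0, par, P)` with `OK n p`; closed under `*`, `+` (max of the exponents), `/`, `^k`, `√`.  Every field of `S8Num` is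
`s8as_finalF up lo (exponent of up < exponent of lo)`, the comparison of the exponents is done by `norm_num`.
Helper prefix `s8as`, `S8Up`, `S8Lo`.
-/

set_option autoImplicit false

namespace Claimed.Agent.R275

open Filter

/-- the basic tool: a negative power of `n` beats every constant -/
theorem s8_eventually_small (C γ c : ℝ) (hγ : 0 < γ) (hc : 0 < c) :
    ∀ᶠ n : ℕ in atTop, C * (n : ℝ) ^ (-γ) ≤ c := by
  have h1 : Tendsto (fun n : ℕ => (n : ℝ) ^ (-γ)) atTop (nhds 0) :=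
    (tendsto_rpow_neg_atTop hγ).comp tendsto_natCast_atTop_atTop
  have h2 : Tendsto (fun n : ℕ => C * (n : ℝ) ^ (-γ)) atTop (nhds (C * 0)) := h1.const_mul C
  rw [mul_zero] at h2
  exact h2.eventually_le_const hc

/-! ## a small calculus of power bounds -/

/-- `0 ≤ X ≤ C N^α` -/
structure S8Up (N X C α : ℝ) : Prop where
  hN : 1 ≤ N
  nn : 0 ≤ X
  le : X ≤ C * N ^ α

/-- `c N^α ≤ X`, `c > 0` -/
structure S8Lo (N X c α : ℝ) : Prop where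
  hN : 1 ≤ N
  pos : 0 < c
  le : c * N ^ α ≤ X

namespace S8Up

variable {N X Y C D c α β : ℝ}

theorem Npos (h : S8Up N X C α) : 0 < N := lt_of_lt_of_le one_pos h.hN

theorem Cnn (h : S8Up N X C α) : 0 ≤ C :=
  (mul_nonneg_iff_of_pos_right (Real.rpow_pos_of_pos h.Npos α)).1 (h.nn.trans h.le)

theorem const (hN : 1 ≤ N) (hc : 0 ≤ c) : S8Up N c c 0 := ⟨hN, hc, by simp⟩

theorem rpow (hN : 1 ≤ N) (α : ℝ) : S8Up N (N ^ α) 1 α :=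
  ⟨hN, (Real.rpow_pos_of_pos (lt_of_lt_of_le one_pos hN) α).le, by simp⟩

theorem self (hN : 1 ≤ N) : S8Up N N 1 1 := ⟨hN, le_trans zero_le_one hN, by simp⟩

theorem mul (h : S8Up N X C α) (h' : S8Up N Y D β) : S8Up N (X * Y) (C * D) (α + β) := by
  refine ⟨h.hN, mul_nonneg h.nn h'.nn, ?_⟩
  rw [Real.rpow_add h.Npos]
  calc X * Y ≤ (C * N ^ α) * (D * N ^ β) := mul_le_mul h.le h'.le h'.nn (h.nn.trans h.le)
    _ = C * D * (N ^ α * N ^ β) := by ring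

theorem mono (h : S8Up N X C α) (hαβ : α ≤ β) : S8Up N X C β :=
  ⟨h.hN, h.nn, h.le.trans (mul_le_mul_of_nonneg_left
    (Real.rpow_le_rpow_of_exponent_le h.hN hαβ) h.Cnn)⟩

theorem add (h : S8Up N X C α) (h' : S8Up N Y D β) : S8Up N (X + Y) (C + D) (max α β) := by
  refine ⟨h.hN, add_nonneg h.nn h'.nn, ?_⟩
  rw [add_mul]
  exact add_le_add (h.mono (le_max_left _ _)).le (h'.mono (le_max_right _ _)).le

theorem pow (h : S8Up N X C α) (k : ℕ) : S8Up N (X ^ k) (C ^ k) (α * k) := by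
  refine ⟨h.hN, pow_nonneg h.nn k, ?_⟩
  rw [Real.rpow_mul_natCast h.Npos.le, ← mul_pow]
  exact pow_le_pow_left₀ h.nn h.le k

theorem sqrt_rpow (hN : 0 < N) (α : ℝ) : Real.sqrt (N ^ α) = N ^ (α / 2) := by
  rw [Real.sqrt_eq_rpow, ← Real.rpow_mul hN.le]
  congr 1
  ring

theorem sqrt (h : S8Up N X C α) : S8Up N (Real.sqrt X) (Real.sqrt C) (α / 2) := by
  refine ⟨h.hN, Real.sqrt_nonneg _, ?_⟩
  rw [← sqrt_rpow h.Npos, ← Real.sqrt_mul h.Cnn]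
  exact Real.sqrt_le_sqrt h.le

theorem div (h : S8Up N X C α) (h' : S8Lo N Y c β) : S8Up N (X / Y) (C / c) (α - β) := by
  have hp : 0 < c * N ^ β := mul_pos h'.pos (Real.rpow_pos_of_pos h.Npos β)
  have hY : 0 < Y := lt_of_lt_of_le hp h'.le
  refine ⟨h.hN, div_nonneg h.nn hY.le, ?_⟩
  rw [Real.rpow_sub h.Npos]
  calc X / Y ≤ (C * N ^ α) / (c * N ^ β) := div_le_div₀ (h.nn.trans h.le) h.le hp h'.le
    _ = C / c * (N ^ α / N ^ β) := by rw [mul_div_mul_comm]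

theorem of_le (h : S8Up N Y C α) (h0 : 0 ≤ X) (hXY : X ≤ Y) : S8Up N X C α :=
  ⟨h.hN, h0, hXY.trans h.le⟩

end S8Up

namespace S8Lo

variable {N X Y C D c c' α β : ℝ}

theorem Npos (h : S8Lo N X c α) : 0 < N := lt_of_lt_of_le one_pos h.hN

theorem Xpos (h : S8Lo N X c α) : 0 < X :=
  lt_of_lt_of_le (mul_pos h.pos (Real.rpow_pos_of_pos h.Npos α)) h.le

theorem const (hN : 1 ≤ N) (hc : 0 < c) : S8Lo N c c 0 := ⟨hN, hc, by simp⟩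

theorem rpow (hN : 1 ≤ N) (α : ℝ) : S8Lo N (N ^ α) 1 α := ⟨hN, one_pos, by simp⟩

theorem self (hN : 1 ≤ N) : S8Lo N N 1 1 := ⟨hN, one_pos, by simp⟩

theorem mul (h : S8Lo N X c α) (h' : S8Lo N Y c' β) : S8Lo N (X * Y) (c * c') (α + β) := by
  refine ⟨h.hN, mul_pos h.pos h'.pos, ?_⟩
  rw [Real.rpow_add h.Npos]
  have p1 : 0 < N ^ α := Real.rpow_pos_of_pos h.Npos α
  have p2 : 0 < N ^ β := Real.rpow_pos_of_pos h.Npos β
  calc c * c' * (N ^ α * N ^ β) = (c * N ^ α) * (c' * N ^ β) := by ring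
    _ ≤ X * Y := mul_le_mul h.le h'.le (mul_pos h'.pos p2).le h.Xpos.le

theorem pow (h : S8Lo N X c α) (k : ℕ) : S8Lo N (X ^ k) (c ^ k) (α * k) := by
  refine ⟨h.hN, pow_pos h.pos k, ?_⟩
  rw [Real.rpow_mul_natCast h.Npos.le, ← mul_pow]
  exact pow_le_pow_left₀ (mul_pos h.pos (Real.rpow_pos_of_pos h.Npos α)).le h.le k

theorem sqrt (h : S8Lo N X c α) : S8Lo N (Real.sqrt X) (Real.sqrt c) (α / 2) := by
  refine ⟨h.hN, Real.sqrt_pos.2 h.pos, ?_⟩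
  rw [← S8Up.sqrt_rpow h.Npos, ← Real.sqrt_mul h.pos.le]
  exact Real.sqrt_le_sqrt h.le

theorem div (h : S8Lo N X c α) (h' : S8Up N Y D β) (hY : 0 < Y) : S8Lo N (X / Y) (c / D) (α - β) := by
  have p1 : 0 < N ^ α := Real.rpow_pos_of_pos h.Npos α
  have p2 : 0 < N ^ β := Real.rpow_pos_of_pos h.Npos β
  have hD : 0 < D := by
    have : 0 < D * N ^ β := lt_of_lt_of_le hY h'.le
    exact (pos_iff_pos_of_mul_pos this).2 p2
  refine ⟨h.hN, div_pos h.pos hD, ?_⟩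
  rw [Real.rpow_sub h.Npos]
  calc c / D * (N ^ α / N ^ β) = (c * N ^ α) / (D * N ^ β) := by rw [mul_div_mul_comm]
    _ ≤ X / Y := div_le_div₀ h.Xpos.le h.le hY h'.le

theorem of_le (h : S8Lo N X c α) (hXY : X ≤ Y) : S8Lo N Y c α := ⟨h.hN, h.pos, h.le.trans hXY⟩

end S8Lo

/-- comparison of two powers -/
theorem s8as_ev (C α c β : ℝ) (hc : 0 < c) (hαβ : α < β) :
    ∀ᶠ n : ℕ in atTop, C * (n : ℝ) ^ α ≤ c * (n : ℝ) ^ β := by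
  filter_upwards [s8_eventually_small C (β - α) c (by linarith) hc, eventually_ge_atTop 1] with n h hn
  have hN : (0 : ℝ) < n := by exact_mod_cast hn
  have e : (n : ℝ) ^ α = (n : ℝ) ^ (-(β - α)) * (n : ℝ) ^ β := by
    rw [← Real.rpow_add hN]; congr 1; ring
  rw [e, ← mul_assoc]
  exact mul_le_mul_of_nonneg_right h (Real.rpow_pos_of_pos hN β).le

/-- the final step of every field -/
theorem s8as_final {ι : Type*} {OK : ℕ → ι → Prop} {X Y : ℕ → ι → ℝ} {C α c β : ℝ}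
    (hX : ∀ n p, 1 ≤ n → OK n p → S8Up n (X n p) C α)
    (hY : ∀ n p, 1 ≤ n → OK n p → S8Lo n (Y n p) c β) (hαβ : α < β) :
    ∀ᶠ n : ℕ in atTop, ∀ p, OK n p → X n p ≤ Y n p := by
  by_cases hc : 0 < c
  · filter_upwards [s8as_ev C α c β hc hαβ, eventually_ge_atTop 1] with n h hn p ok
    exact ((hX n p hn ok).le.trans h).trans (hY n p hn ok).le
  · filter_upwards [eventually_ge_atTop 1] with n hn p ok
    exact absurd (hY n p hn ok).pos hc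

/-! ## the same calculus for families, constants hidden -/

/-- `0 ≤ X n p ≤ C n^α` uniformly -/
def S8UpF {ι : Type*} (OK : ℕ → ι → Prop) (X : ℕ → ι → ℝ) (α : ℝ) : Prop :=
  ∃ C, ∀ n p, 1 ≤ n → OK n p → S8Up n (X n p) C α

/-- `c n^α ≤ X n p` uniformly, `c > 0` -/
def S8LoF {ι : Type*} (OK : ℕ → ι → Prop) (X : ℕ → ι → ℝ) (α : ℝ) : Prop :=
  ∃ c, ∀ n p, 1 ≤ n → OK n p → S8Lo n (X n p) c α

namespace S8UpF

variable {ι : Type*} {OK : ℕ → ι → Prop} {X Y : ℕ → ι → ℝ} {α β : ℝ}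

theorem const (c : ℝ) (hc : 0 ≤ c) : S8UpF OK (fun _ _ => c) 0 :=
  ⟨c, fun _ _ hn _ => S8Up.const (Nat.one_le_cast.2 hn) hc⟩

theorem rpow (α : ℝ) : S8UpF OK (fun n _ => (n : ℝ) ^ α) α :=
  ⟨1, fun _ _ hn _ => S8Up.rpow (Nat.one_le_cast.2 hn) α⟩

theorem self : S8UpF OK (fun n _ => (n : ℝ)) 1 :=
  ⟨1, fun _ _ hn _ => S8Up.self (Nat.one_le_cast.2 hn)⟩

theorem mul (h : S8UpF OK X α) (h' : S8UpF OK Y β) : S8UpF OK (fun n p => X n p * Y n p) (α + β) := by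
  obtain ⟨C, h⟩ := h
  obtain ⟨D, h'⟩ := h'
  exact ⟨C * D, fun n p hn ok => (h n p hn ok).mul (h' n p hn ok)⟩

theorem add (h : S8UpF OK X α) (h' : S8UpF OK Y β) :
    S8UpF OK (fun n p => X n p + Y n p) (max α β) := by
  obtain ⟨C, h⟩ := h
  obtain ⟨D, h'⟩ := h'
  exact ⟨C + D, fun n p hn ok => (h n p hn ok).add (h' n p hn ok)⟩

theorem pow (h : S8UpF OK X α) (k : ℕ) : S8UpF OK (fun n p => X n p ^ k) (α * k) := by
  obtain ⟨C, h⟩ := h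
  exact ⟨C ^ k, fun n p hn ok => (h n p hn ok).pow k⟩

theorem sqrt (h : S8UpF OK X α) : S8UpF OK (fun n p => Real.sqrt (X n p)) (α / 2) := by
  obtain ⟨C, h⟩ := h
  exact ⟨Real.sqrt C, fun n p hn ok => (h n p hn ok).sqrt⟩

theorem div (h : S8UpF OK X α) (h' : S8LoF OK Y β) : S8UpF OK (fun n p => X n p / Y n p) (α - β) := by
  obtain ⟨C, h⟩ := h
  obtain ⟨D, h'⟩ := h'
  exact ⟨C / D, fun n p hn ok => (h n p hn ok).div (h' n p hn ok)⟩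

theorem mono (h : S8UpF OK X α) (hαβ : α ≤ β) : S8UpF OK X β := by
  obtain ⟨C, h⟩ := h
  exact ⟨C, fun n p hn ok => (h n p hn ok).mono hαβ⟩

end S8UpF

namespace S8LoF

variable {ι : Type*} {OK : ℕ → ι → Prop} {X Y : ℕ → ι → ℝ} {α β γ : ℝ}

theorem const (c : ℝ) (hc : 0 < c) : S8LoF OK (fun _ _ => c) 0 :=
  ⟨c, fun _ _ hn _ => S8Lo.const (Nat.one_le_cast.2 hn) hc⟩

theorem rpow (α : ℝ) : S8LoF OK (fun n _ => (n : ℝ) ^ α) α :=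
  ⟨1, fun _ _ hn _ => S8Lo.rpow (Nat.one_le_cast.2 hn) α⟩

theorem self : S8LoF OK (fun n _ => (n : ℝ)) 1 :=
  ⟨1, fun _ _ hn _ => S8Lo.self (Nat.one_le_cast.2 hn)⟩

theorem mul (h : S8LoF OK X α) (h' : S8LoF OK Y β) : S8LoF OK (fun n p => X n p * Y n p) (α + β) := by
  obtain ⟨C, h⟩ := h
  obtain ⟨D, h'⟩ := h'
  exact ⟨C * D, fun n p hn ok => (h n p hn ok).mul (h' n p hn ok)⟩

theorem pow (h : S8LoF OK X α) (k : ℕ) : S8LoF OK (fun n p => X n p ^ k) (α * k) := by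
  obtain ⟨C, h⟩ := h
  exact ⟨C ^ k, fun n p hn ok => (h n p hn ok).pow k⟩

theorem sqrt (h : S8LoF OK X α) : S8LoF OK (fun n p => Real.sqrt (X n p)) (α / 2) := by
  obtain ⟨C, h⟩ := h
  exact ⟨Real.sqrt C, fun n p hn ok => (h n p hn ok).sqrt⟩

/-- the third argument only provides the positivity of the denominator -/
theorem div (h : S8LoF OK X α) (h' : S8UpF OK Y β) (h'' : S8LoF OK Y γ) :
    S8LoF OK (fun n p => X n p / Y n p) (α - β) := by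
  obtain ⟨C, h⟩ := h
  obtain ⟨D, h'⟩ := h'
  obtain ⟨E, h''⟩ := h''
  exact ⟨C / D, fun n p hn ok => (h n p hn ok).div (h' n p hn ok) (h'' n p hn ok).Xpos⟩

theorem of_le (h : S8LoF OK X α) (hXY : ∀ n p, 1 ≤ n → OK n p → X n p ≤ Y n p) : S8LoF OK Y α := by
  obtain ⟨C, h⟩ := h
  exact ⟨C, fun n p hn ok => (h n p hn ok).of_le (hXY n p hn ok)⟩

end S8LoF

/-- the final step of every field -/
theorem s8as_finalF {ι : Type*} {OK : ℕ → ι → Prop} {X Y : ℕ → ι → ℝ} {α β : ℝ}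
    (hX : S8UpF OK X α) (hY : S8LoF OK Y β) (hαβ : α < β) :
    ∀ᶠ n : ℕ in atTop, ∀ p, OK n p → X n p ≤ Y n p := by
  obtain ⟨C, hX⟩ := hX
  obtain ⟨c, hY⟩ := hY
  exact s8as_final hX hY hαβ

/-- two-sided bounds for the parameters -/
structure S8ParOK (n d : ℕ) (par : S8Par ℝ) (C1 : ℝ) : Prop where
  hT1 : 2 * eR n ≤ par.wT d
  hT2 : par.wT d ≤ C1 * eR n
  hB1 : (n : ℝ) ^ (-(2 / 3 : ℝ) + 100 * (aa : ℝ)) / C1 ≤ par.wB d
  hB2 : par.wB d ≤ C1 * (n : ℝ) ^ (-(2 / 3 : ℝ) + 100 * (aa : ℝ))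
  hsA0 : s8s d ≤ par.sA
  hsA1 : par.sA ≤ s8s d + 1 / n
  hthr1 : 2 * (n : ℝ) ^ (-(24 / 1000 : ℝ)) ≤ par.thr
  hthr2 : par.thr ≤ (n : ℝ) ^ (-(20 / 1000 : ℝ))
  hkap1 : (n : ℝ) ^ (-(1 / 3 : ℝ) + 4 / 10 * (aa : ℝ)) / C1 ≤ par.kap
  hkap2 : par.kap ≤ C1 * (n : ℝ) ^ (-(1 / 3 : ℝ) + 4 / 10 * (aa : ℝ))
  hM1 : (n : ℝ) ^ ((1 / 3 : ℝ) + 10 * (aa : ℝ)) / C1 ≤ par.M
  hM2 : (par.M : ℝ) ≤ C1 * (n : ℝ) ^ ((1 / 3 : ℝ) + 10 * (aa : ℝ))
  hNP : n ^ 5 ≤ par.NP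

theorem s8as_aa : (aa : ℝ) = 1 / 10000 := by norm_num [aa]

/-! ## constants depending on `d` -/

section Consts

variable {d : ℕ}

theorem s8as_d (hd : 3 ≤ d) : (3 : ℝ) ≤ d := by exact_mod_cast hd

theorem s8as_sqrt_gt (hd : 3 ≤ d) : 1 < Real.sqrt ((d : ℝ) - 1) := by
  have := s8as_d hd
  rw [Real.lt_sqrt (by norm_num)]
  linarith

theorem s8as_s_pos (hd : 3 ≤ d) : 0 < s8s d := by
  have := s8as_sqrt_gt hd
  unfold s8s
  linarith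

theorem s8as_kmax_pos (hd : 3 ≤ d) : 0 < s8kmax d := by
  have h := s8as_sqrt_gt hd
  have h1 : 0 < Real.sqrt ((d : ℝ) - 1) - 1 := by linarith
  unfold s8kmax
  positivity

theorem s8as_d_sub_s (hd : 3 ≤ d) : 0 < (d : ℝ) - s8s d := by
  have h := s8as_sqrt_gt hd
  have hd' := s8as_d hd
  have h2 : Real.sqrt ((d : ℝ) - 1) ^ 2 = (d : ℝ) - 1 := Real.sq_sqrt (by linarith)
  unfold s8s
  nlinarith [sq_nonneg (Real.sqrt ((d : ℝ) - 1) - 1)]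

theorem s8as_cT_pos (hd : 3 ≤ d) : 0 < s8cT d := by
  have h1 := s8as_kmax_pos hd
  have h2 := s8as_s_pos hd
  have h3 := s8as_d_sub_s hd
  have hd' := s8as_d hd
  have h4 : 0 < (d : ℝ) - 2 := by linarith
  have h5 : 0 < (d : ℝ) := by linarith
  unfold s8cT
  positivity

theorem s8as_CT_nn (hd : 3 ≤ d) : 0 ≤ s8CT d := by
  have h1 := s8as_kmax_pos hd
  have h2 := s8as_s_pos hd
  have hd' := s8as_d hd
  have h4 : 0 < (d : ℝ) - 2 := by linarith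
  unfold s8CT
  positivity

theorem s8as_Csm_nn (hd : 3 ≤ d) : 0 ≤ s8Csm d := by
  have h := s8as_sqrt_gt hd
  have h1 : 0 < Real.sqrt ((d : ℝ) - 1) - 1 := by linarith
  unfold s8Csm
  positivity

theorem s8as_Cdet_nn (hd : 3 ≤ d) : 0 ≤ s8Cdet d := by
  have h := s8as_sqrt_gt hd
  have h1 : 0 < Real.sqrt ((d : ℝ) - 1) - 1 := by linarith
  unfold s8Cdet
  positivity

end Consts

/-! ## base facts -/

namespace S8ParOK

variable {n d : ℕ} {par : S8Par ℝ} {C1 : ℝ}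

theorem up_wT (ok : S8ParOK n d par C1) (hn : 1 ≤ n) :
    S8Up n (par.wT d) C1 (-(2 / 3 : ℝ) + (aa : ℝ)) :=
  ⟨Nat.one_le_cast.2 hn, le_trans (by unfold eR; positivity) ok.hT1, ok.hT2⟩

theorem lo_wT (ok : S8ParOK n d par C1) (hn : 1 ≤ n) :
    S8Lo n (par.wT d) 2 (-(2 / 3 : ℝ) + (aa : ℝ)) :=
  ⟨Nat.one_le_cast.2 hn, two_pos, ok.hT1⟩

theorem up_wB (ok : S8ParOK n d par C1) (hn : 1 ≤ n) (hC1 : 1 ≤ C1) :
    S8Up n (par.wB d) C1 (-(2 / 3 : ℝ) + 100 * (aa : ℝ)) :=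
  ⟨Nat.one_le_cast.2 hn, le_trans (by positivity) ok.hB1, ok.hB2⟩

theorem lo_wB (ok : S8ParOK n d par C1) (hn : 1 ≤ n) (hC1 : 1 ≤ C1) :
    S8Lo n (par.wB d) (1 / C1) (-(2 / 3 : ℝ) + 100 * (aa : ℝ)) :=
  ⟨Nat.one_le_cast.2 hn, by positivity, by rw [div_mul_eq_mul_div, one_mul]; exact ok.hB1⟩

theorem up_kap (ok : S8ParOK n d par C1) (hn : 1 ≤ n) (hC1 : 1 ≤ C1) :
    S8Up n par.kap C1 (-(1 / 3 : ℝ) + 4 / 10 * (aa : ℝ)) :=
  ⟨Nat.one_le_cast.2 hn, le_trans (by positivity) ok.hkap1, ok.hkap2⟩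

theorem lo_kap (ok : S8ParOK n d par C1) (hn : 1 ≤ n) (hC1 : 1 ≤ C1) :
    S8Lo n par.kap (1 / C1) (-(1 / 3 : ℝ) + 4 / 10 * (aa : ℝ)) :=
  ⟨Nat.one_le_cast.2 hn, by positivity, by rw [div_mul_eq_mul_div, one_mul]; exact ok.hkap1⟩

theorem up_M (ok : S8ParOK n d par C1) (hn : 1 ≤ n) :
    S8Up n (par.M : ℝ) C1 ((1 / 3 : ℝ) + 10 * (aa : ℝ)) :=
  ⟨Nat.one_le_cast.2 hn, by positivity, ok.hM2⟩

theorem lo_M (ok : S8ParOK n d par C1) (hn : 1 ≤ n) (hC1 : 1 ≤ C1) :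
    S8Lo n (par.M : ℝ) (1 / C1) ((1 / 3 : ℝ) + 10 * (aa : ℝ)) :=
  ⟨Nat.one_le_cast.2 hn, by positivity, by rw [div_mul_eq_mul_div, one_mul]; exact ok.hM1⟩

theorem up_thr (ok : S8ParOK n d par C1) (hn : 1 ≤ n) :
    S8Up n par.thr 1 (-(20 / 1000 : ℝ)) :=
  ⟨Nat.one_le_cast.2 hn, le_trans (by positivity) ok.hthr1, by rw [one_mul]; exact ok.hthr2⟩

theorem up_sA (ok : S8ParOK n d par C1) (hn : 1 ≤ n) (hd : 3 ≤ d) :
    S8Up n par.sA (s8s d + 1) 0 := by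
  have hN : (1 : ℝ) ≤ n := Nat.one_le_cast.2 hn
  refine ⟨hN, le_trans (s8as_s_pos hd).le ok.hsA0, ?_⟩
  have h1 : 1 / (n : ℝ) ≤ 1 := by rw [div_le_one (by linarith)]; exact hN
  have := ok.hsA1
  simp only [Real.rpow_zero, mul_one]
  linarith

end S8ParOK

/-- the hypotheses on `(C0, par, P)` -/
structure S8asOK (d : ℕ) (C1 : ℝ) (n : ℕ) (p : ℝ × S8Par ℝ × ℕ) : Prop where
  c1 : 1 ≤ p.1
  c2 : p.1 ≤ (n : ℝ) ^ ((aa : ℝ) / 20)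
  ok : S8ParOK n d p.2.1 C1
  hP : p.2.1.NP ≤ p.2.2

theorem S8asOK.lo_P {d : ℕ} {C1 : ℝ} {n : ℕ} {p : ℝ × S8Par ℝ × ℕ} (ok : S8asOK d C1 n p)
    (hn : 1 ≤ n) : S8Lo n (p.2.2 : ℝ) 1 5 := by
  refine ⟨Nat.one_le_cast.2 hn, one_pos, ?_⟩
  have h : n ^ 5 ≤ p.2.2 := ok.ok.hNP.trans ok.hP
  have h' : ((n : ℝ)) ^ (5 : ℕ) ≤ (p.2.2 : ℝ) := by exact_mod_cast h
  rw [one_mul]
  calc (n : ℝ) ^ (5 : ℝ) = (n : ℝ) ^ (5 : ℕ) := by
        rw [← Real.rpow_natCast]; norm_num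
    _ ≤ _ := h'


/-! ## derived quantities -/

section Fields

variable {d : ℕ} {C1 : ℝ}

theorem s8as_up_C0 : S8UpF (S8asOK d C1) (fun _ p => p.1) ((aa : ℝ) / 20) :=
  ⟨1, fun _ _ hn ok => ⟨Nat.one_le_cast.2 hn, le_trans zero_le_one ok.c1, by rw [one_mul]; exact ok.c2⟩⟩

theorem s8as_up_wT : S8UpF (S8asOK d C1) (fun _ p => p.2.1.wT d) (-(2 / 3 : ℝ) + (aa : ℝ)) :=
  ⟨_, fun _ _ hn ok => ok.ok.up_wT hn⟩

theorem s8as_lo_wT : S8LoF (S8asOK d C1) (fun _ p => p.2.1.wT d) (-(2 / 3 : ℝ) + (aa : ℝ)) :=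
  ⟨_, fun _ _ hn ok => ok.ok.lo_wT hn⟩

theorem s8as_up_wB (hC1 : 1 ≤ C1) :
    S8UpF (S8asOK d C1) (fun _ p => p.2.1.wB d) (-(2 / 3 : ℝ) + 100 * (aa : ℝ)) :=
  ⟨_, fun _ _ hn ok => ok.ok.up_wB hn hC1⟩

theorem s8as_lo_wB (hC1 : 1 ≤ C1) :
    S8LoF (S8asOK d C1) (fun _ p => p.2.1.wB d) (-(2 / 3 : ℝ) + 100 * (aa : ℝ)) :=
  ⟨_, fun _ _ hn ok => ok.ok.lo_wB hn hC1⟩

theorem s8as_up_kap (hC1 : 1 ≤ C1) :
    S8UpF (S8asOK d C1) (fun _ p => p.2.1.kap) (-(1 / 3 : ℝ) + 4 / 10 * (aa : ℝ)) :=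
  ⟨_, fun _ _ hn ok => ok.ok.up_kap hn hC1⟩

theorem s8as_lo_kap (hC1 : 1 ≤ C1) :
    S8LoF (S8asOK d C1) (fun _ p => p.2.1.kap) (-(1 / 3 : ℝ) + 4 / 10 * (aa : ℝ)) :=
  ⟨_, fun _ _ hn ok => ok.ok.lo_kap hn hC1⟩

theorem s8as_up_M :
    S8UpF (S8asOK d C1) (fun _ p => (p.2.1.M : ℝ)) ((1 / 3 : ℝ) + 10 * (aa : ℝ)) :=
  ⟨_, fun _ _ hn ok => ok.ok.up_M hn⟩

theorem s8as_lo_M (hC1 : 1 ≤ C1) :
    S8LoF (S8asOK d C1) (fun _ p => (p.2.1.M : ℝ)) ((1 / 3 : ℝ) + 10 * (aa : ℝ)) :=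
  ⟨_, fun _ _ hn ok => ok.ok.lo_M hn hC1⟩

theorem s8as_up_thr : S8UpF (S8asOK d C1) (fun _ p => p.2.1.thr) (-(20 / 1000 : ℝ)) :=
  ⟨_, fun _ _ hn ok => ok.ok.up_thr hn⟩

theorem s8as_up_sA (hd : 3 ≤ d) : S8UpF (S8asOK d C1) (fun _ p => p.2.1.sA) 0 :=
  ⟨_, fun _ _ hn ok => ok.ok.up_sA hn hd⟩

theorem s8as_lo_P : S8LoF (S8asOK d C1) (fun _ p => (p.2.2 : ℝ)) 5 :=
  ⟨_, fun _ _ hn ok => ok.lo_P hn⟩

theorem s8as_up_mN (hC1 : 1 ≤ C1) :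
    S8UpF (S8asOK d C1) (fun _ p => p.2.1.mN d p.1) (-1 + 151 * (aa : ℝ)) :=
  ((((S8UpF.const 4 (by norm_num)).mul s8as_up_C0).mul (s8as_up_wB hC1)).mul
    (s8as_up_wB hC1).sqrt).mono (by simp only [s8as_aa]; norm_num)

theorem s8as_up_hsup (hd : 3 ≤ d) (hC1 : 1 ≤ C1) :
    S8UpF (S8asOK d C1) (fun _ p => p.2.1.hsup d p.1) (-1 + 151 * (aa : ℝ)) :=
  (((S8UpF.const 8 (by norm_num)).mul (S8UpF.const (s8kmax d) (s8as_kmax_pos hd).le)).mul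
    (s8as_up_mN hC1)).mono (by simp only [s8as_aa]; norm_num)

theorem s8as_up_tolB (hC1 : 1 ≤ C1) :
    S8UpF (S8asOK d C1) (fun n p => p.2.1.tolB d p.1 (1 / n)) (-(20 / 1000 : ℝ)) :=
  (((s8as_up_thr).add ((S8UpF.const 1 (by norm_num)).div S8LoF.self)).add
    (((S8UpF.const 3 (by norm_num)).mul s8as_up_C0).mul
      (s8as_up_wB hC1).sqrt)).mono (by simp only [s8as_aa]; norm_num)

theorem s8as_up_dlt (hC1 : 1 ≤ C1) :
    S8UpF (S8asOK d C1) (fun n p => p.2.1.dlt d p.1 (1 / n) ((n : ℝ) ^ (-(12 * (aa : ℝ)))))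
      (-(12 * (aa : ℝ))) :=
  (((S8UpF.const 8 (by norm_num)).mul (s8as_up_tolB hC1)).add
    ((S8UpF.const 4 (by norm_num)).mul (S8UpF.rpow _))).mono (by simp only [s8as_aa]; norm_num)

theorem s8as_tolB_nn {n : ℕ} {p : ℝ × S8Par ℝ × ℕ} (hn : 1 ≤ n) (ok : S8asOK d C1 n p) :
    0 ≤ p.2.1.tolB d p.1 (1 / n) := by
  have h1 := (ok.ok.up_thr hn).nn
  have h0 : 0 ≤ p.1 := le_trans zero_le_one ok.c1
  have h2 : 0 ≤ 3 * p.1 * Real.sqrt (p.2.1.wB d) := by positivity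
  have h3 : (0 : ℝ) ≤ 1 / n := by positivity
  unfold S8Par.tolB
  linarith

theorem s8as_lo_dlt :
    S8LoF (S8asOK d C1) (fun n p => p.2.1.dlt d p.1 (1 / n) ((n : ℝ) ^ (-(12 * (aa : ℝ)))))
      (0 + -(12 * (aa : ℝ))) :=
  ((S8LoF.const 4 (by norm_num)).mul (S8LoF.rpow _)).of_le (fun n p hn ok => by
    have := s8as_tolB_nn hn ok
    unfold S8Par.dlt
    linarith)

/-! ## the fields -/

theorem s8as_he1 : ∀ᶠ n : ℕ in atTop, ∀ p : ℝ × S8Par ℝ × ℕ, S8asOK d C1 n p → eR n ≤ 1 :=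
  s8as_finalF (S8UpF.rpow _) (S8LoF.const 1 (by norm_num)) (by simp only [s8as_aa]; norm_num)

theorem s8as_hTB (hC1 : 1 ≤ C1) :
    ∀ᶠ n : ℕ in atTop, ∀ p : ℝ × S8Par ℝ × ℕ, S8asOK d C1 n p → p.2.1.wT d ≤ p.2.1.wB d :=
  s8as_finalF s8as_up_wT (s8as_lo_wB hC1) (by simp only [s8as_aa]; norm_num)

theorem s8as_hB1 (hC1 : 1 ≤ C1) :
    ∀ᶠ n : ℕ in atTop, ∀ p : ℝ × S8Par ℝ × ℕ, S8asOK d C1 n p → p.2.1.wB d ≤ 1 :=
  s8as_finalF (s8as_up_wB hC1) (S8LoF.const 1 (by norm_num)) (by simp only [s8as_aa]; norm_num)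

theorem s8as_hnB (hC1 : 1 ≤ C1) :
    ∀ᶠ n : ℕ in atTop, ∀ p : ℝ × S8Par ℝ × ℕ, S8asOK d C1 n p →
      1 / (n : ℝ) ≤ Real.sqrt (p.2.1.wB d) :=
  s8as_finalF ((S8UpF.const 1 (by norm_num)).div S8LoF.self) (s8as_lo_wB hC1).sqrt
    (by simp only [s8as_aa]; norm_num)

theorem s8as_hapx :
    ∀ᶠ n : ℕ in atTop, ∀ p : ℝ × S8Par ℝ × ℕ, S8asOK d C1 n p → 1 / (n : ℝ) ≤ 1 / 10 :=
  s8as_finalF ((S8UpF.const 1 (by norm_num)).div S8LoF.self) (S8LoF.const (1 / 10) (by norm_num))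
    (by norm_num)

theorem s8as_hbr (hd : 3 ≤ d) (hC1 : 1 ≤ C1) :
    ∀ᶠ n : ℕ in atTop, ∀ p : ℝ × S8Par ℝ × ℕ, S8asOK d C1 n p →
      4 * p.2.1.kap * (p.2.1.sA + d) * p.1 / (((d : ℝ) - 2) * Real.sqrt (p.2.1.wT d)) ≤ 1 / 2 :=
  s8as_finalF
    (((((S8UpF.const 4 (by norm_num)).mul (s8as_up_kap hC1)).mul
      ((s8as_up_sA hd).add (S8UpF.const d (by positivity)))).mul s8as_up_C0).div
      ((S8LoF.const ((d : ℝ) - 2) (by have := s8as_d hd; linarith)).mul s8as_lo_wT.sqrt))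
    (S8LoF.const (1 / 2) (by norm_num))
    (by simp only [s8as_aa]; norm_num)

theorem s8as_hM (hd : 3 ≤ d) :
    ∀ᶠ n : ℕ in atTop, ∀ p : ℝ × S8Par ℝ × ℕ, S8asOK d C1 n p →
      2 * (p.2.1.M : ℝ) / (((d : ℝ) - 2) * n) ≤ 1 / 2 :=
  s8as_finalF
    (((S8UpF.const 2 (by norm_num)).mul s8as_up_M).div
      ((S8LoF.const ((d : ℝ) - 2) (by have := s8as_d hd; linarith)).mul S8LoF.self))
    (S8LoF.const (1 / 2) (by norm_num))
    (by simp only [s8as_aa]; norm_num)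

theorem s8as_hbias (hd : 3 ≤ d) (hC1 : 1 ≤ C1) :
    ∀ᶠ n : ℕ in atTop, ∀ p : ℝ × S8Par ℝ × ℕ, S8asOK d C1 n p →
      2 * eR n ≤ p.2.1.M * p.2.1.kap / (n : ℝ) ^ 2 * s8cT d / (4 * p.2.1.wT d ^ 2) :=
  s8as_finalF
    ((S8UpF.const 2 (by norm_num)).mul (S8UpF.rpow _))
    (((((s8as_lo_M hC1).mul (s8as_lo_kap hC1)).div (S8UpF.self.pow 2) (S8LoF.self.pow 2)).mul
      (S8LoF.const (s8cT d) (s8as_cT_pos hd))).div
      ((S8UpF.const 4 (by norm_num)).mul (s8as_up_wT.pow 2))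
      ((S8LoF.const 4 (by norm_num)).mul (s8as_lo_wT.pow 2)))
    (by simp only [s8as_aa]; norm_num)

theorem s8as_hopp (hd : 3 ≤ d) (hC1 : 1 ≤ C1) :
    ∀ᶠ n : ℕ in atTop, ∀ p : ℝ × S8Par ℝ × ℕ, S8asOK d C1 n p →
      p.2.1.M * p.2.1.kap / (n : ℝ) ^ 2 * s8CT d ≤ eR n / 10 :=
  s8as_finalF
    (((s8as_up_M.mul (s8as_up_kap hC1)).div (S8LoF.self.pow 2)).mul
      (S8UpF.const (s8CT d) (s8as_CT_nn hd)))
    ((S8LoF.rpow _).div (S8UpF.const 10 (by norm_num)) (S8LoF.const 10 (by norm_num)))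
    (by simp only [s8as_aa]; norm_num)

theorem s8as_herr (hd : 3 ≤ d) (hC1 : 1 ≤ C1) :
    ∀ᶠ n : ℕ in atTop, ∀ p : ℝ × S8Par ℝ × ℕ, S8asOK d C1 n p →
      p.2.1.M * (3 / 2 * (p.1 * (n : ℝ) ^ (-(1 / 10 : ℝ))) + 2 * ((n : ℝ) * d) ^ 2 / p.2.2) * p.2.1.hsup d p.1
        ≤ eR n / 10 :=
  s8as_finalF
    ((s8as_up_M.mul (((S8UpF.const (3 / 2) (by norm_num)).mul
      (s8as_up_C0.mul (S8UpF.rpow _))).add
      (((S8UpF.const 2 (by norm_num)).mul ((S8UpF.self.mul (S8UpF.const d (by positivity))).pow 2)).div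
        s8as_lo_P))).mul (s8as_up_hsup hd hC1))
    ((S8LoF.rpow _).div (S8UpF.const 10 (by norm_num)) (S8LoF.const 10 (by norm_num)))
    (by simp only [s8as_aa]; norm_num)

theorem s8as_hE1 (hd : 3 ≤ d) (hC1 : 1 ≤ C1) :
    ∀ᶠ n : ℕ in atTop, ∀ p : ℝ × S8Par ℝ × ℕ, S8asOK d C1 n p →
      100 * p.2.1.M * p.2.1.hsup d p.1 ^ 2 / eR n ^ 2 ≤ 1 / 10 :=
  s8as_finalF
    ((((S8UpF.const 100 (by norm_num)).mul s8as_up_M).mul ((s8as_up_hsup hd hC1).pow 2)).div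
      ((S8LoF.rpow _).pow 2))
    (S8LoF.const (1 / 10) (by norm_num))
    (by simp only [s8as_aa]; norm_num)

theorem s8as_hE2 (hC1 : 1 ≤ C1) :
    ∀ᶠ n : ℕ in atTop, ∀ p : ℝ × S8Par ℝ × ℕ, S8asOK d C1 n p →
      256 * p.2.1.mN d p.1 ^ 2 * (n : ℝ) ^ 2 / p.2.1.M ≤ 1 / 10 :=
  s8as_finalF
    ((((S8UpF.const 256 (by norm_num)).mul ((s8as_up_mN hC1).pow 2)).mul (S8UpF.self.pow 2)).div
      (s8as_lo_M hC1))
    (S8LoF.const (1 / 10) (by norm_num))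
    (by simp only [s8as_aa]; norm_num)

theorem s8as_hE3 (hC1 : 1 ≤ C1) :
    ∀ᶠ n : ℕ in atTop, ∀ p : ℝ × S8Par ℝ × ℕ, S8asOK d C1 n p →
      80 * (p.2.1.M : ℝ) ^ 2 * p.1 /
        (n * Real.sqrt (p.2.1.wB d) * ((n : ℝ) ^ (-(12 * (aa : ℝ)))) ^ 2) ≤ 1 / 10 :=
  s8as_finalF
    ((((S8UpF.const 80 (by norm_num)).mul (s8as_up_M.pow 2)).mul s8as_up_C0).div
      ((S8LoF.self.mul (s8as_lo_wB hC1).sqrt).mul ((S8LoF.rpow _).pow 2)))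
    (S8LoF.const (1 / 10) (by norm_num))
    (by simp only [s8as_aa]; norm_num)

theorem s8as_hE4 :
    ∀ᶠ n : ℕ in atTop, ∀ p : ℝ × S8Par ℝ × ℕ, S8asOK d C1 n p →
      ((4 + 2 * (d : ℝ)) * p.2.1.M + 16 * (p.2.1.M : ℝ) ^ 2) / n ≤ 1 / 10 :=
  s8as_finalF
    ((((S8UpF.const (4 + 2 * (d : ℝ)) (by positivity)).mul s8as_up_M).add
      ((S8UpF.const 16 (by norm_num)).mul (s8as_up_M.pow 2))).div S8LoF.self)
    (S8LoF.const (1 / 10) (by norm_num))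
    (by simp only [s8as_aa]; norm_num)

theorem s8as_hdlt1 (hC1 : 1 ≤ C1) :
    ∀ᶠ n : ℕ in atTop, ∀ p : ℝ × S8Par ℝ × ℕ, S8asOK d C1 n p →
      p.2.1.dlt d p.1 (1 / n) ((n : ℝ) ^ (-(12 * (aa : ℝ)))) ≤ 1 :=
  s8as_finalF (s8as_up_dlt hC1) (S8LoF.const 1 (by norm_num))
    (by simp only [s8as_aa]; norm_num)

theorem s8as_hsm (hd : 3 ≤ d) (hC1 : 1 ≤ C1) :
    ∀ᶠ n : ℕ in atTop, ∀ p : ℝ × S8Par ℝ × ℕ, S8asOK d C1 n p →
      2 * p.2.1.dlt d p.1 (1 / n) ((n : ℝ) ^ (-(12 * (aa : ℝ)))) * s8Csm d ≤ 1 :=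
  s8as_finalF
    (((S8UpF.const 2 (by norm_num)).mul (s8as_up_dlt hC1)).mul
      (S8UpF.const (s8Csm d) (s8as_Csm_nn hd)))
    (S8LoF.const 1 (by norm_num))
    (by simp only [s8as_aa]; norm_num)

theorem s8as_hloss (hd : 3 ≤ d) (hC1 : 1 ≤ C1) :
    ∀ᶠ n : ℕ in atTop, ∀ p : ℝ × S8Par ℝ × ℕ, S8asOK d C1 n p →
      s8Cdet d * (2 * p.2.1.dlt d p.1 (1 / n) ((n : ℝ) ^ (-(12 * (aa : ℝ))))) * (17 * p.2.1.M / n)
        ≤ eR n / 10 :=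
  s8as_finalF
    (((S8UpF.const (s8Cdet d) (s8as_Cdet_nn hd)).mul
      ((S8UpF.const 2 (by norm_num)).mul (s8as_up_dlt hC1))).mul
      (((S8UpF.const 17 (by norm_num)).mul s8as_up_M).div S8LoF.self))
    ((S8LoF.rpow _).div (S8UpF.const 10 (by norm_num)) (S8LoF.const 10 (by norm_num)))
    (by simp only [s8as_aa]; norm_num)

theorem s8as_hbulk (hC1 : 1 ≤ C1) :
    ∀ᶠ n : ℕ in atTop, ∀ p : ℝ × S8Par ℝ × ℕ, S8asOK d C1 n p →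
      eR n / 2 ≤ p.2.1.dlt d p.1 (1 / n) ((n : ℝ) ^ (-(12 * (aa : ℝ)))) * p.2.1.wB d :=
  s8as_finalF
    ((S8UpF.rpow _).div (S8LoF.const 2 (by norm_num)))
    (s8as_lo_dlt.mul (s8as_lo_wB hC1))
    (by simp only [s8as_aa]; norm_num)

theorem s8as_hMP :
    ∀ᶠ n : ℕ in atTop, ∀ p : ℝ × S8Par ℝ × ℕ, S8asOK d C1 n p → (p.2.1.M : ℝ) ≤ (p.2.2 : ℝ) / 2 :=
  s8as_finalF s8as_up_M
    (s8as_lo_P.div (S8UpF.const 2 (by norm_num)) (S8LoF.const 2 (by norm_num)))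
    (by simp only [s8as_aa]; norm_num)

/-- for `htest` -/
theorem s8as_hlog (hd : 3 ≤ d) :
    ∀ᶠ n : ℕ in atTop, ∀ p : ℝ × S8Par ℝ × ℕ, S8asOK d C1 n p →
      4 * (n : ℝ) ^ (1 / 3 : ℝ) ≤ (n : ℝ) * eR n / s8s d :=
  s8as_finalF
    ((S8UpF.const 4 (by norm_num)).mul (S8UpF.rpow _))
    ((S8LoF.self.mul (S8LoF.rpow _)).div (S8UpF.const (s8s d) (s8as_s_pos hd).le)
      (S8LoF.const (s8s d) (s8as_s_pos hd)))
    (by simp only [s8as_aa]; norm_num)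

theorem s8as_htest {n : ℕ} (hd : 3 ≤ d) (hn : 1 ≤ n) (he1 : eR n ≤ 1)
    (hlog : 4 * (n : ℝ) ^ (1 / 3 : ℝ) ≤ (n : ℝ) * eR n / s8s d) :
    (n : ℝ) * (s8s d - eR n / 2) ^ (2 * n) < s8s d ^ (2 * n) := by
  have hN : (1 : ℝ) ≤ n := Nat.one_le_cast.2 hn
  have hN0 : (0 : ℝ) < n := by linarith
  have hs : 2 < s8s d := by have := s8as_sqrt_gt hd; unfold s8s; linarith
  have he0 : 0 < eR n := by unfold eR; positivity
  generalize s8s d = s at *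
  generalize eR n = e at *
  have hs0 : 0 < s := by linarith
  have hx : s - e / 2 = s * (1 - e / (2 * s)) := by field_simp
  have hx0 : 0 ≤ 1 - e / (2 * s) := by
    have : e / (2 * s) ≤ 1 := by rw [div_le_one (by linarith)]; linarith
    linarith
  have h1 : (1 - e / (2 * s)) ^ (2 * n) ≤ Real.exp (-(n * e / s)) := by
    calc (1 - e / (2 * s)) ^ (2 * n) ≤ (Real.exp (-(e / (2 * s)))) ^ (2 * n) :=
          pow_le_pow_left₀ hx0 (Real.one_sub_le_exp_neg _) _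
      _ = Real.exp (-(n * e / s)) := by
          rw [← Real.exp_nat_mul]; congr 1; push_cast; field_simp
  have hlogN : Real.log n < n * e / s := by
    have h3 := Real.log_le_rpow_div hN0.le (by norm_num : (0 : ℝ) < 1 / 3)
    have hp : 0 < (n : ℝ) ^ (1 / 3 : ℝ) := by positivity
    have h4 : (n : ℝ) ^ (1 / 3 : ℝ) / (1 / 3) = 3 * (n : ℝ) ^ (1 / 3 : ℝ) := by ring
    rw [h4] at h3
    linarith
  have h2 : (n : ℝ) * Real.exp (-(n * e / s)) < 1 := by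
    calc (n : ℝ) * Real.exp (-(n * e / s)) = Real.exp (Real.log n) * Real.exp (-(n * e / s)) := by
          rw [Real.exp_log hN0]
      _ = Real.exp (Real.log n + -(n * e / s)) := by rw [← Real.exp_add]
      _ < Real.exp 0 := Real.exp_lt_exp.2 (by linarith)
      _ = 1 := Real.exp_zero
  have hp : 0 < s ^ (2 * n) := pow_pos hs0 _
  calc (n : ℝ) * (s - e / 2) ^ (2 * n) = s ^ (2 * n) * (n * (1 - e / (2 * s)) ^ (2 * n)) := by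
        rw [hx, mul_pow]; ring
    _ ≤ s ^ (2 * n) * (n * Real.exp (-(n * e / s))) := by gcongr
    _ < s ^ (2 * n) * 1 := mul_lt_mul_of_pos_left h2 hp
    _ = s ^ (2 * n) := mul_one _

theorem s8as_hacc {n : ℕ} {par : S8Par ℝ} (hn : 1 ≤ n) (ok : S8ParOK n d par C1) :
    (n : ℝ) ^ (-(24 / 1000 : ℝ)) + 1 / n ≤ par.thr := by
  have hN : (1 : ℝ) ≤ n := Nat.one_le_cast.2 hn
  have h1 : 1 / (n : ℝ) ≤ (n : ℝ) ^ (-(24 / 1000 : ℝ)) := by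
    rw [one_div, ← Real.rpow_neg_one]
    exact Real.rpow_le_rpow_of_exponent_le hN (by norm_num)
  have := ok.hthr1
  linarith

end Fields

/-- **ASYM**.  The constant `C0` may grow slowly with `n`: `1 ≤ C0 ≤ n^(a/20)` (request of Sec 8.1).  The margins survive:
hbr `n^(-.1a+.05a)`, hE3 `n^(-6a+.05a)`, herr, hE1, hE2, tolB have a lot of room. -/
theorem s8_asym (d : ℕ) (hd : 3 ≤ d) (C1 : ℝ) (hC1 : 1 ≤ C1) :
    ∀ᶠ n : ℕ in atTop, ∀ C0 : ℝ, 1 ≤ C0 → C0 ≤ (n : ℝ) ^ ((aa : ℝ) / 20) →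
      ∀ par : S8Par ℝ, S8ParOK n d par C1 → ∀ P : ℕ, P.Prime → par.NP ≤ P →
      S8Num n d par (eR n) C0 (1 / n) (C0 * (n : ℝ) ^ (-(1 / 10 : ℝ))) ((n : ℝ) ^ (-(24 / 1000 : ℝ)))
        ((n : ℝ) ^ (-(12 * (aa : ℝ)))) P := by
  filter_upwards [eventually_ge_atTop 1, s8as_he1 (d := d) (C1 := C1), s8as_hTB (d := d) hC1,
    s8as_hB1 (d := d) hC1, s8as_hnB (d := d) hC1, s8as_hapx (d := d) (C1 := C1),
    s8as_hbr hd hC1, s8as_hM (C1 := C1) hd, s8as_hbias hd hC1, s8as_hopp hd hC1,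
    s8as_herr hd hC1, s8as_hE1 hd hC1, s8as_hE2 (d := d) hC1, s8as_hE3 (d := d) hC1,
    s8as_hE4 (d := d) (C1 := C1), s8as_hdlt1 (d := d) hC1, s8as_hsm hd hC1,
    s8as_hloss hd hC1, s8as_hbulk (d := d) hC1, s8as_hMP (d := d) (C1 := C1),
    s8as_hlog (C1 := C1) hd]
    with n hn he1 hTB hB1 hnB hapx hbr hM hbias hopp herr hE1 hE2 hE3 hE4 hdlt1 hsm hloss hbulk hMP
      hlog C0 hC0 hC0' par ok P hP hNP
  have OK : S8asOK d C1 n (C0, par, P) := ⟨hC0, hC0', ok, hNP⟩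
  have hN : (1 : ℝ) ≤ n := Nat.one_le_cast.2 hn
  have hN0 : (0 : ℝ) < n := by linarith
  exact
    { basic :=
        { hd := hd
          hn := hn
          he := by unfold eR; positivity
          he1 := he1 (C0, par, P) OK
          hC0 := hC0
          hT := ok.hT1
          hTB := hTB (C0, par, P) OK
          hB1 := hB1 (C0, par, P) OK
          hnB := hnB (C0, par, P) OK
          hsA0 := ok.hsA0
          hsA1 := ok.hsA1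
          hapx := hapx (C0, par, P) OK
          hkap := (ok.up_kap hn hC1).nn
          hthr := (ok.up_thr hn).nn }
      hεa := by positivity
      hδ1 := by positivity
      hacc := s8as_hacc hn ok
      hbr := hbr (C0, par, P) OK
      hM := hM (C0, par, P) OK
      hbias := hbias (C0, par, P) OK
      hopp := hopp (C0, par, P) OK
      herr := herr (C0, par, P) OK
      hE1 := hE1 (C0, par, P) OK
      hE2 := hE2 (C0, par, P) OK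
      hE3 := hE3 (C0, par, P) OK
      hE4 := hE4 (C0, par, P) OK
      hδ1' := hdlt1 (C0, par, P) OK
      hsm := hsm (C0, par, P) OK
      hloss := hloss (C0, par, P) OK
      hbulk := hbulk (C0, par, P) OK
      htest := s8as_htest hd hn (he1 (C0, par, P) OK) (hlog (C0, par, P) OK)
      hMP := by
        have h1 : (par.M : ℝ) ≤ (P : ℝ) / 2 := hMP (C0, par, P) OK
        have h2 : (0 : ℝ) < P := by exact_mod_cast hP.pos
        have h3 : (par.M : ℝ) < P := by linarith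
        exact_mod_cast h3
      hPprime := hP }

end Claimed.Agent.R275
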