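import Claimed.Agent.R275.S7PhaseA
import Claimed.Agent.R275.S7Num
import Claimed.Agent.R275.S8AsymA

/-!
# Row 275, Section 7, package S7-A-EXT: the caps of Phase A follow from the accounts

Proof of `StS7AExt` (statement in `S7PhaseA.lean`, helper245); proof by helper81.  No hypothesis (the membership facts of `StS7Score`
that are needed are proved here directly).  Helper prefix `s7x_`.
The numerics use the power-bound calculus `S8UpF` / `S8LoF` of `S8AsymA.lean`.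
-/

set_option autoImplicit false

namespace Claimed.Agent.R275

open Filter Matrix

/-! ## 0. calculus facts -/

section Calc

variable {ι : Type*} {OK : ℕ → ι → Prop}

theorem s7x_up_scQ (x : ℚ) : S8UpF OK (fun n _ => (scQ x n : ℝ)) (x : ℝ) := by
  rcases le_total 0 x with hx | hx
  · exact ⟨1, fun n _ hn _ => ⟨Nat.one_le_cast.2 hn, (s7n_cast_pos x n).le, by
      rw [one_mul]; exact scQ_le_of_nonneg x hx n hn⟩⟩
  · exact ⟨2 ^ (-(x : ℝ)), fun n _ hn _ => ⟨Nat.one_le_cast.2 hn, (s7n_cast_pos x n).le, by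
      rw [mul_comm]; exact scQ_le_of_nonpos x hx n hn⟩⟩

theorem s7x_lo_scQ (x : ℚ) : S8LoF OK (fun n _ => (scQ x n : ℝ)) (x : ℝ) := by
  rcases le_total 0 x with hx | hx
  · exact ⟨1 / 2 ^ ((x : ℝ) + 1), fun n _ hn _ => ⟨Nat.one_le_cast.2 hn, by positivity, by
      rw [div_mul_eq_mul_div, one_mul]; exact le_scQ_of_nonneg x hx n hn⟩⟩
  · exact ⟨1 / 2, fun n _ hn _ => ⟨Nat.one_le_cast.2 hn, by norm_num, by
      rw [div_mul_eq_mul_div, one_mul]; exact le_scQ_of_nonpos x hx n hn⟩⟩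

end Calc

/-- the eventual facts used as the index condition of the calculus -/
def s7xOK (d : ℕ) (cp : ℚ) (n : ℕ) (_ : Unit) : Prop :=
  (s7Npt n d cp : ℝ) ≤ 2 * Real.log n + 2 ∧
  (scQ (-(1 / 3) + aa / 2) n : ℝ) / (32 * ((d : ℝ) - 1)) ≤ (s7alS d n : ℝ)

theorem s7x_ev_OK (d : ℕ) (hd : 3 ≤ d) (cp : ℚ) (h0 : 0 < cp) (h1 : cp ≤ 1 / 4) :
    ∀ᶠ n : ℕ in atTop, s7xOK d cp n () := by
  filter_upwards [s7n_Npt d hd cp h0 h1, s7n_alS d hd] with n h2 h3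
  exact ⟨h2, h3.1⟩

theorem s7x_up_Npt (d : ℕ) (cp : ℚ) (ε : ℝ) (hε : 0 < ε) :
    S8UpF (s7xOK d cp) (fun n _ => (s7Npt n d cp : ℝ)) ε := by
  refine ⟨2 / ε + 2, fun n _ hn ok => ⟨Nat.one_le_cast.2 hn, by positivity, ?_⟩⟩
  have hn1 : (1 : ℝ) ≤ (n : ℝ) := by exact_mod_cast hn
  have h3 := Real.log_le_rpow_div (by linarith : (0 : ℝ) ≤ (n : ℝ)) hε
  have h5 : (1 : ℝ) ≤ (n : ℝ) ^ ε := Real.one_le_rpow hn1 hε.le
  refine ok.1.trans ?_
  calc 2 * Real.log n + 2 ≤ 2 * ((n : ℝ) ^ ε / ε) + 2 * (n : ℝ) ^ ε := by linarith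
    _ = (2 / ε + 2) * (n : ℝ) ^ ε := by ring

theorem s7x_lo_alS (d : ℕ) (hd : 3 ≤ d) (cp : ℚ) :
    S8LoF (s7xOK d cp) (fun n _ => (s7alS d n : ℝ)) (((-(1 / 3) + aa / 2 : ℚ)) : ℝ) := by
  have hd' : (3 : ℝ) ≤ (d : ℝ) := by exact_mod_cast hd
  have h1 : S8LoF (s7xOK d cp) (fun n _ => (scQ (-(1 / 3) + aa / 2) n : ℝ) / (32 * ((d : ℝ) - 1)))
      ((((-(1 / 3) + aa / 2 : ℚ)) : ℝ) - 0) :=
    (s7x_lo_scQ _).div (S8UpF.const _ (by linarith)) (S8LoF.const _ (by linarith))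
  rw [sub_zero] at h1
  exact h1.of_le fun n _ _ ok => ok.2

/-- `C N_pt n^x ≤ n^y` for `x < y` -/
theorem s7x_Npt_scQ (d : ℕ) (cp : ℚ) {x y : ℚ} (h : x < y) (C : ℝ) (hC : 0 ≤ C) :
    ∀ᶠ n : ℕ in atTop, ∀ p : Unit, s7xOK d cp n p →
      C * (s7Npt n d cp : ℝ) * (scQ x n : ℝ) ≤ (scQ y n : ℝ) := by
  have hxy : (x : ℝ) < (y : ℝ) := by exact_mod_cast h
  exact s8as_finalF
    (((S8UpF.const C hC).mul (s7x_up_Npt d cp (((y : ℝ) - (x : ℝ)) / 2) (by linarith))).mul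
      (s7x_up_scQ x))
    (s7x_lo_scQ y) (by linarith)

/-- the family sizes are beaten by `λ^{-p}` -/
theorem s7x_fam (d : ℕ) (cp : ℚ) : ∀ᶠ n : ℕ in atTop, ∀ p : Unit, s7xOK d cp n p →
    28 * ((s7Npt n d cp : ℝ) * 2 * ((n : ℝ) + ((n : ℝ) * d) ^ 2) ^ 2) ≤ ((n : ℝ) / 2) ^ 6 :=
  s8as_finalF
    ((S8UpF.const 28 (by norm_num)).mul
      (((s7x_up_Npt d cp 1 (by norm_num)).mul (S8UpF.const 2 (by norm_num))).mul
        ((S8UpF.self.add ((S8UpF.self.mul (S8UpF.const d (by positivity))).pow 2)).pow 2)))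
    ((S8LoF.self.div (S8UpF.const 2 (by norm_num)) (S8LoF.const 2 (by norm_num))).pow 6)
    (by norm_num)

theorem s7x_g_real {g : ℚ} (hg : S7gOK g) : (0 : ℝ) < (g : ℝ) ∧ (g : ℝ) ≤ 1 / 1000000000 := by
  constructor
  · exact_mod_cast hg.1
  · have h : g ≤ 1 / 1000000000 := by
      have := hg.2
      unfold aa at this
      linarith
    have h2 := (Rat.cast_le (K := ℝ)).2 h
    push_cast at h2
    exact h2

/-- numerics of the cap `nrm` -/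
theorem s7x_num_nrm (d : ℕ) (hd : 3 ≤ d) (cp : ℚ) {g : ℚ} (hg : S7gOK g) :
    ∀ᶠ n : ℕ in atTop, ∀ p : Unit, s7xOK d cp n p →
    14 * (scQ (aa / 10) n : ℝ) * (s7Npt n d cp : ℝ) *
      (2 * (scQ (2 / 3 + 15 / 100 * aa) n : ℝ) * ((scQ (13 / 100 * aa) n : ℝ) / (s7alS d n : ℝ)) ^ 6) ≤
      (2 * (scQ (2 / 3 + 15 / 100 * aa - 2 * g) n : ℝ) * (scQ (-(2 / 10 * aa)) n : ℝ)) ^ 4 := by
  obtain ⟨g0, g1⟩ := s7x_g_real hg
  exact s8as_finalF
    ((((S8UpF.const 14 (by norm_num)).mul (s7x_up_scQ _)).mul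
      (s7x_up_Npt d cp (1 / 100000) (by norm_num))).mul
      (((S8UpF.const 2 (by norm_num)).mul (s7x_up_scQ _)).mul
        (((s7x_up_scQ _).div (s7x_lo_alS d hd cp)).pow 6)))
    ((((S8LoF.const 2 (by norm_num)).mul (s7x_lo_scQ _)).mul (s7x_lo_scQ _)).pow 4)
    (by push_cast; simp only [s8as_aa]; norm_num; linarith)

/-- numerics of the cap `gap` -/
theorem s7x_num_gap (d : ℕ) (cp : ℚ) {g : ℚ} (hg : S7gOK g) :
    ∀ᶠ n : ℕ in atTop, ∀ p : Unit, s7xOK d cp n p →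
    (scQ (-(aa / 10000)) n : ℝ) * Real.sqrt (14 * (scQ (6 * g) n : ℝ) * (s7Npt n d cp : ℝ)) ≤
      (scQ (-(2 * g)) n : ℝ) := by
  obtain ⟨g0, g1⟩ := s7x_g_real hg
  exact s8as_finalF
    ((s7x_up_scQ _).mul
      ((((S8UpF.const 14 (by norm_num)).mul (s7x_up_scQ _)).mul
        (s7x_up_Npt d cp (1 / 1000000000) (by norm_num))).sqrt))
    (s7x_lo_scQ _)
    (by push_cast; simp only [s8as_aa]; norm_num; linarith)

/-! ## 1. membership -/

section Mem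

variable (n d : ℕ) (cp : ℚ) (j : ℕ) (b : Bool)

theorem s7x_mem_pts (hj : j ≤ Nprim d n cp) : (j, b) ∈ s7pts n d cp := by
  unfold s7pts
  rw [List.mem_flatMap]
  refine ⟨j, List.mem_range.2 (by omega), ?_⟩
  cases b <;> simp

theorem s7x_mem_famNrm (hj : j ≤ Nprim d n cp) : S7Lab.nrm j b ∈ s7famNrm n d cp :=
  List.mem_map.2 ⟨(j, b), s7x_mem_pts n d cp j b hj, rfl⟩

theorem s7x_mem_famTrY (hj : j ≤ Nprim d n cp) (t : Bool) : S7Lab.trY j b t ∈ s7famTrY n d cp := by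
  refine List.mem_flatMap.2 ⟨(j, b), s7x_mem_pts n d cp j b hj, ?_⟩
  cases t <;> simp

theorem s7x_mem_famDgT (hj : j ≤ Nprim d n cp) (t : Bool) : S7Lab.dgT j b t ∈ s7famDgT n d cp := by
  refine List.mem_flatMap.2 ⟨(j, b), s7x_mem_pts n d cp j b hj, ?_⟩
  cases t <;> simp

theorem s7x_mem_famGap (hj : j ≤ Nprim d n cp) : S7Lab.gap j b ∈ s7famGap n d cp :=
  List.mem_map.2 ⟨(j, b), s7x_mem_pts n d cp j b hj, rfl⟩

theorem s7x_mem_famCrow (hj : j ≤ Nprim d n cp) (x y : Stub n d) :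
    S7Lab.crow j b x y ∈ s7famCrow n d cp :=
  List.mem_flatMap.2 ⟨(j, b), s7x_mem_pts n d cp j b hj, List.mem_map.2 ⟨(x, y), mem_iall _, rfl⟩⟩

theorem s7x_mem_famGrow (hj : j ≤ Nprim d n cp) (i : Fin n) :
    S7Lab.grow j b i ∈ s7famGrow n d cp :=
  List.mem_flatMap.2 ⟨(j, b), s7x_mem_pts n d cp j b hj, List.mem_map.2 ⟨i, mem_iall _, rfl⟩⟩

theorem s7x_mem_famEnt (hj : j ≤ Nprim d n cp) (s : Bool) (a c : S7Out n d) :
    S7Lab.ent j b s a c ∈ s7famEnt n d cp := by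
  refine List.mem_flatMap.2 ⟨(j, b), s7x_mem_pts n d cp j b hj, List.mem_flatMap.2 ⟨s, ?_,
    List.mem_map.2 ⟨(a, c), mem_iall _, rfl⟩⟩⟩
  cases s <;> simp

end Mem

/-! ## 2. extraction tools -/

theorem s7x_extract (p : ℕ) (hp : p ≠ 0) (X T b lam F : ℝ) (hb : 0 < b) (hlam : 0 < lam)
    (hF : F ≤ (lam⁻¹) ^ p) (h : excessZ p X T (lam * b) ≤ F) : X ≤ T + b := by
  have h1 := le_of_excess_le p hp X T (lam * b) lam⁻¹ (by positivity) (by positivity) (h.trans hF)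
  have e : lam * b * lam⁻¹ = b := by field_simp
  rwa [e] at h1

theorem s7x_of_wt {F : ℕ} (hF : 0 < F) {Z K : ℝ} (h : ((F : ℕ) : ℝ)⁻¹ * Z ≤ K) : Z ≤ K * F := by
  have hF' : (0 : ℝ) < (F : ℝ) := by exact_mod_cast hF
  rwa [inv_mul_le_iff₀ hF', mul_comm] at h

theorem s7x_Npt_pos (n d : ℕ) (cp : ℚ) : 0 < s7Npt n d cp := by
  unfold s7Npt
  omega

theorem s7x_fam_pos (n d : ℕ) (cp : ℚ) (hn : 1 ≤ n) (hd : 3 ≤ d) (i : S7Lab n d) : 0 < s7fam n d cp i := by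
  have h1 := s7x_Npt_pos n d cp
  have h2 : 0 < n * d := Nat.mul_pos (by omega) (by omega)
  cases i <;> simp only [s7fam] <;> positivity

/-- every family is at most the family of the entries -/
theorem s7x_fam_le (n d : ℕ) (cp : ℚ) (hn : 1 ≤ n) (hd : 3 ≤ d) (i : S7Lab n d) :
    (s7fam n d cp i : ℝ) ≤ (s7Npt n d cp : ℝ) * 2 * ((n : ℝ) + ((n : ℝ) * d) ^ 2) ^ 2 := by
  have h1 : (0 : ℝ) ≤ (s7Npt n d cp : ℝ) := by positivity
  have hn1 : (1 : ℝ) ≤ (n : ℝ) := by exact_mod_cast hn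
  have hd1 : (1 : ℝ) ≤ (d : ℝ) := by exact_mod_cast (by omega : 1 ≤ d)
  have hA : (1 : ℝ) ≤ ((n : ℝ) * d) ^ 2 := by
    have : (1 : ℝ) ≤ (n : ℝ) * d := by nlinarith
    nlinarith
  set A : ℝ := ((n : ℝ) * d) ^ 2 with hAdef
  have hB : (1 : ℝ) ≤ ((n : ℝ) + A) ^ 2 := by nlinarith
  have hB1 : A ≤ ((n : ℝ) + A) ^ 2 := by nlinarith
  have hB2 : (n : ℝ) ≤ ((n : ℝ) + A) ^ 2 := by nlinarith
  cases i <;> simp only [s7fam] <;> push_cast <;> (try rw [← hAdef]) <;> nlinarith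

theorem s7x_om_pos (g : ℚ) (n l : ℕ) (hl : 2 ≤ l) (hl0 : l ≤ l0 n) : 0 < s7om g n l := by
  have h := (s7n_om_pos g n (l0 n - 2 * ((l0 n - l) / 2)) ((l0 n - l) / 2) (by omega) (by omega)).1
  have e : s7om g n (l0 n - 2 * ((l0 n - l) / 2)) = s7om g n l := by
    unfold s7om
    have : (l0 n - (l0 n - 2 * ((l0 n - l) / 2))) / 2 = (l0 n - l) / 2 := by omega
    rw [this]
  rwa [e] at h

theorem s7x_lam_pow {g : ℚ} {p : ℕ} (hg : S7gOK g) (hp : S7pOK g p) (n : ℕ) (hn : 1 ≤ n) :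
    ((n : ℝ) / 2) ^ 6 ≤ ((s7lam g n : ℝ)⁻¹) ^ p := by
  have h1 : ((6 : ℕ) : ℚ) ≤ p * (g / 100) := by
    have h2 := hp.2
    rw [div_le_iff₀ hg.1] at h2
    push_cast
    linarith
  exact s7n_pow_le_scQ_pow (by linarith [hg.1]) 6 p h1 n hn

theorem s7x_abs_of_sgn (x B : ℝ) (h : ∀ s : Bool, sgn s * x ≤ B) : |x| ≤ B := by
  have h1 := h true
  have h2 := h false
  simp only [sgn] at h1 h2
  norm_num at h1 h2
  exact abs_le.2 ⟨by linarith, h1⟩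

theorem s7x_aff {X S K : ℝ} (hS : 0 < S) (h : 1 + X / S ≤ K) : X ≤ K * S := by
  have h1 : X / S ≤ K := by linarith
  rwa [div_le_iff₀ hS] at h1

theorem s7x_l0_cast (n : ℕ) : (l0 n : ℝ) = 2 * (scQ (2 / 3 + 15 / 100 * aa) n : ℝ) := by
  exact_mod_cast s7n_l0 n

theorem s7x_l2_cast {g : ℚ} (hg : S7gOK g) (n : ℕ) :
    (s7l2 g n : ℝ) = 2 * (scQ (2 / 3 + 15 / 100 * aa - 2 * g) n : ℝ) := by
  exact_mod_cast s7n_l2 hg n

/-! ## 3. the caps of Phase A -/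

/-- **S7-A-EXT** -/
theorem s7AExt : StS7AExt := by
  intro d par hpar
  obtain ⟨hd, hg, hp, hcp0, hcp1⟩ := hpar
  have hx1 : (-(12 / 100 * aa) : ℚ) < -(8 / 100 * aa) := by unfold aa; norm_num
  have hx2 : (2 * s7eta0 par.g : ℚ) < 4 * s7eta0 par.g := by
    have := hg.1
    unfold s7eta0
    linarith
  filter_upwards [s7x_ev_OK d hd par.cp hcp0 hcp1, s7x_fam d par.cp, s7x_num_nrm d hd par.cp hg,
    s7x_num_gap d par.cp hg, s7x_Npt_scQ d par.cp hx1 56 (by norm_num),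
    s7x_Npt_scQ d par.cp hx2 56 (by norm_num), eventually_ge_atTop 1]
    with n ok hfam hnrm hgap htrY hdgT hn φ π₀ π hl2 hl0 hacc j hj b
  replace hfam := hfam () ok
  replace hnrm := hnrm () ok
  replace hgap := hgap () ok
  replace htrY := htrY () ok
  replace hdgT := hdgT () ok
  have hd' : (3 : ℝ) ≤ (d : ℝ) := by exact_mod_cast hd
  have hp0 : par.p ≠ 0 := by
    have := hp.1
    omega
  have hlam : (0 : ℝ) < (s7lam par.g n : ℝ) := s7n_cast_pos _ n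
  have hl0pos : (0 : ℝ) < (l0 n : ℝ) := by
    have := s7n_l0_pos n
    exact_mod_cast (by omega : 0 < l0 n)
  have hom : (0 : ℝ) < (s7om par.g n π.l : ℝ) := by
    have h2 := s7n_l2_pos par.g n
    exact_mod_cast s7x_om_pos par.g n π.l (by omega) hl0
  have mem : ∀ i : S7Lab n d, (i ∈ s7famNrm n d par.cp ∨ i ∈ s7famTrY n d par.cp ∨ i ∈ s7famDgT n d par.cp ∨
      i ∈ s7famGap n d par.cp ∨ i ∈ s7famCrow n d par.cp ∨ i ∈ s7famGrow n d par.cp ∨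
      i ∈ s7famEnt n d par.cp) → i ∈ s7labsA n d par.cp := by
    intro i h
    simp only [s7labsA, List.mem_append]
    tauto
  have key : ∀ i ∈ s7labsA n d par.cp,
      s7ZA ℝ d n par φ π₀ i π ≤ 14 * s7BudA par i * (s7fam n d par.cp i : ℝ) :=
    fun i hi => s7x_of_wt (s7x_fam_pos n d par.cp hn hd i) (hacc i hi)
  have hlamp := s7x_lam_pow hg hp n hn
  have key2 : ∀ i ∈ s7labsA n d par.cp, i.kind ≠ 0 → i.kind ≠ 3 →
      s7ZA ℝ d n par φ π₀ i π ≤ ((s7lam par.g n : ℝ)⁻¹) ^ par.p := by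
    intro i hi h0 h3
    have h1 := key i hi
    have e : s7BudA par i = 2 := by
      unfold s7BudA
      rw [if_neg h0, if_neg h3]
    rw [e] at h1
    have h2 := s7x_fam_le n d par.cp hn hd i
    refine le_trans ?_ (hfam.trans hlamp)
    linarith
  have hTrY : ∀ t : Bool, s7ZA ℝ d n par φ π₀ (.trY j b t) π ≤ 56 * (s7Npt n d par.cp : ℝ) := by
    intro t
    have h1 := key (.trY j b t) (mem _ (Or.inr (Or.inl (s7x_mem_famTrY n d par.cp j b hj t))))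
    have e1 : s7BudA par (S7Lab.trY j b t : S7Lab n d) = 2 := by simp [s7BudA, S7Lab.kind]
    have e3 : (s7fam n d par.cp (S7Lab.trY j b t : S7Lab n d) : ℝ) = 2 * (s7Npt n d par.cp : ℝ) := by
      simp only [s7fam]
      push_cast
      ring
    rw [e1, e3] at h1
    linarith
  have hDgT : ∀ t : Bool, s7ZA ℝ d n par φ π₀ (.dgT j b t) π ≤ 56 * (s7Npt n d par.cp : ℝ) := by
    intro t
    have h1 := key (.dgT j b t)
      (mem _ (Or.inr (Or.inr (Or.inl (s7x_mem_famDgT n d par.cp j b hj t)))))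
    have e1 : s7BudA par (S7Lab.dgT j b t : S7Lab n d) = 2 := by simp [s7BudA, S7Lab.kind]
    have e3 : (s7fam n d par.cp (S7Lab.dgT j b t : S7Lab n d) : ℝ) = 2 * (s7Npt n d par.cp : ℝ) := by
      simp only [s7fam]
      push_cast
      ring
    rw [e1, e3] at h1
    linarith
  have hSY : (s7SY2 n : ℝ) = (l0 n : ℝ) * (scQ (-(12 / 100 * aa)) n : ℝ) := by
    unfold s7SY2
    push_cast
    ring
  have hSYpos : (0 : ℝ) < (s7SY2 n : ℝ) := by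
    rw [hSY]
    exact mul_pos hl0pos (s7n_cast_pos _ n)
  have hY : ∀ Y : ℝ, 1 + Y ^ 2 / (s7SY2 n : ℝ) ≤ 56 * (s7Npt n d par.cp : ℝ) →
      Y ^ 2 ≤ (l0 n : ℝ) * (scQ (-(8 / 100 * aa)) n : ℝ) := by
    intro Y h
    have h1 := s7x_aff hSYpos h
    rw [hSY] at h1
    calc Y ^ 2 ≤ 56 * (s7Npt n d par.cp : ℝ) * ((l0 n : ℝ) * (scQ (-(12 / 100 * aa)) n : ℝ)) := h1
      _ = (l0 n : ℝ) * (56 * (s7Npt n d par.cp : ℝ) * (scQ (-(12 / 100 * aa)) n : ℝ)) := by ring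
      _ ≤ _ := mul_le_mul_of_nonneg_left htrY hl0pos.le
  have hT : ∀ T : ℝ, 1 + T / (s7ST par.g n : ℝ) ≤ 56 * (s7Npt n d par.cp : ℝ) →
      T ≤ (s7Tcap par.g n : ℝ) := by
    intro T h
    exact (s7x_aff (s7n_cast_pos _ n) h).trans hdgT
  refine ⟨?_, hY _ (hTrY false), hY _ (hTrY true), hT _ (hDgT false), hT _ (hDgT true), ?_, ?_, ?_, ?_⟩
  · -- nrm
    have h1 := key (.nrm j b) (mem _ (Or.inl (s7x_mem_famNrm n d par.cp j b hj)))
    have e1 : s7BudA par (S7Lab.nrm j b : S7Lab n d) = (scQ (aa / 10) n : ℝ) := by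
      simp [s7BudA, S7Lab.kind]
    have e3 : (s7fam n d par.cp (S7Lab.nrm j b : S7Lab n d) : ℝ) = (s7Npt n d par.cp : ℝ) := rfl
    rw [e1, e3] at h1
    have halS : (0 : ℝ) < (s7alS d n : ℝ) := by
      refine lt_of_lt_of_le ?_ ok.2
      have := s7n_cast_pos (-(1 / 3) + aa / 2) n
      have h6 : (0 : ℝ) < 32 * ((d : ℝ) - 1) := by linarith
      positivity
    have hSN : (s7SN d n : ℝ) = 2 * (scQ (2 / 3 + 15 / 100 * aa) n : ℝ) *
        ((scQ (13 / 100 * aa) n : ℝ) / (s7alS d n : ℝ)) ^ 6 := by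
      unfold s7SN
      push_cast
      rw [s7x_l0_cast]
    have hSNpos : (0 : ℝ) < (s7SN d n : ℝ) := by
      rw [hSN]
      have := s7n_cast_pos (2 / 3 + 15 / 100 * aa) n
      have := s7n_cast_pos (13 / 100 * aa) n
      positivity
    have h2 := s7x_aff hSNpos h1
    rw [hSN] at h2
    have hs := s7n_cast_pos (-(2 / 10 * aa)) n
    have hl2' : (s7l2 par.g n : ℝ) ≤ (π.l : ℝ) := by exact_mod_cast hl2
    calc s7F8 (s7D π (sgn b) ((prim d n j : ℚ) : ℝ)) ≤ _ := h2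
      _ ≤ _ := hnrm
      _ = ((s7l2 par.g n : ℝ) * (scQ (-(2 / 10 * aa)) n : ℝ)) ^ 4 := by rw [s7x_l2_cast hg]
      _ ≤ _ := pow_le_pow_left₀ (by positivity) (mul_le_mul_of_nonneg_right hl2' hs.le) 4
  · -- gap
    have h1 := key (.gap j b)
      (mem _ (Or.inr (Or.inr (Or.inr (Or.inl (s7x_mem_famGap n d par.cp j b hj))))))
    have e1 : s7BudA par (S7Lab.gap j b : S7Lab n d) = (scQ (6 * par.g) n : ℝ) := by
      simp [s7BudA, S7Lab.kind]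
    have e3 : (s7fam n d par.cp (S7Lab.gap j b : S7Lab n d) : ℝ) = (s7Npt n d par.cp : ℝ) := rfl
    rw [e1, e3] at h1
    have hnn : (0 : ℝ) ≤ 14 * (scQ (6 * par.g) n : ℝ) * (s7Npt n d par.cp : ℝ) := by
      have := s7n_cast_pos (6 * par.g) n
      positivity
    have h2 := le_of_excess_le 2 (by norm_num) _ 0 ((s7lamX n : ℚ) : ℝ)
      (Real.sqrt (14 * (scQ (6 * par.g) n : ℝ) * (s7Npt n d par.cp : ℝ))) (s7n_cast_pos _ n)
      (Real.sqrt_nonneg _) (h1.trans (le_of_eq (Real.sq_sqrt hnn).symm))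
    have h3 : ((s7lamX n : ℚ) : ℝ) * Real.sqrt (14 * (scQ (6 * par.g) n : ℝ) * (s7Npt n d par.cp : ℝ)) ≤
        (scQ (-(2 * par.g)) n : ℝ) := hgap
    linarith
  · -- crow
    intro x y hx hy hxy
    have h1 := key2 (.crow j b x y)
      (mem _ (Or.inr (Or.inr (Or.inr (Or.inr (Or.inl (s7x_mem_famCrow n d par.cp j b hj x y)))))))
      (by simp [S7Lab.kind]) (by simp [S7Lab.kind])
    have e2 : s7ZA ℝ d n par φ π₀ (.crow j b x y) π =
        excessZ par.p (s7sq (s7D π (sgn b) ((prim d n j : ℚ) : ℝ) *ᵥ s7ctr ℝ x y)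
          / ((s7om par.g n π.l : ℚ) : ℝ)) ((s7ThS d : ℚ) : ℝ) ((s7lam par.g n : ℚ) : ℝ) :=
      if_pos ⟨hx, hy, hxy⟩
    rw [e2] at h1
    have h2 := s7x_extract par.p hp0 _ _ 1 _ _ one_pos hlam le_rfl (by rwa [mul_one])
    rwa [div_le_iff₀ hom] at h2
  · -- grow
    intro i
    have h1 := key2 (.grow j b i)
      (mem _ (Or.inr (Or.inr (Or.inr (Or.inr (Or.inr (Or.inl (s7x_mem_famGrow n d par.cp j b hj i))))))))
      (by simp [S7Lab.kind]) (by simp [S7Lab.kind])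
    have e2 : s7ZA ℝ d n par φ π₀ (.grow j b i) π =
        excessZ par.p (s7sq (s7r π₀ π (s7t0 d n) (sgn b) ((prim d n j : ℚ) : ℝ) i)
          / ((s7om par.g n π.l : ℚ) : ℝ))
        (((if s7removed π₀ π (s7t0 d n) i then s7ThV1 d else s7ThV0 d : ℚ)) : ℝ)
        ((s7lam par.g n : ℚ) : ℝ) := rfl
    rw [e2] at h1
    have h2 := s7x_extract par.p hp0 _ _ 1 _ _ one_pos hlam le_rfl (by rwa [mul_one])
    rwa [div_le_iff₀ hom] at h2
  · -- ent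
    intro a c ha hc
    have hBA : (0 : ℝ) < (s7BA par.g n : ℝ) := s7n_cast_pos _ n
    refine s7x_abs_of_sgn _ _ fun s => ?_
    have h1 := key2 (.ent j b s a c)
      (mem _ (Or.inr (Or.inr (Or.inr (Or.inr (Or.inr (Or.inr (s7x_mem_famEnt n d par.cp j b hj s a c))))))))
      (by simp [S7Lab.kind]) (by simp [S7Lab.kind])
    have e2 : s7ZA ℝ d n par φ π₀ (.ent j b s a c) π =
        excessZ par.p (sgn s * s7ent (s7E π₀ π φ (Lcut d n) (sgn b) ((prim d n j : ℚ) : ℝ)) a c)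
          (((s7Th (a.ty + c.ty) (a.fl π₀ π (s7t0 d n) + c.fl π₀ π (s7t0 d n)) * s7BA par.g n : ℚ)) : ℝ)
          (((s7lam par.g n * s7BA par.g n : ℚ)) : ℝ) := if_pos ⟨ha, hc⟩
    rw [e2, Rat.cast_mul (s7lam par.g n)] at h1
    have h2 := s7x_extract par.p hp0 _ _ _ _ _ hBA hlam le_rfl h1
    rw [Rat.cast_mul] at h2
    linarith

end Claimed.Agent.R275
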