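import Claimed.Agent.R275.S7PhaseB
import Claimed.Agent.R275.S7Num

/-!
# Row 275, Section 7: the statements `StS7ANext`, `StS7BNext` (every candidate extends the stop, has two stubs less, positive precisions)

Statements in `S7PhaseA.lean`, `S7PhaseB.lean` (helper245); proofs by helper81, from `StS7ADer` / `StS7BDer`, `StS7Upd`, `StS7Lavg`.
Helper prefix `s7nx_`.
-/

set_option autoImplicit false

namespace Claimed.Agent.R275

open Filter Matrix

theorem s7nx_hmin_pos (d : ℕ) (hd : 3 ≤ d) : 0 < s7hmin d := by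
  have hd' : (3 : ℝ) ≤ (d : ℝ) := by exact_mod_cast hd
  have h1 : 0 < Real.sqrt ((d : ℝ) - 1) := Real.sqrt_pos.2 (by linarith)
  unfold s7hmin
  positivity

/-- one exposure, at one `(σ, h)` -/
theorem s7nx_core (hUpd : StS7Upd) {n d : ℕ} (hd : 3 ≤ d) (hn : 0 < n) (hε : (s7eps n : ℝ) ≤ 1 / 16)
    (φ : ℕ → ℚ) (π₀ π : PPair n d) (hext : π₀.Ext π) (hl : 4 ≤ π.l) (u v : Stub n d)
    (hu : π.Unres u) (hv : π.Unres v) (huv : u ≠ v) (σ h C0 : ℝ) (hσ : σ ^ 2 = 1)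
    (hpos : PosOn1 (π.Mmat σ h))
    (hunit : IsUnit (1 + s7P0R d n φ π₀ σ h * s7Kinc π₀ π σ h))
    (hD : S7Base (s7hmin d) C0 (s7eps n : ℝ) σ h π.unres (s7D π σ h))
    (hDh : S7Base (s7hmin d) C0 (s7eps n : ℝ) σ h π.unres (s7Dh π₀ π φ (Lcut d n) σ h)) :
    PosOn1 ((π.resolve u v).Mmat σ h) ∧ π₀.Ext (π.resolve u v) ∧ (π.resolve u v).l + 2 = π.l := by
  have h := hUpd n d π₀ π φ (Lcut d n) σ h u v hn hext hu hv huv hl hσ
    (lt_of_lt_of_le (s7nx_hmin_pos d hd) hD.h_lo) hD.h_hi hpos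
    (fun x y => (hD.ent x y).trans hε) hunit (fun x y => (hDh.ent x y).trans hε)
  exact ⟨h.1, h.2.1, h.2.2.1⟩

theorem s7nx_eps_small : ∀ᶠ n : ℕ in atTop, (s7eps n : ℝ) ≤ 1 / 16 :=
  s7n_scQ_small (by unfold aa; norm_num) (1 / 16) (by norm_num)

/-- **S7-A-NEXT** -/
theorem s7ANext (hDer : StS7ADer) (hUpd : StS7Upd) (hLavg : StS7Lavg) : StS7ANext := by
  intro d par hpar
  have hd := hpar.1
  have hg := hpar.2.1
  filter_upwards [hDer d par hpar, s7nx_eps_small, s7n_l3_large 4, eventually_ge_atTop 1]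
    with n der hε hl3 hn φ π₀ π t hstop hinv hlt π' hπ'
  obtain ⟨u, v, hu, hv, huv, rfl⟩ := (hLavg n d π (fun _ => 0)).2.2 π' hπ'
  have hl4 : 4 ≤ π.l := by
    have := s7n_l3_le_l2 hg n
    omega
  have core : ∀ j ≤ Nprim d n par.cp, ∀ b : Bool,
      PosOn1 ((π.resolve u v).Mmat (sgn b) ((prim d n j : ℚ) : ℝ)) ∧ π₀.Ext (π.resolve u v) ∧
        (π.resolve u v).l + 2 = π.l := by
    intro j hj b
    have D := der φ π₀ π t hstop hinv hlt.le j hj b
    exact s7nx_core hUpd hd hn hε φ π₀ π hinv.ext hl4 u v hu hv huv _ _ _ D.sig (hinv.pos j hj b)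
      D.refAt.unit D.baseD D.baseDh
  obtain ⟨-, h2, h3⟩ := core 0 (Nat.zero_le _) true
  have h4 := hinv.card
  exact ⟨h2, by omega, fun j hj b => (core j hj b).1⟩

/-- **S7-B-NEXT** -/
theorem s7BNext (hDer : StS7BDer) (hUpd : StS7Upd) (hLavg : StS7Lavg) : StS7BNext := by
  intro d par hpar
  have hd := hpar.1
  filter_upwards [hDer d par hpar, s7nx_eps_small, s7n_l3_large 4, eventually_ge_atTop 1]
    with n der hε hl3 hn φ π₀ π t hstop hinv hlt π' hπ'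
  obtain ⟨u, v, hu, hv, huv, rfl⟩ := (hLavg n d π (fun _ => 0)).2.2 π' hπ'
  have hl4 : 4 ≤ π.l := by omega
  have core : ∀ j ≤ Nprim d n par.cp, ∀ b : Bool,
      PosOn1 ((π.resolve u v).Mmat (sgn b) ((prim d n j : ℚ) : ℝ)) ∧ π₀.Ext (π.resolve u v) ∧
        (π.resolve u v).l + 2 = π.l := by
    intro j hj b
    have D := der φ π₀ π t hstop hinv hlt.le j hj b
    exact s7nx_core hUpd hd hn hε φ π₀ π hinv.ext hl4 u v hu hv huv _ _ _ D.sig (hinv.pos j hj b)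
      D.refAt.unit D.baseD D.baseDh
  obtain ⟨-, h2, h3⟩ := core 0 (Nat.zero_le _) true
  have h4 := hinv.card
  exact ⟨h2, by omega, fun j hj b => (core j hj b).1⟩

end Claimed.Agent.R275
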