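import Claimed.Agent.R275.S7PhaseB
import Claimed.Agent.R275.S7Num
import Claimed.Agent.R275.S7Next

/-!
# Row 275, Section 7, package S7-B-INIT: transition from Phase A to Phase B

Proof of `StS7BInit` (statement in `S7PhaseB.lean`, helper245); proof by helper81.  No hypothesis.  (`StS7BNext` is in `S7Next.lean`.)
Helper prefix `s7bi_`.
-/

set_option autoImplicit false

namespace Claimed.Agent.R275

open Filter Matrix

theorem s7bi_excess_one (p : ℕ) (hp : p ≠ 0) (X T b : ℝ) (h : X ≤ T) : excessZ p X T b = 1 := by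
  unfold excessZ
  rw [max_eq_right (by linarith), zero_div, zero_pow hp, add_zero]

theorem s7bi_Th (ty fl : ℕ) : 1 ≤ s7Th ty fl ∧ s7Th ty fl ≤ 317 := by
  unfold s7Th
  split_ifs <;> norm_num

theorem s7bi_pts_le {n d : ℕ} {cp : ℚ} {q : ℕ × Bool} (h : q ∈ s7pts n d cp) : q.1 ≤ Nprim d n cp := by
  unfold s7pts at h
  obtain ⟨a, ha, hq⟩ := List.mem_flatMap.1 h
  have ha' := List.mem_range.1 ha
  simp only [List.mem_cons, List.not_mem_nil, or_false] at hq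
  rcases hq with rfl | rfl <;> simp <;> omega

/-- the labels of Phase B -/
theorem s7bi_labs {n d : ℕ} {cp : ℚ} {i : S7Lab n d} (h : i ∈ s7labsB n d cp) :
    (∃ j b t, j ≤ Nprim d n cp ∧ i = .dgT j b t) ∨ (∃ j b x y, j ≤ Nprim d n cp ∧ i = .crow j b x y) ∨
    (∃ j b k, j ≤ Nprim d n cp ∧ i = .grow j b k) ∨ (∃ j b s a c, j ≤ Nprim d n cp ∧ i = .ent j b s a c) := by
  simp only [s7labsB, List.mem_append] at h
  rcases h with ((h | h) | h) | h
  · left
    obtain ⟨q, hq, hi⟩ := List.mem_flatMap.1 h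
    simp only [List.mem_cons, List.not_mem_nil, or_false] at hi
    rcases hi with rfl | rfl
    · exact ⟨_, _, _, s7bi_pts_le hq, rfl⟩
    · exact ⟨_, _, _, s7bi_pts_le hq, rfl⟩
  · right; left
    obtain ⟨q, hq, hi⟩ := List.mem_flatMap.1 h
    obtain ⟨xy, -, rfl⟩ := List.mem_map.1 hi
    exact ⟨_, _, _, _, s7bi_pts_le hq, rfl⟩
  · right; right; left
    obtain ⟨q, hq, hi⟩ := List.mem_flatMap.1 h
    obtain ⟨k, -, rfl⟩ := List.mem_map.1 hi
    exact ⟨_, _, _, s7bi_pts_le hq, rfl⟩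
  · right; right; right
    obtain ⟨q, hq, hi⟩ := List.mem_flatMap.1 h
    obtain ⟨s, -, hi⟩ := List.mem_flatMap.1 hi
    obtain ⟨ac, -, rfl⟩ := List.mem_map.1 hi
    exact ⟨_, _, _, _, _, s7bi_pts_le hq, rfl⟩

/-- `ω_{l₂} ≤ 8 n^{-g/2}` -/
theorem s7bi_om {g : ℚ} (hg : S7gOK g) : ∀ᶠ n : ℕ in atTop,
    (0 : ℝ) ≤ (s7om g n (s7l2 g n) : ℝ) ∧ (s7om g n (s7l2 g n) : ℝ) ≤ 8 * (scQ (-(g / 2)) n : ℝ) := by
  filter_upwards [s7n_om_l2 hg] with n hn
  have hle := s7n_l2_le_l0 hg n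
  obtain ⟨a, ha⟩ := s7n_even_l2 g n
  obtain ⟨b, hb⟩ := even_l0 n
  have ht : s7l2 g n + 2 * (b - a) = l0 n := by omega
  have h0 := (s7n_om_pos g n _ _ ht (s7n_l2_pos g n)).1
  have h1 := s7n_scQ_le_pow (-(g / 2)) 2 n
  have e : ((2 : ℕ) : ℚ) * -(g / 2) = -g := by push_cast; ring
  rw [e] at h1
  have hs := scQ_pos (-(g / 2)) n
  have h2 : s7om g n (s7l2 g n) ≤ 8 * scQ (-(g / 2)) n := by
    refine le_of_pow_le_pow_left₀ (n := 2) (by norm_num) (by positivity) ?_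
    calc s7om g n (s7l2 g n) ^ 2 ≤ 16 * scQ (-g) n := hn
      _ ≤ 16 * (2 ^ 2 * scQ (-(g / 2)) n ^ 2) := by linarith
      _ = (8 * scQ (-(g / 2)) n) ^ 2 := by ring
  constructor
  · exact_mod_cast h0.le
  · exact_mod_cast h2

/-- **S7-B-INIT** -/
theorem s7BInit : StS7BInit := by
  intro d par hpar
  obtain ⟨hd, hg, hp, hcp0, hcp1⟩ := hpar
  have hg0 := hg.1
  have hx1 : (-(par.g / 2) : ℚ) < -(3 / 10 * par.g) := by linarith
  have hx2 : (-(par.g / 2) : ℚ) < -(2 / 10 * par.g) := by linarith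
  have hx3 : (38 / 100 * aa - (2 / 3 + 15 / 100 * aa - 2 * par.g) / 2 : ℚ) <
      40 / 100 * aa - (2 / 3 + 15 / 100 * aa - 2 * par.g) / 2 := by
    unfold aa
    linarith
  filter_upwards [s7bi_om hg, s7n_scQ_lt hx1 (8 * ((s7ThS d : ℝ) + 1)) 0,
    s7n_scQ_lt hx2 (8 * ((s7ThV1 d : ℝ) + 1)) 0, s7n_scQ_lt hx3 318 0]
    with n hom hS hV hB φ π₀ π t hinv hl
  rw [pow_zero, mul_one] at hS hV hB
  obtain ⟨hom0, hom1⟩ := hom
  have hd' : (3 : ℝ) ≤ (d : ℝ) := by exact_mod_cast hd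
  have hp0 : par.p ≠ 0 := by
    have := hp.1
    omega
  have hThS : (s7ThS d : ℝ) = 32 * (d : ℝ) - 12 := by
    unfold s7ThS
    push_cast
    ring
  have hThV0 : (s7ThV0 d : ℝ) = 8 * (d : ℝ) - 2 := by
    unfold s7ThV0
    push_cast
    ring
  have hThV1 : (s7ThV1 d : ℝ) = 4 * ((s7ThV0 d : ℝ) + 1) + 100 * ((s7ThS d : ℝ) + 1) := by
    unfold s7ThV1
    push_cast
    ring
  have hGS : (0 : ℝ) < (s7GS par.g n : ℝ) := s7n_cast_pos _ n
  have hGV : (0 : ℝ) < (s7GV par.g n : ℝ) := s7n_cast_pos _ n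
  have hBA : (0 : ℝ) < (s7BA par.g n : ℝ) := s7n_cast_pos _ n
  have hBB : (0 : ℝ) < (s7BB par.g n : ℝ) := s7n_cast_pos _ n
  have hTc : (0 : ℝ) < (s7Tcap par.g n : ℝ) := s7n_cast_pos _ n
  have hTT : (s7Tcap par.g n : ℝ) ≤ (s7TcapB par.g n : ℝ) := by
    have : s7Tcap par.g n ≤ s7TcapB par.g n :=
      s7n_scQ_mono (by unfold s7eta0; linarith) n
    exact_mod_cast this
  have hB' : 318 * (s7BA par.g n : ℝ) ≤ (s7BB par.g n : ℝ) := hB
  -- the sharp bounds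
  have crow : ∀ j ≤ Nprim d n par.cp, ∀ b : Bool, ∀ x y, π.Unres x → π.Unres y → x ≠ y →
      s7sq (s7D π (sgn b) ((prim d n j : ℚ) : ℝ) *ᵥ s7ctr ℝ x y) ≤ (s7GS par.g n : ℝ) := by
    intro j hj b x y hx hy hxy
    have h1 := (hinv.cap j hj b).crow x y hx hy hxy
    rw [hl] at h1
    refine h1.trans (le_trans ?_ hS)
    have : 0 ≤ (s7ThS d : ℝ) + 1 := by rw [hThS]; linarith
    nlinarith
  have grow : ∀ j ≤ Nprim d n par.cp, ∀ b : Bool, ∀ i,
      s7sq (s7r π₀ π (s7t0 d n) (sgn b) ((prim d n j : ℚ) : ℝ) i) ≤ (s7GV par.g n : ℝ) := by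
    intro j hj b i
    have h1 := (hinv.cap j hj b).grow i
    rw [hl] at h1
    refine h1.trans (le_trans ?_ hV)
    have h2 : (((if s7removed π₀ π (s7t0 d n) i then s7ThV1 d else s7ThV0 d : ℚ)) : ℝ) ≤
        (s7ThV1 d : ℝ) := by
      split_ifs
      · exact le_rfl
      · rw [hThV1, hThS, hThV0]
        linarith
    have h3 : 0 ≤ (s7ThV1 d : ℝ) + 1 := by
      rw [hThV1, hThS, hThV0]
      linarith
    calc ((((if s7removed π₀ π (s7t0 d n) i then s7ThV1 d else s7ThV0 d : ℚ)) : ℝ) + 1)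
          * (s7om par.g n (s7l2 par.g n) : ℝ)
        ≤ ((s7ThV1 d : ℝ) + 1) * (s7om par.g n (s7l2 par.g n) : ℝ) :=
          mul_le_mul_of_nonneg_right (by linarith) hom0
      _ ≤ ((s7ThV1 d : ℝ) + 1) * (8 * (scQ (-(par.g / 2)) n : ℝ)) :=
          mul_le_mul_of_nonneg_left hom1 h3
      _ = _ := by ring
  have ent : ∀ j ≤ Nprim d n par.cp, ∀ b : Bool, ∀ a c : S7Out n d, a.Alive π → c.Alive π →
      |s7ent (s7E π₀ π φ (Lcut d n) (sgn b) ((prim d n j : ℚ) : ℝ)) a c| ≤ (s7BB par.g n : ℝ) := by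
    intro j hj b a c ha hc
    have h1 := (hinv.cap j hj b).ent a c ha hc
    refine h1.trans (le_trans ?_ hB')
    have h2 : (s7Th (a.ty + c.ty) (a.fl π₀ π (s7t0 d n) + c.fl π₀ π (s7t0 d n)) : ℝ) ≤ 317 := by
      exact_mod_cast (s7bi_Th _ _).2
    exact mul_le_mul_of_nonneg_right (by linarith) hBA.le
  have hTh1 : ∀ ty fl : ℕ, (1 : ℝ) ≤ (s7Th ty fl : ℝ) := fun ty fl => by
    exact_mod_cast (s7bi_Th ty fl).1
  refine ⟨⟨hinv.ext, by omega, hinv.pos, fun j hj b => ⟨((hinv.cap j hj b).dgT).trans hTT,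
    ((hinv.cap j hj b).dgTh).trans hTT, fun x y hx hy hxy => by
      have := crow j hj b x y hx hy hxy
      linarith, fun i => ?_, fun a c ha hc => ?_⟩⟩, ?_⟩
  · have h1 := grow j hj b i
    split_ifs <;> linarith
  · have h1 := ent j hj b a c ha hc
    have h2 := hTh1 (a.ty + c.ty) (a.fl π₀ π (s7t0 d n) + c.fl π₀ π (s7t0 d n))
    nlinarith
  · intro i hi
    rcases s7bi_labs hi with ⟨j, b, t, hj, rfl⟩ | ⟨j, b, x, y, hj, rfl⟩ | ⟨j, b, k, hj, rfl⟩ |
      ⟨j, b, s, a, c, hj, rfl⟩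
    · have hT : ∀ T : ℝ, T ≤ (s7Tcap par.g n : ℝ) → 1 + T / (s7Tcap par.g n : ℝ) ≤ 2 := by
        intro T h
        have : T / (s7Tcap par.g n : ℝ) ≤ 1 := (div_le_one hTc).2 h
        linarith
      cases t
      · exact hT _ (hinv.cap j hj b).dgT
      · exact hT _ (hinv.cap j hj b).dgTh
    · show s7ZB ℝ d n par φ π₀ (.crow j b x y) π ≤ 2
      by_cases hal : π.Unres x ∧ π.Unres y ∧ x ≠ y
      · have e2 : s7ZB ℝ d n par φ π₀ (.crow j b x y) π =
            excessZ par.p (s7sq (s7D π (sgn b) ((prim d n j : ℚ) : ℝ) *ᵥ s7ctr ℝ x y))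
              ((s7GS par.g n : ℚ) : ℝ) (((s7lam par.g n * s7GS par.g n : ℚ)) : ℝ) := if_pos hal
        rw [e2, s7bi_excess_one _ hp0 _ _ _ (crow j hj b x y hal.1 hal.2.1 hal.2.2)]
        norm_num
      · have e2 : s7ZB ℝ d n par φ π₀ (.crow j b x y) π = 0 := if_neg hal
        rw [e2]
        norm_num
    · show s7ZB ℝ d n par φ π₀ (.grow j b k) π ≤ 2
      have e2 : s7ZB ℝ d n par φ π₀ (.grow j b k) π =
          excessZ par.p (s7sq (s7r π₀ π (s7t0 d n) (sgn b) ((prim d n j : ℚ) : ℝ) k))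
          ((((if s7removed π₀ π (s7t0 d n) k then 104 else 1) * s7GV par.g n : ℚ)) : ℝ)
          (((s7lam par.g n * s7GV par.g n : ℚ)) : ℝ) := rfl
      rw [e2, s7bi_excess_one _ hp0]
      · norm_num
      · refine (grow j hj b k).trans ?_
        rw [Rat.cast_mul]
        have : (1 : ℝ) ≤ (((if s7removed π₀ π (s7t0 d n) k then 104 else 1 : ℚ)) : ℝ) := by
          split_ifs <;> norm_num
        nlinarith
    · show s7ZB ℝ d n par φ π₀ (.ent j b s a c) π ≤ 2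
      by_cases hal : a.Alive π ∧ c.Alive π
      · have e2 : s7ZB ℝ d n par φ π₀ (.ent j b s a c) π =
            excessZ par.p (sgn s * s7ent (s7E π₀ π φ (Lcut d n) (sgn b) ((prim d n j : ℚ) : ℝ)) a c)
              (((s7Th (a.ty + c.ty) (a.fl π₀ π (s7t0 d n) + c.fl π₀ π (s7t0 d n)) * s7BB par.g n : ℚ)) : ℝ)
              (((s7lam par.g n * s7BB par.g n : ℚ)) : ℝ) := if_pos hal
        rw [e2, s7bi_excess_one _ hp0]
        · norm_num
        · have h1 := ent j hj b a c hal.1 hal.2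
          have h2 := hTh1 (a.ty + c.ty) (a.fl π₀ π (s7t0 d n) + c.fl π₀ π (s7t0 d n))
          rw [Rat.cast_mul]
          have h3 : sgn s * s7ent (s7E π₀ π φ (Lcut d n) (sgn b) ((prim d n j : ℚ) : ℝ)) a c ≤
              |s7ent (s7E π₀ π φ (Lcut d n) (sgn b) ((prim d n j : ℚ) : ℝ)) a c| := by
            cases s
            · simp only [sgn]
              norm_num
              exact neg_le_abs _
            · simp only [sgn]
              norm_num
              exact le_abs_self _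
          nlinarith
      · have e2 : s7ZB ℝ d n par φ π₀ (.ent j b s a c) π = 0 := if_neg hal
        rw [e2]
        norm_num

end Claimed.Agent.R275
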