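import Claimed.Agent.R275.S7Step

/-!
# Row 275, Section 7, package S7-STEP-A: the exact identities of one step (7.44), (7.48), (7.51)

Prover: helper76.  Statements: `R275/S7Step.lean` (helper245).  Helper prefix `s7a_`.
`s7_struct : StS7Struct`, `s7_qForm : StS7QForm`, `s7_jensen : StS7Jensen`, `s7_traceId : StS7TraceId`,
`s7_energyId : StS7EnergyId`, `s7_rowId : StS7RowId`.
-/

set_option autoImplicit false
set_option linter.unusedSectionVars false

namespace Claimed.Agent.R275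

open Matrix

section Basic

variable {K : Type*} [Field K] {ι : Type*} [Fintype ι] [DecidableEq ι]

/-! ### The selection matrix -/

theorem s7a_mul_I {μ : Type*} (M : Matrix μ ι K) (u v : ι) (x : μ) (k : Fin 2) :
    (M * s7I K u v) x k = M x (if k = 0 then u else v) := by
  simp only [Matrix.mul_apply, s7I]
  by_cases hk : k = 0 <;> simp [hk]

theorem s7a_IT_mul {μ : Type*} (M : Matrix ι μ K) (u v : ι) (k : Fin 2) (y : μ) :
    ((s7I K u v)ᵀ * M) k y = M (if k = 0 then u else v) y := by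
  simp only [Matrix.mul_apply, s7I, Matrix.transpose_apply]
  by_cases hk : k = 0 <;> simp [hk]

theorem s7a_blk_eq (D : Matrix ι ι K) (u v : ι) :
    s7blk D u v = (s7I K u v)ᵀ * D * s7I K u v := by
  ext a b
  rw [s7a_mul_I, s7a_IT_mul]
  rfl

theorem s7a_pv_eq (x : ι → K) (u v : ι) : s7pv x u v = (s7I K u v)ᵀ *ᵥ x := by
  ext k
  simp only [s7pv, Matrix.mulVec, dotProduct, s7I, Matrix.transpose_apply]
  by_cases hk : k = 0 <;> simp [hk]

/-! ### The projection `Π_R` -/

theorem s7a_Pi_eq (R : Finset ι) :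
    s7Pi K R = diagonal (s7one K R) - (R.card : K)⁻¹ • vecMulVec (s7one K R) (s7one K R) := by
  ext x y
  simp only [s7Pi, s7one, Matrix.sub_apply, Matrix.diagonal_apply, Matrix.smul_apply,
    Matrix.vecMulVec_apply, smul_eq_mul]
  by_cases hx : x ∈ R <;> by_cases hy : y ∈ R <;> by_cases hxy : x = y <;> simp [hx, hy, hxy]

theorem s7a_one_mul_one {R' R : Finset ι} (h : R' ⊆ R) : s7one K R' * s7one K R = s7one K R' := by
  ext x
  simp only [Pi.mul_apply, s7one]
  by_cases hx : x ∈ R'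
  · simp [hx, h hx]
  · simp [hx]

theorem s7a_one_dot_one {R' R : Finset ι} (h : R' ⊆ R) : s7one K R' ⬝ᵥ s7one K R = (R'.card : K) := by
  have e : ∀ x, s7one K R' x * s7one K R x = if x ∈ R' then 1 else 0 := fun x =>
    congrFun (s7a_one_mul_one (K := K) h) x
  simp only [dotProduct, e]
  simp

theorem s7a_diag_mul_vmv (a b c : ι → K) : diagonal a * vecMulVec b c = vecMulVec (a * b) c := by
  ext x y
  simp [Matrix.diagonal_mul, Matrix.vecMulVec_apply, mul_assoc]

theorem s7a_vmv_mul_diag (a b c : ι → K) : vecMulVec b c * diagonal a = vecMulVec b (c * a) := by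
  ext x y
  simp [Matrix.mul_diagonal, Matrix.vecMulVec_apply, mul_assoc]

theorem s7a_vmv_mul_vmv (a b c e : ι → K) :
    vecMulVec a b * vecMulVec c e = (b ⬝ᵥ c) • vecMulVec a e := by
  ext x y
  simp only [Matrix.mul_apply, Matrix.vecMulVec_apply, Matrix.smul_apply, smul_eq_mul, dotProduct,
    Finset.sum_mul]
  refine Finset.sum_congr rfl (fun z _ => ?_)
  ring

theorem s7a_one_empty : s7one K (∅ : Finset ι) = 0 := by
  ext x; simp [s7one]

theorem s7a_Pi_mul_Pi [CharZero K] {R' R : Finset ι} (h : R' ⊆ R) :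
    s7Pi K R' * s7Pi K R = s7Pi K R' := by
  rcases R'.eq_empty_or_nonempty with rfl | hne
  · have : s7Pi K (∅ : Finset ι) = 0 := by ext x y; simp [s7Pi]
    rw [this, Matrix.zero_mul]
  have hc : (R'.card : K) ≠ 0 := Nat.cast_ne_zero.2 (Finset.card_pos.2 hne).ne'
  rw [s7a_Pi_eq, s7a_Pi_eq]
  simp only [Matrix.sub_mul, Matrix.mul_sub, Matrix.smul_mul, Matrix.mul_smul,
    Matrix.diagonal_mul_diagonal', s7a_diag_mul_vmv, s7a_vmv_mul_diag, s7a_vmv_mul_vmv,
    s7a_one_mul_one h, s7a_one_dot_one h, smul_smul]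
  have e : (fun i => s7one K R' i * s7one K R i) = s7one K R' := s7a_one_mul_one h
  rw [inv_mul_cancel₀ hc, one_smul, sub_self, smul_zero, sub_zero, e]

theorem s7a_Pi_transpose (R : Finset ι) : (s7Pi K R)ᵀ = s7Pi K R := by
  ext x y
  simp only [Matrix.transpose_apply, s7Pi, and_comm, eq_comm]

theorem s7a_sub_subset (R : Finset ι) (u v : ι) : s7sub R u v ⊆ R :=
  (Finset.erase_subset _ _).trans (Finset.erase_subset _ _)

theorem s7a_u_notMem (R : Finset ι) (u v : ι) : u ∉ s7sub R u v := by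
  simp [s7sub]

theorem s7a_v_notMem (R : Finset ι) (u v : ι) : v ∉ s7sub R u v := by
  simp [s7sub]

theorem s7a_Q_mul_I (R : Finset ι) (u v : ι) : s7Pi K (s7sub R u v) * s7I K u v = 0 := by
  ext x k
  rw [s7a_mul_I]
  by_cases hk : k = 0
  · simp [hk, s7Pi, s7a_u_notMem]
  · simp [hk, s7Pi, s7a_v_notMem]

theorem s7a_B2_transpose (l : ℕ) : (B2 K l)ᵀ = B2 K l := by
  ext i j
  simp only [Matrix.transpose_apply, B2, J2, Matrix.add_apply, Matrix.one_apply, Matrix.smul_apply,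
    eq_comm]

theorem s7a_H0_transpose (l : ℕ) (σ h : K) : (H0 l σ h)ᵀ = H0 l σ h := by
  ext i j
  fin_cases i <;> fin_cases j <;>
    simp [H0, F2, B2, J2, Matrix.mul_apply, Fin.sum_univ_two]

theorem s7a_blk_transpose {D : Matrix ι ι K} (hD : Dᵀ = D) (u v : ι) :
    (s7blk D u v)ᵀ = s7blk D u v := by
  ext a b
  simp only [Matrix.transpose_apply, s7blk]
  exact congrFun (congrFun hD _) _

theorem s7a_H_transpose {D : Matrix ι ι K} (hD : Dᵀ = D) (l : ℕ) (σ h : K) (u v : ι) :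
    (s7H l σ h D u v)ᵀ = s7H l σ h D u v := by
  unfold s7H
  rw [Matrix.transpose_nonsing_inv, Matrix.transpose_add, Matrix.transpose_nonsing_inv,
    s7a_H0_transpose, s7a_blk_transpose hD]

theorem s7a_Dpre_transpose {D : Matrix ι ι K} (hD : Dᵀ = D) (σ h : K) (R : Finset ι) (u v : ι) :
    (s7Dpre σ h R D u v)ᵀ = s7Dpre σ h R D u v := by
  unfold s7Dpre
  simp only [Matrix.transpose_sub, Matrix.transpose_mul, Matrix.transpose_transpose, hD,
    s7a_H_transpose hD, Matrix.mul_assoc]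

end Basic

/-- **S7-STEP-0**. -/
theorem s7_struct : StS7Struct := by
  intro K _ _ ι _ _ σ h R D u v r k hD
  have hQQ : s7Pi K (s7sub R u v) * s7Pi K (s7sub R u v) = s7Pi K (s7sub R u v) :=
    s7a_Pi_mul_Pi (Finset.Subset.refl _)
  refine ⟨?_, ?_, ?_, s7a_Pi_mul_Pi (s7a_sub_subset R u v), s7a_Q_mul_I R u v,
    s7a_Pi_mul_Pi (Finset.Subset.refl _), s7a_Pi_transpose R⟩
  · unfold s7Dstep
    simp only [Matrix.transpose_mul, s7a_Pi_transpose, s7a_Dpre_transpose hD, Matrix.mul_assoc]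
  · unfold s7Dstep
    rw [← Matrix.mul_assoc, ← Matrix.mul_assoc, hQQ]
  · unfold s7rstep
    rw [Matrix.mulVec_mulVec, hQQ]



section QForm

variable {K : Type*} [Field K] {ι : Type*} [Fintype ι] [DecidableEq ι]

theorem s7a_Pi_apply (R : Finset ι) (x y : ι) :
    s7Pi K R x y = (if x = y then 1 else 0) * s7one K R x
      - (R.card : K)⁻¹ * (s7one K R x * s7one K R y) := by
  simp only [s7Pi, s7one]
  by_cases hx : x ∈ R <;> by_cases hy : y ∈ R <;> simp [hx, hy]
  exact fun h => hy (h ▸ hx)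

theorem s7a_Pi_apply_right {R : Finset ι} {u : ι} (hu : u ∈ R) (x : ι) :
    s7Pi K R x u = (if x = u then 1 else 0) - (R.card : K)⁻¹ * s7one K R x := by
  simp only [s7Pi, s7one]
  by_cases hx : x ∈ R
  · simp [hx, hu]
  · have : x ≠ u := fun h => hx (h ▸ hu)
    simp [hx, this]

theorem s7a_Pi_apply_left {R : Finset ι} {u : ι} (hu : u ∈ R) (y : ι) :
    s7Pi K R u y = (if y = u then 1 else 0) - (R.card : K)⁻¹ * s7one K R y := by
  rw [← s7a_Pi_apply_right hu y, ← Matrix.transpose_apply (s7Pi K R), s7a_Pi_transpose]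

theorem s7a_one_sub {R : Finset ι} {u v : ι} (hu : u ∈ R) (hv : v ∈ R) (huv : u ≠ v) (x : ι) :
    s7one K (s7sub R u v) x
      = s7one K R x - (if x = u then 1 else 0) - (if x = v then 1 else 0) := by
  simp only [s7one, s7sub, Finset.mem_erase]
  by_cases hxu : x = u
  · subst hxu; simp [hu, huv]
  · by_cases hxv : x = v
    · subst hxv; simp [hv, hxu]
    · simp [hxu, hxv]

theorem s7a_card_sub {R : Finset ι} {u v : ι} (hu : u ∈ R) (hv : v ∈ R) (huv : u ≠ v) :
    (s7sub R u v).card + 2 = R.card := by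
  unfold s7sub
  have h1 : v ∈ R.erase u := Finset.mem_erase.2 ⟨huv.symm, hv⟩
  have h2 := Finset.card_erase_add_one h1
  have h3 := Finset.card_erase_add_one hu
  omega

theorem s7a_delta_mul (x y u : ι) :
    (if x = y then (1 : K) else 0) * (if x = u then 1 else 0)
      = (if x = u then 1 else 0) * (if y = u then 1 else 0) := by
  by_cases hxy : x = y
  · subst hxy; by_cases hxu : x = u <;> simp [hxu]
  · by_cases hxu : x = u
    · subst hxu; simp [hxy, Ne.symm hxy]
    · simp [hxu]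

theorem s7a_sandwich_apply (X : Matrix ι ι K) (Y : Matrix ι ι K) (N : Matrix (Fin 2) (Fin 2) K)
    (u v x y : ι) :
    (X * s7I K u v * N * (s7I K u v)ᵀ * Y) x y
      = (X x u * N 0 0 + X x v * N 1 0) * Y u y + (X x u * N 0 1 + X x v * N 1 1) * Y v y := by
  have e : ∀ k, (X * s7I K u v * N) x k = X x u * N 0 k + X x v * N 1 k := by
    intro k
    rw [Matrix.mul_apply, Fin.sum_univ_two, s7a_mul_I, s7a_mul_I]
    simp
  rw [Matrix.mul_assoc _ _ Y, Matrix.mul_apply, Fin.sum_univ_two, e, e, s7a_IT_mul, s7a_IT_mul]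
  simp

end QForm

/-- **S7-STEP-1**. -/
theorem s7_qForm : StS7QForm := by
  intro K _ _ ι _ _ R u v hu hv huv hl
  have hcard : ((s7sub R u v).card : K) = (R.card : K) - 2 := by
    have := s7a_card_sub hu hv huv
    rw [← this]; push_cast; ring
  have hl0 : (R.card : K) ≠ 0 := Nat.cast_ne_zero.2 (by omega)
  have hl2 : (R.card : K) - 2 ≠ 0 := by
    rw [← hcard]
    have := s7a_card_sub hu hv huv
    exact Nat.cast_ne_zero.2 (by omega)
  ext x y
  rw [Matrix.sub_apply, s7a_sandwich_apply, s7a_Pi_apply, s7a_Pi_apply R x y,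
    s7a_Pi_apply_right hu, s7a_Pi_apply_right hv, s7a_Pi_apply_left hu, s7a_Pi_apply_left hv,
    s7a_one_sub hu hv huv, s7a_one_sub hu hv huv, hcard, mul_sub, mul_sub, s7a_delta_mul,
    s7a_delta_mul]
  have hB00 : B2 K R.card 0 0 = 1 + ((R.card : K) - 2)⁻¹ := by simp [B2, J2]
  have hB01 : B2 K R.card 0 1 = ((R.card : K) - 2)⁻¹ := by simp [B2, J2]
  have hB10 : B2 K R.card 1 0 = ((R.card : K) - 2)⁻¹ := by simp [B2, J2]
  have hB11 : B2 K R.card 1 1 = 1 + ((R.card : K) - 2)⁻¹ := by simp [B2, J2]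
  rw [hB00, hB01, hB10, hB11]
  generalize (R.card : K) = l at hl0 hl2
  generalize s7one K R x = w
  generalize s7one K R y = w'
  generalize (if x = u then (1 : K) else 0) = a
  generalize (if x = v then (1 : K) else 0) = b
  generalize (if y = u then (1 : K) else 0) = a'
  generalize (if y = v then (1 : K) else 0) = b'
  generalize (if x = y then (1 : K) else 0) = δ
  field_simp
  ring

section Abstract

variable {K : Type*} [Field K] {ι : Type*} [Fintype ι] [DecidableEq ι]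
variable (I : Matrix ι (Fin 2) K) (T : Matrix (Fin 2) ι K) (P Q D M : Matrix ι ι K)
  (B H : Matrix (Fin 2) (Fin 2) K)

/-- `Q M = M - P I B T M`. -/
theorem s7a_QM (hPM : P * M = M) (hQ : Q = P - P * I * B * T * P) :
    Q * M = M - P * (I * (B * (T * M))) := by
  rw [hQ, Matrix.sub_mul, hPM]
  simp only [Matrix.mul_assoc, hPM]

/-- trace of `P I N T M` -/
theorem s7a_tr_PM (hMP : M * P = M) (N : Matrix (Fin 2) (Fin 2) K) :
    (P * (I * (N * (T * M)))).trace = (N * (T * M * I)).trace := by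
  rw [Matrix.trace_mul_comm]
  simp only [Matrix.mul_assoc, hMP]
  rw [Matrix.trace_mul_comm]
  simp only [Matrix.mul_assoc]

theorem s7a_tr_QMQ (hPM : P * M = M) (hMP : M * P = M) (hQ : Q = P - P * I * B * T * P)
    (hQQ : Q * Q = Q) : (Q * M * Q).trace = M.trace - (B * (T * M * I)).trace := by
  rw [Matrix.trace_mul_comm, ← Matrix.mul_assoc, hQQ, s7a_QM I T P Q M B hPM hQ, Matrix.trace_sub,
    s7a_tr_PM I T P M hMP]

theorem s7a_tr_QMQ_sq (hPM : P * M = M) (hMP : M * P = M) (hQ : Q = P - P * I * B * T * P)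
    (hQQ : Q * Q = Q) :
    (Q * M * Q * (Q * M * Q)).trace = (M * M).trace - 2 * (B * (T * (M * M) * I)).trace
      + (B * (T * M * I) * B * (T * M * I)).trace := by
  have e1 : Q * M * Q * (Q * M * Q) = (Q * M * (Q * M)) * Q := by
    simp only [Matrix.mul_assoc]
    rw [← Matrix.mul_assoc Q Q, hQQ]
  have e2 : ((Q * M * (Q * M)) * Q).trace = (Q * M * (Q * M)).trace := by
    rw [Matrix.trace_mul_comm]
    simp only [← Matrix.mul_assoc]
    rw [hQQ]
  have hMP' : ∀ X : Matrix ι ι K, M * (P * X) = M * X := fun X => by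
    rw [← Matrix.mul_assoc, hMP]
  rw [e1, e2, s7a_QM I T P Q M B hPM hQ]
  simp only [Matrix.sub_mul, Matrix.mul_sub, Matrix.trace_sub]
  have t1 : (M * (P * (I * (B * (T * M))))).trace = (B * (T * (M * M) * I)).trace := by
    rw [hMP', Matrix.trace_mul_comm]
    simp only [Matrix.mul_assoc]
    rw [Matrix.trace_mul_comm]
    simp only [Matrix.mul_assoc]
  have t2 : (P * (I * (B * (T * M))) * M).trace = (B * (T * (M * M) * I)).trace := by
    have := s7a_tr_PM I T P (M * M) (by rw [Matrix.mul_assoc, hMP]) B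
    rw [← this]
    simp only [Matrix.mul_assoc]
  have t3 : (P * (I * (B * (T * M))) * (P * (I * (B * (T * M))))).trace
      = (B * (T * M * I) * B * (T * M * I)).trace := by
    simp only [Matrix.mul_assoc, hMP']
    rw [Matrix.trace_mul_comm]
    simp only [Matrix.mul_assoc, hMP]
    rw [Matrix.trace_mul_comm]
    simp only [Matrix.mul_assoc]
  rw [t1, t2, t3]
  ring

theorem s7a_PM (hPD : P * D = D) : P * (D - D * I * H * T * D) = D - D * I * H * T * D := by
  rw [Matrix.mul_sub]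
  simp only [← Matrix.mul_assoc, hPD]

theorem s7a_MP (hDP : D * P = D) : (D - D * I * H * T * D) * P = D - D * I * H * T * D := by
  rw [Matrix.sub_mul]
  simp only [Matrix.mul_assoc, hDP]

theorem s7a_TMI : T * (D - D * I * H * T * D) * I = T * D * I - T * D * I * H * (T * D * I) := by
  simp only [Matrix.mul_sub, Matrix.sub_mul, Matrix.mul_assoc]

theorem s7a_TMMI : T * ((D - D * I * H * T * D) * (D - D * I * H * T * D)) * I
    = T * (D * D) * I - T * (D * D) * I * H * (T * D * I) - T * D * I * H * (T * (D * D) * I)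
      + T * D * I * H * (T * (D * D) * I) * H * (T * D * I) := by
  simp only [Matrix.mul_sub, Matrix.sub_mul, Matrix.mul_assoc]
  abel

theorem s7a_trM : (D - D * I * H * T * D).trace = D.trace - (H * (T * (D * D) * I)).trace := by
  rw [Matrix.trace_sub]
  congr 1
  have e : D * I * H * T * D = (D * I) * (H * T * D) := by simp only [Matrix.mul_assoc]
  rw [e, Matrix.trace_mul_comm]
  simp only [Matrix.mul_assoc]

theorem s7a_trMM : ((D - D * I * H * T * D) * (D - D * I * H * T * D)).trace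
    = (D * D).trace - 2 * (H * (T * (D * D * D) * I)).trace
      + (H * (T * (D * D) * I) * H * (T * (D * D) * I)).trace := by
  simp only [Matrix.mul_sub, Matrix.sub_mul, Matrix.trace_sub]
  have t1 : (D * (D * I * H * T * D)).trace = (H * (T * (D * D * D) * I)).trace := by
    have e : D * (D * I * H * T * D) = (D * D * I) * (H * T * D) := by simp only [Matrix.mul_assoc]
    rw [e, Matrix.trace_mul_comm]
    simp only [Matrix.mul_assoc]
  have t2 : (D * I * H * T * D * D).trace = (H * (T * (D * D * D) * I)).trace := by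
    have e : D * I * H * T * D * D = (D * I) * (H * T * D * D) := by simp only [Matrix.mul_assoc]
    rw [e, Matrix.trace_mul_comm]
    simp only [Matrix.mul_assoc]
  have t3 : (D * I * H * T * D * (D * I * H * T * D)).trace
      = (H * (T * (D * D) * I) * H * (T * (D * D) * I)).trace := by
    have e : D * I * H * T * D * (D * I * H * T * D) = (D * I) * (H * T * D * (D * I * H * T * D)) := by
      simp only [Matrix.mul_assoc]
    rw [e, Matrix.trace_mul_comm]
    simp only [Matrix.mul_assoc]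
  rw [t1, t2, t3]
  ring

end Abstract

theorem s7a_D_mul_Pi {K : Type*} [Field K] {ι : Type*} [Fintype ι] [DecidableEq ι] {R : Finset ι}
    {D : Matrix ι ι K} (hD : Dᵀ = D) (hPD : s7Pi K R * D = D) : D * s7Pi K R = D := by
  have := congrArg Matrix.transpose hPD
  rwa [Matrix.transpose_mul, hD, s7a_Pi_transpose] at this

/-- **S7-STEP-4**. -/
theorem s7_traceId : StS7TraceId := by
  intro K _ _ ι _ _ σ h R D u v hu hv huv hl hD hPD
  have hDP := s7a_D_mul_Pi hD hPD
  have hQ := s7_qForm K ι R u v hu hv huv hl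
  have hQQ := s7a_Pi_mul_Pi (K := K) (Finset.Subset.refl (s7sub R u v))
  unfold s7Y s7Dstep s7Dpre
  rw [s7a_tr_QMQ (s7I K u v) (s7I K u v)ᵀ (s7Pi K R) _ _ (B2 K R.card) (s7a_PM _ _ _ _ _ hPD)
    (s7a_MP _ _ _ _ _ hDP) hQ hQQ, s7a_TMI, s7a_trM, ← s7a_blk_eq, ← s7a_blk_eq]
  generalize s7blk D u v = A
  generalize s7blk (D * D) u v = K2
  generalize s7H R.card σ h D u v = H
  generalize B2 K R.card = B
  simp only [Matrix.mul_sub, Matrix.trace_sub]
  have t : (B * (A * H * A)).trace = (H * (A * B * A)).trace := by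
    have e : B * (A * H * A) = (B * A) * (H * A) := by simp only [Matrix.mul_assoc]
    rw [e, Matrix.trace_mul_comm]
    simp only [Matrix.mul_assoc]
  rw [t]
  ring

/-- **S7-STEP-5**. -/
theorem s7_energyId : StS7EnergyId := by
  intro K _ _ ι _ _ σ h R D u v hu hv huv hl hD hPD
  have hDP := s7a_D_mul_Pi hD hPD
  have hQ := s7_qForm K ι R u v hu hv huv hl
  have hQQ := s7a_Pi_mul_Pi (K := K) (Finset.Subset.refl (s7sub R u v))
  simp only
  unfold s7X s7Dstep s7Dpre
  rw [s7a_tr_QMQ_sq (s7I K u v) (s7I K u v)ᵀ (s7Pi K R) _ _ (B2 K R.card) (s7a_PM _ _ _ _ _ hPD)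
    (s7a_MP _ _ _ _ _ hDP) hQ hQQ, s7a_TMI, s7a_TMMI, s7a_trMM, ← s7a_blk_eq, ← s7a_blk_eq,
    ← s7a_blk_eq]
  generalize s7blk D u v = A
  generalize s7blk (D * D) u v = K2
  generalize s7blk (D * D * D) u v = J
  generalize s7H R.card σ h D u v = H
  generalize B2 K R.card = B
  simp only [Matrix.mul_sub, Matrix.sub_mul, Matrix.mul_add, Matrix.trace_sub,
    Matrix.trace_add, Matrix.mul_assoc]
  have r1 : (B * (K2 * (H * A))).trace = (H * (A * (B * K2))).trace := by
    have e : B * (K2 * (H * A)) = (B * K2) * (H * A) := by simp only [Matrix.mul_assoc]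
    rw [e, Matrix.trace_mul_comm]; simp only [Matrix.mul_assoc]
  have r2 : (B * (A * (H * K2))).trace = (H * (K2 * (B * A))).trace := by
    have e : B * (A * (H * K2)) = (B * A) * (H * K2) := by simp only [Matrix.mul_assoc]
    rw [e, Matrix.trace_mul_comm]; simp only [Matrix.mul_assoc]
  have r3 : (B * (A * (H * (K2 * (H * A))))).trace = (H * (K2 * (H * (A * (B * A))))).trace := by
    have e : B * (A * (H * (K2 * (H * A)))) = (B * A) * (H * (K2 * (H * A))) := by
      simp only [Matrix.mul_assoc]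
    rw [e, Matrix.trace_mul_comm]; simp only [Matrix.mul_assoc]
  have r3' : (H * (A * (B * (A * (H * K2))))).trace = (H * (K2 * (H * (A * (B * A))))).trace := by
    have e : H * (A * (B * (A * (H * K2)))) = (H * (A * (B * A))) * (H * K2) := by
      simp only [Matrix.mul_assoc]
    rw [e, Matrix.trace_mul_comm]; simp only [Matrix.mul_assoc]
  have r4 : (B * (A * (H * (A * (B * A))))).trace = (H * (A * (B * (A * (B * A))))).trace := by
    have e : B * (A * (H * (A * (B * A)))) = (B * A) * (H * (A * (B * A))) := by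
      simp only [Matrix.mul_assoc]
    rw [e, Matrix.trace_mul_comm]; simp only [Matrix.mul_assoc]
  have r5 : (B * (A * (B * (A * (H * A))))).trace = (H * (A * (B * (A * (B * A))))).trace := by
    have e : B * (A * (B * (A * (H * A)))) = (B * (A * (B * A))) * (H * A) := by
      simp only [Matrix.mul_assoc]
    rw [e, Matrix.trace_mul_comm]; simp only [Matrix.mul_assoc]
  have r6 : (B * (A * (H * (A * (B * (A * (H * A))))))).trace
      = (H * (A * (B * (A * (H * (A * (B * A))))))).trace := by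
    have e : B * (A * (H * (A * (B * (A * (H * A)))))) = (B * A) * (H * (A * (B * (A * (H * A))))) := by
      simp only [Matrix.mul_assoc]
    rw [e, Matrix.trace_mul_comm]; simp only [Matrix.mul_assoc]
  rw [r1, r2, r3, r3', r4, r5, r6]
  ring

section Row

variable {K : Type*} [Field K] {ι : Type*} [Fintype ι] [DecidableEq ι]

theorem s7a_dot_mulVec {m n : Type*} [Fintype m] [Fintype n] (A : Matrix m n K) (x : m → K)
    (z : n → K) : x ⬝ᵥ (A *ᵥ z) = (Aᵀ *ᵥ x) ⬝ᵥ z := by
  rw [Matrix.dotProduct_mulVec, Matrix.mulVec_transpose]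

theorem s7a_row_abs (I : Matrix ι (Fin 2) K) (P Q D : Matrix ι ι K) (B : Matrix (Fin 2) (Fin 2) K)
    (r : ι → K) (c : Fin 2 → K) (hPT : Pᵀ = P) (hQT : Qᵀ = Q) (hQQ : Q * Q = Q)
    (hQ : Q = P - P * I * B * Iᵀ * P) (hD : Dᵀ = D) (hPD : P * D = D) (hPr : P *ᵥ r = r) :
    (Q *ᵥ (r - (D * I) *ᵥ c)) ⬝ᵥ (Q *ᵥ (r - (D * I) *ᵥ c))
      = r ⬝ᵥ r - 2 * ((Iᵀ *ᵥ (D *ᵥ r)) ⬝ᵥ c) + c ⬝ᵥ ((Iᵀ * (D * D) * I) *ᵥ c)
        - (Iᵀ *ᵥ r - (Iᵀ * D * I) *ᵥ c) ⬝ᵥ (B *ᵥ (Iᵀ *ᵥ r - (Iᵀ * D * I) *ᵥ c)) := by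
  obtain ⟨y, hy⟩ : ∃ y, y = r - (D * I) *ᵥ c := ⟨_, rfl⟩
  have hPy : P *ᵥ y = y := by
    rw [hy, Matrix.mulVec_sub, hPr, Matrix.mulVec_mulVec, ← Matrix.mul_assoc, hPD]
  have hIy : Iᵀ *ᵥ y = Iᵀ *ᵥ r - (Iᵀ * D * I) *ᵥ c := by
    rw [hy, Matrix.mulVec_sub, Matrix.mulVec_mulVec, Matrix.mul_assoc]
  have h1 : (Q *ᵥ y) ⬝ᵥ (Q *ᵥ y) = y ⬝ᵥ (Q *ᵥ y) := by
    conv_rhs => rw [← hQQ, ← Matrix.mulVec_mulVec, s7a_dot_mulVec, hQT]
  have h2 : Q *ᵥ y = y - P *ᵥ (I *ᵥ (B *ᵥ (Iᵀ *ᵥ y))) := by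
    rw [hQ, Matrix.sub_mulVec, hPy, ← Matrix.mulVec_mulVec, hPy]
    simp only [Matrix.mulVec_mulVec, Matrix.mul_assoc]
  have h3 : y ⬝ᵥ (P *ᵥ (I *ᵥ (B *ᵥ (Iᵀ *ᵥ y)))) = (Iᵀ *ᵥ y) ⬝ᵥ (B *ᵥ (Iᵀ *ᵥ y)) := by
    rw [s7a_dot_mulVec, hPT, hPy, s7a_dot_mulVec]
  have h4 : y ⬝ᵥ y = r ⬝ᵥ r - 2 * ((Iᵀ *ᵥ (D *ᵥ r)) ⬝ᵥ c) + c ⬝ᵥ ((Iᵀ * (D * D) * I) *ᵥ c) := by
    have e1 : r ⬝ᵥ ((D * I) *ᵥ c) = (Iᵀ *ᵥ (D *ᵥ r)) ⬝ᵥ c := by
      rw [s7a_dot_mulVec, Matrix.transpose_mul, hD, Matrix.mulVec_mulVec]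
    have e2 : ((D * I) *ᵥ c) ⬝ᵥ ((D * I) *ᵥ c) = c ⬝ᵥ ((Iᵀ * (D * D) * I) *ᵥ c) := by
      have e3 : (Iᵀ * (D * D) * I) *ᵥ c = (D * I)ᵀ *ᵥ ((D * I) *ᵥ c) := by
        rw [Matrix.mulVec_mulVec, Matrix.transpose_mul, hD]
        simp only [Matrix.mul_assoc]
      rw [e3, s7a_dot_mulVec, dotProduct_comm]
    rw [hy, sub_dotProduct, dotProduct_sub, dotProduct_sub, dotProduct_comm ((D * I) *ᵥ c) r, e1, e2]
    ring
  rw [← hy, h1, h2, dotProduct_sub, h3, h4, hIy]

end Row

/-- **S7-STEP-6**. -/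
theorem s7_rowId : StS7RowId := by
  intro K _ _ ι _ _ σ h R D r k u v hu hv huv hl hD hPD hPr hH
  have hQ := s7_qForm K ι R u v hu hv huv hl
  have hQQ := s7a_Pi_mul_Pi (K := K) (Finset.Subset.refl (s7sub R u v))
  simp only
  unfold s7sq s7rstep
  have e : (D * s7I K u v * s7H R.card σ h D u v) *ᵥ (s7pv r u v - fun _ => k)
      = (D * s7I K u v) *ᵥ (s7H R.card σ h D u v *ᵥ (s7pv r u v - fun _ => k)) := by
    rw [Matrix.mulVec_mulVec]
  rw [e, s7a_row_abs (s7I K u v) (s7Pi K R) _ D (B2 K R.card) r _ (s7a_Pi_transpose R)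
    (s7a_Pi_transpose _) hQQ hQ hD hPD hPr, ← s7a_blk_eq, ← s7a_blk_eq, ← s7a_pv_eq, ← s7a_pv_eq]
  have hA := s7a_blk_transpose hD u v
  have hB := s7a_B2_transpose (K := K) R.card
  generalize s7pv r u v - (fun _ => k) = a
  generalize s7pv r u v = a0
  generalize s7pv (D *ᵥ r) u v = b
  generalize s7blk D u v = A at hA
  generalize s7blk (D * D) u v = K2
  generalize s7H R.card σ h D u v = H at hH
  generalize B2 K R.card = B at hB
  have hA10 : A 1 0 = A 0 1 := congrFun (congrFun hA 0) 1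
  have hB10 : B 1 0 = B 0 1 := congrFun (congrFun hB 0) 1
  have hH10 : H 1 0 = H 0 1 := congrFun (congrFun hH 0) 1
  simp only [s7q, dotProduct, Matrix.mulVec, Fin.sum_univ_two, Matrix.mul_apply, Matrix.sub_apply,
    Pi.sub_apply, hA10, hB10, hH10]
  ring

/-- **S7-STEP-3**. -/
theorem s7_jensen : StS7Jensen := by
  intro ι _ _ R D G hD hPD hG hctr x
  have hDP := s7a_D_mul_Pi hD hPD
  have e1 : (D * D) x x = ∑ z, (D z x) ^ 2 := by
    rw [Matrix.mul_apply]
    refine Finset.sum_congr rfl (fun z _ => ?_)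
    have : D x z = D z x := congrFun (congrFun hD z) x
    rw [this]; ring
  by_cases hx : x ∈ R
  · have hl : (0 : ℝ) < R.card := by exact_mod_cast Finset.card_pos.2 ⟨x, hx⟩
    have hsum0 : ∀ z, ∑ y ∈ R, D z y = 0 := by
      intro z
      have h1 := congrFun (congrFun hDP z) x
      rw [Matrix.mul_apply] at h1
      simp only [s7a_Pi_apply_right hx, mul_sub, Finset.sum_sub_distrib, mul_ite, mul_one, mul_zero,
        Finset.sum_ite_eq', Finset.mem_univ, if_true] at h1
      have h2 : ∑ w, D z w * ((R.card : ℝ)⁻¹ * s7one ℝ R w) = (R.card : ℝ)⁻¹ * ∑ y ∈ R, D z y := by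
        rw [Finset.mul_sum, ← Finset.sum_filter_add_sum_filter_not Finset.univ (· ∈ R)]
        have h3 : ∑ w ∈ Finset.univ.filter (fun w => ¬ w ∈ R),
            D z w * ((R.card : ℝ)⁻¹ * s7one ℝ R w) = 0 := by
          refine Finset.sum_eq_zero (fun w hw => ?_)
          simp [s7one, (Finset.mem_filter.1 hw).2]
        rw [h3, add_zero, Finset.filter_mem_eq_inter, Finset.univ_inter]
        refine Finset.sum_congr rfl (fun w hw => ?_)
        simp [s7one, hw]; ring
      rw [h2] at h1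
      have h4 : (R.card : ℝ)⁻¹ * ∑ y ∈ R, D z y = 0 := by linarith
      rcases mul_eq_zero.1 h4 with h5 | h5
      · exact absurd h5 (inv_ne_zero hl.ne')
      · exact h5
    have hctr_apply : ∀ y z, (D *ᵥ s7ctr ℝ x y) z = D z x - D z y := by
      intro y z
      simp only [Matrix.mulVec, dotProduct, s7ctr, mul_sub, Finset.sum_sub_distrib, mul_ite, mul_one,
        mul_zero, Finset.sum_ite_eq', Finset.mem_univ, if_true]
    have hkey : ∀ z, ((R.card : ℝ) * D z x) ^ 2
        ≤ R.card * ∑ y ∈ R, ((D *ᵥ s7ctr ℝ x y) z) ^ 2 := by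
      intro z
      have : (R.card : ℝ) * D z x = ∑ y ∈ R, (D *ᵥ s7ctr ℝ x y) z := by
        simp only [hctr_apply, Finset.sum_sub_distrib, hsum0, Finset.sum_const, nsmul_eq_mul, sub_zero]
      rw [this]
      exact sq_sum_le_card_mul_sum_sq
    have hG' : ∀ y ∈ R, s7sq (D *ᵥ s7ctr ℝ x y) ≤ G := by
      intro y hy
      by_cases hxy : x = y
      · subst hxy
        have : s7ctr ℝ x x = 0 := by ext s; simp [s7ctr]
        rw [this, Matrix.mulVec_zero]
        simpa [s7sq] using hG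
      · exact hctr x hx y hy hxy
    have hmain : (R.card : ℝ) ^ 2 * ∑ z, (D z x) ^ 2 ≤ (R.card : ℝ) ^ 2 * G := by
      calc (R.card : ℝ) ^ 2 * ∑ z, (D z x) ^ 2 = ∑ z, ((R.card : ℝ) * D z x) ^ 2 := by
            rw [Finset.mul_sum]
            exact Finset.sum_congr rfl (fun z _ => by ring)
        _ ≤ ∑ z, (R.card : ℝ) * ∑ y ∈ R, ((D *ᵥ s7ctr ℝ x y) z) ^ 2 :=
            Finset.sum_le_sum (fun z _ => hkey z)
        _ = R.card * ∑ y ∈ R, s7sq (D *ᵥ s7ctr ℝ x y) := by
            rw [← Finset.mul_sum, Finset.sum_comm]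
            congr 1
            refine Finset.sum_congr rfl (fun y _ => ?_)
            simp [s7sq, dotProduct, sq]
        _ ≤ R.card * (R.card * G) := by
            refine mul_le_mul_of_nonneg_left ?_ hl.le
            calc ∑ y ∈ R, s7sq (D *ᵥ s7ctr ℝ x y) ≤ ∑ _y ∈ R, G := Finset.sum_le_sum hG'
              _ = R.card * G := by simp
        _ = (R.card : ℝ) ^ 2 * G := by ring
    rw [e1]
    exact le_of_mul_le_mul_left hmain (by positivity)
  · have h0 : ∀ z, D z x = 0 := by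
      intro z
      have h1 := congrFun (congrFun hDP z) x
      rw [← h1, Matrix.mul_apply]
      refine Finset.sum_eq_zero (fun w _ => ?_)
      simp [s7Pi, hx]
    rw [e1]
    simpa [h0] using hG

end Claimed.Agent.R275
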