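import Claimed.Agent.R275.S7PhaseA
import Claimed.Agent.R275.S7Num
import Claimed.Agent.R275.S7AExt
import Claimed.Agent.R275.S7BInit
import Claimed.Agent.R275.S7Schatten
import Claimed.Agent.R275.S7StepA

/-!
# Row 275, Section 7, package S7-A-INIT: the caps of Phase A hold at the stop and every account is `≤ 2` there

Proof of `StS7AInit` (statement in `S7PhaseA.lean`, helper245) from `StS7CtrRow` and `StS7Flags`; proof by helper81.
(`StS7ANext` is in `S7Next.lean`.)  Helper prefix `s7ai_`.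
-/

set_option autoImplicit false
set_option linter.unusedSectionVars false
set_option linter.unusedSimpArgs false

namespace Claimed.Agent.R275

open Filter Matrix

/-! ## 1. linear algebra -/

section Alg

variable {ι : Type} [Fintype ι] [DecidableEq ι]

theorem s7ai_F8_eq (D : Matrix ι ι ℝ) (hD : Dᵀ = D) : s7F8 D = (D ^ 8).trace := by
  have h4 : (D ^ 4)ᵀ = D ^ 4 := s7sch_pow_symm hD 4
  have e : D ^ 8 = D ^ 4 * D ^ 4 := by rw [← pow_add]
  rw [e, Matrix.trace]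
  simp only [Matrix.diag, Matrix.mul_apply]
  unfold s7F8
  refine Finset.sum_congr rfl fun x _ => Finset.sum_congr rfl fun y _ => ?_
  have h5 : (D ^ 4) y x = (D ^ 4) x y := by
    conv_lhs => rw [← h4]
    rfl
  rw [h5]
  ring

theorem s7ai_sq_nonneg (a : ι → ℝ) : 0 ≤ s7sq a := by
  unfold s7sq dotProduct
  exact Finset.sum_nonneg fun x _ => mul_self_nonneg _

theorem s7ai_sq_sub (a b : ι → ℝ) : s7sq (a - b) ≤ 2 * s7sq a + 2 * s7sq b := by
  unfold s7sq dotProduct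
  rw [Finset.mul_sum, Finset.mul_sum, ← Finset.sum_add_distrib]
  refine Finset.sum_le_sum fun x _ => ?_
  simp only [Pi.sub_apply]
  nlinarith [sq_nonneg (a x + b x)]

theorem s7ai_sq_ctr {x y : ι} (hxy : x ≠ y) : s7sq (s7ctr ℝ x y) = 2 := by
  unfold s7sq dotProduct s7ctr
  have e : ∀ s : ι, ((if s = x then (1 : ℝ) else 0) - (if s = y then 1 else 0)) *
      ((if s = x then (1 : ℝ) else 0) - (if s = y then 1 else 0)) =
      (if s = x then 1 else 0) + (if s = y then 1 else 0) := by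
    intro s
    by_cases h1 : s = x
    · have h2 : s ≠ y := fun h => hxy (h1.symm.trans h)
      simp [h1, h2, hxy]
    · by_cases h2 : s = y
      · simp [h1, h2, hxy.symm]
      · simp [h1, h2]
  simp only [e]
  rw [Finset.sum_add_distrib]
  simp
  norm_num

/-- a symmetric idempotent is a contraction -/
theorem s7ai_proj (P : Matrix ι ι ℝ) (hs : Pᵀ = P) (hi : P * P = P) (v : ι → ℝ) :
    s7sq (P *ᵥ v) ≤ s7sq v := by
  have h1 : s7sq (P *ᵥ v) = v ⬝ᵥ (P *ᵥ v) := by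
    unfold s7sq
    rw [Matrix.dotProduct_mulVec, ← Matrix.mulVec_transpose, hs, Matrix.mulVec_mulVec, hi,
      dotProduct_comm]
  have h2 : s7sq (v - P *ᵥ v) = s7sq v - s7sq (P *ᵥ v) := by
    have h3 : s7sq (v - P *ᵥ v) = s7sq v - 2 * (v ⬝ᵥ (P *ᵥ v)) + s7sq (P *ᵥ v) := by
      unfold s7sq
      rw [sub_dotProduct, dotProduct_sub, dotProduct_sub, dotProduct_comm (P *ᵥ v) v]
      ring
    rw [h3, ← h1]
    ring
  have h4 := s7ai_sq_nonneg (v - P *ᵥ v)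
  linarith

/-- an array with at most one non-zero coordinate, of modulus `≤ 1` -/
theorem s7ai_sq_single (v : ι → ℝ) (h1 : ∀ x, |v x| ≤ 1) (h2 : ∀ x y, v x ≠ 0 → v y ≠ 0 → x = y) :
    s7sq v ≤ 1 := by
  unfold s7sq dotProduct
  by_cases h : ∃ x, v x ≠ 0
  · obtain ⟨x, hx⟩ := h
    rw [Finset.sum_eq_single x]
    · have := abs_le.1 (h1 x)
      nlinarith
    · intro y _ hy
      by_contra hne
      have hy0 : v y ≠ 0 := fun h0 => hne (by rw [h0, mul_zero])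
      exact hy (h2 y x hy0 hx)
    · intro hx'
      exact absurd (Finset.mem_univ x) hx'
  · push Not at h
    simp [h]

end Alg

section Pair

variable {n d : ℕ}

theorem s7ai_Ref_self (π₀ : PPair n d) (X : Matrix (Fin n) (Fin n) ℝ) (σ h : ℝ) :
    s7Ref π₀ π₀ X σ h = X := by
  unfold s7Ref s7Kinc s7cont
  simp

theorem s7ai_Wmat_transpose (π : PPair n d) (σ h : ℝ) : (π.Wmat σ h)ᵀ = π.Wmat σ h := by
  have e : π.Wmat σ h = (mh h)⁻¹ • ((compN (π.Mmat σ h))⁻¹ - J1 ℝ n) := rfl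
  rw [e, Matrix.transpose_smul, Matrix.transpose_sub, Matrix.transpose_nonsing_inv,
    compN_transpose _ (π.Mmat_transpose σ h), J1_transpose]

theorem s7ai_Ext_self (π₀ : PPair n d) : π₀.Ext π₀ := fun _ _ => rfl

theorem s7ai_not_removed (π₀ : PPair n d) (t0 : ℕ) (i : Fin n) : ¬ s7removed π₀ π₀ t0 i := by
  rintro ⟨x, hx, hx'⟩
  exact hx' hx.1

/-- entries at output labels -/
theorem s7ai_ent (X : Matrix (Fin n) (Fin n) ℝ) (B : ℝ) (hX : ∀ i j, |X i j| ≤ B) (a c : S7Out n d) :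
    |s7ent X a c| ≤ 4 * B := by
  have hB : 0 ≤ B := by
    by_cases hn : Nonempty (Fin n)
    · obtain ⟨i⟩ := hn
      exact (abs_nonneg _).trans (hX i i)
    · exfalso
      rcases a with i | ⟨x, y⟩
      · exact hn ⟨i⟩
      · exact hn ⟨x.1⟩
  have e : ∀ i j : Fin n, (Pi.single i (1 : ℝ) : Fin n → ℝ) ⬝ᵥ (X *ᵥ Pi.single j 1) = X i j := by
    intro i j
    simp
  rcases a with i | ⟨x, y⟩ <;> rcases c with k | ⟨x', y'⟩
  · have h1 : s7ent X (Sum.inl i : S7Out n d) (Sum.inl k) = X i k := e i k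
    rw [h1]
    linarith [hX i k]
  · have h1 : s7ent X (Sum.inl i : S7Out n d) (Sum.inr (x', y')) = X i x'.1 - X i y'.1 := by
      show (Pi.single i (1 : ℝ) : Fin n → ℝ) ⬝ᵥ (X *ᵥ (Pi.single x'.1 1 - Pi.single y'.1 1)) = _
      rw [Matrix.mulVec_sub, dotProduct_sub, e, e]
    rw [h1]
    have := abs_le.1 (hX i x'.1)
    have := abs_le.1 (hX i y'.1)
    exact abs_le.2 ⟨by linarith, by linarith⟩
  · have h1 : s7ent X (Sum.inr (x, y) : S7Out n d) (Sum.inl k) = X x.1 k - X y.1 k := by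
      show ((Pi.single x.1 (1 : ℝ) : Fin n → ℝ) - Pi.single y.1 1) ⬝ᵥ (X *ᵥ Pi.single k 1) = _
      rw [sub_dotProduct, e, e]
    rw [h1]
    have := abs_le.1 (hX x.1 k)
    have := abs_le.1 (hX y.1 k)
    exact abs_le.2 ⟨by linarith, by linarith⟩
  · have h1 : s7ent X (Sum.inr (x, y) : S7Out n d) (Sum.inr (x', y')) =
        X x.1 x'.1 - X x.1 y'.1 - (X y.1 x'.1 - X y.1 y'.1) := by
      show ((Pi.single x.1 (1 : ℝ) : Fin n → ℝ) - Pi.single y.1 1) ⬝ᵥ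
        (X *ᵥ (Pi.single x'.1 1 - Pi.single y'.1 1)) = _
      rw [Matrix.mulVec_sub, sub_dotProduct, dotProduct_sub, dotProduct_sub, e, e, e, e]
    rw [h1]
    have := abs_le.1 (hX x.1 x'.1)
    have := abs_le.1 (hX x.1 y'.1)
    have := abs_le.1 (hX y.1 x'.1)
    have := abs_le.1 (hX y.1 y'.1)
    exact abs_le.2 ⟨by linarith, by linarith⟩

end Pair

/-! ## 2. labels, numerics -/

/-- the labels of Phase A -/
theorem s7ai_labs {n d : ℕ} {cp : ℚ} {i : S7Lab n d} (h : i ∈ s7labsA n d cp) :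
    (∃ j b, j ≤ Nprim d n cp ∧ i = .nrm j b) ∨ (∃ j b t, j ≤ Nprim d n cp ∧ i = .trY j b t) ∨
    (∃ j b, j ≤ Nprim d n cp ∧ i = .gap j b) ∨ i ∈ s7labsB n d cp := by
  simp only [s7labsA, List.mem_append] at h
  simp only [s7labsB, List.mem_append]
  rcases h with (((((h | h) | h) | h) | h) | h) | h
  · left
    obtain ⟨q, hq, rfl⟩ := List.mem_map.1 h
    exact ⟨_, _, s7bi_pts_le hq, rfl⟩
  · right; left
    obtain ⟨q, hq, hi⟩ := List.mem_flatMap.1 h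
    simp only [List.mem_cons, List.not_mem_nil, or_false] at hi
    rcases hi with rfl | rfl
    · exact ⟨_, _, _, s7bi_pts_le hq, rfl⟩
    · exact ⟨_, _, _, s7bi_pts_le hq, rfl⟩
  · right; right; right
    tauto
  · right; right; left
    obtain ⟨q, hq, rfl⟩ := List.mem_map.1 h
    exact ⟨_, _, s7bi_pts_le hq, rfl⟩
  · right; right; right
    tauto
  · right; right; right
    tauto
  · right; right; right
    tauto

theorem s7ai_num1 (d : ℕ) (hd : 3 ≤ d) (cp : ℚ) : ∀ᶠ n : ℕ in atTop, ∀ p : Unit, s7xOK d cp n p →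
    4 * ((d : ℝ) - 1) * (scQ (126 / 1000 * aa) n : ℝ) ^ 6 ≤ (scQ (13 / 100 * aa) n : ℝ) ^ 6 := by
  have hd' : (3 : ℝ) ≤ (d : ℝ) := by exact_mod_cast hd
  exact s8as_finalF
    ((S8UpF.const (4 * ((d : ℝ) - 1)) (by linarith)).mul ((s7x_up_scQ _).pow 6))
    ((s7x_lo_scQ _).pow 6)
    (by push_cast; simp only [s8as_aa]; norm_num)

theorem s7ai_num3 (d : ℕ) (hd : 3 ≤ d) (cp : ℚ) : ∀ᶠ n : ℕ in atTop, ∀ p : Unit, s7xOK d cp n p →
    ((scQ (1 / 10 * aa) n : ℝ) / (s7alS d n : ℝ)) ^ 2 ≤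
      2 * (scQ (2 / 3 + 15 / 100 * aa) n : ℝ) * (scQ (-(12 / 100 * aa)) n : ℝ) :=
  s8as_finalF
    (((s7x_up_scQ _).div (s7x_lo_alS d hd cp)).pow 2)
    (((S8LoF.const 2 (by norm_num)).mul (s7x_lo_scQ _)).mul (s7x_lo_scQ _))
    (by push_cast; simp only [s8as_aa]; norm_num)

/-! ## 3. the sharp bounds at the stop -/

/-- the bounds at the stop, at one `(σ, h)` -/
structure S7aiSharp (d n : ℕ) (par : S7Par) (φ : ℕ → ℚ) (π₀ : PPair n d) (σ h : ℝ) : Prop where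
  nrm : s7F8 (s7D π₀ σ h) ≤ (s7SN d n : ℝ)
  trY : s7Y (s7D π₀ σ h) ^ 2 ≤ (s7SY2 n : ℝ)
  trYh : s7Y (s7Dh π₀ π₀ φ (Lcut d n) σ h) ^ 2 ≤ (s7SY2 n : ℝ)
  dgT : s7T (s7D π₀ σ h) ≤ (s7Tin par.g n : ℝ)
  dgTh : s7T (s7Dh π₀ π₀ φ (Lcut d n) σ h) ≤ (s7Tin par.g n : ℝ)
  gap : h ^ 2 * s7X (s7D π₀ σ h) / ((π₀.l : ℝ) - 1) ≤ (s7ubar par.g n π₀.l : ℝ)
  crow : ∀ x y, π₀.Unres x → π₀.Unres y → x ≠ y →
    s7sq (s7D π₀ σ h *ᵥ s7ctr ℝ x y) ≤ (s7ThS d : ℝ)
  grow : ∀ i, s7sq (s7r π₀ π₀ (s7t0 d n) σ h i) ≤ (s7ThV0 d : ℝ)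
  ent : ∀ a c : S7Out n d, |s7ent (s7E π₀ π₀ φ (Lcut d n) σ h) a c| ≤ (s7BA par.g n : ℝ)

theorem s7ai_sharp (hCtr : StS7CtrRow) (hFlags : StS7Flags) {d n : ℕ} (hd : 3 ≤ d) (par : S7Par)
    (φ : ℕ → ℚ) (π₀ : PPair n d) (σ h : ℝ) (hcard : π₀.l = l0 n)
    (halS : (0 : ℝ) < (s7alS d n : ℝ)) (hh : 1 / (2 * Real.sqrt ((d : ℝ) - 1)) ≤ h)
    (h1 : 4 * ((d : ℝ) - 1) * (scQ (126 / 1000 * aa) n : ℝ) ^ 6 ≤ (scQ (13 / 100 * aa) n : ℝ) ^ 6)
    (h3 : ((scQ (1 / 10 * aa) n : ℝ) / (s7alS d n : ℝ)) ^ 2 ≤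
      2 * (scQ (2 / 3 + 15 / 100 * aa) n : ℝ) * (scQ (-(12 / 100 * aa)) n : ℝ))
    (h4 : 8 * (s7Bin n : ℝ) ≤ (s7BA par.g n : ℝ))
    (A : S7InAt d n par π₀ σ h)
    (Rf : S7RefOut π₀ (s7t0 d n) (Lcut d n) σ h (s7P0R d n φ π₀ σ h)
      (1 / 32) (s7rho n : ℝ) (Real.sqrt (s7SY2 n : ℝ)) (s7Tin par.g n : ℝ) (s7Bin n : ℝ)) :
    S7aiSharp d n par φ π₀ σ h := by
  have hd' : (3 : ℝ) ≤ (d : ℝ) := by exact_mod_cast hd
  have hl0 := s7n_l0_pos n
  have hl0' : (2 : ℝ) ≤ (l0 n : ℝ) := by exact_mod_cast hl0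
  have hDs : (s7D π₀ σ h)ᵀ = s7D π₀ σ h :=
    (hCtr n d π₀ (π₀.Wmat σ h)).2.2.2.2 (s7ai_Wmat_transpose π₀ σ h)
  have hPh : s7Ph π₀ π₀ φ (Lcut d n) σ h = s7P0R d n φ π₀ σ h := by
    unfold s7Ph
    rw [s7ai_Ref_self]
    rfl
  have hDh : s7Dh π₀ π₀ φ (Lcut d n) σ h = s7Dof π₀ (s7P0R d n φ π₀ σ h) := by
    unfold s7Dh
    rw [hPh]
  have hSY : (s7SY2 n : ℝ) = 2 * (scQ (2 / 3 + 15 / 100 * aa) n : ℝ) * (scQ (-(12 / 100 * aa)) n : ℝ) := by
    unfold s7SY2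
    push_cast
    rw [s7x_l0_cast]
  have hSY0 : (0 : ℝ) ≤ (s7SY2 n : ℝ) := by
    rw [hSY]
    have := s7n_cast_pos (2 / 3 + 15 / 100 * aa) n
    have := s7n_cast_pos (-(12 / 100 * aa)) n
    positivity
  have hPi : π₀.PiS ℝ = s7Pi ℝ π₀.unres := (hCtr n d π₀ 0).2.2.1
  refine ⟨?_, ?_, ?_, A.dgT, ?_, ?_, ?_, ?_, ?_⟩
  · -- nrm
    rw [s7ai_F8_eq _ hDs]
    refine ((s7_normExtract _ _ hDs).2.2 _ A.opD).trans ?_
    have hq : (0 : ℝ) < (d : ℝ) - 1 := by linarith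
    have hsq : Real.sqrt ((d : ℝ) - 1) ^ 2 = (d : ℝ) - 1 := Real.sq_sqrt hq.le
    have hsq0 : 0 < Real.sqrt ((d : ℝ) - 1) := Real.sqrt_pos.2 hq
    have hh2 : 1 ≤ 4 * ((d : ℝ) - 1) * h ^ 2 := by
      have h5 : 1 ≤ 2 * Real.sqrt ((d : ℝ) - 1) * h := by
        rw [div_le_iff₀ (by positivity)] at hh
        linarith
      have h6 : (1 : ℝ) ^ 2 ≤ (2 * Real.sqrt ((d : ℝ) - 1) * h) ^ 2 :=
        pow_le_pow_left₀ (by norm_num) h5 2
      calc (1 : ℝ) = 1 ^ 2 := by norm_num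
        _ ≤ (2 * Real.sqrt ((d : ℝ) - 1) * h) ^ 2 := h6
        _ = 4 * Real.sqrt ((d : ℝ) - 1) ^ 2 * h ^ 2 := by ring
        _ = _ := by rw [hsq]
    have hX : s7X (s7D π₀ σ h) ≤ 4 * ((d : ℝ) - 1) * (l0 n : ℝ) := by
      have h7 := A.gap
      have hδ : (0 : ℝ) < (s7del par.g n : ℝ) := s7n_cast_pos _ n
      rw [div_le_iff₀ (by linarith)] at h7
      have h8 : h ^ 2 * s7X (s7D π₀ σ h) ≤ (l0 n : ℝ) := by nlinarith
      rcases le_total 0 (s7X (s7D π₀ σ h)) with hx | hx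
      · nlinarith
      · have : 0 ≤ 4 * ((d : ℝ) - 1) * (l0 n : ℝ) := by positivity
        linarith
    have hZ6 : 0 ≤ ((scQ (126 / 1000 * aa) n : ℝ) / (s7alS d n : ℝ)) ^ 6 := by positivity
    have hSN : (s7SN d n : ℝ) = (l0 n : ℝ) * ((scQ (13 / 100 * aa) n : ℝ) / (s7alS d n : ℝ)) ^ 6 := by
      unfold s7SN
      push_cast
      ring
    rw [hSN]
    calc ((scQ (126 / 1000 * aa) n : ℝ) / (s7alS d n : ℝ)) ^ 6 * s7X (s7D π₀ σ h)
        ≤ ((scQ (126 / 1000 * aa) n : ℝ) / (s7alS d n : ℝ)) ^ 6 * (4 * ((d : ℝ) - 1) * (l0 n : ℝ)) :=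
          mul_le_mul_of_nonneg_left hX hZ6
      _ = (l0 n : ℝ) * ((4 * ((d : ℝ) - 1) * (scQ (126 / 1000 * aa) n : ℝ) ^ 6) / (s7alS d n : ℝ) ^ 6) := by
          rw [div_pow]
          ring
      _ ≤ (l0 n : ℝ) * ((scQ (13 / 100 * aa) n : ℝ) ^ 6 / (s7alS d n : ℝ) ^ 6) :=
          mul_le_mul_of_nonneg_left (div_le_div_of_nonneg_right h1 (by positivity)) (by positivity)
      _ = _ := by rw [div_pow]
  · -- trY
    rw [hSY]
    refine le_trans ?_ h3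
    rw [← sq_abs]
    exact pow_le_pow_left₀ (abs_nonneg _) A.trY 2
  · -- trYh
    rw [hDh, ← sq_abs, ← Real.sq_sqrt hSY0]
    exact pow_le_pow_left₀ (abs_nonneg _) Rf.tr 2
  · rw [hDh]
    exact Rf.dg
  · -- gap
    rw [hcard]
    refine A.gap.trans ?_
    exact_mod_cast s7n_ubar_l0 par.g n
  · -- crow
    intro x y hx hy hxy
    have e1 := (hCtr n d π₀ (π₀.Wmat σ h)).1 x y hx hy
    have e2 : s7D π₀ σ h *ᵥ s7ctr ℝ x y =
        (s7row π₀ (π₀.Wmat σ h) x.1 - s7row π₀ (π₀.Wmat σ h) y.1) - s7ctr ℝ x y := by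
      have e3 : s7orow π₀ (π₀.Wmat σ h) (S7Out.ctr x y) =
          s7row π₀ (π₀.Wmat σ h) x.1 - s7row π₀ (π₀.Wmat σ h) y.1 := rfl
      rw [← e3, e1]
      unfold s7D
      abel
    rw [e2]
    have b1 := s7ai_sq_sub (s7row π₀ (π₀.Wmat σ h) x.1 - s7row π₀ (π₀.Wmat σ h) y.1) (s7ctr ℝ x y)
    have b2 := s7ai_sq_sub (s7row π₀ (π₀.Wmat σ h) x.1) (s7row π₀ (π₀.Wmat σ h) y.1)
    have b3 := A.loc x.1
    have b4 := A.loc y.1
    rw [s7ai_sq_ctr hxy] at b1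
    have hThS : (s7ThS d : ℝ) = 32 * (d : ℝ) - 12 := by
      unfold s7ThS
      push_cast
      ring
    rw [hThS]
    linarith
  · -- grow
    intro i
    obtain ⟨u, hu, v, hv, huv⟩ := Finset.one_lt_card.1 (show 1 < π₀.unres.card by
      have : π₀.unres.card = l0 n := hcard
      omega)
    have hu' : π₀.Unres u := (Finset.mem_filter.1 hu).2
    have hv' : π₀.Unres v := (Finset.mem_filter.1 hv).2
    have hz := (hFlags n d π₀ π₀ (s7t0 d n) u v hu' hv' huv).2.2 σ h i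
    have b1 : s7sq (s7short π₀ (s7t0 d n) σ h i) ≤ 1 := by
      refine s7ai_sq_single _ (Rf.cle i) fun x y hx hy => ?_
      refine Rf.uniq i x y ?_ ?_
      · by_contra hcon
        exact hx (hz x hcon)
      · by_contra hcon
        exact hy (hz y hcon)
    have b2 : s7sq (π₀.PiS ℝ *ᵥ s7short π₀ (s7t0 d n) σ h i) ≤ 1 := by
      rw [hPi]
      exact (s7ai_proj _ (s7a_Pi_transpose _) (s7a_Pi_mul_Pi (Finset.Subset.refl _)) _).trans b1
    have b3 := s7ai_sq_sub (s7row π₀ (π₀.Wmat σ h) i) (π₀.PiS ℝ *ᵥ s7short π₀ (s7t0 d n) σ h i)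
    have b4 := A.loc i
    have hThV0 : (s7ThV0 d : ℝ) = 8 * (d : ℝ) - 2 := by
      unfold s7ThV0
      push_cast
      ring
    rw [hThV0]
    have e : s7r π₀ π₀ (s7t0 d n) σ h i =
        s7row π₀ (π₀.Wmat σ h) i - π₀.PiS ℝ *ᵥ s7short π₀ (s7t0 d n) σ h i := rfl
    rw [e]
    linarith
  · -- ent
    intro a c
    have hE : ∀ i j, |s7E π₀ π₀ φ (Lcut d n) σ h i j| ≤ 2 * (s7Bin n : ℝ) := by
      intro i j
      have e : s7E π₀ π₀ φ (Lcut d n) σ h i j =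
          (π₀.Wmat σ h - π₀.Pmat (Lcut d n) σ h) i j - (s7P0R d n φ π₀ σ h - π₀.Pmat (Lcut d n) σ h) i j := by
        unfold s7E
        rw [hPh]
        simp only [Matrix.sub_apply]
        ring
      rw [e]
      have b1 := abs_le.1 (A.ent i j)
      have b2 := abs_le.1 (Rf.near i j)
      exact abs_le.2 ⟨by linarith, by linarith⟩
    have := s7ai_ent _ _ hE a c
    linarith

/-! ## 4. the statement -/

theorem s7ai_sgn_le (s : Bool) (x : ℝ) : sgn s * x ≤ |x| := by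
  cases s
  · simp only [sgn]
    norm_num
    exact neg_le_abs _
  · simp only [sgn]
    norm_num
    exact le_abs_self _

/-- **S7-A-INIT** -/
theorem s7AInit (hCtr : StS7CtrRow) (hFlags : StS7Flags) : StS7AInit := by
  intro d par hpar
  obtain ⟨hd, hg, hp, hcp0, hcp1⟩ := hpar
  have hg0 := hg.1
  have hx4 : (375 / 1000 * aa - (2 / 3 + 15 / 100 * aa) / 2 : ℚ) <
      38 / 100 * aa - (2 / 3 + 15 / 100 * aa - 2 * par.g) / 2 := by
    unfold aa
    linarith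
  filter_upwards [s7x_ev_OK d hd par.cp hcp0 hcp1, s7ai_num1 d hd par.cp, s7x_num_nrm d hd par.cp hg,
    s7ai_num3 d hd par.cp, s7n_scQ_lt hx4 8 0, s7n_prim d hd par.cp hcp0 hcp1, eventually_ge_atTop 1]
    with n ok h1 h2 h3 h4 hprim hn φ π₀ hIn
  replace h1 := h1 () ok
  replace h2 := h2 () ok
  replace h3 := h3 () ok
  rw [pow_zero, mul_one] at h4
  have hd' : (3 : ℝ) ≤ (d : ℝ) := by exact_mod_cast hd
  have hp0 : par.p ≠ 0 := by
    have := hp.1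
    omega
  have hcard := hIn.stop.card
  have halS : (0 : ℝ) < (s7alS d n : ℝ) := by
    refine lt_of_lt_of_le ?_ ok.2
    have := s7n_cast_pos (-(1 / 3) + aa / 2) n
    have h6 : (0 : ℝ) < 32 * ((d : ℝ) - 1) := by linarith
    positivity
  have sharp : ∀ j ≤ Nprim d n par.cp, ∀ b : Bool,
      S7aiSharp d n par φ π₀ (sgn b) ((prim d n j : ℚ) : ℝ) := fun j hj b =>
    s7ai_sharp hCtr hFlags hd par φ π₀ _ _ hcard halS (hprim j hj).1 h1 h3 h4 (hIn.at_ j hj b)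
      (hIn.stop.ref j hj b)
  have hl0pos : (0 : ℝ) < (l0 n : ℝ) := by
    have := s7n_l0_pos n
    exact_mod_cast (by omega : 0 < l0 n)
  have hom : (s7om par.g n π₀.l : ℝ) = 1 := by
    rw [hcard, s7n_om_l0]
    norm_num
  have hSN : (s7SN d n : ℝ) = 2 * (scQ (2 / 3 + 15 / 100 * aa) n : ℝ) *
      ((scQ (13 / 100 * aa) n : ℝ) / (s7alS d n : ℝ)) ^ 6 := by
    unfold s7SN
    push_cast
    rw [s7x_l0_cast]
  have hSNpos : (0 : ℝ) < (s7SN d n : ℝ) := by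
    rw [hSN]
    have := s7n_cast_pos (2 / 3 + 15 / 100 * aa) n
    have := s7n_cast_pos (13 / 100 * aa) n
    positivity
  have hSY : (s7SY2 n : ℝ) = (l0 n : ℝ) * (scQ (-(12 / 100 * aa)) n : ℝ) := by
    unfold s7SY2
    push_cast
    ring
  have hSYpos : (0 : ℝ) < (s7SY2 n : ℝ) := by
    rw [hSY]
    exact mul_pos hl0pos (s7n_cast_pos _ n)
  have hBA : (0 : ℝ) < (s7BA par.g n : ℝ) := s7n_cast_pos _ n
  have hTh1 : ∀ ty fl : ℕ, (1 : ℝ) ≤ (s7Th ty fl : ℝ) := fun ty fl => by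
    exact_mod_cast (s7bi_Th ty fl).1
  have hTinST : (s7Tin par.g n : ℝ) ≤ (s7ST par.g n : ℝ) := by
    have : s7Tin par.g n ≤ s7ST par.g n := s7n_scQ_mono (by unfold s7eta0; linarith) n
    exact_mod_cast this
  have hTinTc : (s7Tin par.g n : ℝ) ≤ (s7Tcap par.g n : ℝ) := by
    have : s7Tin par.g n ≤ s7Tcap par.g n := s7n_scQ_mono (by unfold s7eta0; linarith) n
    exact_mod_cast this
  have hSTpos : (0 : ℝ) < (s7ST par.g n : ℝ) := s7n_cast_pos _ n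
  have hThS0 : (0 : ℝ) ≤ (s7ThS d : ℝ) := by
    have : (s7ThS d : ℝ) = 32 * (d : ℝ) - 12 := by
      unfold s7ThS
      push_cast
      ring
    rw [this]
    linarith
  have hrem : ∀ i, (if s7removed π₀ π₀ (s7t0 d n) i then s7ThV1 d else s7ThV0 d : ℚ) = s7ThV0 d :=
    fun i => if_neg (s7ai_not_removed π₀ _ i)
  have hone : ∀ X S : ℝ, 0 < S → X ≤ S → 1 + X / S ≤ 2 := by
    intro X S hS h
    have : X / S ≤ 1 := (div_le_one hS).2 h
    linarith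
  constructor
  · -- the invariant
    refine ⟨s7ai_Ext_self π₀, by omega, fun j hj b => (hIn.at_ j hj b).pos, fun j hj b => ?_⟩
    have S := sharp j hj b
    refine ⟨?_, ?_, ?_, S.dgT.trans hTinTc, S.dgTh.trans hTinTc, ?_, ?_, ?_, ?_⟩
    · refine S.nrm.trans ?_
      rw [hcard]
      have hs := s7n_cast_pos (-(2 / 10 * aa)) n
      have hc1 : (1 : ℝ) ≤ (scQ (aa / 10) n : ℝ) := by
        exact_mod_cast s7n_one_le_scQ (by unfold aa; norm_num) n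
      have hc2 : (1 : ℝ) ≤ (s7Npt n d par.cp : ℝ) := by
        exact_mod_cast s7x_Npt_pos n d par.cp
      have hc3 : (1 : ℝ) ≤ 14 * (scQ (aa / 10) n : ℝ) * (s7Npt n d par.cp : ℝ) := by nlinarith
      have hl2' : (s7l2 par.g n : ℝ) ≤ (l0 n : ℝ) := by exact_mod_cast s7n_l2_le_l0 hg n
      rw [← hSN] at h2
      calc (s7SN d n : ℝ) ≤ 14 * (scQ (aa / 10) n : ℝ) * (s7Npt n d par.cp : ℝ) * (s7SN d n : ℝ) := by
            nlinarith
        _ ≤ _ := h2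
        _ = ((s7l2 par.g n : ℝ) * (scQ (-(2 / 10 * aa)) n : ℝ)) ^ 4 := by rw [s7x_l2_cast hg]
        _ ≤ _ := pow_le_pow_left₀ (by positivity) (mul_le_mul_of_nonneg_right hl2' hs.le) 4
    · refine S.trY.trans ?_
      rw [hSY]
      refine mul_le_mul_of_nonneg_left ?_ hl0pos.le
      exact_mod_cast s7n_scQ_mono (by unfold aa; norm_num) n
    · refine S.trYh.trans ?_
      rw [hSY]
      refine mul_le_mul_of_nonneg_left ?_ hl0pos.le
      exact_mod_cast s7n_scQ_mono (by unfold aa; norm_num) n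
    · have := s7n_cast_pos (-(2 * par.g)) n
      linarith [S.gap]
    · intro x y hx hy hxy
      rw [hom]
      linarith [S.crow x y hx hy hxy]
    · intro i
      rw [hom, hrem i]
      linarith [S.grow i]
    · intro a c _ _
      have h5 := hTh1 (a.ty + c.ty) (a.fl π₀ π₀ (s7t0 d n) + c.fl π₀ π₀ (s7t0 d n))
      have h6 := S.ent a c
      nlinarith
  · -- the accounts
    intro i hi
    show s7ZA ℝ d n par φ π₀ i π₀ ≤ 2
    rcases s7ai_labs hi with ⟨j, b, hj, rfl⟩ | ⟨j, b, t, hj, rfl⟩ | ⟨j, b, hj, rfl⟩ | hB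
    · exact hone _ _ hSNpos (sharp j hj b).nrm
    · cases t
      · exact hone _ _ hSYpos (sharp j hj b).trY
      · exact hone _ _ hSYpos (sharp j hj b).trYh
    · have e2 : s7ZA ℝ d n par φ π₀ (.gap j b) π₀ =
          excessZ 2 (((prim d n j : ℚ) : ℝ) ^ 2 * s7X (s7D π₀ (sgn b) ((prim d n j : ℚ) : ℝ))
            / ((π₀.l : ℝ) - 1) - ((s7ubar par.g n π₀.l : ℚ) : ℝ)) 0 ((s7lamX n : ℚ) : ℝ) := rfl
      rw [e2, s7bi_excess_one _ (by norm_num) _ _ _ (by linarith [(sharp j hj b).gap])]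
      norm_num
    · rcases s7bi_labs hB with ⟨j, b, t, hj, rfl⟩ | ⟨j, b, x, y, hj, rfl⟩ | ⟨j, b, k, hj, rfl⟩ |
        ⟨j, b, s, a, c, hj, rfl⟩
      · cases t
        · exact hone _ _ hSTpos ((sharp j hj b).dgT.trans hTinST)
        · exact hone _ _ hSTpos ((sharp j hj b).dgTh.trans hTinST)
      · by_cases hal : π₀.Unres x ∧ π₀.Unres y ∧ x ≠ y
        · have e2 : s7ZA ℝ d n par φ π₀ (.crow j b x y) π₀ =
              excessZ par.p (s7sq (s7D π₀ (sgn b) ((prim d n j : ℚ) : ℝ) *ᵥ s7ctr ℝ x y)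
                / ((s7om par.g n π₀.l : ℚ) : ℝ)) ((s7ThS d : ℚ) : ℝ) ((s7lam par.g n : ℚ) : ℝ) :=
            if_pos hal
          rw [e2, hom, div_one,
            s7bi_excess_one _ hp0 _ _ _ ((sharp j hj b).crow x y hal.1 hal.2.1 hal.2.2)]
          norm_num
        · have e2 : s7ZA ℝ d n par φ π₀ (.crow j b x y) π₀ = 0 := if_neg hal
          rw [e2]
          norm_num
      · have e2 : s7ZA ℝ d n par φ π₀ (.grow j b k) π₀ =
            excessZ par.p (s7sq (s7r π₀ π₀ (s7t0 d n) (sgn b) ((prim d n j : ℚ) : ℝ) k)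
              / ((s7om par.g n π₀.l : ℚ) : ℝ))
            (((if s7removed π₀ π₀ (s7t0 d n) k then s7ThV1 d else s7ThV0 d : ℚ)) : ℝ)
            ((s7lam par.g n : ℚ) : ℝ) := rfl
        rw [e2, hom, div_one, hrem k, s7bi_excess_one _ hp0 _ _ _ ((sharp j hj b).grow k)]
        norm_num
      · by_cases hal : a.Alive π₀ ∧ c.Alive π₀
        · have e2 : s7ZA ℝ d n par φ π₀ (.ent j b s a c) π₀ =
              excessZ par.p (sgn s * s7ent (s7E π₀ π₀ φ (Lcut d n) (sgn b) ((prim d n j : ℚ) : ℝ)) a c)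
                (((s7Th (a.ty + c.ty) (a.fl π₀ π₀ (s7t0 d n) + c.fl π₀ π₀ (s7t0 d n)) * s7BA par.g n : ℚ)) : ℝ)
                (((s7lam par.g n * s7BA par.g n : ℚ)) : ℝ) := if_pos hal
          rw [e2, s7bi_excess_one _ hp0]
          · norm_num
          · have h5 := hTh1 (a.ty + c.ty) (a.fl π₀ π₀ (s7t0 d n) + c.fl π₀ π₀ (s7t0 d n))
            have h6 := (sharp j hj b).ent a c
            have h7 := s7ai_sgn_le s (s7ent (s7E π₀ π₀ φ (Lcut d n) (sgn b) ((prim d n j : ℚ) : ℝ)) a c)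
            rw [Rat.cast_mul]
            nlinarith
        · have e2 : s7ZA ℝ d n par φ π₀ (.ent j b s a c) π₀ = 0 := if_neg hal
          rw [e2]
          norm_num

end Claimed.Agent.R275
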