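import Claimed.Agent.R275.S7PhaseA
import Claimed.Agent.R275.S7ABud
import Claimed.Agent.R275.S7AExt

/-!
# Row 275, Section 7, package S7-A-RUN: assembly of Phase A by `Phase.invariant_run`

`s7_aRun : … → StS7ARun` (statements in `S7PhaseA.lean`, helper245); proof by helper81.
The budgets (`S7ABud.lean`) and the extraction (`S7AExt.lean`) are used as theorems; the remaining statements are hypotheses.
Helper prefix `s7ar_`.
-/

set_option autoImplicit false

namespace Claimed.Agent.R275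

open Filter

/-- the growth rate of the accounts of kind `k` at size `l` -/
noncomputable def s7ar_rate (d : ℕ) (par : S7Par) (Cn Cg C : ℝ) (n k l : ℕ) : ℝ :=
  if k = 0 then Cn / (l : ℝ) + Cn / (s7SN d n : ℝ)
  else if k = 3 then 5 / (l : ℝ) + Cg * (s7kap par.g n : ℝ) / (l : ℝ)
  else C * (s7kap par.g n : ℝ) / (l : ℝ)

theorem s7ar_mono {avg Z a b : ℝ} (hZ : 0 ≤ Z) (hab : a ≤ b) (h : 0 ≤ a ∧ avg ≤ (1 + a) * Z) :
    0 ≤ b ∧ avg ≤ (1 + b) * Z :=
  ⟨h.1.trans hab, h.2.trans (mul_le_mul_of_nonneg_right (by linarith) hZ)⟩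

theorem s7ar_kind {n d : ℕ} (i : S7Lab n d) :
    i.kind = 0 ∨ i.kind = 1 ∨ i.kind = 2 ∨ i.kind = 3 ∨ i.kind = 4 ∨ i.kind = 5 ∨ i.kind = 6 := by
  cases i <;> simp [S7Lab.kind]

theorem s7ar_rate_le (κ : ℝ) (l : ℕ) (hκ : 0 ≤ κ) {C C' : ℝ} (h : C ≤ C') :
    C * κ / (l : ℝ) ≤ C' * κ / (l : ℝ) :=
  div_le_div_of_nonneg_right (mul_le_mul_of_nonneg_right h hκ) (Nat.cast_nonneg _)

/-- **S7-A-RUN** -/
theorem s7_aRun (hNrm : StS7AStepNrm) (hTrY : StS7AStepTrY) (hDgT : StS7AStepDgT)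
    (hGap : StS7AStepGap) (hCrow : StS7AStepCrow) (hGrow : StS7AStepGrow) (hEnt : StS7AStepEnt)
    (hNext : StS7ANext) (hInit : StS7AInit) (hOk : StS7Ok) (hLavg : StS7Lavg) (hScore : StS7Score) :
    StS7ARun := by
  intro d hd
  obtain ⟨Cn, hCn, hNrm⟩ := hNrm d hd
  obtain ⟨g₀, hg₀, hBudN⟩ := s7ABudNrm d Cn hd hCn
  refine ⟨g₀, hg₀, fun par hpar hle => ?_⟩
  obtain ⟨C1, hC1, hTrY⟩ := hTrY d par hpar
  obtain ⟨C2, hC2, hDgT⟩ := hDgT d par hpar
  obtain ⟨Cg, hCg, hGap⟩ := hGap d par hpar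
  obtain ⟨C4, hC4, hCrow⟩ := hCrow d par hpar
  obtain ⟨C5, hC5, hGrow⟩ := hGrow d par hpar
  obtain ⟨C6, hC6, hEnt⟩ := hEnt d par hpar
  set C : ℝ := C1 + C2 + C4 + C5 + C6 with hC
  have hCpos : 0 < C := by positivity
  filter_upwards [hNrm par hpar, hTrY, hDgT, hGap, hCrow, hGrow, hEnt, hBudN par hpar hle,
    s7ABud0 d par hpar C hCpos, s7ABudGap d par hpar Cg hCg, s7AExt d par hpar, hNext d par hpar,
    hInit d par hpar] with n sNrm sTrY sDgT sGap sCrow sGrow sEnt bNrm b0 bGap ext next init φ π₀ hIn t ht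
  obtain ⟨init0, init2⟩ := init φ π₀ hIn
  have hstop := hIn.stop
  have ok := (hOk ℝ d n par φ π₀).1
  have hκ : (0 : ℝ) ≤ (s7kap par.g n : ℝ) := s7ab_kap_nonneg par.g n
  have hl2 := s7n_l2_pos par.g n
  obtain ⟨-, -, -, -, -, -, -, -, hsc, -⟩ := hScore d n par φ π₀ π₀
  refine Phase.invariant_run (s7PhaseA ℝ d n par φ π₀) ok π₀ ((l0 n - s7l2 par.g n) / 2)
    (S7InvA d n par φ π₀) (fun _ _ => True) (fun _ => True)
    (fun i x => s7ar_rate d par Cn Cg C n i.kind x.l) (s7BudA par) 14 (hsc init2) init0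
    ?_ ?_ ?_ (fun _ _ _ _ _ => trivial) (fun _ _ _ _ _ _ _ h => absurd trivial h) ?_ t (by omega)
  · -- candidates
    intro s hs x hx
    have h1 := hx.card
    exact (hLavg n d x (fun _ => 0)).2.1 (by omega)
  · -- one step
    intro s hs x hx i hi
    have h1 := hx.card
    have hlt : s7l2 par.g n < x.l := by omega
    have hZ : 0 ≤ (s7PhaseA ℝ d n par φ π₀).Z i x := ok.Z_nonneg i x
    rcases s7ar_kind i with hk | hk | hk | hk | hk | hk | hk
    · have h2 := sNrm φ π₀ x s hstop hx hlt i hi hk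
      simpa only [s7ar_rate, hk, if_true] using h2
    · have h2 := sTrY φ π₀ x s hstop hx hlt i hi hk
      have e : s7ar_rate d par Cn Cg C n i.kind x.l = C * (s7kap par.g n : ℝ) / (x.l : ℝ) := by
        simp [s7ar_rate, hk]
      rw [e]
      exact s7ar_mono hZ (s7ar_rate_le _ _ hκ (by rw [hC]; linarith)) h2
    · have h2 := sDgT φ π₀ x s hstop hx hlt i hi hk
      have e : s7ar_rate d par Cn Cg C n i.kind x.l = C * (s7kap par.g n : ℝ) / (x.l : ℝ) := by
        simp [s7ar_rate, hk]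
      rw [e]
      exact s7ar_mono hZ (s7ar_rate_le _ _ hκ (by rw [hC]; linarith)) h2
    · have h2 := sGap φ π₀ x s hstop hx hlt i hi hk
      have e : s7ar_rate d par Cn Cg C n i.kind x.l =
          5 / (x.l : ℝ) + Cg * (s7kap par.g n : ℝ) / (x.l : ℝ) := by
        simp [s7ar_rate, hk]
      rw [e]
      exact h2
    · have h2 := sCrow φ π₀ x s hstop hx hlt i hi hk
      have e : s7ar_rate d par Cn Cg C n i.kind x.l = C * (s7kap par.g n : ℝ) / (x.l : ℝ) := by
        simp [s7ar_rate, hk]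
      rw [e]
      exact s7ar_mono hZ (s7ar_rate_le _ _ hκ (by rw [hC]; linarith)) h2
    · have h2 := sGrow φ π₀ x s hstop hx hlt i hi hk
      have e : s7ar_rate d par Cn Cg C n i.kind x.l = C * (s7kap par.g n : ℝ) / (x.l : ℝ) := by
        simp [s7ar_rate, hk]
      rw [e]
      exact s7ar_mono hZ (s7ar_rate_le _ _ hκ (by rw [hC]; linarith)) h2
    · have h2 := sEnt φ π₀ x s hstop hx hlt i hi hk
      have e : s7ar_rate d par Cn Cg C n i.kind x.l = C * (s7kap par.g n : ℝ) / (x.l : ℝ) := by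
        simp [s7ar_rate, hk]
      rw [e]
      exact s7ar_mono hZ (s7ar_rate_le _ _ hκ (by rw [hC]; linarith)) h2
  · -- budgets
    intro s hs path hH i hi _
    have hcard : ∀ r ∈ Finset.range (s + 1), (path r).l = l0 n - 2 * r := by
      intro r hr
      have h1 := (hH.2.1 r (by have := Finset.mem_range.1 hr; omega)).card
      omega
    have hts : s7l2 par.g n + 2 * (s + 1) ≤ l0 n := by omega
    have e : ∏ r ∈ Finset.range (s + 1), (1 + s7ar_rate d par Cn Cg C n i.kind (path r).l) =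
        ∏ r ∈ Finset.range (s + 1), (1 + s7ar_rate d par Cn Cg C n i.kind (l0 n - 2 * r)) :=
      Finset.prod_congr rfl fun r hr => by rw [hcard r hr]
    rw [e]
    by_cases hk0 : i.kind = 0
    · have e2 : s7BudA par i = (scQ (aa / 10) n : ℝ) := by
        unfold s7BudA
        rw [if_pos hk0]
      rw [e2]
      simpa only [s7ar_rate, hk0, if_true] using bNrm (s + 1) hts
    · by_cases hk3 : i.kind = 3
      · have e2 : s7BudA par i = (scQ (6 * par.g) n : ℝ) := by
          unfold s7BudA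
          rw [if_neg hk0, if_pos hk3]
        rw [e2]
        simpa only [s7ar_rate, if_neg hk0, if_pos hk3] using bGap (s + 1) hts
      · have e2 : s7BudA par i = 2 := by
          unfold s7BudA
          rw [if_neg hk0, if_neg hk3]
        rw [e2]
        simpa only [s7ar_rate, if_neg hk0, if_neg hk3] using b0 (s + 1) hts
  · -- extraction
    intro s hs path hH _ hacc
    have hx := hH.2.1 s le_rfl
    have h1 := hx.card
    have hlt : s7l2 par.g n < (path s).l := by omega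
    obtain ⟨n1, n2, n3⟩ := next φ π₀ (path s) s hstop hx hlt (path (s + 1)) (hH.2.2 s le_rfl)
    exact ⟨n1, n2, n3, ext φ π₀ (path (s + 1)) (by omega) (by omega) hacc⟩

end Claimed.Agent.R275
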