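import Claimed.Agent.R275.S7CoefB
import Claimed.Agent.R275.S7StepA
import Claimed.Agent.R275.S7Tools

/-!
# Row 275, Section 7, package S7-TRACESTEP: drift and variance of `Y = Tr D` under one pair update

Prover: helper76.  Statement `StS7TraceStep` in `R275/S7Step.lean` (helper245).  Helper prefix `s7ts_`.
`ΔY = - Tr BA - Tr H (K - ABA)` (`s7_traceId`), `H = H₀ - H₀ A H₀ + N₂`, `N₂ = H₀ A H A H₀`, `H₀ = -σh F + E₀`, `|E₀| ≤ 3/l`:
`ΔY = - Tr BA + σh Tr FBK + h² Tr FAFK + Rem`, `|Rem| ≤ C/l + C |A|²`;  `E Tr BA = 2Y/(l-1)`, `E Tr FBK = 0` (`s7_centId`),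
`∑ Tr FAFK = 2 (Y X + Tr D³ - 2 ∑ D_uu (D²)_uu)` (`s7_swapId`), `E |A|² ≤ C (T + 1)/l`.
-/

set_option autoImplicit false
set_option linter.unusedSectionVars false
set_option linter.unusedVariables false

namespace Claimed.Agent.R275

open Matrix

/-! ## Pointwise bounds (abstract `2 × 2` matrices) -/

section Point

variable {l : ℕ} {σ h : ℝ} {A K H : Matrix (Fin 2) (Fin 2) ℝ} {α κ c : ℝ}

/-- the algebraic form of the remainder -/
theorem s7ts_rem_eq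
    (hN2 : H - H0 l σ h + H0 l σ h * A * H0 l σ h = H0 l σ h * A * H * A * H0 l σ h) :
    (-(B2 ℝ l * A).trace - (H * (K - A * B2 ℝ l * A)).trace) + (B2 ℝ l * A).trace
        - σ * h * (F2 ℝ * B2 ℝ l * K).trace - (σ * h) ^ 2 * (F2 ℝ * A * F2 ℝ * K).trace
      = -(σ * h) * (F2 ℝ * A * (H0 l σ h - (-(σ * h)) • F2 ℝ) * K).trace
        + ((H0 l σ h - (-(σ * h)) • F2 ℝ) * A * H0 l σ h * K).trace
        - (H0 l σ h * A * H * A * H0 l σ h * K).trace + (H * A * B2 ℝ l * A).trace := by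
  obtain ⟨E, hE⟩ : ∃ E, E = H0 l σ h - (-(σ * h)) • F2 ℝ := ⟨_, rfl⟩
  have hX : H0 l σ h = (-(σ * h)) • F2 ℝ + E := by rw [hE]; abel
  have hH' : H = H0 l σ h - H0 l σ h * A * H0 l σ h + H0 l σ h * A * H * A * H0 l σ h := by
    rw [← hN2]; abel
  have e1 : (H * K).trace = (H0 l σ h * K).trace - (H0 l σ h * A * H0 l σ h * K).trace
      + (H0 l σ h * A * H * A * H0 l σ h * K).trace := by
    conv_lhs => rw [hH']
    simp only [Matrix.sub_mul, Matrix.add_mul, Matrix.trace_sub, Matrix.trace_add]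
  have e2 : (H0 l σ h * K).trace = -(σ * h) * (F2 ℝ * B2 ℝ l * K).trace := by
    unfold H0
    rw [Matrix.smul_mul, Matrix.trace_smul, smul_eq_mul]
  have e3 : (H0 l σ h * A * H0 l σ h * K).trace = (σ * h) ^ 2 * (F2 ℝ * A * F2 ℝ * K).trace
      + -(σ * h) * (F2 ℝ * A * E * K).trace + (E * A * H0 l σ h * K).trace := by
    have e4 : H0 l σ h * A * H0 l σ h = (σ * h) ^ 2 • (F2 ℝ * A * F2 ℝ)
        + (-(σ * h)) • (F2 ℝ * A * E) + E * A * H0 l σ h := by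
      have e4a : H0 l σ h * A * H0 l σ h
          = (-(σ * h)) • (F2 ℝ * A * H0 l σ h) + E * A * H0 l σ h := by
        nth_rewrite 1 [hX]
        rw [Matrix.add_mul, Matrix.add_mul, Matrix.smul_mul, Matrix.smul_mul]
      have e4b : F2 ℝ * A * H0 l σ h = (-(σ * h)) • (F2 ℝ * A * F2 ℝ) + F2 ℝ * A * E := by
        rw [hX, Matrix.mul_add, Matrix.mul_smul]
      rw [e4a, e4b, smul_add, smul_smul]
      congr 2
      ring_nf
    rw [e4]
    simp only [Matrix.add_mul, Matrix.smul_mul, Matrix.trace_add, Matrix.trace_smul, smul_eq_mul]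
  have e5 : (H * (K - A * B2 ℝ l * A)).trace = (H * K).trace - (H * A * B2 ℝ l * A).trace := by
    rw [Matrix.mul_sub, Matrix.trace_sub]
    simp only [Matrix.mul_assoc]
  rw [← hE, e5, e1, e2, e3]
  ring

theorem s7ts_rem_le (hl : 3 ≤ l) (hs : |σ * h| ≤ 1) (hA : s7nb A α) (hK : s7nb K κ) (hH : s7nb H c)
    (hN2 : H - H0 l σ h + H0 l σ h * A * H0 l σ h = H0 l σ h * A * H * A * H0 l σ h) :
    |(-(B2 ℝ l * A).trace - (H * (K - A * B2 ℝ l * A)).trace) + (B2 ℝ l * A).trace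
        - σ * h * (F2 ℝ * B2 ℝ l * K).trace - (σ * h) ^ 2 * (F2 ℝ * A * F2 ℝ * K).trace|
      ≤ 144 * (α * κ) / l + (256 * c * κ + 32 * c) * α ^ 2 := by
  have hl3 : (3 : ℝ) ≤ l := by exact_mod_cast hl
  have hα := hA.nonneg
  have hκ := hK.nonneg
  have hc := hH.nonneg
  have hE : s7nb (H0 l σ h - (-(σ * h)) • F2 ℝ) (3 / l) := by
    refine (s7t_nb_H0_sub hl σ h).mono ?_
    have : (0 : ℝ) ≤ 3 / l := by positivity
    nlinarith
  have hX : s7nb (H0 l σ h) 2 := (s7t_nb_H0 hl σ h).mono (by linarith)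
  have hB := s7t_nb_B2 hl
  have b1 := (((s7t_nb_F2.mul hA).mul hE).mul hK).trace
  have b2 := (((hE.mul hA).mul hX).mul hK).trace
  have b3 := (((((hX.mul hA).mul hH).mul hA).mul hX).mul hK).trace
  have b4 := (((hH.mul hA).mul hB).mul hA).trace
  rw [s7ts_rem_eq hN2]
  have b1' : |-(σ * h) * (F2 ℝ * A * (H0 l σ h - (-(σ * h)) • F2 ℝ) * K).trace|
      ≤ 2 * (2 * (2 * (2 * 1 * α) * (3 / l)) * κ) := by
    rw [abs_mul, abs_neg]
    calc |σ * h| * _ ≤ 1 * _ := mul_le_mul_of_nonneg_right hs (abs_nonneg _)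
      _ ≤ _ := by rw [one_mul]; exact b1
  have t := abs_add_le (-(σ * h) * (F2 ℝ * A * (H0 l σ h - (-(σ * h)) • F2 ℝ) * K).trace
        + ((H0 l σ h - (-(σ * h)) • F2 ℝ) * A * H0 l σ h * K).trace
        - (H0 l σ h * A * H * A * H0 l σ h * K).trace) ((H * A * B2 ℝ l * A).trace)
  have t2 := abs_sub (-(σ * h) * (F2 ℝ * A * (H0 l σ h - (-(σ * h)) • F2 ℝ) * K).trace
        + ((H0 l σ h - (-(σ * h)) • F2 ℝ) * A * H0 l σ h * K).trace)
        ((H0 l σ h * A * H * A * H0 l σ h * K).trace)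
  have t3 := abs_add_le (-(σ * h) * (F2 ℝ * A * (H0 l σ h - (-(σ * h)) • F2 ℝ) * K).trace)
        (((H0 l σ h - (-(σ * h)) • F2 ℝ) * A * H0 l σ h * K).trace)
  have e : 144 * (α * κ) / l + (256 * c * κ + 32 * c) * α ^ 2
      = 2 * (2 * (2 * (2 * 1 * α) * (3 / l)) * κ) + 2 * (2 * (2 * (2 * (3 / l) * α) * 2) * κ)
        + 2 * (2 * (2 * (2 * (2 * (2 * 2 * α) * c) * α) * 2) * κ)
        + 2 * (2 * (2 * (2 * c * α) * 2) * α) := by
    field_simp
    ring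
  rw [e]
  linarith

theorem s7ts_abs_le (hl : 3 ≤ l) (hs : |σ * h| ≤ 1) (hA : s7nb A α) (hα3 : α ≤ 3) (hK : s7nb K κ)
    (hH : s7nb H c) (hKs : K 1 0 = K 0 1) (hN1 : H - H0 l σ h = -(H0 l σ h * A * H)) :
    |-(B2 ℝ l * A).trace - (H * (K - A * B2 ℝ l * A)).trace|
      ≤ (8 + 32 * c * κ + 96 * c) * α + 2 * |K 0 1| + 12 * κ / l := by
  have hl3 : (3 : ℝ) ≤ l := by exact_mod_cast hl
  have hα := hA.nonneg
  have hκ := hK.nonneg
  have hc := hH.nonneg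
  have hE : s7nb (H0 l σ h - (-(σ * h)) • F2 ℝ) (3 / l) := by
    refine (s7t_nb_H0_sub hl σ h).mono ?_
    have : (0 : ℝ) ≤ 3 / l := by positivity
    nlinarith
  have hX : s7nb (H0 l σ h) 2 := (s7t_nb_H0 hl σ h).mono (by linarith)
  have hB := s7t_nb_B2 hl
  obtain ⟨E, hEd⟩ : ∃ E, E = H0 l σ h - (-(σ * h)) • F2 ℝ := ⟨_, rfl⟩
  rw [← hEd] at hE
  have hXE : H0 l σ h = (-(σ * h)) • F2 ℝ + E := by rw [hEd]; abel
  have hH' : H = (-(σ * h)) • F2 ℝ + E - H0 l σ h * A * H := by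
    rw [← hXE, sub_eq_add_neg, ← hN1]; abel
  have e1 : (H * K).trace = -(σ * h) * (2 * K 0 1) + (E * K).trace
      - (H0 l σ h * A * H * K).trace := by
    conv_lhs => rw [hH']
    simp only [Matrix.sub_mul, Matrix.add_mul, Matrix.trace_sub, Matrix.trace_add, Matrix.smul_mul,
      Matrix.trace_smul, smul_eq_mul]
    have : (F2 ℝ * K).trace = 2 * K 0 1 := by
      simp [Matrix.trace_fin_two, Matrix.mul_apply, Fin.sum_univ_two, F2, hKs]
      ring
    rw [this]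
  have e5 : (H * (K - A * B2 ℝ l * A)).trace = (H * K).trace - (H * A * B2 ℝ l * A).trace := by
    rw [Matrix.mul_sub, Matrix.trace_sub]
    simp only [Matrix.mul_assoc]
  have b0 := (hB.mul hA).trace
  have b1 := (hE.mul hK).trace
  have b2 := (((hX.mul hA).mul hH).mul hK).trace
  have b4 := (((hH.mul hA).mul hB).mul hA).trace
  have b5 : |-(σ * h) * (2 * K 0 1)| ≤ 2 * |K 0 1| := by
    rw [abs_mul, abs_neg, abs_mul 2 (K 0 1), abs_two]
    calc |σ * h| * (2 * |K 0 1|) ≤ 1 * (2 * |K 0 1|) :=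
          mul_le_mul_of_nonneg_right hs (by positivity)
      _ = 2 * |K 0 1| := one_mul _
  have b6 : c * α * α ≤ c * α * 3 := mul_le_mul_of_nonneg_left hα3 (mul_nonneg hc hα)
  rw [e5, e1]
  have e : 12 * κ / l = 2 * (2 * (3 / l) * κ) := by field_simp; ring
  rw [e]
  rw [abs_le] at b0 b1 b2 b4 b5 ⊢
  constructor <;> nlinarith [b0.1, b0.2, b1.1, b1.2, b2.1, b2.2, b4.1, b4.2, b5.1, b5.2]

theorem s7ts_sq_le (hl : 3 ≤ l) (hs : |σ * h| ≤ 1) (hA : s7nb A α) (hα3 : α ≤ 3) (hK : s7nb K κ)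
    (hH : s7nb H c) (hKs : K 1 0 = K 0 1) (hN1 : H - H0 l σ h = -(H0 l σ h * A * H)) :
    (-(B2 ℝ l * A).trace - (H * (K - A * B2 ℝ l * A)).trace) ^ 2
      ≤ 3 * (8 + 32 * c * κ + 96 * c) ^ 2 * α ^ 2 + 12 * (K 0 1) ^ 2 + 432 * κ ^ 2 / l ^ 2 := by
  have hl3 : (3 : ℝ) ≤ l := by exact_mod_cast hl
  have h1 := s7ts_abs_le hl hs hA hα3 hK hH hKs hN1
  have hα := hA.nonneg
  have hκ := hK.nonneg
  have hc := hH.nonneg
  obtain ⟨p, hp⟩ : ∃ p, p = (8 + 32 * c * κ + 96 * c) * α := ⟨_, rfl⟩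
  obtain ⟨r, hr⟩ : ∃ r, r = 12 * κ / l := ⟨_, rfl⟩
  have e1 : 3 * (8 + 32 * c * κ + 96 * c) ^ 2 * α ^ 2 = 3 * p ^ 2 := by rw [hp]; ring
  have e2 : 432 * κ ^ 2 / l ^ 2 = 3 * r ^ 2 := by rw [hr]; field_simp; ring
  have e3 : 12 * (K 0 1) ^ 2 = 3 * (2 * |K 0 1|) ^ 2 := by rw [mul_pow, sq_abs]; ring
  rw [e1, e2, e3, ← sq_abs (-(B2 ℝ l * A).trace - (H * (K - A * B2 ℝ l * A)).trace)]
  rw [← hp, ← hr] at h1
  have h0 := abs_nonneg (-(B2 ℝ l * A).trace - (H * (K - A * B2 ℝ l * A)).trace)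
  have h2 : |-(B2 ℝ l * A).trace - (H * (K - A * B2 ℝ l * A)).trace| ^ 2
      ≤ (p + 2 * |K 0 1| + r) ^ 2 := pow_le_pow_left₀ h0 h1 2
  nlinarith [sq_nonneg (p - 2 * |K 0 1|), sq_nonneg (p - r), sq_nonneg (2 * |K 0 1| - r)]

end Point

/-! ## Averages -/

section Avg

variable {ι : Type*} [Fintype ι] [DecidableEq ι] {R : Finset ι} {D : Matrix ι ι ℝ} {C0 Z : ℝ}

theorem s7ts_div {L x S : ℝ} (hL : 2 ≤ L) (hx : 0 ≤ x) (hS : S ≤ x * L) :
    S / (L * (L - 1)) ≤ 2 * x / L := by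
  rw [div_le_div_iff₀ (mul_pos (by linarith) (by linarith)) (by linarith)]
  nlinarith [mul_nonneg hx (by linarith : (0 : ℝ) ≤ L), mul_nonneg (mul_nonneg hx (by linarith : (0 : ℝ) ≤ L)) (by linarith : (0 : ℝ) ≤ L - 2)]

theorem s7ts_abs_avg_le (hl : 2 ≤ R.card) {f g : ι → ι → ℝ}
    (h : ∀ u ∈ R, ∀ v ∈ R, u ≠ v → |f u v| ≤ g u v) : |s7avg R f| ≤ s7avg R g := by
  rw [abs_le]
  constructor
  · have := s7t_avg_mono hl (f := fun u v => (-1) * f u v) (g := g)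
      (fun u hu v hv huv => by have := (abs_le.1 (h u hu v hv huv)).1; linarith)
    rw [s7t_avg_smul] at this
    linarith
  · exact s7t_avg_mono hl (fun u hu v hv huv => (abs_le.1 (h u hu v hv huv)).2)

theorem s7ts_X_eq_sum (hs : Dᵀ = D) : ∑ u, ∑ v, D u v ^ 2 = s7X D := by
  unfold s7X
  rw [Matrix.trace]
  exact Finset.sum_congr rfl (fun u _ => (s7t_sq_diag hs u).symm)

theorem s7ts_avg_a2 (hl : 2 ≤ R.card) (hs : Dᵀ = D) (hc : s7Pi ℝ R * D = D)
    (hr : ∀ x, (D * D) x x ≤ C0) (hC0 : 0 ≤ C0) :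
    s7avg R (fun u v => D u u ^ 2 + D v v ^ 2 + D u v ^ 2) ≤ (2 * s7T D + 2 * C0) / R.card := by
  have hL : (2 : ℝ) ≤ R.card := by exact_mod_cast hl
  have hL0 : (0 : ℝ) < R.card := by linarith
  rw [s7t_avg_add R (fun u v => D u u ^ 2 + D v v ^ 2) (fun u v => D u v ^ 2),
    s7t_avg_add R (fun u _ => D u u ^ 2) (fun _ v => D v v ^ 2), s7t_avg_fst hl, s7t_avg_snd hl]
  have h1 : (∑ u ∈ R, D u u ^ 2) / (R.card : ℝ) ≤ s7T D / R.card :=
    div_le_div_of_nonneg_right (s7t_sum_diag_sq_le D R) hL0.le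
  have h2 : s7avg R (fun u v => D u v ^ 2) ≤ 2 * C0 / R.card := by
    refine (s7t_avg_le_full hl _ (fun u v => sq_nonneg _)).trans ?_
    rw [s7ts_X_eq_sum hs]
    exact s7ts_div hL hC0 (s7t_X_le hs hc hr)
  have e : (2 * s7T D + 2 * C0) / (R.card : ℝ) = s7T D / R.card + s7T D / R.card + 2 * C0 / R.card := by
    ring
  rw [e]
  linarith

theorem s7ts_avg_K (hl : 2 ≤ R.card) (hs : Dᵀ = D) (hc : s7Pi ℝ R * D = D)
    (hr : ∀ x, (D * D) x x ≤ C0) (hC0 : 0 ≤ C0) (hZ : s7opLE D Z) :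
    s7avg R (fun u v => (D * D) u v ^ 2) ≤ 2 * (Z ^ 2 * C0) / R.card := by
  have hL : (2 : ℝ) ≤ R.card := by exact_mod_cast hl
  refine (s7t_avg_le_full hl _ (fun u v => sq_nonneg _)).trans ?_
  refine s7ts_div hL (by positivity) ((s7t_sq_fro hs hZ).trans ?_)
  have := mul_le_mul_of_nonneg_left (s7t_X_le hs hc hr) (sq_nonneg Z)
  linarith

theorem s7ts_sum_diag (hc : s7Pi ℝ R * D = D) : ∑ u ∈ R, D u u = D.trace := by
  rw [Matrix.trace]
  exact Finset.sum_subset (Finset.subset_univ _) (fun x _ hx => s7t_row_zero hc hx x)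

theorem s7ts_S3 (hs : Dᵀ = D) (hc : s7Pi ℝ R * D = D) (hZ : s7opLE D Z) :
    |∑ u ∈ R, ∑ v ∈ R, D u v * (D * D) u v| ≤ Z * s7X D := by
  have e : ∀ u, ∑ v ∈ R, D u v * (D * D) u v = (D * D * D) u u := by
    intro u
    rw [Matrix.mul_apply (M := D * D) (N := D)]
    rw [Finset.sum_subset (Finset.subset_univ R) (fun v _ hv => by
      rw [s7t_symm_apply hs u v, s7t_row_zero hc hv, zero_mul])]
    exact Finset.sum_congr rfl (fun v _ => by rw [s7t_symm_apply hs v u]; ring)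
  simp only [e]
  rw [s7t_X_eq hs hc, Finset.mul_sum]
  refine (Finset.abs_sum_le_sum_abs _ _).trans (Finset.sum_le_sum (fun u _ => ?_))
  have := s7t_cube_le hs hZ u u
  rwa [Real.mul_self_sqrt (s7t_sq_diag_nonneg hs u)] at this

theorem s7ts_S21 (hs : Dᵀ = D) (hr : ∀ x, (D * D) x x ≤ C0) (hC0 : 0 ≤ C0) :
    |∑ u ∈ R, D u u * (D * D) u u| ≤ C0 * ((R.card : ℝ) + s7T D) := by
  refine (Finset.abs_sum_le_sum_abs _ _).trans ?_
  calc ∑ u ∈ R, |D u u * (D * D) u u| ≤ ∑ u ∈ R, C0 * (1 + D u u ^ 2) := by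
        refine Finset.sum_le_sum (fun u _ => ?_)
        rw [abs_mul, abs_of_nonneg (s7t_sq_diag_nonneg hs u)]
        have h1 : |D u u| ≤ 1 + D u u ^ 2 := by
          rw [← sq_abs (D u u)]
          nlinarith [sq_nonneg (|D u u| - 1), abs_nonneg (D u u)]
        calc |D u u| * (D * D) u u ≤ |D u u| * C0 := mul_le_mul_of_nonneg_left (hr u) (abs_nonneg _)
          _ ≤ (1 + D u u ^ 2) * C0 := mul_le_mul_of_nonneg_right h1 hC0
          _ = C0 * (1 + D u u ^ 2) := mul_comm _ _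
    _ = C0 * ((R.card : ℝ) + ∑ u ∈ R, D u u ^ 2) := by
        rw [← Finset.mul_sum, Finset.sum_add_distrib, Finset.sum_const, nsmul_eq_mul, mul_one]
    _ ≤ C0 * ((R.card : ℝ) + s7T D) :=
        mul_le_mul_of_nonneg_left (by linarith [s7t_sum_diag_sq_le D R]) hC0

theorem s7ts_nb_blk (hs : Dᵀ = D) (u v : ι) :
    s7nb (s7blk D u v) (|D u u| + |D v v| + |D u v|) := by
  have h1 := abs_nonneg (D u u)
  have h2 := abs_nonneg (D v v)
  have h3 := abs_nonneg (D u v)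
  have h4 : D v u = D u v := s7t_symm_apply hs v u
  intro i j
  fin_cases i <;> fin_cases j <;> simp [s7blk, h4] <;> linarith

theorem s7ts_nb_blk_sq (hs : Dᵀ = D) (hr : ∀ x, (D * D) x x ≤ C0) (u v : ι) :
    s7nb (s7blk (D * D) u v) C0 := by
  intro i j
  unfold s7blk
  refine (s7t_sq_offdiag hs _ _).trans ?_
  have := hr (if i = 0 then u else v)
  have := hr (if j = 0 then u else v)
  linarith

end Avg

set_option maxHeartbeats 1600000 in
/-- **S7-STEP-10**: drift and variance of `Y = Tr D`. -/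
theorem s7_traceStep : StS7TraceStep := by
  intro hmin C0 hm hC0
  obtain ⟨C1, ε1, l1, hC1, hε1, hP⟩ := s7_coefPt hmin C0 hm hC0
  obtain ⟨c2, hc2⟩ : ∃ c2, c2 = 256 * C1 * C0 + 32 * C1 := ⟨_, rfl⟩
  obtain ⟨c3, hc3⟩ : ∃ c3, c3 = 8 + 32 * C1 * C0 + 96 * C1 := ⟨_, rfl⟩
  have hc2p : 0 ≤ c2 := by rw [hc2]; positivity
  have hc3p : 0 ≤ c3 := by rw [hc3]; positivity
  refine ⟨440 * C0 + 6 * c2 * (1 + C0) + 18 * c3 ^ 2 * (1 + C0) + 24 * C0 + 432 * C0 ^ 2 + 1,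
    min ε1 1, max l1 3, by positivity, lt_min hε1 one_pos, ?_⟩
  intro ι _ _ σ h ε R D hB hε hl Z hZ
  have hl1 : l1 ≤ R.card := (le_max_left _ _).trans hl
  have hl3 : 3 ≤ R.card := (le_max_right _ _).trans hl
  have hl2 : 2 ≤ R.card := by omega
  have hεa : ε ≤ ε1 := hε.trans (min_le_left _ _)
  have hεb : ε ≤ 1 := hε.trans (min_le_right _ _)
  have h0 : 0 < h := lt_of_lt_of_le hm hB.h_lo
  have hσ2 : σ ^ 2 = 1 := by rcases hB.sig with e | e <;> rw [e] <;> norm_num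
  have hσa : |σ| = 1 := by rcases hB.sig with e | e <;> rw [e] <;> norm_num
  have hsh : |σ * h| ≤ 1 := by
    rw [abs_mul, hσa, one_mul, abs_of_pos h0]; linarith [hB.h_hi]
  have hsh2 : (σ * h) ^ 2 = h ^ 2 := by rw [mul_pow, hσ2, one_mul]
  have hh2 : h ^ 2 ≤ 1 := by nlinarith [hB.h_hi]
  have hs := hB.symm
  have hc := hB.cent
  have hr := hB.row
  have hT := s7t_T_nonneg D
  have hZ0 := hZ.1
  obtain ⟨L, hLd⟩ : ∃ L : ℝ, L = R.card := ⟨_, rfl⟩
  have hL : (3 : ℝ) ≤ L := by rw [hLd]; exact_mod_cast hl3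
  have hL0 : (0 : ℝ) < L := by linarith
  -- the four functions
  obtain ⟨f, hf⟩ : ∃ f : ι → ι → ℝ, ∀ u v, f u v = s7Y (s7Dstep σ h R D u v) - s7Y D :=
    ⟨_, fun _ _ => rfl⟩
  obtain ⟨f1, hf1⟩ : ∃ f1 : ι → ι → ℝ, ∀ u v, f1 u v = (B2 ℝ R.card * s7blk D u v).trace :=
    ⟨_, fun _ _ => rfl⟩
  obtain ⟨f2, hf2⟩ : ∃ f2 : ι → ι → ℝ, ∀ u v,
      f2 u v = (F2 ℝ * B2 ℝ R.card * s7blk (D * D) u v).trace := ⟨_, fun _ _ => rfl⟩
  obtain ⟨f3, hf3⟩ : ∃ f3 : ι → ι → ℝ, ∀ u v,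
      f3 u v = (F2 ℝ * s7blk D u v * F2 ℝ * s7blk (D * D) u v).trace := ⟨_, fun _ _ => rfl⟩
  obtain ⟨a2, ha2⟩ : ∃ a2 : ι → ι → ℝ, ∀ u v, a2 u v = D u u ^ 2 + D v v ^ 2 + D u v ^ 2 :=
    ⟨_, fun _ _ => rfl⟩
  have hfe : (fun u v => s7Y (s7Dstep σ h R D u v) - s7Y D) = f := by funext u v; rw [hf]
  have hfe2 : (fun u v => (s7Y (s7Dstep σ h R D u v) - s7Y D) ^ 2) = fun u v => f u v ^ 2 := by
    funext u v; rw [hf]
  rw [hfe, hfe2, ← hLd]
  -- pointwise facts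
  have hpt : ∀ u ∈ R, ∀ v ∈ R, u ≠ v →
      (f u v = -(B2 ℝ R.card * s7blk D u v).trace - (s7H R.card σ h D u v *
        (s7blk (D * D) u v - s7blk D u v * B2 ℝ R.card * s7blk D u v)).trace) ∧
      s7nb (s7H R.card σ h D u v) C1 ∧
      (s7H R.card σ h D u v - H0 R.card σ h
        = -(H0 R.card σ h * s7blk D u v * s7H R.card σ h D u v)) ∧
      (s7H R.card σ h D u v - H0 R.card σ h + H0 R.card σ h * s7blk D u v * H0 R.card σ h
        = H0 R.card σ h * s7blk D u v * s7H R.card σ h D u v * s7blk D u v * H0 R.card σ h) := by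
    intro u hu v hv huv
    obtain ⟨hU, hHb, -⟩ := hP ι σ h ε R D hB hεa hl1 u hu v hv huv
    obtain ⟨r1, -, r3⟩ := s7_hResolvent ℝ ι R.card σ h D u v (by omega) hσ2 h0.ne' hU
    refine ⟨?_, hHb, r1, r3⟩
    rw [hf]
    exact s7_traceId ℝ ι σ h R D u v hu hv huv (by omega) hs hc
  have hα3 : ∀ u v, |D u u| + |D v v| + |D u v| ≤ 3 := by
    intro u v
    have := hB.ent u u
    have := hB.ent v v
    have := hB.ent u v
    linarith
  have hαsq : ∀ u v, (|D u u| + |D v v| + |D u v|) ^ 2 ≤ 3 * a2 u v := by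
    intro u v
    rw [ha2, ← sq_abs (D u u), ← sq_abs (D v v), ← sq_abs (D u v)]
    nlinarith [sq_nonneg (|D u u| - |D v v|), sq_nonneg (|D u u| - |D u v|),
      sq_nonneg (|D v v| - |D u v|)]
  have hα0 : ∀ u v, 0 ≤ |D u u| + |D v v| + |D u v| := fun u v => by positivity
  have hava2 : s7avg R a2 ≤ (2 * s7T D + 2 * C0) / L := by
    have := s7ts_avg_a2 hl2 hs hc hr hC0.le
    rw [← hLd] at this
    have e : a2 = fun u v => D u u ^ 2 + D v v ^ 2 + D u v ^ 2 := by funext u v; rw [ha2]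
    rw [e]; exact this
  constructor
  · -- the mean
    have hrem : |s7avg R (fun u v => f u v + f1 u v - σ * h * f2 u v - (σ * h) ^ 2 * f3 u v)|
        ≤ 432 * C0 / L + 3 * c2 * ((2 * s7T D + 2 * C0) / L) := by
      refine (s7ts_abs_avg_le hl2 (g := fun u v => 432 * C0 / L + 3 * c2 * a2 u v) ?_).trans ?_
      · intro u hu v hv huv
        obtain ⟨e1, hH, -, r3⟩ := hpt u hu v hv huv
        rw [e1, hf1, hf2, hf3]
        refine (s7ts_rem_le hl3 hsh (s7ts_nb_blk hs u v) (s7ts_nb_blk_sq hs hr u v) hH r3).trans ?_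
        rw [← hc2, ← hLd]
        have t1 : 144 * ((|D u u| + |D v v| + |D u v|) * C0) / L ≤ 432 * C0 / L := by
          refine div_le_div_of_nonneg_right ?_ hL0.le
          nlinarith [hα3 u v]
        have t2 : c2 * (|D u u| + |D v v| + |D u v|) ^ 2 ≤ 3 * c2 * a2 u v := by
          have := mul_le_mul_of_nonneg_left (hαsq u v) hc2p
          linarith
        linarith
      · rw [s7t_avg_add R (fun _ _ => 432 * C0 / L) (fun u v => 3 * c2 * a2 u v),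
          s7t_avg_const hl2, s7t_avg_smul]
        have := mul_le_mul_of_nonneg_left hava2 (by positivity : (0 : ℝ) ≤ 3 * c2)
        linarith
    have hlin : s7avg R (fun u v => f u v + f1 u v - σ * h * f2 u v - (σ * h) ^ 2 * f3 u v)
        = s7avg R f + s7avg R f1 - σ * h * s7avg R f2 - (σ * h) ^ 2 * s7avg R f3 := by
      rw [s7t_avg_sub R (fun u v => f u v + f1 u v - σ * h * f2 u v)
          (fun u v => (σ * h) ^ 2 * f3 u v),
        s7t_avg_sub R (fun u v => f u v + f1 u v) (fun u v => σ * h * f2 u v),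
        s7t_avg_add R f f1, s7t_avg_smul, s7t_avg_smul]
    have hA1 : s7avg R f1 = 2 * D.trace / (L - 1) := by
      have := (s7_centId ℝ ι R D (by omega) hs hc).2
      rw [← hLd] at this
      rw [← this]
      congr 1
      funext u v; rw [hf1]
    have hA2 : s7avg R f2 = 0 := by
      have := (s7_centId ℝ ι R (D * D) (by omega) (s7t_sq_symm hs) (s7t_sq_cent hc)).1
      rw [← this]
      congr 1
      funext u v; rw [hf2]
    obtain ⟨S3, hS3⟩ : ∃ S3, S3 = ∑ u ∈ R, ∑ v ∈ R, D u v * (D * D) u v := ⟨_, rfl⟩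
    obtain ⟨S21, hS21⟩ : ∃ S21, S21 = ∑ u ∈ R, D u u * (D * D) u u := ⟨_, rfl⟩
    have hA3 : s7avg R f3 = 2 * (D.trace * s7X D + S3 - 2 * S21) / (L * (L - 1)) := by
      have := s7_swapId ℝ ι R D (D * D) hs (s7t_sq_symm hs)
      rw [s7ts_sum_diag hc, ← s7t_X_eq hs hc, ← hS3, ← hS21] at this
      unfold s7avg
      rw [← hLd, ← this]
      congr 1
      exact Finset.sum_congr rfl (fun u _ => Finset.sum_congr rfl (fun v _ => hf3 u v))
    have hS3b : |S3| ≤ Z * (C0 * L) := by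
      rw [hS3, hLd]
      exact (s7ts_S3 hs hc hZ).trans (mul_le_mul_of_nonneg_left (s7t_X_le hs hc hr) hZ0)
    have hS21b : |S21| ≤ C0 * (L + s7T D) := by
      rw [hS21, hLd]
      exact s7ts_S21 hs hr hC0.le
    have hW : |2 * (S3 - 2 * S21) / (L * (L - 1))| ≤ 2 * (2 * C0 * (Z + 2 + 2 * s7T D)) / L := by
      rw [abs_div, abs_of_pos (mul_pos hL0 (by linarith : (0 : ℝ) < L - 1))]
      refine s7ts_div (by linarith) (by positivity) ?_
      rw [abs_mul, abs_two]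
      have t := abs_sub S3 (2 * S21)
      rw [abs_mul, abs_two] at t
      have t4 : C0 * s7T D ≤ C0 * s7T D * L := by
        have : 0 ≤ C0 * s7T D := by positivity
        nlinarith
      nlinarith
    have key : s7avg R f - (-2 / (L - 1) + 2 * h ^ 2 * s7X D / (L * (L - 1))) * s7Y D
        = s7avg R (fun u v => f u v + f1 u v - σ * h * f2 u v - (σ * h) ^ 2 * f3 u v)
          + h ^ 2 * (2 * (S3 - 2 * S21) / (L * (L - 1))) := by
      rw [hlin, hA1, hA2, hA3, hsh2]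
      unfold s7Y
      have hL1 : L - 1 ≠ 0 := by linarith
      field_simp
      ring
    rw [key]
    have hW2 : |h ^ 2 * (2 * (S3 - 2 * S21) / (L * (L - 1)))|
        ≤ 2 * (2 * C0 * (Z + 2 + 2 * s7T D)) / L := by
      rw [abs_mul, abs_of_nonneg (sq_nonneg h)]
      calc h ^ 2 * _ ≤ 1 * _ := mul_le_mul_of_nonneg_right hh2 (abs_nonneg _)
        _ ≤ _ := by rw [one_mul]; exact hW
    refine (abs_add_le _ _).trans ((add_le_add hrem hW2).trans ?_)
    have e : 432 * C0 / L + 3 * c2 * ((2 * s7T D + 2 * C0) / L)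
        + 2 * (2 * C0 * (Z + 2 + 2 * s7T D)) / L
        = (432 * C0 + 3 * c2 * (2 * s7T D + 2 * C0) + 2 * (2 * C0 * (Z + 2 + 2 * s7T D))) / L := by
      ring
    rw [e]
    refine div_le_div_of_nonneg_right ?_ hL0.le
    have p1 : 0 ≤ c2 * C0 := by positivity
    have p2 : 0 ≤ c2 * Z := by positivity
    have p3 : 0 ≤ c2 * C0 * Z := by positivity
    have p4 : 0 ≤ c2 * C0 * s7T D := by positivity
    have p5 : 0 ≤ c3 ^ 2 * (1 + C0) * (1 + Z + s7T D) := by positivity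
    have p6 : 0 ≤ C0 * Z := by positivity
    have p7 : 0 ≤ C0 * s7T D := by positivity
    have p8 : 0 ≤ C0 ^ 2 * (1 + Z + s7T D) := by positivity
    nlinarith
  · -- the second moment
    have hK2 := s7ts_avg_K hl2 hs hc hr hC0.le hZ
    rw [← hLd] at hK2
    have hpw : s7avg R (fun u v => f u v ^ 2)
        ≤ s7avg R (fun u v => 9 * c3 ^ 2 * a2 u v + 12 * (D * D) u v ^ 2 + 432 * C0 ^ 2 / L ^ 2) := by
      refine s7t_avg_mono hl2 (fun u hu v hv huv => ?_)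
      obtain ⟨e1, hH, r1, -⟩ := hpt u hu v hv huv
      rw [e1]
      have hKs : s7blk (D * D) u v 1 0 = s7blk (D * D) u v 0 1 := by
        simp only [s7blk]
        exact s7t_symm_apply (s7t_sq_symm hs) _ _
      refine (s7ts_sq_le hl3 hsh (s7ts_nb_blk hs u v) (hα3 u v) (s7ts_nb_blk_sq hs hr u v) hH hKs
        r1).trans ?_
      rw [← hc3, ← hLd]
      have e2 : s7blk (D * D) u v 0 1 = (D * D) u v := by simp [s7blk]
      rw [e2]
      have t2 : 3 * c3 ^ 2 * (|D u u| + |D v v| + |D u v|) ^ 2 ≤ 9 * c3 ^ 2 * a2 u v := by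
        have := mul_le_mul_of_nonneg_left (hαsq u v) (by positivity : (0 : ℝ) ≤ 3 * c3 ^ 2)
        linarith
      linarith
    refine hpw.trans ?_
    rw [s7t_avg_add R (fun u v => 9 * c3 ^ 2 * a2 u v + 12 * (D * D) u v ^ 2)
        (fun _ _ => 432 * C0 ^ 2 / L ^ 2),
      s7t_avg_add R (fun u v => 9 * c3 ^ 2 * a2 u v) (fun u v => 12 * (D * D) u v ^ 2),
      s7t_avg_const hl2, s7t_avg_smul, s7t_avg_smul]
    have t1 := mul_le_mul_of_nonneg_left hava2 (by positivity : (0 : ℝ) ≤ 9 * c3 ^ 2)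
    have t3 : 432 * C0 ^ 2 / L ^ 2 ≤ 432 * C0 ^ 2 / L := by
      refine div_le_div_of_nonneg_left (by positivity) hL0 ?_
      nlinarith
    refine (add_le_add (add_le_add t1 (mul_le_mul_of_nonneg_left hK2 (by norm_num))) t3).trans ?_
    have e : 9 * c3 ^ 2 * ((2 * s7T D + 2 * C0) / L) + 12 * (2 * (Z ^ 2 * C0) / L) + 432 * C0 ^ 2 / L
        = (9 * c3 ^ 2 * (2 * s7T D + 2 * C0) + 12 * (2 * (Z ^ 2 * C0)) + 432 * C0 ^ 2) / L := by
      ring
    rw [e]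
    refine div_le_div_of_nonneg_right ?_ hL0.le
    have hZ2 := sq_nonneg Z
    have p1 : 0 ≤ c3 ^ 2 * C0 := by positivity
    have p2 : 0 ≤ c3 ^ 2 * Z ^ 2 := by positivity
    have p3 : 0 ≤ c3 ^ 2 * C0 * Z ^ 2 := by positivity
    have p4 : 0 ≤ c3 ^ 2 * C0 * s7T D := by positivity
    have p5 : 0 ≤ c2 * (1 + C0) * (1 + Z ^ 2 + s7T D) := by positivity
    have p6 : 0 ≤ C0 * Z ^ 2 := by positivity
    have p7 : 0 ≤ C0 * s7T D := by positivity
    have p8 : 0 ≤ C0 ^ 2 * (Z ^ 2 + s7T D) := by positivity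
    have p9 : 0 ≤ c3 ^ 2 := by positivity
    nlinarith

end Claimed.Agent.R275
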