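import Claimed.Agent.R275.S7CoefC
import Claimed.Agent.R275.S7StepA
import Claimed.Agent.R275.S7Tools
import Claimed.Agent.R275.S7TraceStep

/-!
# Row 275, Section 7, package S7-ROWSTEP: the energy of a centred row under one homogeneous pair update

Prover: helper76.  Statement `StS7RowStep` in `R275/S7Step.lean` (helper245).  Helper prefix `s7rw_`.
`Δ = ‖r'‖² - ‖r‖² = - aᵀBa - 2 (b - ABa)ᵀ H a + aᵀ H (K - ABA) H a` (`s7_rowId`, `k = 0`), `a = (r_u, r_v)`, `b = ((Dr)_u, (Dr)_v)`.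
`H = -σh F + E₀ + N₁`, `|E₀| ≤ 3/l`, `|N₁| ≤ C ε`:
`Δ ≤ -(r_u² + r_v²) + 2σh (s_u r_v + s_v r_u) + h² (r_v² K_uu + r_u² K_vv + 2 r_u r_v K_uv)
      + (6/l)(|s_u|+|s_v|)(|r_u|+|r_v|) + 2 |N₁|(|s|,|r|) + C (ε + G/l)(|r_u|+|r_v|)²`,  `s = D r`.
-/

set_option autoImplicit false
set_option linter.unusedSectionVars false
set_option linter.unusedVariables false

namespace Claimed.Agent.R275

open Matrix

/-! ## Bilinear forms of `2 × 2` matrices -/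

section Two

variable {N N' : Matrix (Fin 2) (Fin 2) ℝ} {a b : Fin 2 → ℝ} {c : ℝ}

/-- `ℓ¹` norm of a two-entry array -/
def s7rwN (a : Fin 2 → ℝ) : ℝ := |a 0| + |a 1|

theorem s7rw_N_nonneg (a : Fin 2 → ℝ) : 0 ≤ s7rwN a := by unfold s7rwN; positivity

theorem s7rw_q_eq (N : Matrix (Fin 2) (Fin 2) ℝ) (a b : Fin 2 → ℝ) :
    s7q N a b = a 0 * (N 0 0 * b 0 + N 0 1 * b 1) + a 1 * (N 1 0 * b 0 + N 1 1 * b 1) := by
  simp [s7q, dotProduct, Matrix.mulVec, Fin.sum_univ_two]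

theorem s7rw_q_le (hN : s7nb N c) (a b : Fin 2 → ℝ) : |s7q N a b| ≤ c * (s7rwN a * s7rwN b) := by
  rw [s7rw_q_eq]
  unfold s7rwN
  have hc := hN.nonneg
  have h1 : |a 0 * (N 0 0 * b 0)| ≤ c * (|a 0| * |b 0|) := by
    rw [abs_mul, abs_mul]
    nlinarith [hN 0 0, abs_nonneg (a 0), abs_nonneg (b 0), mul_nonneg (abs_nonneg (a 0)) (abs_nonneg (b 0))]
  have h2 : |a 0 * (N 0 1 * b 1)| ≤ c * (|a 0| * |b 1|) := by
    rw [abs_mul, abs_mul]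
    nlinarith [hN 0 1, abs_nonneg (a 0), abs_nonneg (b 1), mul_nonneg (abs_nonneg (a 0)) (abs_nonneg (b 1))]
  have h3 : |a 1 * (N 1 0 * b 0)| ≤ c * (|a 1| * |b 0|) := by
    rw [abs_mul, abs_mul]
    nlinarith [hN 1 0, abs_nonneg (a 1), abs_nonneg (b 0), mul_nonneg (abs_nonneg (a 1)) (abs_nonneg (b 0))]
  have h4 : |a 1 * (N 1 1 * b 1)| ≤ c * (|a 1| * |b 1|) := by
    rw [abs_mul, abs_mul]
    nlinarith [hN 1 1, abs_nonneg (a 1), abs_nonneg (b 1), mul_nonneg (abs_nonneg (a 1)) (abs_nonneg (b 1))]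
  rw [abs_le] at h1 h2 h3 h4 ⊢
  constructor <;> nlinarith [h1.1, h1.2, h2.1, h2.2, h3.1, h3.2, h4.1, h4.2]

theorem s7rw_q_add (N N' : Matrix (Fin 2) (Fin 2) ℝ) (a b : Fin 2 → ℝ) :
    s7q (N + N') a b = s7q N a b + s7q N' a b := by
  simp only [s7rw_q_eq, Matrix.add_apply]; ring

theorem s7rw_q_sub (N N' : Matrix (Fin 2) (Fin 2) ℝ) (a b : Fin 2 → ℝ) :
    s7q (N - N') a b = s7q N a b - s7q N' a b := by
  simp only [s7rw_q_eq, Matrix.sub_apply]; ring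

theorem s7rw_q_smul (t : ℝ) (N : Matrix (Fin 2) (Fin 2) ℝ) (a b : Fin 2 → ℝ) :
    s7q (t • N) a b = t * s7q N a b := by
  simp only [s7rw_q_eq, Matrix.smul_apply, smul_eq_mul]; ring

theorem s7rw_q_sub_left (N : Matrix (Fin 2) (Fin 2) ℝ) (a a' b : Fin 2 → ℝ) :
    s7q N (a - a') b = s7q N a b - s7q N a' b := by
  simp only [s7rw_q_eq, Pi.sub_apply]; ring

theorem s7rw_N_mulVec (hN : s7nb N c) (a : Fin 2 → ℝ) : s7rwN (N *ᵥ a) ≤ 2 * c * s7rwN a := by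
  unfold s7rwN
  simp only [Matrix.mulVec, dotProduct, Fin.sum_univ_two]
  have hc := hN.nonneg
  have h1 : |N 0 0 * a 0 + N 0 1 * a 1| ≤ c * |a 0| + c * |a 1| := by
    refine (abs_add_le _ _).trans ?_
    rw [abs_mul, abs_mul]
    exact add_le_add (mul_le_mul_of_nonneg_right (hN 0 0) (abs_nonneg _))
      (mul_le_mul_of_nonneg_right (hN 0 1) (abs_nonneg _))
  have h2 : |N 1 0 * a 0 + N 1 1 * a 1| ≤ c * |a 0| + c * |a 1| := by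
    refine (abs_add_le _ _).trans ?_
    rw [abs_mul, abs_mul]
    exact add_le_add (mul_le_mul_of_nonneg_right (hN 1 0) (abs_nonneg _))
      (mul_le_mul_of_nonneg_right (hN 1 1) (abs_nonneg _))
  linarith

/-- the absolute bilinear form -/
theorem s7rw_q_abs (N : Matrix (Fin 2) (Fin 2) ℝ) (a b : Fin 2 → ℝ) :
    |s7q N a b| ≤ |N 0 0| * (|a 0| * |b 0|) + |N 1 1| * (|a 1| * |b 1|) + |N 0 1| * (|a 0| * |b 1|)
      + |N 1 0| * (|a 1| * |b 0|) := by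
  rw [s7rw_q_eq]
  have h1 : |a 0 * (N 0 0 * b 0)| = |N 0 0| * (|a 0| * |b 0|) := by rw [abs_mul, abs_mul]; ring
  have h2 : |a 0 * (N 0 1 * b 1)| = |N 0 1| * (|a 0| * |b 1|) := by rw [abs_mul, abs_mul]; ring
  have h3 : |a 1 * (N 1 0 * b 0)| = |N 1 0| * (|a 1| * |b 0|) := by rw [abs_mul, abs_mul]; ring
  have h4 : |a 1 * (N 1 1 * b 1)| = |N 1 1| * (|a 1| * |b 1|) := by rw [abs_mul, abs_mul]; ring
  rw [← h1, ← h2, ← h3, ← h4]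
  have e : a 0 * (N 0 0 * b 0 + N 0 1 * b 1) + a 1 * (N 1 0 * b 0 + N 1 1 * b 1)
      = a 0 * (N 0 0 * b 0) + a 1 * (N 1 1 * b 1) + a 0 * (N 0 1 * b 1) + a 1 * (N 1 0 * b 0) := by
    ring
  rw [e]
  exact (abs_add_le _ _).trans (add_le_add ((abs_add_le _ _).trans
    (add_le_add (abs_add_le _ _) le_rfl)) le_rfl)

end Two

/-! ## Pointwise bounds (abstract `2 × 2` data) -/

section Point

variable {l : ℕ} {σ h : ℝ} {A K H : Matrix (Fin 2) (Fin 2) ℝ} {a b : Fin 2 → ℝ} {α κ G c e : ℝ}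

/-- the increment (right side of `StS7RowId` with `k = 0`) -/
noncomputable def s7rwD (l : ℕ) (A K H : Matrix (Fin 2) (Fin 2) ℝ) (a b : Fin 2 → ℝ) : ℝ :=
  -(s7q (B2 ℝ l) a a) - 2 * s7q H (b - (A * B2 ℝ l) *ᵥ a) a
    + s7q (H * (K - A * B2 ℝ l * A) * H) a a

theorem s7rw_qB (hl : 3 ≤ l) (a : Fin 2 → ℝ) : a 0 ^ 2 + a 1 ^ 2 ≤ s7q (B2 ℝ l) a a := by
  have hl3 : (3 : ℝ) ≤ l := by exact_mod_cast hl
  have hγ : 0 ≤ ((l : ℝ) - 2)⁻¹ := inv_nonneg.2 (by linarith)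
  have e : s7q (B2 ℝ l) a a = a 0 ^ 2 + a 1 ^ 2 + ((l : ℝ) - 2)⁻¹ * (a 0 + a 1) ^ 2 := by
    rw [s7rw_q_eq]
    simp [B2, J2]
    ring
  rw [e]
  nlinarith [mul_nonneg hγ (sq_nonneg (a 0 + a 1))]

theorem s7rw_qF (a b : Fin 2 → ℝ) : s7q (F2 ℝ) b a = b 0 * a 1 + b 1 * a 0 := by
  rw [s7rw_q_eq]
  simp [F2]

theorem s7rw_qFKF (K : Matrix (Fin 2) (Fin 2) ℝ) (hKs : K 1 0 = K 0 1) (a : Fin 2 → ℝ) :
    s7q (F2 ℝ * K * F2 ℝ) a a = a 1 ^ 2 * K 0 0 + a 0 ^ 2 * K 1 1 + 2 * (a 0 * a 1 * K 0 1) := by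
  rw [s7rw_q_eq]
  simp [F2, Matrix.mul_apply, Fin.sum_univ_two, hKs]
  ring

theorem s7rw_upper (hl : 3 ≤ l) (hs : |σ * h| ≤ 1) (hA : s7nb A α) (hKG : s7nb K G)
    (hKC : s7nb K κ) (hH : s7nb H c) (hN1 : s7nb (H - H0 l σ h) e) (hKs : K 1 0 = K 0 1) :
    s7rwD l A K H a b ≤ -(a 0 ^ 2 + a 1 ^ 2) + 2 * (σ * h) * (b 0 * a 1 + b 1 * a 0)
      + (σ * h) ^ 2 * (a 1 ^ 2 * K 0 0 + a 0 ^ 2 * K 1 1 + 2 * (a 0 * a 1 * K 0 1))
      + 6 / l * (s7rwN b * s7rwN a) + 2 * |s7q (H - H0 l σ h) b a|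
      + (16 * c * α + 32 * c ^ 2 * α ^ 2 + (12 + 12 * c) * G / l + (4 * κ + 4 * c * κ) * e)
          * s7rwN a ^ 2 := by
  have hl3 : (3 : ℝ) ≤ l := by exact_mod_cast hl
  have hE : s7nb (H0 l σ h - (-(σ * h)) • F2 ℝ) (3 / l) := by
    refine (s7t_nb_H0_sub hl σ h).mono ?_
    have : (0 : ℝ) ≤ 3 / l := by positivity
    nlinarith
  have hB := s7t_nb_B2 hl
  obtain ⟨E, hEd⟩ : ∃ E, E = H0 l σ h - (-(σ * h)) • F2 ℝ := ⟨_, rfl⟩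
  obtain ⟨N, hNd⟩ : ∃ N, N = H - H0 l σ h := ⟨_, rfl⟩
  rw [← hEd] at hE
  rw [← hNd] at hN1 ⊢
  have hHd : H = (-(σ * h)) • F2 ℝ + E + N := by rw [hEd, hNd]; abel
  have n0 := s7rw_N_nonneg a
  have nb0 := s7rw_N_nonneg b
  -- the linear term
  have e1 : s7q H b a = -(σ * h) * (b 0 * a 1 + b 1 * a 0) + s7q E b a + s7q N b a := by
    conv_lhs => rw [hHd]
    rw [s7rw_q_add, s7rw_q_add, s7rw_q_smul, s7rw_qF]
  have e2 : s7q H (b - (A * B2 ℝ l) *ᵥ a) a = s7q H b a - s7q H ((A * B2 ℝ l) *ᵥ a) a :=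
    s7rw_q_sub_left _ _ _ _
  -- the quadratic term
  have e3 : H * (K - A * B2 ℝ l * A) * H = (σ * h) ^ 2 • (F2 ℝ * K * F2 ℝ)
      + (-(σ * h)) • (F2 ℝ * K * E) + (-(σ * h)) • (F2 ℝ * K * N) + E * K * H + N * K * H
      - H * (A * B2 ℝ l * A) * H := by
    have e4 : H * K * H = (-(σ * h)) • (F2 ℝ * K * H) + E * K * H + N * K * H := by
      nth_rewrite 1 [hHd]
      rw [Matrix.add_mul, Matrix.add_mul, Matrix.add_mul, Matrix.add_mul, Matrix.smul_mul,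
        Matrix.smul_mul]
    have e5 : F2 ℝ * K * H = (-(σ * h)) • (F2 ℝ * K * F2 ℝ) + F2 ℝ * K * E + F2 ℝ * K * N := by
      rw [hHd, Matrix.mul_add, Matrix.mul_add, Matrix.mul_smul]
    rw [Matrix.mul_sub, Matrix.sub_mul, e4, e5, smul_add, smul_add, smul_smul]
    congr 5
    ring_nf
  have q1 := s7rw_q_le hE b a
  have q2 := s7rw_q_le hH ((A * B2 ℝ l) *ᵥ a) a
  have q2' := s7rw_N_mulVec (hA.mul hB) a
  have q3 := s7rw_q_le ((s7t_nb_F2.mul hKG).mul hE) a a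
  have q4 := s7rw_q_le ((s7t_nb_F2.mul hKC).mul hN1) a a
  have q5 := s7rw_q_le ((hE.mul hKG).mul hH) a a
  have q6 := s7rw_q_le ((hN1.mul hKC).mul hH) a a
  have q7 := s7rw_q_le ((hH.mul ((hA.mul hB).mul hA)).mul hH) a a
  have qB := s7rw_qB hl a
  unfold s7rwD
  rw [e2, e1, e3, s7rw_q_sub, s7rw_q_add, s7rw_q_add, s7rw_q_add, s7rw_q_add, s7rw_q_smul,
    s7rw_q_smul, s7rw_q_smul, s7rw_qFKF K hKs]
  have hc := hH.nonneg
  have q2'' : |s7q H ((A * B2 ℝ l) *ᵥ a) a| ≤ c * (2 * (2 * α * 2) * s7rwN a * s7rwN a) :=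
    q2.trans (mul_le_mul_of_nonneg_left (mul_le_mul_of_nonneg_right q2' n0) hc)
  have q3' : |-(σ * h) * s7q (F2 ℝ * K * E) a a| ≤ 2 * (2 * 1 * G) * (3 / l) * (s7rwN a * s7rwN a) := by
    rw [abs_mul, abs_neg]
    calc |σ * h| * _ ≤ 1 * _ := mul_le_mul_of_nonneg_right hs (abs_nonneg _)
      _ ≤ _ := by rw [one_mul]; exact q3
  have q4' : |-(σ * h) * s7q (F2 ℝ * K * N) a a| ≤ 2 * (2 * 1 * κ) * e * (s7rwN a * s7rwN a) := by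
    rw [abs_mul, abs_neg]
    calc |σ * h| * _ ≤ 1 * _ := mul_le_mul_of_nonneg_right hs (abs_nonneg _)
      _ ≤ _ := by rw [one_mul]; exact q4
  have ee : (16 * c * α + 32 * c ^ 2 * α ^ 2 + (12 + 12 * c) * G / l + (4 * κ + 4 * c * κ) * e)
        * s7rwN a ^ 2
      = 2 * (c * (2 * (2 * α * 2) * s7rwN a * s7rwN a))
        + 2 * (2 * 1 * G) * (3 / l) * (s7rwN a * s7rwN a)
        + 2 * (2 * 1 * κ) * e * (s7rwN a * s7rwN a)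
        + 2 * (2 * (3 / l) * G) * c * (s7rwN a * s7rwN a)
        + 2 * (2 * e * κ) * c * (s7rwN a * s7rwN a)
        + 2 * (2 * c * (2 * (2 * α * 2) * α)) * c * (s7rwN a * s7rwN a) := by
    field_simp
    ring
  have e6 : 6 / (l : ℝ) * (s7rwN b * s7rwN a) = 2 * (3 / l * (s7rwN b * s7rwN a)) := by ring
  rw [ee, e6]
  have a1 := (abs_le.1 q1).1
  have a2 := (abs_le.1 q2'').2
  have a3 := (abs_le.1 q3').2
  have a4 := (abs_le.1 q4').2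
  have a5 := (abs_le.1 q5).2
  have a6 := (abs_le.1 q6).2
  have a7 := (abs_le.1 q7).1
  have a8 := neg_abs_le (s7q N b a)
  linarith

theorem s7rw_abs (hl : 3 ≤ l) (hA : s7nb A α) (hKC : s7nb K κ) (hH : s7nb H c) :
    |s7rwD l A K H a b| ≤ (2 + 16 * c * α + 4 * c ^ 2 * (κ + 8 * α ^ 2)) * s7rwN a ^ 2
      + 2 * |s7q H b a| := by
  have hB := s7t_nb_B2 hl
  have n0 := s7rw_N_nonneg a
  have hc := hH.nonneg
  have e2 : s7q H (b - (A * B2 ℝ l) *ᵥ a) a = s7q H b a - s7q H ((A * B2 ℝ l) *ᵥ a) a :=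
    s7rw_q_sub_left _ _ _ _
  have q0 := s7rw_q_le hB a a
  have q2 := s7rw_q_le hH ((A * B2 ℝ l) *ᵥ a) a
  have q2' := s7rw_N_mulVec (hA.mul hB) a
  have q2'' : |s7q H ((A * B2 ℝ l) *ᵥ a) a| ≤ c * (2 * (2 * α * 2) * s7rwN a * s7rwN a) :=
    q2.trans (mul_le_mul_of_nonneg_left (mul_le_mul_of_nonneg_right q2' n0) hc)
  have q7 := s7rw_q_le ((hH.mul (hKC.sub ((hA.mul hB).mul hA))).mul hH) a a
  unfold s7rwD
  rw [e2]
  have ee : (2 + 16 * c * α + 4 * c ^ 2 * (κ + 8 * α ^ 2)) * s7rwN a ^ 2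
      = 2 * (s7rwN a * s7rwN a) + 2 * (c * (2 * (2 * α * 2) * s7rwN a * s7rwN a))
        + 2 * (2 * c * (κ + 2 * (2 * α * 2) * α)) * c * (s7rwN a * s7rwN a) := by ring
  rw [ee]
  have q8 := abs_nonneg (s7q H b a)
  have q9 := le_abs_self (s7q H b a)
  have q10 := neg_abs_le (s7q H b a)
  rw [abs_le] at q0 q2'' q7 ⊢
  constructor <;> linarith [q0.1, q0.2, q2''.1, q2''.2, q7.1, q7.2]

end Point

/-! ## Centred arrays and sums over an allowed set -/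

section Sums

variable {ι : Type*} [Fintype ι] [DecidableEq ι] {R I : Finset ι} {c x y : ι → ℝ} {β P Q : ℝ}

theorem s7rw_cent_zero (hc : S7Cent R c) {z : ι} (hz : z ∉ R) : c z = 0 := by
  have h := congrFun hc z
  rw [← h, Matrix.mulVec, dotProduct]
  refine Finset.sum_eq_zero (fun w _ => ?_)
  simp [s7Pi, hz]

theorem s7rw_cent_sum (hc : S7Cent R c) : ∑ z ∈ R, c z = 0 := by
  rcases R.eq_empty_or_nonempty with rfl | ⟨w, hw⟩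
  · simp
  obtain ⟨M, hMd⟩ : ∃ M : Matrix ι ι ℝ, ∀ z z', M z z' = c z := ⟨fun z _ => c z, fun _ _ => rfl⟩
  have hM : s7Pi ℝ R * M = M := by
    ext z z'
    rw [Matrix.mul_apply, hMd]
    simp only [hMd]
    exact congrFun hc z
  have := s7cfa_col_sum (Finset.card_pos.2 ⟨w, hw⟩).ne' hM w
  simpa only [hMd] using this

theorem s7rw_card_sdiff (hA : S7Allowed R I) : ((R \ I).card : ℝ) ≤ 4 := by
  have h1 := Finset.card_sdiff_add_card_eq_card hA.1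
  have h2 := hA.2
  have : (R \ I).card ≤ 4 := by omega
  exact_mod_cast this

theorem s7rw_sum_I (hA : S7Allowed R I) (hc : S7Cent R c) (hβ0 : 0 ≤ β) (hβ : ∀ z, |c z| ≤ β) :
    |∑ z ∈ I, c z| ≤ 4 * β := by
  have h1 := Finset.sum_sdiff (f := c) hA.1
  rw [s7rw_cent_sum hc] at h1
  have h2 : ∑ z ∈ I, c z = -∑ z ∈ R \ I, c z := by linarith
  rw [h2, abs_neg]
  calc |∑ z ∈ R \ I, c z| ≤ ∑ z ∈ R \ I, |c z| := Finset.abs_sum_le_sum_abs _ _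
    _ ≤ ∑ _z ∈ R \ I, β := Finset.sum_le_sum (fun z _ => hβ z)
    _ = (R \ I).card * β := by rw [Finset.sum_const, nsmul_eq_mul]
    _ ≤ 4 * β := mul_le_mul_of_nonneg_right (s7rw_card_sdiff hA) hβ0

theorem s7rw_sq_eq (hc : S7Cent R c) : s7sq c = ∑ z ∈ R, c z ^ 2 := by
  unfold s7sq
  rw [dotProduct]
  symm
  rw [Finset.sum_subset (Finset.subset_univ R) (fun z _ hz => by rw [s7rw_cent_zero hc hz]; simp)]
  exact Finset.sum_congr rfl (fun z _ => sq _)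

theorem s7rw_sq_I_le (I : Finset ι) (c : ι → ℝ) : ∑ z ∈ I, c z ^ 2 ≤ s7sq c := by
  unfold s7sq
  rw [dotProduct]
  calc ∑ z ∈ I, c z ^ 2 ≤ ∑ z, c z ^ 2 :=
        Finset.sum_le_sum_of_subset_of_nonneg (Finset.subset_univ _) (fun z _ _ => sq_nonneg _)
    _ = ∑ z, c z * c z := Finset.sum_congr rfl (fun z _ => sq _)

theorem s7rw_sq_I_ge (hA : S7Allowed R I) (hc : S7Cent R c) (hβ : ∀ z, |c z| ≤ β) :
    s7sq c - 4 * β ^ 2 ≤ ∑ z ∈ I, c z ^ 2 := by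
  have h1 := Finset.sum_sdiff (f := fun z => c z ^ 2) hA.1
  rw [← s7rw_sq_eq hc] at h1
  have h2 : ∑ z ∈ R \ I, c z ^ 2 ≤ 4 * β ^ 2 := by
    calc ∑ z ∈ R \ I, c z ^ 2 ≤ ∑ _z ∈ R \ I, β ^ 2 := by
          refine Finset.sum_le_sum (fun z _ => ?_)
          rw [← sq_abs (c z)]
          exact pow_le_pow_left₀ (abs_nonneg _) (hβ z) 2
      _ = (R \ I).card * β ^ 2 := by rw [Finset.sum_const, nsmul_eq_mul]
      _ ≤ 4 * β ^ 2 := mul_le_mul_of_nonneg_right (s7rw_card_sdiff hA) (sq_nonneg _)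
  linarith

/-- off-diagonal sums of products -/
theorem s7rw_sum_prod (I : Finset ι) (x y : ι → ℝ) :
    ∑ u ∈ I, ∑ v ∈ I.erase u, x u * y v = (∑ u ∈ I, x u) * (∑ v ∈ I, y v) - ∑ u ∈ I, x u * y u := by
  rw [s7cfa_sum_erase I (fun u v => x u * y v), Finset.sum_mul_sum]

/-- Cauchy-Schwarz without square roots -/
theorem s7rw_cs (I : Finset ι) (x y : ι → ℝ) (hP : 0 ≤ P) (hQ : 0 ≤ Q) (hx : ∑ z ∈ I, x z ^ 2 ≤ P ^ 2)
    (hy : ∑ z ∈ I, y z ^ 2 ≤ Q ^ 2) : |∑ z ∈ I, x z * y z| ≤ P * Q := by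
  have h := Finset.sum_mul_sq_le_sq_mul_sq I x y
  have h2 : (∑ z ∈ I, x z * y z) ^ 2 ≤ (P * Q) ^ 2 := by
    rw [mul_pow]
    exact h.trans (mul_le_mul hx hy (Finset.sum_nonneg (fun z _ => sq_nonneg _)) (sq_nonneg _))
  exact abs_le_of_sq_le_sq h2 (mul_nonneg hP hQ)

theorem s7rw_cs_abs (I : Finset ι) (x y : ι → ℝ) (hP : 0 ≤ P) (hQ : 0 ≤ Q)
    (hx : ∑ z ∈ I, x z ^ 2 ≤ P ^ 2) (hy : ∑ z ∈ I, y z ^ 2 ≤ Q ^ 2) :
    ∑ z ∈ I, |x z| * |y z| ≤ P * Q := by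
  have := s7rw_cs I (fun z => |x z|) (fun z => |y z|) hP hQ (by simpa only [sq_abs] using hx)
    (by simpa only [sq_abs] using hy)
  exact (le_abs_self _).trans this

/-- `(∑ |x|)(∑ |y|) ≤ |I| P Q` -/
theorem s7rw_l1 (I : Finset ι) (x y : ι → ℝ) (hP : 0 ≤ P) (hQ : 0 ≤ Q)
    (hx : ∑ z ∈ I, x z ^ 2 ≤ P ^ 2) (hy : ∑ z ∈ I, y z ^ 2 ≤ Q ^ 2) :
    (∑ z ∈ I, |x z|) * (∑ z ∈ I, |y z|) ≤ I.card * (P * Q) := by
  have h1 : (∑ z ∈ I, |x z|) ^ 2 ≤ I.card * P ^ 2 := by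
    refine (sq_sum_le_card_mul_sum_sq (s := I) (f := fun z => |x z|)).trans ?_
    simp only [sq_abs]
    exact mul_le_mul_of_nonneg_left hx (Nat.cast_nonneg _)
  have h2 : (∑ z ∈ I, |y z|) ^ 2 ≤ I.card * Q ^ 2 := by
    refine (sq_sum_le_card_mul_sum_sq (s := I) (f := fun z => |y z|)).trans ?_
    simp only [sq_abs]
    exact mul_le_mul_of_nonneg_left hy (Nat.cast_nonneg _)
  have h3 : 0 ≤ ∑ z ∈ I, |x z| := Finset.sum_nonneg (fun z _ => abs_nonneg _)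
  have h4 : 0 ≤ ∑ z ∈ I, |y z| := Finset.sum_nonneg (fun z _ => abs_nonneg _)
  have h5 : ((∑ z ∈ I, |x z|) * (∑ z ∈ I, |y z|)) ^ 2 ≤ ((I.card : ℝ) * (P * Q)) ^ 2 := by
    rw [mul_pow]
    calc (∑ z ∈ I, |x z|) ^ 2 * (∑ z ∈ I, |y z|) ^ 2 ≤ (I.card * P ^ 2) * (I.card * Q ^ 2) :=
          mul_le_mul h1 h2 (sq_nonneg _) (by positivity)
      _ = ((I.card : ℝ) * (P * Q)) ^ 2 := by ring
  exact (le_abs_self _).trans (abs_le_of_sq_le_sq h5 (by positivity))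

end Sums

/-! ## The row `r`, its image `s = D r`, and their sums over an allowed set -/

section Row

variable {ι : Type*} [Fintype ι] [DecidableEq ι] {R I : Finset ι} {D : Matrix ι ι ℝ} {r : ι → ℝ}
  {Z G εr n : ℝ}

theorem s7rw_s_cent (hc : s7Pi ℝ R * D = D) (r : ι → ℝ) : S7Cent R (D *ᵥ r) := by
  unfold S7Cent
  rw [Matrix.mulVec_mulVec, hc]

theorem s7rw_s_le (hs : Dᵀ = D) (hG : ∀ x, (D * D) x x ≤ G) (r : ι → ℝ) (x : ι) :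
    |(D *ᵥ r) x| ≤ Real.sqrt (G * s7sq r) := by
  have h1 : |(D *ᵥ r) x| ≤ Real.sqrt (s7sq (D x)) * Real.sqrt (s7sq r) := s7t_cs (D x) r
  rw [s7t_sq_row hs, ← Real.sqrt_mul (s7t_sq_diag_nonneg hs x)] at h1
  exact h1.trans (Real.sqrt_le_sqrt (mul_le_mul_of_nonneg_right (hG x) (s7t_sq_nonneg r)))

theorem s7rw_s_sq (hZ : s7opLE D Z) (hn : n ^ 2 = s7sq r) (I : Finset ι) :
    ∑ z ∈ I, (D *ᵥ r) z ^ 2 ≤ (Z * n) ^ 2 := by
  refine (s7rw_sq_I_le I _).trans ((hZ.2 r).trans ?_)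
  rw [mul_pow, hn]

theorem s7rw_r_sq (hn : n ^ 2 = s7sq r) (I : Finset ι) : ∑ z ∈ I, r z ^ 2 ≤ n ^ 2 := by
  rw [hn]; exact s7rw_sq_I_le I r

/-- a nonnegative kernel: off-diagonal sum ≤ full sum -/
theorem s7rw_off_le (I : Finset ι) (f : ι → ι → ℝ) (hf : ∀ u v, 0 ≤ f u v) :
    ∑ u ∈ I, ∑ v ∈ I.erase u, f u v ≤ ∑ u ∈ I, ∑ v ∈ I, f u v :=
  Finset.sum_le_sum (fun u _ => Finset.sum_le_sum_of_subset_of_nonneg (Finset.erase_subset _ _)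
    (fun v _ _ => hf u v))

/-- (M2) the swap term -/
theorem s7rw_M2 (hA : S7Allowed R I) (hs : Dᵀ = D) (hc : s7Pi ℝ R * D = D) (hr : S7Cent R r)
    (hZ : s7opLE D Z) (hG : ∀ x, (D * D) x x ≤ G) (hε0 : 0 ≤ εr) (hε : ∀ x, |r x| ≤ εr)
    (hn0 : 0 ≤ n) (hn : n ^ 2 = s7sq r) :
    |∑ u ∈ I, ∑ v ∈ I.erase u, ((D *ᵥ r) u * r v + (D *ᵥ r) v * r u)|
      ≤ 2 * (16 * (εr * Real.sqrt (G * s7sq r)) + Z * n ^ 2) := by
  have e : ∑ u ∈ I, ∑ v ∈ I.erase u, ((D *ᵥ r) u * r v + (D *ᵥ r) v * r u)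
      = 2 * ((∑ u ∈ I, (D *ᵥ r) u) * (∑ v ∈ I, r v) - ∑ u ∈ I, (D *ᵥ r) u * r u) := by
    simp only [Finset.sum_add_distrib]
    have e1 : ∑ u ∈ I, ∑ v ∈ I.erase u, (D *ᵥ r) v * r u
        = ∑ u ∈ I, ∑ v ∈ I.erase u, r u * (D *ᵥ r) v :=
      Finset.sum_congr rfl (fun u _ => Finset.sum_congr rfl (fun v _ => mul_comm _ _))
    have e2 : ∑ u ∈ I, r u * (D *ᵥ r) u = ∑ u ∈ I, (D *ᵥ r) u * r u :=
      Finset.sum_congr rfl (fun u _ => mul_comm _ _)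
    rw [e1, s7rw_sum_prod, s7rw_sum_prod, e2]
    ring
  rw [e, abs_mul, abs_two]
  have h1 := s7rw_sum_I hA (s7rw_s_cent hc r) (Real.sqrt_nonneg _) (s7rw_s_le hs hG r)
  have h2 := s7rw_sum_I hA hr hε0 hε
  have h3 := s7rw_cs I (D *ᵥ r) r (mul_nonneg hZ.1 hn0) hn0 (s7rw_s_sq hZ hn I) (s7rw_r_sq hn I)
  have h4 : |(∑ u ∈ I, (D *ᵥ r) u) * (∑ v ∈ I, r v)| ≤ (4 * Real.sqrt (G * s7sq r)) * (4 * εr) := by
    rw [abs_mul]
    exact mul_le_mul h1 h2 (abs_nonneg _) (by positivity)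
  have h5 := abs_sub ((∑ u ∈ I, (D *ᵥ r) u) * (∑ v ∈ I, r v)) (∑ u ∈ I, (D *ᵥ r) u * r u)
  nlinarith

/-- (M3a) -/
theorem s7rw_M3a (hs : Dᵀ = D) (hn : n ^ 2 = s7sq r) (I : Finset ι) :
    ∑ u ∈ I, ∑ v ∈ I.erase u, (r v ^ 2 * (D * D) u u + r u ^ 2 * (D * D) v v)
      ≤ 2 * (s7X D * n ^ 2) := by
  have hk : ∀ z, 0 ≤ (D * D) z z := s7t_sq_diag_nonneg hs
  have hX : ∑ z ∈ I, (D * D) z z ≤ s7X D :=
    Finset.sum_le_sum_of_subset_of_nonneg (Finset.subset_univ _) (fun z _ _ => hk z)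
  have hX0 : 0 ≤ ∑ z ∈ I, (D * D) z z := Finset.sum_nonneg (fun z _ => hk z)
  have hr2 := s7rw_r_sq hn I
  have hr0 : 0 ≤ ∑ z ∈ I, r z ^ 2 := Finset.sum_nonneg (fun z _ => sq_nonneg _)
  have hp : (∑ z ∈ I, (D * D) z z) * (∑ z ∈ I, r z ^ 2) ≤ s7X D * n ^ 2 :=
    mul_le_mul hX hr2 hr0 (hX0.trans hX)
  simp only [Finset.sum_add_distrib]
  have e1 : ∑ u ∈ I, ∑ v ∈ I.erase u, r v ^ 2 * (D * D) u u
      = ∑ u ∈ I, ∑ v ∈ I.erase u, (D * D) u u * r v ^ 2 :=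
    Finset.sum_congr rfl (fun u _ => Finset.sum_congr rfl (fun v _ => mul_comm _ _))
  rw [e1, s7rw_sum_prod I (fun u => (D * D) u u) (fun v => r v ^ 2),
    s7rw_sum_prod I (fun u => r u ^ 2) (fun v => (D * D) v v)]
  have h1 : 0 ≤ ∑ u ∈ I, (D * D) u u * r u ^ 2 :=
    Finset.sum_nonneg (fun z _ => mul_nonneg (hk z) (sq_nonneg _))
  have h2 : 0 ≤ ∑ u ∈ I, r u ^ 2 * (D * D) u u :=
    Finset.sum_nonneg (fun z _ => mul_nonneg (sq_nonneg _) (hk z))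
  nlinarith

theorem s7rw_sum_ind (I : Finset ι) (f : ι → ℝ) :
    ∑ z, (if z ∈ I then f z else 0) = ∑ z ∈ I, f z := by
  rw [Finset.sum_ite_mem, Finset.univ_inter]

/-- (M3b) -/
theorem s7rw_M3b (hs : Dᵀ = D) (hZ : s7opLE D Z) (hn : n ^ 2 = s7sq r) (I : Finset ι) :
    ∑ u ∈ I, ∑ v ∈ I.erase u, r u * r v * (D * D) u v ≤ Z ^ 2 * n ^ 2 := by
  have hk : ∀ z, 0 ≤ (D * D) z z := s7t_sq_diag_nonneg hs
  rw [s7cfa_sum_erase I (fun u v => r u * r v * (D * D) u v)]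
  have h1 : 0 ≤ ∑ u ∈ I, r u * r u * (D * D) u u :=
    Finset.sum_nonneg (fun z _ => mul_nonneg (mul_self_nonneg _) (hk z))
  obtain ⟨ρ, hρ⟩ : ∃ ρ : ι → ℝ, ∀ z, ρ z = if z ∈ I then r z else 0 := ⟨_, fun _ => rfl⟩
  have e1 : ∑ u ∈ I, ∑ v ∈ I, r u * r v * (D * D) u v = s7sq (D *ᵥ ρ) := by
    have e2 : s7sq (D *ᵥ ρ) = ρ ⬝ᵥ ((D * D) *ᵥ ρ) := by
      unfold s7sq
      rw [← Matrix.mulVec_mulVec, s7a_dot_mulVec D ρ, hs]
    have e4 : ∀ u, ((D * D) *ᵥ ρ) u = ∑ v ∈ I, (D * D) u v * r v := by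
      intro u
      rw [Matrix.mulVec, dotProduct]
      refine Eq.trans ?_ (s7rw_sum_ind I _)
      refine Finset.sum_congr rfl (fun v _ => ?_)
      rw [hρ]
      split_ifs <;> simp
    rw [e2, dotProduct]
    refine Eq.trans (s7rw_sum_ind I _).symm ?_
    refine Finset.sum_congr rfl (fun u _ => ?_)
    rw [hρ, e4]
    split_ifs
    · rw [Finset.mul_sum]
      exact Finset.sum_congr rfl (fun v _ => by ring)
    · simp
  have e3 : s7sq ρ ≤ n ^ 2 := by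
    have : s7sq ρ = ∑ z ∈ I, r z ^ 2 := by
      unfold s7sq
      rw [dotProduct]
      refine Eq.trans ?_ (s7rw_sum_ind I _)
      refine Finset.sum_congr rfl (fun z _ => ?_)
      rw [hρ]
      split_ifs
      · rw [sq]
      · simp
    rw [this]
    exact s7rw_r_sq hn I
  have h2 := (hZ.2 ρ).trans (mul_le_mul_of_nonneg_left e3 (sq_nonneg Z))
  rw [e1]
  linarith

end Row

/-! ## Averages over an allowed set -/

section Avgs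

variable {ι : Type*} [Fintype ι] [DecidableEq ι] {R I : Finset ι} {D : Matrix ι ι ℝ} {r x y : ι → ℝ}
  {Z G εr n P Q : ℝ}

theorem s7rw_I2 (hA : S7Allowed R I) (hl : 8 ≤ R.card) : 2 ≤ I.card := by
  have := hA.2
  omega

theorem s7rw_abs_avg (hA : S7Allowed R I) (hl : 8 ≤ R.card) (f : ι → ι → ℝ) (B : ℝ)
    (hB : |∑ u ∈ I, ∑ v ∈ I.erase u, f u v| ≤ B) : |s7avg I f| ≤ 6 * B / (R.card : ℝ) ^ 2 := by
  have hB0 : 0 ≤ B := (abs_nonneg _).trans hB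
  have h1 := s7cc_avg_le hA hl f B hB0 ((le_abs_self _).trans hB)
  have h2 := s7cc_avg_le hA hl (fun u v => (-1) * f u v) B hB0 (by
    simp only [← Finset.mul_sum]
    have := neg_abs_le (∑ u ∈ I, ∑ v ∈ I.erase u, f u v)
    linarith)
  rw [s7t_avg_smul] at h2
  rw [abs_le]
  constructor <;> linarith

/-- (T1) -/
theorem s7rw_T1 (hA : S7Allowed R I) (hl : 8 ≤ R.card) (hr : S7Cent R r) (hε : ∀ x, |r x| ≤ εr) :
    s7avg I (fun u v => -(r u ^ 2 + r v ^ 2)) ≤ -2 * s7sq r / R.card + 8 * εr ^ 2 / R.card := by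
  have hI := s7rw_I2 hA hl
  obtain ⟨h1, h2, h3, h4⟩ := s7cc_card hA hl
  have e : s7avg I (fun u v => -(r u ^ 2 + r v ^ 2)) = -2 * ((∑ z ∈ I, r z ^ 2) / I.card) := by
    have e1 : (fun u v => -(r u ^ 2 + r v ^ 2))
        = fun u v => (-1) * ((fun u _ => r u ^ 2) u v + (fun _ v => r v ^ 2) u v) := by
      funext u v; ring
    rw [e1, s7t_avg_smul, s7t_avg_add, s7t_avg_fst hI, s7t_avg_snd hI]
    ring
  rw [e]
  have h5 := s7rw_sq_I_ge hA hr hε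
  have h6 : 0 ≤ ∑ z ∈ I, r z ^ 2 := Finset.sum_nonneg (fun z _ => sq_nonneg _)
  have h7 : (∑ z ∈ I, r z ^ 2) / R.card ≤ (∑ z ∈ I, r z ^ 2) / I.card :=
    div_le_div_of_nonneg_left h6 (by linarith) h1
  have h8 : (s7sq r - 4 * εr ^ 2) / R.card ≤ (∑ z ∈ I, r z ^ 2) / R.card :=
    div_le_div_of_nonneg_right h5 (by linarith)
  have e2 : -2 * s7sq r / R.card + 8 * εr ^ 2 / R.card = -2 * ((s7sq r - 4 * εr ^ 2) / R.card) := by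
    ring
  rw [e2]
  linarith

/-- (T2) -/
theorem s7rw_T2 (hA : S7Allowed R I) (hl : 8 ≤ R.card) (hs : Dᵀ = D) (hc : s7Pi ℝ R * D = D)
    (hr : S7Cent R r) (hZ : s7opLE D Z) (hG : ∀ x, (D * D) x x ≤ G) (hε0 : 0 ≤ εr)
    (hε : ∀ x, |r x| ≤ εr) (hn0 : 0 ≤ n) (hn : n ^ 2 = s7sq r) :
    |s7avg I (fun u v => (D *ᵥ r) u * r v + (D *ᵥ r) v * r u)|
      ≤ 6 * (2 * (16 * (εr * Real.sqrt (G * s7sq r)) + Z * n ^ 2)) / (R.card : ℝ) ^ 2 :=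
  s7rw_abs_avg hA hl _ _ (s7rw_M2 hA hs hc hr hZ hG hε0 hε hn0 hn)

/-- comparison of the denominators -/
theorem s7rw_den (hA : S7Allowed R I) (hl : 8 ≤ R.card) {W : ℝ} (hW : 0 ≤ W) :
    W / ((I.card : ℝ) * ((I.card : ℝ) - 1))
      ≤ W / ((R.card : ℝ) * ((R.card : ℝ) - 1)) + 96 * W / (R.card : ℝ) ^ 3 := by
  obtain ⟨h1, h2, h3, h4⟩ := s7cc_card hA hl
  generalize (R.card : ℝ) = L at *
  generalize (I.card : ℝ) = m at *
  have hP : L ^ 2 / 2 ≤ L * (L - 1) := by nlinarith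
  have hL2 : 0 < L ^ 2 := by positivity
  have hd0 : 0 < m * (m - 1) := lt_of_lt_of_le (by positivity) h4
  have hP0 : 0 < L * (L - 1) := lt_of_lt_of_le (by positivity) hP
  have hdiff : L * (L - 1) - m * (m - 1) ≤ 8 * L := by nlinarith
  have e : 1 / (m * (m - 1)) = 1 / (L * (L - 1))
      + (L * (L - 1) - m * (m - 1)) / ((m * (m - 1)) * (L * (L - 1))) := by
    generalize m * (m - 1) = d at *
    generalize L * (L - 1) = p at *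
    field_simp
    ring
  have h5 : (L * (L - 1) - m * (m - 1)) / ((m * (m - 1)) * (L * (L - 1))) ≤ 96 / L ^ 3 := by
    calc _ ≤ 8 * L / ((m * (m - 1)) * (L * (L - 1))) :=
          div_le_div_of_nonneg_right hdiff (by positivity)
      _ ≤ 8 * L / ((L ^ 2 / 6) * (L ^ 2 / 2)) :=
          div_le_div_of_nonneg_left (by positivity) (by positivity)
            (mul_le_mul h4 hP (by positivity) hd0.le)
      _ = 96 / L ^ 3 := by field_simp; ring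
  have h6 : W * (1 / (m * (m - 1))) ≤ W * (1 / (L * (L - 1)) + 96 / L ^ 3) :=
    mul_le_mul_of_nonneg_left (by rw [e]; linarith) hW
  calc W / (m * (m - 1)) = W * (1 / (m * (m - 1))) := by ring
    _ ≤ _ := h6
    _ = _ := by ring

/-- (T3) -/
theorem s7rw_T3 (hA : S7Allowed R I) (hl : 8 ≤ R.card) (hs : Dᵀ = D) (hc : s7Pi ℝ R * D = D)
    (hZ : s7opLE D Z) (hG : ∀ x, (D * D) x x ≤ G) :
    s7avg I (fun u v => r v ^ 2 * (D * D) u u + r u ^ 2 * (D * D) v v + 2 * (r u * r v * (D * D) u v))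
      ≤ 2 * s7sq r * s7X D / ((R.card : ℝ) * ((R.card : ℝ) - 1))
        + 192 * (G * s7sq r) / (R.card : ℝ) ^ 2 + 12 * (Z ^ 2 * s7sq r) / (R.card : ℝ) ^ 2 := by
  obtain ⟨h1, h2, h3, h4⟩ := s7cc_card hA hl
  have hN := s7t_sq_nonneg r
  have hn : Real.sqrt (s7sq r) ^ 2 = s7sq r := Real.sq_sqrt hN
  have a1 := s7rw_M3a (n := Real.sqrt (s7sq r)) hs hn I
  have a2 := s7rw_M3b (n := Real.sqrt (s7sq r)) hs hZ hn I
  rw [hn] at a1 a2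
  have hX0 := s7t_X_nonneg hs
  have hX := s7t_X_le hs hc hG
  have hL2 : 0 < (R.card : ℝ) ^ 2 / 6 := by positivity
  have hd0 : 0 < (I.card : ℝ) * ((I.card : ℝ) - 1) := lt_of_lt_of_le hL2 h4
  have e : s7avg I (fun u v => r v ^ 2 * (D * D) u u + r u ^ 2 * (D * D) v v
        + 2 * (r u * r v * (D * D) u v))
      ≤ (2 * (s7X D * s7sq r)) / ((I.card : ℝ) * ((I.card : ℝ) - 1))
        + (2 * (Z ^ 2 * s7sq r)) / ((I.card : ℝ) * ((I.card : ℝ) - 1)) := by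
    unfold s7avg
    rw [← add_div]
    refine div_le_div_of_nonneg_right ?_ hd0.le
    simp only [Finset.sum_add_distrib, ← Finset.mul_sum] at a1 a2 ⊢
    linarith
  refine e.trans ?_
  have b1 := s7rw_den hA hl (W := 2 * (s7X D * s7sq r)) (by positivity)
  have b2 : (2 * (Z ^ 2 * s7sq r)) / ((I.card : ℝ) * ((I.card : ℝ) - 1))
      ≤ (2 * (Z ^ 2 * s7sq r)) / ((R.card : ℝ) ^ 2 / 6) :=
    div_le_div_of_nonneg_left (by positivity) hL2 h4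
  have b3 : (2 * (Z ^ 2 * s7sq r)) / ((R.card : ℝ) ^ 2 / 6) = 12 * (Z ^ 2 * s7sq r) / (R.card : ℝ) ^ 2 := by
    field_simp
    ring
  have b4 : 96 * (2 * (s7X D * s7sq r)) / (R.card : ℝ) ^ 3 ≤ 192 * (G * s7sq r) / (R.card : ℝ) ^ 2 := by
    have hL0 : (0 : ℝ) < R.card := by linarith
    rw [div_le_div_iff₀ (by positivity) (by positivity)]
    have := mul_le_mul_of_nonneg_right hX hN
    have h9 : 0 ≤ (R.card : ℝ) ^ 2 := by positivity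
    nlinarith [mul_le_mul_of_nonneg_right this h9]
  have b5 : 2 * (s7X D * s7sq r) / ((R.card : ℝ) * ((R.card : ℝ) - 1))
      = 2 * s7sq r * s7X D / ((R.card : ℝ) * ((R.card : ℝ) - 1)) := by ring
  rw [b5] at b1
  linarith

/-- off-diagonal sum of `(|x u| + |x v|)(|y u| + |y v|)` -/
theorem s7rw_M4 (I : Finset ι) (x y : ι → ℝ) (hP : 0 ≤ P) (hQ : 0 ≤ Q)
    (hx : ∑ z ∈ I, x z ^ 2 ≤ P ^ 2) (hy : ∑ z ∈ I, y z ^ 2 ≤ Q ^ 2) :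
    ∑ u ∈ I, ∑ v ∈ I.erase u, (|x u| + |x v|) * (|y u| + |y v|) ≤ 4 * (I.card * (P * Q)) := by
  refine (s7rw_off_le I _ (fun u v => by positivity)).trans ?_
  have e : ∑ u ∈ I, ∑ v ∈ I, (|x u| + |x v|) * (|y u| + |y v|)
      = 2 * (I.card * ∑ z ∈ I, |x z| * |y z|) + 2 * ((∑ z ∈ I, |x z|) * (∑ z ∈ I, |y z|)) := by
    have e1 : ∀ u v, (|x u| + |x v|) * (|y u| + |y v|)
        = |x u| * |y u| + |x u| * |y v| + |y u| * |x v| + |x v| * |y v| := by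
      intro u v; ring
    simp only [e1, Finset.sum_add_distrib, Finset.sum_const, nsmul_eq_mul, ← Finset.mul_sum,
      ← Finset.sum_mul]
    ring
  rw [e]
  have h1 := s7rw_cs_abs I x y hP hQ hx hy
  have h2 := s7rw_l1 I x y hP hQ hx hy
  have h3 := mul_le_mul_of_nonneg_left h1 (Nat.cast_nonneg (α := ℝ) I.card)
  linarith

/-- (T4) -/
theorem s7rw_T4 (hA : S7Allowed R I) (hl : 8 ≤ R.card) (x y : ι → ℝ) (hP : 0 ≤ P) (hQ : 0 ≤ Q)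
    (hx : ∑ z ∈ I, x z ^ 2 ≤ P ^ 2) (hy : ∑ z ∈ I, y z ^ 2 ≤ Q ^ 2) :
    s7avg I (fun u v => (|x u| + |x v|) * (|y u| + |y v|)) ≤ 24 * (P * Q) / R.card := by
  obtain ⟨h1, h2, h3, h4⟩ := s7cc_card hA hl
  have hPQ := mul_nonneg hP hQ
  have h5 := s7cc_avg_le hA hl (fun u v => (|x u| + |x v|) * (|y u| + |y v|))
    (4 * (R.card * (P * Q))) (by positivity)
    ((s7rw_M4 I x y hP hQ hx hy).trans (by nlinarith [mul_le_mul_of_nonneg_right h1 hPQ]))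
  refine h5.trans (le_of_eq ?_)
  field_simp
  ring

/-- off-diagonal sums of products of nonnegative arrays -/
theorem s7rw_prod_le (I : Finset ι) (x y : ι → ℝ) (hx : ∀ z, 0 ≤ x z) (hy : ∀ z, 0 ≤ y z) :
    ∑ u ∈ I, ∑ v ∈ I.erase u, x u * y v ≤ (∑ z ∈ I, x z) * (∑ z ∈ I, y z) := by
  rw [s7rw_sum_prod]
  have : 0 ≤ ∑ u ∈ I, x u * y u := Finset.sum_nonneg (fun z _ => mul_nonneg (hx z) (hy z))
  linarith

theorem s7rw_avg_prod (hA : S7Allowed R I) (hl : 8 ≤ R.card) (x y : ι → ℝ) (hx : ∀ z, 0 ≤ x z)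
    (hy : ∀ z, 0 ≤ y z) (hP : ∑ z ∈ I, x z ≤ P) (hQ : ∑ z ∈ I, y z ≤ Q) :
    s7avg I (fun u v => x u * y v) ≤ 6 * (P * Q) / (R.card : ℝ) ^ 2 := by
  have h1 : 0 ≤ ∑ z ∈ I, x z := Finset.sum_nonneg (fun z _ => hx z)
  have h2 : 0 ≤ ∑ z ∈ I, y z := Finset.sum_nonneg (fun z _ => hy z)
  exact s7cc_avg_le hA hl _ _ (mul_nonneg (h1.trans hP) (h2.trans hQ))
    ((s7rw_prod_le I x y hx hy).trans (mul_le_mul hP hQ h2 (h1.trans hP)))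

theorem s7rw_avg_prod' (hA : S7Allowed R I) (hl : 8 ≤ R.card) (x y : ι → ℝ) (hx : ∀ z, 0 ≤ x z)
    (hy : ∀ z, 0 ≤ y z) (hP : ∑ z ∈ I, x z ≤ P) (hQ : ∑ z ∈ I, y z ≤ Q) :
    s7avg I (fun u v => x v * y u) ≤ 6 * (P * Q) / (R.card : ℝ) ^ 2 := by
  have := s7rw_avg_prod hA hl y x hy hx hQ hP
  have e : (fun u v => x v * y u) = fun u v => y u * x v := by funext u v; ring
  rw [e, mul_comm P Q]
  exact this

end Avgs

/-! ## The three estimates for an abstract coefficient field `Hf` -/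

section Main

variable {ι : Type*} [Fintype ι] [DecidableEq ι] {R I : Finset ι} {D : Matrix ι ι ℝ} {r : ι → ℝ}
  {Z G εr σ h ε c C0 Bil : ℝ} {Hf : ι → ι → Matrix (Fin 2) (Fin 2) ℝ}

theorem s7rw_nb_blk (hent : ∀ x y, |D x y| ≤ ε) (u v : ι) : s7nb (s7blk D u v) ε :=
  fun _ _ => hent _ _

theorem s7rw_avg_lin (I : Finset ι) (f1 f2 f3 f4 f5 f6 : ι → ι → ℝ) (t2 t3 t4 t5 t6 : ℝ) :
    s7avg I (fun u v => f1 u v + t2 * f2 u v + t3 * f3 u v + t4 * f4 u v + t5 * f5 u v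
        + t6 * f6 u v)
      = s7avg I f1 + t2 * s7avg I f2 + t3 * s7avg I f3 + t4 * s7avg I f4 + t5 * s7avg I f5
        + t6 * s7avg I f6 := by
  unfold s7avg
  simp only [Finset.sum_add_distrib, ← Finset.mul_sum]
  ring

theorem s7rw_N_pv (x : ι → ℝ) (u v : ι) : s7rwN (s7pv x u v) = |x u| + |x v| := by
  simp [s7rwN, s7pv]

theorem s7rw_absq_le (N : Matrix (Fin 2) (Fin 2) ℝ) (x y : ι → ℝ) (u v : ι) :
    |s7q N (s7pv x u v) (s7pv y u v)| ≤ s7absq N (fun z => |x z|) (fun z => |y z|) u v := by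
  refine (s7rw_q_abs N _ _).trans (le_of_eq ?_)
  simp [s7absq, s7pv]

/-- the increment as a function of the pair -/
noncomputable def s7rwΔ (R : Finset ι) (D : Matrix ι ι ℝ) (r : ι → ℝ)
    (Hf : ι → ι → Matrix (Fin 2) (Fin 2) ℝ) (u v : ι) : ℝ :=
  s7rwD R.card (s7blk D u v) (s7blk (D * D) u v) (Hf u v) (s7pv r u v) (s7pv (D *ᵥ r) u v)

theorem s7rw_mean (hA : S7Allowed R I) (hl : 8 ≤ R.card) (hs : Dᵀ = D) (hc : s7Pi ℝ R * D = D)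
    (hrow : ∀ x, (D * D) x x ≤ C0) (hent : ∀ x y, |D x y| ≤ ε)
    (hr : S7Cent R r) (hZ : s7opLE D Z) (hG : ∀ x, (D * D) x x ≤ G) (hε0 : 0 ≤ εr)
    (hε : ∀ x, |r x| ≤ εr) (hσ : |σ * h| ≤ 1) (hc0 : 0 ≤ c) (hεp : 0 ≤ ε) (hG0 : 0 ≤ G)
    (hC0 : 0 ≤ C0)
    (hH : ∀ u ∈ I, ∀ v ∈ I, u ≠ v → s7nb (Hf u v) c ∧ s7nb (Hf u v - H0 R.card σ h) (c * ε))
    (hB : s7avg I (fun u v => s7absq (Hf u v - H0 R.card σ h) (fun z => |(D *ᵥ r) z|)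
      (fun z => |r z|) u v) ≤ Bil) :
    s7avg I (s7rwΔ R D r Hf)
    ≤ -2 * s7sq r / R.card + 8 * εr ^ 2 / R.card
      + 2 * (6 * (2 * (16 * (εr * Real.sqrt (G * s7sq r)) + Z * s7sq r)) / (R.card : ℝ) ^ 2)
      + (σ * h) ^ 2 * (2 * s7sq r * s7X D / ((R.card : ℝ) * ((R.card : ℝ) - 1))
        + 192 * (G * s7sq r) / (R.card : ℝ) ^ 2 + 12 * (Z ^ 2 * s7sq r) / (R.card : ℝ) ^ 2)
      + 6 / R.card * (24 * (Z * s7sq r) / R.card) + 2 * Bil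
      + (16 * c * ε + 32 * c ^ 2 * ε ^ 2 + (12 + 12 * c) * G / R.card
          + (4 * C0 + 4 * c * C0) * (c * ε)) * (24 * s7sq r / R.card) := by
  have hI := s7rw_I2 hA hl
  have hN := s7t_sq_nonneg r
  obtain ⟨n, hn0, hn⟩ : ∃ n : ℝ, 0 ≤ n ∧ n ^ 2 = s7sq r :=
    ⟨Real.sqrt (s7sq r), Real.sqrt_nonneg _, Real.sq_sqrt hN⟩
  obtain ⟨coef, hcoef⟩ : ∃ coef, coef = 16 * c * ε + 32 * c ^ 2 * ε ^ 2 + (12 + 12 * c) * G / R.card
          + (4 * C0 + 4 * c * C0) * (c * ε) := ⟨_, rfl⟩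
  have hcoef0 : 0 ≤ coef := by rw [hcoef]; positivity
  rw [← hcoef]
  have hpt : ∀ u ∈ I, ∀ v ∈ I, u ≠ v → s7rwΔ R D r Hf u v ≤
      (fun u v => -(r u ^ 2 + r v ^ 2)) u v
      + (2 * (σ * h)) * (fun u v => (D *ᵥ r) u * r v + (D *ᵥ r) v * r u) u v
      + (σ * h) ^ 2 * (fun u v => r v ^ 2 * (D * D) u u + r u ^ 2 * (D * D) v v
          + 2 * (r u * r v * (D * D) u v)) u v
      + (6 / (R.card : ℝ)) * (fun u v => (|(D *ᵥ r) u| + |(D *ᵥ r) v|) * (|r u| + |r v|)) u v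
      + 2 * (fun u v => s7absq (Hf u v - H0 R.card σ h) (fun z => |(D *ᵥ r) z|)
          (fun z => |r z|) u v) u v
      + coef * (fun u v => (|r u| + |r v|) * (|r u| + |r v|)) u v := by
    intro u hu v hv huv
    obtain ⟨k1, k2⟩ := hH u hu v hv huv
    have key := s7rw_upper (l := R.card) (σ := σ) (h := h) (a := s7pv r u v)
      (b := s7pv (D *ᵥ r) u v) (by omega) hσ (s7rw_nb_blk hent u v)
      (s7ts_nb_blk_sq hs hG u v) (s7ts_nb_blk_sq hs hrow u v) k1 k2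
      (by simpa [s7blk] using s7t_symm_apply (s7t_sq_symm hs) v u)
    have k3 := s7rw_absq_le (Hf u v - H0 R.card σ h) (D *ᵥ r) r u v
    rw [← hcoef, s7rw_N_pv, s7rw_N_pv] at key
    unfold s7rwΔ
    refine key.trans ?_
    simp only [s7pv, s7blk, if_true, one_ne_zero, if_false] at k3 ⊢
    rw [sq (|r u| + |r v|)]
    linarith
  refine (s7t_avg_mono hI hpt).trans ?_
  rw [s7rw_avg_lin]
  have t1 := s7rw_T1 hA hl hr hε
  have t2 := s7rw_T2 hA hl hs hc hr hZ hG hε0 hε hn0 hn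
  have t3 := s7rw_T3 (r := r) hA hl hs hc hZ hG
  have t4 := s7rw_T4 hA hl (D *ᵥ r) r (mul_nonneg hZ.1 hn0) hn0 (s7rw_s_sq hZ hn I)
    (s7rw_r_sq hn I)
  have t6 := s7rw_T4 hA hl r r hn0 hn0 (s7rw_r_sq hn I) (s7rw_r_sq hn I)
  have e4 : Z * n * n = Z * s7sq r := by rw [← hn]; ring
  have e6 : n * n = s7sq r := by rw [← hn]; ring
  rw [e4] at t4
  rw [e6] at t6
  rw [hn] at t2
  have u2 : (2 * (σ * h)) * s7avg I (fun u v => (D *ᵥ r) u * r v + (D *ᵥ r) v * r u)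
      ≤ 2 * (6 * (2 * (16 * (εr * Real.sqrt (G * s7sq r)) + Z * s7sq r)) / (R.card : ℝ) ^ 2) := by
    refine (le_abs_self _).trans ?_
    rw [abs_mul, abs_mul, abs_two, mul_assoc]
    refine mul_le_mul_of_nonneg_left ?_ (by norm_num)
    calc |σ * h| * _ ≤ 1 * _ := mul_le_mul_of_nonneg_right hσ (abs_nonneg _)
      _ ≤ _ := by rw [one_mul]; exact t2
  have u3 := mul_le_mul_of_nonneg_left t3 (sq_nonneg (σ * h))
  have u4 := mul_le_mul_of_nonneg_left t4 (by positivity : (0 : ℝ) ≤ 6 / (R.card : ℝ))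
  have u6 := mul_le_mul_of_nonneg_left t6 hcoef0
  linarith

theorem s7rw_avg_lin5 (I : Finset ι) (f1 f2 f3 f4 f5 : ι → ι → ℝ) (t1 t2 t3 t4 t5 : ℝ) :
    s7avg I (fun u v => t1 * f1 u v + t2 * f2 u v + t3 * f3 u v + t4 * f4 u v + t5 * f5 u v)
      = t1 * s7avg I f1 + t2 * s7avg I f2 + t3 * s7avg I f3 + t4 * s7avg I f4 + t5 * s7avg I f5 := by
  unfold s7avg
  simp only [Finset.sum_add_distrib, ← Finset.mul_sum]
  ring

theorem s7rw_sq4 {p1 p2 p3 p4 x y : ℝ} (hy : |y| ≤ x + 2 * (p1 + p2 + p3 + p4)) :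
    y ^ 2 ≤ 2 * x ^ 2 + 32 * (p1 ^ 2 + p2 ^ 2 + p3 ^ 2 + p4 ^ 2) := by
  have h1 : y ^ 2 ≤ (x + 2 * (p1 + p2 + p3 + p4)) ^ 2 := by
    rw [← sq_abs y]
    exact pow_le_pow_left₀ (abs_nonneg _) hy 2
  nlinarith [sq_nonneg (x - 2 * (p1 + p2 + p3 + p4)), sq_nonneg (p1 - p2), sq_nonneg (p1 - p3),
    sq_nonneg (p1 - p4), sq_nonneg (p2 - p3), sq_nonneg (p2 - p4), sq_nonneg (p3 - p4)]

theorem s7rw_p_sq {H s t hb tb : ℝ} (hH : |H| ≤ hb) (ht : |t| ≤ tb) :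
    (|H| * (|s| * |t|)) ^ 2 ≤ hb ^ 2 * (s ^ 2 * tb ^ 2) := by
  rw [mul_pow, mul_pow, sq_abs s]
  have h1 : |H| ^ 2 ≤ hb ^ 2 := pow_le_pow_left₀ (abs_nonneg _) hH 2
  have h2 : |t| ^ 2 ≤ tb ^ 2 := pow_le_pow_left₀ (abs_nonneg _) ht 2
  exact mul_le_mul h1 (mul_le_mul_of_nonneg_left h2 (sq_nonneg _)) (by positivity) (sq_nonneg _)

theorem s7rw_var (hA : S7Allowed R I) (hl : 8 ≤ R.card) (hs : Dᵀ = D)
    (hrow : ∀ x, (D * D) x x ≤ C0) (hent : ∀ x y, |D x y| ≤ ε)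
    (hZ : s7opLE D Z) (hε0 : 0 ≤ εr) (hε : ∀ x, |r x| ≤ εr) (hc0 : 0 ≤ c) (hεp : 0 ≤ ε)
    (hC0 : 0 ≤ C0)
    (hH : ∀ u ∈ I, ∀ v ∈ I, u ≠ v → s7nb (Hf u v) c ∧
      |Hf u v 0 0| ≤ c * (1 / (R.card : ℝ) + |D v v|) ∧
      |Hf u v 1 1| ≤ c * (1 / (R.card : ℝ) + |D u u|)) :
    s7avg I (fun u v => (s7rwΔ R D r Hf u v) ^ 2)
    ≤ (2 * (2 + 16 * c * ε + 4 * c ^ 2 * (C0 + 8 * ε ^ 2)) ^ 2 * (4 * εr ^ 2)) * (24 * s7sq r / R.card)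
      + 2 * ((32 * c ^ 2 * εr ^ 2) * (6 * (Z ^ 2 * s7sq r * (2 + 2 * s7T D)) / (R.card : ℝ) ^ 2))
      + 2 * ((32 * c ^ 2) * (6 * (Z ^ 2 * s7sq r * s7sq r) / (R.card : ℝ) ^ 2)) := by
  have hI := s7rw_I2 hA hl
  have hN := s7t_sq_nonneg r
  obtain ⟨h1, h2, h3, h4⟩ := s7cc_card hA hl
  obtain ⟨n, hn0, hn⟩ : ∃ n : ℝ, 0 ≤ n ∧ n ^ 2 = s7sq r :=
    ⟨Real.sqrt (s7sq r), Real.sqrt_nonneg _, Real.sq_sqrt hN⟩
  obtain ⟨ca, hca⟩ : ∃ ca, ca = 2 + 16 * c * ε + 4 * c ^ 2 * (C0 + 8 * ε ^ 2) := ⟨_, rfl⟩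
  have hca0 : 0 ≤ ca := by rw [hca]; positivity
  rw [← hca]
  obtain ⟨w, hw⟩ : ∃ w : ι → ℝ, ∀ z, w z = 2 / (R.card : ℝ) ^ 2 + 2 * D z z ^ 2 :=
    ⟨_, fun _ => rfl⟩
  have hw0 : ∀ z, 0 ≤ w z := fun z => by rw [hw]; positivity
  have hwb : ∀ z, (c * (1 / (R.card : ℝ) + |D z z|)) ^ 2 ≤ c ^ 2 * w z := by
    intro z
    rw [hw, mul_pow]
    refine mul_le_mul_of_nonneg_left ?_ (sq_nonneg _)
    have e : 2 / (R.card : ℝ) ^ 2 + 2 * D z z ^ 2 = 2 * (1 / (R.card : ℝ)) ^ 2 + 2 * |D z z| ^ 2 := by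
      rw [sq_abs]; ring
    rw [e]
    nlinarith [sq_nonneg (1 / (R.card : ℝ) - |D z z|)]
  have hpt : ∀ u ∈ I, ∀ v ∈ I, u ≠ v → (s7rwΔ R D r Hf u v) ^ 2 ≤
      (2 * ca ^ 2 * (4 * εr ^ 2)) * (fun u v => (|r u| + |r v|) * (|r u| + |r v|)) u v
      + (32 * c ^ 2 * εr ^ 2) * (fun u v => (D *ᵥ r) u ^ 2 * w v) u v
      + (32 * c ^ 2 * εr ^ 2) * (fun u v => (D *ᵥ r) v ^ 2 * w u) u v
      + (32 * c ^ 2) * (fun u v => (D *ᵥ r) u ^ 2 * r v ^ 2) u v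
      + (32 * c ^ 2) * (fun u v => (D *ᵥ r) v ^ 2 * r u ^ 2) u v := by
    intro u hu v hv huv
    obtain ⟨k1, k2, k3⟩ := hH u hu v hv huv
    have key := s7rw_abs (l := R.card) (a := s7pv r u v) (b := s7pv (D *ᵥ r) u v) (by omega)
      (s7rw_nb_blk hent u v) (s7ts_nb_blk_sq hs hrow u v) k1
    have k4 := s7rw_q_abs (Hf u v) (s7pv (D *ᵥ r) u v) (s7pv r u v)
    rw [← hca, s7rw_N_pv] at key
    simp only [s7pv, if_true, one_ne_zero, if_false] at k4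
    have k5 := s7rw_sq4 (y := s7rwΔ R D r Hf u v) (key.trans (by
      have := mul_le_mul_of_nonneg_left k4 (by norm_num : (0 : ℝ) ≤ 2)
      exact add_le_add le_rfl this))
    refine k5.trans ?_
    have q1 := (s7rw_p_sq (s := (D *ᵥ r) u) k2 (hε u)).trans
      (mul_le_mul_of_nonneg_right (hwb v) (by positivity))
    have q2 := (s7rw_p_sq (s := (D *ᵥ r) v) k3 (hε v)).trans
      (mul_le_mul_of_nonneg_right (hwb u) (by positivity))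
    have q3 := s7rw_p_sq (s := (D *ᵥ r) u) (k1 0 1) (le_refl |r v|)
    have q4 := s7rw_p_sq (s := (D *ᵥ r) v) (k1 1 0) (le_refl |r u|)
    rw [sq_abs] at q3 q4
    have q5 : (ca * (|r u| + |r v|) ^ 2) ^ 2
        ≤ ca ^ 2 * (4 * εr ^ 2) * ((|r u| + |r v|) * (|r u| + |r v|)) := by
      have a1 : (|r u| + |r v|) ^ 2 ≤ 4 * εr ^ 2 := by
        have := hε u
        have := hε v
        have b1 : |r u| + |r v| ≤ 2 * εr := by linarith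
        calc (|r u| + |r v|) ^ 2 ≤ (2 * εr) ^ 2 := pow_le_pow_left₀ (by positivity) b1 2
          _ = 4 * εr ^ 2 := by ring
      have a2 : 0 ≤ (|r u| + |r v|) ^ 2 := by positivity
      have a3 := mul_le_mul_of_nonneg_right a1 a2
      have a4 := mul_le_mul_of_nonneg_left a3 (sq_nonneg ca)
      calc (ca * (|r u| + |r v|) ^ 2) ^ 2 = ca ^ 2 * ((|r u| + |r v|) ^ 2 * (|r u| + |r v|) ^ 2) := by
            ring
        _ ≤ _ := a4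
        _ = _ := by ring
    simp only []
    nlinarith [q1, q2, q3, q4, q5]
  refine (s7t_avg_mono hI hpt).trans ?_
  rw [s7rw_avg_lin5]
  have hsq : ∑ z ∈ I, (D *ᵥ r) z ^ 2 ≤ Z ^ 2 * s7sq r := by
    have := s7rw_s_sq hZ hn I
    rwa [mul_pow, hn] at this
  have hrq : ∑ z ∈ I, r z ^ 2 ≤ s7sq r := s7rw_sq_I_le I r
  have hwq : ∑ z ∈ I, w z ≤ 2 + 2 * s7T D := by
    simp only [hw, Finset.sum_add_distrib, Finset.sum_const, nsmul_eq_mul, ← Finset.mul_sum]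
    have a1 := s7t_sum_diag_sq_le D I
    have a2 : (I.card : ℝ) * (2 / (R.card : ℝ) ^ 2) ≤ 2 := by
      rw [← mul_div_assoc, div_le_iff₀ (by positivity)]
      nlinarith
    linarith
  have t1 := s7rw_T4 hA hl r r hn0 hn0 (s7rw_r_sq hn I) (s7rw_r_sq hn I)
  have e6 : n * n = s7sq r := by rw [← hn]; ring
  rw [e6] at t1
  have t2 := s7rw_avg_prod hA hl (fun z => (D *ᵥ r) z ^ 2) w (fun z => sq_nonneg _) hw0 hsq hwq
  have t3 := s7rw_avg_prod' hA hl (fun z => (D *ᵥ r) z ^ 2) w (fun z => sq_nonneg _) hw0 hsq hwq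
  have t4 := s7rw_avg_prod hA hl (fun z => (D *ᵥ r) z ^ 2) (fun z => r z ^ 2)
    (fun z => sq_nonneg _) (fun z => sq_nonneg _) hsq hrq
  have t5 := s7rw_avg_prod' hA hl (fun z => (D *ᵥ r) z ^ 2) (fun z => r z ^ 2)
    (fun z => sq_nonneg _) (fun z => sq_nonneg _) hsq hrq
  have u1 := mul_le_mul_of_nonneg_left t1 (by positivity : 0 ≤ 2 * ca ^ 2 * (4 * εr ^ 2))
  have u2 := mul_le_mul_of_nonneg_left t2 (by positivity : 0 ≤ 32 * c ^ 2 * εr ^ 2)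
  have u3 := mul_le_mul_of_nonneg_left t3 (by positivity : 0 ≤ 32 * c ^ 2 * εr ^ 2)
  have u4 := mul_le_mul_of_nonneg_left t4 (by positivity : 0 ≤ 32 * c ^ 2)
  have u5 := mul_le_mul_of_nonneg_left t5 (by positivity : 0 ≤ 32 * c ^ 2)
  linarith

theorem s7rw_ptw (hl : 3 ≤ R.card) (hs : Dᵀ = D) (hrow : ∀ x, (D * D) x x ≤ C0)
    (hent : ∀ x y, |D x y| ≤ ε) (hG : ∀ x, (D * D) x x ≤ G) (hε : ∀ x, |r x| ≤ εr)
    (hεp : 0 ≤ ε) (hC0 : 0 ≤ C0) (u v : ι) (hH : s7nb (Hf u v) c) :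
    |s7rwΔ R D r Hf u v| ≤ (2 + 16 * c * ε + 4 * c ^ 2 * (C0 + 8 * ε ^ 2)) * (4 * εr ^ 2)
      + 8 * c * (εr * Real.sqrt (G * s7sq r)) := by
  have hc0 := hH.nonneg
  have key := s7rw_abs (l := R.card) (a := s7pv r u v) (b := s7pv (D *ᵥ r) u v) hl
      (s7rw_nb_blk hent u v) (s7ts_nb_blk_sq hs hrow u v) hH
  have k4 := s7rw_q_le hH (s7pv (D *ᵥ r) u v) (s7pv r u v)
  rw [s7rw_N_pv] at key
  rw [s7rw_N_pv, s7rw_N_pv] at k4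
  have g0 := Real.sqrt_nonneg (G * s7sq r)
  have b1 : |r u| + |r v| ≤ 2 * εr := by
    have := hε u
    have := hε v
    linarith
  have b2 : |(D *ᵥ r) u| + |(D *ᵥ r) v| ≤ 2 * Real.sqrt (G * s7sq r) := by
    have := s7rw_s_le hs hG r u
    have := s7rw_s_le hs hG r v
    linarith
  have a1 : (|r u| + |r v|) ^ 2 ≤ 4 * εr ^ 2 := by
    calc (|r u| + |r v|) ^ 2 ≤ (2 * εr) ^ 2 := pow_le_pow_left₀ (by positivity) b1 2
      _ = 4 * εr ^ 2 := by ring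
  have a2 : (|(D *ᵥ r) u| + |(D *ᵥ r) v|) * (|r u| + |r v|)
      ≤ (2 * Real.sqrt (G * s7sq r)) * (2 * εr) :=
    mul_le_mul b2 b1 (by positivity) (by positivity)
  have a3 := mul_le_mul_of_nonneg_left a2 hc0
  have a4 := mul_le_mul_of_nonneg_left a1
    (by positivity : 0 ≤ 2 + 16 * c * ε + 4 * c ^ 2 * (C0 + 8 * ε ^ 2))
  unfold s7rwΔ
  refine key.trans ?_
  linarith

end Main

/-! ## Collecting the constants (real arithmetic) -/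

section Final

theorem s7rw_final_mean {L sL N Z G t ε εr g X hh c C0 CB Bil : ℝ} (hL : 8 ≤ L) (hsL0 : 0 ≤ sL)
    (hsL : sL ^ 2 = L) (hN : 0 ≤ N) (hZ : 0 ≤ Z) (hG : 0 ≤ G) (ht : 0 ≤ t) (hε0 : 0 ≤ ε)
    (hε1 : ε ≤ 1) (hεr : 0 ≤ εr) (hg : 0 ≤ g) (hh0 : 0 ≤ hh) (hh1 : hh ≤ 1) (hc : 0 ≤ c)
    (hC0 : 0 ≤ C0) (hCB : 0 ≤ CB) (hBil : Bil ≤ CB * (1 + t) / (L * sL) * (Z * N)) :
    -2 * N / L + 8 * εr ^ 2 / L + 2 * (6 * (2 * (16 * (εr * g) + Z * N)) / L ^ 2)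
      + hh * (2 * N * X / (L * (L - 1)) + 192 * (G * N) / L ^ 2 + 12 * (Z ^ 2 * N) / L ^ 2)
      + 6 / L * (24 * (Z * N) / L) + 2 * Bil
      + (16 * c * ε + 32 * c ^ 2 * ε ^ 2 + (12 + 12 * c) * G / L
          + (4 * C0 + 4 * c * C0) * (c * ε)) * (24 * N / L)
    ≤ -2 * N / L + 2 * hh * N * X / (L * (L - 1))
      + (400 + 2 * CB + 24 * (16 * c + 32 * c ^ 2 + (4 * C0 + 4 * c * C0) * c) + 24 * (12 + 12 * c))
        * (εr ^ 2 / L + εr * g / L ^ 2 + (1 + t) * Z * N / (L * sL) + ε * N / L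
          + (G + Z ^ 2) * N / L ^ 2) := by
  have hL0 : 0 < L := by linarith
  have hsL1 : 1 ≤ sL := by nlinarith only [hL, hsL0, hsL]
  have hsLL : sL ≤ L := by nlinarith only [hsL1, hsL]
  obtain ⟨Q1, hQ1⟩ : ∃ Q1, Q1 = εr ^ 2 / L := ⟨_, rfl⟩
  obtain ⟨Q2, hQ2⟩ : ∃ Q2, Q2 = εr * g / L ^ 2 := ⟨_, rfl⟩
  obtain ⟨Q3, hQ3⟩ : ∃ Q3, Q3 = (1 + t) * Z * N / (L * sL) := ⟨_, rfl⟩
  obtain ⟨Q4, hQ4⟩ : ∃ Q4, Q4 = ε * N / L := ⟨_, rfl⟩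
  obtain ⟨Q5, hQ5⟩ : ∃ Q5, Q5 = G * N / L ^ 2 := ⟨_, rfl⟩
  obtain ⟨Q6, hQ6⟩ : ∃ Q6, Q6 = Z ^ 2 * N / L ^ 2 := ⟨_, rfl⟩
  obtain ⟨W, hW⟩ : ∃ W, W = Z * N / L ^ 2 := ⟨_, rfl⟩
  have p1 : 0 ≤ Q1 := by rw [hQ1]; positivity
  have p2 : 0 ≤ Q2 := by rw [hQ2]; positivity
  have p3 : 0 ≤ Q3 := by rw [hQ3]; positivity
  have p4 : 0 ≤ Q4 := by rw [hQ4]; positivity
  have p5 : 0 ≤ Q5 := by rw [hQ5]; positivity
  have p6 : 0 ≤ Q6 := by rw [hQ6]; positivity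
  have hWQ : W ≤ Q3 := by
    rw [hW, hQ3]
    have hZN := mul_nonneg hZ hN
    calc Z * N / L ^ 2 ≤ Z * N / (L * sL) :=
          div_le_div_of_nonneg_left hZN (by positivity) (by nlinarith only [hsLL, hL0])
      _ ≤ (1 + t) * Z * N / (L * sL) := by
          refine div_le_div_of_nonneg_right ?_ (by positivity)
          nlinarith only [mul_nonneg ht hZN]
  have e1 : 8 * εr ^ 2 / L = 8 * Q1 := by rw [hQ1]; ring
  have e2 : 2 * (6 * (2 * (16 * (εr * g) + Z * N)) / L ^ 2) = 384 * Q2 + 24 * W := by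
    rw [hQ2, hW]; ring
  have e3 : hh * (2 * N * X / (L * (L - 1)) + 192 * (G * N) / L ^ 2 + 12 * (Z ^ 2 * N) / L ^ 2)
      = 2 * hh * N * X / (L * (L - 1)) + hh * (192 * Q5 + 12 * Q6) := by
    rw [hQ5, hQ6]; ring
  have e3' : hh * (192 * Q5 + 12 * Q6) ≤ 192 * Q5 + 12 * Q6 := by
    have : 0 ≤ 192 * Q5 + 12 * Q6 := by positivity
    exact mul_le_of_le_one_left this hh1
  have e4 : 6 / L * (24 * (Z * N) / L) = 144 * W := by rw [hW]; ring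
  have e5 : 2 * Bil ≤ 2 * CB * Q3 := by
    have : CB * (1 + t) / (L * sL) * (Z * N) = CB * Q3 := by rw [hQ3]; ring
    linarith
  have e6 : (16 * c * ε + 32 * c ^ 2 * ε ^ 2 + (12 + 12 * c) * G / L
          + (4 * C0 + 4 * c * C0) * (c * ε)) * (24 * N / L)
      = 24 * (16 * c + (4 * C0 + 4 * c * C0) * c) * Q4 + 24 * (32 * c ^ 2) * (ε * Q4)
        + 24 * (12 + 12 * c) * Q5 := by
    rw [hQ4, hQ5]; ring
  have e6' : 24 * (32 * c ^ 2) * (ε * Q4) ≤ 24 * (32 * c ^ 2) * Q4 := by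
    refine mul_le_mul_of_nonneg_left ?_ (by positivity)
    exact mul_le_of_le_one_left p4 hε1
  have e7 : (G + Z ^ 2) * N / L ^ 2 = Q5 + Q6 := by rw [hQ5, hQ6]; ring
  rw [e1, e2, e3, e4, e6, e7, ← hQ1, ← hQ2, ← hQ3, ← hQ4]
  obtain ⟨S, hS⟩ : ∃ S, S = Q1 + Q2 + Q3 + Q4 + (Q5 + Q6) := ⟨_, rfl⟩
  rw [← hS]
  obtain ⟨c1, hc1⟩ : ∃ c1, c1 = 16 * c + 32 * c ^ 2 + (4 * C0 + 4 * c * C0) * c := ⟨_, rfl⟩
  have hc1p : 0 ≤ c1 := by rw [hc1]; positivity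
  have f1 : 2 * CB * Q3 ≤ 2 * CB * S :=
    mul_le_mul_of_nonneg_left (by rw [hS]; linarith) (by positivity)
  have f2 : 24 * c1 * Q4 ≤ 24 * c1 * S :=
    mul_le_mul_of_nonneg_left (by rw [hS]; linarith) (by positivity)
  have f3 : 24 * (12 + 12 * c) * Q5 ≤ 24 * (12 + 12 * c) * S :=
    mul_le_mul_of_nonneg_left (by rw [hS]; linarith) (by positivity)
  have f4 : 24 * (16 * c + (4 * C0 + 4 * c * C0) * c) * Q4 + 24 * (32 * c ^ 2) * Q4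
      = 24 * c1 * Q4 := by rw [hc1]; ring
  have f5 : (400 + 2 * CB + 24 * (16 * c + 32 * c ^ 2 + (4 * C0 + 4 * c * C0) * c)
      + 24 * (12 + 12 * c)) * S = 400 * S + 2 * CB * S + 24 * c1 * S + 24 * (12 + 12 * c) * S := by
    rw [hc1]; ring
  rw [f5]
  have f6 : 8 * Q1 + 384 * Q2 + 168 * Q3 + 192 * Q5 + 12 * Q6 ≤ 400 * S := by rw [hS]; linarith
  linarith

theorem s7rw_final_var {L N Z T ε εr c C0 : ℝ} (hL : 8 ≤ L) (hN : 0 ≤ N) (hZ : 0 ≤ Z) (hT : 0 ≤ T)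
    (hε0 : 0 ≤ ε) (hε1 : ε ≤ 1) (hεr : 0 ≤ εr) (hc : 0 ≤ c) (hC0 : 0 ≤ C0) :
    (2 * (2 + 16 * c * ε + 4 * c ^ 2 * (C0 + 8 * ε ^ 2)) ^ 2 * (4 * εr ^ 2)) * (24 * N / L)
      + 2 * ((32 * c ^ 2 * εr ^ 2) * (6 * (Z ^ 2 * N * (2 + 2 * T)) / L ^ 2))
      + 2 * ((32 * c ^ 2) * (6 * (Z ^ 2 * N * N) / L ^ 2))
    ≤ (192 * (2 + 16 * c + 4 * c ^ 2 * (C0 + 8)) ^ 2 + 768 * c ^ 2)
        * (εr ^ 2 * N / L + Z ^ 2 * N ^ 2 / L ^ 2 + (1 + T) * εr ^ 2 * Z ^ 2 * N / L ^ 2) := by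
  have hL0 : 0 < L := by linarith
  obtain ⟨Q1, hQ1⟩ : ∃ Q1, Q1 = εr ^ 2 * N / L := ⟨_, rfl⟩
  obtain ⟨Q2, hQ2⟩ : ∃ Q2, Q2 = Z ^ 2 * N ^ 2 / L ^ 2 := ⟨_, rfl⟩
  obtain ⟨Q3, hQ3⟩ : ∃ Q3, Q3 = (1 + T) * εr ^ 2 * Z ^ 2 * N / L ^ 2 := ⟨_, rfl⟩
  have p1 : 0 ≤ Q1 := by rw [hQ1]; positivity
  have p2 : 0 ≤ Q2 := by rw [hQ2]; positivity
  have p3 : 0 ≤ Q3 := by rw [hQ3]; positivity
  obtain ⟨ca, hca⟩ : ∃ ca, ca = 2 + 16 * c * ε + 4 * c ^ 2 * (C0 + 8 * ε ^ 2) := ⟨_, rfl⟩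
  obtain ⟨cb, hcb⟩ : ∃ cb, cb = 2 + 16 * c + 4 * c ^ 2 * (C0 + 8) := ⟨_, rfl⟩
  have hca0 : 0 ≤ ca := by rw [hca]; positivity
  have hcab : ca ≤ cb := by
    rw [hca, hcb]
    have h1 : c * ε ≤ c := by nlinarith
    have h2 : ε ^ 2 ≤ 1 := by nlinarith
    have h3 : c ^ 2 * (C0 + 8 * ε ^ 2) ≤ c ^ 2 * (C0 + 8) :=
      mul_le_mul_of_nonneg_left (by linarith) (sq_nonneg _)
    nlinarith
  have hsq : ca ^ 2 ≤ cb ^ 2 := pow_le_pow_left₀ hca0 hcab 2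
  rw [← hca, ← hcb, ← hQ1, ← hQ2, ← hQ3]
  have e1 : (2 * ca ^ 2 * (4 * εr ^ 2)) * (24 * N / L) = 192 * ca ^ 2 * Q1 := by rw [hQ1]; ring
  have e2 : 2 * ((32 * c ^ 2 * εr ^ 2) * (6 * (Z ^ 2 * N * (2 + 2 * T)) / L ^ 2))
      = 768 * c ^ 2 * Q3 := by rw [hQ3]; ring
  have e3 : 2 * ((32 * c ^ 2) * (6 * (Z ^ 2 * N * N) / L ^ 2)) = 384 * c ^ 2 * Q2 := by
    rw [hQ2]; ring
  rw [e1, e2, e3]
  have f1 := mul_le_mul_of_nonneg_right hsq p1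
  have f2 : 0 ≤ c ^ 2 * Q1 := by positivity
  have f3 : 0 ≤ c ^ 2 * Q2 := by positivity
  have f4 : 0 ≤ cb ^ 2 * Q2 := by positivity
  have f5 : 0 ≤ cb ^ 2 * Q3 := by positivity
  nlinarith

theorem s7rw_final_ptw {ε εr g c C0 : ℝ} (hε0 : 0 ≤ ε) (hε1 : ε ≤ 1) (hεr : 0 ≤ εr) (hg : 0 ≤ g)
    (hc : 0 ≤ c) (hC0 : 0 ≤ C0) :
    (2 + 16 * c * ε + 4 * c ^ 2 * (C0 + 8 * ε ^ 2)) * (4 * εr ^ 2) + 8 * c * (εr * g)
    ≤ (4 * (2 + 16 * c + 4 * c ^ 2 * (C0 + 8)) + 8 * c) * (εr ^ 2 + εr * g) := by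
  obtain ⟨ca, hca⟩ : ∃ ca, ca = 2 + 16 * c * ε + 4 * c ^ 2 * (C0 + 8 * ε ^ 2) := ⟨_, rfl⟩
  obtain ⟨cb, hcb⟩ : ∃ cb, cb = 2 + 16 * c + 4 * c ^ 2 * (C0 + 8) := ⟨_, rfl⟩
  have hcb0 : 0 ≤ cb := by rw [hcb]; positivity
  have hcab : ca ≤ cb := by
    rw [hca, hcb]
    have h1 : c * ε ≤ c := by nlinarith
    have h2 : ε ^ 2 ≤ 1 := by nlinarith
    have h3 : c ^ 2 * (C0 + 8 * ε ^ 2) ≤ c ^ 2 * (C0 + 8) :=
      mul_le_mul_of_nonneg_left (by linarith) (sq_nonneg _)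
    nlinarith
  rw [← hca, ← hcb]
  have f1 := mul_le_mul_of_nonneg_right hcab (sq_nonneg εr)
  have f2 : 0 ≤ c * εr ^ 2 := by positivity
  have f3 : 0 ≤ cb * (εr * g) := by positivity
  nlinarith

end Final

/-! ## The statement -/

theorem s7rw_id {ι : Type} [Fintype ι] [DecidableEq ι] (σ h : ℝ) (R : Finset ι) (D : Matrix ι ι ℝ)
    (r : ι → ℝ) (u v : ι) (hu : u ∈ R) (hv : v ∈ R) (huv : u ≠ v) (hl : 2 < R.card) (hs : Dᵀ = D)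
    (hc : s7Pi ℝ R * D = D) (hr : S7Cent R r)
    (hH : (s7H R.card σ h D u v)ᵀ = s7H R.card σ h D u v) :
    s7sq (s7rstep σ h R D r 0 u v) - s7sq r = s7rwΔ R D r (s7H R.card σ h D) u v := by
  have key := s7_rowId ℝ ι σ h R D r 0 u v hu hv huv hl hs hc hr hH
  have e : s7pv r u v - (fun _ => (0 : ℝ)) = s7pv r u v := by
    funext i
    simp
  simp only [e] at key
  exact key

theorem s7rw_sqrt_on {ι : Type*} [Fintype ι] [DecidableEq ι] (I : Finset ι) (x : ι → ℝ) {P : ℝ}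
    (hP : 0 ≤ P) (hx : ∑ z ∈ I, x z ^ 2 ≤ P ^ 2) :
    Real.sqrt (s7sqOn I (fun z => |x z|)) ≤ P := by
  unfold s7sqOn
  simp only [sq_abs]
  calc Real.sqrt (∑ z ∈ I, x z ^ 2) ≤ Real.sqrt (P ^ 2) := Real.sqrt_le_sqrt hx
    _ = P := Real.sqrt_sq hP

theorem s7_rowStep : StS7RowStep := by
  intro hmin C0 hm hC0
  obtain ⟨C1, ε1, l1, hC1, hε1, hP⟩ := s7_coefPt hmin C0 hm hC0
  obtain ⟨CB, ε2, l2, hCB, hε2, hBl⟩ := s7_bilin hmin C0 hm hC0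
  obtain ⟨Cm, hCm⟩ : ∃ Cm, Cm = 400 + 2 * CB
      + 24 * (16 * C1 + 32 * C1 ^ 2 + (4 * C0 + 4 * C1 * C0) * C1) + 24 * (12 + 12 * C1) := ⟨_, rfl⟩
  obtain ⟨Cv, hCv⟩ : ∃ Cv, Cv = 192 * (2 + 16 * C1 + 4 * C1 ^ 2 * (C0 + 8)) ^ 2 + 768 * C1 ^ 2 :=
    ⟨_, rfl⟩
  obtain ⟨Cp, hCp⟩ : ∃ Cp, Cp = 4 * (2 + 16 * C1 + 4 * C1 ^ 2 * (C0 + 8)) + 8 * C1 := ⟨_, rfl⟩
  have hCm0 : 0 < Cm := by rw [hCm]; positivity
  have hCv0 : 0 < Cv := by rw [hCv]; positivity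
  have hCp0 : 0 < Cp := by rw [hCp]; positivity
  refine ⟨Cm + Cv + Cp, min (min ε1 ε2) 1, max (max l1 l2) 8, by positivity,
    lt_min (lt_min hε1 hε2) one_pos, ?_⟩
  intro ι _ _ σ h ε R D hb hε hl I r Z G εr hA hr hZ hG hεr hεr1
  have hεa : ε ≤ ε1 := hε.trans ((min_le_left _ _).trans (min_le_left _ _))
  have hεb : ε ≤ ε2 := hε.trans ((min_le_left _ _).trans (min_le_right _ _))
  have hεc : ε ≤ 1 := hε.trans (min_le_right _ _)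
  have hla : l1 ≤ R.card := le_trans ((le_max_left _ _).trans (le_max_left _ _)) hl
  have hlb : l2 ≤ R.card := le_trans ((le_max_right _ _).trans (le_max_left _ _)) hl
  have hl8 : 8 ≤ R.card := le_trans (le_max_right _ _) hl
  obtain ⟨x0, hx0⟩ : R.Nonempty := Finset.card_pos.1 (by omega)
  have hεp : 0 ≤ ε := (abs_nonneg _).trans (hb.ent x0 x0)
  have hG0 : 0 ≤ G := (s7t_sq_diag_nonneg hb.symm x0).trans (hG x0)
  have hεr0 : 0 ≤ εr := (abs_nonneg _).trans (hεr x0)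
  have hh0 : 0 < h := lt_of_lt_of_le hm hb.h_lo
  have hσ2 : σ ^ 2 = 1 := by rcases hb.sig with e | e <;> rw [e] <;> norm_num
  have hσh2 : (σ * h) ^ 2 = h ^ 2 := by rw [mul_pow, hσ2, one_mul]
  have hh1 : h ^ 2 ≤ 1 := by nlinarith [hb.h_hi]
  have hσh : |σ * h| ≤ 1 := abs_le_of_sq_le_sq (by rw [hσh2]; linarith) zero_le_one
  have hN := s7t_sq_nonneg r
  have hL8 : (8 : ℝ) ≤ R.card := by exact_mod_cast hl8
  have hI := s7rw_I2 hA hl8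
  have hpair := hP ι σ h ε R D hb hεa hla
  have hIR : ∀ u ∈ I, u ∈ R := fun u hu => hA.1 hu
  -- identification of the increment
  have hid : ∀ u ∈ R, ∀ v ∈ R, u ≠ v →
      s7sq (s7rstep σ h R D r 0 u v) - s7sq r = s7rwΔ R D r (s7H R.card σ h D) u v :=
    fun u hu v hv huv => s7rw_id σ h R D r u v hu hv huv (by omega) hb.symm hb.cent hr
      (hpair u hu v hv huv).2.2.1
  refine ⟨?_, ?_, ?_⟩
  · -- mean
    rw [s7t_avg_congr (fun u hu v hv huv => hid u (hIR u hu) v (hIR v hv) huv)]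
    obtain ⟨n, hn0, hn⟩ : ∃ n : ℝ, 0 ≤ n ∧ n ^ 2 = s7sq r :=
      ⟨Real.sqrt (s7sq r), Real.sqrt_nonneg _, Real.sq_sqrt hN⟩
    have hbil := (hBl ι σ h ε R I D (fun z => |(D *ᵥ r) z|) (fun z => |r z|) hb hεb hlb hA
      (fun z => abs_nonneg _) (fun z => abs_nonneg _)).1
    have s1 := s7rw_sqrt_on I (D *ᵥ r) (mul_nonneg hZ.1 hn0) (s7rw_s_sq hZ hn I)
    have s2 := s7rw_sqrt_on I r hn0 (s7rw_r_sq hn I)
    have s3 : Real.sqrt (s7sqOn I (fun z => |(D *ᵥ r) z|)) * Real.sqrt (s7sqOn I (fun z => |r z|))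
        ≤ Z * s7sq r := by
      calc _ ≤ (Z * n) * n := mul_le_mul s1 s2 (Real.sqrt_nonneg _) (mul_nonneg hZ.1 hn0)
        _ = Z * s7sq r := by rw [← hn]; ring
    have hcoefB : 0 ≤ CB * (1 + Real.sqrt (s7T D)) / ((R.card : ℝ) * Real.sqrt R.card) := by
      positivity
    have hbil2 := hbil.trans (mul_le_mul_of_nonneg_left s3 hcoefB)
    have key := s7rw_mean (Hf := s7H R.card σ h D) (c := C1) hA hl8 hb.symm hb.cent hb.row hb.ent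
      hr hZ hG hεr0 hεr hσh hC1.le hεp hG0 hC0.le
      (fun u hu v hv huv => ⟨(hpair u (hIR u hu) v (hIR v hv) huv).2.1,
        (hpair u (hIR u hu) v (hIR v hv) huv).2.2.2.2.2.1⟩) le_rfl
    refine key.trans ?_
    rw [hσh2]
    have fin := s7rw_final_mean (L := R.card) (sL := Real.sqrt R.card) (N := s7sq r) (Z := Z)
      (G := G) (t := Real.sqrt (s7T D)) (ε := ε) (εr := εr) (g := Real.sqrt (G * s7sq r))
      (X := s7X D) (hh := h ^ 2) (c := C1) (C0 := C0) (CB := CB) hL8 (Real.sqrt_nonneg _)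
      (Real.sq_sqrt (by positivity)) hN hZ.1 hG0 (Real.sqrt_nonneg _) hεp hεc hεr0
      (Real.sqrt_nonneg _) (sq_nonneg _) hh1 hC1.le hC0.le hCB.le hbil2
    rw [← hCm] at fin
    refine fin.trans ?_
    have hS : 0 ≤ εr ^ 2 / R.card + εr * Real.sqrt (G * s7sq r) / (R.card : ℝ) ^ 2
          + (1 + Real.sqrt (s7T D)) * Z * s7sq r / ((R.card : ℝ) * Real.sqrt R.card)
          + ε * s7sq r / R.card + (G + Z ^ 2) * s7sq r / (R.card : ℝ) ^ 2 := by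
      have := hZ.1
      positivity
    have := mul_le_mul_of_nonneg_right (by linarith : Cm ≤ Cm + Cv + Cp) hS
    linarith
  · -- second moment
    rw [s7t_avg_congr (g := fun u v => (s7rwΔ R D r (s7H R.card σ h D) u v) ^ 2)
      (fun u hu v hv huv => by rw [hid u (hIR u hu) v (hIR v hv) huv])]
    have key := s7rw_var (r := r) (Hf := s7H R.card σ h D) (c := C1) hA hl8 hb.symm hb.row hb.ent
      hZ hεr0 hεr hC1.le hεp hC0.le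
      (fun u hu v hv huv => ⟨(hpair u (hIR u hu) v (hIR v hv) huv).2.1,
        (hpair u (hIR u hu) v (hIR v hv) huv).2.2.2.1,
        (hpair u (hIR u hu) v (hIR v hv) huv).2.2.2.2.1⟩)
    refine key.trans ?_
    have fin := s7rw_final_var (L := R.card) (N := s7sq r) (Z := Z) (T := s7T D) (ε := ε)
      (εr := εr) (c := C1) (C0 := C0) hL8 hN hZ.1 (s7t_T_nonneg D) hεp hεc hεr0 hC1.le hC0.le
    rw [← hCv] at fin
    refine fin.trans ?_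
    have hS : 0 ≤ εr ^ 2 * s7sq r / R.card + Z ^ 2 * s7sq r ^ 2 / (R.card : ℝ) ^ 2
          + (1 + s7T D) * εr ^ 2 * Z ^ 2 * s7sq r / (R.card : ℝ) ^ 2 := by
      have := s7t_T_nonneg D
      positivity
    exact mul_le_mul_of_nonneg_right (by linarith : Cv ≤ Cm + Cv + Cp) hS
  · -- pointwise
    intro u hu v hv huv
    rw [hid u hu v hv huv]
    have key := s7rw_ptw (r := r) (Hf := s7H R.card σ h D) (c := C1)
      (show 3 ≤ R.card by omega) hb.symm hb.row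
      hb.ent hG hεr hεp hC0.le u v (hpair u hu v hv huv).2.1
    refine key.trans ?_
    have fin := s7rw_final_ptw (ε := ε) (εr := εr) (g := Real.sqrt (G * s7sq r)) (c := C1)
      (C0 := C0) hεp hεc hεr0 (Real.sqrt_nonneg _) hC1.le hC0.le
    rw [← hCp] at fin
    refine fin.trans ?_
    have hS : 0 ≤ εr ^ 2 + εr * Real.sqrt (G * s7sq r) := by positivity
    exact mul_le_mul_of_nonneg_right (by linarith : Cp ≤ Cm + Cv + Cp) hS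

end Claimed.Agent.R275
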