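import Claimed.Agent.R275.S7PhaseA
import Claimed.Agent.R275.S7RowStep
import Claimed.Agent.R275.S7Num

/-!
# Row 275, Section 7, leaf S7-A-STEP-CROW: the one-step estimate of Phase A for the contrast rows

Prover: helper76.  Statement `StS7AStepCrow` in `R275/S7PhaseA.lean` (helper245).  Helper prefix `s7ac_`.
-/

set_option autoImplicit false
set_option linter.unusedSectionVars false
set_option linter.unusedVariables false

namespace Claimed.Agent.R275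

open Matrix

/-! ## A. Real arithmetic of the normalised increment -/

/-- the numerical conditions (they hold for large `n`) -/
structure S7acNum (CR Θ ε κ lam δ sτ szz τ zz ol : ℝ) : Prop where
  hCR : 0 < CR
  hΘ : 1 ≤ Θ
  hε : 0 < ε
  hκ : 0 < κ
  hlam : 0 < lam
  hlam1 : lam ≤ 1
  hδ : 0 < δ
  hsτ : 0 ≤ sτ
  hszz : 0 ≤ szz
  hτ : 0 ≤ τ
  hzz : 0 ≤ zz
  hol : 0 < ol
  c1 : ε ^ 2 ≤ κ * lam ^ 2 * ol
  c2 : zz ≤ κ * lam ^ 2
  c3 : (1 + τ) * zz ≤ 1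
  c4 : ε ≤ κ * lam ^ 2
  c5 : (2 * CR * (4 + 2 * Θ) + 2 * Θ) * κ ≤ 1
  c6 : CR * ((1 + sτ) * szz + ε + Θ * ε + zz) ≤ 2 / 5 * δ

/-- the facts on one state and one row -/
structure S7acSt (Θ ε δ ol L om dl N : ℝ) : Prop where
  hL : 8 ≤ L
  hLε : 1 / L ≤ ε
  hom0 : ol ≤ om
  hom1 : om ≤ 1
  hdl : δ / 2 ≤ dl
  hdl1 : dl ≤ 1
  hN0 : 0 ≤ N
  hN : N ≤ Θ * om

section Arith

variable {CR Θ ε κ lam δ sτ szz τ zz ol L om dl N : ℝ}

theorem s7ac_om' (hn : S7acNum CR Θ ε κ lam δ sτ szz τ zz ol) (hs : S7acSt Θ ε δ ol L om dl N) :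
    om / 2 ≤ om * (1 - dl / L) ∧ 0 < om := by
  have hom : 0 < om := lt_of_lt_of_le hn.hol hs.hom0
  have hL := hs.hL
  have h1 : dl / L ≤ 1 / 2 := by
    rw [div_le_iff₀ (by linarith)]
    linarith [hs.hdl1]
  refine ⟨?_, hom⟩
  nlinarith

theorem s7ac_ident (hn : S7acNum CR Θ ε κ lam δ sτ szz τ zz ol) (hs : S7acSt Θ ε δ ol L om dl N)
    (x : ℝ) : (N + x) / (om * (1 - dl / L)) - N / om = (x + N * dl / L) / (om * (1 - dl / L)) := by
  obtain ⟨h1, hom⟩ := s7ac_om' hn hs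
  have hL : 0 < L := by linarith [hs.hL]
  have h2 : 0 < 1 - dl / L := by
    by_contra hc
    have : om * (1 - dl / L) ≤ 0 := mul_nonpos_of_nonneg_of_nonpos hom.le (not_lt.1 hc)
    linarith
  generalize hq : 1 - dl / L = q at *
  have e : dl / L = 1 - q := by linarith
  have e2 : N * dl / L = N * (1 - q) := by rw [mul_div_assoc, e]
  rw [e2]
  field_simp
  ring

/-- `ε² / om ≤ κ λ²` -/
theorem s7ac_eps_om (hn : S7acNum CR Θ ε κ lam δ sτ szz τ zz ol) (hs : S7acSt Θ ε δ ol L om dl N) :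
    ε ^ 2 / om ≤ κ * lam ^ 2 ∧ ε ^ 2 ≤ κ * lam ^ 2 := by
  obtain ⟨h1, hom⟩ := s7ac_om' hn hs
  have hk : 0 ≤ κ * lam ^ 2 := by have := hn.hκ; positivity
  have h2 : ε ^ 2 ≤ κ * lam ^ 2 * om := hn.c1.trans (mul_le_mul_of_nonneg_left hs.hom0 hk)
  refine ⟨by rw [div_le_iff₀ hom]; exact h2, h2.trans ?_⟩
  exact mul_le_of_le_one_right hk hs.hom1

theorem s7ac_alg1 {N h X L : ℝ} (hL : L ≠ 0) (hL1 : L - 1 ≠ 0) :
    -2 * N / L + 2 * h ^ 2 * N * X / (L * (L - 1)) = -2 * (N / L) * (1 - h ^ 2 * X / (L - 1)) := by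
  field_simp
  ring

theorem s7ac_alg2 {sT sL szz N L : ℝ} (hL : L ≠ 0) (hsL : sL ≠ 0) :
    (1 + sT) * (sL * szz) * N / (L * sL) = (1 + sT) * szz * (N / L) := by
  field_simp

theorem s7ac_alg3 {Θ om zz N L : ℝ} (hL : L ≠ 0) :
    (Θ * om + L * zz) * N / L ^ 2 = (Θ * om / L + zz) * (N / L) := by
  field_simp

theorem s7ac_alg4 {CR ε Θ om L : ℝ} (hom : om ≠ 0) (hL : L ≠ 0) :
    CR * (4 * ε ^ 2 / L + 2 * ε * (Θ * om) / L ^ 2) / (om / 2)
      = 2 * CR * (4 * (ε ^ 2 / om) + 2 * Θ * (ε * (1 / L))) / L := by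
  field_simp

theorem s7ac_mean (hn : S7acNum CR Θ ε κ lam δ sτ szz τ zz ol) (hs : S7acSt Θ ε δ ol L om dl N)
    {m X h sL Z G sg sT εr : ℝ} (hsL0 : 0 < sL) (hsL : sL ^ 2 = L) (hZ : Z = sL * szz)
    (hszz2 : szz ^ 2 = zz) (hG : G = Θ * om) (hsg0 : 0 ≤ sg) (hsg : sg ≤ Θ * om) (hsT0 : 0 ≤ sT)
    (hsT : sT ≤ sτ) (hεr : εr = 2 * ε) (hgap : 9 / 10 * dl ≤ 1 - h ^ 2 * X / (L - 1))
    (hm : m ≤ -2 * N / L + 2 * h ^ 2 * N * X / (L * (L - 1))
      + CR * (εr ^ 2 / L + εr * sg / L ^ 2 + (1 + sT) * Z * N / (L * sL) + ε * N / L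
          + (G + Z ^ 2) * N / L ^ 2)) :
    (m + N * dl / L) / (om * (1 - dl / L)) ≤ 2 * CR * (4 + 2 * Θ) * (κ * lam) / L := by
  obtain ⟨ho, hom⟩ := s7ac_om' hn hs
  obtain ⟨he1, he2⟩ := s7ac_eps_om hn hs
  have hL := hs.hL
  have hL0 : 0 < L := by linarith
  have hL1 : L - 1 ≠ 0 := by linarith
  have hCR := hn.hCR
  have hΘ := hn.hΘ
  have hε := hn.hε
  have hκ := hn.hκ
  have hlam := hn.hlam
  obtain ⟨a, ha⟩ : ∃ a, a = N / L := ⟨_, rfl⟩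
  have ha0 : 0 ≤ a := by rw [ha]; exact div_nonneg hs.hN0 hL0.le
  have e1 : -2 * N / L + 2 * h ^ 2 * N * X / (L * (L - 1)) = -2 * a * (1 - h ^ 2 * X / (L - 1)) := by
    rw [ha]
    exact s7ac_alg1 hL0.ne' hL1
  have e2 : (1 + sT) * Z * N / (L * sL) = (1 + sT) * szz * a := by
    rw [ha, hZ]
    exact s7ac_alg2 hL0.ne' hsL0.ne'
  have e3 : (G + Z ^ 2) * N / L ^ 2 = (Θ * om / L + zz) * a := by
    rw [ha, hZ, hG, mul_pow, hsL, hszz2]
    exact s7ac_alg3 hL0.ne'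
  have e4 : ε * N / L = ε * a := by rw [ha]; ring
  have e5 : N * dl / L = a * dl := by rw [ha]; ring
  rw [e1, e2, e3, e4] at hm
  rw [e5]
  have b1 : -2 * a * (1 - h ^ 2 * X / (L - 1)) ≤ -2 * a * (9 / 10 * dl) := by
    have := mul_le_mul_of_nonneg_left hgap (by linarith : 0 ≤ 2 * a)
    linarith
  have b2 : εr ^ 2 / L + εr * sg / L ^ 2 ≤ 4 * ε ^ 2 / L + 2 * ε * (Θ * om) / L ^ 2 := by
    rw [hεr]
    have h1 : (2 * ε) ^ 2 / L = 4 * ε ^ 2 / L := by ring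
    have h2 : 2 * ε * sg / L ^ 2 ≤ 2 * ε * (Θ * om) / L ^ 2 :=
      div_le_div_of_nonneg_right (mul_le_mul_of_nonneg_left hsg (by linarith)) (by positivity)
    linarith
  have hoL : Θ * om / L ≤ Θ * ε := by
    have h1 : om / L ≤ 1 / L := div_le_div_of_nonneg_right hs.hom1 hL0.le
    have h2 := mul_le_mul_of_nonneg_left (h1.trans hs.hLε) (by linarith : 0 ≤ Θ)
    calc Θ * om / L = Θ * (om / L) := by ring
      _ ≤ _ := h2
  have b3 : (1 + sT) * szz * a + ε * a + (Θ * om / L + zz) * a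
      ≤ ((1 + sτ) * szz + ε + Θ * ε + zz) * a := by
    have h1 : (1 + sT) * szz ≤ (1 + sτ) * szz :=
      mul_le_mul_of_nonneg_right (by linarith) hn.hszz
    have h2 : (1 + sT) * szz + ε + (Θ * om / L + zz) ≤ (1 + sτ) * szz + ε + Θ * ε + zz := by
      linarith
    have := mul_le_mul_of_nonneg_right h2 ha0
    linarith
  have b4 : CR * (((1 + sτ) * szz + ε + Θ * ε + zz) * a) ≤ 4 / 5 * dl * a := by
    have h1 := mul_le_mul_of_nonneg_right hn.c6 ha0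
    have h2 : 2 / 5 * δ ≤ 4 / 5 * dl := by linarith [hs.hdl]
    have h3 := mul_le_mul_of_nonneg_right h2 ha0
    linarith
  obtain ⟨U, hU⟩ : ∃ U, U = CR * (4 * ε ^ 2 / L + 2 * ε * (Θ * om) / L ^ 2) := ⟨_, rfl⟩
  have hU0 : 0 ≤ U := by rw [hU]; positivity
  have b5 : m + a * dl ≤ U := by
    have h1 := mul_le_mul_of_nonneg_left b2 hCR.le
    have h2 := mul_le_mul_of_nonneg_left b3 hCR.le
    rw [hU]
    linarith
  have ho2 : 0 < om / 2 := by linarith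
  calc (m + a * dl) / (om * (1 - dl / L)) ≤ U / (om * (1 - dl / L)) :=
        div_le_div_of_nonneg_right b5 (ho2.le.trans ho)
    _ ≤ U / (om / 2) := div_le_div_of_nonneg_left hU0 ho2 ho
    _ = 2 * CR * (4 * (ε ^ 2 / om) + 2 * Θ * (ε * (1 / L))) / L := by
        rw [hU]
        exact s7ac_alg4 hom.ne' hL0.ne'
    _ ≤ 2 * CR * (4 * (κ * lam ^ 2) + 2 * Θ * (κ * lam ^ 2)) / L := by
        refine div_le_div_of_nonneg_right ?_ hL0.le
        refine mul_le_mul_of_nonneg_left ?_ (by linarith)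
        have h1 : ε * (1 / L) ≤ κ * lam ^ 2 := by
          have := mul_le_mul_of_nonneg_left hs.hLε hε.le
          linarith
        have h2 := mul_le_mul_of_nonneg_left h1 (by linarith : 0 ≤ 2 * Θ)
        linarith
    _ ≤ 2 * CR * (4 + 2 * Θ) * (κ * lam) / L := by
        refine div_le_div_of_nonneg_right ?_ hL0.le
        have h1 : lam ^ 2 ≤ lam := pow_le_of_le_one hlam.le hn.hlam1 two_ne_zero
        have h2 : κ * lam ^ 2 ≤ κ * lam := mul_le_mul_of_nonneg_left h1 hκ.le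
        have h3 := mul_le_mul_of_nonneg_left h2 (by positivity : 0 ≤ 2 * CR * (4 + 2 * Θ))
        linarith

theorem s7ac_alg5 {CR ε y om zz c L : ℝ} (hom : om ≠ 0) (hL : L ≠ 0) :
    2 * (CR * ((4 * ε ^ 2 * (y * om) + zz * (y * om) ^ 2 + c * (4 * ε ^ 2 * (y * om))) / L)
        + (y * om) ^ 2 / L ^ 2) / (om / 2) ^ 2
      = 8 * (CR * (4 * ((ε ^ 2 / om) * y) + zz * y ^ 2 + c * (4 * ((ε ^ 2 / om) * y)))
          + y ^ 2 * (1 / L)) / L := by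
  field_simp
  ring

theorem s7ac_alg6 {ε N zz T L : ℝ} (hL : L ≠ 0) :
    (2 * ε) ^ 2 * N / L + L * zz * N ^ 2 / L ^ 2 + (1 + T) * (2 * ε) ^ 2 * (L * zz) * N / L ^ 2
      = (4 * ε ^ 2 * N + zz * N ^ 2 + ((1 + T) * zz) * (4 * ε ^ 2 * N)) / L := by
  field_simp
  ring

theorem s7ac_var (hn : S7acNum CR Θ ε κ lam δ sτ szz τ zz ol) (hs : S7acSt Θ ε δ ol L om dl N)
    {v sL Z T εr : ℝ} (hsL : sL ^ 2 = L) (hZ : Z = sL * szz) (hszz2 : szz ^ 2 = zz) (hT0 : 0 ≤ T)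
    (hT : T ≤ τ) (hεr : εr = 2 * ε)
    (hv : v ≤ CR * (εr ^ 2 * N / L + Z ^ 2 * N ^ 2 / L ^ 2 + (1 + T) * εr ^ 2 * Z ^ 2 * N / L ^ 2)) :
    2 * (v + (N * dl / L) ^ 2) / (om * (1 - dl / L)) ^ 2
      ≤ 8 * (CR * (8 * Θ + Θ ^ 2) + Θ ^ 2) * (κ * lam ^ 2) / L := by
  obtain ⟨ho, hom⟩ := s7ac_om' hn hs
  obtain ⟨he1, he2⟩ := s7ac_eps_om hn hs
  have hL := hs.hL
  have hL0 : 0 < L := by linarith
  have hCR := hn.hCR
  have hΘ := hn.hΘ
  have hε := hn.hε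
  have hzz := hn.hzz
  have hN0 := hs.hN0
  obtain ⟨β, hβ⟩ : ∃ β, β = κ * lam ^ 2 := ⟨_, rfl⟩
  have hβ0 : 0 ≤ β := by rw [hβ]; have := hn.hκ; positivity
  rw [← hβ] at he1 he2 ⊢
  have c2 := hn.c2
  have c4 := hn.c4
  rw [← hβ] at c2 c4
  obtain ⟨c, hc⟩ : ∃ c, c = (1 + τ) * zz := ⟨_, rfl⟩
  have hc0 : 0 ≤ c := by rw [hc]; have := hn.hτ; positivity
  have hc1 : c ≤ 1 := by rw [hc]; exact hn.c3
  obtain ⟨y, hy⟩ : ∃ y, y = N / om := ⟨_, rfl⟩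
  have hyN : N = y * om := by rw [hy]; field_simp
  have hy0 : 0 ≤ y := by rw [hy]; exact div_nonneg hN0 hom.le
  have hyΘ : y ≤ Θ := by rw [hy, div_le_iff₀ hom]; exact hs.hN
  have hZ2 : Z ^ 2 = L * zz := by rw [hZ, mul_pow, hsL, hszz2]
  rw [hεr, hZ2, s7ac_alg6 hL0.ne'] at hv
  -- the numerator
  have w1 : v ≤ CR * ((4 * ε ^ 2 * N + zz * N ^ 2 + c * (4 * ε ^ 2 * N)) / L) := by
    refine hv.trans (mul_le_mul_of_nonneg_left ?_ hCR.le)
    refine div_le_div_of_nonneg_right ?_ hL0.le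
    have h1 : (1 + T) * zz ≤ c := by
      rw [hc]; exact mul_le_mul_of_nonneg_right (by linarith) hzz
    have h2 := mul_le_mul_of_nonneg_right h1 (by positivity : 0 ≤ 4 * ε ^ 2 * N)
    linarith
  have w2 : (N * dl / L) ^ 2 ≤ N ^ 2 / L ^ 2 := by
    rw [div_pow]
    refine div_le_div_of_nonneg_right ?_ (by positivity)
    have hdl0 : 0 ≤ dl := by linarith [hs.hdl, hn.hδ]
    have h1 : N * dl ≤ N := mul_le_of_le_one_right hN0 hs.hdl1
    exact pow_le_pow_left₀ (mul_nonneg hN0 hdl0) h1 2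
  obtain ⟨Wb, hWb⟩ : ∃ Wb, Wb = 2 * (CR * ((4 * ε ^ 2 * N + zz * N ^ 2 + c * (4 * ε ^ 2 * N)) / L)
      + N ^ 2 / L ^ 2) := ⟨_, rfl⟩
  have hWb0 : 0 ≤ Wb := by rw [hWb]; positivity
  have w3 : 2 * (v + (N * dl / L) ^ 2) ≤ Wb := by rw [hWb]; linarith
  have ho2 : 0 < om / 2 := by linarith
  have ho3 : (om / 2) ^ 2 ≤ (om * (1 - dl / L)) ^ 2 := pow_le_pow_left₀ ho2.le ho 2
  have ho4 : 0 < (om / 2) ^ 2 := by positivity
  obtain ⟨E, hE⟩ : ∃ E, E = ε ^ 2 / om := ⟨_, rfl⟩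
  have hE0 : 0 ≤ E := by rw [hE]; positivity
  rw [← hE] at he1
  calc 2 * (v + (N * dl / L) ^ 2) / (om * (1 - dl / L)) ^ 2 ≤ Wb / (om * (1 - dl / L)) ^ 2 :=
        div_le_div_of_nonneg_right w3 (ho4.le.trans ho3)
    _ ≤ Wb / (om / 2) ^ 2 := div_le_div_of_nonneg_left hWb0 ho4 ho3
    _ = 8 * (CR * (4 * (E * y) + zz * y ^ 2 + c * (4 * (E * y))) + y ^ 2 * (1 / L)) / L := by
        rw [hWb, hyN, hE]
        exact s7ac_alg5 hom.ne' hL0.ne'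
    _ ≤ 8 * (CR * (4 * (β * Θ) + β * Θ ^ 2 + 4 * (β * Θ)) + Θ ^ 2 * β) / L := by
        refine div_le_div_of_nonneg_right ?_ hL0.le
        have h1 : E * y ≤ β * Θ := mul_le_mul he1 hyΘ hy0 hβ0
        have h2 : y ^ 2 ≤ Θ ^ 2 := pow_le_pow_left₀ hy0 hyΘ 2
        have h3 : zz * y ^ 2 ≤ β * Θ ^ 2 := mul_le_mul c2 h2 (sq_nonneg _) hβ0
        have h4 : c * (4 * (E * y)) ≤ 4 * (β * Θ) := by
          have : 0 ≤ 4 * (E * y) := by positivity
          have := mul_le_of_le_one_left this hc1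
          linarith
        have h5 : y ^ 2 * (1 / L) ≤ Θ ^ 2 * β :=
          mul_le_mul h2 (hs.hLε.trans c4) (by positivity) (sq_nonneg _)
        have h6 : 4 * (E * y) + zz * y ^ 2 + c * (4 * (E * y))
            ≤ 4 * (β * Θ) + β * Θ ^ 2 + 4 * (β * Θ) := by linarith
        have h7 := mul_le_mul_of_nonneg_left h6 hCR.le
        linarith
    _ = 8 * (CR * (8 * Θ + Θ ^ 2) + Θ ^ 2) * β / L := by ring

theorem s7ac_alg7 {CR ε Θ om L : ℝ} (hom : om ≠ 0) (hL : L ≠ 0) :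
    (CR * (4 * ε ^ 2 + 2 * ε * (Θ * om)) + Θ * om * (1 / L)) / (om / 2)
      = 2 * CR * (4 * (ε ^ 2 / om) + 2 * Θ * ε) + 2 * Θ * (1 / L) := by
  field_simp

theorem s7ac_jump (hn : S7acNum CR Θ ε κ lam δ sτ szz τ zz ol) (hs : S7acSt Θ ε δ ol L om dl N)
    {x sg εr : ℝ} (hsg0 : 0 ≤ sg) (hsg : sg ≤ Θ * om) (hεr : εr = 2 * ε)
    (hx : |x| ≤ CR * (εr ^ 2 + εr * sg)) :
    |(x + N * dl / L) / (om * (1 - dl / L))| ≤ lam := by
  obtain ⟨ho, hom⟩ := s7ac_om' hn hs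
  obtain ⟨he1, he2⟩ := s7ac_eps_om hn hs
  have hL := hs.hL
  have hL0 : 0 < L := by linarith
  have hCR := hn.hCR
  have hΘ := hn.hΘ
  have hε := hn.hε
  have hN0 := hs.hN0
  have hlam := hn.hlam
  obtain ⟨β, hβ⟩ : ∃ β, β = κ * lam ^ 2 := ⟨_, rfl⟩
  have hβ0 : 0 ≤ β := by rw [hβ]; have := hn.hκ; positivity
  rw [← hβ] at he1 he2
  have c4 := hn.c4
  rw [← hβ] at c4
  have ho2 : 0 < om / 2 := by linarith
  have ho5 : 0 < om * (1 - dl / L) := lt_of_lt_of_le ho2 ho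
  have hdl0 : 0 ≤ dl := by linarith [hs.hdl, hn.hδ]
  obtain ⟨Jb, hJb⟩ : ∃ Jb, Jb = CR * (4 * ε ^ 2 + 2 * ε * (Θ * om)) + Θ * om * (1 / L) := ⟨_, rfl⟩
  have hJb0 : 0 ≤ Jb := by rw [hJb]; positivity
  have j1 : |x| ≤ CR * (4 * ε ^ 2 + 2 * ε * (Θ * om)) := by
    refine hx.trans (mul_le_mul_of_nonneg_left ?_ hCR.le)
    rw [hεr]
    have := mul_le_mul_of_nonneg_left hsg (by linarith : 0 ≤ 2 * ε)
    nlinarith
  have j2 : |N * dl / L| ≤ Θ * om * (1 / L) := by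
    rw [abs_of_nonneg (by positivity)]
    have h1 : N * dl ≤ Θ * om := (mul_le_of_le_one_right hN0 hs.hdl1).trans hs.hN
    calc N * dl / L = N * dl * (1 / L) := by ring
      _ ≤ _ := mul_le_mul_of_nonneg_right h1 (by positivity)
  have j3 : |x + N * dl / L| ≤ Jb := by
    rw [hJb]
    exact (abs_add_le _ _).trans (add_le_add j1 j2)
  rw [abs_div, abs_of_pos ho5]
  calc |x + N * dl / L| / (om * (1 - dl / L)) ≤ Jb / (om * (1 - dl / L)) :=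
        div_le_div_of_nonneg_right j3 ho5.le
    _ ≤ Jb / (om / 2) := div_le_div_of_nonneg_left hJb0 ho2 ho
    _ = 2 * CR * (4 * (ε ^ 2 / om) + 2 * Θ * ε) + 2 * Θ * (1 / L) := by
        rw [hJb]
        exact s7ac_alg7 hom.ne' hL0.ne'
    _ ≤ 2 * CR * (4 * β + 2 * Θ * β) + 2 * Θ * β := by
        have h1 := mul_le_mul_of_nonneg_left c4 (by linarith : 0 ≤ 2 * Θ)
        have h2 := mul_le_mul_of_nonneg_left (hs.hLε.trans c4) (by linarith : 0 ≤ 2 * Θ)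
        have h3 : 4 * (ε ^ 2 / om) + 2 * Θ * ε ≤ 4 * β + 2 * Θ * β := by linarith
        have h4 := mul_le_mul_of_nonneg_left h3 (by linarith : 0 ≤ 2 * CR)
        linarith
    _ = ((2 * CR * (4 + 2 * Θ) + 2 * Θ) * κ) * lam ^ 2 := by rw [hβ]; ring
    _ ≤ 1 * lam ^ 2 := mul_le_mul_of_nonneg_right hn.c5 (sq_nonneg _)
    _ ≤ lam := by rw [one_mul]; exact pow_le_of_le_one hlam.le hn.hlam1 two_ne_zero

end Arith

/-! ## B. Averages of the normalised increment -/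

section Layer

variable {CR Θ ε κ lam δ sτ szz τ zz ol L om dl N : ℝ}

theorem s7ac_avg_aff {ι : Type*} [DecidableEq ι] {I : Finset ι} (hI : 2 ≤ I.card) (f : ι → ι → ℝ)
    (t c q : ℝ) : s7avg I (fun u v => t * (f u v + c) / q) = t * (s7avg I f + c) / q := by
  have e : (fun u v => t * (f u v + c) / q) = fun u v => (t / q) * (f u v + (fun _ _ => c) u v) := by
    funext u v
    ring
  rw [e, s7t_avg_smul, s7t_avg_add, s7t_avg_const hI]
  ring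

theorem s7ac_layer {ι : Type*} [DecidableEq ι] {I : Finset ι} (hI : 2 ≤ I.card) (N' : ι → ι → ℝ)
    (hn : S7acNum CR Θ ε κ lam δ sτ szz τ zz ol) (hs : S7acSt Θ ε δ ol L om dl N)
    {X h sL Z G sg sT T εr : ℝ} (hsL0 : 0 < sL) (hsL : sL ^ 2 = L) (hZ : Z = sL * szz)
    (hszz2 : szz ^ 2 = zz) (hG : G = Θ * om) (hsg0 : 0 ≤ sg) (hsg : sg ≤ Θ * om) (hsT0 : 0 ≤ sT)
    (hsT : sT ≤ sτ) (hT0 : 0 ≤ T) (hT : T ≤ τ) (hεr : εr = 2 * ε)
    (hgap : 9 / 10 * dl ≤ 1 - h ^ 2 * X / (L - 1))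
    (hm : s7avg I (fun u v => N' u v - N) ≤ -2 * N / L + 2 * h ^ 2 * N * X / (L * (L - 1))
      + CR * (εr ^ 2 / L + εr * sg / L ^ 2 + (1 + sT) * Z * N / (L * sL) + ε * N / L
          + (G + Z ^ 2) * N / L ^ 2))
    (hv : s7avg I (fun u v => (N' u v - N) ^ 2)
      ≤ CR * (εr ^ 2 * N / L + Z ^ 2 * N ^ 2 / L ^ 2 + (1 + T) * εr ^ 2 * Z ^ 2 * N / L ^ 2)) :
    s7avg I (fun u v => N' u v / (om * (1 - dl / L)) - N / om)
        ≤ 2 * CR * (4 + 2 * Θ) * (κ * lam) / L ∧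
    s7avg I (fun u v => (N' u v / (om * (1 - dl / L)) - N / om) ^ 2)
        ≤ 8 * (CR * (8 * Θ + Θ ^ 2) + Θ ^ 2) * (κ * lam ^ 2) / L := by
  have hid : ∀ u v, N' u v / (om * (1 - dl / L)) - N / om
      = 1 * ((N' u v - N) + N * dl / L) / (om * (1 - dl / L)) := by
    intro u v
    have := s7ac_ident hn hs (N' u v - N)
    rw [add_sub_cancel] at this
    rw [this, one_mul]
  constructor
  · have e : (fun u v => N' u v / (om * (1 - dl / L)) - N / om)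
        = fun u v => 1 * ((fun u v => N' u v - N) u v + N * dl / L) / (om * (1 - dl / L)) := by
      funext u v
      exact hid u v
    rw [e, s7ac_avg_aff hI, one_mul]
    exact s7ac_mean hn hs hsL0 hsL hZ hszz2 hG hsg0 hsg hsT0 hsT hεr hgap hm
  · have hle : s7avg I (fun u v => (N' u v / (om * (1 - dl / L)) - N / om) ^ 2)
        ≤ s7avg I (fun u v => 2 * ((fun u v => (N' u v - N) ^ 2) u v + (N * dl / L) ^ 2)
            / (om * (1 - dl / L)) ^ 2) := by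
      refine s7t_avg_mono hI (fun u _ v _ _ => ?_)
      rw [hid u v, one_mul, div_pow]
      refine div_le_div_of_nonneg_right ?_ (sq_nonneg _)
      simp only []
      nlinarith [sq_nonneg ((N' u v - N) - N * dl / L)]
    refine hle.trans ?_
    rw [s7ac_avg_aff hI]
    exact s7ac_var hn hs hsL hZ hszz2 hT0 hT hεr hv

end Layer

/-! ## C. Numerics -/

section Num

open Filter

theorem s7ac_lt {x y : ℚ} (h : x < y) (C : ℝ) :
    ∀ᶠ n : ℕ in atTop, C * (scQ x n : ℝ) ≤ (scQ y n : ℝ) := by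
  filter_upwards [s7n_scQ_lt h C 0] with n hn
  simpa using hn

theorem s7ac_mul (x y : ℚ) (n : ℕ) : (scQ x n : ℝ) * (scQ y n : ℝ) ≤ (scQ (x + y) n : ℝ) := by
  exact_mod_cast s7n_scQ_mul_le x y n

theorem s7ac_add (x y : ℚ) (n : ℕ) :
    (scQ (x + y) n : ℝ) ≤ 2 * ((scQ x n : ℝ) * (scQ y n : ℝ)) := by
  exact_mod_cast s7n_scQ_add_le x y n

theorem s7ac_le_one {x : ℚ} (h : x ≤ 0) (n : ℕ) : (scQ x n : ℝ) ≤ 1 := by
  exact_mod_cast s7n_scQ_le_one h n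

theorem s7ac_one_le {x : ℚ} (h : 0 ≤ x) (n : ℕ) : (1 : ℝ) ≤ (scQ x n : ℝ) := by
  exact_mod_cast s7n_one_le_scQ h n

/-- `κ λ² ≥ n^{-g/25}/4` -/
theorem s7ac_kl (g : ℚ) (n : ℕ) :
    (scQ (-(g / 25)) n : ℝ) / 4 ≤ (s7kap g n : ℝ) * (s7lam g n : ℝ) ^ 2 := by
  unfold s7kap s7lam s7eta0
  have h1 := s7ac_add (-(2 * (g / 100))) (-(g / 100)) n
  have h2 := s7ac_add (-(2 * (g / 100)) + -(g / 100)) (-(g / 100)) n
  have e : -(2 * (g / 100)) + -(g / 100) + -(g / 100) = -(g / 25) := by ring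
  rw [e] at h2
  have p1 := s7n_cast_pos (-(g / 100)) n
  have h3 := mul_le_mul_of_nonneg_right h1 p1.le
  nlinarith

theorem s7ac_ThS (d : ℕ) (hd : 3 ≤ d) : (1 : ℝ) ≤ (s7ThS d : ℝ) + 1 := by
  have h1 : (0 : ℚ) ≤ s7ThS d := by
    unfold s7ThS
    have : (3 : ℚ) ≤ d := by exact_mod_cast hd
    linarith
  have h2 : (0 : ℝ) ≤ (s7ThS d : ℝ) := by exact_mod_cast h1
  linarith

theorem s7ac_num (d : ℕ) (par : S7Par) (hp : S7ParOK d par) (CR : ℝ) (hCR : 0 < CR) :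
    ∀ᶠ n : ℕ in atTop, S7acNum CR ((s7ThS d : ℝ) + 1) (s7eps n : ℝ) (s7kap par.g n : ℝ)
      (s7lam par.g n : ℝ) (s7del par.g n : ℝ) (Real.sqrt (s7Tcap par.g n : ℝ))
      (Real.sqrt (scQ (-(2 / 10 * aa)) n : ℝ)) (s7Tcap par.g n : ℝ) (scQ (-(2 / 10 * aa)) n : ℝ)
      ((scQ (-(par.g / 2)) n : ℝ) / 2) := by
  obtain ⟨hd, ⟨hg0, hg1⟩, -, -, -⟩ := hp
  obtain ⟨g, hg⟩ : ∃ g, g = par.g := ⟨_, rfl⟩
  rw [← hg] at hg0 hg1 ⊢
  have hΘ := s7ac_ThS d hd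
  obtain ⟨Θ, hΘd⟩ : ∃ Θ : ℝ, Θ = (s7ThS d : ℝ) + 1 := ⟨_, rfl⟩
  rw [← hΘd] at hΘ ⊢
  have haa : aa = 1 / 10000 := rfl
  rw [haa] at hg1
  have x1 : -(aa / 1000) + -(aa / 1000) < -(g / 25) + -(g / 2) := by rw [haa]; linarith
  have x2 : -(2 / 10 * aa) < -(g / 25) := by rw [haa]; linarith
  have x3 : g / 25 + -(2 / 10 * aa) < 0 := by rw [haa]; linarith
  have x4 : -(aa / 1000) < -(g / 25) := by rw [haa]; linarith
  have x5 : -(2 * (g / 100)) < 0 := by linarith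
  have x6 : g / 50 + -(aa / 10) < -g := by rw [haa]; linarith
  have x7 : -(aa / 1000) < -g := by rw [haa]; linarith
  have x8 : -(2 / 10 * aa) < -g := by rw [haa]; linarith
  filter_upwards [s7ac_lt x1 16, s7ac_lt x2 4, s7n_scQ_small x3 (1 / 2) (by norm_num),
    s7ac_lt x4 4, s7n_scQ_small x5 (1 / (2 * CR * (4 + 2 * Θ) + 2 * Θ)) (by positivity),
    s7ac_lt x6 (45 * CR), s7ac_lt x7 (15 / 2 * CR * (1 + Θ)), s7ac_lt x8 (15 / 2 * CR)]
    with n y1 y2 y3 y4 y5 y6 y7 y8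
  have hkl := s7ac_kl g n
  have pε := s7n_cast_pos (-(aa / 1000)) n
  have pzz := s7n_cast_pos (-(2 / 10 * aa)) n
  have pκ : (0 : ℝ) < (s7kap g n : ℝ) := s7n_cast_pos _ n
  have plam : (0 : ℝ) < (s7lam g n : ℝ) := s7n_cast_pos _ n
  have pol := s7n_cast_pos (-(g / 2)) n
  have pτ : (0 : ℝ) < (s7Tcap g n : ℝ) := s7n_cast_pos _ n
  have hTc : (s7Tcap g n : ℝ) = (scQ (g / 25) n : ℝ) := by
    unfold s7Tcap s7eta0
    congr 2
    ring
  refine ⟨hCR, hΘ, pε, pκ, plam, s7ac_le_one (by linarith) n, s7n_cast_pos _ n,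
    Real.sqrt_nonneg _, Real.sqrt_nonneg _, pτ.le, pzz.le, by positivity, ?_, ?_, ?_, ?_, ?_, ?_⟩
  · -- c1
    unfold s7eps
    have h1 := s7ac_mul (-(aa / 1000)) (-(aa / 1000)) n
    have h2 := s7ac_add (-(g / 25)) (-(g / 2)) n
    have h3 := mul_le_mul_of_nonneg_right hkl pol.le
    nlinarith
  · exact le_trans (by linarith) hkl
  · rw [hTc]
    have h1 := s7ac_mul (g / 25) (-(2 / 10 * aa)) n
    have h2 := s7ac_one_le (by linarith : 0 ≤ g / 25) n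
    nlinarith
  · unfold s7eps
    exact le_trans (by linarith) hkl
  · have h0 : 0 < 2 * CR * (4 + 2 * Θ) + 2 * Θ := by positivity
    have : (s7kap g n : ℝ) ≤ 1 / (2 * CR * (4 + 2 * Θ) + 2 * Θ) := y5
    rw [le_div_iff₀ h0] at this
    linarith
  · -- c6
    unfold s7eps s7del
    rw [hTc]
    have s1 := s7n_sqrt_scQ_le (g / 25) n
    have s2 := s7n_sqrt_scQ_le (-(2 / 10 * aa)) n
    have e1 : g / 25 / 2 = g / 50 := by ring
    have e2 : -(2 / 10 * aa) / 2 = -(aa / 10) := by ring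
    rw [e1] at s1
    rw [e2] at s2
    have o1 := s7ac_one_le (by linarith : 0 ≤ g / 50) n
    have m1 := s7ac_mul (g / 50) (-(aa / 10)) n
    have p1 := s7n_cast_pos (-(aa / 10)) n
    have t1 : (1 + Real.sqrt (scQ (g / 25) n : ℝ)) * Real.sqrt (scQ (-(2 / 10 * aa)) n : ℝ)
        ≤ 6 * (scQ (g / 50 + -(aa / 10)) n : ℝ) := by
      calc _ ≤ (3 * (scQ (g / 50) n : ℝ)) * (2 * (scQ (-(aa / 10)) n : ℝ)) :=
            mul_le_mul (by linarith) s2 (Real.sqrt_nonneg _) (by linarith)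
        _ = 6 * ((scQ (g / 50) n : ℝ) * (scQ (-(aa / 10)) n : ℝ)) := by ring
        _ ≤ _ := by linarith
    have t2 := mul_le_mul_of_nonneg_left t1 hCR.le
    nlinarith

end Num

/-! ## D. The state -/

section State

theorem s7ac_st {g : ℚ} (hg : S7gOK g) (n l t : ℕ) (h : l + 2 * t = l0 n) (hl : s7l2 g n ≤ l)
    (h8 : 8 ≤ s7l3 n) {Θ N : ℝ} (hN0 : 0 ≤ N) (hN : N ≤ Θ * (s7om g n l : ℝ)) :
    S7acSt Θ (s7eps n : ℝ) (s7del g n : ℝ) ((scQ (-(g / 2)) n : ℝ) / 2) (l : ℝ) (s7om g n l : ℝ)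
      (1 - (s7ubar g n l : ℝ)) N := by
  have h32 := s7n_l3_le_l2 hg n
  have hl3 : s7l3 n ≤ l := h32.trans hl
  have hl8 : 8 ≤ l := h8.trans hl3
  have hl0 : l ≤ l0 n := by omega
  have hom := s7n_om_pos g n l t h (by omega)
  have hub := s7n_ubar_pos g n l (by omega)
  refine ⟨by exact_mod_cast hl8, ?_, ?_, by exact_mod_cast hom.2, ?_, ?_, hN0, hN⟩
  · -- `1 / l ≤ ε`
    have h1 : (s7l3 n : ℚ) ≤ (l : ℚ) := by exact_mod_cast hl3
    rw [s7n_l3] at h1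
    have h2 := s7n_scQ_inv_le s7chi n
    have p1 := scQ_pos s7chi n
    have h3 : 1 / (l : ℚ) ≤ s7eps n := by
      unfold s7eps
      have e : -(aa / 1000) = -s7chi := rfl
      rw [e]
      calc 1 / (l : ℚ) ≤ 1 / (2 * scQ s7chi n) :=
            div_le_div_of_nonneg_left zero_le_one (by positivity) h1
        _ = (scQ s7chi n)⁻¹ / 2 := by field_simp
        _ ≤ _ := by linarith
    have h4 : ((1 / (l : ℚ) : ℚ) : ℝ) ≤ ((s7eps n : ℚ) : ℝ) := Rat.cast_le.2 h3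
    push_cast at h4
    exact h4
  · -- `ol ≤ om`
    have h1 := s7n_om_lower hg n l t h hl
    have h2 := s7n_scQ_mul_le (-(g / 2)) (-(g / 2)) n
    have e : -(g / 2) + -(g / 2) = -g := by ring
    rw [e] at h2
    have p1 := scQ_pos (-(g / 2)) n
    have h3 : scQ (-(g / 2)) n / 2 ≤ s7om g n l := by
      refine le_of_sq_le_sq ?_ hom.1.le
      nlinarith
    exact_mod_cast h3
  · have h1 := s7n_d_lower hg n l hl0 (by omega)
    exact_mod_cast h1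
  · have h1 : (0 : ℝ) < (s7ubar g n l : ℝ) := by exact_mod_cast hub.1
    linarith

theorem s7ac_om_step (g : ℚ) (n l t : ℕ) (h : l + 2 * t = l0 n) (hl : 2 ≤ l) :
    (s7om g n (l - 2) : ℝ) = (s7om g n l : ℝ) * (1 - (1 - (s7ubar g n l : ℝ)) / (l : ℝ)) := by
  have := s7n_om_step g n l t h hl
  exact_mod_cast this

theorem s7ac_lab {n d : ℕ} {cp : ℚ} (i : S7Lab n d) (hi : i ∈ s7labsA n d cp) (hk : i.kind = 4) :
    ∃ j b x y, i = .crow j b x y ∧ j ≤ Nprim d n cp := by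
  cases i with
  | crow j b x y =>
    refine ⟨j, b, x, y, rfl, ?_⟩
    simp only [s7labsA, s7famNrm, s7famTrY, s7famDgT, s7famGap, s7famCrow, s7famGrow, s7famEnt,
      s7pts, List.mem_append, List.mem_map, List.mem_flatMap, List.mem_range] at hi
    simp at hi
    omega
  | nrm _ _ => simp [S7Lab.kind] at hk
  | trY _ _ _ => simp [S7Lab.kind] at hk
  | dgT _ _ _ => simp [S7Lab.kind] at hk
  | gap _ _ => simp [S7Lab.kind] at hk
  | grow _ _ _ => simp [S7Lab.kind] at hk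
  | ent _ _ _ _ _ => simp [S7Lab.kind] at hk

theorem s7ac_mulVec_ctr {ι : Type*} [Fintype ι] [DecidableEq ι] (D : Matrix ι ι ℝ) (x y z : ι) :
    (D *ᵥ s7ctr ℝ x y) z = D z x - D z y := by
  simp [Matrix.mulVec, dotProduct, s7ctr, mul_sub, Finset.sum_sub_distrib]

end State

/-! ## E. The statement -/

theorem s7ac_hmin (d : ℕ) (hd : 3 ≤ d) : 0 < s7hmin d := by
  unfold s7hmin
  have : (3 : ℝ) ≤ d := by exact_mod_cast hd
  have h1 : 0 < Real.sqrt ((d : ℝ) - 1) := Real.sqrt_pos.2 (by linarith)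
  positivity

theorem s7ac_mem_unres {n d : ℕ} {π : PPair n d} {x : Stub n d} : x ∈ π.unres ↔ π.Unres x := by
  simp [PPair.unres]

open Filter in
theorem s7_aStepCrow (hDer : StS7ADer) (hUpd : StS7Upd) (hFl : StS7Flags) (hCS : StS7CtrStep)
    (hLavg : StS7Lavg) (hExc : StS7ExcStep) : StS7AStepCrow := by
  intro d par hp
  have hd : 3 ≤ d := hp.1
  have hg : S7gOK par.g := hp.2.1
  have hp2 : 2 ≤ par.p := hp.2.2.1.1
  have hΘ1 := s7ac_ThS d hd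
  obtain ⟨CR, ε0, lR, hCR, hε0, hRow⟩ :=
    s7_rowStep (s7hmin d) ((s7ThS d : ℝ) + 1) (s7ac_hmin d hd) (by linarith)
  obtain ⟨Θ, hΘd⟩ : ∃ Θ : ℝ, Θ = (s7ThS d : ℝ) + 1 := ⟨_, rfl⟩
  rw [← hΘd] at hΘ1 hRow
  obtain ⟨K1, hK1⟩ : ∃ K1, K1 = 2 * CR * (4 + 2 * Θ) := ⟨_, rfl⟩
  obtain ⟨K2, hK2⟩ : ∃ K2, K2 = 8 * (CR * (8 * Θ + Θ ^ 2) + Θ ^ 2) := ⟨_, rfl⟩
  have hK1p : 0 < K1 := by rw [hK1]; positivity
  have hK2p : 0 < K2 := by rw [hK2]; positivity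
  have hCp : (0 : ℝ) < (excessC par.p : ℝ) := by
    have : 0 < excessC par.p := by unfold excessC; positivity
    exact_mod_cast this
  refine ⟨(excessC par.p : ℝ) * (K1 + K2), by positivity, ?_⟩
  have xε : -(aa / 1000) < 0 := by unfold aa; norm_num
  filter_upwards [hDer d par hp, s7ac_num d par hp CR hCR, s7n_l3_large (max 8 lR),
    s7n_scQ_small xε (min ε0 (1 / 16)) (lt_min hε0 (by norm_num)), eventually_gt_atTop 0]
    with n hder hnum hl3 hεs hn0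
  rw [← hΘd] at hnum
  intro φ π₀ π t hStop hInv hl i hi hk
  obtain ⟨j, b, x, y, rfl, hj⟩ := s7ac_lab i hi hk
  have pκ : (0 : ℝ) < (s7kap par.g n : ℝ) := s7n_cast_pos _ n
  have h32 := s7n_l3_le_l2 hg n
  have hl8 : 8 ≤ π.l := by
    have := le_trans (le_max_left 8 lR) hl3
    omega
  have hlR : lR ≤ π.l := by
    have := le_trans (le_max_right 8 lR) hl3
    omega
  have hL8 : (8 : ℝ) ≤ (π.l : ℝ) := by exact_mod_cast hl8
  have hL0 : (0 : ℝ) < (π.l : ℝ) := by linarith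
  refine ⟨by positivity, ?_⟩
  obtain ⟨σ, hσ⟩ : ∃ σ : ℝ, σ = sgn b := ⟨_, rfl⟩
  obtain ⟨h, hh⟩ : ∃ h : ℝ, h = ((prim d n j : ℚ) : ℝ) := ⟨_, rfl⟩
  have der : S7DerA d n par φ π₀ π σ h := by
    rw [hσ, hh]; exact hder φ π₀ π t hStop hInv hl.le j hj b
  have cap : S7CapA d n par φ π₀ π σ h := by
    rw [hσ, hh]; exact hInv.cap j hj b
  have pos : PosOn1 (π.Mmat σ h) := by
    rw [hσ, hh]; exact hInv.pos j hj b
  have hZ : ∀ π' : PPair n d, (s7PhaseA ℝ d n par φ π₀).Z (.crow j b x y) π' =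
      if π'.Unres x ∧ π'.Unres y ∧ x ≠ y then
        excessZ par.p (s7sq (s7D π' σ h *ᵥ s7ctr ℝ x y) / (s7om par.g n π'.l : ℝ)) (s7ThS d : ℝ)
          (s7lam par.g n : ℝ)
      else 0 := by
    intro π'
    rw [hσ, hh]
    rfl
  rw [Phase.avg_eq_lavg]
  have hcands : (s7PhaseA ℝ d n par φ π₀).cands π = s7cands π := rfl
  rw [hcands, (hLavg n d π _).1]
  by_cases hal : π.Unres x ∧ π.Unres y ∧ x ≠ y
  swap
  · -- dead label
    rw [hZ π, if_neg hal, mul_zero]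
    refine le_of_eq ?_
    rw [s7t_avg_congr (g := fun _ _ => 0)]
    · unfold s7avg
      simp
    · intro u hu v hv huv
      have hf := (hFl n d π₀ π (s7t0 d n) u v (s7ac_mem_unres.1 hu) (s7ac_mem_unres.1 hv) huv).1
      rw [hZ, if_neg]
      rintro ⟨a1, a2, a3⟩
      exact hal ⟨((hf x).1 a1).1, ((hf y).1 a2).1, a3⟩
  -- alive label
  rw [hZ π, if_pos hal]
  obtain ⟨hx, hy, hxy⟩ := hal
  have base := der.baseD
  have hεa : (s7eps n : ℝ) ≤ ε0 := le_trans hεs (min_le_left _ _)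
  have hε16 : (s7eps n : ℝ) ≤ 1 / 16 := le_trans hεs (min_le_right _ _)
  have pε : (0 : ℝ) < (s7eps n : ℝ) := s7n_cast_pos _ n
  have plam : (0 : ℝ) < (s7lam par.g n : ℝ) := s7n_cast_pos _ n
  have hh0 : 0 < h := lt_of_lt_of_le (s7ac_hmin d hd) base.h_lo
  have upd := fun (u v : Stub n d) (hu : π.Unres u) (hv : π.Unres v) (huv : u ≠ v) =>
    hUpd n d π₀ π φ (Lcut d n) σ h u v hn0 hInv.ext hu hv huv (by omega) der.sig hh0 base.h_hi pos
      (fun a c => (base.ent a c).trans hε16) der.refAt.unit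
      (fun a c => (der.baseDh.ent a c).trans hε16)
  obtain ⟨D, hD⟩ : ∃ D, D = s7D π σ h := ⟨_, rfl⟩
  rw [← hD] at base upd ⊢
  obtain ⟨r, hr⟩ : ∃ r, r = D *ᵥ s7ctr ℝ x y := ⟨_, rfl⟩
  obtain ⟨I, hI⟩ : ∃ I, I = s7sub π.unres x y := ⟨_, rfl⟩
  have hmemI : ∀ z, z ∈ I ↔ z ≠ y ∧ z ≠ x ∧ π.Unres z := by
    intro z
    rw [hI, s7sub, Finset.mem_erase, Finset.mem_erase, s7ac_mem_unres]
  have hIR : I ⊆ π.unres := fun z hz => s7ac_mem_unres.2 ((hmemI z).1 hz).2.2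
  have hIc : I.card + 2 = π.unres.card := by
    rw [hI, s7sub, Finset.card_erase_of_mem (Finset.mem_erase.2 ⟨hxy.symm, s7ac_mem_unres.2 hy⟩),
      Finset.card_erase_of_mem (s7ac_mem_unres.2 hx)]
    have : 8 ≤ π.unres.card := hl8
    omega
  have hAll : S7Allowed π.unres I := ⟨hIR, by omega⟩
  have hI2 : 2 ≤ I.card := by
    have : 8 ≤ π.unres.card := hl8
    omega
  have hN0 := s7t_sq_nonneg r
  have hN : s7sq r ≤ Θ * (s7om par.g n π.l : ℝ) := by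
    rw [hr, hD, hΘd]; exact cap.crow x y hx hy hxy
  have st := s7ac_st hg n π.l t hInv.card hl.le (le_trans (le_max_left 8 lR) hl3) hN0 hN
  have hεr : ∀ z, |r z| ≤ 2 * (s7eps n : ℝ) := by
    intro z
    rw [hr, s7ac_mulVec_ctr]
    have h1 := base.ent z x
    have h2 := base.ent z y
    have h3 := abs_sub (D z x) (D z y)
    linarith
  have hopD := der.opD
  have hrowG := der.rowG
  rw [← hD] at hopD
  rw [← hD, ← hΘd] at hrowG
  rw [← hΘd] at base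
  obtain ⟨rm, rv, rp⟩ := hRow (Stub n d) σ h (s7eps n : ℝ) π.unres D base hεa hlR I r _ _ _ hAll
    (by rw [hr]; exact s7rw_s_cent base.cent _) hopD hrowG hεr (by linarith)
  obtain ⟨om, hom⟩ : ∃ om : ℝ, om = (s7om par.g n π.l : ℝ) := ⟨_, rfl⟩
  obtain ⟨dl, hdl⟩ : ∃ dl : ℝ, dl = 1 - (s7ubar par.g n π.l : ℝ) := ⟨_, rfl⟩
  rw [← hom, ← hdl] at st
  rw [← hom] at hN rm rp ⊢
  have hΘom : 0 ≤ Θ * om := hN0.trans hN
  have hsg : Real.sqrt (Θ * om * s7sq r) ≤ Θ * om := by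
    calc Real.sqrt (Θ * om * s7sq r) ≤ Real.sqrt (Θ * om * (Θ * om)) :=
          Real.sqrt_le_sqrt (mul_le_mul_of_nonneg_left hN hΘom)
      _ = Θ * om := Real.sqrt_mul_self hΘom
  have hTcap : s7T D ≤ (s7Tcap par.g n : ℝ) := by rw [hD]; exact cap.dgT
  have hgap : 9 / 10 * dl ≤ 1 - h ^ 2 * s7X D / ((π.l : ℝ) - 1) := by
    rw [hdl, hD]; exact der.gapD
  have layer := s7ac_layer (I := I) hI2 (fun u v => s7sq (s7rstep σ h π.unres D r 0 u v)) hnum st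
    (X := s7X D) (h := h) (sL := Real.sqrt (π.l : ℝ)) (G := Θ * om) (T := s7T D)
    (Real.sqrt_pos.2 hL0) (Real.sq_sqrt hL0.le) (Real.sqrt_mul hL0.le _)
    (Real.sq_sqrt (s7n_cast_pos _ n).le) rfl (Real.sqrt_nonneg _) hsg (Real.sqrt_nonneg _)
    (Real.sqrt_le_sqrt hTcap) (s7t_T_nonneg D) hTcap rfl hgap rm rv
  rw [← hK1, ← hK2] at layer
  have key := hExc (Stub n d) π.unres I par.p (s7sq r / om) (s7ThS d : ℝ) (s7lam par.g n : ℝ)
    (K1 * ((s7kap par.g n : ℝ) * (s7lam par.g n : ℝ)) / (π.l : ℝ))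
    (K2 * ((s7kap par.g n : ℝ) * (s7lam par.g n : ℝ) ^ 2) / (π.l : ℝ))
    (fun u v => s7sq (s7rstep σ h π.unres D r 0 u v) / (om * (1 - dl / (π.l : ℝ))) - s7sq r / om)
    (fun u v => (s7PhaseA ℝ d n par φ π₀).Z (.crow j b x y) (π.resolve u v))
    hp2 hIR plam (by positivity) (by positivity) ?_ ?_ layer.1 layer.2
  · refine key.trans (le_of_eq ?_)
    rw [hr]
    congr 2
    field_simp
  · -- ordinary events
    intro u hu v hv huv
    obtain ⟨huy, hux, huR⟩ := (hmemI u).1 hu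
    obtain ⟨hvy, hvx, hvR⟩ := (hmemI v).1 hv
    constructor
    · have e := s7ac_ident hnum st (s7sq (s7rstep σ h π.unres D r 0 u v) - s7sq r)
      rw [add_sub_cancel] at e
      rw [e]
      exact s7ac_jump hnum st (Real.sqrt_nonneg _) hsg rfl (rp u (hIR hu) v (hIR hv) huv)
    · have hf := (hFl n d π₀ π (s7t0 d n) u v huR hvR huv).1
      obtain ⟨-, -, ul, uun, -, uD, -⟩ := upd u v huR hvR huv
      have hl' : (π.resolve u v).l = π.l - 2 := by omega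
      refine le_of_eq ?_
      rw [hZ, if_pos ⟨(hf x).2 ⟨hx, hux.symm, hvx.symm⟩, (hf y).2 ⟨hy, huy.symm, hvy.symm⟩, hxy⟩,
        uD, hCS ℝ (Stub n d) σ h π.unres D u v x y ?_ ?_, ← hr, hl',
        s7ac_om_step par.g n π.l t hInv.card (by omega), ← hom, ← hdl, add_sub_cancel]
      · rw [s7sub, Finset.mem_erase, Finset.mem_erase, s7ac_mem_unres]
        exact ⟨hvx.symm, hux.symm, hx⟩
      · rw [s7sub, Finset.mem_erase, Finset.mem_erase, s7ac_mem_unres]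
        exact ⟨hvy.symm, huy.symm, hy⟩
  · -- the label dies
    intro u hu v hv huv hnot
    have huR := s7ac_mem_unres.1 hu
    have hvR := s7ac_mem_unres.1 hv
    have hf := (hFl n d π₀ π (s7t0 d n) u v huR hvR huv).1
    rw [hZ, if_neg]
    · exact zero_le_one.trans (excessZ_pos _ _ _ _ plam)
    · rintro ⟨a1, a2, -⟩
      obtain ⟨-, b1, b2⟩ := (hf x).1 a1
      obtain ⟨-, b3, b4⟩ := (hf y).1 a2
      exact hnot ⟨(hmemI u).2 ⟨b3.symm, b1.symm, huR⟩, (hmemI v).2 ⟨b4.symm, b2.symm, hvR⟩⟩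

end Claimed.Agent.R275
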