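import Claimed.Agent.R275.S7AStepGap

/-!
# Row 275, Section 7, leaf S7-A-STEP-ENT: one step of the entry accounts in Phase A

Prover: helper102.  Prefix `s7ae_`.  Statement `StS7AStepEnt` in `R275/S7PhaseA.lean` (helper245).
* dead label: all candidates are dead;
* ordinary events (`u, v ∈ s7allow a c`): flags unchanged, `ΔE = s7dE` (`StS7Upd`), `StS7EntryMeanA`, `StS7EntryVarA`;
* exceptional events: a contrast endpoint is selected (dead), or a short endpoint of a global label is selected: `StS7EntryJump` and the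
  new threshold absorb the jump (excess `0`).
-/

set_option autoImplicit false
set_option linter.unusedSectionVars false
set_option linter.unusedVariables false

namespace Claimed.Agent.R275

open Matrix Filter

/-! ## thresholds -/

theorem s7ae_Th0 (f : ℕ) : s7Th 0 f = 1 := by simp [s7Th]

theorem s7ae_Th1_le (f : ℕ) : s7Th 1 f ≤ 12 := by
  unfold s7Th
  by_cases h : f = 0 <;> simp [h]

theorem s7ae_Th1 : s7Th 1 0 + 1 + 10 ≤ s7Th 1 1 := by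
  norm_num [s7Th]

theorem s7ae_Th2 (f f' : ℕ) (h1 : f < f') (h2 : f' ≤ 2) : s7Th 2 f + 1 + 157 ≤ s7Th 2 f' := by
  interval_cases f' <;> interval_cases f <;> norm_num [s7Th]

/-! ## labels under one exposure -/

section Labels

variable {n d : ℕ} {π₀ π π' : PPair n d} {t0 : ℕ} {u v : Stub n d}

theorem s7ae_ord (F1 : ∀ x, π'.Unres x ↔ π.Unres x ∧ x ≠ u ∧ x ≠ v)
    (F2 : ∀ i, s7removed π₀ π' t0 i ↔ s7removed π₀ π t0 i ∨ s7near π₀ t0 i u ∨ s7near π₀ t0 i v)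
    (a : S7Out n d) (ha : a.Alive π) (hu : ¬ a.Avoid π₀ t0 u) (hv : ¬ a.Avoid π₀ t0 v) :
    a.Alive π' ∧ a.fl π₀ π' t0 = a.fl π₀ π t0 := by
  rcases a with i | ⟨x, y⟩
  · refine ⟨trivial, ?_⟩
    have hu' : ¬ s7near π₀ t0 i u := hu
    have hv' : ¬ s7near π₀ t0 i v := hv
    have e : s7removed π₀ π' t0 i ↔ s7removed π₀ π t0 i := by
      rw [F2]; tauto
    show (if s7removed π₀ π' t0 i then 1 else 0) = (if s7removed π₀ π t0 i then 1 else 0)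
    simp only [e]
  · have ha' : π.Unres x ∧ π.Unres y ∧ x ≠ y := ha
    have hu' : ¬ (u = x ∨ u = y) := hu
    have hv' : ¬ (v = x ∨ v = y) := hv
    refine ⟨?_, rfl⟩
    show π'.Unres x ∧ π'.Unres y ∧ x ≠ y
    rw [F1, F1]
    refine ⟨⟨ha'.1, fun h => hu' (Or.inl h.symm), fun h => hv' (Or.inl h.symm)⟩,
      ⟨ha'.2.1, fun h => hu' (Or.inr h.symm), fun h => hv' (Or.inr h.symm)⟩, ha'.2.2⟩

theorem s7ae_alive_of (F1 : ∀ x, π'.Unres x ↔ π.Unres x ∧ x ≠ u ∧ x ≠ v) (a : S7Out n d)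
    (ha : a.Alive π') :
    a.Alive π ∧ (a.ty = 0 → ¬ a.Avoid π₀ t0 u ∧ ¬ a.Avoid π₀ t0 v) := by
  rcases a with i | ⟨x, y⟩
  · refine ⟨trivial, fun h => ?_⟩
    exact absurd h (by show (1 : ℕ) ≠ 0; norm_num)
  · have ha' : π'.Unres x ∧ π'.Unres y ∧ x ≠ y := ha
    rw [F1, F1] at ha'
    obtain ⟨⟨x1, x2, x3⟩, ⟨y1, y2, y3⟩, hxy⟩ := ha'
    refine ⟨⟨x1, y1, hxy⟩, fun _ => ⟨?_, ?_⟩⟩
    · show ¬ (u = x ∨ u = y)
      rintro (h | h)
      · exact x2 h.symm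
      · exact y2 h.symm
    · show ¬ (v = x ∨ v = y)
      rintro (h | h)
      · exact x3 h.symm
      · exact y3 h.symm

theorem s7ae_ty_le (a : S7Out n d) : a.ty ≤ 1 := by
  rcases a with i | ⟨x, y⟩
  · exact le_refl 1
  · exact Nat.zero_le 1

theorem s7ae_fl_mono
    (F2 : ∀ i, s7removed π₀ π' t0 i ↔ s7removed π₀ π t0 i ∨ s7near π₀ t0 i u ∨ s7near π₀ t0 i v)
    (a : S7Out n d) : a.fl π₀ π t0 ≤ a.fl π₀ π' t0 ∧ a.fl π₀ π' t0 ≤ a.ty := by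
  rcases a with i | ⟨x, y⟩
  · show (if s7removed π₀ π t0 i then 1 else 0) ≤ (if s7removed π₀ π' t0 i then 1 else 0)
      ∧ (if s7removed π₀ π' t0 i then 1 else 0) ≤ 1
    by_cases h : s7removed π₀ π t0 i
    · have h' : s7removed π₀ π' t0 i := (F2 i).2 (Or.inl h)
      simp [h, h']
    · by_cases h' : s7removed π₀ π' t0 i <;> simp [h, h']
  · exact ⟨le_refl 0, le_refl 0⟩

/-- a short endpoint of a global label is selected -/
theorem s7ae_exc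
    (F2 : ∀ i, s7removed π₀ π' t0 i ↔ s7removed π₀ π t0 i ∨ s7near π₀ t0 i u ∨ s7near π₀ t0 i v)
    (uniq : ∀ i x y, s7near π₀ t0 i x → s7near π₀ t0 i y → x = y) (hu : π.Unres u)
    (hv : π.Unres v) (a : S7Out n d) (hty : a.ty = 0 → ¬ a.Avoid π₀ t0 u ∧ ¬ a.Avoid π₀ t0 v)
    (h : a.Avoid π₀ t0 u ∨ a.Avoid π₀ t0 v) :
    a.ty = 1 ∧ a.fl π₀ π t0 = 0 ∧ a.fl π₀ π' t0 = 1 := by
  rcases a with i | ⟨x, y⟩
  · have h' : s7near π₀ t0 i u ∨ s7near π₀ t0 i v := h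
    have r' : s7removed π₀ π' t0 i := (F2 i).2 (Or.inr h')
    have r : ¬ s7removed π₀ π t0 i := by
      rintro ⟨z, hz, hzu⟩
      rcases h' with h1 | h1
      · exact hzu (uniq i z u hz h1 ▸ hu)
      · exact hzu (uniq i z v hz h1 ▸ hv)
    refine ⟨rfl, ?_, ?_⟩
    · show (if s7removed π₀ π t0 i then 1 else 0) = 0
      simp [r]
    · show (if s7removed π₀ π' t0 i then 1 else 0) = 1
      simp [r']
  · obtain ⟨h1, h2⟩ := hty rfl
    rcases h with h | h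
    · exact absurd h h1
    · exact absurd h h2

theorem s7ae_allow_comm (π₀ π : PPair n d) (t0 : ℕ) (a c : S7Out n d) :
    s7allow π₀ π t0 c a = s7allow π₀ π t0 a c := by
  unfold s7allow
  refine Finset.filter_congr (fun z _ => ?_)
  exact and_comm

theorem s7ae_mem_allow {a c : S7Out n d} {z : Stub n d} :
    z ∈ s7allow π₀ π t0 a c ↔ π.Unres z ∧ ¬ a.Avoid π₀ t0 z ∧ ¬ c.Avoid π₀ t0 z := by
  unfold s7allow PPair.unres
  simp only [Finset.mem_filter, Finset.mem_univ, true_and]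

end Labels

/-! ## the thresholds absorb the jumps -/

theorem s7ae_thr (tya tyc fa fc fa' fc' : ℕ) (ε BA : ℝ) (hε0 : 0 ≤ ε) (hε : ε ≤ 1 / 100)
    (hBA : 0 ≤ BA) (h1 : tya ≤ 1) (h2 : tyc ≤ 1) (h3 : fa ≤ fa') (h4 : fa' ≤ tya) (h5 : fc ≤ fc')
    (h6 : fc' ≤ tyc) (hex : (tya = 1 ∧ fa = 0 ∧ fa' = 1) ∨ (tyc = 1 ∧ fc = 0 ∧ fc' = 1)) :
    ((s7Th (tya + tyc) (fa + fc) : ℝ) + 1) * BA
      + (4 * (((s7Th tya fa : ℝ) + 1) * BA) * (if tyc = 0 then 2 * ε else 11 / 10)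
        + 4 * (if tya = 0 then 2 * ε else 11 / 10) * (((s7Th tyc fc : ℝ) + 1) * BA)
        + 16 * (if tya = 0 then 2 * ε else 11 / 10) * (if tyc = 0 then 2 * ε else 11 / 10)
          * (2 * BA))
      ≤ (s7Th (tya + tyc) (fa' + fc') : ℝ) * BA := by
  have k : BA * ε ≤ BA * (1 / 100) := mul_le_mul_of_nonneg_left hε hBA
  have k0 : 0 ≤ BA * ε := mul_nonneg hBA hε0
  interval_cases tya <;> interval_cases tyc <;> interval_cases fa' <;> interval_cases fa <;>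
    interval_cases fc' <;> interval_cases fc <;> simp at hex <;> norm_num [s7Th] <;> nlinarith

/-! ## outer rows at selected stubs -/

section Rows

variable {n d : ℕ}

theorem s7ae_ctr_apply (D : Matrix (Stub n d) (Stub n d) ℝ) (x y z : Stub n d) :
    (D *ᵥ s7ctr ℝ x y) z = D z x - D z y := by
  simp only [Matrix.mulVec, dotProduct, s7ctr, mul_sub, Finset.sum_sub_distrib, mul_ite, mul_one,
    mul_zero, Finset.sum_ite_eq', Finset.mem_univ, if_true]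

/-- a contrast row off its endpoints -/
theorem s7ae_ctr_row (hCtr : StS7CtrRow) (π : PPair n d) (X : Matrix (Fin n) (Fin n) ℝ) {ε : ℝ}
    (hent : ∀ p q, |s7Dof π X p q| ≤ ε) {x y z : Stub n d} (hx : π.Unres x) (hy : π.Unres y)
    (hz : ¬ (z = x ∨ z = y)) : |s7orow π X (S7Out.ctr x y) z| ≤ 2 * ε := by
  rw [(hCtr n d π X).1 x y hx hy, Pi.add_apply, s7ae_ctr_apply]
  have e : s7ctr ℝ x y z = 0 := by
    have h1 : z ≠ x := fun h => hz (Or.inl h)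
    have h2 : z ≠ y := fun h => hz (Or.inr h)
    simp [s7ctr, h1, h2]
  rw [e, zero_add]
  exact (abs_sub _ _).trans (by linarith [hent z x, hent z y])

variable {par : S7Par} {φ : ℕ → ℚ} {π₀ π : PPair n d} {σ h : ℝ}

/-- both outer rows of an alive label at a stub that is not an endpoint of the label -/
theorem s7ae_rowM (hCtr : StS7CtrRow) (der : S7DerA d n par φ π₀ π σ h) (a : S7Out n d)
    (ha : a.Alive π) (z : Stub n d) (hz : a.ty = 0 → ¬ a.Avoid π₀ (s7t0 d n) z) :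
    |s7orow π (π.Wmat σ h) a z| ≤ (if a.ty = 0 then 2 * (s7eps n : ℝ) else 11 / 10) ∧
    |s7orow π (s7Ph π₀ π φ (Lcut d n) σ h) a z| ≤ (if a.ty = 0 then 2 * (s7eps n : ℝ) else 11 / 10) := by
  rcases a with i | ⟨x, y⟩
  · have b := der.big (Sum.inl i) ha z hz
    have e : S7Out.ty (Sum.inl i : S7Out n d) = 1 := rfl
    rw [e]
    simp only [one_ne_zero, if_false]
    exact ⟨b.2, b.1.trans (by norm_num)⟩
  · have e : S7Out.ty (Sum.inr (x, y) : S7Out n d) = 0 := rfl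
    have ha' : π.Unres x ∧ π.Unres y ∧ x ≠ y := ha
    have hz' : ¬ (z = x ∨ z = y) := hz e
    rw [e]
    simp only [if_true]
    exact ⟨s7ae_ctr_row hCtr π _ der.baseD.ent ha'.1 ha'.2.1 hz',
      s7ae_ctr_row hCtr π _ der.baseDh.ent ha'.1 ha'.2.1 hz'⟩

/-- exceptional events with surviving labels: the new entry is below the new threshold -/
theorem s7ae_excJump (hCtr : StS7CtrRow) (der : S7DerA d n par φ π₀ π σ h)
    (cap : S7CapA d n par φ π₀ π σ h) {π' : PPair n d} {u v : Stub n d}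
    (F1 : ∀ x, π'.Unres x ↔ π.Unres x ∧ x ≠ u ∧ x ≠ v)
    (F2 : ∀ i, s7removed π₀ π' (s7t0 d n) i ↔
      s7removed π₀ π (s7t0 d n) i ∨ s7near π₀ (s7t0 d n) i u ∨ s7near π₀ (s7t0 d n) i v)
    (uniq : ∀ i x y, s7near π₀ (s7t0 d n) i x → s7near π₀ (s7t0 d n) i y → x = y)
    (hu : π.Unres u) (hv : π.Unres v) (a c : S7Out n d) (ha' : a.Alive π') (hc' : c.Alive π')
    (hexc : ¬ (u ∈ s7allow π₀ π (s7t0 d n) a c ∧ v ∈ s7allow π₀ π (s7t0 d n) a c))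
    (hε : (s7eps n : ℝ) ≤ 1 / 100) (dE : ℝ)
    (hJ : ∀ b₁ b₂ b₃ mw mp₁ mp₂ : ℝ,
      (∀ x, x = u ∨ x = v →
        |s7orow π (π.Wmat σ h) a x - s7orow π (s7Ph π₀ π φ (Lcut d n) σ h) a x| ≤ b₁ ∧
        |s7orow π (π.Wmat σ h) c x - s7orow π (s7Ph π₀ π φ (Lcut d n) σ h) c x| ≤ b₂ ∧
        |s7orow π (π.Wmat σ h) c x| ≤ mw ∧ |s7orow π (s7Ph π₀ π φ (Lcut d n) σ h) a x| ≤ mp₁ ∧
        |s7orow π (s7Ph π₀ π φ (Lcut d n) σ h) c x| ≤ mp₂) →
      (∀ x y, (x = u ∨ x = v) → (y = u ∨ y = v) →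
        |s7D π σ h x y - s7Dh π₀ π φ (Lcut d n) σ h x y| ≤ b₃) →
      |dE| ≤ 4 * b₁ * mw + 4 * mp₁ * b₂ + 16 * mp₁ * mp₂ * b₃) :
    |s7ent (s7E π₀ π φ (Lcut d n) σ h) a c + dE| ≤
      (s7Th (a.ty + c.ty) (a.fl π₀ π' (s7t0 d n) + c.fl π₀ π' (s7t0 d n)) : ℝ)
        * (s7BA par.g n : ℝ) := by
  obtain ⟨ha, hta⟩ := s7ae_alive_of (π₀ := π₀) (t0 := s7t0 d n) F1 a ha'
  obtain ⟨hc, htc⟩ := s7ae_alive_of (π₀ := π₀) (t0 := s7t0 d n) F1 c hc'
  have hex : (a.Avoid π₀ (s7t0 d n) u ∨ a.Avoid π₀ (s7t0 d n) v)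
      ∨ (c.Avoid π₀ (s7t0 d n) u ∨ c.Avoid π₀ (s7t0 d n) v) := by
    by_contra hcon
    rw [not_or, not_or, not_or] at hcon
    exact hexc ⟨s7ae_mem_allow.2 ⟨hu, hcon.1.1, hcon.2.1⟩, s7ae_mem_allow.2 ⟨hv, hcon.1.2, hcon.2.2⟩⟩
  obtain ⟨ma1, ma2⟩ := s7ae_fl_mono F2 a
  obtain ⟨mc1, mc2⟩ := s7ae_fl_mono F2 c
  have hex' : (a.ty = 1 ∧ a.fl π₀ π (s7t0 d n) = 0 ∧ a.fl π₀ π' (s7t0 d n) = 1)
      ∨ (c.ty = 1 ∧ c.fl π₀ π (s7t0 d n) = 0 ∧ c.fl π₀ π' (s7t0 d n) = 1) := by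
    rcases hex with e | e
    · exact Or.inl (s7ae_exc F2 uniq hu hv a hta e)
    · exact Or.inr (s7ae_exc F2 uniq hu hv c htc e)
  have hε0 : (0 : ℝ) ≤ (s7eps n : ℝ) := (s7n_cast_pos _ n).le
  have hBA : (0 : ℝ) ≤ (s7BA par.g n : ℝ) := (s7n_cast_pos _ n).le
  have thr := s7ae_thr a.ty c.ty (a.fl π₀ π (s7t0 d n)) (c.fl π₀ π (s7t0 d n))
    (a.fl π₀ π' (s7t0 d n)) (c.fl π₀ π' (s7t0 d n)) (s7eps n : ℝ) (s7BA par.g n : ℝ) hε0 hε hBA
    (s7ae_ty_le a) (s7ae_ty_le c) ma1 ma2 mc1 mc2 hex'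
  have J := hJ (((s7Th a.ty (a.fl π₀ π (s7t0 d n)) : ℝ) + 1) * (s7BA par.g n : ℝ))
    (((s7Th c.ty (c.fl π₀ π (s7t0 d n)) : ℝ) + 1) * (s7BA par.g n : ℝ)) (2 * (s7BA par.g n : ℝ))
    (if c.ty = 0 then 2 * (s7eps n : ℝ) else 11 / 10)
    (if a.ty = 0 then 2 * (s7eps n : ℝ) else 11 / 10)
    (if c.ty = 0 then 2 * (s7eps n : ℝ) else 11 / 10)
    (by
      intro x hx
      have hxa : a.ty = 0 → ¬ a.Avoid π₀ (s7t0 d n) x := by
        intro h0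
        rcases hx with e | e <;> rw [e]
        · exact (hta h0).1
        · exact (hta h0).2
      have hxc : c.ty = 0 → ¬ c.Avoid π₀ (s7t0 d n) x := by
        intro h0
        rcases hx with e | e <;> rw [e]
        · exact (htc h0).1
        · exact (htc h0).2
      exact ⟨der.oDiff a ha x, der.oDiff c hc x, (s7ae_rowM hCtr der c hc x hxc).1,
        (s7ae_rowM hCtr der a ha x hxa).2, (s7ae_rowM hCtr der c hc x hxc).2⟩)
    (fun x y _ _ => der.dDiff x y)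
  have E := cap.ent a c ha hc
  refine (abs_add_le _ _).trans ?_
  linarith

end Rows

/-! ## the account at a candidate -/

section Acc

variable {n d : ℕ} {par : S7Par} {φ : ℕ → ℚ} {π₀ π π' : PPair n d} {u v : Stub n d}

theorem s7ae_sgn_abs (s : Bool) : |(sgn s : ℝ)| = 1 := by
  unfold sgn
  cases s <;> simp

theorem s7ae_Z_eq (j : ℕ) (b s : Bool) (a c : S7Out n d) (ρ : PPair n d) :
    s7ZA ℝ d n par φ π₀ (.ent j b s a c) ρ =
      if a.Alive ρ ∧ c.Alive ρ then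
        excessZ par.p (sgn s * s7ent (s7E π₀ ρ φ (Lcut d n) (sgn b) ((prim d n j : ℚ) : ℝ)) a c)
          (((s7Th (a.ty + c.ty) (a.fl π₀ ρ (s7t0 d n) + c.fl π₀ ρ (s7t0 d n)) * s7BA par.g n : ℚ)) : ℝ)
          (((s7lam par.g n * s7BA par.g n : ℚ)) : ℝ)
      else 0 := rfl

/-- ordinary events -/
theorem s7ae_Zord (j : ℕ) (b s : Bool) (a c : S7Out n d)
    (F1 : ∀ x, π'.Unres x ↔ π.Unres x ∧ x ≠ u ∧ x ≠ v)
    (F2 : ∀ i, s7removed π₀ π' (s7t0 d n) i ↔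
      s7removed π₀ π (s7t0 d n) i ∨ s7near π₀ (s7t0 d n) i u ∨ s7near π₀ (s7t0 d n) i v)
    (ha : a.Alive π) (hc : c.Alive π) (hu : u ∈ s7allow π₀ π (s7t0 d n) a c)
    (hv : v ∈ s7allow π₀ π (s7t0 d n) a c) (dE : ℝ)
    (hE : s7ent (s7E π₀ π' φ (Lcut d n) (sgn b) ((prim d n j : ℚ) : ℝ)) a c
      = s7ent (s7E π₀ π φ (Lcut d n) (sgn b) ((prim d n j : ℚ) : ℝ)) a c + dE) :
    s7ZA ℝ d n par φ π₀ (.ent j b s a c) π' =
      excessZ par.p (sgn s * s7ent (s7E π₀ π φ (Lcut d n) (sgn b) ((prim d n j : ℚ) : ℝ)) a c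
          + sgn s * dE)
        (((s7Th (a.ty + c.ty) (a.fl π₀ π (s7t0 d n) + c.fl π₀ π (s7t0 d n)) * s7BA par.g n : ℚ)) : ℝ)
        (((s7lam par.g n * s7BA par.g n : ℚ)) : ℝ) := by
  obtain ⟨-, ua, uc⟩ := s7ae_mem_allow.1 hu
  obtain ⟨-, va, vc⟩ := s7ae_mem_allow.1 hv
  obtain ⟨a1, a2⟩ := s7ae_ord F1 F2 a ha ua va
  obtain ⟨c1, c2⟩ := s7ae_ord F1 F2 c hc uc vc
  rw [s7ae_Z_eq, if_pos ⟨a1, c1⟩, a2, c2, hE, mul_add]

/-- exceptional events -/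
theorem s7ae_Zexc (j : ℕ) (b s : Bool) (a c : S7Out n d) (X T : ℝ) (hp : par.p ≠ 0)
    (hthr : a.Alive π' → c.Alive π' →
      |s7ent (s7E π₀ π' φ (Lcut d n) (sgn b) ((prim d n j : ℚ) : ℝ)) a c| ≤
      (s7Th (a.ty + c.ty) (a.fl π₀ π' (s7t0 d n) + c.fl π₀ π' (s7t0 d n)) : ℝ)
        * (s7BA par.g n : ℝ)) :
    s7ZA ℝ d n par φ π₀ (.ent j b s a c) π' ≤
      excessZ par.p X T (((s7lam par.g n * s7BA par.g n : ℚ)) : ℝ) := by
  have hb : (0 : ℝ) < (((s7lam par.g n * s7BA par.g n : ℚ)) : ℝ) := by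
    have : 0 < s7lam par.g n * s7BA par.g n := mul_pos (scQ_pos _ _) (scQ_pos _ _)
    exact_mod_cast this
  have h1 := excessZ_pos par.p X T _ hb
  rw [s7ae_Z_eq]
  by_cases hal : a.Alive π' ∧ c.Alive π'
  · rw [if_pos hal]
    refine le_trans (le_of_eq ?_) h1
    have t := hthr hal.1 hal.2
    have t2 : sgn s * s7ent (s7E π₀ π' φ (Lcut d n) (sgn b) ((prim d n j : ℚ) : ℝ)) a c
        ≤ (((s7Th (a.ty + c.ty) (a.fl π₀ π' (s7t0 d n) + c.fl π₀ π' (s7t0 d n))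
          * s7BA par.g n : ℚ)) : ℝ) := by
      refine (le_abs_self _).trans ?_
      rw [abs_mul, s7ae_sgn_abs, one_mul]
      push_cast
      exact t
    unfold excessZ
    rw [max_eq_right (by linarith), zero_div, zero_pow hp, add_zero]
  · rw [if_neg hal]
    linarith

end Acc

/-! ## numerics -/

theorem s7ae_add_le (x y : ℚ) (n : ℕ) :
    (scQ (x + y) n : ℝ) ≤ 2 * ((scQ x n : ℝ) * (scQ y n : ℝ)) := by
  exact_mod_cast s7n_scQ_add_le x y n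

theorem s7ae_mul_le (x y : ℚ) (n : ℕ) :
    (scQ x n : ℝ) * (scQ y n : ℝ) ≤ (scQ (x + y) n : ℝ) := by
  exact_mod_cast s7n_scQ_mul_le x y n

theorem s7ae_mono {x y : ℚ} (h : x ≤ y) (n : ℕ) : (scQ x n : ℝ) ≤ (scQ y n : ℝ) := by
  exact_mod_cast s7n_scQ_mono h n

theorem s7ae_one_le {x : ℚ} (h : 0 ≤ x) (n : ℕ) : (1 : ℝ) ≤ (scQ x n : ℝ) := by
  exact_mod_cast s7n_one_le_scQ h n

/-- `√(l₀ n^x) ≤ 4 n^{(X₀+x)/2}` -/
theorem s7ae_sqrt_l0 (x : ℚ) (n : ℕ) :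
    Real.sqrt ((l0 n : ℝ) * (scQ x n : ℝ)) ≤ 4 * (scQ ((2 / 3 + 15 / 100 * aa + x) / 2) n : ℝ) := by
  have e : (l0 n : ℝ) = 2 * (scQ (2 / 3 + 15 / 100 * aa) n : ℝ) := by exact_mod_cast s7n_l0 n
  have h1 := s7ae_mul_le (2 / 3 + 15 / 100 * aa) x n
  have h2 := s7n_sqrt_scQ_le (2 / 3 + 15 / 100 * aa + x) n
  have p := s7n_cast_pos (2 / 3 + 15 / 100 * aa + x) n
  have h3 : (l0 n : ℝ) * (scQ x n : ℝ) ≤ 4 * (scQ (2 / 3 + 15 / 100 * aa + x) n : ℝ) := by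
    rw [e]; linarith
  calc Real.sqrt ((l0 n : ℝ) * (scQ x n : ℝ))
      ≤ Real.sqrt (4 * (scQ (2 / 3 + 15 / 100 * aa + x) n : ℝ)) := Real.sqrt_le_sqrt h3
    _ = 2 * Real.sqrt (scQ (2 / 3 + 15 / 100 * aa + x) n : ℝ) := by
        rw [Real.sqrt_mul (by norm_num), show (4 : ℝ) = 2 ^ 2 by norm_num,
          Real.sqrt_sq (by norm_num)]
    _ ≤ _ := by linarith

/-- all facts on the scales used in the entry step -/
theorem s7ae_num {g : ℚ} (hg : S7gOK g) (ε0 : ℝ) (hε0 : 0 < ε0) (m : ℕ) (K : ℝ) :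
    ∀ᶠ n : ℕ in atTop, 1 ≤ n ∧ (s7eps n : ℝ) ≤ ε0 ∧ m ≤ s7l2 g n ∧
      K * (s7eps n : ℝ) ≤ (s7lam g n : ℝ) ∧ 13 * (s7BA g n : ℝ) ≤ 1 ∧
      13 * ((s7eps n : ℝ) + 2 * (s7eps n : ℝ) * (1 + (s7Tcap g n : ℝ)))
        ≤ (s7kap g n : ℝ) * (s7lam g n : ℝ) ∧
      5 / 4 + 2 * Real.sqrt ((l0 n : ℝ) * (scQ (-(8 / 100 * aa)) n : ℝ))
          + Real.sqrt ((l0 n : ℝ) * (scQ (-(2 / 10 * aa)) n : ℝ))
        ≤ (s7kap g n : ℝ) * ((s7lam g n : ℝ) * (s7BA g n : ℝ)) * (s7l2 g n : ℝ) ∧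
      1 + (1 + (s7Tcap g n : ℝ)) * (2 * (s7eps n : ℝ)) ^ 2
        ≤ (s7kap g n : ℝ) * ((s7lam g n : ℝ) * (s7BA g n : ℝ)) ^ 2 * (s7l2 g n : ℝ) := by
  obtain ⟨hg0, hg1⟩ := hg
  have haa : aa = 1 / 10000 := rfl
  have x1 : (-(aa / 1000) : ℚ) < 0 := by rw [haa]; norm_num
  have xK : (-(aa / 1000) : ℚ) < -(g / 100) := by rw [haa] at hg1 ⊢; linarith
  have xB : (38 / 100 * aa - (2 / 3 + 15 / 100 * aa - 2 * g) / 2 : ℚ) < 0 := by
    rw [haa] at hg1 ⊢; linarith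
  have x3 : (-(aa / 1000) + 4 * s7eta0 g : ℚ) < -(2 * s7eta0 g) + -(g / 100) := by
    unfold s7eta0; rw [haa] at hg1 ⊢; linarith
  have x2 : ((2 / 3 + 15 / 100 * aa + -(8 / 100 * aa)) / 2 : ℚ)
      < -(2 * s7eta0 g) + (-(g / 100) + ((38 / 100 * aa - (2 / 3 + 15 / 100 * aa - 2 * g) / 2)
        + (2 / 3 + 15 / 100 * aa - 2 * g))) := by
    unfold s7eta0; rw [haa] at hg1 ⊢; linarith
  have x4 : (4 * s7eta0 g + (-(aa / 1000) + -(aa / 1000)) : ℚ) < 0 := by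
    unfold s7eta0; rw [haa] at hg1 ⊢; linarith
  have x5 : (0 : ℚ) < -(2 * s7eta0 g) + (-(g / 100) + (-(g / 100)
      + ((38 / 100 * aa - (2 / 3 + 15 / 100 * aa - 2 * g) / 2)
        + ((38 / 100 * aa - (2 / 3 + 15 / 100 * aa - 2 * g) / 2)
          + (2 / 3 + 15 / 100 * aa - 2 * g))))) := by
    unfold s7eta0; rw [haa] at hg1 ⊢; linarith
  filter_upwards [eventually_ge_atTop 1, s7n_scQ_small x1 ε0 hε0, s7n_l3_large m, s7ag_lt xK K,
    s7ag_lt xB 13, s7ag_lt x3 130, s7ag_lt x2 56, s7ag_lt x4 8, s7ag_lt x5 32]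
    with n h1 h2 h3 hK hB h3' h2' h4 h5
  have l2e : (s7l2 g n : ℝ) = 2 * (scQ (2 / 3 + 15 / 100 * aa - 2 * g) n : ℝ) := by
    exact_mod_cast s7n_l2 ⟨hg0, hg1⟩ n
  have z0 : (scQ 0 n : ℝ) = 1 := by exact_mod_cast s7n_scQ_zero n
  have pε := s7n_cast_pos (-(aa / 1000)) n
  have pτ := s7n_cast_pos (4 * s7eta0 g) n
  have pκ := s7n_cast_pos (-(2 * s7eta0 g)) n
  have pl := s7n_cast_pos (-(g / 100)) n
  have pB := s7n_cast_pos (38 / 100 * aa - (2 / 3 + 15 / 100 * aa - 2 * g) / 2) n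
  have pX := s7n_cast_pos (2 / 3 + 15 / 100 * aa - 2 * g) n
  have τ1 : (1 : ℝ) ≤ (scQ (4 * s7eta0 g) n : ℝ) := s7ae_one_le (by unfold s7eta0; linarith) n
  refine ⟨h1, h2, h3.trans (s7n_l3_le_l2 ⟨hg0, hg1⟩ n), hK, ?_, ?_, ?_, ?_⟩
  · rw [z0] at hB; exact hB
  · unfold s7eps s7Tcap s7kap s7lam
    have a1 := s7ae_mul_le (-(aa / 1000)) (4 * s7eta0 g) n
    have a2 := s7ae_add_le (-(2 * s7eta0 g)) (-(g / 100)) n
    have a3 : (scQ (-(aa / 1000)) n : ℝ) ≤ (scQ (-(aa / 1000)) n : ℝ) * (scQ (4 * s7eta0 g) n : ℝ) := by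
      have := mul_le_mul_of_nonneg_left τ1 pε.le
      linarith
    nlinarith
  · unfold s7kap s7lam s7BA
    rw [l2e]
    have s1 := s7ae_sqrt_l0 (-(8 / 100 * aa)) n
    have s2 := s7ae_sqrt_l0 (-(2 / 10 * aa)) n
    have s3 : (scQ ((2 / 3 + 15 / 100 * aa + -(2 / 10 * aa)) / 2) n : ℝ)
        ≤ (scQ ((2 / 3 + 15 / 100 * aa + -(8 / 100 * aa)) / 2) n : ℝ) :=
      s7ae_mono (by rw [haa]; norm_num) n
    have s4 : (1 : ℝ) ≤ (scQ ((2 / 3 + 15 / 100 * aa + -(8 / 100 * aa)) / 2) n : ℝ) :=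
      s7ae_one_le (by rw [haa]; norm_num) n
    have a1 := s7ae_add_le (-(2 * s7eta0 g)) (-(g / 100)
      + ((38 / 100 * aa - (2 / 3 + 15 / 100 * aa - 2 * g) / 2)
        + (2 / 3 + 15 / 100 * aa - 2 * g))) n
    have a2 := s7ae_add_le (-(g / 100)) ((38 / 100 * aa - (2 / 3 + 15 / 100 * aa - 2 * g) / 2)
        + (2 / 3 + 15 / 100 * aa - 2 * g)) n
    have a3 := s7ae_add_le (38 / 100 * aa - (2 / 3 + 15 / 100 * aa - 2 * g) / 2)
        (2 / 3 + 15 / 100 * aa - 2 * g) n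
    have b3 := mul_le_mul_of_nonneg_left (mul_le_mul_of_nonneg_left a3 pl.le) pκ.le
    have b2 := mul_le_mul_of_nonneg_left a2 pκ.le
    linarith
  · unfold s7kap s7lam s7BA s7Tcap s7eps
    rw [l2e]
    rw [z0] at h4 h5
    have c1 := s7ae_mul_le (-(aa / 1000)) (-(aa / 1000)) n
    have c2 := s7ae_mul_le (4 * s7eta0 g) (-(aa / 1000) + -(aa / 1000)) n
    have c3 : (1 + (scQ (4 * s7eta0 g) n : ℝ)) * (2 * (scQ (-(aa / 1000)) n : ℝ)) ^ 2 ≤ 1 := by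
      have d1 : (1 + (scQ (4 * s7eta0 g) n : ℝ)) ≤ 2 * (scQ (4 * s7eta0 g) n : ℝ) := by linarith
      have d2 : (2 * (scQ (-(aa / 1000)) n : ℝ)) ^ 2
          ≤ 4 * (scQ (-(aa / 1000) + -(aa / 1000)) n : ℝ) := by nlinarith
      have d3 := mul_le_mul d1 d2 (by positivity) (by positivity)
      nlinarith
    have a1 := s7ae_add_le (-(2 * s7eta0 g)) (-(g / 100) + (-(g / 100)
      + ((38 / 100 * aa - (2 / 3 + 15 / 100 * aa - 2 * g) / 2)
        + ((38 / 100 * aa - (2 / 3 + 15 / 100 * aa - 2 * g) / 2)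
          + (2 / 3 + 15 / 100 * aa - 2 * g))))) n
    have a2 := s7ae_add_le (-(g / 100)) (-(g / 100)
      + ((38 / 100 * aa - (2 / 3 + 15 / 100 * aa - 2 * g) / 2)
        + ((38 / 100 * aa - (2 / 3 + 15 / 100 * aa - 2 * g) / 2)
          + (2 / 3 + 15 / 100 * aa - 2 * g)))) n
    have a3 := s7ae_add_le (-(g / 100))
      ((38 / 100 * aa - (2 / 3 + 15 / 100 * aa - 2 * g) / 2)
        + ((38 / 100 * aa - (2 / 3 + 15 / 100 * aa - 2 * g) / 2)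
          + (2 / 3 + 15 / 100 * aa - 2 * g))) n
    have a4 := s7ae_add_le (38 / 100 * aa - (2 / 3 + 15 / 100 * aa - 2 * g) / 2)
        ((38 / 100 * aa - (2 / 3 + 15 / 100 * aa - 2 * g) / 2)
          + (2 / 3 + 15 / 100 * aa - 2 * g)) n
    have a5 := s7ae_add_le (38 / 100 * aa - (2 / 3 + 15 / 100 * aa - 2 * g) / 2)
        (2 / 3 + 15 / 100 * aa - 2 * g) n
    have b5 := mul_le_mul_of_nonneg_left (mul_le_mul_of_nonneg_left (mul_le_mul_of_nonneg_left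
      (mul_le_mul_of_nonneg_left a5 pB.le) pl.le) pl.le) pκ.le
    have b4 := mul_le_mul_of_nonneg_left (mul_le_mul_of_nonneg_left
      (mul_le_mul_of_nonneg_left a4 pl.le) pl.le) pκ.le
    have b3 := mul_le_mul_of_nonneg_left (mul_le_mul_of_nonneg_left a3 pl.le) pκ.le
    have b2 := mul_le_mul_of_nonneg_left a2 pκ.le
    linarith

theorem s7ae_rate (L CM CV Cp κ b A B V : ℝ) (hL : 0 < L) (hCM : 0 ≤ CM) (hCV : 0 ≤ CV)
    (hCp : 0 ≤ Cp) (hb : 0 < b) (hκ : 0 ≤ κ) (hA : A ≤ κ * b * L) (hB : B ≤ κ * b)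
    (hV : V ≤ κ * b ^ 2 * L) :
    Cp * ((CM * (A / L ^ 2 + B / L)) / b + (CV * V / L ^ 2) / b ^ 2)
      ≤ Cp * (2 * CM + CV) * κ / L := by
  have a1 : A / L ^ 2 ≤ κ * b / L := by
    rw [div_le_div_iff₀ (by positivity) hL]
    nlinarith
  have a2 : B / L ≤ κ * b / L := div_le_div_of_nonneg_right hB hL.le
  have a3 : CM * (A / L ^ 2 + B / L) / b ≤ 2 * CM * (κ / L) := by
    rw [div_le_iff₀ hb]
    have := mul_le_mul_of_nonneg_left (add_le_add a1 a2) hCM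
    have e : CM * (κ * b / L + κ * b / L) = 2 * CM * (κ / L) * b := by ring
    linarith
  have a4 : CV * V / L ^ 2 / b ^ 2 ≤ CV * (κ / L) := by
    rw [div_le_iff₀ (by positivity), div_le_iff₀ (by positivity)]
    have := mul_le_mul_of_nonneg_left hV hCV
    have e : CV * (κ / L) * b ^ 2 * L ^ 2 = CV * (κ * b ^ 2 * L) := by field_simp
    linarith
  have := mul_le_mul_of_nonneg_left (add_le_add a3 a4) hCp
  have e : Cp * (2 * CM + CV) * κ / L = Cp * (2 * CM * (κ / L) + CV * (κ / L)) := by ring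
  rw [e]
  exact this

/-! ## one exposure -/

section Step

variable {n d : ℕ} {par : S7Par} {φ : ℕ → ℚ} {π₀ π : PPair n d} {σ h : ℝ}

/-- the facts on one exposure used below -/
theorem s7ae_upd (hUpd : StS7Upd) (hFlags : StS7Flags) (hn : 0 < n) (hext : π₀.Ext π)
    (hpos : PosOn1 (π.Mmat σ h)) (der : S7DerA d n par φ π₀ π σ h) (hm : 0 < s7hmin d)
    (hε : (s7eps n : ℝ) ≤ 1 / 16) (hl : 4 ≤ π.l) (u v : Stub n d) (hu : π.Unres u)
    (hv : π.Unres v) (huv : u ≠ v) :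
    (∀ x, (π.resolve u v).Unres x ↔ π.Unres x ∧ x ≠ u ∧ x ≠ v) ∧
    (∀ i, s7removed π₀ (π.resolve u v) (s7t0 d n) i ↔
      s7removed π₀ π (s7t0 d n) i ∨ s7near π₀ (s7t0 d n) i u ∨ s7near π₀ (s7t0 d n) i v) ∧
    ∀ a c : S7Out n d, s7ent (s7E π₀ (π.resolve u v) φ (Lcut d n) σ h) a c =
      s7ent (s7E π₀ π φ (Lcut d n) σ h) a c +
        s7dE π.l σ h (s7D π σ h) (s7Dh π₀ π φ (Lcut d n) σ h) (s7orow π (π.Wmat σ h) a)
          (s7orow π (π.Wmat σ h) c) (s7orow π (s7Ph π₀ π φ (Lcut d n) σ h) a)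
          (s7orow π (s7Ph π₀ π φ (Lcut d n) σ h) c) u v := by
  have fl := hFlags n d π₀ π (s7t0 d n) u v hu hv huv
  have up := hUpd n d π₀ π φ (Lcut d n) σ h u v hn hext hu hv huv hl der.sig
    (lt_of_lt_of_le hm der.baseD.h_lo) der.baseD.h_hi hpos
    (fun x y => (der.baseD.ent x y).trans hε) der.refAt.unit
    (fun x y => (der.baseDh.ent x y).trans hε)
  exact ⟨fl.1, fl.2.1, up.2.2.2.2.2.2.2.2.2⟩

/-- dead labels stay dead -/
theorem s7ae_dead (j : ℕ) (b s : Bool) (a c : S7Out n d) (hl : 2 ≤ π.l)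
    (hF : ∀ u v, π.Unres u → π.Unres v → u ≠ v →
      ∀ x, (π.resolve u v).Unres x ↔ π.Unres x ∧ x ≠ u ∧ x ≠ v)
    (hal : ¬ (a.Alive π ∧ c.Alive π)) :
    s7avg π.unres (fun u v => s7ZA ℝ d n par φ π₀ (.ent j b s a c) (π.resolve u v)) = 0 := by
  have e : s7avg π.unres (fun u v => s7ZA ℝ d n par φ π₀ (.ent j b s a c) (π.resolve u v))
      = s7avg π.unres (fun _ _ => (0 : ℝ)) := by
    refine s7t_avg_congr (fun u hu v hv huv => ?_)
    have F1 := hF u v (Finset.mem_filter.1 hu).2 (Finset.mem_filter.1 hv).2 huv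
    rw [s7ae_Z_eq, if_neg]
    rintro ⟨h1, h2⟩
    exact hal ⟨(s7ae_alive_of (π₀ := π₀) (t0 := s7t0 d n) F1 a h1).1,
      (s7ae_alive_of (π₀ := π₀) (t0 := s7t0 d n) F1 c h2).1⟩
  rw [e, s7t_avg_const hl]

/-- alive labels: Lemma 3.2 with ordinary and exceptional events -/
theorem s7ae_alive (hExc : StS7ExcStep) (hCtr : StS7CtrRow) (j : ℕ) (b s : Bool) (a c : S7Out n d)
    (der : S7DerA d n par φ π₀ π (sgn b) ((prim d n j : ℚ) : ℝ))
    (cap : S7CapA d n par φ π₀ π (sgn b) ((prim d n j : ℚ) : ℝ))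
    (dE : Stub n d → Stub n d → ℝ)
    (hup : ∀ u v, π.Unres u → π.Unres v → u ≠ v →
      (∀ x, (π.resolve u v).Unres x ↔ π.Unres x ∧ x ≠ u ∧ x ≠ v) ∧
      (∀ i, s7removed π₀ (π.resolve u v) (s7t0 d n) i ↔
        s7removed π₀ π (s7t0 d n) i ∨ s7near π₀ (s7t0 d n) i u ∨ s7near π₀ (s7t0 d n) i v) ∧
      s7ent (s7E π₀ (π.resolve u v) φ (Lcut d n) (sgn b) ((prim d n j : ℚ) : ℝ)) a c =
        s7ent (s7E π₀ π φ (Lcut d n) (sgn b) ((prim d n j : ℚ) : ℝ)) a c + dE u v)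
    (uniq : ∀ i x y, s7near π₀ (s7t0 d n) i x → s7near π₀ (s7t0 d n) i y → x = y)
    (ha : a.Alive π) (hc : c.Alive π) (hp : 2 ≤ par.p) (hε : (s7eps n : ℝ) ≤ 1 / 100)
    (hJ : ∀ u v, π.Unres u → π.Unres v → u ≠ v → ∀ b₁ b₂ b₃ mw mp₁ mp₂ : ℝ,
      (∀ x, x = u ∨ x = v →
        |s7orow π (π.Wmat (sgn b) ((prim d n j : ℚ) : ℝ)) a x
          - s7orow π (s7Ph π₀ π φ (Lcut d n) (sgn b) ((prim d n j : ℚ) : ℝ)) a x| ≤ b₁ ∧
        |s7orow π (π.Wmat (sgn b) ((prim d n j : ℚ) : ℝ)) c x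
          - s7orow π (s7Ph π₀ π φ (Lcut d n) (sgn b) ((prim d n j : ℚ) : ℝ)) c x| ≤ b₂ ∧
        |s7orow π (π.Wmat (sgn b) ((prim d n j : ℚ) : ℝ)) c x| ≤ mw ∧
        |s7orow π (s7Ph π₀ π φ (Lcut d n) (sgn b) ((prim d n j : ℚ) : ℝ)) a x| ≤ mp₁ ∧
        |s7orow π (s7Ph π₀ π φ (Lcut d n) (sgn b) ((prim d n j : ℚ) : ℝ)) c x| ≤ mp₂) →
      (∀ x y, (x = u ∨ x = v) → (y = u ∨ y = v) →
        |s7D π (sgn b) ((prim d n j : ℚ) : ℝ) x y
          - s7Dh π₀ π φ (Lcut d n) (sgn b) ((prim d n j : ℚ) : ℝ) x y| ≤ b₃) →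
      |dE u v| ≤ 4 * b₁ * mw + 4 * mp₁ * b₂ + 16 * mp₁ * mp₂ * b₃)
    (μ ν : ℝ) (hμ : 0 ≤ μ) (hν : 0 ≤ ν)
    (hmean : |s7avg (s7allow π₀ π (s7t0 d n) a c) dE| ≤ μ)
    (hvar : s7avg (s7allow π₀ π (s7t0 d n) a c) (fun u v => dE u v ^ 2) ≤ ν)
    (hpt : ∀ u ∈ s7allow π₀ π (s7t0 d n) a c, ∀ v ∈ s7allow π₀ π (s7t0 d n) a c, u ≠ v →
      |dE u v| ≤ (((s7lam par.g n * s7BA par.g n : ℚ)) : ℝ)) :
    s7avg π.unres (fun u v => s7ZA ℝ d n par φ π₀ (.ent j b s a c) (π.resolve u v))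
      ≤ (1 + (excessC par.p : ℝ) * (μ / (((s7lam par.g n * s7BA par.g n : ℚ)) : ℝ)
          + ν / (((s7lam par.g n * s7BA par.g n : ℚ)) : ℝ) ^ 2))
        * s7ZA ℝ d n par φ π₀ (.ent j b s a c) π := by
  have hb : (0 : ℝ) < (((s7lam par.g n * s7BA par.g n : ℚ)) : ℝ) := by
    have : 0 < s7lam par.g n * s7BA par.g n := mul_pos (scQ_pos _ _) (scQ_pos _ _)
    exact_mod_cast this
  have hsub : s7allow π₀ π (s7t0 d n) a c ⊆ π.unres := Finset.filter_subset _ _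
  rw [s7ae_Z_eq j b s a c π, if_pos ⟨ha, hc⟩]
  refine hExc (Stub n d) π.unres (s7allow π₀ π (s7t0 d n) a c) par.p _ _ _ μ ν
    (fun u v => sgn s * dE u v) _ hp hsub hb hμ hν ?_ ?_ ?_ ?_
  · intro u hu v hv huv
    obtain ⟨F1, F2, hE⟩ := hup u v (s7ae_mem_allow.1 hu).1 (s7ae_mem_allow.1 hv).1 huv
    refine ⟨?_, le_of_eq (s7ae_Zord j b s a c F1 F2 ha hc hu hv _ hE)⟩
    rw [abs_mul, s7ae_sgn_abs, one_mul]
    exact hpt u hu v hv huv
  · intro u hu v hv huv hnot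
    have hu' : π.Unres u := (Finset.mem_filter.1 hu).2
    have hv' : π.Unres v := (Finset.mem_filter.1 hv).2
    obtain ⟨F1, F2, hE⟩ := hup u v hu' hv' huv
    refine s7ae_Zexc j b s a c _ _ (by omega) (fun ha' hc' => ?_)
    rw [hE]
    exact s7ae_excJump hCtr der cap F1 F2 uniq hu' hv' a c ha' hc' hnot hε _ (hJ u v hu' hv' huv)
  · rw [s7t_avg_smul]
    refine (le_abs_self _).trans ?_
    rw [abs_mul, s7ae_sgn_abs, one_mul]
    exact hmean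
  · refine le_trans (le_of_eq ?_) hvar
    refine s7t_avg_congr (fun u _ v _ _ => ?_)
    rw [mul_pow, ← sq_abs (sgn s : ℝ), s7ae_sgn_abs]
    ring

end Step

theorem s7ae_C1_pos (d : ℕ) (hd : 3 ≤ d) : (0 : ℝ) < (s7C1 d : ℝ) := by
  have hd' : (3 : ℚ) ≤ (d : ℚ) := by exact_mod_cast hd
  have : (0 : ℚ) < s7C1 d := by
    unfold s7C1 s7ThV1 s7ThV0 s7ThS
    linarith
  exact_mod_cast this

/-- the numerical part of the alive case -/
theorem s7ae_final (L l0r l2r CM CV Cp κ lam BA ε τ Y Yh y2 z2 : ℝ) (hL2 : l2r ≤ L) (hL0 : L ≤ l0r)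
    (hl2 : 0 < l2r) (hCM : 0 ≤ CM) (hCV : 0 ≤ CV) (hCp : 0 ≤ Cp) (hκ : 0 < κ) (hlam : 0 < lam)
    (hBA : 0 < BA) (hz2 : 0 ≤ z2) (hY : Y ^ 2 ≤ l0r * y2) (hYh : Yh ^ 2 ≤ l0r * y2)
    (n3 : 13 * (ε + 2 * ε * (1 + τ)) ≤ κ * lam)
    (n2 : 5 / 4 + 2 * Real.sqrt (l0r * y2) + Real.sqrt (l0r * z2) ≤ κ * (lam * BA) * l2r)
    (n4 : 1 + (1 + τ) * (2 * ε) ^ 2 ≤ κ * (lam * BA) ^ 2 * l2r) :
    Cp * ((CM * ((1 + |Y| + |Yh| + Real.sqrt (L * z2) + 1 / 4) / L ^ 2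
        + 13 * BA * (ε + 2 * ε * (1 + τ)) / L)) / (lam * BA)
      + (CV * (1 + (1 + τ) * (2 * ε) ^ 2) / L ^ 2) / (lam * BA) ^ 2)
      ≤ Cp * (2 * CM + CV) * κ / L := by
  have hL : 0 < L := by linarith
  have hb : 0 < lam * BA := by positivity
  refine s7ae_rate L CM CV Cp κ (lam * BA) _ _ _ hL hCM hCV hCp hb hκ.le ?_ ?_ ?_
  · have y1 := Real.abs_le_sqrt hY
    have y2' := Real.abs_le_sqrt hYh
    have z1 : Real.sqrt (L * z2) ≤ Real.sqrt (l0r * z2) :=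
      Real.sqrt_le_sqrt (mul_le_mul_of_nonneg_right hL0 hz2)
    have m := mul_le_mul_of_nonneg_left hL2 (by positivity : 0 ≤ κ * (lam * BA))
    linarith
  · have := mul_le_mul_of_nonneg_left n3 hBA.le
    nlinarith
  · have m := mul_le_mul_of_nonneg_left hL2 (by positivity : 0 ≤ κ * (lam * BA) ^ 2)
    linarith

/-- **S7-A-STEP-6** entries. -/
theorem s7_aStepEnt (hDer : StS7ADer) (hUpd : StS7Upd) (hFlags : StS7Flags) (hCtr : StS7CtrRow)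
    (hLavg : StS7Lavg) (hMean : StS7EntryMeanA) (hVar : StS7EntryVarA) (hJump : StS7EntryJump)
    (hExc : StS7ExcStep) (hScore : StS7Score) : StS7AStepEnt := by
  intro d par hpar
  obtain ⟨hd, hg, hp, hcp0, hcp1⟩ := id hpar
  have hhmin := s7ag_hmin_pos d hd
  have hC0 := s7ag_ThS_pos d hd
  have hC1 := s7ae_C1_pos d hd
  obtain ⟨CM, εM, lM, hCM, hεM, hM⟩ := hMean (s7hmin d) ((s7ThS d : ℝ) + 1) (s7C1 d : ℝ) hhmin hC0 hC1
  obtain ⟨CV, εV, lV, hCV, hεV, hV⟩ := hVar (s7hmin d) ((s7ThS d : ℝ) + 1) (s7C1 d : ℝ) hhmin hC0 hC1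
  obtain ⟨εJ, lJ, hεJ, hJ⟩ := hJump (s7hmin d) ((s7ThS d : ℝ) + 1) hhmin hC0
  have hCp : (0 : ℝ) < (excessC par.p : ℝ) := by
    have : 0 < excessC par.p := by unfold excessC; positivity
    exact_mod_cast this
  refine ⟨(excessC par.p : ℝ) * (2 * CM + CV), by positivity, ?_⟩
  filter_upwards [hDer d par hpar, s7ae_num hg (min (min εM εV) (min εJ (1 / 100))) (by positivity)
    (max (max lM lV) (max lJ 8)) (26 * CV)] with n hder hnum
  obtain ⟨hn1, hεs, hlm, n1, nB, n3, n2, n4⟩ := hnum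
  intro φ π₀ π t hstop hinv hl i hi hk
  have hκ0 : (0 : ℝ) < (s7kap par.g n : ℝ) := s7n_cast_pos _ n
  have hεM' : (s7eps n : ℝ) ≤ εM := hεs.trans ((min_le_left _ _).trans (min_le_left _ _))
  have hεV' : (s7eps n : ℝ) ≤ εV := hεs.trans ((min_le_left _ _).trans (min_le_right _ _))
  have hεJ' : (s7eps n : ℝ) ≤ εJ := hεs.trans ((min_le_right _ _).trans (min_le_left _ _))
  have hε100 : (s7eps n : ℝ) ≤ 1 / 100 := hεs.trans ((min_le_right _ _).trans (min_le_right _ _))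
  have hlM : lM ≤ π.l := by
    have := ((le_max_left lM lV).trans (le_max_left _ (max lJ 8))).trans hlm
    omega
  have hlV : lV ≤ π.l := by
    have := ((le_max_right lM lV).trans (le_max_left _ (max lJ 8))).trans hlm
    omega
  have hlJ : lJ ≤ π.l := by
    have := ((le_max_left lJ 8).trans (le_max_right (max lM lV) _)).trans hlm
    omega
  have hl8 : 8 ≤ π.l := by
    have := ((le_max_right lJ 8).trans (le_max_right (max lM lV) _)).trans hlm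
    omega
  have hL : (8 : ℝ) ≤ (π.l : ℝ) := by exact_mod_cast hl8
  refine ⟨by positivity, ?_⟩
  cases i
  case ent j b s a c =>
    have hj : j ≤ Nprim d n par.cp := ((hScore d n par φ π₀ π).2.2.2.2.2.2.1 j b s a c).1 hi
    have der := hder φ π₀ π t hstop hinv hl.le j hj b
    have cap := hinv.cap j hj b
    have e0 : (s7PhaseA ℝ d n par φ π₀).avg (.ent j b s a c) π
        = s7avg π.unres (fun u v => s7ZA ℝ d n par φ π₀ (.ent j b s a c) (π.resolve u v)) :=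
      (hLavg n d π (s7ZA ℝ d n par φ π₀ (.ent j b s a c))).1
    have hup := fun u v hu hv huv => s7ae_upd hUpd hFlags (by omega) hinv.ext (hinv.pos j hj b) der
      hhmin (hε100.trans (by norm_num)) (by omega) u v hu hv huv
    rw [e0]
    show _ ≤ _ * s7ZA ℝ d n par φ π₀ (.ent j b s a c) π
    by_cases hal : a.Alive π ∧ c.Alive π
    · obtain ⟨ha, hc⟩ := hal
      obtain ⟨hall, oa⟩ := der.outer a c ha hc
      have oc := (der.outer c a hc ha).2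
      rw [s7ae_allow_comm] at oc
      have hBA0 : (0 : ℝ) < (s7BA par.g n : ℝ) := s7n_cast_pos _ n
      have hε0 : (0 : ℝ) < (s7eps n : ℝ) := s7n_cast_pos _ n
      have hdf : ∀ x y, |s7D π (sgn b) ((prim d n j : ℚ) : ℝ) x y
          - s7Dh π₀ π φ (Lcut d n) (sgn b) ((prim d n j : ℚ) : ℝ) x y| ≤ 13 * (s7BA par.g n : ℝ) :=
        fun x y => (der.dDiff x y).trans (by linarith)
      have mean := hM (Stub n d) (sgn b) ((prim d n j : ℚ) : ℝ) (s7eps n : ℝ) (2 * (s7eps n : ℝ))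
        (13 * (s7BA par.g n : ℝ)) π.unres _ _ _ _ _ _ _ der.baseD der.baseDh hεM' hlM hall oa oc
        (by linarith) (by positivity) nB hdf _ _ (s7Tcap par.g n : ℝ) der.opD der.opDh cap.dgT
        cap.dgTh
      have var := hV (Stub n d) (sgn b) ((prim d n j : ℚ) : ℝ) (s7eps n : ℝ) (2 * (s7eps n : ℝ))
        (13 * (s7BA par.g n : ℝ)) π.unres _ _ _ _ _ _ _ der.baseD der.baseDh hεV' hlV hall oa oc
        (by linarith) (by positivity) nB hdf (s7Tcap par.g n : ℝ) cap.dgT cap.dgTh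
      have ebr : (((s7lam par.g n * s7BA par.g n : ℚ)) : ℝ)
          = (s7lam par.g n : ℝ) * (s7BA par.g n : ℝ) := by push_cast; ring
      have A := s7ae_alive hExc hCtr j b s a c der cap _
        (fun u v hu hv huv => ⟨(hup u v hu hv huv).1, (hup u v hu hv huv).2.1,
          (hup u v hu hv huv).2.2 a c⟩)
        (hstop.ref j hj b).uniq ha hc hp.1 hε100
        (fun u v hu hv huv b₁ b₂ b₃ mw mp₁ mp₂ h1 h2 =>
          hJ (Stub n d) (sgn b) ((prim d n j : ℚ) : ℝ) (s7eps n : ℝ) π.unres _ _ _ _ _ _ b₁ b₂ b₃ mw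
            mp₁ mp₂ der.baseD der.baseDh hεJ' hlJ u (Finset.mem_filter.2 ⟨Finset.mem_univ _, hu⟩) v
            (Finset.mem_filter.2 ⟨Finset.mem_univ _, hv⟩) huv h1 h2)
        _ _ ((abs_nonneg _).trans mean)
        ((s7t_avg_nonneg (by have := hall.2; have : π.unres.card = π.l := rfl; omega)
          (fun u _ v _ _ => sq_nonneg _)).trans var.1) mean var.1
        (by
          intro u hu v hv huv
          refine (var.2 u hu v hv huv).trans ?_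
          rw [ebr]
          have := mul_le_mul_of_nonneg_right n1 hBA0.le
          nlinarith)
      refine A.trans (mul_le_mul_of_nonneg_right ?_ ?_)
      · rw [ebr]
        have hcard : (π.l : ℝ) ≤ (l0 n : ℝ) := by
          have := hinv.card
          have : π.l ≤ l0 n := by omega
          exact_mod_cast this
        have hl2pos : (0 : ℝ) < (s7l2 par.g n : ℝ) := by
          have := s7n_l2_pos par.g n
          have : 0 < s7l2 par.g n := by omega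
          exact_mod_cast this
        have fin := s7ae_final (π.l : ℝ) (l0 n : ℝ) (s7l2 par.g n : ℝ) CM CV (excessC par.p : ℝ)
          (s7kap par.g n : ℝ) (s7lam par.g n : ℝ) (s7BA par.g n : ℝ) (s7eps n : ℝ)
          (s7Tcap par.g n : ℝ) _ _ _ (scQ (-(2 / 10 * aa)) n : ℝ) (by exact_mod_cast hl.le) hcard
          hl2pos hCM.le hCV.le hCp.le hκ0 (s7n_cast_pos _ n) hBA0 (s7n_cast_pos _ n).le cap.trY
          cap.trYh n3 n2 n4
        exact add_le_add le_rfl fin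
      · rw [s7ae_Z_eq, if_pos ⟨ha, hc⟩]
        have hb : (0 : ℝ) < (((s7lam par.g n * s7BA par.g n : ℚ)) : ℝ) := by
          rw [ebr]; exact mul_pos (s7n_cast_pos _ n) hBA0
        exact le_trans zero_le_one (excessZ_pos par.p _ _ _ hb)
    · rw [s7ae_dead j b s a c (by omega) (fun u v hu hv huv => (hup u v hu hv huv).1) hal,
        s7ae_Z_eq, if_neg hal, mul_zero]
  all_goals exact absurd hk (by simp [S7Lab.kind])

end Claimed.Agent.R275
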