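import Claimed.Agent.R275.S7PhaseA
import Claimed.Agent.R275.S7Num
import Claimed.Agent.R275.S7Tools

/-!
# Row 275, Section 7, leaf S7-A-STEP-GAP: one step of the averaged gap account in Phase A

Prover: helper102.  Prefix `s7ag_`.  Statement `StS7AStepGap` in `R275/S7PhaseA.lean` (helper245).
`x = u_l - ū_l`, `u = h² X/(l-1)`, `u' = h² X'/(l-3)`:
`Δ = (h²/(l-3)) ΔX + 2u/(l-3) + (ū_l - ū_{l-2})`,
`E Δ ≤ [-2u(1-u) + E₁]/(l-3) + (ū_l - ū_{l-2}) ≤ 2x/(l-3) + E₁/(l-3) + 4/(l(l-2))` for `x > 0`.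
-/

set_option autoImplicit false
set_option linter.unusedSectionVars false
set_option linter.unusedVariables false

namespace Claimed.Agent.R275

open Matrix Filter

/-! ## the abstract step -/

/-- scalar part of the drift -/
theorem s7ag_drift (L X h u ub ub' E1 m : ℝ) (hL : 15 ≤ L) (hX : 0 ≤ X) (hh : h ^ 2 ≤ 1)
    (hu : u = h ^ 2 * X / (L - 1)) (hu1 : u ≤ 1) (hub0 : 0 ≤ ub) (hub1 : ub ≤ 1)
    (hstep : ub - ub' ≤ 2 * ub * (1 - ub) / (L - 3) + 4 / (L * (L - 2))) (hE1 : 0 ≤ E1)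
    (hm : m ≤ -4 * X / (L - 1) + 2 * h ^ 2 * X ^ 2 / (L * (L - 1)) + E1) (hx : 0 < u - ub) :
    h ^ 2 / (L - 3) * m + (2 * u / (L - 3) + (ub - ub'))
      ≤ 2 / (L - 3) * (u - ub) + (E1 / (L - 3) + 4 / (L * (L - 2))) := by
  have h1 : 0 < L - 1 := by linarith
  have h3 : 0 < L - 3 := by linarith
  have hL0 : 0 < L := by linarith
  have hh0 : 0 ≤ h ^ 2 := sq_nonneg h
  have hu0 : 0 ≤ u := by rw [hu]; positivity
  have a1 : h ^ 2 * m ≤ -4 * u + 2 * u ^ 2 + E1 := by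
    have b1 := mul_le_mul_of_nonneg_left hm hh0
    have b2 : h ^ 2 * (-4 * X / (L - 1) + 2 * h ^ 2 * X ^ 2 / (L * (L - 1)) + E1)
        = -4 * u + 2 * u ^ 2 * ((L - 1) / L) + h ^ 2 * E1 := by
      rw [hu]; field_simp
    have b3 : (L - 1) / L ≤ 1 := by rw [div_le_one hL0]; linarith
    have b4 : 2 * u ^ 2 * ((L - 1) / L) ≤ 2 * u ^ 2 * 1 :=
      mul_le_mul_of_nonneg_left b3 (by positivity)
    have b5 : h ^ 2 * E1 ≤ 1 * E1 := mul_le_mul_of_nonneg_right hh hE1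
    linarith
  have a2 : h ^ 2 / (L - 3) * m = (h ^ 2 * m) / (L - 3) := by ring
  have a3 : (h ^ 2 * m) / (L - 3) ≤ (-4 * u + 2 * u ^ 2 + E1) / (L - 3) :=
    div_le_div_of_nonneg_right a1 h3.le
  have a4 : -2 * u * (1 - u) + 2 * ub * (1 - ub) ≤ 2 * (u - ub) := by nlinarith
  have a5 : (-2 * u * (1 - u) + 2 * ub * (1 - ub)) / (L - 3) ≤ 2 * (u - ub) / (L - 3) :=
    div_le_div_of_nonneg_right a4 h3.le
  have e1 : (-4 * u + 2 * u ^ 2 + E1) / (L - 3) + 2 * u / (L - 3) + 2 * ub * (1 - ub) / (L - 3)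
      = (-2 * u * (1 - u) + 2 * ub * (1 - ub)) / (L - 3) + E1 / (L - 3) := by
    field_simp; ring
  have e2 : 2 / (L - 3) * (u - ub) = 2 * (u - ub) / (L - 3) := by ring
  rw [a2, e2]
  linarith

/-- scalar part of the second moment -/
theorem s7ag_sq (L h u c1 y : ℝ) (hL : 15 ≤ L) (hh : h ^ 2 ≤ 1) (hu0 : 0 ≤ u) (hu1 : u ≤ 1)
    (hc0 : 0 ≤ c1) (hc1 : c1 ≤ 2 / (L - 2)) :
    (h ^ 2 / (L - 3) * y + (2 * u / (L - 3) + c1)) ^ 2
      ≤ 2 / (L - 3) ^ 2 * y ^ 2 + 32 / (L - 3) ^ 2 := by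
  have h3 : 0 < L - 3 := by linarith
  have h2 : 0 < L - 2 := by linarith
  have a1 : 2 / (L - 2) ≤ 2 / (L - 3) := div_le_div_of_nonneg_left (by norm_num) h3 (by linarith)
  have a2 : 2 * u / (L - 3) ≤ 2 / (L - 3) := div_le_div_of_nonneg_right (by linarith) h3.le
  have a3 : 0 ≤ 2 * u / (L - 3) := by positivity
  have c0 : 0 ≤ 2 * u / (L - 3) + c1 := by linarith
  have c4 : 2 * u / (L - 3) + c1 ≤ 4 / (L - 3) := by
    have : 4 / (L - 3) = 2 / (L - 3) + 2 / (L - 3) := by ring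
    linarith
  have s1 : (2 * u / (L - 3) + c1) ^ 2 ≤ (4 / (L - 3)) ^ 2 := pow_le_pow_left₀ c0 c4 2
  have s2 : (h ^ 2 / (L - 3) * y) ^ 2 ≤ 1 / (L - 3) ^ 2 * y ^ 2 := by
    have e : (h ^ 2 / (L - 3) * y) ^ 2 = (h ^ 2) ^ 2 * (1 / (L - 3) ^ 2 * y ^ 2) := by
      field_simp
    rw [e]
    have : (h ^ 2) ^ 2 ≤ 1 := pow_le_one₀ (sq_nonneg h) hh
    have := mul_le_mul_of_nonneg_right this (by positivity : 0 ≤ 1 / (L - 3) ^ 2 * y ^ 2)
    linarith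
  have s3 : (4 / (L - 3)) ^ 2 = 16 / (L - 3) ^ 2 := by rw [div_pow]; norm_num
  have s4 : (h ^ 2 / (L - 3) * y + (2 * u / (L - 3) + c1)) ^ 2
      ≤ 2 * (h ^ 2 / (L - 3) * y) ^ 2 + 2 * (2 * u / (L - 3) + c1) ^ 2 := by
    nlinarith [sq_nonneg (h ^ 2 / (L - 3) * y - (2 * u / (L - 3) + c1))]
  have e1 : 2 / (L - 3) ^ 2 * y ^ 2 = 2 * (1 / (L - 3) ^ 2 * y ^ 2) := by ring
  have e2 : 32 / (L - 3) ^ 2 = 2 * (16 / (L - 3) ^ 2) := by ring
  rw [e1, e2]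
  linarith

/-! ## real arithmetic of the error terms -/

/-- the error of the mean of `ΔX` -/
theorem s7ag_err1 (L X T τ z2 ε C0 : ℝ) (hL : 15 ≤ L) (hX0 : 0 ≤ X) (hX : X ≤ C0 * L) (hT0 : 0 ≤ T)
    (hT : T ≤ τ) (hz0 : 0 ≤ z2) (hzε : z2 ≤ ε) (h4 : (1 + Real.sqrt τ) * Real.sqrt z2 ≤ ε)
    (h5 : (1 + τ) / L ≤ ε) (hC0 : 0 ≤ C0) :
    (1 + Real.sqrt (L * z2) ^ 2) * X / L ^ 2
      + (1 + Real.sqrt T) * Real.sqrt (L * z2) * X / (L * Real.sqrt L) + ε * X / L + (1 + T) / L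
      ≤ (4 * C0 + 1) * ε := by
  have hL0 : 0 < L := by linarith
  have hε0 : 0 ≤ ε := hz0.trans hzε
  have hXL : X / L ≤ C0 := by rw [div_le_iff₀ hL0]; exact hX
  have hXL0 : 0 ≤ X / L := by positivity
  have hinv : 1 / L ≤ ε := by
    refine le_trans ?_ h5
    exact div_le_div_of_nonneg_right (by linarith) hL0.le
  have hsL : 0 < Real.sqrt L := Real.sqrt_pos.2 hL0
  have t1 : (1 + Real.sqrt (L * z2) ^ 2) * X / L ^ 2 ≤ C0 * (2 * ε) := by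
    rw [Real.sq_sqrt (by positivity)]
    have e : (1 + L * z2) * X / L ^ 2 = (X / L) * (1 / L + z2) := by field_simp
    rw [e]
    exact mul_le_mul hXL (by linarith) (by positivity) hC0
  have t2 : (1 + Real.sqrt T) * Real.sqrt (L * z2) * X / (L * Real.sqrt L) ≤ C0 * ε := by
    rw [Real.sqrt_mul hL0.le]
    have e : (1 + Real.sqrt T) * (Real.sqrt L * Real.sqrt z2) * X / (L * Real.sqrt L)
        = (X / L) * ((1 + Real.sqrt T) * Real.sqrt z2) := by field_simp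
    rw [e]
    have a : (1 + Real.sqrt T) * Real.sqrt z2 ≤ ε := by
      refine le_trans ?_ h4
      refine mul_le_mul_of_nonneg_right ?_ (Real.sqrt_nonneg _)
      have := Real.sqrt_le_sqrt hT
      linarith
    exact mul_le_mul hXL a (by positivity) hC0
  have t3 : ε * X / L ≤ C0 * ε := by
    have e : ε * X / L = (X / L) * ε := by ring
    rw [e]
    exact mul_le_mul_of_nonneg_right hXL hε0
  have t4 : (1 + T) / L ≤ ε := le_trans (div_le_div_of_nonneg_right (by linarith) hL0.le) h5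
  linarith

/-- the error of the second moment of `ΔX` -/
theorem s7ag_err2 (L T τ z2 ε : ℝ) (hL : 15 ≤ L) (hT0 : 0 ≤ T) (hT : T ≤ τ) (hz0 : 0 ≤ z2)
    (hz1 : z2 ≤ 1) (hzε : z2 ≤ ε) (h5 : (1 + τ) / L ≤ ε) :
    1 + Real.sqrt (L * z2) ^ 4 / L + (1 + T) * Real.sqrt (L * z2) ^ 2 / L ≤ 3 * ε * L := by
  have hL0 : 0 < L := by linarith
  have hε0 : 0 ≤ ε := hz0.trans hzε
  have e4 : Real.sqrt (L * z2) ^ 4 = (L * z2) ^ 2 := by
    have : Real.sqrt (L * z2) ^ 4 = (Real.sqrt (L * z2) ^ 2) ^ 2 := by ring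
    rw [this, Real.sq_sqrt (by positivity)]
  rw [e4, Real.sq_sqrt (by positivity)]
  have h5' : 1 + τ ≤ ε * L := by rwa [div_le_iff₀ hL0] at h5
  have t1 : (L * z2) ^ 2 / L ≤ ε * L := by
    have e : (L * z2) ^ 2 / L = (z2 * z2) * L := by field_simp
    rw [e]
    refine mul_le_mul_of_nonneg_right ?_ hL0.le
    nlinarith
  have t2 : (1 + T) * (L * z2) / L ≤ ε * L := by
    have e : (1 + T) * (L * z2) / L = (1 + T) * z2 := by field_simp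
    rw [e]
    have : (1 + T) * z2 ≤ (1 + τ) * 1 := mul_le_mul (by linarith) hz1 hz0 (by linarith)
    linarith
  linarith

/-- the growth rate -/
theorem s7ag_rate (L E1 E2 A1 A2 ε κ b : ℝ) (hL : 15 ≤ L) (hE1 : E1 ≤ A1 * ε)
    (hE2 : E2 ≤ A2 * ε * L) (hA1 : 0 ≤ A1) (hA2 : 0 ≤ A2) (hinv : 1 / L ≤ ε) (hb0 : 0 < b)
    (hb1 : b ≤ 1) (hκ : 0 ≤ κ) (h6 : ε ≤ κ * b ^ 2) :
    2 * (2 / (L - 3)) + (E1 / (L - 3) + 4 / (L * (L - 2))) / b
        + (2 / (L - 3) ^ 2 * E2 + 32 / (L - 3) ^ 2) / b ^ 2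
      ≤ 5 / L + (2 * A1 + 8 * A2 + 136) * κ / L := by
  have hL0 : 0 < L := by linarith
  have h3 : 0 < L - 3 := by linarith
  have h2 : 0 < L - 2 := by linarith
  have hε0 : 0 ≤ ε := le_trans (by positivity) hinv
  have i3 : 1 / (L - 3) ≤ 2 / L := by
    rw [div_le_div_iff₀ h3 hL0]; linarith
  have i2 : 1 / (L - 2) ≤ 2 / L := by
    rw [div_le_div_iff₀ h2 hL0]; linarith
  have i33 : 1 / (L - 3) ^ 2 ≤ 4 / L ^ 2 := by
    have := mul_le_mul i3 i3 (by positivity) (by positivity)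
    calc 1 / (L - 3) ^ 2 = 1 / (L - 3) * (1 / (L - 3)) := by field_simp
      _ ≤ 2 / L * (2 / L) := this
      _ = 4 / L ^ 2 := by field_simp; norm_num
  have t0 : 2 * (2 / (L - 3)) ≤ 5 / L := by
    have : 2 * (2 / (L - 3)) = 4 / (L - 3) := by ring
    rw [this, div_le_div_iff₀ h3 hL0]; linarith
  have hμ : E1 / (L - 3) + 4 / (L * (L - 2)) ≤ (2 * A1 + 8) * (ε / L) := by
    have a1 : E1 / (L - 3) ≤ A1 * ε * (2 / L) := by
      have : E1 / (L - 3) ≤ A1 * ε / (L - 3) := div_le_div_of_nonneg_right hE1 h3.le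
      have e : A1 * ε / (L - 3) = A1 * ε * (1 / (L - 3)) := by ring
      have := mul_le_mul_of_nonneg_left i3 (by positivity : 0 ≤ A1 * ε)
      linarith
    have a2 : 4 / (L * (L - 2)) ≤ 8 * (ε / L) := by
      have e : 4 / (L * (L - 2)) = 4 / L * (1 / (L - 2)) := by field_simp
      have b1 : 4 / L * (1 / (L - 2)) ≤ 4 / L * (2 / L) :=
        mul_le_mul_of_nonneg_left i2 (by positivity)
      have b2 : 4 / L * (2 / L) = 8 / L * (1 / L) := by ring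
      have b3 : 8 / L * (1 / L) ≤ 8 / L * ε := mul_le_mul_of_nonneg_left hinv (by positivity)
      have b4 : 8 / L * ε = 8 * (ε / L) := by ring
      linarith
    have e2 : A1 * ε * (2 / L) = 2 * A1 * (ε / L) := by ring
    linarith
  have hν : 2 / (L - 3) ^ 2 * E2 + 32 / (L - 3) ^ 2 ≤ (8 * A2 + 128) * (ε / L) := by
    have e : 2 / (L - 3) ^ 2 * E2 + 32 / (L - 3) ^ 2 = 1 / (L - 3) ^ 2 * (2 * E2 + 32) := by ring
    have b0 : 2 * E2 + 32 ≤ 2 * (A2 * ε * L) + 32 := by linarith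
    have b1 : 1 / (L - 3) ^ 2 * (2 * E2 + 32) ≤ 1 / (L - 3) ^ 2 * (2 * (A2 * ε * L) + 32) :=
      mul_le_mul_of_nonneg_left b0 (by positivity)
    have b2 : 1 / (L - 3) ^ 2 * (2 * (A2 * ε * L) + 32) ≤ 4 / L ^ 2 * (2 * (A2 * ε * L) + 32) :=
      mul_le_mul_of_nonneg_right i33 (by positivity)
    have b3 : 4 / L ^ 2 * (2 * (A2 * ε * L) + 32) = 8 * A2 * (ε / L) + 128 / L * (1 / L) := by
      field_simp; ring
    have b4 : 128 / L * (1 / L) ≤ 128 / L * ε := mul_le_mul_of_nonneg_left hinv (by positivity)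
    have b5 : 128 / L * ε = 128 * (ε / L) := by ring
    linarith
  have k1 : ε / b ≤ κ := by
    rw [div_le_iff₀ hb0]
    have : κ * b ^ 2 ≤ κ * b := by
      refine mul_le_mul_of_nonneg_left ?_ hκ
      nlinarith
    linarith
  have k2 : ε / b ^ 2 ≤ κ := by
    rw [div_le_iff₀ (by positivity)]; exact h6
  have m1 : (E1 / (L - 3) + 4 / (L * (L - 2))) / b ≤ (2 * A1 + 8) * (κ / L) := by
    have a := div_le_div_of_nonneg_right hμ hb0.le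
    have e : (2 * A1 + 8) * (ε / L) / b = (2 * A1 + 8) * ((ε / b) / L) := by field_simp
    have c := div_le_div_of_nonneg_right k1 hL0.le
    have := mul_le_mul_of_nonneg_left c (by positivity : 0 ≤ 2 * A1 + 8)
    linarith
  have m2 : (2 / (L - 3) ^ 2 * E2 + 32 / (L - 3) ^ 2) / b ^ 2 ≤ (8 * A2 + 128) * (κ / L) := by
    have a := div_le_div_of_nonneg_right hν (by positivity : 0 ≤ b ^ 2)
    have e : (8 * A2 + 128) * (ε / L) / b ^ 2 = (8 * A2 + 128) * ((ε / b ^ 2) / L) := by field_simp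
    have c := div_le_div_of_nonneg_right k2 hL0.le
    have := mul_le_mul_of_nonneg_left c (by positivity : 0 ≤ 8 * A2 + 128)
    linarith
  have e : (2 * A1 + 8 * A2 + 136) * κ / L = (2 * A1 + 8) * (κ / L) + (8 * A2 + 128) * (κ / L) := by
    ring
  rw [e]
  linarith

/-! ## the scales -/

/-- `C n^x ≤ n^y` eventually, for `x < y` -/
theorem s7ag_lt {x y : ℚ} (h : x < y) (C : ℝ) :
    ∀ᶠ n : ℕ in atTop, C * (scQ x n : ℝ) ≤ (scQ y n : ℝ) := by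
  filter_upwards [s7n_scQ_lt h C 0] with n hn
  simpa using hn

/-- all facts on the scales used in the gap step -/
theorem s7ag_num {g : ℚ} (hg : S7gOK g) (ε0 : ℝ) (hε0 : 0 < ε0) (m : ℕ) :
    ∀ᶠ n : ℕ in atTop, 1 ≤ n ∧ (s7eps n : ℝ) ≤ ε0 ∧ m ≤ s7l2 g n ∧
      (scQ (-(2 / 10 * aa)) n : ℝ) ≤ (s7eps n : ℝ) ∧
      (1 + Real.sqrt (s7Tcap g n : ℝ)) * Real.sqrt (scQ (-(2 / 10 * aa)) n : ℝ) ≤ (s7eps n : ℝ) ∧
      (∀ L : ℝ, (s7l2 g n : ℝ) ≤ L → (1 + (s7Tcap g n : ℝ)) / L ≤ (s7eps n : ℝ)) ∧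
      (s7eps n : ℝ) ≤ (s7kap g n : ℝ) * (s7lamX n : ℝ) ^ 2 := by
  obtain ⟨hg0, hg1⟩ := hg
  have haa : aa = 1 / 10000 := rfl
  have x1 : (-(aa / 1000) : ℚ) < 0 := by rw [haa]; norm_num
  have x4 : (4 * s7eta0 g / 2 + -(2 / 10 * aa) / 2 : ℚ) < -(aa / 1000) := by
    unfold s7eta0; rw [haa] at hg1 ⊢; linarith
  have x5 : (4 * s7eta0 g : ℚ) < -(aa / 1000) + (2 / 3 + 15 / 100 * aa - 2 * g) := by
    unfold s7eta0; rw [haa] at hg1 ⊢; linarith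
  have x6 : (-(aa / 1000) : ℚ) < -(2 * s7eta0 g) + (-(aa / 10000) + -(aa / 10000)) := by
    unfold s7eta0; rw [haa] at hg1 ⊢; linarith
  filter_upwards [eventually_ge_atTop 1, s7n_scQ_small x1 ε0 hε0, s7n_l3_large m, s7ag_lt x4 6,
    s7ag_lt x5 2, s7ag_lt x6 4] with n h1 h2 h3 h4 h5 h6
  refine ⟨h1, h2, h3.trans (s7n_l3_le_l2 ⟨hg0, hg1⟩ n), ?_, ?_, ?_, ?_⟩
  · have : scQ (-(2 / 10 * aa)) n ≤ scQ (-(aa / 1000)) n :=
      s7n_scQ_mono (by rw [haa]; norm_num) n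
    unfold s7eps
    exact_mod_cast this
  · have a1 := s7n_sqrt_scQ_le (4 * s7eta0 g) n
    have a2 := s7n_sqrt_scQ_le (-(2 / 10 * aa)) n
    have a3 : (1 : ℝ) ≤ (scQ (4 * s7eta0 g / 2) n : ℝ) := by
      have : 1 ≤ scQ (4 * s7eta0 g / 2) n := s7n_one_le_scQ (by unfold s7eta0; linarith) n
      exact_mod_cast this
    have a4 : (scQ (4 * s7eta0 g / 2) n : ℝ) * (scQ (-(2 / 10 * aa) / 2) n : ℝ)
        ≤ (scQ (4 * s7eta0 g / 2 + -(2 / 10 * aa) / 2) n : ℝ) := by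
      exact_mod_cast s7n_scQ_mul_le _ _ n
    have p1 := s7n_cast_pos (4 * s7eta0 g / 2) n
    have p2 := s7n_cast_pos (-(2 / 10 * aa) / 2) n
    unfold s7Tcap s7eps
    calc (1 + Real.sqrt (scQ (4 * s7eta0 g) n : ℝ)) * Real.sqrt (scQ (-(2 / 10 * aa)) n : ℝ)
        ≤ (3 * (scQ (4 * s7eta0 g / 2) n : ℝ)) * (2 * (scQ (-(2 / 10 * aa) / 2) n : ℝ)) :=
          mul_le_mul (by linarith) a2 (Real.sqrt_nonneg _) (by positivity)
      _ = 6 * ((scQ (4 * s7eta0 g / 2) n : ℝ) * (scQ (-(2 / 10 * aa) / 2) n : ℝ)) := by ring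
      _ ≤ 6 * (scQ (4 * s7eta0 g / 2 + -(2 / 10 * aa) / 2) n : ℝ) := by linarith
      _ ≤ _ := h4
  · intro L hL
    have l2e : (s7l2 g n : ℝ) = 2 * (scQ (2 / 3 + 15 / 100 * aa - 2 * g) n : ℝ) := by
      exact_mod_cast s7n_l2 ⟨hg0, hg1⟩ n
    have p1 := s7n_cast_pos (2 / 3 + 15 / 100 * aa - 2 * g) n
    have p2 := s7n_cast_pos (-(aa / 1000)) n
    have hL0 : 0 < L := by linarith
    have a3 : (1 : ℝ) ≤ (scQ (4 * s7eta0 g) n : ℝ) := by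
      have : 1 ≤ scQ (4 * s7eta0 g) n := s7n_one_le_scQ (by unfold s7eta0; linarith) n
      exact_mod_cast this
    have a4 : (scQ (-(aa / 1000) + (2 / 3 + 15 / 100 * aa - 2 * g)) n : ℝ)
        ≤ 2 * ((scQ (-(aa / 1000)) n : ℝ) * (scQ (2 / 3 + 15 / 100 * aa - 2 * g) n : ℝ)) := by
      exact_mod_cast s7n_scQ_add_le _ _ n
    unfold s7Tcap s7eps
    rw [div_le_iff₀ hL0]
    have a5 : (scQ (-(aa / 1000)) n : ℝ) * (2 * (scQ (2 / 3 + 15 / 100 * aa - 2 * g) n : ℝ))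
        ≤ (scQ (-(aa / 1000)) n : ℝ) * L := mul_le_mul_of_nonneg_left (by linarith) p2.le
    linarith
  · have a1 : (scQ (-(2 * s7eta0 g) + (-(aa / 10000) + -(aa / 10000))) n : ℝ)
        ≤ 2 * ((scQ (-(2 * s7eta0 g)) n : ℝ) * (scQ (-(aa / 10000) + -(aa / 10000)) n : ℝ)) := by
      exact_mod_cast s7n_scQ_add_le _ _ n
    have a2 : (scQ (-(aa / 10000) + -(aa / 10000)) n : ℝ)
        ≤ 2 * ((scQ (-(aa / 10000)) n : ℝ) * (scQ (-(aa / 10000)) n : ℝ)) := by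
      exact_mod_cast s7n_scQ_add_le _ _ n
    have p1 := s7n_cast_pos (-(2 * s7eta0 g)) n
    have a3 := mul_le_mul_of_nonneg_left a2 p1.le
    unfold s7eps s7kap s7lamX
    nlinarith

/-! ## the step at one state (abstract matrices, concrete scales as real parameters) -/

section Core

variable {ι : Type} [Fintype ι] [DecidableEq ι]

/-- the new variable is the old one plus the increment -/
theorem s7ag_id (L h X Xp ub ub' : ℝ) (hL : 15 ≤ L) :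
    h ^ 2 * Xp / (L - 3) - ub' = (h ^ 2 * X / (L - 1) - ub)
      + (h ^ 2 / (L - 3) * (Xp - X) + (2 * (h ^ 2 * X / (L - 1)) / (L - 3) + (ub - ub'))) := by
  have h3 : L - 3 ≠ 0 := by linarith
  have h1 : L - 1 ≠ 0 := by linarith
  field_simp
  ring

/-- the gap step for an abstract increment -/
theorem s7ag_core0 (hGap : StS7GapAcc) (R : Finset ι) (dX Z' : ι → ι → ℝ)
    (L X h E1 E2 b ub ub' : ℝ) (hLR : L = (R.card : ℝ)) (hL : 15 ≤ L) (hX0 : 0 ≤ X) (hh : h ^ 2 ≤ 1)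
    (hu1 : h ^ 2 * X / (L - 1) ≤ 1) (hub0 : 0 ≤ ub) (hub1 : ub ≤ 1)
    (hstep : ub - ub' ≤ 2 * ub * (1 - ub) / (L - 3) + 4 / (L * (L - 2)))
    (hst0 : 0 ≤ ub - ub') (hst1 : ub - ub' ≤ 2 / (L - 2)) (hE1 : 0 ≤ E1) (hE2 : 0 ≤ E2)
    (hmean : s7avg R dX ≤ -4 * X / (L - 1) + 2 * h ^ 2 * X ^ 2 / (L * (L - 1)) + E1)
    (hvar : s7avg R (fun p q => dX p q ^ 2) ≤ E2) (hb0 : 0 < b)
    (hZ' : ∀ p ∈ R, ∀ q ∈ R, p ≠ q → Z' p q
      = excessZ 2 (h ^ 2 * (X + dX p q) / (L - 3) - ub') 0 b) :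
    s7avg R Z' ≤ (1 + (2 * (2 / (L - 3)) + (E1 / (L - 3) + 4 / (L * (L - 2))) / b
        + (2 / (L - 3) ^ 2 * E2 + 32 / (L - 3) ^ 2) / b ^ 2))
      * excessZ 2 (h ^ 2 * X / (L - 1) - ub) 0 b := by
  have hl2 : 2 ≤ R.card := by
    have : (15 : ℝ) ≤ (R.card : ℝ) := hLR ▸ hL
    have : 15 ≤ R.card := by exact_mod_cast this
    omega
  have h3 : 0 < L - 3 := by linarith
  have h2 : 0 < L - 2 := by linarith
  have h1 : 0 < L - 1 := by linarith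
  have hL0 : 0 < L := by linarith
  have hu0 : 0 ≤ h ^ 2 * X / (L - 1) := by positivity
  have avΔ : s7avg R (fun p q => h ^ 2 / (L - 3) * dX p q
        + (2 * (h ^ 2 * X / (L - 1)) / (L - 3) + (ub - ub')))
      = h ^ 2 / (L - 3) * s7avg R dX + (2 * (h ^ 2 * X / (L - 1)) / (L - 3) + (ub - ub')) := by
    rw [s7t_avg_add, s7t_avg_smul, s7t_avg_const hl2]
  refine hGap ι R (h ^ 2 * X / (L - 1) - ub) b (2 / (L - 3)) (E1 / (L - 3) + 4 / (L * (L - 2)))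
    (2 / (L - 3) ^ 2 * E2 + 32 / (L - 3) ^ 2)
    (fun p q => h ^ 2 / (L - 3) * dX p q + (2 * (h ^ 2 * X / (L - 1)) / (L - 3) + (ub - ub'))) Z'
    hl2 hb0 (by positivity) (by positivity) (by positivity) ?_ ?_ ?_
  · intro p hp q hq hpq
    rw [hZ' p hp q hq hpq, s7ag_id L h X _ ub ub' hL, add_sub_cancel_left]
  · intro hx
    rw [avΔ]
    exact s7ag_drift L X h _ ub ub' E1 (s7avg R dX) hL hX0 hh rfl hu1 hub0 hub1 hstep hE1 hmean hx
  · have m1 : s7avg R (fun p q => (h ^ 2 / (L - 3) * dX p q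
          + (2 * (h ^ 2 * X / (L - 1)) / (L - 3) + (ub - ub'))) ^ 2)
        ≤ s7avg R (fun p q => 2 / (L - 3) ^ 2 * dX p q ^ 2 + 32 / (L - 3) ^ 2) := by
      refine s7t_avg_mono hl2 (fun p _ q _ _ => ?_)
      exact s7ag_sq L h _ (ub - ub') (dX p q) hL hh hu0 hu1 hst0 hst1
    refine m1.trans ?_
    rw [s7t_avg_add, s7t_avg_smul, s7t_avg_const hl2]
    have := mul_le_mul_of_nonneg_left hvar (by positivity : 0 ≤ 2 / (L - 3) ^ 2)
    linarith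

/-- the gap step with the errors of `StS7EnergyStep` inserted -/
theorem s7ag_core (hGap : StS7GapAcc) (R : Finset ι) (dX Z' : ι → ι → ℝ)
    (L X T h CE C0 ε κ b z2 τ ub ub' : ℝ) (hLR : L = (R.card : ℝ)) (hL : 15 ≤ L) (hX0 : 0 ≤ X)
    (hXL : X ≤ C0 * L) (hT0 : 0 ≤ T) (hT : T ≤ τ) (hh : h ^ 2 ≤ 1) (hCE : 0 ≤ CE) (hC0 : 0 ≤ C0)
    (hu1 : h ^ 2 * X / (L - 1) ≤ 1) (hub0 : 0 ≤ ub) (hub1 : ub ≤ 1)
    (hstep : ub - ub' ≤ 2 * ub * (1 - ub) / (L - 3) + 4 / (L * (L - 2)))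
    (hst0 : 0 ≤ ub - ub') (hst1 : ub - ub' ≤ 2 / (L - 2))
    (hmean : s7avg R dX ≤ -4 * X / (L - 1) + 2 * h ^ 2 * X ^ 2 / (L * (L - 1))
      + CE * ((1 + Real.sqrt (L * z2) ^ 2) * X / L ^ 2
          + (1 + Real.sqrt T) * Real.sqrt (L * z2) * X / (L * Real.sqrt L)
          + ε * X / L + (1 + T) / L))
    (hvar : s7avg R (fun p q => dX p q ^ 2) ≤
      CE * (1 + Real.sqrt (L * z2) ^ 4 / L + (1 + T) * Real.sqrt (L * z2) ^ 2 / L))
    (hz0 : 0 ≤ z2) (hz1 : z2 ≤ 1) (hzε : z2 ≤ ε)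
    (h4 : (1 + Real.sqrt τ) * Real.sqrt z2 ≤ ε) (h5 : (1 + τ) / L ≤ ε) (hb0 : 0 < b)
    (hb1 : b ≤ 1) (hκ : 0 ≤ κ) (h6 : ε ≤ κ * b ^ 2)
    (hZ' : ∀ p ∈ R, ∀ q ∈ R, p ≠ q → Z' p q
      = excessZ 2 (h ^ 2 * (X + dX p q) / (L - 3) - ub') 0 b) :
    s7avg R Z' ≤ (1 + (5 / L + (2 * (CE * (4 * C0 + 1)) + 8 * (3 * CE) + 136) * κ / L))
      * excessZ 2 (h ^ 2 * X / (L - 1) - ub) 0 b := by
  have hL0 : 0 < L := by linarith
  have hτ0 : 0 ≤ τ := hT0.trans hT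
  have hε0 : 0 ≤ ε := hz0.trans hzε
  have e1 := s7ag_err1 L X T τ z2 ε C0 hL hX0 hXL hT0 hT hz0 hzε h4 h5 hC0
  have e2 := s7ag_err2 L T τ z2 ε hL hT0 hT hz0 hz1 hzε h5
  have G := s7ag_core0 hGap R dX Z' L X h _ _ b ub ub' hLR hL hX0 hh hu1 hub0 hub1 hstep hst0 hst1
    (by positivity) (by positivity) hmean hvar hb0 hZ'
  refine G.trans (mul_le_mul_of_nonneg_right ?_ ?_)
  · have hinv : 1 / L ≤ ε := by
      refine le_trans ?_ h5
      exact div_le_div_of_nonneg_right (by linarith) hL0.le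
    have f1 := (mul_le_mul_of_nonneg_left e1 hCE).trans
      (le_of_eq (by ring : CE * ((4 * C0 + 1) * ε) = CE * (4 * C0 + 1) * ε))
    have f2 := (mul_le_mul_of_nonneg_left e2 hCE).trans
      (le_of_eq (by ring : CE * (3 * ε * L) = 3 * CE * ε * L))
    have r := s7ag_rate L _ _ (CE * (4 * C0 + 1)) (3 * CE) ε κ b hL f1 f2 (by positivity)
      (by positivity) hinv hb0 hb1 hκ h6
    linarith
  · unfold excessZ
    positivity

end Core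

/-! ## the step of Phase A -/

theorem s7ag_hmin_pos (d : ℕ) (hd : 3 ≤ d) : 0 < s7hmin d := by
  have hd' : (3 : ℝ) ≤ (d : ℝ) := by exact_mod_cast hd
  unfold s7hmin
  have : 0 < Real.sqrt ((d : ℝ) - 1) := Real.sqrt_pos.2 (by linarith)
  positivity

theorem s7ag_ThS_pos (d : ℕ) (hd : 3 ≤ d) : (0 : ℝ) < (s7ThS d : ℝ) + 1 := by
  have hd' : (3 : ℝ) ≤ (d : ℝ) := by exact_mod_cast hd
  unfold s7ThS
  push_cast
  linarith

/-- the comparator facts over `ℝ` -/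
theorem s7ag_ubar (g : ℚ) (n l : ℕ) (hl : 4 ≤ l) :
    0 ≤ (s7ubar g n l : ℝ) ∧ (s7ubar g n l : ℝ) ≤ 1 ∧
    (s7ubar g n l : ℝ) - (s7ubar g n (l - 2) : ℝ) ≤
      2 * (s7ubar g n l : ℝ) * (1 - (s7ubar g n l : ℝ)) / ((l : ℝ) - 3)
        + 4 / ((l : ℝ) * ((l : ℝ) - 2)) ∧
    0 ≤ (s7ubar g n l : ℝ) - (s7ubar g n (l - 2) : ℝ) ∧
    (s7ubar g n l : ℝ) - (s7ubar g n (l - 2) : ℝ) ≤ 2 / ((l : ℝ) - 2) := by
  obtain ⟨a1, a2⟩ := s7n_ubar_pos g n l (by omega)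
  obtain ⟨b1, b2, b3⟩ := s7n_ubar_step g n l hl
  refine ⟨by exact_mod_cast a1.le, by exact_mod_cast a2.le, by exact_mod_cast b1,
    by exact_mod_cast b2, by exact_mod_cast b3⟩

/-- **S7-A-STEP-3** the averaged gap. -/
theorem s7_aStepGap (hDer : StS7ADer) (hUpd : StS7Upd) (hLavg : StS7Lavg) (hEn : StS7EnergyStep)
    (hGap : StS7GapAcc) (hScore : StS7Score) : StS7AStepGap := by
  intro d par hpar
  obtain ⟨hd, hg, hp, hcp0, hcp1⟩ := id hpar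
  have hhmin := s7ag_hmin_pos d hd
  have hC0 := s7ag_ThS_pos d hd
  obtain ⟨CE, ε0, lE, hCE, hε0, hE⟩ := hEn (s7hmin d) ((s7ThS d : ℝ) + 1) hhmin hC0
  refine ⟨2 * (CE * (4 * ((s7ThS d : ℝ) + 1) + 1)) + 8 * (3 * CE) + 136, by positivity, ?_⟩
  filter_upwards [hDer d par hpar, s7ag_num hg (min ε0 (1 / 16)) (by positivity) (max lE 15)]
    with n hder hnum
  obtain ⟨hn1, hεs, hlm, n3, n4, n5, n6⟩ := hnum
  intro φ π₀ π t hstop hinv hl i hi hk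
  have hκ0 : (0 : ℝ) < (s7kap par.g n : ℝ) := s7n_cast_pos _ n
  have hl15 : 15 ≤ π.l := by
    have := (le_max_right lE 15).trans hlm
    omega
  have hlE : lE ≤ π.l := by
    have := (le_max_left lE 15).trans hlm
    omega
  have hL : (15 : ℝ) ≤ (π.l : ℝ) := by exact_mod_cast hl15
  refine ⟨by positivity, ?_⟩
  cases i
  case gap j b =>
    have hj : j ≤ Nprim d n par.cp := ((hScore d n par φ π₀ π).2.2.2.1 j b).1 hi
    have der := hder φ π₀ π t hstop hinv hl.le j hj b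
    have cap := hinv.cap j hj b
    have hh0 : 0 < ((prim d n j : ℚ) : ℝ) := lt_of_lt_of_le hhmin der.baseD.h_lo
    have hh1 : ((prim d n j : ℚ) : ℝ) ≤ 3 / 4 := der.baseD.h_hi
    have hh2 : ((prim d n j : ℚ) : ℝ) ^ 2 ≤ 1 := by nlinarith
    obtain ⟨u0, u1, u2, u3, u4⟩ := s7ag_ubar par.g n π.l (by omega)
    have en := hE (Stub n d) (sgn b) ((prim d n j : ℚ) : ℝ) (s7eps n : ℝ) π.unres
      (s7D π (sgn b) ((prim d n j : ℚ) : ℝ)) der.baseD (hεs.trans (min_le_left _ _)) hlE _ der.opD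
    have hZ := (hLavg n d π (s7ZA ℝ d n par φ π₀ (.gap j b))).1
    have e0 : (s7PhaseA ℝ d n par φ π₀).avg (.gap j b) π
        = s7avg π.unres (fun u v => s7ZA ℝ d n par φ π₀ (.gap j b) (π.resolve u v)) := hZ
    rw [e0]
    have hu1 : ((prim d n j : ℚ) : ℝ) ^ 2 * s7X (s7D π (sgn b) ((prim d n j : ℚ) : ℝ))
        / ((π.l : ℝ) - 1) ≤ 1 := by
      have := der.gapD
      linarith
    have hb1 : (s7lamX n : ℝ) ≤ 1 := by
      have : s7lamX n ≤ 1 := s7n_scQ_le_one (by unfold aa; norm_num) n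
      exact_mod_cast this
    have hz1 : (scQ (-(2 / 10 * aa)) n : ℝ) ≤ 1 := by
      have : scQ (-(2 / 10 * aa)) n ≤ 1 := s7n_scQ_le_one (by unfold aa; norm_num) n
      exact_mod_cast this
    refine s7ag_core hGap π.unres
      (fun u v => s7X (s7Dstep (sgn b) ((prim d n j : ℚ) : ℝ) π.unres
        (s7D π (sgn b) ((prim d n j : ℚ) : ℝ)) u v) - s7X (s7D π (sgn b) ((prim d n j : ℚ) : ℝ)))
      _ (π.l : ℝ) (s7X (s7D π (sgn b) ((prim d n j : ℚ) : ℝ)))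
      (s7T (s7D π (sgn b) ((prim d n j : ℚ) : ℝ))) ((prim d n j : ℚ) : ℝ) CE ((s7ThS d : ℝ) + 1)
      (s7eps n : ℝ) (s7kap par.g n : ℝ) (s7lamX n : ℝ) (scQ (-(2 / 10 * aa)) n : ℝ)
      (s7Tcap par.g n : ℝ) (s7ubar par.g n π.l : ℝ) (s7ubar par.g n (π.l - 2) : ℝ) rfl hL
      (s7t_X_nonneg der.baseD.symm) (s7t_X_le der.baseD.symm der.baseD.cent der.baseD.row)
      (s7t_T_nonneg _) cap.dgT hh2 hCE.le hC0.le hu1 u0 u1 u2 u3 u4 en.1 en.2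
      (s7n_cast_pos _ n).le hz1 n3 n4 (n5 _ (by exact_mod_cast hl.le)) (s7n_cast_pos _ n) hb1 hκ0.le
      n6 ?_
    intro u hu v hv huv
    have hu' : π.Unres u := (Finset.mem_filter.1 hu).2
    have hv' : π.Unres v := (Finset.mem_filter.1 hv).2
    have up := hUpd n d π₀ π φ (Lcut d n) (sgn b) ((prim d n j : ℚ) : ℝ) u v (by omega) hinv.ext hu'
      hv' huv (by omega) der.sig hh0 hh1 (hinv.pos j hj b)
      (fun x y => (der.baseD.ent x y).trans (hεs.trans (min_le_right _ _))) der.refAt.unit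
      (fun x y => (der.baseDh.ent x y).trans (hεs.trans (min_le_right _ _)))
    obtain ⟨-, -, upl, -, -, upD, -⟩ := up
    have hl' : (π.resolve u v).l = π.l - 2 := by omega
    have hlr : ((π.resolve u v).l : ℝ) - 1 = (π.l : ℝ) - 3 := by
      have : ((π.resolve u v).l : ℝ) + 2 = (π.l : ℝ) := by exact_mod_cast upl
      linarith
    show excessZ 2 (((prim d n j : ℚ) : ℝ) ^ 2
        * s7X (s7D (π.resolve u v) (sgn b) ((prim d n j : ℚ) : ℝ)) / (((π.resolve u v).l : ℝ) - 1)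
        - ((s7ubar par.g n (π.resolve u v).l : ℚ) : ℝ)) 0 ((s7lamX n : ℚ) : ℝ) = _
    rw [upD, hlr, hl', add_sub_cancel]
  all_goals exact absurd hk (by simp [S7Lab.kind])

end Claimed.Agent.R275
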