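import Claimed.Agent.R275.S7AccTools
import Claimed.Agent.R275.S7Tools

/-!
# Row 275, Section 7, leaf S7-ACC-CALC: list/finset averages and the account calculus for pair averages

Prover: helper77.  Statements `StS7Lavg`, `StS7AvgRestrict`, `StS7ExcStep`, `StS7GapAcc`, `StS7AffAcc`, `StS7SqAcc` of `S7AccTools.lean`
(architect helper245).  Helper prefix `s7c_`.
-/

set_option autoImplicit false
set_option linter.unusedVariables false
set_option linter.unusedSectionVars false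

namespace Claimed.Agent.R275

/-! ## Pair averages as averages over `offDiag` -/

section OffDiag

variable {ι : Type} [DecidableEq ι]

/-- the double sum as a sum over `offDiag` -/
theorem s7c_sum_offDiag (R : Finset ι) (g : ι → ι → ℝ) :
    ∑ c ∈ R.offDiag, g c.1 c.2 = ∑ u ∈ R, ∑ v ∈ R.erase u, g u v := by
  have h0 : R.offDiag = (R ×ˢ R).filter (fun a => a.1 ≠ a.2) := by
    ext c
    rw [Finset.mem_offDiag, Finset.mem_filter, Finset.mem_product, and_assoc]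
  rw [h0, Finset.sum_filter, Finset.sum_product]
  refine Finset.sum_congr rfl fun u _ => ?_
  rw [← Finset.sum_filter]
  refine Finset.sum_congr ?_ fun _ _ => rfl
  ext v
  simp only [Finset.mem_filter, Finset.mem_erase]
  constructor
  · rintro ⟨h1, h2⟩
    exact ⟨fun h => h2 h.symm, h1⟩
  · rintro ⟨h1, h2⟩
    exact ⟨h2, fun h => h1 h.symm⟩

theorem s7c_card_offDiag (R : Finset ι) :
    ((R.offDiag.card : ℕ) : ℝ) = (R.card : ℝ) * ((R.card : ℝ) - 1) := by
  rw [Finset.offDiag_card, Nat.cast_sub (Nat.le_mul_self _)]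
  push_cast
  ring

theorem s7c_avg_eq (R : Finset ι) (g : ι → ι → ℝ) :
    s7avg R g = (∑ c ∈ R.offDiag, g c.1 c.2) / (R.offDiag.card : ℝ) := by
  unfold s7avg
  rw [s7c_sum_offDiag, s7c_card_offDiag]

/-- the list average over any duplicate-free enumeration of the ordered pairs -/
theorem s7c_lavg_of_nodup (l : List (ι × ι)) (hl : l.Nodup) (R : Finset ι)
    (hmem : ∀ c, c ∈ l ↔ c ∈ R.offDiag) (g : ι → ι → ℝ) :
    lavg l (fun c => g c.1 c.2) = s7avg R g := by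
  have h1 : l.toFinset = R.offDiag := by
    ext c
    rw [List.mem_toFinset, hmem]
  unfold lavg
  rw [s7c_avg_eq, ← h1, List.sum_toFinset _ hl, List.toFinset_card_of_nodup hl]

/-- the ratio of the numbers of ordered pairs -/
theorem s7c_ratio {R I : Finset ι} (h : I ⊆ R) :
    0 ≤ ((I.card : ℝ) * ((I.card : ℝ) - 1)) / ((R.card : ℝ) * ((R.card : ℝ) - 1)) ∧
      ((I.card : ℝ) * ((I.card : ℝ) - 1)) / ((R.card : ℝ) * ((R.card : ℝ) - 1)) ≤ 1 := by
  rw [← s7c_card_offDiag, ← s7c_card_offDiag]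
  have h1 : ((I.offDiag.card : ℕ) : ℝ) ≤ ((R.offDiag.card : ℕ) : ℝ) := by
    exact_mod_cast Finset.card_le_card (Finset.offDiag_mono h)
  exact ⟨by positivity, div_le_one_of_le₀ h1 (Nat.cast_nonneg _)⟩

end OffDiag

/-! ## A. Averages -/

theorem s7_lavg : StS7Lavg := by
  intro n d π F
  have hnd : ((iall (Stub n d × Stub n d)).filter
      fun c => decide (π.Unres c.1 ∧ π.Unres c.2 ∧ c.1 ≠ c.2)).Nodup := iall_nodup.filter _
  have hun : ∀ x, x ∈ π.unres ↔ π.Unres x := by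
    intro x
    unfold PPair.unres
    simp
  have hmem : ∀ c, c ∈ ((iall (Stub n d × Stub n d)).filter
      fun c => decide (π.Unres c.1 ∧ π.Unres c.2 ∧ c.1 ≠ c.2)) ↔ c ∈ π.unres.offDiag := by
    intro c
    rw [List.mem_filter, Finset.mem_offDiag, hun, hun]
    simp [mem_iall]
  refine ⟨?_, ?_, ?_⟩
  · unfold s7cands
    have e : lavg (List.map (fun c : Stub n d × Stub n d => π.resolve c.1 c.2)
        ((iall (Stub n d × Stub n d)).filter
          fun c => decide (π.Unres c.1 ∧ π.Unres c.2 ∧ c.1 ≠ c.2))) F =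
        lavg ((iall (Stub n d × Stub n d)).filter
          fun c => decide (π.Unres c.1 ∧ π.Unres c.2 ∧ c.1 ≠ c.2))
          (fun c => F (π.resolve c.1 c.2)) := by
      unfold lavg
      rw [List.map_map, List.length_map]
      rfl
    rw [e]
    exact s7c_lavg_of_nodup _ hnd _ hmem (fun u v => F (π.resolve u v))
  · intro h2 hnil
    obtain ⟨u, hu, v, hv, huv⟩ := Finset.one_lt_card.1 (show 1 < π.unres.card from h2)
    have h3 : π.resolve u v ∈ s7cands π :=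
      List.mem_map.2 ⟨(u, v), (hmem _).2 (Finset.mem_offDiag.2 ⟨hu, hv, huv⟩), rfl⟩
    rw [hnil] at h3
    simp at h3
  · intro π' hπ'
    obtain ⟨c, hc, rfl⟩ := List.mem_map.1 hπ'
    obtain ⟨h1, h2, h3⟩ := Finset.mem_offDiag.1 ((hmem c).1 hc)
    exact ⟨c.1, c.2, (hun _).1 h1, (hun _).1 h2, h3, rfl⟩

theorem s7_avgRestrict : StS7AvgRestrict := by
  intro ι _ _ R I f hIR
  have hnum : ∑ u ∈ R, ∑ v ∈ R.erase u, (if u ∈ I ∧ v ∈ I then f u v else 0) =
      ∑ u ∈ I, ∑ v ∈ I.erase u, f u v := by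
    rw [← s7c_sum_offDiag R (fun u v => if u ∈ I ∧ v ∈ I then f u v else 0),
      ← s7c_sum_offDiag I f, ← Finset.sum_filter]
    refine Finset.sum_congr ?_ fun _ _ => rfl
    ext c
    simp only [Finset.mem_filter, Finset.mem_offDiag]
    constructor
    · rintro ⟨⟨_, _, h3⟩, h4, h5⟩
      exact ⟨h4, h5, h3⟩
    · rintro ⟨h1, h2, h3⟩
      exact ⟨⟨hIR h1, hIR h2, h3⟩, h1, h2⟩
  unfold s7avg
  rw [hnum]
  by_cases h0 : (I.card : ℝ) * ((I.card : ℝ) - 1) = 0
  · have h1 : ∑ u ∈ I, ∑ v ∈ I.erase u, f u v = 0 := by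
      rw [← s7c_sum_offDiag]
      have hc : I.offDiag.card = 0 := by
        have := s7c_card_offDiag I
        rw [h0] at this
        exact_mod_cast this
      rw [Finset.card_eq_zero.1 hc]
      simp
    rw [h1]
    simp
  · rw [div_mul_div_comm, mul_comm ((R.card : ℝ) * ((R.card : ℝ) - 1)), mul_div_mul_left _ _ h0]

/-! ## B. Account calculus -/

theorem s7_excStep : StS7ExcStep := by
  intro ι _ _ R I p X T b μ ν Δ Z' hp hIR hb hμ hν hord hexc hμI hνI
  have hl : ∀ g : ι → ι → ℝ, lavg R.offDiag.toList (fun c => g c.1 c.2) = s7avg R g :=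
    fun g => s7c_lavg_of_nodup _ (Finset.nodup_toList _) R (fun c => Finset.mem_toList) g
  obtain ⟨hr0, hr1⟩ := s7c_ratio hIR
  have hres : ∀ (g : ι → ι → ℝ) (m : ℝ), 0 ≤ m → s7avg I g ≤ m →
      s7avg R (fun u v => if u ∈ I ∧ v ∈ I then g u v else 0) ≤ m := by
    intro g m hm hg
    rw [s7_avgRestrict ι R I g hIR]
    calc ((I.card : ℝ) * ((I.card : ℝ) - 1)) / ((R.card : ℝ) * ((R.card : ℝ) - 1)) * s7avg I g
        ≤ ((I.card : ℝ) * ((I.card : ℝ) - 1)) / ((R.card : ℝ) * ((R.card : ℝ) - 1)) * m :=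
          mul_le_mul_of_nonneg_left hg hr0
      _ ≤ 1 * m := mul_le_mul_of_nonneg_right hr1 hm
      _ = m := one_mul m
  rw [← hl Z']
  apply excess_avg_le_of_ord p hp R.offDiag.toList X T b μ ν hb hμ hν
    (fun c => c.1 ∈ I ∧ c.2 ∈ I) (fun c => Δ c.1 c.2) (fun c => Z' c.1 c.2)
  · intro c hc ho
    exact (hord c.1 ho.1 c.2 ho.2 (Finset.mem_offDiag.1 (Finset.mem_toList.1 hc)).2.2).1
  · intro c hc ho
    exact (hord c.1 ho.1 c.2 ho.2 (Finset.mem_offDiag.1 (Finset.mem_toList.1 hc)).2.2).2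
  · intro c hc hno
    obtain ⟨h1, h2, h3⟩ := Finset.mem_offDiag.1 (Finset.mem_toList.1 hc)
    exact hexc c.1 h1 c.2 h2 h3 hno
  · refine le_trans (le_of_eq ?_) (hres Δ μ hμ hμI)
    rw [← hl]
    congr 1
    funext c
    by_cases h : c.1 ∈ I ∧ c.2 ∈ I
    · rw [if_pos h, if_pos h]
    · rw [if_neg h, if_neg h]
  · refine le_trans (le_of_eq ?_) (hres (fun u v => Δ u v ^ 2) ν hν hνI)
    rw [← hl]
    congr 1
    funext c
    by_cases h : c.1 ∈ I ∧ c.2 ∈ I
    · rw [if_pos h, if_pos h]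
    · rw [if_neg h, if_neg h]

/-- `(x + y)₊² ≤ x₊² + 2 x₊ y + y²` -/
theorem s7c_pos_sq (x y : ℝ) :
    (max (x + y) 0) ^ 2 ≤ (max x 0) ^ 2 + 2 * (max x 0) * y + y ^ 2 := by
  rcases le_total 0 x with hx | hx
  · rw [max_eq_left hx]
    rcases le_total 0 (x + y) with h | h
    · rw [max_eq_left h]
      nlinarith
    · rw [max_eq_right h]
      nlinarith [sq_nonneg (x + y)]
  · rw [max_eq_right hx]
    rcases le_total 0 (x + y) with h | h
    · rw [max_eq_left h]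
      nlinarith
    · rw [max_eq_right h]
      nlinarith [sq_nonneg y]

theorem s7_gapAcc : StS7GapAcc := by
  intro ι _ _ R x b κ μ ν Δ Z' hR hb hκ hμ hν hZ hdrift hvar
  obtain ⟨xp, hxp⟩ : ∃ xp : ℝ, xp = max x 0 := ⟨_, rfl⟩
  have hxp0 : 0 ≤ xp := by rw [hxp]; exact le_max_right _ _
  have hb2 : 0 < b ^ 2 := by positivity
  have h1 : s7avg R Z' ≤ s7avg R (fun u v => (1 + xp ^ 2 / b ^ 2) +
      ((2 * xp / b ^ 2) * Δ u v + (1 / b ^ 2) * Δ u v ^ 2)) := by
    apply s7t_avg_mono hR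
    intro u hu v hv huv
    refine (hZ u hu v hv huv).trans ?_
    unfold excessZ
    rw [sub_zero, div_pow]
    have h2 := s7c_pos_sq x (Δ u v)
    rw [← hxp] at h2
    have h3 : max (x + Δ u v) 0 ^ 2 / b ^ 2 ≤ (xp ^ 2 + 2 * xp * Δ u v + Δ u v ^ 2) / b ^ 2 :=
      div_le_div_of_nonneg_right h2 hb2.le
    have h4 : (xp ^ 2 + 2 * xp * Δ u v + Δ u v ^ 2) / b ^ 2 =
        xp ^ 2 / b ^ 2 + ((2 * xp / b ^ 2) * Δ u v + (1 / b ^ 2) * Δ u v ^ 2) := by ring
    linarith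
  rw [s7t_avg_add R (fun _ _ => 1 + xp ^ 2 / b ^ 2)
      (fun u v => (2 * xp / b ^ 2) * Δ u v + (1 / b ^ 2) * Δ u v ^ 2), s7t_avg_const hR,
    s7t_avg_add R (fun u v => (2 * xp / b ^ 2) * Δ u v) (fun u v => (1 / b ^ 2) * Δ u v ^ 2),
    s7t_avg_smul, s7t_avg_smul] at h1
  have h2 : xp * s7avg R Δ ≤ xp * (κ * xp + μ) := by
    rcases lt_or_ge 0 x with hx | hx
    · have e : xp = x := by rw [hxp]; exact max_eq_left hx.le
      rw [e]
      exact mul_le_mul_of_nonneg_left (hdrift hx) hx.le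
    · have e : xp = 0 := by rw [hxp]; exact max_eq_right hx
      rw [e]
      simp
  unfold excessZ
  rw [sub_zero, ← hxp]
  obtain ⟨X, hX⟩ : ∃ X : ℝ, X = xp / b := ⟨_, rfl⟩
  obtain ⟨m, hm⟩ : ∃ m : ℝ, m = μ / b := ⟨_, rfl⟩
  obtain ⟨w, hw⟩ : ∃ w : ℝ, w = ν / b ^ 2 := ⟨_, rfl⟩
  have hX0 : 0 ≤ X := by rw [hX]; positivity
  have hm0 : 0 ≤ m := by rw [hm]; positivity
  have hw0 : 0 ≤ w := by rw [hw]; positivity
  have a1 : xp ^ 2 / b ^ 2 = X ^ 2 := by rw [hX, div_pow]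
  have a2 : 2 * xp / b ^ 2 * s7avg R Δ ≤ 2 * κ * X ^ 2 + 2 * m * X := by
    have e1 : 2 * xp / b ^ 2 * s7avg R Δ = 2 * (xp * s7avg R Δ) / b ^ 2 := by ring
    have e2 : 2 * κ * X ^ 2 + 2 * m * X = 2 * (xp * (κ * xp + μ)) / b ^ 2 := by
      rw [hX, hm]
      field_simp
    rw [e1, e2]
    exact div_le_div_of_nonneg_right (by linarith) hb2.le
  have a3 : 1 / b ^ 2 * s7avg R (fun u v => Δ u v ^ 2) ≤ w := by
    rw [hw, one_div_mul_eq_div]
    exact div_le_div_of_nonneg_right hvar hb2.le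
  rw [← hX, ← hm, ← hw]
  rw [a1] at h1
  nlinarith [mul_nonneg hm0 (sq_nonneg (1 - X)), mul_nonneg hw0 (sq_nonneg X)]

theorem s7_affAcc : StS7AffAcc := by
  intro ι _ _ R X S κ c X' hR hS hX hκ hc h
  have e : s7avg R (fun u v => 1 + X' u v / S) = 1 + s7avg R X' / S := by
    have e0 : (fun u v => 1 + X' u v / S) = fun u v => 1 + (1 / S) * X' u v := by
      funext u v
      ring
    rw [e0, s7t_avg_add R (fun _ _ => 1) (fun u v => (1 / S) * X' u v), s7t_avg_const hR,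
      s7t_avg_smul]
    ring
  rw [e]
  have h1 : s7avg R X' / S ≤ ((1 + κ) * X + c) / S := div_le_div_of_nonneg_right h hS.le
  have e2 : ((1 + κ) * X + c) / S = X / S + κ * (X / S) + c / S := by ring
  have hXS : 0 ≤ X / S := by positivity
  have hcS : 0 ≤ c / S := by positivity
  nlinarith [mul_nonneg hcS hXS]

theorem s7_sqAcc : StS7SqAcc := by
  intro ι _ _ R Y S2 e ν Δ hR hS he hν hdrift hvar
  have e1 : s7avg R (fun u v => 1 + (Y + Δ u v) ^ 2 / S2) =
      1 + Y ^ 2 / S2 + ((2 * Y / S2) * s7avg R Δ + (1 / S2) * s7avg R (fun u v => Δ u v ^ 2)) := by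
    have e0 : (fun u v => 1 + (Y + Δ u v) ^ 2 / S2) =
        fun u v => (1 + Y ^ 2 / S2) + ((2 * Y / S2) * Δ u v + (1 / S2) * Δ u v ^ 2) := by
      funext u v
      ring
    rw [e0, s7t_avg_add R (fun _ _ => 1 + Y ^ 2 / S2)
        (fun u v => (2 * Y / S2) * Δ u v + (1 / S2) * Δ u v ^ 2), s7t_avg_const hR,
      s7t_avg_add R (fun u v => (2 * Y / S2) * Δ u v) (fun u v => (1 / S2) * Δ u v ^ 2),
      s7t_avg_smul, s7t_avg_smul]
  rw [e1]
  obtain ⟨s, hs⟩ : ∃ s : ℝ, s = Real.sqrt S2 := ⟨_, rfl⟩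
  have hs0 : 0 < s := by rw [hs]; exact Real.sqrt_pos.2 hS
  have hs2 : s ^ 2 = S2 := by rw [hs]; exact Real.sq_sqrt hS.le
  rw [← hs]
  have h1 : (2 * Y / S2) * s7avg R Δ ≤ 2 * (|Y| * e) / S2 := by
    have e2 : (2 * Y / S2) * s7avg R Δ = 2 * (Y * s7avg R Δ) / S2 := by ring
    rw [e2]
    exact div_le_div_of_nonneg_right (by linarith) hS.le
  have h2 : (1 / S2) * s7avg R (fun u v => Δ u v ^ 2) ≤ ν / S2 := by
    rw [one_div_mul_eq_div]
    exact div_le_div_of_nonneg_right hvar hS.le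
  have h3 : 2 * (|Y| * e) / S2 ≤ e / s * (1 + Y ^ 2 / S2) := by
    rw [← hs2, ← sq_abs Y]
    have e3 : e / s * (1 + |Y| ^ 2 / s ^ 2) - 2 * (|Y| * e) / s ^ 2 =
        e / s * (1 - |Y| / s) ^ 2 := by
      field_simp
      ring
    have h4 : 0 ≤ e / s * (1 - |Y| / s) ^ 2 := by positivity
    linarith
  have h5 : 0 ≤ ν / S2 * (Y ^ 2 / S2) := by positivity
  nlinarith

end Claimed.Agent.R275
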