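import Claimed.Agent.R275.S7AccTools
import Claimed.Agent.R275.S7StepA
import Claimed.Agent.R275.L41B
import Claimed.Agent.R275.S43V

/-!
# Row 275, Section 7, leaf S7-ACC-ROWS (#3729): rows, contrasts, entries, flags

Proofs: helper255.  Prefix `s7ar_`.  Final theorems: `s7_avgCtr : StS7AvgCtr`, `s7_ctrRow : StS7CtrRow`,
`s7_tailId : StS7TailId`, `s7_ctrStep : StS7CtrStep`, `s7_flags : StS7Flags`.
-/

set_option autoImplicit false

namespace Claimed.Agent.R275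

open Matrix

/-! ## Abstract part -/

section Abs

variable {K : Type*} [Field K] {ι : Type*} [Fintype ι] [DecidableEq ι]

/-- `M (e_x - e_y)` -/
theorem s7ar_mulVec_ctr {μ : Type*} (M : Matrix μ ι K) (x y : ι) :
    M *ᵥ s7ctr K x y = fun s => M s x - M s y := by
  funext s
  simp only [Matrix.mulVec, dotProduct, s7ctr, mul_sub, Finset.sum_sub_distrib, mul_ite, mul_one, mul_zero,
    Finset.sum_ite_eq', Finset.mem_univ, if_true]

/-- `Π_R` fixes the contrasts of `R`. -/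
theorem s7ar_Pi_ctr {R : Finset ι} {x y : ι} (hx : x ∈ R) (hy : y ∈ R) :
    s7Pi K R *ᵥ s7ctr K x y = s7ctr K x y := by
  rw [s7ar_mulVec_ctr]
  funext s
  rw [s7a_Pi_apply_right hx, s7a_Pi_apply_right hy]
  simp only [s7ctr]
  ring

/-- `(Π_R sh)_u = sh_u - (∑_R sh)/|R|` for `u ∈ R`. -/
theorem s7ar_Pi_mulVec_apply {R : Finset ι} {u : ι} (hu : u ∈ R) (sh : ι → K) :
    (s7Pi K R *ᵥ sh) u = sh u - (∑ z ∈ R, sh z) / (R.card : K) := by
  simp only [Matrix.mulVec, dotProduct, s7a_Pi_apply_left hu, sub_mul, Finset.sum_sub_distrib, ite_mul, one_mul,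
    zero_mul, Finset.sum_ite_eq', Finset.mem_univ, if_true]
  congr 1
  rw [div_eq_inv_mul, Finset.mul_sum, ← Finset.sum_subset (Finset.subset_univ R)]
  · refine Finset.sum_congr rfl (fun z hz => ?_)
    simp [s7one, hz]
  · intro z _ hz
    simp [s7one, hz]

end Abs

/-- **S7-T12**. -/
theorem s7_tailId : StS7TailId := by
  intro K _ _ ι _ _ σ h R D r sh u v hu hv huv hR hsu hsv
  unfold s7rstep
  have hpv : s7pv (r + s7Pi K R *ᵥ sh) u v - (fun _ => (0 : K))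
      = s7pv r u v - fun _ => (∑ z ∈ R, sh z) / (R.card : K) := by
    funext k
    simp only [s7pv, Pi.sub_apply, Pi.add_apply, s7ar_Pi_mulVec_apply hu, s7ar_Pi_mulVec_apply hv, hsu, hsv]
    split_ifs <;> ring
  rw [hpv]
  have hre : ∀ X : ι → K, r + s7Pi K R *ᵥ sh - X = (r - X) + s7Pi K R *ᵥ sh := fun X => by abel
  rw [hre, Matrix.mulVec_add, Matrix.mulVec_mulVec, s7a_Pi_mul_Pi (s7a_sub_subset R u v)]

/-- **S7-T12b**. -/
theorem s7_ctrStep : StS7CtrStep := by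
  intro K _ _ ι _ _ σ h R D u v x y hx hy
  unfold s7Dstep s7rstep s7Dpre
  rw [← Matrix.mulVec_mulVec, s7ar_Pi_ctr hx hy, ← Matrix.mulVec_mulVec, Matrix.sub_mulVec, s7a_pv_eq]
  congr 2
  have h0 : ((s7I K u v)ᵀ *ᵥ D *ᵥ s7ctr K x y - fun _ => (0 : K)) = (s7I K u v)ᵀ *ᵥ D *ᵥ s7ctr K x y := by
    funext k; simp
  rw [h0, Matrix.mulVec_mulVec, Matrix.mulVec_mulVec]

/-! ## Pairings -/

section Pair

variable {n d : ℕ} (π : PPair n d)

theorem s7ar_mem_unres (x : Stub n d) : x ∈ π.unres ↔ π.Unres x := by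
  simp [PPair.unres]

variable (K : Type*) [Field K]

theorem s7ar_PiS_eq : π.PiS K = s7Pi K π.unres := by
  ext x y
  simp only [PPair.PiS, s7Pi, s7ar_mem_unres]
  rfl

variable {K}

/-- outer rows as matrix-vector products -/
theorem s7ar_orow_eq (X : Matrix (Fin n) (Fin n) K) (a : S7Out n d) :
    s7orow π X a = (π.Xi K)ᵀ *ᵥ (X *ᵥ a.vec K) := by
  have hrow : ∀ i, s7row π X i = (π.Xi K)ᵀ *ᵥ (X *ᵥ Pi.single i 1) := by
    intro i
    rw [Matrix.mulVec_single_one]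
    rfl
  rcases a with i | ⟨x, y⟩
  · exact hrow i
  · change s7row π X x.1 - s7row π X y.1 = (π.Xi K)ᵀ *ᵥ (X *ᵥ (Pi.single x.1 1 - Pi.single y.1 1))
    rw [Matrix.mulVec_sub, Matrix.mulVec_sub, hrow, hrow]

theorem s7ar_XiT_res (g : Fin n → K) {z : Stub n d} (hz : ¬ π.Unres z) : ((π.Xi K)ᵀ *ᵥ g) z = 0 := by
  simp only [Matrix.mulVec, dotProduct, Matrix.transpose_apply, PPair.Xi, hz, if_false, zero_mul,
    Finset.sum_const_zero]

variable [CharZero K]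

/-- `∑_{y ∈ S} g(v(y)) = ∑_w t_w g(w)` -/
theorem s7ar_sum_unres (g : Fin n → K) : ∑ y ∈ π.unres, g y.1 = ∑ w, (π.tcount w : K) * g w := by
  have h1 : ∀ y : Stub n d, g y.1 = ∑ w, (if y.1 = w then (1 : K) else 0) * g w := by
    intro y; simp
  simp only [h1]
  rw [Finset.sum_comm]
  refine Finset.sum_congr rfl (fun w _ => ?_)
  rw [← Finset.sum_mul, π.sum_unres_ite K w]

/-- `(Ξᵀ g)_z = g(v(z)) - l⁻¹ ∑_{y ∈ S} g(v(y))` -/
theorem s7ar_XiT_unres (g : Fin n → K) {z : Stub n d} (hz : π.Unres z) :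
    ((π.Xi K)ᵀ *ᵥ g) z = g z.1 - (π.l : K)⁻¹ * ∑ y ∈ π.unres, g y.1 := by
  rw [s7ar_sum_unres]
  simp only [Matrix.mulVec, dotProduct, Matrix.transpose_apply, PPair.Xi, hz, if_true, π.xi_apply K, sub_mul,
    Finset.sum_sub_distrib, ite_mul, one_mul, zero_mul, Finset.sum_ite_eq, Finset.mem_univ, Finset.mul_sum]
  congr 1
  refine Finset.sum_congr rfl (fun w _ => ?_)
  ring

theorem s7ar_l_ne {z : Stub n d} (hz : π.Unres z) : (π.l : K) ≠ 0 := by
  have : 0 < π.l := Finset.card_pos.2 ⟨z, (s7ar_mem_unres π z).2 hz⟩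
  exact Nat.cast_ne_zero.2 this.ne'

/-- `(Ξᵀ g)_z` as the average of the contrasts -/
theorem s7ar_XiT_avg (g : Fin n → K) {z : Stub n d} (hz : π.Unres z) :
    ((π.Xi K)ᵀ *ᵥ g) z = (π.l : K)⁻¹ * ∑ y ∈ π.unres, (S7Out.ctr z y : S7Out n d).vec K ⬝ᵥ g := by
  rw [s7ar_XiT_unres π g hz]
  have h1 : ∀ y : Stub n d, (S7Out.ctr z y : S7Out n d).vec K ⬝ᵥ g = g z.1 - g y.1 := by
    intro y
    change (Pi.single z.1 1 - Pi.single y.1 1 : Fin n → K) ⬝ᵥ g = _
    rw [sub_dotProduct, single_dotProduct, single_dotProduct, one_mul, one_mul]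
  simp only [h1, Finset.sum_sub_distrib, Finset.sum_const, nsmul_eq_mul]
  have e3 : ((π.unres.card : ℕ) : K) = (π.l : K) := rfl
  rw [e3, mul_sub, ← mul_assoc, inv_mul_cancel₀ (s7ar_l_ne π hz), one_mul]

/-- the column `ξ_z` as the average of the contrasts -/
theorem s7ar_Xi_col {z : Stub n d} (hz : π.Unres z) :
    (fun w => π.Xi K w z) = (π.l : K)⁻¹ • ∑ y ∈ π.unres, (S7Out.ctr z y : S7Out n d).vec K := by
  funext w
  have h := s7ar_XiT_avg π (Pi.single w (1 : K)) hz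
  have h2 : ((π.Xi K)ᵀ *ᵥ (Pi.single w (1 : K))) z = π.Xi K w z := by
    rw [Matrix.mulVec_single_one]; rfl
  rw [h2] at h
  rw [h, Pi.smul_apply, Finset.sum_apply, smul_eq_mul]
  congr 1
  refine Finset.sum_congr rfl (fun y _ => ?_)
  rw [dotProduct_single, mul_one]

/-- `Ξ (e_x - e_y) = e_{v(x)} - e_{v(y)}` -/
theorem s7ar_Xi_ctr {x y : Stub n d} (hx : π.Unres x) (hy : π.Unres y) :
    π.Xi K *ᵥ s7ctr K x y = (S7Out.ctr x y : S7Out n d).vec K := by
  rw [s7ar_mulVec_ctr]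
  funext w
  change _ = (Pi.single x.1 1 - Pi.single y.1 1 : Fin n → K) w
  simp only [PPair.Xi, hx, hy, if_true, π.xi_apply K, Pi.sub_apply, Pi.single_apply, eq_comm]
  ring

/-- `Π_S Ξᵀ = Ξᵀ` -/
theorem s7ar_PiS_XiT : π.PiS K * (π.Xi K)ᵀ = (π.Xi K)ᵀ := by
  ext y v
  rw [Matrix.mul_apply]
  by_cases hy : π.Unres y
  · have e1 : ∑ x, π.PiS K y x * (π.Xi K)ᵀ x v
        = ∑ x ∈ π.unres, ((if y = x then 1 else 0) - (π.l : K)⁻¹) * π.xi K x v := by
      rw [PPair.unres, Finset.sum_filter]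
      refine Finset.sum_congr rfl fun x _ => ?_
      simp only [PPair.Xi, PPair.PiS, Matrix.transpose_apply]
      by_cases hx : π.Unres x <;> simp [hx, hy]
    rw [e1]
    simp only [sub_mul, Finset.sum_sub_distrib, ← Finset.mul_sum]
    have e2 : ∑ x ∈ π.unres, π.xi K x v = 0 := by
      have := congrFun (π.sum_xi K) v
      rwa [Finset.sum_apply] at this
    rw [e2, mul_zero, sub_zero]
    simp only [ite_mul, one_mul, zero_mul]
    rw [Finset.sum_ite_eq π.unres y, if_pos ((s7ar_mem_unres π y).2 hy)]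
    simp [PPair.Xi, hy]
  · simp [PPair.Xi, PPair.PiS, hy]

theorem s7ar_PiS_sq : π.PiS K * π.PiS K = π.PiS K := by
  rw [s7ar_PiS_eq]
  exact s7a_Pi_mul_Pi (Finset.Subset.refl _)

theorem s7ar_PiS_Dof (X : Matrix (Fin n) (Fin n) K) : π.PiS K * s7Dof π X = s7Dof π X := by
  unfold s7Dof
  rw [Matrix.mul_sub, s7ar_PiS_sq, ← Matrix.mul_assoc, ← Matrix.mul_assoc, s7ar_PiS_XiT]

omit [CharZero K] in
theorem s7ar_Dof_transpose {X : Matrix (Fin n) (Fin n) K} (hX : Xᵀ = X) : (s7Dof π X)ᵀ = s7Dof π X := by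
  unfold s7Dof
  rw [Matrix.transpose_sub, Matrix.transpose_mul, Matrix.transpose_mul, Matrix.transpose_transpose, hX,
    s7ar_PiS_eq, s7a_Pi_transpose, Matrix.mul_assoc]

end Pair

/-- **S7-T11**. -/
theorem s7_ctrRow : StS7CtrRow := by
  intro n d π X
  refine ⟨?_, ?_, s7ar_PiS_eq π ℝ, ?_, fun hX => s7ar_Dof_transpose π hX⟩
  · intro x y hx hy
    rw [s7ar_orow_eq]
    unfold s7Dof
    rw [Matrix.sub_mulVec, s7ar_PiS_eq, s7ar_Pi_ctr ((s7ar_mem_unres π x).2 hx) ((s7ar_mem_unres π y).2 hy),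
      ← Matrix.mulVec_mulVec, ← Matrix.mulVec_mulVec, s7ar_Xi_ctr π hx hy]
    abel
  · intro a
    unfold S7Cent
    rw [s7ar_orow_eq, ← s7ar_PiS_eq, Matrix.mulVec_mulVec, s7ar_PiS_XiT]
  · rw [← s7ar_PiS_eq]
    exact s7ar_PiS_Dof π X

/-- **S7-T10**. -/
theorem s7_avgCtr : StS7AvgCtr := by
  intro n d π X X'
  refine ⟨?_, ?_, ?_, ?_, ?_⟩
  · intro a z hz
    rw [s7ar_orow_eq, s7ar_XiT_avg π _ hz]
    rfl
  · intro z z' hz hz'
    have h0 : ∀ Y : Matrix (Fin n) (Fin n) ℝ,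
        ((π.Xi ℝ)ᵀ * Y * π.Xi ℝ) z z' = ((π.Xi ℝ)ᵀ *ᵥ (Y *ᵥ fun w => π.Xi ℝ w z')) z := by
      intro Y
      rw [Matrix.mulVec_mulVec]
      rfl
    have h1 : s7Dof π X z z' - s7Dof π X' z z'
        = ((π.Xi ℝ)ᵀ *ᵥ ((X - X') *ᵥ fun w => π.Xi ℝ w z')) z := by
      unfold s7Dof
      rw [Matrix.sub_apply, Matrix.sub_apply, h0, h0, Matrix.sub_mulVec, Matrix.mulVec_sub, Pi.sub_apply]
      ring
    rw [h1, s7ar_XiT_avg π _ hz, s7ar_Xi_col π hz', Matrix.mulVec_smul, Matrix.mulVec_sum, sq, mul_assoc]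
    congr 1
    rw [Finset.mul_sum]
    refine Finset.sum_congr rfl (fun y _ => ?_)
    rw [dotProduct_smul, dotProduct_sum, smul_eq_mul]
    rfl
  · intro a z hz
    rw [s7ar_orow_eq]
    exact s7ar_XiT_res π _ hz
  · intro z z' hzz
    unfold s7Dof
    rw [Matrix.sub_apply]
    rcases hzz with hz | hz
    · have h1 : ((π.Xi ℝ)ᵀ * X * π.Xi ℝ) z z' = 0 := by
        rw [Matrix.mul_assoc, Matrix.mul_apply]
        refine Finset.sum_eq_zero (fun w _ => ?_)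
        simp [PPair.Xi, hz]
      rw [h1]
      simp [PPair.PiS, hz]
    · have h1 : ((π.Xi ℝ)ᵀ * X * π.Xi ℝ) z z' = 0 := by
        rw [Matrix.mul_apply]
        refine Finset.sum_eq_zero (fun w _ => ?_)
        simp [PPair.Xi, hz]
      rw [h1]
      simp [PPair.PiS, hz]
  · intro a z
    have h0 : (S7Out.ctr z z : S7Out n d).vec ℝ = 0 := by
      change (Pi.single z.1 1 - Pi.single z.1 1 : Fin n → ℝ) = 0
      exact sub_self _
    unfold s7ent
    rw [h0]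
    simp

/-- **S7-T14**. -/
theorem s7_flags : StS7Flags := by
  intro n d π₀ π t0 u v hu hv huv
  have h1 : ∀ x, (π.resolve u v).Unres x ↔ π.Unres x ∧ x ≠ u ∧ x ≠ v := by
    intro x
    rw [← s7ar_mem_unres, PPair.resolve_unres hu hv huv, Finset.mem_erase, Finset.mem_erase, s7ar_mem_unres]
    tauto
  refine ⟨h1, ?_, ?_⟩
  · intro i
    unfold s7removed
    constructor
    · rintro ⟨x, hx, hxu⟩
      rw [h1] at hxu
      by_cases hxr : π.Unres x
      · by_cases hxu' : x = u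
        · subst hxu'; exact Or.inr (Or.inl hx)
        · by_cases hxv' : x = v
          · subst hxv'; exact Or.inr (Or.inr hx)
          · exact absurd ⟨hxr, hxu', hxv'⟩ hxu
      · exact Or.inl ⟨x, hx, hxr⟩
    · rintro (⟨x, hx, hxr⟩ | hx | hx)
      · exact ⟨x, hx, fun h => hxr ((h1 x).1 h).1⟩
      · exact ⟨u, hx, fun h => ((h1 u).1 h).2.1 rfl⟩
      · exact ⟨v, hx, fun h => ((h1 v).1 h).2.2 rfl⟩
  · intro σ h i x hx
    unfold s7short
    by_cases hxr : π₀.Unres x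
    · rw [if_pos hxr]
      refine Finset.sum_eq_zero (fun k hk => ?_)
      have h2 : π₀.Nact ℚ k i x.1 = 0 := by
        by_contra hne
        exact hx ⟨hxr, k, Finset.mem_range.1 hk, hne⟩
      rw [← PPair.s43v_Nact_cast, h2]
      simp
    · rw [if_neg hxr]

end Claimed.Agent.R275
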