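import Claimed.Agent.R275.S7CoefB
import Claimed.Agent.R275.S7StepA
import Claimed.Agent.R275.S7Tools

/-!
# Row 275, Section 7, leaf S7-ROWSHIFT-EXC: the extra shift of a global tail and the exceptional row update (7.54)

Prover: helper102.  Prefix `s7rs_`.  Statements `StS7RowShift`, `StS7RowExc` in `R275/S7Step.lean` (helper245).
* shift: by `s7_rowId` for `k` and for `0`,
  `‖r'_k‖² - ‖r'_0‖² = 2k q(H, b - AB a₀, 1) - k q(M, 1, a₀) - k q(M, a₀, 1) + k² q(M, 1, 1)`, `M = H (K - ABA) H`.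
* exceptional: `Q Π e_s = 0`, `‖Q x‖ ≤ ‖x‖`, `‖D I z‖ ≤ (|z₀| + |z₁|) √G`, `|H_ab| ≤ 1`.
-/

set_option autoImplicit false
set_option linter.unusedSectionVars false
set_option linter.unusedVariables false

namespace Claimed.Agent.R275

open Matrix

/-! ## abstract `2 × 2` forms -/

theorem s7rs_q_le {N : Matrix (Fin 2) (Fin 2) ℝ} {c : ℝ} (hN : s7nb N c) (a b : Fin 2 → ℝ) :
    |s7q N a b| ≤ c * ((|a 0| + |a 1|) * (|b 0| + |b 1|)) := by
  have e : s7q N a b = N 0 0 * (a 0 * b 0) + N 0 1 * (a 0 * b 1) + N 1 0 * (a 1 * b 0)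
      + N 1 1 * (a 1 * b 1) := by
    simp only [s7q, dotProduct, Matrix.mulVec, Fin.sum_univ_two]
    ring
  have t : ∀ i j k m, |N i j * (a k * b m)| ≤ c * (|a k| * |b m|) := by
    intro i j k m
    rw [abs_mul, abs_mul]
    exact mul_le_mul_of_nonneg_right (hN i j) (by positivity)
  rw [e]
  have h1 := t 0 0 0 0
  have h2 := t 0 1 0 1
  have h3 := t 1 0 1 0
  have h4 := t 1 1 1 1
  have a1 := abs_add_le (N 0 0 * (a 0 * b 0) + N 0 1 * (a 0 * b 1) + N 1 0 * (a 1 * b 0))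
    (N 1 1 * (a 1 * b 1))
  have a2 := abs_add_le (N 0 0 * (a 0 * b 0) + N 0 1 * (a 0 * b 1)) (N 1 0 * (a 1 * b 0))
  have a3 := abs_add_le (N 0 0 * (a 0 * b 0)) (N 0 1 * (a 0 * b 1))
  linarith

theorem s7rs_mulVec_le {N : Matrix (Fin 2) (Fin 2) ℝ} {c : ℝ} (hN : s7nb N c) (a : Fin 2 → ℝ)
    (i : Fin 2) : |(N *ᵥ a) i| ≤ c * (|a 0| + |a 1|) := by
  have e : (N *ᵥ a) i = N i 0 * a 0 + N i 1 * a 1 := by
    simp only [dotProduct, Matrix.mulVec, Fin.sum_univ_two]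
  rw [e]
  have h1 : |N i 0 * a 0| ≤ c * |a 0| := by
    rw [abs_mul]; exact mul_le_mul_of_nonneg_right (hN i 0) (abs_nonneg _)
  have h2 : |N i 1 * a 1| ≤ c * |a 1| := by
    rw [abs_mul]; exact mul_le_mul_of_nonneg_right (hN i 1) (abs_nonneg _)
  have := abs_add_le (N i 0 * a 0) (N i 1 * a 1)
  linarith

/-- the algebraic difference of the two instances of (7.51) -/
theorem s7rs_diff (H M : Matrix (Fin 2) (Fin 2) ℝ) (w a0 : Fin 2 → ℝ) (k : ℝ) :
    (-2 * s7q H w (a0 - fun _ => k) + s7q M (a0 - fun _ => k) (a0 - fun _ => k))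
      - (-2 * s7q H w (a0 - fun _ => 0) + s7q M (a0 - fun _ => 0) (a0 - fun _ => 0))
      = k * (2 * s7q H w (fun _ => 1) - s7q M (fun _ => 1) a0 - s7q M a0 (fun _ => 1))
        + k ^ 2 * s7q M (fun _ => 1) (fun _ => 1) := by
  simp only [s7q, dotProduct, Matrix.mulVec, Fin.sum_univ_two, Pi.sub_apply]
  ring

/-- abstract pointwise bound of the difference -/
theorem s7rs_abs {H M AB : Matrix (Fin 2) (Fin 2) ℝ} {c m : ℝ} (hH : s7nb H c) (hM : s7nb M m)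
    (hAB : s7nb AB 4) (b a0 : Fin 2 → ℝ) (k : ℝ) :
    |k * (2 * s7q H (b - AB *ᵥ a0) (fun _ => 1) - s7q M (fun _ => 1) a0 - s7q M a0 (fun _ => 1))
        + k ^ 2 * s7q M (fun _ => 1) (fun _ => 1)|
      ≤ (32 * c + 4 * m) * (|k| * (|b 0| + |b 1| + |a0 0| + |a0 1|) + k ^ 2) := by
  have hc := hH.nonneg
  have hm := hM.nonneg
  have q1 := s7rs_q_le hH (b - AB *ᵥ a0) (fun _ => 1)
  have q2 := s7rs_q_le hM (fun _ => 1) a0
  have q3 := s7rs_q_le hM a0 (fun _ => 1)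
  have q4 := s7rs_q_le hM (fun _ => 1) (fun _ => 1)
  simp only [abs_one, Pi.sub_apply] at q1 q2 q3 q4
  have w0 : |b 0 - (AB *ᵥ a0) 0| ≤ |b 0| + 4 * (|a0 0| + |a0 1|) :=
    (abs_sub _ _).trans (add_le_add le_rfl (s7rs_mulVec_le hAB a0 0))
  have w1 : |b 1 - (AB *ᵥ a0) 1| ≤ |b 1| + 4 * (|a0 0| + |a0 1|) :=
    (abs_sub _ _).trans (add_le_add le_rfl (s7rs_mulVec_le hAB a0 1))
  set S := |b 0| + |b 1| + |a0 0| + |a0 1| with hS
  have hb0 := abs_nonneg (b 0)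
  have hb1 := abs_nonneg (b 1)
  have ha0 := abs_nonneg (a0 0)
  have ha1 := abs_nonneg (a0 1)
  have hS0 : 0 ≤ S := by positivity
  have q1' : |s7q H (b - AB *ᵥ a0) (fun _ => 1)| ≤ c * (16 * S) := by
    refine q1.trans (mul_le_mul_of_nonneg_left ?_ hc)
    linarith
  have q2' : |s7q M (fun _ => 1) a0| ≤ m * (2 * S) := by
    refine q2.trans (mul_le_mul_of_nonneg_left ?_ hm)
    linarith
  have q3' : |s7q M a0 (fun _ => 1)| ≤ m * (2 * S) := by
    refine q3.trans (mul_le_mul_of_nonneg_left ?_ hm)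
    linarith
  have t1 : |2 * s7q H (b - AB *ᵥ a0) (fun _ => 1) - s7q M (fun _ => 1) a0
      - s7q M a0 (fun _ => 1)| ≤ (32 * c + 4 * m) * S := by
    have e1 := abs_sub (2 * s7q H (b - AB *ᵥ a0) (fun _ => 1) - s7q M (fun _ => 1) a0)
      (s7q M a0 (fun _ => 1))
    have e2 := abs_sub (2 * s7q H (b - AB *ᵥ a0) (fun _ => 1)) (s7q M (fun _ => 1) a0)
    have e3 : |2 * s7q H (b - AB *ᵥ a0) (fun _ => 1)| = 2 * |s7q H (b - AB *ᵥ a0) (fun _ => 1)| := by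
      rw [abs_mul]; norm_num
    linarith
  have t2 : |k * (2 * s7q H (b - AB *ᵥ a0) (fun _ => 1) - s7q M (fun _ => 1) a0
      - s7q M a0 (fun _ => 1))| ≤ |k| * ((32 * c + 4 * m) * S) := by
    rw [abs_mul]; exact mul_le_mul_of_nonneg_left t1 (abs_nonneg _)
  have t3 : |k ^ 2 * s7q M (fun _ => 1) (fun _ => 1)| ≤ k ^ 2 * (4 * m) := by
    rw [abs_mul, abs_of_nonneg (sq_nonneg k)]
    refine mul_le_mul_of_nonneg_left ?_ (sq_nonneg k)
    linarith
  have t4 : 0 ≤ c * k ^ 2 := by positivity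
  refine (abs_add_le _ _).trans ?_
  linarith

/-! ## the shift: pointwise -/

section Shift

variable {ι : Type} [Fintype ι] [DecidableEq ι]

theorem s7rs_nb_blk {M : Matrix ι ι ℝ} {c : ℝ} (hM : ∀ x y, |M x y| ≤ c) (u v : ι) :
    s7nb (s7blk M u v) c := fun _ _ => hM _ _

/-- pointwise bound of the effect of the shift -/
theorem s7rs_point (σ h ε : ℝ) (R : Finset ι) (D : Matrix ι ι ℝ) (r : ι → ℝ) (k C0 C1 : ℝ)
    (hs : Dᵀ = D) (hc : s7Pi ℝ R * D = D) (hrow : ∀ x, (D * D) x x ≤ C0)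
    (hent : ∀ x y, |D x y| ≤ ε) (hε1 : ε ≤ 1) (hl : 3 ≤ R.card) (hr : S7Cent R r) (u v : ι)
    (hu : u ∈ R) (hv : v ∈ R) (huv : u ≠ v) (hH : s7nb (s7H R.card σ h D u v) C1)
    (hHs : (s7H R.card σ h D u v)ᵀ = s7H R.card σ h D u v) :
    |s7sq (s7rstep σ h R D r k u v) - s7sq (s7rstep σ h R D r 0 u v)|
      ≤ (32 * C1 + 4 * (2 * (2 * C1 * (C0 + 2 * 4 * 1)) * C1))
        * (|k| * (|(D *ᵥ r) u| + |(D *ᵥ r) v| + |r u| + |r v|) + k ^ 2) := by
  have idk := s7_rowId ℝ ι σ h R D r k u v hu hv huv (by omega) hs hc hr hHs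
  have id0 := s7_rowId ℝ ι σ h R D r 0 u v hu hv huv (by omega) hs hc hr hHs
  simp only [] at idk id0
  have nA : s7nb (s7blk D u v) 1 := s7rs_nb_blk (fun x y => (hent x y).trans hε1) u v
  have nK : s7nb (s7blk (D * D) u v) C0 := by
    refine s7rs_nb_blk (fun x y => (s7t_sq_offdiag hs x y).trans ?_) u v
    have := hrow x
    have := hrow y
    linarith
  have nAB : s7nb (s7blk D u v * B2 ℝ R.card) 4 := by
    have := nA.mul (s7t_nb_B2 hl)
    norm_num at this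
    exact this
  have nM := (hH.mul (nK.sub (nAB.mul nA))).mul hH
  have key := s7rs_abs hH nM nAB (s7pv (D *ᵥ r) u v) (s7pv r u v) k
  have dd := s7rs_diff (s7H R.card σ h D u v)
    (s7H R.card σ h D u v * (s7blk (D * D) u v - s7blk D u v * B2 ℝ R.card * s7blk D u v)
      * s7H R.card σ h D u v)
    (s7pv (D *ᵥ r) u v - (s7blk D u v * B2 ℝ R.card) *ᵥ s7pv r u v) (s7pv r u v) k
  have e : s7sq (s7rstep σ h R D r k u v) - s7sq (s7rstep σ h R D r 0 u v)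
      = k * (2 * s7q (s7H R.card σ h D u v)
            (s7pv (D *ᵥ r) u v - (s7blk D u v * B2 ℝ R.card) *ᵥ s7pv r u v) (fun _ => 1)
          - s7q (s7H R.card σ h D u v
              * (s7blk (D * D) u v - s7blk D u v * B2 ℝ R.card * s7blk D u v)
              * s7H R.card σ h D u v) (fun _ => 1) (s7pv r u v)
          - s7q (s7H R.card σ h D u v
              * (s7blk (D * D) u v - s7blk D u v * B2 ℝ R.card * s7blk D u v)
              * s7H R.card σ h D u v) (s7pv r u v) (fun _ => 1))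
        + k ^ 2 * s7q (s7H R.card σ h D u v
              * (s7blk (D * D) u v - s7blk D u v * B2 ℝ R.card * s7blk D u v)
              * s7H R.card σ h D u v) (fun _ => 1) (fun _ => 1) := by
    rw [← dd]
    linarith
  rw [e]
  exact key

/-- `|(D r)_x| ≤ √(G ‖r‖²)` -/
theorem s7rs_Dr_le {D : Matrix ι ι ℝ} {G : ℝ} (hs : Dᵀ = D) (hG : ∀ x, (D * D) x x ≤ G)
    (r : ι → ℝ) (x : ι) : |(D *ᵥ r) x| ≤ Real.sqrt (G * s7sq r) := by
  have h0 : 0 ≤ G := (s7t_sq_diag_nonneg hs x).trans (hG x)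
  have h1 : |D x ⬝ᵥ r| ≤ Real.sqrt (s7sq (D x)) * Real.sqrt (s7sq r) := s7t_cs (D x) r
  rw [s7t_sq_row hs] at h1
  rw [Real.sqrt_mul h0]
  exact h1.trans (mul_le_mul_of_nonneg_right (Real.sqrt_le_sqrt (hG x)) (Real.sqrt_nonneg _))

/-- average of `|x_u|` over an allowed set -/
theorem s7rs_avg_abs {R I : Finset ι} (hall : S7Allowed R I) (hl : 8 ≤ R.card) (x : ι → ℝ) :
    (∑ u ∈ I, |x u|) / I.card ≤ 2 * Real.sqrt (s7sq x / R.card) := by
  have hI : R.card ≤ I.card + 4 := hall.2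
  have hn4 : 4 ≤ I.card := by omega
  have hn : (4 : ℝ) ≤ I.card := by exact_mod_cast hn4
  have hL : (R.card : ℝ) ≤ I.card + 4 := by exact_mod_cast hI
  have hL8 : (8 : ℝ) ≤ R.card := by exact_mod_cast hl
  have hn0 : (0 : ℝ) < I.card := by linarith
  have hL0 : (0 : ℝ) < R.card := by linarith
  have hx0 := s7t_sq_nonneg x
  have c1 : (∑ u ∈ I, |x u|) ^ 2 ≤ I.card * ∑ u ∈ I, |x u| ^ 2 := sq_sum_le_card_mul_sum_sq
  have c2 : ∑ u ∈ I, |x u| ^ 2 ≤ s7sq x := by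
    unfold s7sq dotProduct
    refine (Finset.sum_le_sum_of_subset_of_nonneg (Finset.subset_univ I)
      (fun i _ _ => sq_nonneg _)).trans (le_of_eq (Finset.sum_congr rfl (fun i _ => ?_)))
    rw [sq_abs]; ring
  have e : 2 * Real.sqrt (s7sq x / R.card) = Real.sqrt (4 * (s7sq x / R.card)) := by
    rw [Real.sqrt_mul (by norm_num), show (4 : ℝ) = 2 ^ 2 by norm_num,
      Real.sqrt_sq (by norm_num)]
  rw [e]
  refine Real.le_sqrt_of_sq_le ?_
  rw [div_pow, div_le_iff₀ (by positivity)]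
  have c3 : (I.card : ℝ) * ∑ u ∈ I, |x u| ^ 2 ≤ I.card * s7sq x :=
    mul_le_mul_of_nonneg_left c2 hn0.le
  have c4 : (I.card : ℝ) * s7sq x ≤ 4 * (s7sq x / R.card) * (I.card : ℝ) ^ 2 := by
    have : 4 * (s7sq x / R.card) * (I.card : ℝ) ^ 2
        = (I.card : ℝ) * s7sq x * (4 * I.card / R.card) := by
      field_simp
    rw [this]
    have h1 : 1 ≤ 4 * (I.card : ℝ) / R.card := by
      rw [le_div_iff₀ hL0]; linarith
    have := mul_le_mul_of_nonneg_left h1 (by positivity : 0 ≤ (I.card : ℝ) * s7sq x)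
    linarith
  linarith

/-- the averaged linear form -/
theorem s7rs_avg_lin {R I : Finset ι} (hall : S7Allowed R I) (hl : 8 ≤ R.card) {D : Matrix ι ι ℝ}
    {Z : ℝ} (hZ : s7opLE D Z) (r : ι → ℝ) :
    s7avg I (fun u v => |(D *ᵥ r) u| + |(D *ᵥ r) v| + |r u| + |r v|)
      ≤ 4 * ((Z + 1) * Real.sqrt (s7sq r / R.card)) := by
  have hI : R.card ≤ I.card + 4 := hall.2
  have hI2 : 2 ≤ I.card := by omega
  have hL8 : (8 : ℝ) ≤ R.card := by exact_mod_cast hl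
  have hL0 : (0 : ℝ) < R.card := by linarith
  have e : s7avg I (fun u v => |(D *ᵥ r) u| + |(D *ᵥ r) v| + |r u| + |r v|)
      = s7avg I (fun u _ => |(D *ᵥ r) u|) + s7avg I (fun _ v => |(D *ᵥ r) v|)
        + s7avg I (fun u _ => |r u|) + s7avg I (fun _ v => |r v|) := by
    rw [← s7t_avg_add, ← s7t_avg_add, ← s7t_avg_add]
  rw [e, s7t_avg_fst hI2, s7t_avg_snd hI2, s7t_avg_fst hI2, s7t_avg_snd hI2]
  have a1 := s7rs_avg_abs hall hl (D *ᵥ r)
  have a2 := s7rs_avg_abs hall hl r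
  have a3 : Real.sqrt (s7sq (D *ᵥ r) / R.card) ≤ Z * Real.sqrt (s7sq r / R.card) := by
    have h1 : s7sq (D *ᵥ r) / R.card ≤ Z ^ 2 * (s7sq r / R.card) := by
      rw [← mul_div_assoc]
      exact div_le_div_of_nonneg_right (hZ.2 r) hL0.le
    have h2 := Real.sqrt_le_sqrt h1
    rwa [Real.sqrt_mul (sq_nonneg _), Real.sqrt_sq hZ.1] at h2
  linarith

end Shift

/-- **S7-STEP-15** the extra shift of a global tail. -/
theorem s7_rowShift : StS7RowShift := by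
  intro hmin C0 hhmin hC0
  obtain ⟨C1, ε1, l1, hC1, hε1, hP⟩ := s7_coefPt hmin C0 hhmin hC0
  set K := 32 * C1 + 4 * (2 * (2 * C1 * (C0 + 2 * 4 * 1)) * C1) with hK
  have hK0 : 0 < K := by positivity
  refine ⟨4 * K, min ε1 1, max l1 8, by positivity, lt_min hε1 one_pos, ?_⟩
  intro ι _ _ σ h ε R D hbase hε hl I r Z G εr k hall hr hZ hG hrε hεr hk
  have hεa : ε ≤ ε1 := hε.trans (min_le_left _ _)
  have hεc : ε ≤ 1 := hε.trans (min_le_right _ _)
  have hla : l1 ≤ R.card := le_trans (le_max_left _ _) hl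
  have hl8 : 8 ≤ R.card := le_trans (le_max_right _ _) hl
  have hs := hbase.symm
  have hI : R.card ≤ I.card + 4 := hall.2
  have hI2 : 2 ≤ I.card := by omega
  have hpt : ∀ u ∈ R, ∀ v ∈ R, u ≠ v →
      |s7sq (s7rstep σ h R D r k u v) - s7sq (s7rstep σ h R D r 0 u v)|
      ≤ K * (|k| * (|(D *ᵥ r) u| + |(D *ᵥ r) v| + |r u| + |r v|) + k ^ 2) := by
    intro u hu v hv huv
    have q := hP ι σ h ε R D hbase hεa hla u hu v hv huv
    exact s7rs_point σ h ε R D r k C0 C1 hs hbase.cent hbase.row hbase.ent hεc (by omega) hr u v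
      hu hv huv q.2.1 q.2.2.1
  constructor
  · have step1 : s7avg I (fun u v =>
        |s7sq (s7rstep σ h R D r k u v) - s7sq (s7rstep σ h R D r 0 u v)|)
        ≤ s7avg I (fun u v => (K * |k|) * (|(D *ᵥ r) u| + |(D *ᵥ r) v| + |r u| + |r v|)
          + K * k ^ 2) := by
      refine s7t_avg_mono hI2 (fun u hu v hv huv => ?_)
      have := hpt u (hall.1 hu) v (hall.1 hv) huv
      linarith
    refine step1.trans ?_
    rw [s7t_avg_add, s7t_avg_smul, s7t_avg_const hI2]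
    have a := s7rs_avg_lin hall hl8 hZ r
    have b := mul_le_mul_of_nonneg_left a (by positivity : 0 ≤ K * |k|)
    have c : 0 ≤ K * k ^ 2 := by positivity
    linarith
  · intro u hu v hv huv
    refine (hpt u hu v hv huv).trans ?_
    have b1 := s7rs_Dr_le hs hG r u
    have b2 := s7rs_Dr_le hs hG r v
    have b3 := hrε u
    have b4 := hrε v
    have b5 : |k| * (|(D *ᵥ r) u| + |(D *ᵥ r) v| + |r u| + |r v|)
        ≤ |k| * (2 * (Real.sqrt (G * s7sq r) + εr)) :=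
      mul_le_mul_of_nonneg_left (by linarith) (abs_nonneg _)
    have b6 := mul_le_mul_of_nonneg_left b5 hK0.le
    have b7 : 0 ≤ K * k ^ 2 := by positivity
    have b8 : 0 ≤ εr := (abs_nonneg _).trans b3
    have b9 : 0 ≤ K * (|k| * (Real.sqrt (G * s7sq r) + εr)) := by positivity
    linarith

/-! ## the exceptional update -/

section Exc

variable {ι : Type} [Fintype ι] [DecidableEq ι]

theorem s7rs_nrm_add (a b : ι → ℝ) :
    Real.sqrt (s7sq (a + b)) ≤ Real.sqrt (s7sq a) + Real.sqrt (s7sq b) := by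
  have h := (le_abs_self _).trans (s7t_cs a b)
  rw [Real.sqrt_le_iff]
  refine ⟨by positivity, ?_⟩
  have e : s7sq (a + b) = s7sq a + 2 * (a ⬝ᵥ b) + s7sq b := by
    unfold s7sq
    rw [add_dotProduct, dotProduct_add, dotProduct_add, dotProduct_comm b a]
    ring
  have e2 : (Real.sqrt (s7sq a) + Real.sqrt (s7sq b)) ^ 2
      = s7sq a + 2 * (Real.sqrt (s7sq a) * Real.sqrt (s7sq b)) + s7sq b := by
    have h1 := Real.sq_sqrt (s7t_sq_nonneg a)
    have h2 := Real.sq_sqrt (s7t_sq_nonneg b)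
    linear_combination h1 + h2
  rw [e, e2]
  linarith

theorem s7rs_nrm_smul (c : ℝ) (a : ι → ℝ) :
    Real.sqrt (s7sq (c • a)) = |c| * Real.sqrt (s7sq a) := by
  have e : s7sq (c • a) = c ^ 2 * s7sq a := by
    unfold s7sq
    rw [smul_dotProduct, dotProduct_smul, smul_eq_mul, smul_eq_mul]
    ring
  rw [e, Real.sqrt_mul (sq_nonneg c), Real.sqrt_sq_eq_abs]

theorem s7rs_nrm_neg (a : ι → ℝ) : Real.sqrt (s7sq (-a)) = Real.sqrt (s7sq a) := by
  unfold s7sq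
  rw [neg_dotProduct_neg]

theorem s7rs_nrm_proj {Q : Matrix ι ι ℝ} (hQT : Qᵀ = Q) (hQQ : Q * Q = Q) (x : ι → ℝ) :
    Real.sqrt (s7sq (Q *ᵥ x)) ≤ Real.sqrt (s7sq x) := by
  have e : s7sq (Q *ᵥ x) = x ⬝ᵥ (Q *ᵥ x) := by
    unfold s7sq
    conv_rhs => rw [← hQQ, ← Matrix.mulVec_mulVec, s7a_dot_mulVec, hQT]
  have h := (le_abs_self _).trans (s7t_cs x (Q *ᵥ x))
  rw [← e] at h
  have h1 := Real.sq_sqrt (s7t_sq_nonneg (Q *ᵥ x))
  have h0 := Real.sqrt_nonneg (s7sq (Q *ᵥ x))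
  rcases h0.eq_or_lt with h2 | h2
  · rw [← h2]; exact Real.sqrt_nonneg _
  · have h3 : Real.sqrt (s7sq (Q *ᵥ x)) * Real.sqrt (s7sq (Q *ᵥ x))
        ≤ Real.sqrt (s7sq x) * Real.sqrt (s7sq (Q *ᵥ x)) := by
      calc _ = s7sq (Q *ᵥ x) := by rw [← sq]; exact h1
        _ ≤ _ := h
    exact le_of_mul_le_mul_right h3 h2

/-- `Q Π e_s = 0` for a selected point `s` -/
theorem s7rs_Q_col (R : Finset ι) (u v s : ι) (hs : s = u ∨ s = v) :
    s7Pi ℝ (s7sub R u v) *ᵥ (fun x => s7Pi ℝ R x s) = 0 := by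
  have hn : s ∉ s7sub R u v := by
    rcases hs with e | e
    · rw [e]; exact s7a_u_notMem R u v
    · rw [e]; exact s7a_v_notMem R u v
  ext x
  have e : (s7Pi ℝ (s7sub R u v) *ᵥ (fun x => s7Pi ℝ R x s)) x
      = (s7Pi ℝ (s7sub R u v) * s7Pi ℝ R) x s := by
    rw [Matrix.mul_apply]; rfl
  rw [e, s7a_Pi_mul_Pi (s7a_sub_subset R u v)]
  simp [s7Pi, hn]

/-- `‖D I z‖ ≤ (|z₀| + |z₁|) √G` -/
theorem s7rs_DI_le {D : Matrix ι ι ℝ} {G : ℝ} (hs : Dᵀ = D) (hG : ∀ x, (D * D) x x ≤ G) (u v : ι)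
    (z : Fin 2 → ℝ) :
    Real.sqrt (s7sq ((D * s7I ℝ u v) *ᵥ z)) ≤ (|z 0| + |z 1|) * Real.sqrt G := by
  have e : (D * s7I ℝ u v) *ᵥ z = z 0 • D u + z 1 • D v := by
    ext x
    simp only [Matrix.mulVec, dotProduct, Fin.sum_univ_two, s7a_mul_I, Pi.add_apply, Pi.smul_apply,
      smul_eq_mul]
    rw [s7t_symm_apply hs x, s7t_symm_apply hs x]
    simp
    ring
  rw [e]
  refine (s7rs_nrm_add _ _).trans ?_
  rw [s7rs_nrm_smul, s7rs_nrm_smul, s7t_sq_row hs, s7t_sq_row hs]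
  have h1 := mul_le_mul_of_nonneg_left (Real.sqrt_le_sqrt (hG u)) (abs_nonneg (z 0))
  have h2 := mul_le_mul_of_nonneg_left (Real.sqrt_le_sqrt (hG v)) (abs_nonneg (z 1))
  linarith

/-- the two selected entries of the column `Π e_s` -/
theorem s7rs_Pi_two {R : Finset ι} {u v s : ι} (hu : u ∈ R) (hv : v ∈ R) (huv : u ≠ v)
    (hs : s = u ∨ s = v) : |s7Pi ℝ R u s| + |s7Pi ℝ R v s| ≤ 1 := by
  have hc : 1 ≤ R.card := Finset.card_pos.mpr ⟨u, hu⟩
  have hc1 : (1 : ℝ) ≤ R.card := by exact_mod_cast hc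
  have hi0 : 0 ≤ (R.card : ℝ)⁻¹ := by positivity
  have hi1 : (R.card : ℝ)⁻¹ ≤ 1 := inv_le_one_of_one_le₀ hc1
  rcases hs with e | e
  · subst e
    have e1 : s7Pi ℝ R s s = 1 - (R.card : ℝ)⁻¹ := by simp [s7Pi, hu]
    have e2 : s7Pi ℝ R v s = -(R.card : ℝ)⁻¹ := by simp [s7Pi, hu, hv, huv.symm]
    rw [e1, e2, abs_neg, abs_of_nonneg hi0, abs_of_nonneg (by linarith)]
    linarith
  · subst e
    have e1 : s7Pi ℝ R s s = 1 - (R.card : ℝ)⁻¹ := by simp [s7Pi, hv]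
    have e2 : s7Pi ℝ R u s = -(R.card : ℝ)⁻¹ := by simp [s7Pi, hu, hv, huv]
    rw [e1, e2, abs_neg, abs_of_nonneg hi0, abs_of_nonneg (by linarith)]
    linarith

end Exc

/-- **S7-STEP-16** (7.54) with the explicit constant `5`. -/
theorem s7_rowExc : StS7RowExc := by
  intro hmin C0 hhmin hC0
  obtain ⟨C1, ε1, l1, hC1, hε1, hP⟩ := s7_coefOne hmin C0 hhmin hC0
  refine ⟨C1, ε1, l1, hC1, hε1, ?_⟩
  intro ι _ _ σ h ε R D hbase hε hl r G εr c s hr hG hrε hεr hc u hu v hv huv hsuv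
  have hs := hbase.symm
  have hH : s7nb (s7H R.card σ h D u v) 1 := hP ι σ h ε R D hbase hε hl u hu v hv huv
  have hQT := s7a_Pi_transpose (K := ℝ) (s7sub R u v)
  have hQQ := s7a_Pi_mul_Pi (K := ℝ) (Finset.Subset.refl (s7sub R u v))
  set w : ι → ℝ := r + c • fun x => s7Pi ℝ R x s with hw
  set y : Fin 2 → ℝ := s7pv w u v - fun _ => 0 with hy
  set z : Fin 2 → ℝ := s7H R.card σ h D u v *ᵥ y with hz
  have e : s7rstep σ h R D w 0 u v
      = s7Pi ℝ (s7sub R u v) *ᵥ r + -(s7Pi ℝ (s7sub R u v) *ᵥ ((D * s7I ℝ u v) *ᵥ z)) := by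
    unfold s7rstep
    rw [Matrix.mulVec_sub, ← Matrix.mulVec_mulVec, hw, Matrix.mulVec_add, Matrix.mulVec_smul,
      s7rs_Q_col R u v s hsuv, smul_zero, add_zero, sub_eq_add_neg]
  rw [e]
  refine (s7rs_nrm_add _ _).trans ?_
  rw [s7rs_nrm_neg]
  have n1 := s7rs_nrm_proj hQT hQQ r
  have n2 := (s7rs_nrm_proj hQT hQQ ((D * s7I ℝ u v) *ᵥ z)).trans (s7rs_DI_le hs hG u v z)
  have z0 := s7rs_mulVec_le hH y 0
  have z1 := s7rs_mulVec_le hH y 1
  have y0 : |y 0| ≤ εr + |c| * |s7Pi ℝ R u s| := by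
    have : y 0 = r u + c * s7Pi ℝ R u s := by
      simp [hy, hw, s7pv]
    rw [this, ← abs_mul]
    exact (abs_add_le _ _).trans (add_le_add (hrε u) le_rfl)
  have y1 : |y 1| ≤ εr + |c| * |s7Pi ℝ R v s| := by
    have : y 1 = r v + c * s7Pi ℝ R v s := by
      simp [hy, hw, s7pv]
    rw [this, ← abs_mul]
    exact (abs_add_le _ _).trans (add_le_add (hrε v) le_rfl)
  have p2 := s7rs_Pi_two hu hv huv hsuv
  have p3 : |c| * (|s7Pi ℝ R u s| + |s7Pi ℝ R v s|) ≤ 1 * 1 :=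
    mul_le_mul hc p2 (by positivity) (by norm_num)
  have zz : |z 0| + |z 1| ≤ 5 := by linarith
  have fin := mul_le_mul_of_nonneg_right zz (Real.sqrt_nonneg G)
  linarith

end Claimed.Agent.R275
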