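import Claimed.Agent.R275.S7AStepCrow
import Claimed.Agent.R275.S7RowShift
import Claimed.Agent.R275.S7AccRows
import Claimed.Agent.R275.S7AccCalc

/-!
# Row 275, Section 7, leaf S7-A-STEP-GROW: the one-step estimate of Phase A for the global tails

Prover: helper74.  Statement `StS7AStepGrow` in `R275/S7PhaseA.lean` (helper245).  Helper prefix `s7gw_`.
Built on `S7AStepCrow.lean` (helper76): `S7acNum`, `S7acSt`, `s7ac_layer`, `s7ac_jump` treat the homogeneous part.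

* Section A (both phases): `s7gw_tail_ord` (ordinary event: `r' = s7rstep r k u v`, `k = (sum_R sh)/l`), `s7gw_tail_exc` (the short endpoint
  `s` is selected: `r' = s7rstep (r + sh(s) Pi_R e_s) 0 u v`), `s7gw_sum_le_one` (`|sum_R sh| <= 1`), `s7gw_allowed`.
* Sections B, C: the shift in real arithmetic (`s7gw_shift_mean`, `s7gw_shift_pt`, `s7gw_shift_sq`), exceptional event (`s7gw_exc`),
  averages of the normalised increment (`s7gw_layer`).
* Section D: numerics (`s7gw_num1` = `s7ac_num` for an arbitrary threshold constant, `s7gw_num2`).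
-/

set_option autoImplicit false
set_option linter.unusedSectionVars false
set_option linter.unusedVariables false

namespace Claimed.Agent.R275

open Matrix

/-! ## A. The update of a global tail (pairings; used in both phases) -/

section Tail

variable {ι : Type*} [Fintype ι] [DecidableEq ι]

/-- an array supported at one coordinate `s`: `Π_R sh = sh(s) Π_R e_s` -/
theorem s7gw_Pi_single (R : Finset ι) (sh : ι → ℝ) (s : ι) (hs : ∀ x, x ≠ s → sh x = 0) :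
    s7Pi ℝ R *ᵥ sh = sh s • fun x => s7Pi ℝ R x s := by
  funext x
  simp only [Matrix.mulVec, dotProduct, Pi.smul_apply, smul_eq_mul]
  rw [Finset.sum_eq_single s]
  · ring
  · intro y _ hy
    rw [hs y hy, mul_zero]
  · intro h
    exact absurd (Finset.mem_univ s) h

/-- `Π_R` kills an array supported at a coordinate outside `R` -/
theorem s7gw_Pi_single_zero (R : Finset ι) (sh : ι → ℝ) (s : ι) (hs : ∀ x, x ≠ s → sh x = 0)
    (hsR : s ∉ R) : s7Pi ℝ R *ᵥ sh = 0 := by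
  rw [s7gw_Pi_single R sh s hs]
  funext x
  simp only [Pi.smul_apply, smul_eq_mul, Pi.zero_apply, s7Pi]
  rw [if_neg (fun h => hsR h.2), mul_zero]

/-- the sum of an array with at most one non-zero coordinate, of modulus `≤ 1` -/
theorem s7gw_sum_le_one (R : Finset ι) (sh : ι → ℝ) (P : ι → Prop) (h0 : ∀ x, ¬ P x → sh x = 0)
    (hu : ∀ x y, P x → P y → x = y) (h1 : ∀ x, |sh x| ≤ 1) : |∑ z ∈ R, sh z| ≤ 1 := by
  by_cases hex : ∃ s ∈ R, P s
  · obtain ⟨s, hsR, hs⟩ := hex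
    rw [Finset.sum_eq_single_of_mem s hsR]
    · exact h1 s
    · intro y _ hy
      exact h0 y (fun hP => hy (hu y s hP hs))
  · rw [Finset.sum_eq_zero]
    · simp
    · intro y hy
      exact h0 y (fun hP => hex ⟨y, hy, hP⟩)

end Tail

section TailP

variable {n d : ℕ}

theorem s7gw_r_eq (π₀ π : PPair n d) (t0 : ℕ) (σ h : ℝ) (i : Fin n) :
    s7r π₀ π t0 σ h i = s7orow π (π.Wmat σ h) (S7Out.glob i)
      - s7Pi ℝ π.unres *ᵥ s7short π₀ t0 σ h i := by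
  rw [← s7ar_PiS_eq]
  rfl

/-- ORDINARY event: the tail is updated with the shift `k = (∑_R sh)/l`. -/
theorem s7gw_tail_ord (π₀ π π' : PPair n d) (t0 : ℕ) (σ h : ℝ) (i : Fin n) (u v : Stub n d)
    (D : Matrix (Stub n d) (Stub n d) ℝ)
    (hu : u ∈ π.unres) (hv : v ∈ π.unres) (huv : u ≠ v) (hc : 2 < π.unres.card)
    (hnu : ¬ s7near π₀ t0 i u) (hnv : ¬ s7near π₀ t0 i v)
    (hun : π'.unres = s7sub π.unres u v)
    (hrow : s7orow π' (π'.Wmat σ h) (S7Out.glob i)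
      = s7rstep σ h π.unres D (s7orow π (π.Wmat σ h) (S7Out.glob i)) 0 u v) :
    s7r π₀ π' t0 σ h i = s7rstep σ h π.unres D (s7r π₀ π t0 σ h i)
      ((∑ z ∈ π.unres, s7short π₀ t0 σ h i z) / (π.unres.card : ℝ)) u v := by
  have hsh := (s7_flags n d π₀ π t0 u v (s7ac_mem_unres.1 hu) (s7ac_mem_unres.1 hv) huv).2.2 σ h i
  have hw : s7orow π (π.Wmat σ h) (S7Out.glob i)
      = s7r π₀ π t0 σ h i + s7Pi ℝ π.unres *ᵥ s7short π₀ t0 σ h i := by
    rw [s7gw_r_eq]; abel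
  rw [s7gw_r_eq π₀ π', hrow, hun, hw,
    s7_tailId ℝ (Stub n d) σ h π.unres D _ _ u v hu hv huv hc (hsh u hnu) (hsh v hnv)]
  abel

/-- EXCEPTIONAL event: the short endpoint `s ∈ {u, v}` is selected. -/
theorem s7gw_tail_exc (π₀ π π' : PPair n d) (t0 : ℕ) (σ h : ℝ) (i : Fin n) (u v s : Stub n d)
    (D : Matrix (Stub n d) (Stub n d) ℝ)
    (hu : u ∈ π.unres) (hv : v ∈ π.unres) (huv : u ≠ v)
    (huniq : ∀ x y, s7near π₀ t0 i x → s7near π₀ t0 i y → x = y)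
    (hs : s7near π₀ t0 i s) (hsuv : s = u ∨ s = v)
    (hun : π'.unres = s7sub π.unres u v)
    (hrow : s7orow π' (π'.Wmat σ h) (S7Out.glob i)
      = s7rstep σ h π.unres D (s7orow π (π.Wmat σ h) (S7Out.glob i)) 0 u v) :
    s7r π₀ π' t0 σ h i = s7rstep σ h π.unres D
      (s7r π₀ π t0 σ h i + s7short π₀ t0 σ h i s • fun x => s7Pi ℝ π.unres x s) 0 u v := by
  have hsh := (s7_flags n d π₀ π t0 u v (s7ac_mem_unres.1 hu) (s7ac_mem_unres.1 hv) huv).2.2 σ h i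
  have hsupp : ∀ x, x ≠ s → s7short π₀ t0 σ h i x = 0 :=
    fun x hx => hsh x (fun hn => hx (huniq x s hn hs))
  have hw : s7orow π (π.Wmat σ h) (S7Out.glob i)
      = s7r π₀ π t0 σ h i + s7short π₀ t0 σ h i s • fun x => s7Pi ℝ π.unres x s := by
    rw [← s7gw_Pi_single _ _ s hsupp, s7gw_r_eq]; abel
  have hsR : s ∉ s7sub π.unres u v := by
    rw [s7sub, Finset.mem_erase, Finset.mem_erase]
    rintro ⟨h1, h2, -⟩
    rcases hsuv with h | h
    · exact h2 h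
    · exact h1 h
  rw [s7gw_r_eq π₀ π', hrow, hun, s7gw_Pi_single_zero _ _ s hsupp hsR, sub_zero, hw]

end TailP

/-! ## B. Real arithmetic of the shift -/

/-- additional numerical conditions for the shift (they hold for large `n`) -/
structure S7gwNum (ε κ lam szz ol : ℝ) : Prop where
  e1 : szz ≤ κ * lam ^ 2 * ol
  e2 : Real.sqrt ε ≤ κ * lam ^ 2 * ol
  e3 : ε ≤ ol

section Arith

variable {CR Θ ε κ lam δ sτ szz τ zz ol L om dl N : ℝ}

theorem s7gw_inv_sL (hs : S7acSt Θ ε δ ol L om dl N) {sL : ℝ} (hsL0 : 0 < sL) (hsL : sL ^ 2 = L) :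
    1 / sL ≤ Real.sqrt ε ∧ 1 / sL ≤ 1 := by
  constructor
  · rw [Real.le_sqrt' (by positivity), div_pow, one_pow, hsL]
    exact hs.hLε
  · rw [div_le_one hsL0]
    have := hs.hL
    nlinarith

theorem s7gw_shift_mean (hn : S7acNum CR Θ ε κ lam δ sτ szz τ zz ol)
    (hs : S7acSt Θ ε δ ol L om dl N) (he : S7gwNum ε κ lam szz ol) {ms k sL Z sN : ℝ}
    (hsL0 : 0 < sL) (hsL : sL ^ 2 = L) (hZ : Z = sL * szz) (hk : |k| ≤ 1 / L) (hsN0 : 0 ≤ sN)
    (hsN : sN ≤ Θ / sL) (hms : ms ≤ CR * (|k| * (Z + 1) * sN + k ^ 2)) :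
    ms / (om * (1 - dl / L)) ≤ 2 * CR * (2 * Θ + 1) * (κ * lam) / L := by
  obtain ⟨ho, hom⟩ := s7ac_om' hn hs
  obtain ⟨i1, i2⟩ := s7gw_inv_sL hs hsL0 hsL
  have hL := hs.hL
  have hL0 : 0 < L := by linarith
  have hCR := hn.hCR
  have hΘ := hn.hΘ
  have hκ := hn.hκ
  have hlam := hn.hlam
  have hol := hn.hol
  have hszz := hn.hszz
  obtain ⟨β, hβ⟩ : ∃ β, β = κ * lam ^ 2 := ⟨_, rfl⟩
  have hβ0 : 0 ≤ β := by rw [hβ]; positivity
  have e1 := he.e1
  have e2 := he.e2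
  rw [← hβ] at e1 e2
  have i3 : 1 / sL ≤ β * ol := i1.trans e2
  have hiL : 0 ≤ 1 / L := by positivity
  have hisL : 0 ≤ 1 / sL := by positivity
  have t1 : |k| * (Z + 1) * sN ≤ 1 / L * (Θ * (2 * (β * ol))) := by
    have a1 : (Z + 1) * sN ≤ (sL * szz + 1) * (Θ / sL) := by
      rw [hZ]
      exact mul_le_mul_of_nonneg_left hsN (by positivity)
    have a2 : (sL * szz + 1) * (Θ / sL) = Θ * (szz + 1 / sL) := by
      field_simp
    have a3 : Θ * (szz + 1 / sL) ≤ Θ * (2 * (β * ol)) :=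
      mul_le_mul_of_nonneg_left (by linarith) (by linarith)
    have a4 : 0 ≤ (Z + 1) * sN := by rw [hZ]; positivity
    calc |k| * (Z + 1) * sN = |k| * ((Z + 1) * sN) := by ring
      _ ≤ 1 / L * (Θ * (2 * (β * ol))) :=
          mul_le_mul hk (by linarith) a4 hiL
  have t2 : k ^ 2 ≤ 1 / L * (β * ol) := by
    have a1 : k ^ 2 ≤ (1 / L) ^ 2 := by
      rw [← sq_abs]
      exact pow_le_pow_left₀ (abs_nonneg _) hk 2
    have a2 : (1 / L) ^ 2 = 1 / L * (1 / sL * (1 / sL)) := by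
      rw [← hsL]
      field_simp
    have a3 : 1 / sL * (1 / sL) ≤ β * ol * 1 := mul_le_mul i3 i2 hisL (by positivity)
    have a4 := mul_le_mul_of_nonneg_left a3 hiL
    linarith
  obtain ⟨U, hU⟩ : ∃ U, U = CR * (1 / L * ((2 * Θ + 1) * (β * ol))) := ⟨_, rfl⟩
  have hU0 : 0 ≤ U := by rw [hU]; positivity
  have t3 : ms ≤ U := by
    refine hms.trans ?_
    rw [hU]
    refine mul_le_mul_of_nonneg_left ?_ hCR.le
    have : 1 / L * ((2 * Θ + 1) * (β * ol))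
        = 1 / L * (Θ * (2 * (β * ol))) + 1 / L * (β * ol) := by ring
    linarith
  have ho2 : 0 < om / 2 := by linarith
  calc ms / (om * (1 - dl / L)) ≤ U / (om * (1 - dl / L)) :=
        div_le_div_of_nonneg_right t3 (ho2.le.trans ho)
    _ ≤ U / (om / 2) := div_le_div_of_nonneg_left hU0 ho2 ho
    _ = 2 * CR * (2 * Θ + 1) * (β * (ol / om)) / L := by
        rw [hU]
        field_simp
    _ ≤ 2 * CR * (2 * Θ + 1) * (κ * lam) / L := by
        refine div_le_div_of_nonneg_right ?_ hL0.le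
        refine mul_le_mul_of_nonneg_left ?_ (by positivity)
        have h1 : ol / om ≤ 1 := by rw [div_le_one hom]; exact hs.hom0
        have h2 : β * (ol / om) ≤ β := mul_le_of_le_one_right hβ0 h1
        have h3 : lam ^ 2 ≤ lam := pow_le_of_le_one hlam.le hn.hlam1 two_ne_zero
        have h4 : β ≤ κ * lam := by
          rw [hβ]
          exact mul_le_mul_of_nonneg_left h3 hκ.le
        linarith

theorem s7gw_shift_pt (hn : S7acNum CR Θ ε κ lam δ sτ szz τ zz ol)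
    (hs : S7acSt Θ ε δ ol L om dl N) {xs k sg εr C2 : ℝ} (hC2 : 0 ≤ C2) (hsg0 : 0 ≤ sg)
    (hεr : εr = 2 * ε) (hk : |k| ≤ 1 / L) (hxs : |xs| ≤ C2 * (|k| * (sg + εr) + k ^ 2)) :
    |xs| ≤ C2 * (εr ^ 2 + εr * sg) := by
  have hε := hn.hε
  have hkε : |k| ≤ ε := hk.trans hs.hLε
  refine hxs.trans (mul_le_mul_of_nonneg_left ?_ hC2)
  have a1 : |k| * (sg + εr) ≤ ε * (sg + εr) :=
    mul_le_mul_of_nonneg_right hkε (by rw [hεr]; positivity)
  have a2 : k ^ 2 ≤ ε ^ 2 := by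
    rw [← sq_abs]
    exact pow_le_pow_left₀ (abs_nonneg _) hkε 2
  rw [hεr] at a1 ⊢
  nlinarith [mul_nonneg hε.le hsg0, sq_nonneg ε]

theorem s7gw_shift_sq (hn : S7acNum CR Θ ε κ lam δ sτ szz τ zz ol)
    (hs : S7acSt Θ ε δ ol L om dl N) (he : S7gwNum ε κ lam szz ol) {xs k sg εr : ℝ}
    (hsg0 : 0 ≤ sg) (hsg : sg ≤ Θ * om) (hεr : εr = 2 * ε) (hk : |k| ≤ 1 / L)
    (hxs : |xs| ≤ CR * (|k| * (sg + εr) + k ^ 2)) :
    (xs / (om * (1 - dl / L))) ^ 2 ≤ 4 * CR ^ 2 * (Θ + 3) ^ 2 * (κ * lam ^ 2) / L := by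
  obtain ⟨ho, hom⟩ := s7ac_om' hn hs
  have hL := hs.hL
  have hL0 : 0 < L := by linarith
  have hCR := hn.hCR
  have hΘ := hn.hΘ
  have hε := hn.hε
  have hεom : ε ≤ om := he.e3.trans hs.hom0
  have hiL : 0 ≤ 1 / L := by positivity
  have ho2 : 0 < om / 2 := by linarith
  have ho5 : 0 < om * (1 - dl / L) := lt_of_lt_of_le ho2 ho
  have a1 : |k| * (sg + εr) ≤ 1 / L * (Θ * om + 2 * om) := by
    refine mul_le_mul hk ?_ (by rw [hεr]; positivity) hiL
    rw [hεr]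
    linarith
  have a2 : k ^ 2 ≤ 1 / L * om := by
    have b1 : k ^ 2 = |k| * |k| := by rw [← sq_abs]; ring
    rw [b1]
    exact mul_le_mul hk ((hk.trans hs.hLε).trans hεom) (abs_nonneg _) hiL
  have a3 : |xs| ≤ CR * ((Θ + 3) * om / L) := by
    refine hxs.trans (mul_le_mul_of_nonneg_left ?_ hCR.le)
    have : (Θ + 3) * om / L = 1 / L * (Θ * om + 2 * om) + 1 / L * om := by ring
    linarith
  have a4 : |xs / (om * (1 - dl / L))| ≤ 2 * CR * (Θ + 3) / L := by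
    rw [abs_div, abs_of_pos ho5]
    calc |xs| / (om * (1 - dl / L)) ≤ CR * ((Θ + 3) * om / L) / (om * (1 - dl / L)) :=
          div_le_div_of_nonneg_right a3 ho5.le
      _ ≤ CR * ((Θ + 3) * om / L) / (om / 2) :=
          div_le_div_of_nonneg_left (by positivity) ho2 ho
      _ = 2 * CR * (Θ + 3) / L := by field_simp
  calc (xs / (om * (1 - dl / L))) ^ 2 = |xs / (om * (1 - dl / L))| ^ 2 := (sq_abs _).symm
    _ ≤ (2 * CR * (Θ + 3) / L) ^ 2 := pow_le_pow_left₀ (abs_nonneg _) a4 2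
    _ = 4 * CR ^ 2 * (Θ + 3) ^ 2 * (1 / L) / L := by field_simp; ring
    _ ≤ 4 * CR ^ 2 * (Θ + 3) ^ 2 * (κ * lam ^ 2) / L := by
        refine div_le_div_of_nonneg_right ?_ hL0.le
        exact mul_le_mul_of_nonneg_left (hs.hLε.trans hn.c4) (by positivity)

/-- the exceptional event -/
theorem s7gw_exc {N G0 gp om q A0 AS : ℝ} (hN0 : 0 ≤ N) (hG0 : 0 ≤ G0) (hgp0 : 0 ≤ gp)
    (h : Real.sqrt gp ≤ Real.sqrt N + 5 * Real.sqrt G0) (hN : N ≤ (A0 + 1) * om)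
    (hG : G0 = (AS + 1) * om) (hom : 0 < om) (hq : om / 2 ≤ q) :
    gp / q ≤ 4 * (A0 + 1) + 100 * (AS + 1) := by
  have hq0 : 0 < q := by linarith
  have a1 : gp ≤ 2 * N + 50 * G0 := by
    have b1 : gp = Real.sqrt gp ^ 2 := (Real.sq_sqrt hgp0).symm
    have b2 : Real.sqrt gp ^ 2 ≤ (Real.sqrt N + 5 * Real.sqrt G0) ^ 2 :=
      pow_le_pow_left₀ (Real.sqrt_nonneg _) h 2
    have b3 := Real.sq_sqrt hN0
    have b4 := Real.sq_sqrt hG0
    nlinarith [sq_nonneg (Real.sqrt N - 5 * Real.sqrt G0)]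
  rw [div_le_iff₀ hq0]
  have a2 : gp ≤ (2 * (A0 + 1) + 50 * (AS + 1)) * om := by
    rw [hG] at a1
    linarith
  have a3 : 0 ≤ 2 * (A0 + 1) + 50 * (AS + 1) := by
    by_contra hc
    have := mul_neg_of_neg_of_pos (not_le.1 hc) hom
    linarith
  have a4 := mul_le_mul_of_nonneg_left hq a3
  linarith

end Arith

/-! ## C. Averages of the normalised increment with shift -/

section Layer

variable {CR Θ ε κ lam δ sτ szz τ zz ol L om dl N : ℝ}

theorem s7gw_layer {ι : Type*} [DecidableEq ι] {I : Finset ι} (hI : 2 ≤ I.card)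
    (Nh Ns : ι → ι → ℝ) (hn : S7acNum CR Θ ε κ lam δ sτ szz τ zz ol)
    (hs : S7acSt Θ ε δ ol L om dl N) (he : S7gwNum ε κ lam szz ol)
    {X h sL Z G sg sT T εr k sN : ℝ} (hsL0 : 0 < sL) (hsL : sL ^ 2 = L) (hZ : Z = sL * szz)
    (hszz2 : szz ^ 2 = zz) (hG : G = Θ * om) (hsg0 : 0 ≤ sg) (hsg : sg ≤ Θ * om) (hsT0 : 0 ≤ sT)
    (hsT : sT ≤ sτ) (hT0 : 0 ≤ T) (hT : T ≤ τ) (hεr : εr = 2 * ε)
    (hgap : 9 / 10 * dl ≤ 1 - h ^ 2 * X / (L - 1))
    (hm : s7avg I (fun u v => Nh u v - N) ≤ -2 * N / L + 2 * h ^ 2 * N * X / (L * (L - 1))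
      + CR * (εr ^ 2 / L + εr * sg / L ^ 2 + (1 + sT) * Z * N / (L * sL) + ε * N / L
          + (G + Z ^ 2) * N / L ^ 2))
    (hv : s7avg I (fun u v => (Nh u v - N) ^ 2)
      ≤ CR * (εr ^ 2 * N / L + Z ^ 2 * N ^ 2 / L ^ 2 + (1 + T) * εr ^ 2 * Z ^ 2 * N / L ^ 2))
    (hk : |k| ≤ 1 / L) (hsN0 : 0 ≤ sN) (hsN : sN ≤ Θ / sL)
    (hms : s7avg I (fun u v => |Ns u v - Nh u v|) ≤ CR * (|k| * (Z + 1) * sN + k ^ 2))
    (hps : ∀ u ∈ I, ∀ v ∈ I, u ≠ v → |Ns u v - Nh u v| ≤ CR * (|k| * (sg + εr) + k ^ 2)) :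
    s7avg I (fun u v => Ns u v / (om * (1 - dl / L)) - N / om)
        ≤ (2 * CR * (4 + 2 * Θ) + 2 * CR * (2 * Θ + 1)) * (κ * lam) / L ∧
    s7avg I (fun u v => (Ns u v / (om * (1 - dl / L)) - N / om) ^ 2)
        ≤ (2 * (8 * (CR * (8 * Θ + Θ ^ 2) + Θ ^ 2)) + 2 * (4 * CR ^ 2 * (Θ + 3) ^ 2))
          * (κ * lam ^ 2) / L := by
  obtain ⟨ho, hom⟩ := s7ac_om' hn hs
  have ho2 : 0 < om / 2 := by linarith
  have ho5 : 0 < om * (1 - dl / L) := lt_of_lt_of_le ho2 ho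
  obtain ⟨q, hq⟩ : ∃ q, q = om * (1 - dl / L) := ⟨_, rfl⟩
  obtain ⟨l1, l2⟩ := s7ac_layer hI Nh hn hs hsL0 hsL hZ hszz2 hG hsg0 hsg hsT0 hsT hT0 hT hεr hgap
    hm hv
  have sm := s7gw_shift_mean hn hs he hsL0 hsL hZ hk hsN0 hsN hms
  rw [← hq] at ho5 l1 l2 sm ⊢
  constructor
  · have hle : s7avg I (fun u v => Ns u v / q - N / om)
        ≤ s7avg I (fun u v => (fun u v => Nh u v / q - N / om) u v
            + (fun u v => (1 / q) * (fun u v => |Ns u v - Nh u v|) u v) u v) := by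
      refine s7t_avg_mono hI (fun u _ v _ _ => ?_)
      simp only []
      have a1 : Ns u v / q - N / om = (Nh u v / q - N / om) + (1 / q) * (Ns u v - Nh u v) := by
        ring
      rw [a1]
      have a2 := mul_le_mul_of_nonneg_left (le_abs_self (Ns u v - Nh u v))
        (by positivity : 0 ≤ 1 / q)
      linarith
    refine hle.trans ?_
    rw [s7t_avg_add, s7t_avg_smul]
    have e : 1 / q * s7avg I (fun u v => |Ns u v - Nh u v|)
        = s7avg I (fun u v => |Ns u v - Nh u v|) / q := by ring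
    rw [e]
    have e2 : (2 * CR * (4 + 2 * Θ) + 2 * CR * (2 * Θ + 1)) * (κ * lam) / L
        = 2 * CR * (4 + 2 * Θ) * (κ * lam) / L + 2 * CR * (2 * Θ + 1) * (κ * lam) / L := by ring
    rw [e2]
    exact add_le_add l1 sm
  · have hle : s7avg I (fun u v => (Ns u v / q - N / om) ^ 2)
        ≤ s7avg I (fun u v => (fun u v => 2 * (fun u v => (Nh u v / q - N / om) ^ 2) u v) u v
            + (fun _ _ => 2 * (4 * CR ^ 2 * (Θ + 3) ^ 2 * (κ * lam ^ 2) / L)) u v) := by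
      refine s7t_avg_mono hI (fun u hu v hv huv => ?_)
      simp only []
      have a1 : Ns u v / q - N / om = (Nh u v / q - N / om) + (Ns u v - Nh u v) / q := by
        ring
      have a2 := s7gw_shift_sq hn hs he hsg0 hsg hεr hk (hps u hu v hv huv)
      rw [← hq] at a2
      rw [a1]
      nlinarith [sq_nonneg ((Nh u v / q - N / om) - (Ns u v - Nh u v) / q)]
    refine hle.trans ?_
    rw [s7t_avg_add, s7t_avg_smul, s7t_avg_const hI]
    have e2 : (2 * (8 * (CR * (8 * Θ + Θ ^ 2) + Θ ^ 2)) + 2 * (4 * CR ^ 2 * (Θ + 3) ^ 2))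
          * (κ * lam ^ 2) / L
        = 2 * (8 * (CR * (8 * Θ + Θ ^ 2) + Θ ^ 2) * (κ * lam ^ 2) / L)
          + 2 * (4 * CR ^ 2 * (Θ + 3) ^ 2 * (κ * lam ^ 2) / L) := by ring
    rw [e2]
    linarith

end Layer

/-! ## D. Numerics -/

section Num

open Filter

/-- `s7ac_num` for an arbitrary threshold constant `Θ ≥ 1` -/
theorem s7gw_num1 (d : ℕ) (par : S7Par) (hp : S7ParOK d par) (CR Θ : ℝ) (hCR : 0 < CR)
    (hΘ : 1 ≤ Θ) :
    ∀ᶠ n : ℕ in atTop, S7acNum CR Θ (s7eps n : ℝ) (s7kap par.g n : ℝ)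
      (s7lam par.g n : ℝ) (s7del par.g n : ℝ) (Real.sqrt (s7Tcap par.g n : ℝ))
      (Real.sqrt (scQ (-(2 / 10 * aa)) n : ℝ)) (s7Tcap par.g n : ℝ) (scQ (-(2 / 10 * aa)) n : ℝ)
      ((scQ (-(par.g / 2)) n : ℝ) / 2) := by
  obtain ⟨hd, ⟨hg0, hg1⟩, -, -, -⟩ := hp
  obtain ⟨g, hg⟩ : ∃ g, g = par.g := ⟨_, rfl⟩
  rw [← hg] at hg0 hg1 ⊢
  have haa : aa = 1 / 10000 := rfl
  rw [haa] at hg1
  have x1 : -(aa / 1000) + -(aa / 1000) < -(g / 25) + -(g / 2) := by rw [haa]; linarith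
  have x2 : -(2 / 10 * aa) < -(g / 25) := by rw [haa]; linarith
  have x3 : g / 25 + -(2 / 10 * aa) < 0 := by rw [haa]; linarith
  have x4 : -(aa / 1000) < -(g / 25) := by rw [haa]; linarith
  have x5 : -(2 * (g / 100)) < 0 := by linarith
  have x6 : g / 50 + -(aa / 10) < -g := by rw [haa]; linarith
  have x7 : -(aa / 1000) < -g := by rw [haa]; linarith
  have x8 : -(2 / 10 * aa) < -g := by rw [haa]; linarith
  filter_upwards [s7ac_lt x1 16, s7ac_lt x2 4, s7n_scQ_small x3 (1 / 2) (by norm_num),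
    s7ac_lt x4 4, s7n_scQ_small x5 (1 / (2 * CR * (4 + 2 * Θ) + 2 * Θ)) (by positivity),
    s7ac_lt x6 (45 * CR), s7ac_lt x7 (15 / 2 * CR * (1 + Θ)), s7ac_lt x8 (15 / 2 * CR)]
    with n y1 y2 y3 y4 y5 y6 y7 y8
  have hkl := s7ac_kl g n
  have pε := s7n_cast_pos (-(aa / 1000)) n
  have pzz := s7n_cast_pos (-(2 / 10 * aa)) n
  have pκ : (0 : ℝ) < (s7kap g n : ℝ) := s7n_cast_pos _ n
  have plam : (0 : ℝ) < (s7lam g n : ℝ) := s7n_cast_pos _ n
  have pol := s7n_cast_pos (-(g / 2)) n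
  have pτ : (0 : ℝ) < (s7Tcap g n : ℝ) := s7n_cast_pos _ n
  have hTc : (s7Tcap g n : ℝ) = (scQ (g / 25) n : ℝ) := by
    unfold s7Tcap s7eta0
    congr 2
    ring
  refine ⟨hCR, hΘ, pε, pκ, plam, s7ac_le_one (by linarith) n, s7n_cast_pos _ n,
    Real.sqrt_nonneg _, Real.sqrt_nonneg _, pτ.le, pzz.le, by positivity, ?_, ?_, ?_, ?_, ?_, ?_⟩
  · -- c1
    unfold s7eps
    have h1 := s7ac_mul (-(aa / 1000)) (-(aa / 1000)) n
    have h2 := s7ac_add (-(g / 25)) (-(g / 2)) n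
    have h3 := mul_le_mul_of_nonneg_right hkl pol.le
    nlinarith
  · exact le_trans (by linarith) hkl
  · rw [hTc]
    have h1 := s7ac_mul (g / 25) (-(2 / 10 * aa)) n
    have h2 := s7ac_one_le (by linarith : 0 ≤ g / 25) n
    nlinarith
  · unfold s7eps
    exact le_trans (by linarith) hkl
  · have h0 : 0 < 2 * CR * (4 + 2 * Θ) + 2 * Θ := by positivity
    have : (s7kap g n : ℝ) ≤ 1 / (2 * CR * (4 + 2 * Θ) + 2 * Θ) := y5
    rw [le_div_iff₀ h0] at this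
    linarith
  · -- c6
    unfold s7eps s7del
    rw [hTc]
    have s1 := s7n_sqrt_scQ_le (g / 25) n
    have s2 := s7n_sqrt_scQ_le (-(2 / 10 * aa)) n
    have e1 : g / 25 / 2 = g / 50 := by ring
    have e2 : -(2 / 10 * aa) / 2 = -(aa / 10) := by ring
    rw [e1] at s1
    rw [e2] at s2
    have o1 := s7ac_one_le (by linarith : 0 ≤ g / 50) n
    have m1 := s7ac_mul (g / 50) (-(aa / 10)) n
    have p1 := s7n_cast_pos (-(aa / 10)) n
    have t1 : (1 + Real.sqrt (scQ (g / 25) n : ℝ)) * Real.sqrt (scQ (-(2 / 10 * aa)) n : ℝ)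
        ≤ 6 * (scQ (g / 50 + -(aa / 10)) n : ℝ) := by
      calc _ ≤ (3 * (scQ (g / 50) n : ℝ)) * (2 * (scQ (-(aa / 10)) n : ℝ)) :=
            mul_le_mul (by linarith) s2 (Real.sqrt_nonneg _) (by linarith)
        _ = 6 * ((scQ (g / 50) n : ℝ) * (scQ (-(aa / 10)) n : ℝ)) := by ring
        _ ≤ _ := by linarith
    have t2 := mul_le_mul_of_nonneg_left t1 hCR.le
    linarith

/-- the conditions for the shift -/
theorem s7gw_num2 (d : ℕ) (par : S7Par) (hp : S7ParOK d par) :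
    ∀ᶠ n : ℕ in atTop, S7gwNum (s7eps n : ℝ) (s7kap par.g n : ℝ) (s7lam par.g n : ℝ)
      (Real.sqrt (scQ (-(2 / 10 * aa)) n : ℝ)) ((scQ (-(par.g / 2)) n : ℝ) / 2) := by
  obtain ⟨hd, ⟨hg0, hg1⟩, -, -, -⟩ := hp
  obtain ⟨g, hg⟩ : ∃ g, g = par.g := ⟨_, rfl⟩
  rw [← hg] at hg0 hg1 ⊢
  have haa : aa = 1 / 10000 := rfl
  rw [haa] at hg1
  have x9 : -(aa / 10) < -(g / 25) + -(g / 2) := by rw [haa]; linarith
  have x10 : -(aa / 1000) / 2 < -(g / 25) + -(g / 2) := by rw [haa]; linarith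
  have x11 : -(aa / 1000) < -(g / 2) := by rw [haa]; linarith
  filter_upwards [s7ac_lt x9 32, s7ac_lt x10 32, s7ac_lt x11 2] with n y9 y10 y11
  have hkl := s7ac_kl g n
  have pol := s7n_cast_pos (-(g / 2)) n
  -- `κ λ² ol ≥ n^{-g/25-g/2}/16`
  have hklo : (scQ (-(g / 25) + -(g / 2)) n : ℝ) / 16
      ≤ (s7kap g n : ℝ) * (s7lam g n : ℝ) ^ 2 * ((scQ (-(g / 2)) n : ℝ) / 2) := by
    have h2 := s7ac_add (-(g / 25)) (-(g / 2)) n
    have h3 := mul_le_mul_of_nonneg_right hkl pol.le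
    linarith
  refine ⟨?_, ?_, ?_⟩
  · -- e1
    have s2 := s7n_sqrt_scQ_le (-(2 / 10 * aa)) n
    have e2 : -(2 / 10 * aa) / 2 = -(aa / 10) := by ring
    rw [e2] at s2
    linarith
  · -- e2
    unfold s7eps
    have s2 := s7n_sqrt_scQ_le (-(aa / 1000)) n
    linarith
  · -- e3
    unfold s7eps
    linarith

end Num

/-! ## E. The statement -/

theorem s7gw_lab {n d : ℕ} {cp : ℚ} (i : S7Lab n d) (hi : i ∈ s7labsA n d cp) (hk : i.kind = 5) :
    ∃ j b x, i = .grow j b x ∧ j ≤ Nprim d n cp := by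
  cases i with
  | grow j b x =>
    refine ⟨j, b, x, rfl, ?_⟩
    simp only [s7labsA, s7famNrm, s7famTrY, s7famDgT, s7famGap, s7famCrow, s7famGrow, s7famEnt,
      s7pts, List.mem_append, List.mem_map, List.mem_flatMap, List.mem_range] at hi
    simp at hi
    omega
  | nrm _ _ => simp [S7Lab.kind] at hk
  | trY _ _ _ => simp [S7Lab.kind] at hk
  | dgT _ _ _ => simp [S7Lab.kind] at hk
  | gap _ _ => simp [S7Lab.kind] at hk
  | crow _ _ _ _ => simp [S7Lab.kind] at hk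
  | ent _ _ _ _ _ => simp [S7Lab.kind] at hk

/-- the thresholds over `ℝ` -/
theorem s7gw_Th (d : ℕ) (hd : 3 ≤ d) :
    (s7ThV1 d : ℝ) = 4 * ((s7ThV0 d : ℝ) + 1) + 100 * ((s7ThS d : ℝ) + 1) ∧
    (0 : ℝ) ≤ (s7ThV0 d : ℝ) ∧ (0 : ℝ) ≤ (s7ThS d : ℝ) := by
  have h3 : (3 : ℝ) ≤ (d : ℝ) := by exact_mod_cast hd
  refine ⟨?_, ?_, ?_⟩
  · unfold s7ThV1
    push_cast
    ring
  · unfold s7ThV0
    push_cast
    linarith
  · unfold s7ThS
    push_cast
    linarith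

/-- the set of ordinary endpoints of a global label -/
theorem s7gw_allowed {n d : ℕ} (π₀ π : PPair n d) (t0 : ℕ) (i : Fin n)
    (huniq : ∀ x y, s7near π₀ t0 i x → s7near π₀ t0 i y → x = y) :
    S7Allowed π.unres (π.unres.filter fun z => ¬ s7near π₀ t0 i z) := by
  refine ⟨Finset.filter_subset _ _, ?_⟩
  have h1 := Finset.card_filter_add_card_filter_not (s := π.unres) (fun z => s7near π₀ t0 i z)
  have h2 : (π.unres.filter fun z => s7near π₀ t0 i z).card ≤ 1 := by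
    rw [Finset.card_le_one]
    intro a ha b hb
    exact huniq a b (Finset.mem_filter.1 ha).2 (Finset.mem_filter.1 hb).2
  omega

theorem s7gw_weaken {m A C1 CR E : ℝ} (h : m ≤ A + C1 * E) (hE : 0 ≤ E) (hC : C1 ≤ CR) :
    m ≤ A + CR * E := by
  have := mul_le_mul_of_nonneg_right hC hE
  linarith

theorem s7gw_weaken0 {m C1 CR E : ℝ} (h : m ≤ C1 * E) (hE : 0 ≤ E) (hC : C1 ≤ CR) :
    m ≤ CR * E := h.trans (mul_le_mul_of_nonneg_right hC hE)

open Filter in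
/-- **S7-A-STEP-5** global tails. -/
theorem s7_aStepGrow (hDer : StS7ADer) (hUpd : StS7Upd) : StS7AStepGrow := by
  intro d par hp
  have hd : 3 ≤ d := hp.1
  have hg : S7gOK par.g := hp.2.1
  have hp2 : 2 ≤ par.p := hp.2.2.1.1
  have hS1 := s7ac_ThS d hd
  obtain ⟨hTh1, hTh0, hThS⟩ := s7gw_Th d hd
  obtain ⟨C1, ε1, l1, hC1, hε1, hRow⟩ :=
    s7_rowStep (s7hmin d) ((s7ThS d : ℝ) + 1) (s7ac_hmin d hd) (by linarith)
  obtain ⟨C2, ε2, l2, hC2, hε2, hShift⟩ :=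
    s7_rowShift (s7hmin d) ((s7ThS d : ℝ) + 1) (s7ac_hmin d hd) (by linarith)
  obtain ⟨C3, ε3, l3, hC3, hε3, hExcR⟩ :=
    s7_rowExc (s7hmin d) ((s7ThS d : ℝ) + 1) (s7ac_hmin d hd) (by linarith)
  obtain ⟨CR, hCRd⟩ : ∃ CR, CR = C1 + C2 := ⟨_, rfl⟩
  have hCR : 0 < CR := by rw [hCRd]; linarith
  have hC1R : C1 ≤ CR := by rw [hCRd]; linarith
  have hC2R : C2 ≤ CR := by rw [hCRd]; linarith
  obtain ⟨Θ, hΘd⟩ : ∃ Θ : ℝ, Θ = (s7ThV1 d : ℝ) + 1 := ⟨_, rfl⟩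
  have hΘ1 : 1 ≤ Θ := by rw [hΘd, hTh1]; linarith
  have hΘS : (s7ThS d : ℝ) + 1 ≤ Θ := by rw [hΘd, hTh1]; linarith
  have hΘ0 : (s7ThV0 d : ℝ) + 1 ≤ Θ := by rw [hΘd, hTh1]; linarith
  obtain ⟨K1, hK1⟩ : ∃ K1, K1 = 2 * CR * (4 + 2 * Θ) + 2 * CR * (2 * Θ + 1) := ⟨_, rfl⟩
  obtain ⟨K2, hK2⟩ : ∃ K2, K2 = 2 * (8 * (CR * (8 * Θ + Θ ^ 2) + Θ ^ 2))
      + 2 * (4 * CR ^ 2 * (Θ + 3) ^ 2) := ⟨_, rfl⟩
  have hK1p : 0 < K1 := by rw [hK1]; positivity
  have hK2p : 0 < K2 := by rw [hK2]; positivity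
  have hCp : (0 : ℝ) < (excessC par.p : ℝ) := by
    have : 0 < excessC par.p := by unfold excessC; positivity
    exact_mod_cast this
  refine ⟨(excessC par.p : ℝ) * (K1 + K2), by positivity, ?_⟩
  have xε : -(aa / 1000) < 0 := by unfold aa; norm_num
  filter_upwards [hDer d par hp, s7gw_num1 d par hp CR Θ hCR hΘ1, s7gw_num2 d par hp,
    s7n_l3_large (max 8 (max l1 (max l2 l3))),
    s7n_scQ_small xε (min (min ε1 (min ε2 ε3)) (1 / 16))
      (lt_min (lt_min hε1 (lt_min hε2 hε3)) (by norm_num)), eventually_gt_atTop 0]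
    with n hder hnum hnum2 hl3 hεs hn0
  intro φ π₀ π t hStop hInv hl i hi hk
  obtain ⟨j, b, i, rfl, hj⟩ := s7gw_lab i hi hk
  have pκ : (0 : ℝ) < (s7kap par.g n : ℝ) := s7n_cast_pos _ n
  have h32 := s7n_l3_le_l2 hg n
  have hl8' : 8 ≤ s7l3 n := le_trans (le_max_left _ _) hl3
  have hl8 : 8 ≤ π.l := by omega
  have hl1 : l1 ≤ π.l := by
    have := le_trans (le_trans (le_max_left l1 (max l2 l3)) (le_max_right 8 _)) hl3
    omega
  have hl2 : l2 ≤ π.l := by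
    have := le_trans (le_trans (le_trans (le_max_left l2 l3) (le_max_right l1 _))
      (le_max_right 8 _)) hl3
    omega
  have hl3' : l3 ≤ π.l := by
    have := le_trans (le_trans (le_trans (le_max_right l2 l3) (le_max_right l1 _))
      (le_max_right 8 _)) hl3
    omega
  have hL8 : (8 : ℝ) ≤ (π.l : ℝ) := by exact_mod_cast hl8
  have hL0 : (0 : ℝ) < (π.l : ℝ) := by linarith
  refine ⟨by positivity, ?_⟩
  obtain ⟨σ, hσ⟩ : ∃ σ : ℝ, σ = sgn b := ⟨_, rfl⟩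
  obtain ⟨h, hh⟩ : ∃ h : ℝ, h = ((prim d n j : ℚ) : ℝ) := ⟨_, rfl⟩
  obtain ⟨t0, ht0⟩ : ∃ t0, t0 = s7t0 d n := ⟨_, rfl⟩
  have der : S7DerA d n par φ π₀ π σ h := by
    rw [hσ, hh]; exact hder φ π₀ π t hStop hInv hl.le j hj b
  have cap : S7CapA d n par φ π₀ π σ h := by
    rw [hσ, hh]; exact hInv.cap j hj b
  have pos : PosOn1 (π.Mmat σ h) := by
    rw [hσ, hh]; exact hInv.pos j hj b
  have huniq : ∀ x y, s7near π₀ t0 i x → s7near π₀ t0 i y → x = y := by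
    rw [ht0]; exact (hStop.ref j hj b).uniq i
  have hcle : ∀ x, |s7short π₀ t0 σ h i x| ≤ 1 := by
    rw [ht0, hσ, hh]; exact (hStop.ref j hj b).cle i
  have hZ : ∀ π' : PPair n d, (s7PhaseA ℝ d n par φ π₀).Z (.grow j b i) π' =
      excessZ par.p (s7sq (s7r π₀ π' t0 σ h i) / (s7om par.g n π'.l : ℝ))
        (((if s7removed π₀ π' t0 i then s7ThV1 d else s7ThV0 d : ℚ)) : ℝ)
        (s7lam par.g n : ℝ) := by
    intro π'
    rw [hσ, hh, ht0]
    rfl
  rw [Phase.avg_eq_lavg]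
  have hcands : (s7PhaseA ℝ d n par φ π₀).cands π = s7cands π := rfl
  rw [hcands, (s7_lavg n d π _).1, hZ π]
  have base := der.baseD
  have hεa : (s7eps n : ℝ) ≤ ε1 := le_trans hεs (le_trans (min_le_left _ _) (min_le_left _ _))
  have hεb : (s7eps n : ℝ) ≤ ε2 := le_trans hεs (le_trans (min_le_left _ _)
    (le_trans (min_le_right _ _) (min_le_left _ _)))
  have hεc : (s7eps n : ℝ) ≤ ε3 := le_trans hεs (le_trans (min_le_left _ _)
    (le_trans (min_le_right _ _) (min_le_right _ _)))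
  have hε16 : (s7eps n : ℝ) ≤ 1 / 16 := le_trans hεs (min_le_right _ _)
  have pε : (0 : ℝ) < (s7eps n : ℝ) := s7n_cast_pos _ n
  have plam : (0 : ℝ) < (s7lam par.g n : ℝ) := s7n_cast_pos _ n
  have hh0 : 0 < h := lt_of_lt_of_le (s7ac_hmin d hd) base.h_lo
  have upd := fun (u v : Stub n d) (hu : π.Unres u) (hv : π.Unres v) (huv : u ≠ v) =>
    hUpd n d π₀ π φ (Lcut d n) σ h u v hn0 hInv.ext hu hv huv (by omega) der.sig hh0 base.h_hi pos
      (fun a c => (base.ent a c).trans hε16) der.refAt.unit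
      (fun a c => (der.baseDh.ent a c).trans hε16)
  obtain ⟨D, hD⟩ : ∃ D, D = s7D π σ h := ⟨_, rfl⟩
  rw [← hD] at base upd
  obtain ⟨r, hr⟩ : ∃ r, r = s7r π₀ π t0 σ h i := ⟨_, rfl⟩
  obtain ⟨I, hI⟩ : ∃ I, I = π.unres.filter fun z => ¬ s7near π₀ t0 i z := ⟨_, rfl⟩
  have hmemI : ∀ z, z ∈ I ↔ π.Unres z ∧ ¬ s7near π₀ t0 i z := by
    intro z
    rw [hI, Finset.mem_filter, s7ac_mem_unres]
  have hAll : S7Allowed π.unres I := by rw [hI]; exact s7gw_allowed π₀ π t0 i huniq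
  have hIR : I ⊆ π.unres := hAll.1
  have hI2 : 2 ≤ I.card := by
    have h1 := hAll.2
    have : 8 ≤ π.unres.card := hl8
    omega
  obtain ⟨Tq, hTq⟩ : ∃ Tq : ℚ, Tq = if s7removed π₀ π t0 i then s7ThV1 d else s7ThV0 d :=
    ⟨_, rfl⟩
  rw [← hTq, ← hr]
  have hTqΘ : (Tq : ℝ) + 1 ≤ Θ := by
    rw [hTq]
    split_ifs
    · exact le_of_eq hΘd.symm
    · exact hΘ0
  obtain ⟨om, hom⟩ : ∃ om : ℝ, om = (s7om par.g n π.l : ℝ) := ⟨_, rfl⟩
  obtain ⟨dl, hdl⟩ : ∃ dl : ℝ, dl = 1 - (s7ubar par.g n π.l : ℝ) := ⟨_, rfl⟩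
  have hompos : 0 < om := by
    rw [hom]
    exact_mod_cast (s7n_om_pos par.g n π.l t hInv.card (by omega)).1
  have hN0 := s7t_sq_nonneg r
  have hNT : s7sq r ≤ ((Tq : ℝ) + 1) * om := by
    rw [hr, hTq, hom, ht0]; exact cap.grow i
  have hN : s7sq r ≤ Θ * (s7om par.g n π.l : ℝ) := by
    rw [← hom]
    exact hNT.trans (mul_le_mul_of_nonneg_right hTqΘ hompos.le)
  have st := s7ac_st hg n π.l t hInv.card hl.le hl8' hN0 hN
  rw [← hom, ← hdl] at st
  rw [← hom] at hN ⊢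
  have hrε : ∀ z, |r z| ≤ (s7eps n : ℝ) := by
    intro z
    rw [hr, ht0]; exact der.tailE i z
  have hεr : ∀ z, |r z| ≤ 2 * (s7eps n : ℝ) := fun z => (hrε z).trans (by linarith)
  have hcent : S7Cent π.unres r := by rw [hr, ht0]; exact der.tailC i
  have hopD := der.opD
  have hrowS := der.rowG
  rw [← hD] at hopD
  rw [← hD, ← hom] at hrowS
  have hrowG : ∀ x, (D * D) x x ≤ Θ * om :=
    fun x => (hrowS x).trans (mul_le_mul_of_nonneg_right hΘS hompos.le)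
  -- the shift
  obtain ⟨k, hkd⟩ : ∃ k : ℝ, k = (∑ z ∈ π.unres, s7short π₀ t0 σ h i z) / (π.unres.card : ℝ) :=
    ⟨_, rfl⟩
  have hsupp : ∀ x, ¬ s7near π₀ t0 i x → s7short π₀ t0 σ h i x = 0 := by
    obtain ⟨a, ha, c, hc, hac⟩ := Finset.one_lt_card.1 (lt_of_lt_of_le (by norm_num) hl8 :
      1 < π.unres.card)
    exact (s7_flags n d π₀ π t0 a c (s7ac_mem_unres.1 ha) (s7ac_mem_unres.1 hc) hac).2.2 σ h i
  have hk1 : |k| ≤ 1 / (π.l : ℝ) := by
    rw [hkd, abs_div]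
    have e : |(π.unres.card : ℝ)| = (π.l : ℝ) := abs_of_pos hL0
    rw [e]
    exact div_le_div_of_nonneg_right
      (s7gw_sum_le_one π.unres _ (fun x => s7near π₀ t0 i x) hsupp huniq hcle) hL0.le
  have hk1' : |k| ≤ 1 := by
    refine hk1.trans ?_
    rw [div_le_one hL0]
    linarith
  obtain ⟨rm, rv, rp⟩ := hRow (Stub n d) σ h (s7eps n : ℝ) π.unres D base hεa hl1 I r _ _ _ hAll
    hcent hopD hrowG hεr (by linarith)
  obtain ⟨sm, sp⟩ := hShift (Stub n d) σ h (s7eps n : ℝ) π.unres D base hεb hl2 I r _ _ _ k hAll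
    hcent hopD hrowG hεr (by linarith) hk1'
  have hΘom : 0 ≤ Θ * om := hN0.trans hN
  have hsg : Real.sqrt (Θ * om * s7sq r) ≤ Θ * om := by
    calc Real.sqrt (Θ * om * s7sq r) ≤ Real.sqrt (Θ * om * (Θ * om)) :=
          Real.sqrt_le_sqrt (mul_le_mul_of_nonneg_left hN hΘom)
      _ = Θ * om := Real.sqrt_mul_self hΘom
  have hTcap : s7T D ≤ (s7Tcap par.g n : ℝ) := by rw [hD]; exact cap.dgT
  have hgap : 9 / 10 * dl ≤ 1 - h ^ 2 * s7X D / ((π.l : ℝ) - 1) := by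
    rw [hdl, hD]; exact der.gapD
  have hsN : Real.sqrt (s7sq r / (π.l : ℝ)) ≤ Θ / Real.sqrt (π.l : ℝ) := by
    rw [Real.sqrt_div hN0]
    refine div_le_div_of_nonneg_right ?_ (Real.sqrt_nonneg _)
    have h1 : s7sq r ≤ Θ ^ 2 := by
      calc s7sq r ≤ Θ * om := hN
        _ ≤ Θ * Θ := mul_le_mul_of_nonneg_left (st.hom1.trans hΘ1) (by linarith)
        _ = Θ ^ 2 := by ring
    calc Real.sqrt (s7sq r) ≤ Real.sqrt (Θ ^ 2) := Real.sqrt_le_sqrt h1
      _ = Θ := Real.sqrt_sq (by linarith)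
  have pzz : (0 : ℝ) < (scQ (-(2 / 10 * aa)) n : ℝ) := s7n_cast_pos _ n
  have hT0 : 0 ≤ s7T D := s7t_T_nonneg D
  have layer := s7gw_layer (I := I) hI2 (fun u v => s7sq (s7rstep σ h π.unres D r 0 u v))
    (fun u v => s7sq (s7rstep σ h π.unres D r k u v)) hnum st hnum2
    (X := s7X D) (h := h) (sL := Real.sqrt (π.l : ℝ)) (G := Θ * om) (T := s7T D) (k := k)
    (Real.sqrt_pos.2 hL0) (Real.sq_sqrt hL0.le) (Real.sqrt_mul hL0.le _)
    (Real.sq_sqrt pzz.le) rfl (Real.sqrt_nonneg _) hsg (Real.sqrt_nonneg _)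
    (Real.sqrt_le_sqrt hTcap) (s7t_T_nonneg D) hTcap rfl hgap
    (s7gw_weaken rm (by positivity) hC1R) (s7gw_weaken0 rv (by positivity) hC1R) hk1
    (Real.sqrt_nonneg _) hsN (s7gw_weaken0 sm (by positivity) hC2R)
    (fun u hu v hv huv => s7gw_weaken0 (sp u (hIR hu) v (hIR hv) huv) (by positivity) hC2R)
  rw [← hK1, ← hK2] at layer
  have key := s7_excStep (Stub n d) π.unres I par.p (s7sq r / om) (Tq : ℝ) (s7lam par.g n : ℝ)
    (K1 * ((s7kap par.g n : ℝ) * (s7lam par.g n : ℝ)) / (π.l : ℝ))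
    (K2 * ((s7kap par.g n : ℝ) * (s7lam par.g n : ℝ) ^ 2) / (π.l : ℝ))
    (fun u v => s7sq (s7rstep σ h π.unres D r k u v) / (om * (1 - dl / (π.l : ℝ))) - s7sq r / om)
    (fun u v => (s7PhaseA ℝ d n par φ π₀).Z (.grow j b i) (π.resolve u v))
    hp2 hIR plam (by positivity) (by positivity) ?_ ?_ layer.1 layer.2
  · refine key.trans (le_of_eq ?_)
    congr 2
    field_simp
  · -- ordinary events
    intro u hu v hv huv
    obtain ⟨huR, hun⟩ := (hmemI u).1 hu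
    obtain ⟨hvR, hvn⟩ := (hmemI v).1 hv
    constructor
    · have e := s7ac_ident hnum st (s7sq (s7rstep σ h π.unres D r k u v) - s7sq r)
      rw [add_sub_cancel] at e
      rw [e]
      refine s7ac_jump hnum st (Real.sqrt_nonneg _) hsg rfl ?_
      have a1 := rp u (hIR hu) v (hIR hv) huv
      have a2 := s7gw_shift_pt hnum st hC2.le (Real.sqrt_nonneg _) rfl hk1
        (sp u (hIR hu) v (hIR hv) huv)
      have a3 : s7sq (s7rstep σ h π.unres D r k u v) - s7sq r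
          = (s7sq (s7rstep σ h π.unres D r 0 u v) - s7sq r)
            + (s7sq (s7rstep σ h π.unres D r k u v) - s7sq (s7rstep σ h π.unres D r 0 u v)) := by
        ring
      rw [a3, hCRd, add_mul]
      exact (abs_add_le _ _).trans (add_le_add a1 a2)
    · have hf := (s7_flags n d π₀ π t0 u v huR hvR huv).2.1 i
      obtain ⟨-, -, ul, uun, -, -, -, urow, -⟩ := upd u v huR hvR huv
      have hl' : (π.resolve u v).l = π.l - 2 := by omega
      have hrem : s7removed π₀ (π.resolve u v) t0 i ↔ s7removed π₀ π t0 i := by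
        rw [hf]
        constructor
        · rintro (h1 | h1 | h1)
          · exact h1
          · exact absurd h1 hun
          · exact absurd h1 hvn
        · exact Or.inl
      refine le_of_eq ?_
      rw [hZ, if_congr hrem rfl rfl, ← hTq,
        s7gw_tail_ord π₀ π (π.resolve u v) t0 σ h i u v D (hIR hu) (hIR hv) huv
          (lt_of_lt_of_le (by norm_num) hl8) hun hvn uun (urow (S7Out.glob i)), ← hr, ← hkd, hl',
        s7ac_om_step par.g n π.l t hInv.card (by omega), ← hom, ← hdl, add_sub_cancel]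
  · -- the short endpoint is selected
    intro u hu v hv huv hnot
    have huR := s7ac_mem_unres.1 hu
    have hvR := s7ac_mem_unres.1 hv
    have hf := (s7_flags n d π₀ π t0 u v huR hvR huv).2.1 i
    obtain ⟨-, -, ul, uun, -, -, -, urow, -⟩ := upd u v huR hvR huv
    have hl' : (π.resolve u v).l = π.l - 2 := by omega
    obtain ⟨s, hs, hsuv⟩ : ∃ s, s7near π₀ t0 i s ∧ (s = u ∨ s = v) := by
      by_contra hc
      refine hnot ⟨(hmemI u).2 ⟨huR, fun hn => hc ⟨u, hn, Or.inl rfl⟩⟩,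
        (hmemI v).2 ⟨hvR, fun hn => hc ⟨v, hn, Or.inr rfl⟩⟩⟩
    have hsR : π.Unres s := by
      rcases hsuv with e | e
      · rw [e]; exact huR
      · rw [e]; exact hvR
    have hrem' : s7removed π₀ (π.resolve u v) t0 i := by
      rw [hf]
      rcases hsuv with e | e
      · exact Or.inr (Or.inl (e ▸ hs))
      · exact Or.inr (Or.inr (e ▸ hs))
    have hrem : ¬ s7removed π₀ π t0 i := by
      rintro ⟨x, hx, hxU⟩
      exact hxU ((huniq x s hx hs) ▸ hsR)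
    have hTq0 : Tq = s7ThV0 d := by rw [hTq, if_neg hrem]
    rw [hTq0] at hNT
    have exc := hExcR (Stub n d) σ h (s7eps n : ℝ) π.unres D base hεc hl3' r _ _
      (s7short π₀ t0 σ h i s) s hcent hrowS hrε (by linarith) (hcle s) u hu v hv huv hsuv
    have hq := (s7ac_om' hnum st).1
    have hle := s7gw_exc hN0 (mul_nonneg (by linarith) hompos.le) (s7t_sq_nonneg _) exc hNT rfl
      hompos hq
    rw [← hTh1] at hle
    rw [hZ, if_pos hrem',
      s7gw_tail_exc π₀ π (π.resolve u v) t0 σ h i u v s D hu hv huv huniq hs hsuv uun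
        (urow (S7Out.glob i)), ← hr, hl',
      s7ac_om_step par.g n π.l t hInv.card (by omega), ← hom, ← hdl]
    refine le_trans (le_of_eq ?_) (excessZ_pos _ _ _ _ plam)
    unfold excessZ
    rw [max_eq_right (by linarith), zero_div, zero_pow (by omega), add_zero]

end Claimed.Agent.R275
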