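import Claimed.Agent.R275.S7PhaseA
import Claimed.Agent.R275.S7Num
import Claimed.Agent.R275.S7Tools
import Claimed.Agent.R275.S7StepA
import Claimed.Agent.R275.S8AsymA
import Claimed.Agent.R275.S7AStepGap

/-!
# Row 275, Section 7, leaf S7-A-STEP-NRM-TRY-DGT: one step of the scalar accounts of Phase A

Prover: helper91.  Prefix `s7as_`.  Statements `StS7AStepNrm`, `StS7AStepTrY`, `StS7AStepDgT` in `R275/S7PhaseA.lean` (helper245).
Accounts `1 + Tr D⁸/S_N`, `1 + Y²/S_Y²`, `1 + T/S_T` (the last two also for the reference `D̂`).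
-/

set_option autoImplicit false
set_option linter.unusedSectionVars false
set_option linter.unusedVariables false

namespace Claimed.Agent.R275

open Matrix Filter

/-! ## numerics: the calculus of power bounds (S8AsymA) with the parameter `L`, `l₂ ≤ L ≤ l₀` -/

/-- the admissible sizes of Phase A -/
def s7as_OK (g : ℚ) (n : ℕ) (L : ℝ) : Prop := (s7l2 g n : ℝ) ≤ L ∧ L ≤ (l0 n : ℝ)

section Calc

variable {ι : Type} {OK : ℕ → ι → Prop}

theorem s7as_up_scQ (x : ℚ) : S8UpF OK (fun n _ => (scQ x n : ℝ)) (x : ℝ) := by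
  rcases le_total 0 x with hx | hx
  · exact ⟨1, fun n p hn _ => ⟨Nat.one_le_cast.2 hn, (s7n_cast_pos x n).le, by
      show (scQ x n : ℝ) ≤ 1 * (n : ℝ) ^ (x : ℝ)
      rw [one_mul]
      exact scQ_le_of_nonneg x hx n hn⟩⟩
  · exact ⟨2 ^ (-(x : ℝ)), fun n p hn _ => ⟨Nat.one_le_cast.2 hn, (s7n_cast_pos x n).le, by
      show (scQ x n : ℝ) ≤ 2 ^ (-(x : ℝ)) * (n : ℝ) ^ (x : ℝ)
      rw [mul_comm]
      exact scQ_le_of_nonpos x hx n hn⟩⟩

theorem s7as_lo_scQ (x : ℚ) : S8LoF OK (fun n _ => (scQ x n : ℝ)) (x : ℝ) := by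
  rcases le_total 0 x with hx | hx
  · exact ⟨1 / 2 ^ ((x : ℝ) + 1), fun n p hn _ => ⟨Nat.one_le_cast.2 hn, by positivity, by
      show 1 / 2 ^ ((x : ℝ) + 1) * (n : ℝ) ^ (x : ℝ) ≤ (scQ x n : ℝ)
      rw [div_mul_eq_mul_div, one_mul]
      exact le_scQ_of_nonneg x hx n hn⟩⟩
  · exact ⟨1 / 2, fun n p hn _ => ⟨Nat.one_le_cast.2 hn, by norm_num, by
      show 1 / 2 * (n : ℝ) ^ (x : ℝ) ≤ (scQ x n : ℝ)
      have := le_scQ_of_nonpos x hx n hn
      linarith⟩⟩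

theorem s7as_l0_cast (n : ℕ) : (l0 n : ℝ) = 2 * (scQ (2 / 3 + 15 / 100 * aa) n : ℝ) := by
  exact_mod_cast s7n_l0 n

theorem s7as_up_l0 : S8UpF OK (fun n _ => (l0 n : ℝ)) (0 + ((2 / 3 + 15 / 100 * aa : ℚ) : ℝ)) := by
  have h := (S8UpF.const (OK := OK) 2 (by norm_num)).mul (s7as_up_scQ (OK := OK) (2 / 3 + 15 / 100 * aa))
  have e : (fun (n : ℕ) (_ : ι) => (l0 n : ℝ)) = fun n _ => 2 * (scQ (2 / 3 + 15 / 100 * aa) n : ℝ) := by
    funext n _
    exact s7as_l0_cast n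
  rw [e]
  exact h

theorem s7as_lo_l0 : S8LoF OK (fun n _ => (l0 n : ℝ)) (0 + ((2 / 3 + 15 / 100 * aa : ℚ) : ℝ)) := by
  have h := (S8LoF.const (OK := OK) 2 (by norm_num)).mul (s7as_lo_scQ (OK := OK) (2 / 3 + 15 / 100 * aa))
  have e : (fun (n : ℕ) (_ : ι) => (l0 n : ℝ)) = fun n _ => 2 * (scQ (2 / 3 + 15 / 100 * aa) n : ℝ) := by
    funext n _
    exact s7as_l0_cast n
  rw [e]
  exact h

theorem s7as_SY2_cast (n : ℕ) : (s7SY2 n : ℝ) = (l0 n : ℝ) * (scQ (-(12 / 100 * aa)) n : ℝ) := by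
  unfold s7SY2
  push_cast
  ring

theorem s7as_lo_SY2 : S8LoF OK (fun n _ => (s7SY2 n : ℝ))
    (0 + ((2 / 3 + 15 / 100 * aa : ℚ) : ℝ) + ((-(12 / 100 * aa) : ℚ) : ℝ)) := by
  have h := (s7as_lo_l0 (OK := OK)).mul (s7as_lo_scQ (OK := OK) (-(12 / 100 * aa)))
  have e : (fun (n : ℕ) (_ : ι) => (s7SY2 n : ℝ))
      = fun n _ => (l0 n : ℝ) * (scQ (-(12 / 100 * aa)) n : ℝ) := by
    funext n _
    exact s7as_SY2_cast n
  rw [e]
  exact h

end Calc

theorem s7as_up_L (g : ℚ) : S8UpF (s7as_OK g) (fun _ L => L) (0 + ((2 / 3 + 15 / 100 * aa : ℚ) : ℝ)) := by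
  obtain ⟨C, hC⟩ := s7as_up_l0 (OK := s7as_OK g)
  exact ⟨C, fun n L hn ok => (hC n L hn ok).of_le (le_trans (Nat.cast_nonneg _) ok.1) ok.2⟩

theorem s7as_lo_L {g : ℚ} (hg : S7gOK g) :
    S8LoF (s7as_OK g) (fun _ L => L) (0 + ((2 / 3 + 15 / 100 * aa - 2 * g : ℚ) : ℝ)) := by
  have h := (S8LoF.const (OK := s7as_OK g) 2 (by norm_num)).mul
    (s7as_lo_scQ (OK := s7as_OK g) (2 / 3 + 15 / 100 * aa - 2 * g))
  refine h.of_le fun n L _ ok => ?_
  have e : (s7l2 g n : ℝ) = 2 * (scQ (2 / 3 + 15 / 100 * aa - 2 * g) n : ℝ) := by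
    exact_mod_cast s7n_l2 hg n
  show 2 * (scQ (2 / 3 + 15 / 100 * aa - 2 * g) n : ℝ) ≤ L
  rw [← e]
  exact ok.1

theorem s7as_g_real {g : ℚ} (hg : S7gOK g) : (0 : ℝ) < (g : ℝ) ∧ (g : ℝ) ≤ 1 / 10 ^ 9 := by
  obtain ⟨h0, h1⟩ := hg
  refine ⟨by exact_mod_cast h0, ?_⟩
  have h2 : g ≤ 1 / 10 ^ 9 := by
    unfold aa at h1
    linarith
  have h3 := (Rat.cast_le (K := ℝ)).2 h2
  push_cast at h3
  exact h3

/-- `(1 + √T_cap) √z₂ ≤ 1` -/
theorem s7as_f1 {g : ℚ} (hg : S7gOK g) : ∀ᶠ n : ℕ in atTop,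
    (1 + Real.sqrt (s7Tcap g n : ℝ)) * Real.sqrt (scQ (-(2 / 10 * aa)) n : ℝ) ≤ 1 := by
  obtain ⟨g0, g1⟩ := s7as_g_real hg
  have h := s8as_finalF (OK := fun _ (_ : Unit) => True)
    (((S8UpF.const 1 (by norm_num)).add (s7as_up_scQ (4 * s7eta0 g)).sqrt).mul
      (s7as_up_scQ (-(2 / 10 * aa))).sqrt) (S8LoF.const 1 (by norm_num)) (by
      unfold s7eta0
      push_cast
      simp only [s8as_aa]
      rw [max_eq_right (by linarith)]
      linarith)
  filter_upwards [h] with n hn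
  exact hn () trivial

/-- `|Y| + Z + 1 ≤ √l` -/
theorem s7as_f2 {g : ℚ} (hg : S7gOK g) : ∀ᶠ n : ℕ in atTop, ∀ L : ℝ, s7as_OK g n L →
    Real.sqrt ((l0 n : ℝ) * (scQ (-(8 / 100 * aa)) n : ℝ)) + Real.sqrt (L * (scQ (-(2 / 10 * aa)) n : ℝ)) + 1
      ≤ Real.sqrt L := by
  obtain ⟨g0, g1⟩ := s7as_g_real hg
  exact s8as_finalF
    ((((s7as_up_l0.mul (s7as_up_scQ (-(8 / 100 * aa)))).sqrt).add
      (((s7as_up_L g).mul (s7as_up_scQ (-(2 / 10 * aa)))).sqrt)).add (S8UpF.const 1 (by norm_num)))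
    (s7as_lo_L hg).sqrt (by
      push_cast
      simp only [s8as_aa]
      refine max_lt (max_lt ?_ ?_) ?_ <;> linarith)

theorem s7as_f2h {g : ℚ} (hg : S7gOK g) : ∀ᶠ n : ℕ in atTop, ∀ L : ℝ, s7as_OK g n L →
    Real.sqrt ((l0 n : ℝ) * (scQ (-(8 / 100 * aa)) n : ℝ)) + 1 / 4 + 1 ≤ Real.sqrt L := by
  obtain ⟨g0, g1⟩ := s7as_g_real hg
  exact s8as_finalF
    ((((s7as_up_l0.mul (s7as_up_scQ (-(8 / 100 * aa)))).sqrt).add
      (S8UpF.const (1 / 4) (by norm_num))).add (S8UpF.const 1 (by norm_num)))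
    (s7as_lo_L hg).sqrt (by
      push_cast
      simp only [s8as_aa]
      refine max_lt (max_lt ?_ ?_) ?_ <;> linarith)

/-- the rate of the trace accounts -/
theorem s7as_f4 {g : ℚ} (hg : S7gOK g) : ∀ᶠ n : ℕ in atTop, ∀ L : ℝ, s7as_OK g n L →
    (1 + Real.sqrt (L * (scQ (-(2 / 10 * aa)) n : ℝ)) + (s7Tcap g n : ℝ)) / Real.sqrt (s7SY2 n : ℝ)
      + (1 + Real.sqrt (L * (scQ (-(2 / 10 * aa)) n : ℝ)) ^ 2 + (s7Tcap g n : ℝ)) / (s7SY2 n : ℝ)
      ≤ (s7kap g n : ℝ) := by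
  obtain ⟨g0, g1⟩ := s7as_g_real hg
  exact s8as_finalF
    (((((S8UpF.const 1 (by norm_num)).add (((s7as_up_L g).mul (s7as_up_scQ (-(2 / 10 * aa)))).sqrt)).add
        (s7as_up_scQ (4 * s7eta0 g))).div s7as_lo_SY2.sqrt).add
      ((((S8UpF.const 1 (by norm_num)).add ((((s7as_up_L g).mul (s7as_up_scQ (-(2 / 10 * aa)))).sqrt).pow 2)).add
        (s7as_up_scQ (4 * s7eta0 g))).div s7as_lo_SY2))
    (s7as_lo_scQ (-(2 * s7eta0 g))) (by
      unfold s7eta0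
      push_cast
      simp only [s8as_aa]
      refine max_lt ?_ ?_ <;> rw [sub_lt_iff_lt_add] <;> refine max_lt (max_lt ?_ ?_) ?_ <;> linarith)

theorem s7as_f4h {g : ℚ} (hg : S7gOK g) : ∀ᶠ n : ℕ in atTop,
    (1 + 1 / 4 + (s7Tcap g n : ℝ)) / Real.sqrt (s7SY2 n : ℝ)
      + (1 + (1 / 4 : ℝ) ^ 2 + (s7Tcap g n : ℝ)) / (s7SY2 n : ℝ) ≤ (s7kap g n : ℝ) := by
  obtain ⟨g0, g1⟩ := s7as_g_real hg
  have h := s8as_finalF (OK := fun _ (_ : Unit) => True)
    (((((S8UpF.const 1 (by norm_num)).add (S8UpF.const (1 / 4) (by norm_num))).add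
        (s7as_up_scQ (4 * s7eta0 g))).div s7as_lo_SY2.sqrt).add
      ((((S8UpF.const 1 (by norm_num)).add ((S8UpF.const (1 / 4) (by norm_num)).pow 2)).add
        (s7as_up_scQ (4 * s7eta0 g))).div s7as_lo_SY2))
    (s7as_lo_scQ (-(2 * s7eta0 g))) (by
      unfold s7eta0
      push_cast
      simp only [s8as_aa]
      refine max_lt ?_ ?_ <;> rw [sub_lt_iff_lt_add] <;> refine max_lt (max_lt ?_ ?_) ?_ <;> linarith)
  filter_upwards [h] with n hn
  exact hn () trivial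

theorem s7as_SN_pos (d : ℕ) (hd : 3 ≤ d) : ∀ᶠ n : ℕ in atTop, (0 : ℝ) < (s7SN d n : ℝ) := by
  have hd' : (3 : ℝ) ≤ (d : ℝ) := by exact_mod_cast hd
  filter_upwards [s7n_alS d hd] with n hn
  have h1 : (0 : ℝ) < (s7alS d n : ℝ) := by
    refine lt_of_lt_of_le ?_ hn.1
    have := s7n_cast_pos (-(1 / 3) + aa / 2) n
    have h2 : (0 : ℝ) < 32 * ((d : ℝ) - 1) := by linarith
    positivity
  have h2 : (0 : ℝ) < (l0 n : ℝ) := by
    have := s7n_l0_pos n
    exact_mod_cast (by omega : 0 < l0 n)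
  have h3 := s7n_cast_pos (13 / 100 * aa) n
  unfold s7SN
  push_cast
  positivity

theorem s7as_SY2_pos (n : ℕ) : (0 : ℝ) < (s7SY2 n : ℝ) := by
  rw [s7as_SY2_cast]
  have h2 : (0 : ℝ) < (l0 n : ℝ) := by
    have := s7n_l0_pos n
    exact_mod_cast (by omega : 0 < l0 n)
  have h3 := s7n_cast_pos (-(12 / 100 * aa)) n
  positivity

theorem s7as_inv_ST (g : ℚ) (n : ℕ) : 1 / (s7ST g n : ℝ) ≤ 2 * (s7kap g n : ℝ) := by
  have h := s7n_scQ_inv_le (2 * s7eta0 g) n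
  have h' := (Rat.cast_le (K := ℝ)).2 h
  push_cast at h'
  unfold s7ST s7kap
  rw [one_div]
  exact h'

/-! ## matrices -/

section Mat

variable {ι : Type} [Fintype ι] [DecidableEq ι]

theorem s7as_F8 {D : Matrix ι ι ℝ} (hs : Dᵀ = D) : s7F8 D = (D ^ 8).trace := by
  have h4 : (D ^ 4)ᵀ = D ^ 4 := by rw [Matrix.transpose_pow, hs]
  have e : D ^ 8 = D ^ 4 * D ^ 4 := by rw [← pow_add]
  rw [e, Matrix.trace]
  unfold s7F8
  refine Finset.sum_congr rfl fun x _ => ?_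
  rw [Matrix.diag_apply, Matrix.mul_apply]
  refine Finset.sum_congr rfl fun y _ => ?_
  rw [sq, s7t_symm_apply h4 y x]

theorem s7as_F8_nonneg (D : Matrix ι ι ℝ) : 0 ≤ s7F8 D :=
  Finset.sum_nonneg fun _ _ => Finset.sum_nonneg fun _ _ => sq_nonneg _

theorem s7as_op_diag {D : Matrix ι ι ℝ} (hs : Dᵀ = D) {Z : ℝ} (hZ : s7opLE D Z) (x : ι) :
    (D * D) x x ≤ Z ^ 2 := by
  have h := hZ.2 (Pi.single x 1)
  have e1 : D *ᵥ Pi.single x 1 = D x := by
    ext y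
    rw [Matrix.mulVec_single_one]
    exact s7t_symm_apply hs y x
  have e2 : s7sq (Pi.single x (1 : ℝ)) = 1 := by
    unfold s7sq
    simp
  rw [e1, e2, mul_one, s7t_sq_row hs] at h
  exact h

/-! ## the abstract steps -/

theorem s7as_aff (hAff : StS7AffAcc) (R : Finset ι) (X' Z' : ι → ι → ℝ) (X S κ c : ℝ) (hR : 2 ≤ R.card)
    (hS : 0 < S) (hX : 0 ≤ X) (hκ : 0 ≤ κ) (hc : 0 ≤ c) (hmean : s7avg R X' ≤ (1 + κ) * X + c)
    (hZ' : ∀ u ∈ R, ∀ v ∈ R, u ≠ v → Z' u v = 1 + X' u v / S) :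
    s7avg R Z' ≤ (1 + (κ + c / S)) * (1 + X / S) := by
  rw [s7t_avg_congr hZ']
  exact hAff ι R X S κ c X' hR hS hX hκ hc hmean

theorem s7as_sq (hSq : StS7SqAcc) (R : Finset ι) (dY Z' : ι → ι → ℝ) (Y S2 kY e ν : ℝ) (hR : 2 ≤ R.card)
    (hS : 0 < S2) (he : 0 ≤ e) (hν : 0 ≤ ν) (hk : kY ≤ 0) (hmean : |s7avg R dY - kY * Y| ≤ e)
    (hvar : s7avg R (fun u v => dY u v ^ 2) ≤ ν)
    (hZ' : ∀ u ∈ R, ∀ v ∈ R, u ≠ v → Z' u v = 1 + (Y + dY u v) ^ 2 / S2) :
    s7avg R Z' ≤ (1 + (e / Real.sqrt S2 + ν / S2)) * (1 + Y ^ 2 / S2) := by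
  rw [s7t_avg_congr hZ']
  refine hSq ι R Y S2 e ν dY hR hS he hν ?_ hvar
  have h1 : Y * (s7avg R dY - kY * Y) ≤ |Y| * e := by
    calc Y * (s7avg R dY - kY * Y) ≤ |Y * (s7avg R dY - kY * Y)| := le_abs_self _
      _ = |Y| * |s7avg R dY - kY * Y| := abs_mul _ _
      _ ≤ |Y| * e := mul_le_mul_of_nonneg_left hmean (abs_nonneg _)
  have h2 : kY * Y ^ 2 ≤ 0 := mul_nonpos_of_nonpos_of_nonneg hk (sq_nonneg _)
  nlinarith

end Mat

/-! ## real arithmetic -/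

theorem s7as_rate_try (C L Z T τ A S κ : ℝ) (hC : 0 ≤ C) (hL : 0 < L) (hT : T ≤ τ) (hA : 0 < A)
    (hS : 0 < S) (h : (1 + Z + τ) / A + (1 + Z ^ 2 + τ) / S ≤ κ) :
    C * (1 + Z + T) / L / A + C * (1 + Z ^ 2 + T) / L / S ≤ C * κ / L := by
  have e : C * (1 + Z + T) / L / A + C * (1 + Z ^ 2 + T) / L / S
      = C / L * ((1 + Z + T) / A + (1 + Z ^ 2 + T) / S) := by
    field_simp
  have e2 : C * κ / L = C / L * κ := by ring
  rw [e, e2]
  refine mul_le_mul_of_nonneg_left (le_trans ?_ h) (by positivity)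
  exact add_le_add (div_le_div_of_nonneg_right (by linarith) hA.le)
    (div_le_div_of_nonneg_right (by linarith) hS.le)

/-- the homogeneous drift of the trace is nonpositive -/
theorem s7as_kY (L h X : ℝ) (hL : 15 ≤ L) (hX : 0 ≤ X) (hu : h ^ 2 * X / (L - 1) ≤ 1) :
    -2 / (L - 1) + 2 * h ^ 2 * X / (L * (L - 1)) ≤ 0 := by
  have h1 : 0 < L - 1 := by linarith
  have hL0 : 0 < L := by linarith
  have e : 2 * h ^ 2 * X / (L * (L - 1)) = 2 / L * (h ^ 2 * X / (L - 1)) := by field_simp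
  have a1 : 2 / L * (h ^ 2 * X / (L - 1)) ≤ 2 / L * 1 := mul_le_mul_of_nonneg_left hu (by positivity)
  have a2 : 2 / L ≤ 2 / (L - 1) := div_le_div_of_nonneg_left (by norm_num) h1 (by linarith)
  have e2 : -2 / (L - 1) = -(2 / (L - 1)) := by ring
  rw [e, e2]
  linarith

/-! ## one exposure -/

theorem s7as_upd (hUpd : StS7Upd) {d n : ℕ} {par : S7Par} {φ : ℕ → ℚ} {π₀ π : PPair n d} {σ h : ℝ}
    (hn : 0 < n) (hext : π₀.Ext π) (hl : 4 ≤ π.l) (der : S7DerA d n par φ π₀ π σ h)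
    (hhmin : 0 < s7hmin d) (hpos : PosOn1 (π.Mmat σ h)) (hε : (s7eps n : ℝ) ≤ 1 / 16)
    (u v : Stub n d) (hu : u ∈ π.unres) (hv : v ∈ π.unres) (huv : u ≠ v) :
    s7D (π.resolve u v) σ h = s7Dstep σ h π.unres (s7D π σ h) u v ∧
    s7Dh π₀ (π.resolve u v) φ (Lcut d n) σ h
      = s7Dstep σ h π.unres (s7Dh π₀ π φ (Lcut d n) σ h) u v := by
  have hu' : π.Unres u := (Finset.mem_filter.1 hu).2
  have hv' : π.Unres v := (Finset.mem_filter.1 hv).2
  have up := hUpd n d π₀ π φ (Lcut d n) σ h u v hn hext hu' hv' huv hl der.sig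
    (lt_of_lt_of_le hhmin der.baseD.h_lo) der.baseD.h_hi hpos
    (fun x y => (der.baseD.ent x y).trans hε) der.refAt.unit
    (fun x y => (der.baseDh.ent x y).trans hε)
  obtain ⟨-, -, -, -, -, upD, upDh, -⟩ := up
  exact ⟨upD, upDh⟩

/-! ## the steps of Phase A -/

/-- **S7-A-STEP-0** 8-th moment. -/
theorem s7_aStepNrm (hDer : StS7ADer) (hUpd : StS7Upd) (hLavg : StS7Lavg) (hN : StS7NormStep)
    (hAff : StS7AffAcc) (hScore : StS7Score) : StS7AStepNrm := by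
  intro d hd
  have hhmin := s7ag_hmin_pos d hd
  have hC0 := s7ag_ThS_pos d hd
  obtain ⟨C, ε0, lE, hC, hε0, hE⟩ := hN (s7hmin d) ((s7ThS d : ℝ) + 1) hhmin hC0
  refine ⟨C, hC, ?_⟩
  intro par hpar
  obtain ⟨-, hg, hp, hcp0, hcp1⟩ := id hpar
  filter_upwards [hDer d par hpar, s7ag_num hg (min ε0 (1 / 16)) (by positivity) (max lE 15),
    s7as_SN_pos d hd, s7as_f1 hg] with n hder hnum hSN f1
  obtain ⟨hn1, hεs, hlm, -⟩ := hnum
  intro φ π₀ π t hstop hinv hl i hi hk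
  have hl15 : 15 ≤ π.l := by
    have := (le_max_right lE 15).trans hlm
    omega
  have hlE : lE ≤ π.l := by
    have := (le_max_left lE 15).trans hlm
    omega
  have hL : (15 : ℝ) ≤ (π.l : ℝ) := by exact_mod_cast hl15
  have hL0 : (0 : ℝ) < (π.l : ℝ) := by linarith
  refine ⟨add_nonneg (div_nonneg hC.le hL0.le) (div_nonneg hC.le hSN.le), ?_⟩
  cases i
  case nrm j b =>
    have hj : j ≤ Nprim d n par.cp := ((hScore d n par φ π₀ π).1 j b).1 hi
    have der := hder φ π₀ π t hstop hinv hl.le j hj b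
    have cap := hinv.cap j hj b
    have hop : (1 + Real.sqrt (s7T (s7D π (sgn b) ((prim d n j : ℚ) : ℝ))))
        * Real.sqrt ((π.l : ℝ) * (scQ (-(2 / 10 * aa)) n : ℝ)) ≤ Real.sqrt (π.unres.card : ℝ) := by
      rw [Real.sqrt_mul hL0.le]
      have a1 : Real.sqrt (s7T (s7D π (sgn b) ((prim d n j : ℚ) : ℝ))) ≤ Real.sqrt (s7Tcap par.g n : ℝ) :=
        Real.sqrt_le_sqrt cap.dgT
      have a2 : (1 + Real.sqrt (s7T (s7D π (sgn b) ((prim d n j : ℚ) : ℝ))))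
          * Real.sqrt (scQ (-(2 / 10 * aa)) n : ℝ) ≤ 1 :=
        le_trans (mul_le_mul_of_nonneg_right (by linarith) (Real.sqrt_nonneg _)) f1
      have a3 := mul_le_mul_of_nonneg_left a2 (Real.sqrt_nonneg (π.l : ℝ))
      have e : (π.unres.card : ℝ) = (π.l : ℝ) := rfl
      rw [e]
      nlinarith
    have ns := hE (Stub n d) (sgn b) ((prim d n j : ℚ) : ℝ) (s7eps n : ℝ) π.unres
      (s7D π (sgn b) ((prim d n j : ℚ) : ℝ)) der.baseD (hεs.trans (min_le_left _ _)) hlE _ der.opD hop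
    have hZ := (hLavg n d π (s7ZA ℝ d n par φ π₀ (.nrm j b))).1
    have e0 : (s7PhaseA ℝ d n par φ π₀).avg (.nrm j b) π
        = s7avg π.unres (fun u v => s7ZA ℝ d n par φ π₀ (.nrm j b) (π.resolve u v)) := hZ
    rw [e0]
    rw [← s7as_F8 der.baseD.symm] at ns
    refine s7as_aff hAff π.unres
      (fun u v => ((s7Dstep (sgn b) ((prim d n j : ℚ) : ℝ) π.unres
        (s7D π (sgn b) ((prim d n j : ℚ) : ℝ)) u v) ^ 8).trace) _
      (s7F8 (s7D π (sgn b) ((prim d n j : ℚ) : ℝ))) (s7SN d n : ℝ) (C / (π.l : ℝ)) C (by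
        have : π.unres.card = π.l := rfl
        omega) hSN (s7as_F8_nonneg _) (div_nonneg hC.le hL0.le) hC.le ns ?_
    intro u hu v hv huv
    obtain ⟨upD, -⟩ := s7as_upd hUpd (by omega) hinv.ext (by omega) der hhmin (hinv.pos j hj b)
      (hεs.trans (min_le_right _ _)) u v hu hv huv
    show 1 + s7F8 (s7D (π.resolve u v) (sgn b) ((prim d n j : ℚ) : ℝ)) / ((s7SN d n : ℚ) : ℝ) = _
    rw [upD, s7as_F8 (s7_struct ℝ (Stub n d) (sgn b) ((prim d n j : ℚ) : ℝ) π.unres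
      (s7D π (sgn b) ((prim d n j : ℚ) : ℝ)) u v 0 0 der.baseD.symm).1]
  all_goals exact absurd hk (by simp [S7Lab.kind])

/-- the rate of the diagonal squares -/
theorem s7as_rate_dgt (C L S κ W : ℝ) (hC : 0 ≤ C) (hL : 0 < L) (hS : 1 / S ≤ 2 * κ) (hW : 0 ≤ W) :
    (1 + (0 + C / L / S)) * W ≤ (1 + 2 * C * κ / L) * W := by
  refine mul_le_mul_of_nonneg_right ?_ hW
  have e : C / L / S = C / L * (1 / S) := by ring
  have e2 : 2 * C * κ / L = C / L * (2 * κ) := by ring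
  rw [e, e2]
  have := mul_le_mul_of_nonneg_left hS (by positivity : 0 ≤ C / L)
  linarith

/-- **S7-A-STEP-2** diagonal squares `T`, `T̂`. -/
theorem s7_aStepDgT (hDer : StS7ADer) (hUpd : StS7Upd) (hLavg : StS7Lavg) (hDg : StS7DiagStepA)
    (hAff : StS7AffAcc) (hScore : StS7Score) : StS7AStepDgT := by
  intro d par hpar
  obtain ⟨hd, hg, hp, hcp0, hcp1⟩ := id hpar
  have hhmin := s7ag_hmin_pos d hd
  have hC0 := s7ag_ThS_pos d hd
  obtain ⟨C, ε0, lE, hC, hε0, hE⟩ := hDg (s7hmin d) ((s7ThS d : ℝ) + 1) hhmin hC0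
  refine ⟨2 * C, by positivity, ?_⟩
  filter_upwards [hDer d par hpar, s7ag_num hg (min ε0 (1 / 16)) (by positivity) (max lE 15),
    s7as_f2 hg, s7as_f2h hg] with n hder hnum f2 f2h
  obtain ⟨hn1, hεs, hlm, -⟩ := hnum
  intro φ π₀ π t hstop hinv hl i hi hk
  have hκ0 : (0 : ℝ) < (s7kap par.g n : ℝ) := s7n_cast_pos _ n
  have hST : (0 : ℝ) < (s7ST par.g n : ℝ) := s7n_cast_pos _ n
  have hl15 : 15 ≤ π.l := by
    have := (le_max_right lE 15).trans hlm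
    omega
  have hlE : lE ≤ π.l := by
    have := (le_max_left lE 15).trans hlm
    omega
  have hL : (15 : ℝ) ≤ (π.l : ℝ) := by exact_mod_cast hl15
  have hL0 : (0 : ℝ) < (π.l : ℝ) := by linarith
  have hR2 : 2 ≤ π.unres.card := by
    have : π.unres.card = π.l := rfl
    omega
  have hok : s7as_OK par.g n (π.l : ℝ) := by
    refine ⟨by exact_mod_cast hl.le, ?_⟩
    have := hinv.card
    exact_mod_cast (by omega : π.l ≤ l0 n)
  refine ⟨by positivity, ?_⟩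
  cases i
  case dgT j b hat =>
    have hj : j ≤ Nprim d n par.cp := ((hScore d n par φ π₀ π).2.2.1 j b hat).1 hi
    have der := hder φ π₀ π t hstop hinv hl.le j hj b
    have cap := hinv.cap j hj b
    have hZ := (hLavg n d π (s7ZA ℝ d n par φ π₀ (.dgT j b hat))).1
    have e0 : (s7PhaseA ℝ d n par φ π₀).avg (.dgT j b hat) π
        = s7avg π.unres (fun u v => s7ZA ℝ d n par φ π₀ (.dgT j b hat) (π.resolve u v)) := hZ
    rw [e0]
    cases hat
    · -- the actual matrix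
      have hY : |s7Y (s7D π (sgn b) ((prim d n j : ℚ) : ℝ))|
          ≤ Real.sqrt ((l0 n : ℝ) * (scQ (-(8 / 100 * aa)) n : ℝ)) := Real.abs_le_sqrt cap.trY
      have ds := hE (Stub n d) (sgn b) ((prim d n j : ℚ) : ℝ) (s7eps n : ℝ) π.unres
        (s7D π (sgn b) ((prim d n j : ℚ) : ℝ)) der.baseD (hεs.trans (min_le_left _ _)) hlE _ der.opD
        (by
          have := f2 _ hok
          have e : (π.unres.card : ℝ) = (π.l : ℝ) := rfl
          rw [e]
          linarith)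
      have G := s7as_aff hAff π.unres
        (fun u v => s7T (s7Dstep (sgn b) ((prim d n j : ℚ) : ℝ) π.unres
          (s7D π (sgn b) ((prim d n j : ℚ) : ℝ)) u v))
        (fun u v => s7ZA ℝ d n par φ π₀ (.dgT j b false) (π.resolve u v))
        (s7T (s7D π (sgn b) ((prim d n j : ℚ) : ℝ))) (s7ST par.g n : ℝ) 0 (C / (π.l : ℝ)) hR2 hST
        (s7t_T_nonneg _) le_rfl (div_nonneg hC.le hL0.le) (by
          have e : (π.unres.card : ℝ) = (π.l : ℝ) := rfl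
          rw [e] at ds
          linarith) (by
          intro u hu v hv huv
          obtain ⟨upD, -⟩ := s7as_upd hUpd (by omega) hinv.ext (by omega) der hhmin (hinv.pos j hj b)
            (hεs.trans (min_le_right _ _)) u v hu hv huv
          show 1 + s7T (s7D (π.resolve u v) (sgn b) ((prim d n j : ℚ) : ℝ)) / ((s7ST par.g n : ℚ) : ℝ) = _
          rw [upD])
      refine G.trans ?_
      exact s7as_rate_dgt C (π.l : ℝ) (s7ST par.g n : ℝ) (s7kap par.g n : ℝ) _ hC.le hL0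
        (s7as_inv_ST par.g n) (add_nonneg zero_le_one (div_nonneg (s7t_T_nonneg _) hST.le))
    · -- the reference
      have hY : |s7Y (s7Dh π₀ π φ (Lcut d n) (sgn b) ((prim d n j : ℚ) : ℝ))|
          ≤ Real.sqrt ((l0 n : ℝ) * (scQ (-(8 / 100 * aa)) n : ℝ)) := Real.abs_le_sqrt cap.trYh
      have ds := hE (Stub n d) (sgn b) ((prim d n j : ℚ) : ℝ) (s7eps n : ℝ) π.unres
        (s7Dh π₀ π φ (Lcut d n) (sgn b) ((prim d n j : ℚ) : ℝ)) der.baseDh
        (hεs.trans (min_le_left _ _)) hlE _ der.opDh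
        (by
          have := f2h _ hok
          have e : (π.unres.card : ℝ) = (π.l : ℝ) := rfl
          rw [e]
          linarith)
      have G := s7as_aff hAff π.unres
        (fun u v => s7T (s7Dstep (sgn b) ((prim d n j : ℚ) : ℝ) π.unres
          (s7Dh π₀ π φ (Lcut d n) (sgn b) ((prim d n j : ℚ) : ℝ)) u v))
        (fun u v => s7ZA ℝ d n par φ π₀ (.dgT j b true) (π.resolve u v))
        (s7T (s7Dh π₀ π φ (Lcut d n) (sgn b) ((prim d n j : ℚ) : ℝ))) (s7ST par.g n : ℝ) 0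
        (C / (π.l : ℝ)) hR2 hST
        (s7t_T_nonneg _) le_rfl (div_nonneg hC.le hL0.le) (by
          have e : (π.unres.card : ℝ) = (π.l : ℝ) := rfl
          rw [e] at ds
          linarith) (by
          intro u hu v hv huv
          obtain ⟨-, upDh⟩ := s7as_upd hUpd (by omega) hinv.ext (by omega) der hhmin (hinv.pos j hj b)
            (hεs.trans (min_le_right _ _)) u v hu hv huv
          show 1 + s7T (s7Dh π₀ (π.resolve u v) φ (Lcut d n) (sgn b) ((prim d n j : ℚ) : ℝ))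
            / ((s7ST par.g n : ℚ) : ℝ) = _
          rw [upDh])
      refine G.trans ?_
      exact s7as_rate_dgt C (π.l : ℝ) (s7ST par.g n : ℝ) (s7kap par.g n : ℝ) _ hC.le hL0
        (s7as_inv_ST par.g n) (add_nonneg zero_le_one (div_nonneg (s7t_T_nonneg _) hST.le))
  all_goals exact absurd hk (by simp [S7Lab.kind])

/-- **S7-A-STEP-1** traces `Y`, `Ŷ`. -/
theorem s7_aStepTrY (hDer : StS7ADer) (hUpd : StS7Upd) (hLavg : StS7Lavg) (hTr : StS7TraceStep)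
    (hSq : StS7SqAcc) (hScore : StS7Score) : StS7AStepTrY := by
  intro d par hpar
  obtain ⟨hd, hg, hp, hcp0, hcp1⟩ := id hpar
  have hhmin := s7ag_hmin_pos d hd
  have hC0 := s7ag_ThS_pos d hd
  obtain ⟨C, ε0, lE, hC, hε0, hE⟩ := hTr (s7hmin d) ((s7ThS d : ℝ) + 1) hhmin hC0
  refine ⟨C, hC, ?_⟩
  filter_upwards [hDer d par hpar, s7ag_num hg (min ε0 (1 / 16)) (by positivity) (max lE 15),
    s7as_f4 hg, s7as_f4h hg] with n hder hnum f4 f4h
  obtain ⟨hn1, hεs, hlm, -⟩ := hnum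
  intro φ π₀ π t hstop hinv hl i hi hk
  have hκ0 : (0 : ℝ) < (s7kap par.g n : ℝ) := s7n_cast_pos _ n
  have hS2 : (0 : ℝ) < (s7SY2 n : ℝ) := s7as_SY2_pos n
  have hA : 0 < Real.sqrt (s7SY2 n : ℝ) := Real.sqrt_pos.2 hS2
  have hl15 : 15 ≤ π.l := by
    have := (le_max_right lE 15).trans hlm
    omega
  have hlE : lE ≤ π.l := by
    have := (le_max_left lE 15).trans hlm
    omega
  have hL : (15 : ℝ) ≤ (π.l : ℝ) := by exact_mod_cast hl15
  have hL0 : (0 : ℝ) < (π.l : ℝ) := by linarith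
  have hR2 : 2 ≤ π.unres.card := by
    have : π.unres.card = π.l := rfl
    omega
  have hok : s7as_OK par.g n (π.l : ℝ) := by
    refine ⟨by exact_mod_cast hl.le, ?_⟩
    have := hinv.card
    exact_mod_cast (by omega : π.l ≤ l0 n)
  refine ⟨by positivity, ?_⟩
  cases i
  case trY j b hat =>
    have hj : j ≤ Nprim d n par.cp := ((hScore d n par φ π₀ π).2.1 j b hat).1 hi
    have der := hder φ π₀ π t hstop hinv hl.le j hj b
    have cap := hinv.cap j hj b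
    have hh0 : 0 < ((prim d n j : ℚ) : ℝ) := lt_of_lt_of_le hhmin der.baseD.h_lo
    have hh1 : ((prim d n j : ℚ) : ℝ) ≤ 3 / 4 := der.baseD.h_hi
    have hh2 : ((prim d n j : ℚ) : ℝ) ^ 2 ≤ 1 := by nlinarith
    have hZ := (hLavg n d π (s7ZA ℝ d n par φ π₀ (.trY j b hat))).1
    have e0 : (s7PhaseA ℝ d n par φ π₀).avg (.trY j b hat) π
        = s7avg π.unres (fun u v => s7ZA ℝ d n par φ π₀ (.trY j b hat) (π.resolve u v)) := hZ
    rw [e0]
    cases hat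
    · -- the actual matrix
      have ts := hE (Stub n d) (sgn b) ((prim d n j : ℚ) : ℝ) (s7eps n : ℝ) π.unres
        (s7D π (sgn b) ((prim d n j : ℚ) : ℝ)) der.baseD (hεs.trans (min_le_left _ _)) hlE _ der.opD
      have hu1 : ((prim d n j : ℚ) : ℝ) ^ 2 * s7X (s7D π (sgn b) ((prim d n j : ℚ) : ℝ))
          / ((π.l : ℝ) - 1) ≤ 1 := by
        have := der.gapD
        obtain ⟨-, u1, -⟩ := s7ag_ubar par.g n π.l (by omega)
        linarith
      have G := s7as_sq hSq π.unres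
        (fun u v => s7Y (s7Dstep (sgn b) ((prim d n j : ℚ) : ℝ) π.unres
          (s7D π (sgn b) ((prim d n j : ℚ) : ℝ)) u v) - s7Y (s7D π (sgn b) ((prim d n j : ℚ) : ℝ)))
        (fun u v => s7ZA ℝ d n par φ π₀ (.trY j b false) (π.resolve u v))
        (s7Y (s7D π (sgn b) ((prim d n j : ℚ) : ℝ))) (s7SY2 n : ℝ) _ _ _ hR2 hS2
        (by
          have := s7t_T_nonneg (s7D π (sgn b) ((prim d n j : ℚ) : ℝ))
          positivity)
        (by
          have := s7t_T_nonneg (s7D π (sgn b) ((prim d n j : ℚ) : ℝ))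
          positivity)
        (s7as_kY (π.l : ℝ) _ _ hL (s7t_X_nonneg der.baseD.symm) hu1) ts.1 ts.2 (by
          intro u hu v hv huv
          obtain ⟨upD, -⟩ := s7as_upd hUpd (by omega) hinv.ext (by omega) der hhmin (hinv.pos j hj b)
            (hεs.trans (min_le_right _ _)) u v hu hv huv
          show 1 + s7Y (s7D (π.resolve u v) (sgn b) ((prim d n j : ℚ) : ℝ)) ^ 2 / ((s7SY2 n : ℚ) : ℝ) = _
          rw [upD, add_sub_cancel])
      refine G.trans (mul_le_mul_of_nonneg_right ?_ (by positivity))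
      have := s7as_rate_try C (π.l : ℝ) _ _ _ _ _ _ hC.le hL0 cap.dgT hA hS2 (f4 _ hok)
      have e : (π.unres.card : ℝ) = (π.l : ℝ) := rfl
      rw [e]
      linarith
    · -- the reference
      have ts := hE (Stub n d) (sgn b) ((prim d n j : ℚ) : ℝ) (s7eps n : ℝ) π.unres
        (s7Dh π₀ π φ (Lcut d n) (sgn b) ((prim d n j : ℚ) : ℝ)) der.baseDh
        (hεs.trans (min_le_left _ _)) hlE _ der.opDh
      have hX0 := s7t_X_nonneg der.baseDh.symm
      have hu1 : ((prim d n j : ℚ) : ℝ) ^ 2 * s7X (s7Dh π₀ π φ (Lcut d n) (sgn b) ((prim d n j : ℚ) : ℝ))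
          / ((π.l : ℝ) - 1) ≤ 1 := by
        have hX := s7t_X_le der.baseDh.symm der.baseDh.cent (s7as_op_diag der.baseDh.symm der.opDh)
        have e : (π.unres.card : ℝ) = (π.l : ℝ) := rfl
        rw [e] at hX
        rw [div_le_one (by linarith)]
        nlinarith
      have G := s7as_sq hSq π.unres
        (fun u v => s7Y (s7Dstep (sgn b) ((prim d n j : ℚ) : ℝ) π.unres
          (s7Dh π₀ π φ (Lcut d n) (sgn b) ((prim d n j : ℚ) : ℝ)) u v)
          - s7Y (s7Dh π₀ π φ (Lcut d n) (sgn b) ((prim d n j : ℚ) : ℝ)))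
        (fun u v => s7ZA ℝ d n par φ π₀ (.trY j b true) (π.resolve u v))
        (s7Y (s7Dh π₀ π φ (Lcut d n) (sgn b) ((prim d n j : ℚ) : ℝ))) (s7SY2 n : ℝ) _ _ _ hR2 hS2
        (by
          have := s7t_T_nonneg (s7Dh π₀ π φ (Lcut d n) (sgn b) ((prim d n j : ℚ) : ℝ))
          positivity)
        (by
          have := s7t_T_nonneg (s7Dh π₀ π φ (Lcut d n) (sgn b) ((prim d n j : ℚ) : ℝ))
          positivity)
        (s7as_kY (π.l : ℝ) _ _ hL hX0 hu1) ts.1 ts.2 (by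
          intro u hu v hv huv
          obtain ⟨-, upDh⟩ := s7as_upd hUpd (by omega) hinv.ext (by omega) der hhmin (hinv.pos j hj b)
            (hεs.trans (min_le_right _ _)) u v hu hv huv
          show 1 + s7Y (s7Dh π₀ (π.resolve u v) φ (Lcut d n) (sgn b) ((prim d n j : ℚ) : ℝ)) ^ 2
            / ((s7SY2 n : ℚ) : ℝ) = _
          rw [upDh, add_sub_cancel])
      refine G.trans (mul_le_mul_of_nonneg_right ?_ (by positivity))
      have := s7as_rate_try C (π.l : ℝ) _ _ _ _ _ _ hC.le hL0 cap.dgTh hA hS2 f4h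
      have e : (π.unres.card : ℝ) = (π.l : ℝ) := rfl
      rw [e]
      linarith
  all_goals exact absurd hk (by simp [S7Lab.kind])

end Claimed.Agent.R275
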