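import Claimed.Agent.R275.S7Coef

/-!
# Row 275, Section 7, package S7-STEP: the one-step estimates of Phases A and B (abstract form), statements

Owner of the statements: helper245.  Only `def St… : Prop`, no sorry.  A prover of `StS7Foo` creates `R275/S7Foo.lean` with
`theorem s7_foo : StS7Foo` (it may take other `St…` of S7Coef/S7Step as hypotheses: `theorem s7_foo (h1 : StS7Bilin) … : StS7Foo`).

All statements are about ONE step of the recursion (7.44) `D' = Q (D - D I H Iᵀ D) Q` for an arbitrary symmetric centred `D`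
(they are applied to the actual `D` and to the reference `D̂`), averaged over the ordered pairs `u ≠ v` of `R` (or of an allowed
subset `I ⊆ R`, `|R \ I| ≤ 4`).   `l = |R|`, `Y = Tr D`, `X = Tr D²`, `T = ∑ D_xx²`, `Z ≥ ‖D‖`, `G ≥ max (D²)_xx`.
Paper references are to `boundary.tex`; (7.xx) = `eq:original-xx`.
-/

set_option autoImplicit false
set_option linter.unusedVariables false

namespace Claimed.Agent.R275

open Matrix

/-- uniform quantifier prefix: constants `C ε0 l0` depend only on `hmin, C0`. -/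
def S7Unif (P : ℝ → (ι : Type) → [Fintype ι] → [DecidableEq ι] → ℝ → ℝ → ℝ → Finset ι →
    Matrix ι ι ℝ → Prop) : Prop :=
  ∀ hmin C0 : ℝ, 0 < hmin → 0 < C0 → ∃ C ε0 : ℝ, ∃ l0 : ℕ, 0 < C ∧ 0 < ε0 ∧
    ∀ (ι : Type) [Fintype ι] [DecidableEq ι] (σ h ε : ℝ) (R : Finset ι) (D : Matrix ι ι ℝ),
      S7Base hmin C0 ε σ h R D → ε ≤ ε0 → l0 ≤ R.card → P C ι σ h ε R D

/-! ## Structure -/

/-- **S7-STEP-0** the step preserves symmetry and centring; rows stay centred; `Π_{R'} Π_R = Π_{R'}`, `Π_{R'} I = 0`. -/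
def StS7Struct : Prop :=
  ∀ (K : Type) [Field K] [CharZero K] (ι : Type) [Fintype ι] [DecidableEq ι] (σ h : K) (R : Finset ι)
    (D : Matrix ι ι K) (u v : ι) (r : ι → K) (k : K), Dᵀ = D →
    (s7Dstep σ h R D u v)ᵀ = s7Dstep σ h R D u v ∧
    s7Pi K (s7sub R u v) * s7Dstep σ h R D u v = s7Dstep σ h R D u v ∧
    s7Pi K (s7sub R u v) *ᵥ s7rstep σ h R D r k u v = s7rstep σ h R D r k u v ∧
    s7Pi K (s7sub R u v) * s7Pi K R = s7Pi K (s7sub R u v) ∧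
    s7Pi K (s7sub R u v) * s7I K u v = 0 ∧
    s7Pi K R * s7Pi K R = s7Pi K R ∧ (s7Pi K R)ᵀ = s7Pi K R

/-- **S7-STEP-1** `Q = Π - Π I B Iᵀ Π` (text before (7.44)). -/
def StS7QForm : Prop :=
  ∀ (K : Type) [Field K] [CharZero K] (ι : Type) [Fintype ι] [DecidableEq ι] (R : Finset ι) (u v : ι),
    u ∈ R → v ∈ R → u ≠ v → 2 < R.card →
    s7Pi K (s7sub R u v) =
      s7Pi K R - s7Pi K R * s7I K u v * B2 K R.card * (s7I K u v)ᵀ * s7Pi K R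

/-- **S7-STEP-2** explicit bound `|H_ab| ≤ 1` (used for the explicit thresholds at exceptional events). -/
def StS7CoefOne : Prop :=
  S7Unif fun _ ι _ _ σ h _ R D => ∀ u ∈ R, ∀ v ∈ R, u ≠ v → ∀ i j, |s7H R.card σ h D u v i j| ≤ 1

/-- **S7-STEP-3** Jensen: an individual row is bounded by the contrast rows. -/
def StS7Jensen : Prop :=
  ∀ (ι : Type) [Fintype ι] [DecidableEq ι] (R : Finset ι) (D : Matrix ι ι ℝ) (G : ℝ), Dᵀ = D →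
    s7Pi ℝ R * D = D → 0 ≤ G →
    (∀ x ∈ R, ∀ y ∈ R, x ≠ y → s7sq (D *ᵥ s7ctr ℝ x y) ≤ G) → ∀ x, (D * D) x x ≤ G

/-! ## Exact trace identities (7.48), (7.51) -/

/-- **S7-STEP-4** (7.48), first line: `ΔY = - Tr BA - Tr H (K - ABA)`. -/
def StS7TraceId : Prop :=
  ∀ (K : Type) [Field K] [CharZero K] (ι : Type) [Fintype ι] [DecidableEq ι] (σ h : K) (R : Finset ι)
    (D : Matrix ι ι K) (u v : ι), u ∈ R → v ∈ R → u ≠ v → 2 < R.card → Dᵀ = D → s7Pi K R * D = D →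
    s7Y (s7Dstep σ h R D u v) - s7Y D =
      -(B2 K R.card * s7blk D u v).trace
      - (s7H R.card σ h D u v *
          (s7blk (D * D) u v - s7blk D u v * B2 K R.card * s7blk D u v)).trace

/-- **S7-STEP-5** (7.48), second identity, with `A = blk D`, `K = blk D²`, `J = blk D³`. -/
def StS7EnergyId : Prop :=
  ∀ (K : Type) [Field K] [CharZero K] (ι : Type) [Fintype ι] [DecidableEq ι] (σ h : K) (R : Finset ι)
    (D : Matrix ι ι K) (u v : ι), u ∈ R → v ∈ R → u ≠ v → 2 < R.card → Dᵀ = D → s7Pi K R * D = D →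
    let B := B2 K R.card
    let A := s7blk D u v
    let K2 := s7blk (D * D) u v
    let J := s7blk (D * D * D) u v
    let H := s7H R.card σ h D u v
    s7X (s7Dstep σ h R D u v) - s7X D =
      -2 * (B * K2).trace + (B * A * B * A).trace
      - 2 * (H * (J - A * B * K2 - K2 * B * A + A * B * A * B * A)).trace
      + (H * (K2 - A * B * A) * H * (K2 - A * B * A)).trace

/-- **S7-STEP-6** (7.51) with shift: for a centred row `r`, `a = Iᵀ r - k 1₂` in the update, `a₀ = Iᵀ r`, `b = Iᵀ D r`: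
`‖r'‖² - ‖r‖² = - a₀ᵀ B a₀ - 2 (b - A B a₀)ᵀ H a + aᵀ H (K - ABA) H a`. -/
def StS7RowId : Prop :=
  ∀ (K : Type) [Field K] [CharZero K] (ι : Type) [Fintype ι] [DecidableEq ι] (σ h : K) (R : Finset ι)
    (D : Matrix ι ι K) (r : ι → K) (k : K) (u v : ι), u ∈ R → v ∈ R → u ≠ v → 2 < R.card → Dᵀ = D →
    s7Pi K R * D = D → s7Pi K R *ᵥ r = r →
    (s7H R.card σ h D u v)ᵀ = s7H R.card σ h D u v →
    let B := B2 K R.card
    let A := s7blk D u v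
    let K2 := s7blk (D * D) u v
    let H := s7H R.card σ h D u v
    let a0 := s7pv r u v
    let a := s7pv r u v - fun _ => k
    let b := s7pv (D *ᵥ r) u v
    s7sq (s7rstep σ h R D r k u v) - s7sq r =
      -(s7q B a0 a0) - 2 * s7q H (b - (A * B) *ᵥ a0) a + s7q (H * (K2 - A * B * A) * H) a a

/-! ## Operator norm control (Phase A, `k = 8`) -/

/-- **S7-STEP-7** compression contracts the 8-th Schatten norm: `Tr (Q M Q)⁸ ≤ Tr M⁸` for symmetric `M`, `Q` a symmetric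
projection.  (Elementary: `Tr (QSQ)⁴ ≤ Tr S⁴` for `S ⪰ 0` via Frobenius norms; `0 ⪯ A ⪯ B ⇒ Tr A⁴ ≤ Tr B⁴` by two
Cauchy-Schwarz steps; `(QMQ)² ⪯ Q M² Q`.) -/
def StS7Schatten : Prop :=
  ∀ (ι : Type) [Fintype ι] [DecidableEq ι] (M Q : Matrix ι ι ℝ), Mᵀ = M → Qᵀ = Q → Q * Q = Q →
    ((Q * M * Q) ^ 8).trace ≤ (M ^ 8).trace

/-- **S7-STEP-8** extraction and initial value of the 8-th moment. -/
def StS7NormExtract : Prop :=
  ∀ (ι : Type) [Fintype ι] [DecidableEq ι] (D : Matrix ι ι ℝ), Dᵀ = D →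
    0 ≤ (D ^ 8).trace ∧ (∀ x : ι → ℝ, s7sq (D *ᵥ x) ^ 4 ≤ (D ^ 8).trace * s7sq x ^ 4) ∧
    ∀ Z, s7opLE D Z → (D ^ 8).trace ≤ Z ^ 6 * s7X D

/-- **S7-STEP-9** ("Operator norm control"): `E Tr D'⁸ ≤ (1 + C/l) Tr D⁸ + C`. -/
def StS7NormStep : Prop :=
  S7Unif fun C ι _ _ σ h _ R D => ∀ Z, s7opLE D Z →
    (1 + Real.sqrt (s7T D)) * Z ≤ Real.sqrt R.card →
    s7avg R (fun u v => ((s7Dstep σ h R D u v) ^ 8).trace) ≤
      (1 + C / R.card) * (D ^ 8).trace + C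

/-! ## Traces and diagonal squares -/

/-- **S7-STEP-10** drift and variance of `Y = Tr D`. -/
def StS7TraceStep : Prop :=
  S7Unif fun C ι _ _ σ h _ R D => ∀ Z, s7opLE D Z →
    |s7avg R (fun u v => s7Y (s7Dstep σ h R D u v) - s7Y D)
        - (-2 / ((R.card : ℝ) - 1) + 2 * h ^ 2 * s7X D / ((R.card : ℝ) * ((R.card : ℝ) - 1))) * s7Y D|
      ≤ C * (1 + Z + s7T D) / R.card ∧
    s7avg R (fun u v => (s7Y (s7Dstep σ h R D u v) - s7Y D) ^ 2) ≤ C * (1 + Z ^ 2 + s7T D) / R.card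

/-- **S7-STEP-11** (7.49) in Phase A: `E T' ≤ T + C/l` if `|Y| + Z + 1 ≤ √l`. -/
def StS7DiagStepA : Prop :=
  S7Unif fun C ι _ _ σ h _ R D => ∀ Z, s7opLE D Z → |s7Y D| + Z + 1 ≤ Real.sqrt R.card →
    s7avg R (fun u v => s7T (s7Dstep σ h R D u v)) ≤ s7T D + C / R.card

/-- **S7-STEP-12** (7.49) in Phase B ("Diagonal squares without a trace cap"): `E T' ≤ T + C/l` if `(D²)_xx ≤ G ≤ G0`. -/
def StS7DiagStepB : Prop :=
  ∀ hmin C0 : ℝ, 0 < hmin → 0 < C0 → ∃ C ε0 G0 : ℝ, ∃ l0 : ℕ, 0 < C ∧ 0 < ε0 ∧ 0 < G0 ∧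
    ∀ (ι : Type) [Fintype ι] [DecidableEq ι] (σ h ε : ℝ) (R : Finset ι) (D : Matrix ι ι ℝ),
      S7Base hmin C0 ε σ h R D → ε ≤ ε0 → l0 ≤ R.card → (∀ x, (D * D) x x ≤ G0) →
      s7avg R (fun u v => s7T (s7Dstep σ h R D u v)) ≤ s7T D + C / R.card

/-! ## The averaged energy `X = Tr D²` -/

/-- **S7-STEP-13** ("Growth of the averaged gap", before (7.50)). -/
def StS7EnergyStep : Prop :=
  S7Unif fun C ι _ _ σ h ε R D => ∀ Z, s7opLE D Z →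
    s7avg R (fun u v => s7X (s7Dstep σ h R D u v) - s7X D) ≤
      -4 * s7X D / ((R.card : ℝ) - 1) + 2 * h ^ 2 * s7X D ^ 2 / ((R.card : ℝ) * ((R.card : ℝ) - 1))
      + C * ((1 + Z ^ 2) * s7X D / (R.card : ℝ) ^ 2
          + (1 + Real.sqrt (s7T D)) * Z * s7X D / ((R.card : ℝ) * Real.sqrt R.card)
          + ε * s7X D / R.card + (1 + s7T D) / R.card) ∧
    s7avg R (fun u v => (s7X (s7Dstep σ h R D u v) - s7X D) ^ 2) ≤
      C * (1 + Z ^ 4 / R.card + (1 + s7T D) * Z ^ 2 / R.card)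

/-! ## Row energies -/

/-- **S7-STEP-14** homogeneous row update: mean ((7.52) before inserting the caps), second moment (7.53), pointwise bound. -/
def StS7RowStep : Prop :=
  S7Unif fun C ι _ _ σ h ε R D => ∀ (I : Finset ι) (r : ι → ℝ) (Z G εr : ℝ), S7Allowed R I →
    S7Cent R r → s7opLE D Z → (∀ x, (D * D) x x ≤ G) → (∀ x, |r x| ≤ εr) → εr ≤ 1 →
    s7avg I (fun u v => s7sq (s7rstep σ h R D r 0 u v) - s7sq r) ≤
      -2 * s7sq r / R.card + 2 * h ^ 2 * s7sq r * s7X D / ((R.card : ℝ) * ((R.card : ℝ) - 1))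
      + C * (εr ^ 2 / R.card + εr * Real.sqrt (G * s7sq r) / (R.card : ℝ) ^ 2
          + (1 + Real.sqrt (s7T D)) * Z * s7sq r / ((R.card : ℝ) * Real.sqrt R.card)
          + ε * s7sq r / R.card + (G + Z ^ 2) * s7sq r / (R.card : ℝ) ^ 2) ∧
    s7avg I (fun u v => (s7sq (s7rstep σ h R D r 0 u v) - s7sq r) ^ 2) ≤
      C * (εr ^ 2 * s7sq r / R.card + Z ^ 2 * s7sq r ^ 2 / (R.card : ℝ) ^ 2
          + (1 + s7T D) * εr ^ 2 * Z ^ 2 * s7sq r / (R.card : ℝ) ^ 2) ∧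
    ∀ u ∈ R, ∀ v ∈ R, u ≠ v →
      |s7sq (s7rstep σ h R D r 0 u v) - s7sq r| ≤ C * (εr ^ 2 + εr * Real.sqrt (G * s7sq r))

/-- **S7-STEP-15** the extra shift `k = c_i / l` of a global tail with active short endpoint. -/
def StS7RowShift : Prop :=
  S7Unif fun C ι _ _ σ h _ R D => ∀ (I : Finset ι) (r : ι → ℝ) (Z G εr k : ℝ), S7Allowed R I →
    S7Cent R r → s7opLE D Z → (∀ x, (D * D) x x ≤ G) → (∀ x, |r x| ≤ εr) → εr ≤ 1 → |k| ≤ 1 →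
    s7avg I (fun u v => |s7sq (s7rstep σ h R D r k u v) - s7sq (s7rstep σ h R D r 0 u v)|) ≤
      C * (|k| * (Z + 1) * Real.sqrt (s7sq r / R.card) + k ^ 2) ∧
    ∀ u ∈ R, ∀ v ∈ R, u ≠ v →
      |s7sq (s7rstep σ h R D r k u v) - s7sq (s7rstep σ h R D r 0 u v)| ≤
        C * (|k| * (Real.sqrt (G * s7sq r) + εr) + k ^ 2)

/-- **S7-STEP-16** (7.54), explicit constant: the short endpoint `s ∈ {u, v}` of `w = r + c Π_R e_s` is selected. -/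
def StS7RowExc : Prop :=
  S7Unif fun _ ι _ _ σ h _ R D => ∀ (r : ι → ℝ) (G εr c : ℝ) (s : ι), S7Cent R r →
    (∀ x, (D * D) x x ≤ G) → (∀ x, |r x| ≤ εr) → εr ≤ 1 / 10 → |c| ≤ 1 →
    ∀ u ∈ R, ∀ v ∈ R, u ≠ v → (s = u ∨ s = v) →
      Real.sqrt (s7sq (s7rstep σ h R D (r + c • fun x => s7Pi ℝ R x s) 0 u v)) ≤
        Real.sqrt (s7sq r) + 5 * Real.sqrt G

/-! ## Entries -/

/-- (7.55): the increment of an entry of `E = W - P̂`; `w₁ w₂` actual outer rows, `p₁ p₂` reference outer rows. -/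
noncomputable def s7dE {ι : Type*} [Fintype ι] [DecidableEq ι] {K : Type*} [Field K] (l : ℕ) (σ h : K)
    (D Dh : Matrix ι ι K) (w₁ w₂ p₁ p₂ : ι → K) (u v : ι) : K :=
  -(s7q (s7H l σ h D u v) (s7pv w₁ u v) (s7pv w₂ u v))
    + s7q (s7H l σ h Dh u v) (s7pv p₁ u v) (s7pv p₂ u v)

/-- common hypotheses on an actual outer row `w` and the reference outer row `p` of a label on an ordinary event:
centred on `R`, squared norms and entries bounded by `C1`, entries on the allowed set `I` bounded by `ε1`, `|w - p| ≤ β`. -/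
structure S7Outer {ι : Type*} [Fintype ι] [DecidableEq ι] (C1 ε1 β : ℝ) (R I : Finset ι)
    (w p : ι → ℝ) : Prop where
  wc : S7Cent R w
  pc : S7Cent R p
  wn : s7sq w ≤ C1
  pn : s7sq p ≤ C1
  wb : ∀ x, |w x| ≤ C1
  pb : ∀ x, |p x| ≤ C1
  ws : ∀ x ∈ I, |w x| ≤ ε1
  ps : ∀ x ∈ I, |p x| ≤ ε1
  df : ∀ x, |w x - p x| ≤ β

/-- uniform quantifier prefix for two matrices `D`, `D̂` and four outer rows; `C ε0 l0` depend only on `hmin C0 C1`. -/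
def S7Unif2 (P : ℝ → (ι : Type) → [Fintype ι] → [DecidableEq ι] → ℝ → ℝ → ℝ → ℝ → ℝ → Finset ι →
    Finset ι → Matrix ι ι ℝ → Matrix ι ι ℝ → (ι → ℝ) → (ι → ℝ) → (ι → ℝ) → (ι → ℝ) → Prop) : Prop :=
  ∀ hmin C0 C1 : ℝ, 0 < hmin → 0 < C0 → 0 < C1 → ∃ C ε0 : ℝ, ∃ l0 : ℕ, 0 < C ∧ 0 < ε0 ∧
    ∀ (ι : Type) [Fintype ι] [DecidableEq ι] (σ h ε ε1 β : ℝ) (R I : Finset ι)
      (D Dh : Matrix ι ι ℝ) (w₁ w₂ p₁ p₂ : ι → ℝ),
      S7Base hmin C0 ε σ h R D → S7Base hmin C0 ε σ h R Dh → ε ≤ ε0 → l0 ≤ R.card → S7Allowed R I →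
      S7Outer C1 ε1 β R I w₁ p₁ → S7Outer C1 ε1 β R I w₂ p₂ → ε1 ≤ 1 → 0 ≤ β → β ≤ 1 →
      (∀ x y, |D x y - Dh x y| ≤ β) → P C ι σ h ε ε1 β R I D Dh w₁ w₂ p₁ p₂

/-- **S7-STEP-17** (7.56), Phase A: mean of an entry increment on ordinary events.
Zero-`A` terms: (4.2) + centring (`C/l²`).  Single-`A` terms: `StS7SwapArr` (each of the two separately).
Remainder `N₂`: telescoping; `‖N₂ - N̂₂‖ ≤ C β ε`; `|(w-p)ᵀ N̂₂ w| ≤ C β ε1 ‖Â‖²`, `E ‖Â‖² ≤ C (1+τ)/l`. -/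
def StS7EntryMeanA : Prop :=
  S7Unif2 fun C ι _ _ σ h ε ε1 β R I D Dh w₁ w₂ p₁ p₂ => ∀ Z Zh τ : ℝ, s7opLE D Z → s7opLE Dh Zh →
    s7T D ≤ τ → s7T Dh ≤ τ →
    |s7avg I (fun u v => s7dE R.card σ h D Dh w₁ w₂ p₁ p₂ u v)| ≤
      C * ((1 + |s7Y D| + |s7Y Dh| + Z + Zh) / (R.card : ℝ) ^ 2 + β * (ε + ε1 * (1 + τ)) / R.card)

/-- **S7-STEP-18** Phase A: second moment and pointwise bound of an entry increment on ordinary events. -/
def StS7EntryVarA : Prop :=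
  S7Unif2 fun C ι _ _ σ h _ ε1 β R I D Dh w₁ w₂ p₁ p₂ => ∀ τ : ℝ, s7T D ≤ τ → s7T Dh ≤ τ →
    s7avg I (fun u v => (s7dE R.card σ h D Dh w₁ w₂ p₁ p₂ u v) ^ 2) ≤
      C * (1 + (1 + τ) * ε1 ^ 2) / (R.card : ℝ) ^ 2 ∧
    ∀ u ∈ I, ∀ v ∈ I, u ≠ v → |s7dE R.card σ h D Dh w₁ w₂ p₁ p₂ u v| ≤ C * β * ε1

/-- **S7-STEP-19** exceptional events, explicit constants: the exact telescoping form of (7.55). -/
def StS7EntryJump : Prop :=
  ∀ hmin C0 : ℝ, 0 < hmin → 0 < C0 → ∃ ε0 : ℝ, ∃ l0 : ℕ, 0 < ε0 ∧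
    ∀ (ι : Type) [Fintype ι] [DecidableEq ι] (σ h ε : ℝ) (R : Finset ι) (D Dh : Matrix ι ι ℝ)
      (w₁ w₂ p₁ p₂ : ι → ℝ) (b₁ b₂ b₃ mw mp₁ mp₂ : ℝ),
      S7Base hmin C0 ε σ h R D → S7Base hmin C0 ε σ h R Dh → ε ≤ ε0 → l0 ≤ R.card →
      ∀ u ∈ R, ∀ v ∈ R, u ≠ v →
      (∀ x, x = u ∨ x = v → |w₁ x - p₁ x| ≤ b₁ ∧ |w₂ x - p₂ x| ≤ b₂ ∧ |w₂ x| ≤ mw ∧ |p₁ x| ≤ mp₁ ∧
        |p₂ x| ≤ mp₂) →
      (∀ x y, (x = u ∨ x = v) → (y = u ∨ y = v) → |D x y - Dh x y| ≤ b₃) →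
      |s7dE R.card σ h D Dh w₁ w₂ p₁ p₂ u v| ≤ 4 * b₁ * mw + 4 * mp₁ * b₂ + 16 * mp₁ * mp₂ * b₃

/-- **S7-STEP-20** (7.60), Phase B: mean of an entry increment with the finer norms (7.59):
`∑_I w², ∑_I p² ≤ Wg`. -/
def StS7EntryMeanB : Prop :=
  S7Unif2 fun C ι _ _ σ h _ _ β R I D Dh w₁ w₂ p₁ p₂ => ∀ Zh τ Wg : ℝ, s7opLE Dh Zh →
    s7T D ≤ τ → s7T Dh ≤ τ → s7sqOn I w₁ ≤ Wg → s7sqOn I w₂ ≤ Wg → s7sqOn I p₁ ≤ Wg →
    s7sqOn I p₂ ≤ Wg →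
    |s7avg I (fun u v => s7dE R.card σ h D Dh w₁ w₂ p₁ p₂ u v)| ≤
      C * β * (1 / (R.card : ℝ) ^ 2 + Wg / R.card
        + (1 + Real.sqrt τ + Zh) * Real.sqrt Wg / R.card)

/-- **S7-STEP-21** Phase B: second moment of an entry increment; `∑_I (w - p)² ≤ Eg`. -/
def StS7EntryVarB : Prop :=
  S7Unif2 fun C ι _ _ σ h _ ε1 β R I D Dh w₁ w₂ p₁ p₂ => ∀ τ Wg Eg : ℝ,
    s7T D ≤ τ → s7T Dh ≤ τ → s7sqOn I w₁ ≤ Wg → s7sqOn I w₂ ≤ Wg → s7sqOn I p₁ ≤ Wg →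
    s7sqOn I p₂ ≤ Wg → s7sqOn I (w₁ - p₁) ≤ Eg → s7sqOn I (w₂ - p₂) ≤ Eg →
    s7avg I (fun u v => (s7dE R.card σ h D Dh w₁ w₂ p₁ p₂ u v) ^ 2) ≤
      C * ((Eg * Wg + β ^ 2 * Wg ^ 2) / (R.card : ℝ) ^ 2 + (1 + τ) * β ^ 2 * Wg / (R.card : ℝ) ^ 2
        + β ^ 2 * ε1 ^ 2 * Wg / R.card)

end Claimed.Agent.R275
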