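import Claimed.Agent.R275.S7RefIface
import Claimed.Agent.R275.S7Step
import Claimed.Agent.R275.S3Excess
import Claimed.Agent.R275.Stage
import Claimed.Agent.R275.PTIdx

/-!
# Row 275, Section 7: labels, scales, accounts and the two phases (`boundary.tex` §7.3-§7.5)

Owner: helper245.  DEFINITIONS ONLY (no statement, no sorry).

STATE of both phases: `PPair n d`; the stop `π₀` (state at `l₀`) and the taper `φ` are PARAMETERS.
`s7PhaseA K d n par φ π₀`, `s7PhaseB K d n par φ π₀ : Phase K (PPair n d) (S7Lab n d)` are defined over an arbitrary ordered field `K`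
(machine: `ℚ`, analysis: `ℝ`); every scale is a rational number (`scQ`) cast to `K`.

ALL EXPONENTS ARE EXPLICIT multiples of `a = aa` and of `g = r` (`par.g`, `0 < g ≤ a/10⁵`, small depending on `d` only):
  `ε = n^{-.001a}`, `ρ = n^{-.002a}` (reference tails), `η₀ = g/100` (incoming loss of `T`, `T̂`), `T`-normalisation `n^{2η₀}`,
  `T`-caps `n^{4η₀}` (Phase A), `n^{6η₀}` (Phase B), excess scales `λ_X = n^{-.0001a}` (gap), `λ = n^{-g/100}` (rows, entries),
  `δ = n^{-g}`, `l₂ = l₀ n^{-2g}`, `G_S = n^{-.3g}`, `G_V = n^{-.2g}`, `l₃ = n^{.001a}`, `B_A = n^{.38a}/√l₂`, `B_B = n^{.40a}/√l₂`;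
  order of the excess accounts `p ≥ 600/g`.
Thresholds (explicit): rows `ThS = 32d-12`, `ThV0 = 8d-2`, `ThV1 = 4(ThV0+1)+100(ThS+1)`; entries `s7Th` (1; 1, 12; 1, 159, 317).
Caps = threshold + 1 (in the unit of the account).
-/

set_option autoImplicit false
set_option linter.unusedVariables false

namespace Claimed.Agent.R275

open Matrix

/-! ## 1. Parameters and scales -/

/-- the free constants of Section 7 -/
structure S7Par where
  /-- `g = r` -/
  g : ℚ
  /-- the (large, even) order of the excess accounts -/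
  p : ℕ
  /-- the constant `cp` of the list of primaries -/
  cp : ℚ

/-- admissible `g` -/
def S7gOK (g : ℚ) : Prop := 0 < g ∧ g ≤ aa / 100000

/-- admissible order of the excess accounts -/
def S7pOK (g : ℚ) (p : ℕ) : Prop := 2 ≤ p ∧ 600 / g ≤ (p : ℚ)

def s7eta0 (g : ℚ) : ℚ := g / 100
/-- `ε` of (7.45) -/
def s7eps (n : ℕ) : ℚ := scQ (-(aa / 1000)) n
/-- bound of the reference tails at the stop -/
def s7rho (n : ℕ) : ℚ := scQ (-(2 * aa / 1000)) n
/-- the scale of the gap account -/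
def s7lamX (n : ℕ) : ℚ := scQ (-(aa / 10000)) n
/-- the common relative scale of the row and entry excess accounts -/
def s7lam (g : ℚ) (n : ℕ) : ℚ := scQ (-(g / 100)) n
/-- the common small factor of the growth rates -/
def s7kap (g : ℚ) (n : ℕ) : ℚ := scQ (-(2 * s7eta0 g)) n
/-- `δ ≍ n^{-g}` -/
def s7del (g : ℚ) (n : ℕ) : ℚ := scQ (-g) n
/-- `α_*` -/
def s7alS (d n : ℕ) : ℚ := alphaf d (prim d n 0)
/-- normalisation of the 8-th moment -/
def s7SN (d n : ℕ) : ℚ := (l0 n : ℚ) * (scQ (13 / 100 * aa) n / s7alS d n) ^ 6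
/-- SQUARE of the normalisation of the traces -/
def s7SY2 (n : ℕ) : ℚ := (l0 n : ℚ) * scQ (-(12 / 100 * aa)) n
/-- normalisation of the diagonal squares -/
def s7ST (g : ℚ) (n : ℕ) : ℚ := scQ (2 * s7eta0 g) n
/-- bound of the incoming diagonal squares -/
def s7Tin (g : ℚ) (n : ℕ) : ℚ := scQ (s7eta0 g) n
/-- cap of the diagonal squares in Phase A (and their normalisation in Phase B) -/
def s7Tcap (g : ℚ) (n : ℕ) : ℚ := scQ (4 * s7eta0 g) n
/-- cap of the diagonal squares in Phase B -/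
def s7TcapB (g : ℚ) (n : ℕ) : ℚ := scQ (6 * s7eta0 g) n
/-- `≍ 1/√l₂` -/
def s7isl2 (g : ℚ) (n : ℕ) : ℚ := scQ (-((2 / 3 + 15 / 100 * aa - 2 * g) / 2)) n
/-- `B_A ≍ n^{.38a}/√l₂` -/
def s7BA (g : ℚ) (n : ℕ) : ℚ := scQ (38 / 100 * aa - (2 / 3 + 15 / 100 * aa - 2 * g) / 2) n
/-- `B_B ≍ n^{.40a}/√l₂` -/
def s7BB (g : ℚ) (n : ℕ) : ℚ := scQ (40 / 100 * aa - (2 / 3 + 15 / 100 * aa - 2 * g) / 2) n
/-- bound of the incoming entries, `≍ n^{.375a}/√l₀` -/
def s7Bin (n : ℕ) : ℚ := scQ (375 / 1000 * aa - (2 / 3 + 15 / 100 * aa) / 2) n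
def s7GS (g : ℚ) (n : ℕ) : ℚ := scQ (-(3 / 10 * g)) n
def s7GV (g : ℚ) (n : ℕ) : ℚ := scQ (-(2 / 10 * g)) n
/-- exponent of `l₃` -/
def s7chi : ℚ := aa / 1000
/-- sizes at the ends of the phases -/
def s7l2 (g : ℚ) (n : ℕ) : ℕ := l2 (2 * g) n
def s7l3 (n : ℕ) : ℕ := l3 s7chi n
/-- short radius `t₀ = ⌊R₀/4⌋` -/
def s7t0 (d n : ℕ) : ℕ := R0 d n / 4

/-- `ū_l = l / (l + δ l₀)` -/
def s7ubar (g : ℚ) (n l : ℕ) : ℚ := (l : ℚ) / ((l : ℚ) + s7del g n * (l0 n : ℚ))

/-- `ω_l`: `ω_{l₀} = 1`, `ω_{l-2} = ω_l (1 - d_l / l)`, `d_l = 1 - ū_l` -/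
def s7om (g : ℚ) (n l : ℕ) : ℚ :=
  ∏ s ∈ Finset.range ((l0 n - l) / 2),
    (1 - (1 - s7ubar g n (l0 n - 2 * s)) / ((l0 n - 2 * s : ℕ) : ℚ))

/-- row thresholds -/
def s7ThS (d : ℕ) : ℚ := 32 * d - 12
def s7ThV0 (d : ℕ) : ℚ := 8 * d - 2
def s7ThV1 (d : ℕ) : ℚ := 4 * (s7ThV0 d + 1) + 100 * (s7ThS d + 1)

/-- entry thresholds: `ty` = number of global labels of the entry, `fl` = number of removed short endpoints -/
def s7Th (ty fl : ℕ) : ℚ :=
  if ty = 0 then 1 else if ty = 1 then (if fl = 0 then 1 else 12)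
  else (if fl = 0 then 1 else if fl = 1 then 159 else 317)

/-! ## 2. Output labels, account labels, lists -/

/-- output vectors of the tracked entries: a global vertex coordinate (`glob i`) or a fixed contrast `e_{vtx x} - e_{vtx y}`
(`ctr x y`).  A coded finite type (`FinIdx`, PTIdx.lean). -/
abbrev S7Out (n d : ℕ) := Fin n ⊕ (Stub n d × Stub n d)

namespace S7Out

variable {n d : ℕ}

@[match_pattern] def glob (i : Fin n) : S7Out n d := Sum.inl i
@[match_pattern] def ctr (x y : Stub n d) : S7Out n d := Sum.inr (x, y)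

/-- the vector of an output label -/
def vec (K : Type*) [Field K] : S7Out n d → Fin n → K
  | glob i => Pi.single i 1
  | ctr x y => Pi.single x.1 1 - Pi.single y.1 1

/-- a contrast is alive while its two stubs are unresolved -/
def Alive (π : PPair n d) : S7Out n d → Prop
  | glob _ => True
  | ctr x y => π.Unres x ∧ π.Unres y ∧ x ≠ y

instance (π : PPair n d) : (a : S7Out n d) → Decidable (Alive π a)
  | glob _ => inferInstanceAs (Decidable True)
  | ctr _ _ => inferInstanceAs (Decidable (_ ∧ _ ∧ _))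

/-- number of global labels -/
def ty : S7Out n d → ℕ
  | glob _ => 1
  | ctr _ _ => 0

/-- number of removed short endpoints -/
def fl (π₀ π : PPair n d) (t0 : ℕ) : S7Out n d → ℕ
  | glob i => if s7removed π₀ π t0 i then 1 else 0
  | ctr _ _ => 0

/-- the stubs that an ORDINARY event of the label must avoid -/
def Avoid (π₀ : PPair n d) (t0 : ℕ) : S7Out n d → Stub n d → Prop
  | glob i, z => s7near π₀ t0 i z
  | ctr x y, z => z = x ∨ z = y

instance (π₀ : PPair n d) (t0 : ℕ) : (a : S7Out n d) → (z : Stub n d) → Decidable (Avoid π₀ t0 a z)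
  | glob _, _ => inferInstanceAs (Decidable (s7near _ _ _ _))
  | ctr _ _, _ => inferInstanceAs (Decidable (_ ∨ _))

end S7Out

/-- account labels; `j` = index of the primary, `b` = sign, `hat` = reference version, `s` = sign of the entry -/
inductive S7Lab (n d : ℕ)
  | nrm (j : ℕ) (b : Bool)
  | trY (j : ℕ) (b hat : Bool)
  | dgT (j : ℕ) (b hat : Bool)
  | gap (j : ℕ) (b : Bool)
  | crow (j : ℕ) (b : Bool) (x y : Stub n d)
  | grow (j : ℕ) (b : Bool) (i : Fin n)
  | ent (j : ℕ) (b s : Bool) (a c : S7Out n d)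

section Lists

variable (n d : ℕ)

/-- (index of a primary, sign) -/
def s7pts (cp : ℚ) : List (ℕ × Bool) :=
  (List.range (Nprim d n cp + 1)).flatMap fun j => [(j, true), (j, false)]

def s7famNrm (cp : ℚ) : List (S7Lab n d) := (s7pts n d cp).map fun q => .nrm q.1 q.2
def s7famTrY (cp : ℚ) : List (S7Lab n d) :=
  (s7pts n d cp).flatMap fun q => [.trY q.1 q.2 false, .trY q.1 q.2 true]
def s7famDgT (cp : ℚ) : List (S7Lab n d) :=
  (s7pts n d cp).flatMap fun q => [.dgT q.1 q.2 false, .dgT q.1 q.2 true]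
def s7famGap (cp : ℚ) : List (S7Lab n d) := (s7pts n d cp).map fun q => .gap q.1 q.2
def s7famCrow (cp : ℚ) : List (S7Lab n d) :=
  (s7pts n d cp).flatMap fun q => (iall (Stub n d × Stub n d)).map fun xy => .crow q.1 q.2 xy.1 xy.2
def s7famGrow (cp : ℚ) : List (S7Lab n d) :=
  (s7pts n d cp).flatMap fun q => (iall (Fin n)).map fun i => .grow q.1 q.2 i
def s7famEnt (cp : ℚ) : List (S7Lab n d) :=
  (s7pts n d cp).flatMap fun q => [true, false].flatMap fun s =>
    (iall (S7Out n d × S7Out n d)).map fun ac => .ent q.1 q.2 s ac.1 ac.2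

/-- labels of Phase A (7 families) -/
def s7labsA (cp : ℚ) : List (S7Lab n d) :=
  s7famNrm n d cp ++ s7famTrY n d cp ++ s7famDgT n d cp ++ s7famGap n d cp ++ s7famCrow n d cp
    ++ s7famGrow n d cp ++ s7famEnt n d cp

/-- labels of Phase B (4 families) -/
def s7labsB (cp : ℚ) : List (S7Lab n d) :=
  s7famDgT n d cp ++ s7famCrow n d cp ++ s7famGrow n d cp ++ s7famEnt n d cp

/-- number of (primary, sign) pairs -/
def s7Npt (cp : ℚ) : ℕ := 2 * (Nprim d n cp + 1)

/-- size of the family of a label -/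
def s7fam (cp : ℚ) : S7Lab n d → ℕ
  | .nrm _ _ => s7Npt n d cp
  | .trY _ _ _ => 2 * s7Npt n d cp
  | .dgT _ _ _ => 2 * s7Npt n d cp
  | .gap _ _ => s7Npt n d cp
  | .crow _ _ _ _ => s7Npt n d cp * (n * d) ^ 2
  | .grow _ _ _ => s7Npt n d cp * n
  | .ent _ _ _ _ _ => s7Npt n d cp * 2 * (n + (n * d) ^ 2) ^ 2

end Lists

section Cands

variable {n d : ℕ}

/-- candidates: all ordered pairs of distinct unresolved stubs -/
def s7cands (π : PPair n d) : List (PPair n d) :=
  ((iall (Stub n d × Stub n d)).filter fun c => decide (π.Unres c.1 ∧ π.Unres c.2 ∧ c.1 ≠ c.2)).map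
    fun c => π.resolve c.1 c.2

end Cands

/-! ## 3. The matrices at a state -/

section Data

variable {n d : ℕ} {K : Type*} [Field K]

/-- the continued reference `P̂_π` -/
noncomputable def s7Ph (π₀ π : PPair n d) (φ : ℕ → ℚ) (L : ℕ) (σ h : K) : Matrix (Fin n) (Fin n) K :=
  s7Ref π₀ π (s7P0 π₀ (fun k => (φ k : K)) L σ h) σ h

/-- `D = Ξᵀ W Ξ - Π_l` -/
noncomputable def s7D (π : PPair n d) (σ h : K) : Matrix (Stub n d) (Stub n d) K :=
  s7Dof π (π.Wmat σ h)

/-- `D̂ = Ξᵀ P̂ Ξ - Π_l` -/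
noncomputable def s7Dh (π₀ π : PPair n d) (φ : ℕ → ℚ) (L : ℕ) (σ h : K) :
    Matrix (Stub n d) (Stub n d) K :=
  s7Dof π (s7Ph π₀ π φ L σ h)

/-- `E = W - P̂` -/
noncomputable def s7E (π₀ π : PPair n d) (φ : ℕ → ℚ) (L : ℕ) (σ h : K) : Matrix (Fin n) (Fin n) K :=
  π.Wmat σ h - s7Ph π₀ π φ L σ h

/-- entry of a vertex-space matrix at two output labels -/
def s7ent (X : Matrix (Fin n) (Fin n) K) (a c : S7Out n d) : K := a.vec K ⬝ᵥ (X *ᵥ c.vec K)

/-- outer row `Ξᵀ X f_a` of an output label -/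
def s7orow (π : PPair n d) (X : Matrix (Fin n) (Fin n) K) : S7Out n d → Stub n d → K
  | S7Out.glob i => s7row π X i
  | S7Out.ctr x y => s7row π X x.1 - s7row π X y.1

/-- `‖D⁴‖_F²` (`= Tr D⁸` for symmetric `D`), manifestly nonnegative -/
def s7F8 {ι : Type*} [Fintype ι] [DecidableEq ι] (D : Matrix ι ι K) : K := ∑ x, ∑ y, ((D ^ 4) x y) ^ 2

/-- the actual global tail `r_i` -/
noncomputable def s7r (π₀ π : PPair n d) (t0 : ℕ) (σ h : K) (i : Fin n) : Stub n d → K :=
  s7tail π₀ π t0 σ h (π.Wmat σ h) i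

end Data

/-! ## 4. Accounts -/

section Accounts

variable (K : Type) [Field K] [LinearOrder K] [IsStrictOrderedRing K] (d n : ℕ) (par : S7Par)
  (φ : ℕ → ℚ) (π₀ : PPair n d)

/-- accounts of Phase A -/
noncomputable def s7ZA : S7Lab n d → PPair n d → K
  | .nrm j b, π => 1 + s7F8 (s7D π (sgn b) ((prim d n j : ℚ) : K)) / ((s7SN d n : ℚ) : K)
  | .trY j b hat, π =>
      1 + (s7Y (if hat then s7Dh π₀ π φ (Lcut d n) (sgn b) ((prim d n j : ℚ) : K)
        else s7D π (sgn b) ((prim d n j : ℚ) : K))) ^ 2 / ((s7SY2 n : ℚ) : K)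
  | .dgT j b hat, π =>
      1 + s7T (if hat then s7Dh π₀ π φ (Lcut d n) (sgn b) ((prim d n j : ℚ) : K)
        else s7D π (sgn b) ((prim d n j : ℚ) : K)) / ((s7ST par.g n : ℚ) : K)
  | .gap j b, π =>
      excessZ 2 (((prim d n j : ℚ) : K) ^ 2 * s7X (s7D π (sgn b) ((prim d n j : ℚ) : K))
        / ((π.l : K) - 1) - ((s7ubar par.g n π.l : ℚ) : K)) 0 ((s7lamX n : ℚ) : K)
  | .crow j b x y, π =>
      if π.Unres x ∧ π.Unres y ∧ x ≠ y then
        excessZ par.p (s7sq (s7D π (sgn b) ((prim d n j : ℚ) : K) *ᵥ s7ctr K x y)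
          / ((s7om par.g n π.l : ℚ) : K)) ((s7ThS d : ℚ) : K) ((s7lam par.g n : ℚ) : K)
      else 0
  | .grow j b i, π =>
      excessZ par.p (s7sq (s7r π₀ π (s7t0 d n) (sgn b) ((prim d n j : ℚ) : K) i)
          / ((s7om par.g n π.l : ℚ) : K))
        (((if s7removed π₀ π (s7t0 d n) i then s7ThV1 d else s7ThV0 d : ℚ)) : K) ((s7lam par.g n : ℚ) : K)
  | .ent j b s a c, π =>
      if a.Alive π ∧ c.Alive π then
        excessZ par.p (sgn s * s7ent (s7E π₀ π φ (Lcut d n) (sgn b) ((prim d n j : ℚ) : K)) a c)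
          (((s7Th (a.ty + c.ty) (a.fl π₀ π (s7t0 d n) + c.fl π₀ π (s7t0 d n)) * s7BA par.g n : ℚ)) : K)
          (((s7lam par.g n * s7BA par.g n : ℚ)) : K)
      else 0

/-- accounts of Phase B (the labels `nrm`, `trY`, `gap` are not used) -/
noncomputable def s7ZB : S7Lab n d → PPair n d → K
  | .nrm _ _, _ => 0
  | .trY _ _ _, _ => 0
  | .gap _ _, _ => 0
  | .dgT j b hat, π =>
      1 + s7T (if hat then s7Dh π₀ π φ (Lcut d n) (sgn b) ((prim d n j : ℚ) : K)
        else s7D π (sgn b) ((prim d n j : ℚ) : K)) / ((s7Tcap par.g n : ℚ) : K)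
  | .crow j b x y, π =>
      if π.Unres x ∧ π.Unres y ∧ x ≠ y then
        excessZ par.p (s7sq (s7D π (sgn b) ((prim d n j : ℚ) : K) *ᵥ s7ctr K x y))
          ((s7GS par.g n : ℚ) : K) (((s7lam par.g n * s7GS par.g n : ℚ)) : K)
      else 0
  | .grow j b i, π =>
      excessZ par.p (s7sq (s7r π₀ π (s7t0 d n) (sgn b) ((prim d n j : ℚ) : K) i))
        ((((if s7removed π₀ π (s7t0 d n) i then 104 else 1) * s7GV par.g n : ℚ)) : K)
        (((s7lam par.g n * s7GV par.g n : ℚ)) : K)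
  | .ent j b s a c, π =>
      if a.Alive π ∧ c.Alive π then
        excessZ par.p (sgn s * s7ent (s7E π₀ π φ (Lcut d n) (sgn b) ((prim d n j : ℚ) : K)) a c)
          (((s7Th (a.ty + c.ty) (a.fl π₀ π (s7t0 d n) + c.fl π₀ π (s7t0 d n)) * s7BB par.g n : ℚ)) : K)
          (((s7lam par.g n * s7BB par.g n : ℚ)) : K)
      else 0

/-- Phase A: from `l₀` to `l₂` -/
noncomputable def s7PhaseA : Phase K (PPair n d) (S7Lab n d) where
  labels := s7labsA n d par.cp
  wt := fun i => ((s7fam n d par.cp i : ℕ) : K)⁻¹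
  Z := s7ZA K d n par φ π₀
  cands := s7cands

/-- Phase B: from `l₂` to `l₃` -/
noncomputable def s7PhaseB : Phase K (PPair n d) (S7Lab n d) where
  labels := s7labsB n d par.cp
  wt := fun i => ((s7fam n d par.cp i : ℕ) : K)⁻¹
  Z := s7ZB K d n par φ π₀
  cands := s7cands

end Accounts

/-! ## 5. The run of Section 7 -/

section Run

variable (d n : ℕ) (par : S7Par) (φ : ℕ → ℚ)

/-- one step of the final matching: the first candidate -/
def s7finStep {n d : ℕ} (π : PPair n d) : PPair n d := (s7cands π).head?.getD π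

/-- the state at `l₂` -/
noncomputable def s7runA (π₀ : PPair n d) : PPair n d :=
  ((s7PhaseA ℚ d n par φ π₀).run π₀ ((l0 n - s7l2 par.g n) / 2)).1

/-- the state at `l₃` -/
noncomputable def s7runB (π₀ : PPair n d) : PPair n d :=
  ((s7PhaseB ℚ d n par φ π₀).run (s7runA d n par φ π₀) ((s7l2 par.g n - s7l3 n) / 2)).1

/-- the completed pairing -/
noncomputable def s7run (π₀ : PPair n d) : PPair n d :=
  s7finStep^[s7l3 n / 2] (s7runB d n par φ π₀)

end Run

end Claimed.Agent.R275
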