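import Claimed.Agent.R275.S7AccTools
import Claimed.Agent.R275.L41G

/-!
# Row 275, Section 7, leaf S7-ACC-MAP: the accounts over `ℝ` are the casts of the accounts over `ℚ` (`StS7Map`)

Author: helper296.  Prefix `s7m_`.  No sorry.  Every object of `S7Acc.lean` is natural under a homomorphism of fields `f : K →+* K'`
(monotone for the excess accounts); the statement is the case `f = Rat.castHom ℝ`.
-/

set_option autoImplicit false
set_option linter.unusedSectionVars false
set_option linter.unusedVariables false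

namespace Claimed.Agent.R275

open Matrix

section Gen

variable {n d : ℕ} {K K' : Type*} [Field K] [Field K'] (f : K →+* K')

theorem s7m_cont {V : Type*} [Fintype V] [DecidableEq V] (X 𝒦 : Matrix V V K) :
    (s7cont X 𝒦).map f = s7cont (X.map f) (𝒦.map f) := by
  rw [s7cont, s7cont, map_mul', map_nonsing_inv, map_add', map_one', map_mul']

theorem s7m_Kinc (π₀ π : PPair n d) (σ h : K) :
    (s7Kinc π₀ π σ h).map f = s7Kinc π₀ π (f σ) (f h) := by
  rw [s7Kinc, s7Kinc, map_smul'', map_sub', PPair.map_Mmat, PPair.map_Mmat, map_mh]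

theorem s7m_Ref (π₀ π : PPair n d) (X₀ : Matrix (Fin n) (Fin n) K) (σ h : K) :
    (s7Ref π₀ π X₀ σ h).map f = s7Ref π₀ π (X₀.map f) (f σ) (f h) := by
  rw [s7Ref, s7Ref, s7m_cont, s7m_Kinc]

theorem s7m_sum {a b : Type*} (s : Finset ℕ) (g : ℕ → Matrix a b K) :
    (∑ j ∈ s, g j).map f = ∑ j ∈ s, (g j).map f := by
  ext i j
  simp only [Matrix.map_apply, Matrix.sum_apply, map_sum]

theorem s7m_P0 (π₀ : PPair n d) (φ : ℕ → K) (L : ℕ) (σ h : K) :
    (s7P0 π₀ φ L σ h).map f = s7P0 π₀ (fun k => f (φ k)) L (f σ) (f h) := by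
  rw [s7P0, s7P0, s7m_sum]
  refine Finset.sum_congr rfl fun k _ => ?_
  rw [map_smul'', map_mul', map_mul', map_Pi1, PPair.map_Qmat, map_mul, map_pow, map_mul]

theorem s7m_Dof (π : PPair n d) (X : Matrix (Fin n) (Fin n) K) :
    (s7Dof π X).map f = s7Dof π (X.map f) := by
  rw [s7Dof, s7Dof, map_sub', map_mul', map_mul', map_transpose', PPair.map_Xi, PPair.map_PiS]

theorem s7m_row (π : PPair n d) (X : Matrix (Fin n) (Fin n) K) (i : Fin n) :
    f ∘ s7row π X i = s7row π (X.map f) i := by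
  funext x
  simp only [Function.comp_apply, s7row, map_sum, map_mul, Matrix.map_apply]
  refine Finset.sum_congr rfl fun w _ => ?_
  rw [← PPair.map_Xi f π]
  rfl

theorem s7m_Cinc : (Cinc K n d).map f = Cinc K' n d := by
  ext v x
  simp only [Matrix.map_apply, Cinc]
  split_ifs <;> simp

theorem s7m_NBm : (NBm K n d).map f = NBm K' n d := by
  ext v x
  simp only [Matrix.map_apply, NBm]
  split_ifs <;> simp

theorem s7m_Pact (π : PPair n d) : (π.Pact K).map f = π.Pact K' := by
  ext v x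
  simp only [Matrix.map_apply, PPair.Pact]
  split_ifs <;> simp

theorem s7m_pow {a : Type*} [Fintype a] [DecidableEq a] (M : Matrix a a K) (k : ℕ) :
    (M ^ k).map f = (M.map f) ^ k := by
  induction k with
  | zero => rw [pow_zero, pow_zero, map_one']
  | succ k ih => rw [pow_succ, pow_succ, map_mul', ih]

theorem s7m_Nact (π : PPair n d) (k : ℕ) : (π.Nact K k).map f = π.Nact K' k := by
  cases k with
  | zero => exact map_one' f
  | succ k =>
    simp only [PPair.Nact]
    rw [map_mul', map_mul', map_mul', map_transpose', s7m_pow, map_mul', s7m_Cinc, s7m_NBm, s7m_Pact]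

theorem s7m_short (π₀ : PPair n d) (t0 : ℕ) (σ h : K) (i : Fin n) :
    f ∘ s7short π₀ t0 σ h i = s7short π₀ t0 (f σ) (f h) i := by
  funext x
  simp only [Function.comp_apply, s7short]
  split_ifs
  · rw [map_sum]
    refine Finset.sum_congr rfl fun k _ => ?_
    rw [map_mul, map_pow, map_mul, ← s7m_Nact f π₀ k]
    rfl
  · exact map_zero f

theorem s7m_sub_fun {a : Type*} (v w : a → K) : f ∘ (v - w) = f ∘ v - f ∘ w := by
  funext x
  simp

theorem s7m_tail (π₀ π : PPair n d) (t0 : ℕ) (σ h : K) (X : Matrix (Fin n) (Fin n) K) (i : Fin n) :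
    f ∘ s7tail π₀ π t0 σ h X i = s7tail π₀ π t0 (f σ) (f h) (X.map f) i := by
  rw [s7tail, s7tail, s7m_sub_fun, s7m_row, map_mulVec', PPair.map_PiS, s7m_short]

theorem s7m_F8 {ι : Type*} [Fintype ι] [DecidableEq ι] (D : Matrix ι ι K) : f (s7F8 D) = s7F8 (D.map f) := by
  simp only [s7F8, map_sum, map_pow]
  refine Finset.sum_congr rfl fun x _ => Finset.sum_congr rfl fun y _ => ?_
  rw [← s7m_pow]
  rfl

theorem s7m_Y {ι : Type*} [Fintype ι] [DecidableEq ι] (D : Matrix ι ι K) : f (s7Y D) = s7Y (D.map f) := by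
  rw [s7Y, s7Y, map_trace']

theorem s7m_X {ι : Type*} [Fintype ι] [DecidableEq ι] (D : Matrix ι ι K) : f (s7X D) = s7X (D.map f) := by
  rw [s7X, s7X, map_trace', map_mul']

theorem s7m_T {ι : Type*} [Fintype ι] [DecidableEq ι] (D : Matrix ι ι K) : f (s7T D) = s7T (D.map f) := by
  simp only [s7T, map_sum, map_pow, Matrix.map_apply]

theorem s7m_sq {ι : Type*} [Fintype ι] [DecidableEq ι] (r : ι → K) : f (s7sq r) = s7sq (f ∘ r) := by
  rw [s7sq, s7sq, map_dotProduct']

theorem s7m_ctr {ι : Type*} [Fintype ι] [DecidableEq ι] (x y : ι) : f ∘ s7ctr K x y = s7ctr K' x y := by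
  funext s
  simp only [Function.comp_apply, s7ctr, map_sub]
  congr 1 <;> split_ifs <;> simp

theorem s7m_vec (a : S7Out n d) : f ∘ a.vec K = a.vec K' := by
  rcases a with i | ⟨x, y⟩
  · funext s
    show f ((Pi.single i 1 : Fin n → K) s) = (Pi.single i 1 : Fin n → K') s
    simp only [Pi.single_apply]
    split_ifs <;> simp
  · funext s
    show f ((Pi.single x.1 1 - Pi.single y.1 1 : Fin n → K) s) = (Pi.single x.1 1 - Pi.single y.1 1 : Fin n → K') s
    simp only [Pi.sub_apply, Pi.single_apply, map_sub]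
    congr 1 <;> split_ifs <;> simp

theorem s7m_ent (X : Matrix (Fin n) (Fin n) K) (a c : S7Out n d) :
    f (s7ent X a c) = s7ent (X.map f) a c := by
  rw [s7ent, s7ent, map_dotProduct', map_mulVec', s7m_vec, s7m_vec]

theorem s7m_Ph (π₀ π : PPair n d) (φ : ℕ → ℚ) (L : ℕ) (σ h : K) :
    (s7Ph π₀ π φ L σ h).map f = s7Ph π₀ π φ L (f σ) (f h) := by
  rw [s7Ph, s7Ph, s7m_Ref, s7m_P0]
  simp only [map_ratCast]

theorem s7m_D (π : PPair n d) (σ h : K) : (s7D π σ h).map f = s7D π (f σ) (f h) := by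
  rw [s7D, s7D, s7m_Dof, PPair.map_Wmat]

theorem s7m_Dh (π₀ π : PPair n d) (φ : ℕ → ℚ) (L : ℕ) (σ h : K) :
    (s7Dh π₀ π φ L σ h).map f = s7Dh π₀ π φ L (f σ) (f h) := by
  rw [s7Dh, s7Dh, s7m_Dof, s7m_Ph]

theorem s7m_E (π₀ π : PPair n d) (φ : ℕ → ℚ) (L : ℕ) (σ h : K) :
    (s7E π₀ π φ L σ h).map f = s7E π₀ π φ L (f σ) (f h) := by
  rw [s7E, s7E, map_sub', PPair.map_Wmat, s7m_Ph]

theorem s7m_r (π₀ π : PPair n d) (t0 : ℕ) (σ h : K) (i : Fin n) :
    f ∘ s7r π₀ π t0 σ h i = s7r π₀ π t0 (f σ) (f h) i := by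
  rw [s7r, s7r, s7m_tail, PPair.map_Wmat]

end Gen

section Ord

variable {K K' : Type} [Field K] [LinearOrder K] [IsStrictOrderedRing K]
  [Field K'] [LinearOrder K'] [IsStrictOrderedRing K'] (f : K →+* K') (hf : Monotone f)

include hf in
theorem s7m_excessZ (p : ℕ) (X T b : K) : f (excessZ p X T b) = excessZ p (f X) (f T) (f b) := by
  rw [excessZ, excessZ, map_add, map_one, map_pow, map_div₀, hf.map_max, map_sub, map_zero]

variable (d n : ℕ) (par : S7Par) (φ : ℕ → ℚ) (π₀ : PPair n d)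

include hf in
theorem s7m_ZA (i : S7Lab n d) (π : PPair n d) :
    f (s7ZA K d n par φ π₀ i π) = s7ZA K' d n par φ π₀ i π := by
  cases i with
  | nrm j b =>
    simp only [s7ZA, map_add, map_one, map_div₀, map_ratCast, s7m_F8, s7m_D, map_sgn]
  | trY j b hat =>
    cases hat <;>
    simp only [s7ZA, map_add, map_one, map_div₀, map_pow, map_ratCast, s7m_Y, s7m_D, s7m_Dh, map_sgn, if_true,
      Bool.false_eq_true, if_false]
  | dgT j b hat =>
    cases hat <;>
    simp only [s7ZA, map_add, map_one, map_div₀, map_ratCast, s7m_T, s7m_D, s7m_Dh, map_sgn, if_true,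
      Bool.false_eq_true, if_false]
  | gap j b =>
    simp only [s7ZA, s7m_excessZ f hf, map_sub, map_div₀, map_mul, map_pow, map_ratCast, map_natCast, map_one,
      map_zero, s7m_X, s7m_D, map_sgn]
  | crow j b x y =>
    simp only [s7ZA]
    split_ifs
    · simp only [s7m_excessZ f hf, map_div₀, map_ratCast, s7m_sq, map_mulVec', s7m_D, s7m_ctr, map_sgn]
    · exact map_zero f
  | grow j b i =>
    simp only [s7ZA, s7m_excessZ f hf, map_div₀, map_ratCast, s7m_sq, s7m_r, map_sgn]
  | ent j b s a c =>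
    simp only [s7ZA]
    split_ifs
    · simp only [s7m_excessZ f hf, map_mul, map_ratCast, s7m_ent, s7m_E, map_sgn]
    · exact map_zero f

include hf in
theorem s7m_ZB (i : S7Lab n d) (π : PPair n d) :
    f (s7ZB K d n par φ π₀ i π) = s7ZB K' d n par φ π₀ i π := by
  cases i with
  | nrm j b => simp only [s7ZB, map_zero]
  | trY j b hat => simp only [s7ZB, map_zero]
  | gap j b => simp only [s7ZB, map_zero]
  | dgT j b hat =>
    cases hat <;>
    simp only [s7ZB, map_add, map_one, map_div₀, map_ratCast, s7m_T, s7m_D, s7m_Dh, map_sgn, if_true,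
      Bool.false_eq_true, if_false]
  | crow j b x y =>
    simp only [s7ZB]
    split_ifs
    · simp only [s7m_excessZ f hf, map_ratCast, s7m_sq, map_mulVec', s7m_D, s7m_ctr, map_sgn]
    · exact map_zero f
  | grow j b i =>
    simp only [s7ZB, s7m_excessZ f hf, map_ratCast, s7m_sq, s7m_r, map_sgn]
  | ent j b s a c =>
    simp only [s7ZB]
    split_ifs
    · simp only [s7m_excessZ f hf, map_mul, map_ratCast, s7m_ent, s7m_E, map_sgn]
    · exact map_zero f

include hf in
theorem s7m_PhaseA : (s7PhaseA K d n par φ π₀).map f = s7PhaseA K' d n par φ π₀ := by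
  unfold Phase.map s7PhaseA
  simp only [Phase.mk.injEq, true_and, and_true]
  refine ⟨?_, ?_⟩
  · funext i
    rw [map_inv₀, map_natCast]
  · funext i π
    exact s7m_ZA f hf d n par φ π₀ i π

include hf in
theorem s7m_PhaseB : (s7PhaseB K d n par φ π₀).map f = s7PhaseB K' d n par φ π₀ := by
  unfold Phase.map s7PhaseB
  simp only [Phase.mk.injEq, true_and, and_true]
  refine ⟨?_, ?_⟩
  · funext i
    rw [map_inv₀, map_natCast]
  · funext i π
    exact s7m_ZB f hf d n par φ π₀ i π

end Ord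

/-- **S7-T8**. -/
theorem s7_map : StS7Map := by
  intro d n par φ π₀
  have hf : Monotone (Rat.castHom ℝ) := fun a b h => by
    simpa using (Rat.cast_le (K := ℝ)).2 h
  exact ⟨s7m_PhaseA _ hf d n par φ π₀, s7m_PhaseB _ hf d n par φ π₀⟩

end Claimed.Agent.R275
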