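import Claimed.Agent.R275.S7AccTools
import Claimed.Agent.R275.L41A

/-!
# Row 275, Section 7, leaf S7-ACC-OK-SCORE: the two phases satisfy the standing assumptions; labels and total score

Prover: helper142.  Statements `StS7Ok`, `StS7Score` of `S7AccTools.lean` (architect helper245).  Helper prefix `s7ok_`.
-/

set_option autoImplicit false
set_option linter.unusedVariables false
set_option linter.unusedSectionVars false

namespace Claimed.Agent.R275

open Matrix

/-! ## 1. `Phase.Ok` -/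

section Ok

variable {K : Type} [Field K] [LinearOrder K] [IsStrictOrderedRing K]

/-- abstract criterion: an account is `≥ 1` while its label is live, `0` afterwards, and dead labels stay dead -/
theorem s7ok_of {St ι : Type} (Φ : Phase K St ι) (Live : ι → St → Prop)
    (hw : ∀ i, 0 ≤ Φ.wt i) (h1 : ∀ i x, Live i x → 1 ≤ Φ.Z i x)
    (h0 : ∀ i x, ¬ Live i x → Φ.Z i x = 0)
    (hm : ∀ i x, ∀ x' ∈ Φ.cands x, Live i x' → Live i x) : Φ.Ok where
  wt_nonneg := hw
  Z_nonneg := fun i x => by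
    by_cases h : Live i x
    · exact zero_le_one.trans (h1 i x h)
    · exact (h0 i x h).ge
  dead := fun i x hz x' hx' => by
    refine h0 i x' fun h => ?_
    have h2 := h1 i x (hm i x x' hx' h)
    rw [hz] at h2
    exact absurd h2 (not_le.2 zero_lt_one)

theorem s7ok_cast_pos {q : ℚ} (h : 0 < q) : (0 : K) < ((q : ℚ) : K) := Rat.cast_pos.2 h

theorem s7ok_cast_nonneg {q : ℚ} (h : 0 ≤ q) : (0 : K) ≤ ((q : ℚ) : K) := Rat.cast_nonneg.2 h

theorem s7ok_F8_nonneg {ι : Type*} [Fintype ι] [DecidableEq ι] (D : Matrix ι ι K) : 0 ≤ s7F8 D :=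
  Finset.sum_nonneg fun _ _ => Finset.sum_nonneg fun _ _ => sq_nonneg _

theorem s7ok_T_nonneg {ι : Type*} [Fintype ι] [DecidableEq ι] (D : Matrix ι ι K) : 0 ≤ s7T D :=
  Finset.sum_nonneg fun _ _ => sq_nonneg _

theorem s7ok_SN_nonneg (d n : ℕ) : 0 ≤ s7SN d n :=
  mul_nonneg (Nat.cast_nonneg _) (Even.pow_nonneg (by decide) _)

theorem s7ok_SY2_nonneg (n : ℕ) : 0 ≤ s7SY2 n :=
  mul_nonneg (Nat.cast_nonneg _) (scQ_pos _ _).le

variable {n d : ℕ}

/-- resolving a pair creates no unresolved stub -/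
theorem s7ok_unres_of_resolve (π : PPair n d) (u v z : Stub n d) (h : (π.resolve u v).Unres z) :
    π.Unres z := by
  by_cases h0 : π.Unres u ∧ π.Unres v
  · obtain ⟨hu, hv⟩ := h0
    have h1 : (π.resolve u v).mate z = z := h
    rw [PPair.resolve_mate hu hv] at h1
    by_cases e1 : z = u
    · rw [e1]; exact hu
    · by_cases e2 : z = v
      · rw [e2]; exact hv
      · rw [if_neg e1, if_neg e2] at h1
        exact h1
  · have e : π.resolve u v = π := dif_neg h0
    rw [e] at h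
    exact h

theorem s7ok_alive_of_resolve (π : PPair n d) (u v : Stub n d) (a : S7Out n d)
    (h : a.Alive (π.resolve u v)) : a.Alive π := by
  rcases a with i | ⟨x, y⟩
  · exact trivial
  · have h' : (π.resolve u v).Unres x ∧ (π.resolve u v).Unres y ∧ x ≠ y := h
    exact ⟨s7ok_unres_of_resolve π u v x h'.1, s7ok_unres_of_resolve π u v y h'.2.1, h'.2.2⟩

theorem s7ok_mem_cands (π π' : PPair n d) (h : π' ∈ s7cands π) : ∃ u v, π' = π.resolve u v := by
  obtain ⟨c, -, rfl⟩ := List.mem_map.1 h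
  exact ⟨c.1, c.2, rfl⟩

/-- live labels of Phase A -/
def s7okLiveA : S7Lab n d → PPair n d → Prop
  | .crow _ _ x y, π => π.Unres x ∧ π.Unres y ∧ x ≠ y
  | .ent _ _ _ a c, π => a.Alive π ∧ c.Alive π
  | _, _ => True

/-- live labels of Phase B -/
def s7okLiveB : S7Lab n d → PPair n d → Prop
  | .crow _ _ x y, π => π.Unres x ∧ π.Unres y ∧ x ≠ y
  | .ent _ _ _ a c, π => a.Alive π ∧ c.Alive π
  | .dgT _ _ _, _ => True
  | .grow _ _ _, _ => True
  | _, _ => False

theorem s7ok_liveA_mono (i : S7Lab n d) (π π' : PPair n d) (h : π' ∈ s7cands π)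
    (hl : s7okLiveA i π') : s7okLiveA i π := by
  obtain ⟨u, v, rfl⟩ := s7ok_mem_cands π π' h
  cases i with
  | crow j b x y =>
    have h' : (π.resolve u v).Unres x ∧ (π.resolve u v).Unres y ∧ x ≠ y := hl
    exact ⟨s7ok_unres_of_resolve π u v x h'.1, s7ok_unres_of_resolve π u v y h'.2.1, h'.2.2⟩
  | ent j b s a c =>
    have h' : a.Alive (π.resolve u v) ∧ c.Alive (π.resolve u v) := hl
    exact ⟨s7ok_alive_of_resolve π u v a h'.1, s7ok_alive_of_resolve π u v c h'.2⟩
  | nrm j b => exact trivial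
  | trY j b t => exact trivial
  | dgT j b t => exact trivial
  | gap j b => exact trivial
  | grow j b i => exact trivial

theorem s7ok_liveB_mono (i : S7Lab n d) (π π' : PPair n d) (h : π' ∈ s7cands π)
    (hl : s7okLiveB i π') : s7okLiveB i π := by
  obtain ⟨u, v, rfl⟩ := s7ok_mem_cands π π' h
  cases i with
  | crow j b x y =>
    have h' : (π.resolve u v).Unres x ∧ (π.resolve u v).Unres y ∧ x ≠ y := hl
    exact ⟨s7ok_unres_of_resolve π u v x h'.1, s7ok_unres_of_resolve π u v y h'.2.1, h'.2.2⟩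
  | ent j b s a c =>
    have h' : a.Alive (π.resolve u v) ∧ c.Alive (π.resolve u v) := hl
    exact ⟨s7ok_alive_of_resolve π u v a h'.1, s7ok_alive_of_resolve π u v c h'.2⟩
  | nrm j b => exact hl
  | trY j b t => exact hl
  | dgT j b t => exact trivial
  | gap j b => exact hl
  | grow j b i => exact trivial

variable (K) (par : S7Par) (φ : ℕ → ℚ) (π₀ : PPair n d)

theorem s7ok_ZA_live (i : S7Lab n d) (π : PPair n d) (hl : s7okLiveA i π) :
    1 ≤ s7ZA K d n par φ π₀ i π := by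
  cases i with
  | nrm j b =>
    exact le_add_of_nonneg_right (div_nonneg (s7ok_F8_nonneg _) (s7ok_cast_nonneg (s7ok_SN_nonneg d n)))
  | trY j b t =>
    exact le_add_of_nonneg_right (div_nonneg (sq_nonneg _) (s7ok_cast_nonneg (s7ok_SY2_nonneg n)))
  | dgT j b t =>
    exact le_add_of_nonneg_right (div_nonneg (s7ok_T_nonneg _) (s7ok_cast_nonneg (scQ_pos _ _).le))
  | gap j b => exact excessZ_pos _ _ _ _ (s7ok_cast_pos (scQ_pos _ _))
  | crow j b x y =>
    have h' : π.Unres x ∧ π.Unres y ∧ x ≠ y := hl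
    refine le_trans (excessZ_pos _ _ _ _ (s7ok_cast_pos (scQ_pos _ _))) (le_of_eq (if_pos h').symm)
  | grow j b i => exact excessZ_pos _ _ _ _ (s7ok_cast_pos (scQ_pos _ _))
  | ent j b s a c =>
    have h' : a.Alive π ∧ c.Alive π := hl
    refine le_trans (excessZ_pos _ _ _ _ (s7ok_cast_pos (mul_pos (scQ_pos _ _) (scQ_pos _ _))))
      (le_of_eq (if_pos h').symm)

theorem s7ok_ZA_dead (i : S7Lab n d) (π : PPair n d) (hl : ¬ s7okLiveA i π) :
    s7ZA K d n par φ π₀ i π = 0 := by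
  cases i with
  | crow j b x y =>
    have h' : ¬ (π.Unres x ∧ π.Unres y ∧ x ≠ y) := hl
    exact if_neg h'
  | ent j b s a c =>
    have h' : ¬ (a.Alive π ∧ c.Alive π) := hl
    exact if_neg h'
  | nrm j b => exact absurd trivial hl
  | trY j b t => exact absurd trivial hl
  | dgT j b t => exact absurd trivial hl
  | gap j b => exact absurd trivial hl
  | grow j b i => exact absurd trivial hl

theorem s7ok_ZB_live (i : S7Lab n d) (π : PPair n d) (hl : s7okLiveB i π) :
    1 ≤ s7ZB K d n par φ π₀ i π := by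
  cases i with
  | nrm j b => exact absurd hl id
  | trY j b t => exact absurd hl id
  | dgT j b t =>
    exact le_add_of_nonneg_right (div_nonneg (s7ok_T_nonneg _) (s7ok_cast_nonneg (scQ_pos _ _).le))
  | gap j b => exact absurd hl id
  | crow j b x y =>
    have h' : π.Unres x ∧ π.Unres y ∧ x ≠ y := hl
    refine le_trans (excessZ_pos _ _ _ _ (s7ok_cast_pos (mul_pos (scQ_pos _ _) (scQ_pos _ _))))
      (le_of_eq (if_pos h').symm)
  | grow j b i => exact excessZ_pos _ _ _ _ (s7ok_cast_pos (mul_pos (scQ_pos _ _) (scQ_pos _ _)))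
  | ent j b s a c =>
    have h' : a.Alive π ∧ c.Alive π := hl
    refine le_trans (excessZ_pos _ _ _ _ (s7ok_cast_pos (mul_pos (scQ_pos _ _) (scQ_pos _ _))))
      (le_of_eq (if_pos h').symm)

theorem s7ok_ZB_dead (i : S7Lab n d) (π : PPair n d) (hl : ¬ s7okLiveB i π) :
    s7ZB K d n par φ π₀ i π = 0 := by
  cases i with
  | crow j b x y =>
    have h' : ¬ (π.Unres x ∧ π.Unres y ∧ x ≠ y) := hl
    exact if_neg h'
  | ent j b s a c =>
    have h' : ¬ (a.Alive π ∧ c.Alive π) := hl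
    exact if_neg h'
  | nrm j b => rfl
  | trY j b t => rfl
  | dgT j b t => exact absurd trivial hl
  | gap j b => rfl
  | grow j b i => exact absurd trivial hl

end Ok

/-- **S7-T7** -/
theorem s7_ok : StS7Ok := by
  intro K _ _ _ d n par φ π₀
  constructor
  · exact s7ok_of _ s7okLiveA (fun i => inv_nonneg.2 (Nat.cast_nonneg _))
      (s7ok_ZA_live K par φ π₀) (s7ok_ZA_dead K par φ π₀) (fun i π π' h => s7ok_liveA_mono i π π' h)
  · exact s7ok_of _ s7okLiveB (fun i => inv_nonneg.2 (Nat.cast_nonneg _))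
      (s7ok_ZB_live K par φ π₀) (s7ok_ZB_dead K par φ π₀) (fun i π π' h => s7ok_liveB_mono i π π' h)

/-! ## 2. Labels -/

section Labels

variable (n d : ℕ) (cp : ℚ)

theorem s7ok_mem_pts (j : ℕ) (b : Bool) : (j, b) ∈ s7pts n d cp ↔ j ≤ Nprim d n cp := by
  unfold s7pts
  rw [List.mem_flatMap]
  constructor
  · rintro ⟨a, ha, hab⟩
    have h1 : j = a := by
      rcases List.mem_cons.1 hab with h | h
      · exact (Prod.mk.inj h).1
      · exact (Prod.mk.inj (List.mem_singleton.1 h)).1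
    rw [h1]
    exact Nat.lt_succ_iff.1 (List.mem_range.1 ha)
  · intro h
    refine ⟨j, List.mem_range.2 (Nat.lt_succ_iff.2 h), ?_⟩
    cases b <;> simp

theorem s7ok_mem_labsA_nrm (j : ℕ) (b : Bool) :
    S7Lab.nrm j b ∈ s7labsA n d cp ↔ j ≤ Nprim d n cp := by
  rw [← s7ok_mem_pts n d cp j b]
  simp [s7labsA, s7famNrm, s7famTrY, s7famDgT, s7famGap, s7famCrow, s7famGrow, s7famEnt]

theorem s7ok_mem_labsA_trY (j : ℕ) (b t : Bool) :
    S7Lab.trY j b t ∈ s7labsA n d cp ↔ j ≤ Nprim d n cp := by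
  rw [← s7ok_mem_pts n d cp j b]
  cases t <;>
  simp [s7labsA, s7famNrm, s7famTrY, s7famDgT, s7famGap, s7famCrow, s7famGrow, s7famEnt]

theorem s7ok_mem_labsA_dgT (j : ℕ) (b t : Bool) :
    S7Lab.dgT j b t ∈ s7labsA n d cp ↔ j ≤ Nprim d n cp := by
  rw [← s7ok_mem_pts n d cp j b]
  cases t <;>
  simp [s7labsA, s7famNrm, s7famTrY, s7famDgT, s7famGap, s7famCrow, s7famGrow, s7famEnt]

theorem s7ok_mem_labsA_gap (j : ℕ) (b : Bool) :
    S7Lab.gap j b ∈ s7labsA n d cp ↔ j ≤ Nprim d n cp := by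
  rw [← s7ok_mem_pts n d cp j b]
  simp [s7labsA, s7famNrm, s7famTrY, s7famDgT, s7famGap, s7famCrow, s7famGrow, s7famEnt]

theorem s7ok_mem_labsA_crow (j : ℕ) (b : Bool) (x y : Stub n d) :
    S7Lab.crow j b x y ∈ s7labsA n d cp ↔ j ≤ Nprim d n cp := by
  rw [← s7ok_mem_pts n d cp j b]
  simp [s7labsA, s7famNrm, s7famTrY, s7famDgT, s7famGap, s7famCrow, s7famGrow, s7famEnt, mem_iall]

theorem s7ok_mem_labsA_grow (j : ℕ) (b : Bool) (i : Fin n) :
    S7Lab.grow j b i ∈ s7labsA n d cp ↔ j ≤ Nprim d n cp := by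
  rw [← s7ok_mem_pts n d cp j b]
  simp [s7labsA, s7famNrm, s7famTrY, s7famDgT, s7famGap, s7famCrow, s7famGrow, s7famEnt, mem_iall]

theorem s7ok_mem_labsA_ent (j : ℕ) (b s : Bool) (a c : S7Out n d) :
    S7Lab.ent j b s a c ∈ s7labsA n d cp ↔ j ≤ Nprim d n cp := by
  rw [← s7ok_mem_pts n d cp j b]
  cases s <;>
  simp [s7labsA, s7famNrm, s7famTrY, s7famDgT, s7famGap, s7famCrow, s7famGrow, s7famEnt, mem_iall]

theorem s7ok_mem_labsB (i : S7Lab n d) :
    i ∈ s7labsB n d cp ↔ i ∈ s7labsA n d cp ∧ (i.kind = 2 ∨ 4 ≤ i.kind) := by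
  cases i with
  | nrm j b =>
    have hk : (S7Lab.nrm j b : S7Lab n d).kind = 0 := rfl
    rw [hk]
    simp [s7labsB, s7famDgT, s7famCrow, s7famGrow, s7famEnt]
  | trY j b t =>
    have hk : (S7Lab.trY j b t : S7Lab n d).kind = 1 := rfl
    rw [hk]
    simp [s7labsB, s7famDgT, s7famCrow, s7famGrow, s7famEnt]
  | dgT j b t =>
    have hk : (S7Lab.dgT j b t : S7Lab n d).kind = 2 := rfl
    rw [hk, s7ok_mem_labsA_dgT, ← s7ok_mem_pts n d cp j b]
    cases t <;> simp [s7labsB, s7famDgT, s7famCrow, s7famGrow, s7famEnt]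
  | gap j b =>
    have hk : (S7Lab.gap j b : S7Lab n d).kind = 3 := rfl
    rw [hk]
    simp [s7labsB, s7famDgT, s7famCrow, s7famGrow, s7famEnt]
  | crow j b x y =>
    have hk : (S7Lab.crow j b x y : S7Lab n d).kind = 4 := rfl
    rw [hk, s7ok_mem_labsA_crow, ← s7ok_mem_pts n d cp j b]
    simp [s7labsB, s7famDgT, s7famCrow, s7famGrow, s7famEnt, mem_iall]
  | grow j b i =>
    have hk : (S7Lab.grow j b i : S7Lab n d).kind = 5 := rfl
    rw [hk, s7ok_mem_labsA_grow, ← s7ok_mem_pts n d cp j b]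
    simp [s7labsB, s7famDgT, s7famCrow, s7famGrow, s7famEnt, mem_iall]
  | ent j b s a c =>
    have hk : (S7Lab.ent j b s a c : S7Lab n d).kind = 6 := rfl
    rw [hk, s7ok_mem_labsA_ent, ← s7ok_mem_pts n d cp j b]
    cases s <;> simp [s7labsB, s7famDgT, s7famCrow, s7famGrow, s7famEnt, mem_iall]

/-! ## 3. Lengths of the families -/

theorem s7ok_length_flatMap {α β : Type} (l : List α) (f : α → List β) (c : ℕ)
    (h : ∀ a ∈ l, (f a).length = c) : (l.flatMap f).length = l.length * c := by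
  induction l with
  | nil => simp
  | cons a l ih =>
    rw [List.flatMap_cons, List.length_append, h a (List.mem_cons_self ..),
      ih fun a' ha' => h a' (List.mem_cons_of_mem _ ha'), List.length_cons]
    ring

theorem s7ok_length_iall (ι : Type) [FinIdx ι] : (iall ι).length = FinIdx.card ι := by
  have h := congrArg List.length (iall_map_icode (ι := ι))
  rwa [List.length_map, List.length_range] at h

theorem s7ok_length_pts : (s7pts n d cp).length = s7Npt n d cp := by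
  unfold s7pts s7Npt
  rw [s7ok_length_flatMap _ _ 2 fun _ _ => rfl, List.length_range, mul_comm]

theorem s7ok_length_nrm : (s7famNrm n d cp).length = s7Npt n d cp := by
  unfold s7famNrm
  rw [List.length_map, s7ok_length_pts]

theorem s7ok_length_trY : (s7famTrY n d cp).length = 2 * s7Npt n d cp := by
  unfold s7famTrY
  rw [s7ok_length_flatMap _ _ 2 fun _ _ => rfl, s7ok_length_pts, mul_comm]

theorem s7ok_length_dgT : (s7famDgT n d cp).length = 2 * s7Npt n d cp := by
  unfold s7famDgT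
  rw [s7ok_length_flatMap _ _ 2 fun _ _ => rfl, s7ok_length_pts, mul_comm]

theorem s7ok_length_gap : (s7famGap n d cp).length = s7Npt n d cp := by
  unfold s7famGap
  rw [List.length_map, s7ok_length_pts]

theorem s7ok_length_crow : (s7famCrow n d cp).length = s7Npt n d cp * (n * d) ^ 2 := by
  unfold s7famCrow
  rw [s7ok_length_flatMap _ _ ((n * d) ^ 2) fun _ _ => ?_, s7ok_length_pts]
  rw [List.length_map, s7ok_length_iall, sq]
  rfl

theorem s7ok_length_grow : (s7famGrow n d cp).length = s7Npt n d cp * n := by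
  unfold s7famGrow
  rw [s7ok_length_flatMap _ _ n fun _ _ => ?_, s7ok_length_pts]
  rw [List.length_map, s7ok_length_iall]
  rfl

theorem s7ok_length_ent :
    (s7famEnt n d cp).length = s7Npt n d cp * 2 * (n + (n * d) ^ 2) ^ 2 := by
  unfold s7famEnt
  rw [s7ok_length_flatMap _ _ (2 * (n + (n * d) ^ 2) ^ 2) fun _ _ => ?_, s7ok_length_pts, mul_assoc]
  rw [s7ok_length_flatMap _ _ ((n + (n * d) ^ 2) ^ 2) fun _ _ => ?_]
  · rfl
  · rw [List.length_map, s7ok_length_iall, sq, sq]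
    rfl

/-! ## 4. The total score -/

/-- a family of `N` labels of weight `1/N` has total weight `≤ 1` -/
theorem s7ok_fam_sum {ι : Type} (L : List ι) (w : ι → ℝ) (N : ℕ) (hlen : L.length = N)
    (hw : ∀ i ∈ L, w i = ((N : ℕ) : ℝ)⁻¹) : (L.map w).sum ≤ 1 := by
  have h1 : L.map w = L.map fun _ => ((N : ℕ) : ℝ)⁻¹ := List.map_congr_left hw
  rw [h1, List.map_const', List.sum_replicate, hlen, nsmul_eq_mul]
  exact mul_inv_le_one

theorem s7ok_score_le {ι : Type} (L : List ι) (w Z : ι → ℝ) (hw : ∀ i, 0 ≤ w i)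
    (hZ : ∀ i ∈ L, Z i ≤ 2) : (L.map fun i => w i * 1 * Z i).sum ≤ 2 * (L.map w).sum := by
  rw [← List.sum_map_mul_left]
  refine List.sum_le_sum fun i hi => ?_
  have := mul_le_mul_of_nonneg_left (hZ i hi) (hw i)
  linarith

/-- the weights -/
noncomputable def s7okW (i : S7Lab n d) : ℝ := ((s7fam n d cp i : ℕ) : ℝ)⁻¹

theorem s7ok_sum_nrm : ((s7famNrm n d cp).map (s7okW n d cp)).sum ≤ 1 := by
  refine s7ok_fam_sum _ _ _ (s7ok_length_nrm n d cp) fun i hi => ?_
  obtain ⟨q, -, rfl⟩ := List.mem_map.1 hi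
  rfl

theorem s7ok_sum_trY : ((s7famTrY n d cp).map (s7okW n d cp)).sum ≤ 1 := by
  refine s7ok_fam_sum _ _ _ (s7ok_length_trY n d cp) fun i hi => ?_
  obtain ⟨q, -, hq⟩ := List.mem_flatMap.1 hi
  rcases List.mem_cons.1 hq with rfl | hq
  · rfl
  · rw [List.mem_singleton.1 hq]
    rfl

theorem s7ok_sum_dgT : ((s7famDgT n d cp).map (s7okW n d cp)).sum ≤ 1 := by
  refine s7ok_fam_sum _ _ _ (s7ok_length_dgT n d cp) fun i hi => ?_
  obtain ⟨q, -, hq⟩ := List.mem_flatMap.1 hi
  rcases List.mem_cons.1 hq with rfl | hq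
  · rfl
  · rw [List.mem_singleton.1 hq]
    rfl

theorem s7ok_sum_gap : ((s7famGap n d cp).map (s7okW n d cp)).sum ≤ 1 := by
  refine s7ok_fam_sum _ _ _ (s7ok_length_gap n d cp) fun i hi => ?_
  obtain ⟨q, -, rfl⟩ := List.mem_map.1 hi
  rfl

theorem s7ok_sum_crow : ((s7famCrow n d cp).map (s7okW n d cp)).sum ≤ 1 := by
  refine s7ok_fam_sum _ _ _ (s7ok_length_crow n d cp) fun i hi => ?_
  obtain ⟨q, -, hq⟩ := List.mem_flatMap.1 hi
  obtain ⟨xy, -, rfl⟩ := List.mem_map.1 hq
  rfl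

theorem s7ok_sum_grow : ((s7famGrow n d cp).map (s7okW n d cp)).sum ≤ 1 := by
  refine s7ok_fam_sum _ _ _ (s7ok_length_grow n d cp) fun i hi => ?_
  obtain ⟨q, -, hq⟩ := List.mem_flatMap.1 hi
  obtain ⟨xy, -, rfl⟩ := List.mem_map.1 hq
  rfl

theorem s7ok_sum_ent : ((s7famEnt n d cp).map (s7okW n d cp)).sum ≤ 1 := by
  refine s7ok_fam_sum _ _ _ (s7ok_length_ent n d cp) fun i hi => ?_
  obtain ⟨q, -, hq⟩ := List.mem_flatMap.1 hi
  obtain ⟨s, -, hs⟩ := List.mem_flatMap.1 hq
  obtain ⟨xy, -, rfl⟩ := List.mem_map.1 hs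
  rfl

theorem s7ok_sum_labsA : ((s7labsA n d cp).map (s7okW n d cp)).sum ≤ 7 := by
  unfold s7labsA
  simp only [List.map_append, List.sum_append]
  have h1 := s7ok_sum_nrm n d cp
  have h2 := s7ok_sum_trY n d cp
  have h3 := s7ok_sum_dgT n d cp
  have h4 := s7ok_sum_gap n d cp
  have h5 := s7ok_sum_crow n d cp
  have h6 := s7ok_sum_grow n d cp
  have h7 := s7ok_sum_ent n d cp
  linarith

theorem s7ok_sum_labsB : ((s7labsB n d cp).map (s7okW n d cp)).sum ≤ 4 := by
  unfold s7labsB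
  simp only [List.map_append, List.sum_append]
  have h3 := s7ok_sum_dgT n d cp
  have h5 := s7ok_sum_crow n d cp
  have h6 := s7ok_sum_grow n d cp
  have h7 := s7ok_sum_ent n d cp
  linarith

theorem s7ok_W_nonneg (i : S7Lab n d) : 0 ≤ s7okW n d cp i := inv_nonneg.2 (Nat.cast_nonneg _)

end Labels

/-- **S7-T9** -/
theorem s7_score : StS7Score := by
  intro d n par φ π₀ π
  refine ⟨s7ok_mem_labsA_nrm n d par.cp, s7ok_mem_labsA_trY n d par.cp, s7ok_mem_labsA_dgT n d par.cp,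
    s7ok_mem_labsA_gap n d par.cp, s7ok_mem_labsA_crow n d par.cp, s7ok_mem_labsA_grow n d par.cp,
    s7ok_mem_labsA_ent n d par.cp, s7ok_mem_labsB n d par.cp, fun h => ?_, fun h => ?_⟩
  · have h1 := s7ok_score_le (s7labsA n d par.cp) (s7okW n d par.cp)
      (fun i => (s7PhaseA ℝ d n par φ π₀).Z i π) (s7ok_W_nonneg n d par.cp) h
    have h2 := s7ok_sum_labsA n d par.cp
    have h3 : (s7PhaseA ℝ d n par φ π₀).score (fun _ => 1) π ≤
        2 * ((s7labsA n d par.cp).map (s7okW n d par.cp)).sum := h1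
    linarith
  · have h1 := s7ok_score_le (s7labsB n d par.cp) (s7okW n d par.cp)
      (fun i => (s7PhaseB ℝ d n par φ π₀).Z i π) (s7ok_W_nonneg n d par.cp) h
    have h2 := s7ok_sum_labsB n d par.cp
    have h3 : (s7PhaseB ℝ d n par φ π₀).score (fun _ => 1) π ≤
        2 * ((s7labsB n d par.cp).map (s7okW n d par.cp)).sum := h1
    linarith

end Claimed.Agent.R275
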