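import Claimed.Agent.R275.S7Inv

/-!
# Row 275, Section 7, package S7-ACCTOOLS: account calculus, list/finset averages, update identities at the level of pairings

Owner of the statements: helper245.  Only `def St… : Prop`, no sorry.  None of these statements is asymptotic.
-/

set_option autoImplicit false
set_option linter.unusedVariables false

namespace Claimed.Agent.R275

open Matrix

/-! ## A. Averages -/

/-- **S7-T1** the uniform average over the candidate list is the average over ordered pairs of distinct unresolved stubs. -/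
def StS7Lavg : Prop :=
  ∀ (n d : ℕ) (π : PPair n d) (F : PPair n d → ℝ),
    lavg (s7cands π) F = s7avg π.unres (fun u v => F (π.resolve u v)) ∧
    (2 ≤ π.l → s7cands π ≠ []) ∧
    ∀ π' ∈ s7cands π, ∃ u v, π.Unres u ∧ π.Unres v ∧ u ≠ v ∧ π' = π.resolve u v

/-- **S7-T2** restriction of a pair average to a subset. -/
def StS7AvgRestrict : Prop :=
  ∀ (ι : Type) [Fintype ι] [DecidableEq ι] (R I : Finset ι) (f : ι → ι → ℝ), I ⊆ R →
    s7avg R (fun u v => if u ∈ I ∧ v ∈ I then f u v else 0) =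
      ((I.card : ℝ) * ((I.card : ℝ) - 1)) / ((R.card : ℝ) * ((R.card : ℝ) - 1)) * s7avg I f

/-! ## B. Account calculus (pair averages) -/

/-- **S7-T3** Lemma 3.2 for pair averages with ordinary events `u, v ∈ I` (from `excess_avg_le_of_ord`). -/
def StS7ExcStep : Prop :=
  ∀ (ι : Type) [Fintype ι] [DecidableEq ι] (R I : Finset ι) (p : ℕ) (X T b μ ν : ℝ)
    (Δ Z' : ι → ι → ℝ), 2 ≤ p → I ⊆ R → 0 < b → 0 ≤ μ → 0 ≤ ν →
    (∀ u ∈ I, ∀ v ∈ I, u ≠ v → |Δ u v| ≤ b ∧ Z' u v ≤ excessZ p (X + Δ u v) T b) →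
    (∀ u ∈ R, ∀ v ∈ R, u ≠ v → ¬ (u ∈ I ∧ v ∈ I) → Z' u v ≤ excessZ p X T b) →
    s7avg I Δ ≤ μ → s7avg I (fun u v => Δ u v ^ 2) ≤ ν →
    s7avg R Z' ≤ (1 + (excessC p : ℝ) * (μ / b + ν / b ^ 2)) * excessZ p X T b

/-- **S7-T4** the square positive-excess account with a homogeneous drift (`(x+y)₊² ≤ x₊² + 2 x₊ y + y²`; no jump bound). -/
def StS7GapAcc : Prop :=
  ∀ (ι : Type) [Fintype ι] [DecidableEq ι] (R : Finset ι) (x b κ μ ν : ℝ) (Δ Z' : ι → ι → ℝ),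
    2 ≤ R.card → 0 < b → 0 ≤ κ → 0 ≤ μ → 0 ≤ ν →
    (∀ u ∈ R, ∀ v ∈ R, u ≠ v → Z' u v ≤ excessZ 2 (x + Δ u v) 0 b) →
    (0 < x → s7avg R Δ ≤ κ * x + μ) → s7avg R (fun u v => Δ u v ^ 2) ≤ ν →
    s7avg R Z' ≤ (1 + (2 * κ + μ / b + ν / b ^ 2)) * excessZ 2 x 0 b

/-- **S7-T5** affine account `1 + X/S`. -/
def StS7AffAcc : Prop :=
  ∀ (ι : Type) [Fintype ι] [DecidableEq ι] (R : Finset ι) (X S κ c : ℝ) (X' : ι → ι → ℝ),
    2 ≤ R.card → 0 < S → 0 ≤ X → 0 ≤ κ → 0 ≤ c → s7avg R X' ≤ (1 + κ) * X + c →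
    s7avg R (fun u v => 1 + X' u v / S) ≤ (1 + (κ + c / S)) * (1 + X / S)

/-- **S7-T6** square account `1 + Y²/S2`; the homogeneous part of the drift is nonpositive (`Y · E Δ ≤ |Y| e`). -/
def StS7SqAcc : Prop :=
  ∀ (ι : Type) [Fintype ι] [DecidableEq ι] (R : Finset ι) (Y S2 e ν : ℝ) (Δ : ι → ι → ℝ),
    2 ≤ R.card → 0 < S2 → 0 ≤ e → 0 ≤ ν → Y * s7avg R Δ ≤ |Y| * e →
    s7avg R (fun u v => Δ u v ^ 2) ≤ ν →
    s7avg R (fun u v => 1 + (Y + Δ u v) ^ 2 / S2) ≤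
      (1 + (e / Real.sqrt S2 + ν / S2)) * (1 + Y ^ 2 / S2)

/-! ## C. The two phases as `Phase`s -/

/-- **S7-T7** the standing assumptions of `Accounts.lean`. -/
def StS7Ok : Prop :=
  ∀ (K : Type) [Field K] [LinearOrder K] [IsStrictOrderedRing K] (d n : ℕ) (par : S7Par) (φ : ℕ → ℚ)
    (π₀ : PPair n d), (s7PhaseA K d n par φ π₀).Ok ∧ (s7PhaseB K d n par φ π₀).Ok

/-- **S7-T8** the accounts over `ℝ` are the casts of the accounts over `ℚ`; hence the two runs coincide (`Phase.map_run`). -/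
def StS7Map : Prop :=
  ∀ (d n : ℕ) (par : S7Par) (φ : ℕ → ℚ) (π₀ : PPair n d),
    (s7PhaseA ℚ d n par φ π₀).map (Rat.castHom ℝ) = s7PhaseA ℝ d n par φ π₀ ∧
    (s7PhaseB ℚ d n par φ π₀).map (Rat.castHom ℝ) = s7PhaseB ℝ d n par φ π₀

/-- **S7-T9** labels and total score: the index of every label is `≤ Nprim`, every `(j, b)` and every argument occurs, and accounts
bounded by `2` give a total `≤ 2 ·` (number of families). -/
def StS7Score : Prop :=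
  ∀ (d n : ℕ) (par : S7Par) (φ : ℕ → ℚ) (π₀ π : PPair n d),
    (∀ j b, S7Lab.nrm j b ∈ s7labsA n d par.cp ↔ j ≤ Nprim d n par.cp) ∧
    (∀ j b t, S7Lab.trY j b t ∈ s7labsA n d par.cp ↔ j ≤ Nprim d n par.cp) ∧
    (∀ j b t, S7Lab.dgT j b t ∈ s7labsA n d par.cp ↔ j ≤ Nprim d n par.cp) ∧
    (∀ j b, S7Lab.gap j b ∈ s7labsA n d par.cp ↔ j ≤ Nprim d n par.cp) ∧
    (∀ j b x y, S7Lab.crow j b x y ∈ s7labsA n d par.cp ↔ j ≤ Nprim d n par.cp) ∧
    (∀ j b i, S7Lab.grow j b i ∈ s7labsA n d par.cp ↔ j ≤ Nprim d n par.cp) ∧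
    (∀ j b s a c, S7Lab.ent j b s a c ∈ s7labsA n d par.cp ↔ j ≤ Nprim d n par.cp) ∧
    (∀ i, i ∈ s7labsB n d par.cp ↔ i ∈ s7labsA n d par.cp ∧ (i.kind = 2 ∨ 4 ≤ i.kind)) ∧
    ((∀ i ∈ s7labsA n d par.cp, (s7PhaseA ℝ d n par φ π₀).Z i π ≤ 2) →
      (s7PhaseA ℝ d n par φ π₀).score (fun _ => 1) π ≤ 14) ∧
    ((∀ i ∈ s7labsB n d par.cp, (s7PhaseB ℝ d n par φ π₀).Z i π ≤ 2) →
      (s7PhaseB ℝ d n par φ π₀).score (fun _ => 1) π ≤ 8)

/-! ## D. Rows, contrasts, entries -/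

/-- **S7-T10** averaging contrasts recovers centred-stub entries. -/
def StS7AvgCtr : Prop :=
  ∀ (n d : ℕ) (π : PPair n d) (X X' : Matrix (Fin n) (Fin n) ℝ),
    (∀ (a : S7Out n d) (z : Stub n d), π.Unres z →
      s7orow π X a z = ((π.l : ℝ))⁻¹ * ∑ y ∈ π.unres, s7ent X (S7Out.ctr z y) a) ∧
    (∀ z z' : Stub n d, π.Unres z → π.Unres z' →
      s7Dof π X z z' - s7Dof π X' z z' =
        ((π.l : ℝ))⁻¹ ^ 2 * ∑ y ∈ π.unres, ∑ y' ∈ π.unres,
          s7ent (X - X') (S7Out.ctr z y) (S7Out.ctr z' y')) ∧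
    (∀ (a : S7Out n d) (z : Stub n d), ¬ π.Unres z → s7orow π X a z = 0) ∧
    (∀ z z' : Stub n d, (¬ π.Unres z ∨ ¬ π.Unres z') → s7Dof π X z z' = 0) ∧
    (∀ (a : S7Out n d) (z : Stub n d), s7ent X (S7Out.ctr z z) a = 0 ∧ s7ent X a (S7Out.ctr z z) = 0)

/-- **S7-T11** the outer row of an alive contrast is `f + D f`; outer rows are centred; `s7Dof` is symmetric and centred. -/
def StS7CtrRow : Prop :=
  ∀ (n d : ℕ) (π : PPair n d) (X : Matrix (Fin n) (Fin n) ℝ),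
    (∀ x y : Stub n d, π.Unres x → π.Unres y →
      s7orow π X (S7Out.ctr x y) = s7ctr ℝ x y + s7Dof π X *ᵥ s7ctr ℝ x y) ∧
    (∀ a : S7Out n d, S7Cent π.unres (s7orow π X a)) ∧
    π.PiS ℝ = s7Pi ℝ π.unres ∧
    s7Pi ℝ π.unres * s7Dof π X = s7Dof π X ∧
    (Xᵀ = X → (s7Dof π X)ᵀ = s7Dof π X)

/-- **S7-T12** abstract tail identity: if `sh u = sh v = 0` then the homogeneous update of `r + Π_R sh` is the update of `r` with the shift
`k = (∑_R sh)/l`, plus `Π_{R'} sh`. -/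
def StS7TailId : Prop :=
  ∀ (K : Type) [Field K] [CharZero K] (ι : Type) [Fintype ι] [DecidableEq ι] (σ h : K) (R : Finset ι)
    (D : Matrix ι ι K) (r sh : ι → K) (u v : ι), u ∈ R → v ∈ R → u ≠ v → 2 < R.card →
    sh u = 0 → sh v = 0 →
    s7rstep σ h R D (r + s7Pi K R *ᵥ sh) 0 u v =
      s7rstep σ h R D r ((∑ z ∈ R, sh z) / (R.card : K)) u v + s7Pi K (s7sub R u v) *ᵥ sh

/-- **S7-T12b** the updated matrix applied to a surviving contrast is the homogeneous row update of `D f`. -/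
def StS7CtrStep : Prop :=
  ∀ (K : Type) [Field K] [CharZero K] (ι : Type) [Fintype ι] [DecidableEq ι] (σ h : K) (R : Finset ι)
    (D : Matrix ι ι K) (u v x y : ι), x ∈ s7sub R u v → y ∈ s7sub R u v →
    s7Dstep σ h R D u v *ᵥ s7ctr K x y = s7rstep σ h R D (D *ᵥ s7ctr K x y) 0 u v

/-! ## E. One exposure at the level of pairings -/

/-- **S7-T13** all update identities of one exposure, and preservation of positivity.  Not asymptotic: the entries of `D`, `D̂` are `≤ 1/16`.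
(From `posOn1_resolve`, `Wmat_resolve` (L41D), `StS7ContStep`, `StS7Bridge`, `StS7ContSymm`, `Qmat_transpose`.) -/
def StS7Upd : Prop :=
  ∀ (n d : ℕ) (π₀ π : PPair n d) (φ : ℕ → ℚ) (L : ℕ) (σ h : ℝ) (u v : Stub n d),
    0 < n → π₀.Ext π → π.Unres u → π.Unres v → u ≠ v → 4 ≤ π.l → σ ^ 2 = 1 → 0 < h → h ≤ 3 / 4 →
    PosOn1 (π.Mmat σ h) → (∀ x y, |s7D π σ h x y| ≤ 1 / 16) →
    IsUnit (1 + s7P0 π₀ (fun k => ((φ k : ℚ) : ℝ)) L σ h * s7Kinc π₀ π σ h) →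
    (∀ x y, |s7Dh π₀ π φ L σ h x y| ≤ 1 / 16) →
    PosOn1 ((π.resolve u v).Mmat σ h) ∧ π₀.Ext (π.resolve u v) ∧ (π.resolve u v).l + 2 = π.l ∧
    (π.resolve u v).unres = s7sub π.unres u v ∧
    IsUnit (1 + s7P0 π₀ (fun k => ((φ k : ℚ) : ℝ)) L σ h * s7Kinc π₀ (π.resolve u v) σ h) ∧
    s7D (π.resolve u v) σ h = s7Dstep σ h π.unres (s7D π σ h) u v ∧
    s7Dh π₀ (π.resolve u v) φ L σ h = s7Dstep σ h π.unres (s7Dh π₀ π φ L σ h) u v ∧
    (∀ a : S7Out n d, s7orow (π.resolve u v) ((π.resolve u v).Wmat σ h) a =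
      s7rstep σ h π.unres (s7D π σ h) (s7orow π (π.Wmat σ h) a) 0 u v) ∧
    (∀ a : S7Out n d, s7orow (π.resolve u v) (s7Ph π₀ (π.resolve u v) φ L σ h) a =
      s7rstep σ h π.unres (s7Dh π₀ π φ L σ h) (s7orow π (s7Ph π₀ π φ L σ h) a) 0 u v) ∧
    ∀ a c : S7Out n d, s7ent (s7E π₀ (π.resolve u v) φ L σ h) a c =
      s7ent (s7E π₀ π φ L σ h) a c +
        s7dE π.l σ h (s7D π σ h) (s7Dh π₀ π φ L σ h) (s7orow π (π.Wmat σ h) a)
          (s7orow π (π.Wmat σ h) c) (s7orow π (s7Ph π₀ π φ L σ h) a)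
          (s7orow π (s7Ph π₀ π φ L σ h) c) u v

/-- **S7-T14** flags and short parts under one exposure. -/
def StS7Flags : Prop :=
  ∀ (n d : ℕ) (π₀ π : PPair n d) (t0 : ℕ) (u v : Stub n d), π.Unres u → π.Unres v → u ≠ v →
    (∀ x, (π.resolve u v).Unres x ↔ π.Unres x ∧ x ≠ u ∧ x ≠ v) ∧
    (∀ i, s7removed π₀ (π.resolve u v) t0 i ↔
      s7removed π₀ π t0 i ∨ s7near π₀ t0 i u ∨ s7near π₀ t0 i v) ∧
    (∀ (σ h : ℝ) (i : Fin n) (x : Stub n d), ¬ s7near π₀ t0 i x → s7short π₀ t0 σ h i x = 0)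

/-! ## F. Graph facts -/

/-- **S7-T15** `Separated` in the form used in Section 7. -/
def StS7SepOf : Prop :=
  ∀ (n d : ℕ) (π₀ : PPair n d) (R : ℕ), π₀.Separated R → S7Sep π₀ R

/-- **S7-T16** (second paragraph before Proposition 7.1) every matching of a separated boundary preserves the girth exclusion. -/
def StS7Girth : Prop :=
  ∀ (n d : ℕ) (π₀ π : PPair n d) (g R : ℕ), π₀.GirthGE g → π₀.Separated R → g ≤ R + 1 → π₀.Ext π →
    π.GirthGE g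

end Claimed.Agent.R275
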