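import Claimed.Agent.R275.S7DerD
import Claimed.Agent.R275.S7DerN
import Claimed.Agent.R275.S7DerM

/-!
# Row 275, Section 7, leaf S7-B-DER (#4533): the bounds derived from the caps of Phase B

Statement `StS7BDer` in `R275/S7PhaseB.lean` (helper245).  Assembly: helper167, from `s7dc_com` (S7DerD.lean, common fields), `S7RowH.fine` (S7DerC.lean),
`s7dn_op_of_X` (helper102, S7DerN.lean), `s7dn_numB` (helper201, S7DerM.lean).  The only hypothesis is `StS7RefAll`.
-/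

set_option autoImplicit false
set_option linter.unusedVariables false

namespace Claimed.Agent.R275

open Matrix Filter

/-- **S7-B-DER** -/
theorem s7_bDer (hRef : StS7RefAll) : StS7BDer := by
  intro d par hpar
  obtain ⟨hd, hg, hp, hcp0, hcp1⟩ := hpar
  have hd' : (3 : ℝ) ≤ (d : ℝ) := by exact_mod_cast hd
  unfold S7EvB
  filter_upwards [s7n_prim d hd par.cp hcp0 hcp1, s7dn_numB hg] with n hprim hnum φ π₀ π t hstop hinv
    hl j hj b
  obtain ⟨hlo, -, hhi⟩ := hprim j hj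
  obtain ⟨num1, num3, hSV, hV1, hρS, hl3⟩ := hnum
  have cap := hinv.cap j hj b
  have hT1 := s7dc_ThS_cast d
  have hT2 := s7dc_ThV0_cast d
  have hT3 := s7dc_ThV1_cast d
  have hS0 : (0 : ℝ) < (s7GS par.g n : ℝ) := s7n_cast_pos _ n
  have hV0 : (0 : ℝ) < (s7GV par.g n : ℝ) := s7n_cast_pos _ n
  have hl0 : (0 : ℝ) ≤ 2 / (π.l : ℝ) := by positivity
  have grow : ∀ i, s7sq (s7r π₀ π (s7t0 d n) (sgn b) ((prim d n j : ℚ) : ℝ) i)
      ≤ 105 * (s7GV par.g n : ℝ) := by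
    intro i
    refine (cap.grow i).trans (mul_le_mul_of_nonneg_right ?_ hV0.le)
    split_ifs <;> norm_num
  obtain ⟨com, H⟩ := s7dc_com hRef hd (hstop.ref j hj b) hinv.ext hlo hhi cap.crow grow cap.ent
    (s7n_cast_pos _ n).le (by linarith) (by linarith) (by linarith) num1 (hl3 π.l hl) num3
  have hxD : s7X (s7D π (sgn b) ((prim d n j : ℚ) : ℝ)) ≤ 2 * (π.l : ℝ) * (s7GS par.g n : ℝ) := by
    refine (s7t_X_le H.symD (s7dc_cent _) H.rowD).trans (le_of_eq ?_)
    change 2 * (s7GS par.g n : ℝ) * (π.l : ℝ) = _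
    ring
  have hρ2 : (3 * (s7rho n : ℝ)) ^ 2 = 9 * (s7rho n : ℝ) ^ 2 := by ring
  have hρ0 : 0 ≤ (s7rho n : ℝ) ^ 2 := sq_nonneg _
  have hW1 : 2 * (105 * (s7GV par.g n : ℝ)) + 2 / (π.l : ℝ) ≤ s7Wg par.g n π.l := by
    unfold s7Wg; linarith
  have hW2 : 2 * (s7GS par.g n : ℝ) ≤ s7Wg par.g n π.l := by
    unfold s7Wg; linarith
  have hP1 : 2 * (3 * (s7rho n : ℝ)) ^ 2 + 2 / (π.l : ℝ) ≤ s7Wg par.g n π.l := by
    unfold s7Wg; rw [hρ2]; linarith
  have hP2 : 4 * (3 * (s7rho n : ℝ)) ^ 2 ≤ s7Wg par.g n π.l := by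
    unfold s7Wg; rw [hρ2]; linarith
  exact
    { sig := com.sig
      refAt := com.refAt
      baseD := com.baseD
      baseDh := com.baseDh
      opD := s7dn_op_of_X H.symD hxD
      opDh := com.opDh
      rowG := H.rowD
      rowGh := fun x => (H.drow x).trans (by rw [hρ2]; linarith)
      xD := hxD
      tailE := com.tailE
      tailC := com.tailC
      dDiff := com.dDiff
      oDiff := com.oDiff
      outer := com.outer
      fine := fun a c ha _ =>
        ⟨H.rowW.fine hW1 hW2 a ha _ fun z hz => ⟨(s7dc_mem_allow hz).1, (s7dc_mem_allow hz).2.1⟩,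
          H.rowP.fine hP1 hP2 a ha _ fun z hz => ⟨(s7dc_mem_allow hz).1, (s7dc_mem_allow hz).2.1⟩,
          H.rowW.fine hW1 hW2 a ha _ fun z hz => ⟨(s7dc_mem_allow hz).1, (s7dc_mem_allow hz).2.2⟩,
          H.rowP.fine hP1 hP2 a ha _ fun z hz => ⟨(s7dc_mem_allow hz).1, (s7dc_mem_allow hz).2.2⟩⟩
      big := com.big }

end Claimed.Agent.R275
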