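import Claimed.Agent.R275.S7PhaseB
import Claimed.Agent.R275.S7AExt
import Claimed.Agent.R275.S7ABud

/-!
# Row 275, Section 7, package S7-B-BUD-EXT: the budget of Phase B and the caps of Phase B from the accounts

Proofs of `StS7BBud`, `StS7BExt` (statements in `S7PhaseB.lean`, helper245); proofs by helper81.  No hypothesis.
Tools: `S7AExt.lean` (`s7x_`), `S7ABud.lean` (`s7ab_`), `S7Num.lean`.
-/

set_option autoImplicit false

namespace Claimed.Agent.R275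

open Filter Matrix

/-- the harmonic sum of Phase B: `∑_{s<t} 1/(l₂ - 2s) ≤ (log n)/2`. -/
theorem s7bb_harm {g : ℚ} (hg : S7gOK g) (n : ℕ) (hn : 1 ≤ n) (t : ℕ) (ht : s7l3 n + 2 * t ≤ s7l2 g n) :
    ∑ s ∈ Finset.range t, (1 : ℝ) / ((s7l2 g n - 2 * s : ℕ) : ℝ) ≤ Real.log n / 2 := by
  have h2 := s7n_l3_pos n
  have h1 := s7n_harm (s7l2 g n) t (by omega)
  have h3 := s7n_log_l2_l3 hg n hn
  have hp : (0 : ℝ) < (s7l3 n : ℝ) := by exact_mod_cast (by omega : 0 < s7l3 n)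
  have hp0 : (0 : ℝ) < (s7l2 g n : ℝ) := by exact_mod_cast (by omega : 0 < s7l2 g n)
  have hle : (s7l3 n : ℝ) ≤ ((s7l2 g n - 2 * t : ℕ) : ℝ) := by
    exact_mod_cast (by omega : s7l3 n ≤ s7l2 g n - 2 * t)
  have h4 : Real.log ((s7l2 g n : ℝ) / ((s7l2 g n - 2 * t : ℕ) : ℝ)) ≤
      Real.log ((s7l2 g n : ℝ) / (s7l3 n : ℝ)) := by
    refine Real.log_le_log (div_pos hp0 (by linarith)) ?_
    exact div_le_div_of_nonneg_left hp0.le hp hle
  have e : ∑ s ∈ Finset.range t, (2 : ℝ) / ((s7l2 g n - 2 * s : ℕ) : ℝ) =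
      2 * ∑ s ∈ Finset.range t, (1 : ℝ) / ((s7l2 g n - 2 * s : ℕ) : ℝ) := by
    rw [Finset.mul_sum]
    refine Finset.sum_congr rfl fun s _ => ?_
    ring
  rw [e] at h1
  linarith

/-- **S7-B-BUD** -/
theorem s7BBud : StS7BBud := by
  intro d par hpar C hC
  have hg := hpar.2.1
  filter_upwards [s7ab_kap_small hg C 1 (by norm_num) 1, eventually_ge_atTop 1] with n h1 hn1 t ht
  have hk := s7ab_kap_nonneg par.g n
  rw [pow_one] at h1
  refine (s7n_prod_le_exp t (fun s => C * (s7kap par.g n : ℝ) / ((s7l2 par.g n - 2 * s : ℕ) : ℝ))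
    fun s => by positivity).trans ?_
  refine le_trans (Real.exp_le_exp.mpr ?_) s7ab_exp_half_le
  have e : ∑ s ∈ Finset.range t, C * (s7kap par.g n : ℝ) / ((s7l2 par.g n - 2 * s : ℕ) : ℝ) =
      C * (s7kap par.g n : ℝ) * ∑ s ∈ Finset.range t, (1 : ℝ) / ((s7l2 par.g n - 2 * s : ℕ) : ℝ) := by
    rw [Finset.mul_sum]
    refine Finset.sum_congr rfl fun s _ => ?_
    ring
  rw [e]
  have h2 := mul_le_mul_of_nonneg_left (s7bb_harm hg n hn1 t ht)
    (by positivity : 0 ≤ C * (s7kap par.g n : ℝ))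
  linarith

/-- **S7-B-EXT** -/
theorem s7BExt : StS7BExt := by
  intro d par hpar
  obtain ⟨hd, hg, hp, hcp0, hcp1⟩ := hpar
  have hx2 : (4 * s7eta0 par.g : ℚ) < 6 * s7eta0 par.g := by
    have := hg.1
    unfold s7eta0
    linarith
  filter_upwards [s7x_ev_OK d hd par.cp hcp0 hcp1, s7x_fam d par.cp,
    s7x_Npt_scQ d par.cp hx2 32 (by norm_num), eventually_ge_atTop 1]
    with n ok hfam hdgT hn φ π₀ π hacc j hj b
  replace hfam := hfam () ok
  replace hdgT := hdgT () ok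
  have hp0 : par.p ≠ 0 := by
    have := hp.1
    omega
  have hlam : (0 : ℝ) < (s7lam par.g n : ℝ) := s7n_cast_pos _ n
  have mem : ∀ i : S7Lab n d, (i ∈ s7famDgT n d par.cp ∨ i ∈ s7famCrow n d par.cp ∨
      i ∈ s7famGrow n d par.cp ∨ i ∈ s7famEnt n d par.cp) → i ∈ s7labsB n d par.cp := by
    intro i h
    simp only [s7labsB, List.mem_append]
    tauto
  have key : ∀ i ∈ s7labsB n d par.cp,
      s7ZB ℝ d n par φ π₀ i π ≤ 8 * 2 * (s7fam n d par.cp i : ℝ) :=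
    fun i hi => s7x_of_wt (s7x_fam_pos n d par.cp hn hd i) (hacc i hi)
  have hlamp := s7x_lam_pow hg hp n hn
  have key2 : ∀ i ∈ s7labsB n d par.cp,
      s7ZB ℝ d n par φ π₀ i π ≤ ((s7lam par.g n : ℝ)⁻¹) ^ par.p := by
    intro i hi
    have h1 := key i hi
    have h2 := s7x_fam_le n d par.cp hn hd i
    have h3 : (0 : ℝ) ≤ (s7fam n d par.cp i : ℝ) := by positivity
    refine le_trans ?_ (hfam.trans hlamp)
    linarith
  have hDgT : ∀ t : Bool, s7ZB ℝ d n par φ π₀ (.dgT j b t) π ≤ 32 * (s7Npt n d par.cp : ℝ) := by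
    intro t
    have h1 := key (.dgT j b t) (mem _ (Or.inl (s7x_mem_famDgT n d par.cp j b hj t)))
    have e3 : (s7fam n d par.cp (S7Lab.dgT j b t : S7Lab n d) : ℝ) = 2 * (s7Npt n d par.cp : ℝ) := by
      simp only [s7fam]
      push_cast
      ring
    rw [e3] at h1
    linarith
  have hT : ∀ T : ℝ, 1 + T / (s7Tcap par.g n : ℝ) ≤ 32 * (s7Npt n d par.cp : ℝ) →
      T ≤ (s7TcapB par.g n : ℝ) := by
    intro T h
    exact (s7x_aff (s7n_cast_pos _ n) h).trans hdgT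
  refine ⟨hT _ (hDgT false), hT _ (hDgT true), ?_, ?_, ?_⟩
  · -- crow
    intro x y hx hy hxy
    have hGS : (0 : ℝ) < (s7GS par.g n : ℝ) := s7n_cast_pos _ n
    have h1 := key2 (.crow j b x y)
      (mem _ (Or.inr (Or.inl (s7x_mem_famCrow n d par.cp j b hj x y))))
    have e2 : s7ZB ℝ d n par φ π₀ (.crow j b x y) π =
        excessZ par.p (s7sq (s7D π (sgn b) ((prim d n j : ℚ) : ℝ) *ᵥ s7ctr ℝ x y))
          ((s7GS par.g n : ℚ) : ℝ) (((s7lam par.g n * s7GS par.g n : ℚ)) : ℝ) :=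
      if_pos ⟨hx, hy, hxy⟩
    rw [e2, Rat.cast_mul (s7lam par.g n)] at h1
    have h2 := s7x_extract par.p hp0 _ _ _ _ _ hGS hlam le_rfl h1
    linarith
  · -- grow
    intro i
    have hGV : (0 : ℝ) < (s7GV par.g n : ℝ) := s7n_cast_pos _ n
    have h1 := key2 (.grow j b i)
      (mem _ (Or.inr (Or.inr (Or.inl (s7x_mem_famGrow n d par.cp j b hj i)))))
    have e2 : s7ZB ℝ d n par φ π₀ (.grow j b i) π =
        excessZ par.p (s7sq (s7r π₀ π (s7t0 d n) (sgn b) ((prim d n j : ℚ) : ℝ) i))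
        ((((if s7removed π₀ π (s7t0 d n) i then 104 else 1) * s7GV par.g n : ℚ)) : ℝ)
        (((s7lam par.g n * s7GV par.g n : ℚ)) : ℝ) := rfl
    rw [e2, Rat.cast_mul (s7lam par.g n)] at h1
    have h2 := s7x_extract par.p hp0 _ _ _ _ _ hGV hlam le_rfl h1
    rw [Rat.cast_mul] at h2
    have e3 : (((if s7removed π₀ π (s7t0 d n) i then 104 else 1 : ℚ)) : ℝ) =
        (if s7removed π₀ π (s7t0 d n) i then 104 else 1 : ℝ) := by
      split_ifs <;> norm_num
    rw [e3] at h2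
    linarith
  · -- ent
    intro a c ha hc
    have hBB : (0 : ℝ) < (s7BB par.g n : ℝ) := s7n_cast_pos _ n
    refine s7x_abs_of_sgn _ _ fun s => ?_
    have h1 := key2 (.ent j b s a c)
      (mem _ (Or.inr (Or.inr (Or.inr (s7x_mem_famEnt n d par.cp j b hj s a c)))))
    have e2 : s7ZB ℝ d n par φ π₀ (.ent j b s a c) π =
        excessZ par.p (sgn s * s7ent (s7E π₀ π φ (Lcut d n) (sgn b) ((prim d n j : ℚ) : ℝ)) a c)
          (((s7Th (a.ty + c.ty) (a.fl π₀ π (s7t0 d n) + c.fl π₀ π (s7t0 d n)) * s7BB par.g n : ℚ)) : ℝ)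
          (((s7lam par.g n * s7BB par.g n : ℚ)) : ℝ) := if_pos ⟨ha, hc⟩
    rw [e2, Rat.cast_mul (s7lam par.g n)] at h1
    have h2 := s7x_extract par.p hp0 _ _ _ _ _ hBB hlam le_rfl h1
    rw [Rat.cast_mul] at h2
    linarith

end Claimed.Agent.R275
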