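import Claimed.Agent.R275.S7PhaseB
import Claimed.Agent.R275.S7BExt
import Claimed.Agent.R275.S7ARun

/-!
# Row 275, Section 7, package S7-B-RUN: assembly of Phase B by `Phase.invariant_run`

`s7_bRun : … → StS7BRun` (statements in `S7PhaseB.lean`, helper245); proof by helper81.
The budget and the extraction (`S7BExt.lean`) are used as theorems; the remaining statements are hypotheses.
-/

set_option autoImplicit false

namespace Claimed.Agent.R275

open Filter

/-- **S7-B-RUN** -/
theorem s7_bRun (hDgT : StS7BStepDgT) (hCrow : StS7BStepCrow) (hGrow : StS7BStepGrow)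
    (hEnt : StS7BStepEnt) (hNext : StS7BNext) (hOk : StS7Ok) (hLavg : StS7Lavg)
    (hScore : StS7Score) : StS7BRun := by
  intro d par hpar
  obtain ⟨C2, hC2, hDgT⟩ := hDgT d par hpar
  obtain ⟨C4, hC4, hCrow⟩ := hCrow d par hpar
  obtain ⟨C5, hC5, hGrow⟩ := hGrow d par hpar
  obtain ⟨C6, hC6, hEnt⟩ := hEnt d par hpar
  set C : ℝ := C2 + C4 + C5 + C6 with hC
  have hCpos : 0 < C := by positivity
  filter_upwards [hDgT, hCrow, hGrow, hEnt, s7BBud d par hpar C hCpos, s7BExt d par hpar,
    hNext d par hpar] with n sDgT sCrow sGrow sEnt b0 ext next φ π₀ π₂ hstop init0 init2 t ht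
  have ok := (hOk ℝ d n par φ π₀).2
  have hκ : (0 : ℝ) ≤ (s7kap par.g n : ℝ) := s7ab_kap_nonneg par.g n
  have hl3 := s7n_l3_pos n
  obtain ⟨-, -, -, -, -, -, -, hB, -, hsc⟩ := hScore d n par φ π₀ π₂
  refine Phase.invariant_run (s7PhaseB ℝ d n par φ π₀) ok π₂ ((s7l2 par.g n - s7l3 n) / 2)
    (S7InvB d n par φ π₀) (fun _ _ => True) (fun _ => True)
    (fun _ x => C * (s7kap par.g n : ℝ) / (x.l : ℝ)) (fun _ => 2) 8 (hsc init2) init0
    ?_ ?_ ?_ (fun _ _ _ _ _ => trivial) (fun _ _ _ _ _ _ _ h => absurd trivial h) ?_ t (by omega)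
  · -- candidates
    intro s hs x hx
    have h1 := hx.card
    exact (hLavg n d x (fun _ => 0)).2.1 (by omega)
  · -- one step
    intro s hs x hx i hi
    have h1 := hx.card
    have hlt : s7l3 n < x.l := by omega
    have hZ : 0 ≤ (s7PhaseB ℝ d n par φ π₀).Z i x := ok.Z_nonneg i x
    have hk4 := ((hB i).1 hi).2
    rcases s7ar_kind i with hk | hk | hk | hk | hk | hk | hk
    · omega
    · omega
    · exact s7ar_mono hZ (s7ar_rate_le _ _ hκ (by rw [hC]; linarith))
        (sDgT φ π₀ x s hstop hx hlt i hi hk)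
    · omega
    · exact s7ar_mono hZ (s7ar_rate_le _ _ hκ (by rw [hC]; linarith))
        (sCrow φ π₀ x s hstop hx hlt i hi hk)
    · exact s7ar_mono hZ (s7ar_rate_le _ _ hκ (by rw [hC]; linarith))
        (sGrow φ π₀ x s hstop hx hlt i hi hk)
    · exact s7ar_mono hZ (s7ar_rate_le _ _ hκ (by rw [hC]; linarith))
        (sEnt φ π₀ x s hstop hx hlt i hi hk)
  · -- budgets
    intro s hs path hH i hi _
    have hcard : ∀ r ∈ Finset.range (s + 1), (path r).l = s7l2 par.g n - 2 * r := by
      intro r hr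
      have h1 := (hH.2.1 r (by have := Finset.mem_range.1 hr; omega)).card
      omega
    have hts : s7l3 n + 2 * (s + 1) ≤ s7l2 par.g n := by omega
    have e : ∏ r ∈ Finset.range (s + 1), (1 + C * (s7kap par.g n : ℝ) / ((path r).l : ℝ)) =
        ∏ r ∈ Finset.range (s + 1),
          (1 + C * (s7kap par.g n : ℝ) / ((s7l2 par.g n - 2 * r : ℕ) : ℝ)) :=
      Finset.prod_congr rfl fun r hr => by rw [hcard r hr]
    rw [e]
    exact b0 (s + 1) hts
  · -- extraction
    intro s hs path hH _ hacc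
    have hx := hH.2.1 s le_rfl
    have h1 := hx.card
    have hlt : s7l3 n < (path s).l := by omega
    obtain ⟨n1, n2, n3⟩ := next φ π₀ (path s) s hstop hx hlt (path (s + 1)) (hH.2.2 s le_rfl)
    exact ⟨n1, n2, n3, ext φ π₀ (path (s + 1)) hacc⟩

end Claimed.Agent.R275
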