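import Claimed.Agent.R275.S7PhaseA

/-!
# Row 275, Section 7, package S7-B: Phase B (`boundary.tex` §7.5), statements

Owner of the statements: helper245.  Only definitions and `def St… : Prop`, no sorry.

Same scheme as Phase A (`Phase.invariant_run`, one tier) for `Φ = s7PhaseB ℝ d n par φ π₀`, `Inv = S7InvB`, `K₀ = 8`, all budgets `= 2`,
`T = (l₂ - l₃)/2`, start = the state at `l₂`.  Families: `dgT` (kind 2), `crow` (4), `grow` (5), `ent` (6); all rates `C κ / l`.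
Scales: `G_S = n^{-.3g}`, `G_V = n^{-.2g}`, `B_B`, `λ = n^{-g/100}`, `T, T̂ ≤ n^{.06g}`, `κ = n^{-.02g}`, `ε = n^{-.001a}`, `1/l ≤ ε`.
-/

set_option autoImplicit false
set_option linter.unusedVariables false

namespace Claimed.Agent.R275

open Matrix

/-- `W_g` of (7.59) -/
noncomputable def s7Wg (g : ℚ) (n l : ℕ) : ℝ := 210 * (s7GV g n : ℝ) + 2 / (l : ℝ)

/-- the bounds derived from the caps of Phase B at one `(σ, h)` -/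
structure S7DerB (d n : ℕ) (par : S7Par) (φ : ℕ → ℚ) (π₀ π : PPair n d) (σ h : ℝ) : Prop where
  sig : σ ^ 2 = 1
  refAt : S7RefAt π₀ π (s7t0 d n) σ h (s7P0R d n φ π₀ σ h) (1 / 32) (s7rho n : ℝ)
  baseD : S7Base (s7hmin d) ((s7ThS d : ℝ) + 1) (s7eps n : ℝ) σ h π.unres (s7D π σ h)
  baseDh : S7Base (s7hmin d) ((s7ThS d : ℝ) + 1) (s7eps n : ℝ) σ h π.unres
    (s7Dh π₀ π φ (Lcut d n) σ h)
  /-- (7.57) -/
  opD : s7opLE (s7D π σ h) (Real.sqrt (2 * (π.l : ℝ) * (s7GS par.g n : ℝ)))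
  opDh : s7opLE (s7Dh π₀ π φ (Lcut d n) σ h) (1 / 4)
  rowG : ∀ x, (s7D π σ h * s7D π σ h) x x ≤ 2 * (s7GS par.g n : ℝ)
  rowGh : ∀ x, (s7Dh π₀ π φ (Lcut d n) σ h * s7Dh π₀ π φ (Lcut d n) σ h) x x
    ≤ 2 * (s7GS par.g n : ℝ)
  xD : s7X (s7D π σ h) ≤ 2 * (π.l : ℝ) * (s7GS par.g n : ℝ)
  tailE : ∀ i x, |s7r π₀ π (s7t0 d n) σ h i x| ≤ (s7eps n : ℝ)
  tailC : ∀ i, S7Cent π.unres (s7r π₀ π (s7t0 d n) σ h i)
  dDiff : ∀ x y, |s7D π σ h x y - s7Dh π₀ π φ (Lcut d n) σ h x y| ≤ 2 * (s7BB par.g n : ℝ)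
  oDiff : ∀ a : S7Out n d, a.Alive π → ∀ x,
    |s7orow π (π.Wmat σ h) a x - s7orow π (s7Ph π₀ π φ (Lcut d n) σ h) a x| ≤
      ((s7Th a.ty (a.fl π₀ π (s7t0 d n)) : ℝ) + 1) * (s7BB par.g n : ℝ)
  outer : ∀ a c : S7Out n d, a.Alive π → c.Alive π →
    S7Allowed π.unres (s7allow π₀ π (s7t0 d n) a c) ∧
    S7Outer (s7C1 d : ℝ) (2 * (s7eps n : ℝ)) (13 * (s7BB par.g n : ℝ)) π.unres
      (s7allow π₀ π (s7t0 d n) a c) (s7orow π (π.Wmat σ h) a)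
      (s7orow π (s7Ph π₀ π φ (Lcut d n) σ h) a)
  /-- (7.59) -/
  fine : ∀ a c : S7Out n d, a.Alive π → c.Alive π →
    s7sqOn (s7allow π₀ π (s7t0 d n) a c) (s7orow π (π.Wmat σ h) a) ≤ s7Wg par.g n π.l ∧
    s7sqOn (s7allow π₀ π (s7t0 d n) a c) (s7orow π (s7Ph π₀ π φ (Lcut d n) σ h) a)
      ≤ s7Wg par.g n π.l ∧
    s7sqOn (s7allow π₀ π (s7t0 d n) c a) (s7orow π (π.Wmat σ h) a) ≤ s7Wg par.g n π.l ∧
    s7sqOn (s7allow π₀ π (s7t0 d n) c a) (s7orow π (s7Ph π₀ π φ (Lcut d n) σ h) a)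
      ≤ s7Wg par.g n π.l
  big : ∀ a : S7Out n d, a.Alive π → ∀ x, (a.ty = 0 → ¬ a.Avoid π₀ (s7t0 d n) x) →
    |s7orow π (s7Ph π₀ π φ (Lcut d n) σ h) a x| ≤ 105 / 100 ∧
    |s7orow π (π.Wmat σ h) a x| ≤ 11 / 10

/-- **S7-B-DER** the derived bounds. -/
def StS7BDer : Prop :=
  ∀ (d : ℕ) (par : S7Par), S7ParOK d par →
    S7EvB d par fun n φ π₀ π σ h => S7DerB d n par φ π₀ π σ h

/-- **S7-B-STEP-2** diagonal squares without a trace cap. -/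
def StS7BStepDgT : Prop :=
  ∀ (d : ℕ) (par : S7Par), S7ParOK d par → ∃ C : ℝ, 0 < C ∧
    S7StepB d par 2 fun n l => C * (s7kap par.g n : ℝ) / l

/-- **S7-B-STEP-4** contrast rows ((7.58)). -/
def StS7BStepCrow : Prop :=
  ∀ (d : ℕ) (par : S7Par), S7ParOK d par → ∃ C : ℝ, 0 < C ∧
    S7StepB d par 4 fun n l => C * (s7kap par.g n : ℝ) / l

/-- **S7-B-STEP-5** global tails. -/
def StS7BStepGrow : Prop :=
  ∀ (d : ℕ) (par : S7Par), S7ParOK d par → ∃ C : ℝ, 0 < C ∧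
    S7StepB d par 5 fun n l => C * (s7kap par.g n : ℝ) / l

/-- **S7-B-STEP-6** entries ((7.59), (7.60)). -/
def StS7BStepEnt : Prop :=
  ∀ (d : ℕ) (par : S7Par), S7ParOK d par → ∃ C : ℝ, 0 < C ∧
    S7StepB d par 6 fun n l => C * (s7kap par.g n : ℝ) / l

/-- **S7-B-BUD** `∏ (1 + C κ / l) ≤ 2` over `l = l₂, l₂ - 2, …` (`l > l₃`). -/
def StS7BBud : Prop :=
  ∀ (d : ℕ) (par : S7Par), S7ParOK d par → ∀ C : ℝ, 0 < C → ∀ᶠ n : ℕ in Filter.atTop, ∀ t : ℕ,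
    s7l3 n + 2 * t ≤ s7l2 par.g n →
    ∏ s ∈ Finset.range t, (1 + C * (s7kap par.g n : ℝ) / ((s7l2 par.g n - 2 * s : ℕ) : ℝ)) ≤ 2

/-- **S7-B-EXT** the caps follow from the accounts. -/
def StS7BExt : Prop :=
  ∀ (d : ℕ) (par : S7Par), S7ParOK d par → ∀ᶠ n : ℕ in Filter.atTop,
    ∀ (φ : ℕ → ℚ) (π₀ π : PPair n d),
    (∀ i ∈ s7labsB n d par.cp, (s7PhaseB ℝ d n par φ π₀).wt i * (s7PhaseB ℝ d n par φ π₀).Z i π
      ≤ 8 * 2) →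
    ∀ j ≤ Nprim d n par.cp, ∀ b : Bool, S7CapB d n par φ π₀ π (sgn b) ((prim d n j : ℚ) : ℝ)

/-- **S7-B-NEXT** every candidate extends the stop, has two stubs less, and positive precisions. -/
def StS7BNext : Prop :=
  ∀ (d : ℕ) (par : S7Par), S7ParOK d par → ∀ᶠ n : ℕ in Filter.atTop,
    ∀ (φ : ℕ → ℚ) (π₀ π : PPair n d) (t : ℕ), S7Stop d n par φ π₀ → S7InvB d n par φ π₀ t π →
    s7l3 n < π.l → ∀ π' ∈ s7cands π,
    π₀.Ext π' ∧ π'.l + 2 * (t + 1) = s7l2 par.g n ∧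
    ∀ j ≤ Nprim d n par.cp, ∀ b : Bool, PosOn1 (π'.Mmat (sgn b) ((prim d n j : ℚ) : ℝ))

/-- **S7-B-INIT** transition: the caps of Phase A at `l₂` give the caps of Phase B, and every account of Phase B is `≤ 2`. -/
def StS7BInit : Prop :=
  ∀ (d : ℕ) (par : S7Par), S7ParOK d par → ∀ᶠ n : ℕ in Filter.atTop,
    ∀ (φ : ℕ → ℚ) (π₀ π : PPair n d) (t : ℕ), S7InvA d n par φ π₀ t π → π.l = s7l2 par.g n →
    S7InvB d n par φ π₀ 0 π ∧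
    ∀ i ∈ s7labsB n d par.cp, (s7PhaseB ℝ d n par φ π₀).Z i π ≤ 2

/-- **S7-B-RUN** Phase B: the caps hold along the greedy run started at any state satisfying them. -/
def StS7BRun : Prop :=
  ∀ (d : ℕ) (par : S7Par), S7ParOK d par → ∀ᶠ n : ℕ in Filter.atTop,
    ∀ (φ : ℕ → ℚ) (π₀ π₂ : PPair n d), S7Stop d n par φ π₀ → S7InvB d n par φ π₀ 0 π₂ →
    (∀ i ∈ s7labsB n d par.cp, (s7PhaseB ℝ d n par φ π₀).Z i π₂ ≤ 2) →
    ∀ t : ℕ, s7l3 n + 2 * t ≤ s7l2 par.g n →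
      S7InvB d n par φ π₀ t ((s7PhaseB ℝ d n par φ π₀).run π₂ t).1

end Claimed.Agent.R275
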