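import Claimed.Agent.R275.S7AStepEnt
import Claimed.Agent.R275.S7PhaseB

/-!
# Row 275, Section 7, leaf S7-B-STEP-ENT: one step of the entry accounts in Phase B

Prover: helper102.  Prefix `s7be_`.  Statement `StS7BStepEnt` in `R275/S7PhaseB.lean` (helper245).
Same structure as `S7AStepEnt.lean` (the lemmas on labels and thresholds are taken from there), with `B_B`, `S7DerB`, `S7CapB`,
`StS7EntryMeanB`, `StS7EntryVarB` and the pointwise part of `StS7EntryVarA`.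
-/

set_option autoImplicit false
set_option linter.unusedSectionVars false
set_option linter.unusedVariables false

namespace Claimed.Agent.R275

open Matrix Filter

section Rows

variable {n d : ℕ}

variable {par : S7Par} {φ : ℕ → ℚ} {π₀ π : PPair n d} {σ h : ℝ}

/-- both outer rows of an alive label at a stub that is not an endpoint of the label -/
theorem s7be_rowM (hCtr : StS7CtrRow) (der : S7DerB d n par φ π₀ π σ h) (a : S7Out n d)
    (ha : a.Alive π) (z : Stub n d) (hz : a.ty = 0 → ¬ a.Avoid π₀ (s7t0 d n) z) :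
    |s7orow π (π.Wmat σ h) a z| ≤ (if a.ty = 0 then 2 * (s7eps n : ℝ) else 11 / 10) ∧
    |s7orow π (s7Ph π₀ π φ (Lcut d n) σ h) a z| ≤ (if a.ty = 0 then 2 * (s7eps n : ℝ) else 11 / 10) := by
  rcases a with i | ⟨x, y⟩
  · have b := der.big (Sum.inl i) ha z hz
    have e : S7Out.ty (Sum.inl i : S7Out n d) = 1 := rfl
    rw [e]
    simp only [one_ne_zero, if_false]
    exact ⟨b.2, b.1.trans (by norm_num)⟩
  · have e : S7Out.ty (Sum.inr (x, y) : S7Out n d) = 0 := rfl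
    have ha' : π.Unres x ∧ π.Unres y ∧ x ≠ y := ha
    have hz' : ¬ (z = x ∨ z = y) := hz e
    rw [e]
    simp only [if_true]
    exact ⟨s7ae_ctr_row hCtr π _ der.baseD.ent ha'.1 ha'.2.1 hz',
      s7ae_ctr_row hCtr π _ der.baseDh.ent ha'.1 ha'.2.1 hz'⟩

/-- exceptional events with surviving labels: the new entry is below the new threshold -/
theorem s7be_excJump (hCtr : StS7CtrRow) (der : S7DerB d n par φ π₀ π σ h)
    (cap : S7CapB d n par φ π₀ π σ h) {π' : PPair n d} {u v : Stub n d}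
    (F1 : ∀ x, π'.Unres x ↔ π.Unres x ∧ x ≠ u ∧ x ≠ v)
    (F2 : ∀ i, s7removed π₀ π' (s7t0 d n) i ↔
      s7removed π₀ π (s7t0 d n) i ∨ s7near π₀ (s7t0 d n) i u ∨ s7near π₀ (s7t0 d n) i v)
    (uniq : ∀ i x y, s7near π₀ (s7t0 d n) i x → s7near π₀ (s7t0 d n) i y → x = y)
    (hu : π.Unres u) (hv : π.Unres v) (a c : S7Out n d) (ha' : a.Alive π') (hc' : c.Alive π')
    (hexc : ¬ (u ∈ s7allow π₀ π (s7t0 d n) a c ∧ v ∈ s7allow π₀ π (s7t0 d n) a c))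
    (hε : (s7eps n : ℝ) ≤ 1 / 100) (dE : ℝ)
    (hJ : ∀ b₁ b₂ b₃ mw mp₁ mp₂ : ℝ,
      (∀ x, x = u ∨ x = v →
        |s7orow π (π.Wmat σ h) a x - s7orow π (s7Ph π₀ π φ (Lcut d n) σ h) a x| ≤ b₁ ∧
        |s7orow π (π.Wmat σ h) c x - s7orow π (s7Ph π₀ π φ (Lcut d n) σ h) c x| ≤ b₂ ∧
        |s7orow π (π.Wmat σ h) c x| ≤ mw ∧ |s7orow π (s7Ph π₀ π φ (Lcut d n) σ h) a x| ≤ mp₁ ∧
        |s7orow π (s7Ph π₀ π φ (Lcut d n) σ h) c x| ≤ mp₂) →
      (∀ x y, (x = u ∨ x = v) → (y = u ∨ y = v) →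
        |s7D π σ h x y - s7Dh π₀ π φ (Lcut d n) σ h x y| ≤ b₃) →
      |dE| ≤ 4 * b₁ * mw + 4 * mp₁ * b₂ + 16 * mp₁ * mp₂ * b₃) :
    |s7ent (s7E π₀ π φ (Lcut d n) σ h) a c + dE| ≤
      (s7Th (a.ty + c.ty) (a.fl π₀ π' (s7t0 d n) + c.fl π₀ π' (s7t0 d n)) : ℝ)
        * (s7BB par.g n : ℝ) := by
  obtain ⟨ha, hta⟩ := s7ae_alive_of (π₀ := π₀) (t0 := s7t0 d n) F1 a ha'
  obtain ⟨hc, htc⟩ := s7ae_alive_of (π₀ := π₀) (t0 := s7t0 d n) F1 c hc'
  have hex : (a.Avoid π₀ (s7t0 d n) u ∨ a.Avoid π₀ (s7t0 d n) v)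
      ∨ (c.Avoid π₀ (s7t0 d n) u ∨ c.Avoid π₀ (s7t0 d n) v) := by
    by_contra hcon
    rw [not_or, not_or, not_or] at hcon
    exact hexc ⟨s7ae_mem_allow.2 ⟨hu, hcon.1.1, hcon.2.1⟩, s7ae_mem_allow.2 ⟨hv, hcon.1.2, hcon.2.2⟩⟩
  obtain ⟨ma1, ma2⟩ := s7ae_fl_mono F2 a
  obtain ⟨mc1, mc2⟩ := s7ae_fl_mono F2 c
  have hex' : (a.ty = 1 ∧ a.fl π₀ π (s7t0 d n) = 0 ∧ a.fl π₀ π' (s7t0 d n) = 1)
      ∨ (c.ty = 1 ∧ c.fl π₀ π (s7t0 d n) = 0 ∧ c.fl π₀ π' (s7t0 d n) = 1) := by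
    rcases hex with e | e
    · exact Or.inl (s7ae_exc F2 uniq hu hv a hta e)
    · exact Or.inr (s7ae_exc F2 uniq hu hv c htc e)
  have hε0 : (0 : ℝ) ≤ (s7eps n : ℝ) := (s7n_cast_pos _ n).le
  have hBA : (0 : ℝ) ≤ (s7BB par.g n : ℝ) := (s7n_cast_pos _ n).le
  have thr := s7ae_thr a.ty c.ty (a.fl π₀ π (s7t0 d n)) (c.fl π₀ π (s7t0 d n))
    (a.fl π₀ π' (s7t0 d n)) (c.fl π₀ π' (s7t0 d n)) (s7eps n : ℝ) (s7BB par.g n : ℝ) hε0 hε hBA
    (s7ae_ty_le a) (s7ae_ty_le c) ma1 ma2 mc1 mc2 hex'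
  have J := hJ (((s7Th a.ty (a.fl π₀ π (s7t0 d n)) : ℝ) + 1) * (s7BB par.g n : ℝ))
    (((s7Th c.ty (c.fl π₀ π (s7t0 d n)) : ℝ) + 1) * (s7BB par.g n : ℝ)) (2 * (s7BB par.g n : ℝ))
    (if c.ty = 0 then 2 * (s7eps n : ℝ) else 11 / 10)
    (if a.ty = 0 then 2 * (s7eps n : ℝ) else 11 / 10)
    (if c.ty = 0 then 2 * (s7eps n : ℝ) else 11 / 10)
    (by
      intro x hx
      have hxa : a.ty = 0 → ¬ a.Avoid π₀ (s7t0 d n) x := by
        intro h0
        rcases hx with e | e <;> rw [e]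
        · exact (hta h0).1
        · exact (hta h0).2
      have hxc : c.ty = 0 → ¬ c.Avoid π₀ (s7t0 d n) x := by
        intro h0
        rcases hx with e | e <;> rw [e]
        · exact (htc h0).1
        · exact (htc h0).2
      exact ⟨der.oDiff a ha x, der.oDiff c hc x, (s7be_rowM hCtr der c hc x hxc).1,
        (s7be_rowM hCtr der a ha x hxa).2, (s7be_rowM hCtr der c hc x hxc).2⟩)
    (fun x y _ _ => der.dDiff x y)
  have E := cap.ent a c ha hc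
  refine (abs_add_le _ _).trans ?_
  linarith

end Rows

/-! ## the account at a candidate -/

section Acc

variable {n d : ℕ} {par : S7Par} {φ : ℕ → ℚ} {π₀ π π' : PPair n d} {u v : Stub n d}

theorem s7be_Z_eq (j : ℕ) (b s : Bool) (a c : S7Out n d) (ρ : PPair n d) :
    s7ZB ℝ d n par φ π₀ (.ent j b s a c) ρ =
      if a.Alive ρ ∧ c.Alive ρ then
        excessZ par.p (sgn s * s7ent (s7E π₀ ρ φ (Lcut d n) (sgn b) ((prim d n j : ℚ) : ℝ)) a c)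
          (((s7Th (a.ty + c.ty) (a.fl π₀ ρ (s7t0 d n) + c.fl π₀ ρ (s7t0 d n)) * s7BB par.g n : ℚ)) : ℝ)
          (((s7lam par.g n * s7BB par.g n : ℚ)) : ℝ)
      else 0 := rfl

/-- ordinary events -/
theorem s7be_Zord (j : ℕ) (b s : Bool) (a c : S7Out n d)
    (F1 : ∀ x, π'.Unres x ↔ π.Unres x ∧ x ≠ u ∧ x ≠ v)
    (F2 : ∀ i, s7removed π₀ π' (s7t0 d n) i ↔
      s7removed π₀ π (s7t0 d n) i ∨ s7near π₀ (s7t0 d n) i u ∨ s7near π₀ (s7t0 d n) i v)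
    (ha : a.Alive π) (hc : c.Alive π) (hu : u ∈ s7allow π₀ π (s7t0 d n) a c)
    (hv : v ∈ s7allow π₀ π (s7t0 d n) a c) (dE : ℝ)
    (hE : s7ent (s7E π₀ π' φ (Lcut d n) (sgn b) ((prim d n j : ℚ) : ℝ)) a c
      = s7ent (s7E π₀ π φ (Lcut d n) (sgn b) ((prim d n j : ℚ) : ℝ)) a c + dE) :
    s7ZB ℝ d n par φ π₀ (.ent j b s a c) π' =
      excessZ par.p (sgn s * s7ent (s7E π₀ π φ (Lcut d n) (sgn b) ((prim d n j : ℚ) : ℝ)) a c
          + sgn s * dE)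
        (((s7Th (a.ty + c.ty) (a.fl π₀ π (s7t0 d n) + c.fl π₀ π (s7t0 d n)) * s7BB par.g n : ℚ)) : ℝ)
        (((s7lam par.g n * s7BB par.g n : ℚ)) : ℝ) := by
  obtain ⟨-, ua, uc⟩ := s7ae_mem_allow.1 hu
  obtain ⟨-, va, vc⟩ := s7ae_mem_allow.1 hv
  obtain ⟨a1, a2⟩ := s7ae_ord F1 F2 a ha ua va
  obtain ⟨c1, c2⟩ := s7ae_ord F1 F2 c hc uc vc
  rw [s7be_Z_eq, if_pos ⟨a1, c1⟩, a2, c2, hE, mul_add]

/-- exceptional events -/
theorem s7be_Zexc (j : ℕ) (b s : Bool) (a c : S7Out n d) (X T : ℝ) (hp : par.p ≠ 0)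
    (hthr : a.Alive π' → c.Alive π' →
      |s7ent (s7E π₀ π' φ (Lcut d n) (sgn b) ((prim d n j : ℚ) : ℝ)) a c| ≤
      (s7Th (a.ty + c.ty) (a.fl π₀ π' (s7t0 d n) + c.fl π₀ π' (s7t0 d n)) : ℝ)
        * (s7BB par.g n : ℝ)) :
    s7ZB ℝ d n par φ π₀ (.ent j b s a c) π' ≤
      excessZ par.p X T (((s7lam par.g n * s7BB par.g n : ℚ)) : ℝ) := by
  have hb : (0 : ℝ) < (((s7lam par.g n * s7BB par.g n : ℚ)) : ℝ) := by
    have : 0 < s7lam par.g n * s7BB par.g n := mul_pos (scQ_pos _ _) (scQ_pos _ _)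
    exact_mod_cast this
  have h1 := excessZ_pos par.p X T _ hb
  rw [s7be_Z_eq]
  by_cases hal : a.Alive π' ∧ c.Alive π'
  · rw [if_pos hal]
    refine le_trans (le_of_eq ?_) h1
    have t := hthr hal.1 hal.2
    have t2 : sgn s * s7ent (s7E π₀ π' φ (Lcut d n) (sgn b) ((prim d n j : ℚ) : ℝ)) a c
        ≤ (((s7Th (a.ty + c.ty) (a.fl π₀ π' (s7t0 d n) + c.fl π₀ π' (s7t0 d n))
          * s7BB par.g n : ℚ)) : ℝ) := by
      refine (le_abs_self _).trans ?_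
      rw [abs_mul, s7ae_sgn_abs, one_mul]
      push_cast
      exact t
    unfold excessZ
    rw [max_eq_right (by linarith), zero_div, zero_pow hp, add_zero]
  · rw [if_neg hal]
    linarith

end Acc

/-! ## one exposure -/

section Step

variable {n d : ℕ} {par : S7Par} {φ : ℕ → ℚ} {π₀ π : PPair n d} {σ h : ℝ}

/-- the facts on one exposure used below -/
theorem s7be_upd (hUpd : StS7Upd) (hFlags : StS7Flags) (hn : 0 < n) (hext : π₀.Ext π)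
    (hpos : PosOn1 (π.Mmat σ h)) (der : S7DerB d n par φ π₀ π σ h) (hm : 0 < s7hmin d)
    (hε : (s7eps n : ℝ) ≤ 1 / 16) (hl : 4 ≤ π.l) (u v : Stub n d) (hu : π.Unres u)
    (hv : π.Unres v) (huv : u ≠ v) :
    (∀ x, (π.resolve u v).Unres x ↔ π.Unres x ∧ x ≠ u ∧ x ≠ v) ∧
    (∀ i, s7removed π₀ (π.resolve u v) (s7t0 d n) i ↔
      s7removed π₀ π (s7t0 d n) i ∨ s7near π₀ (s7t0 d n) i u ∨ s7near π₀ (s7t0 d n) i v) ∧
    ∀ a c : S7Out n d, s7ent (s7E π₀ (π.resolve u v) φ (Lcut d n) σ h) a c =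
      s7ent (s7E π₀ π φ (Lcut d n) σ h) a c +
        s7dE π.l σ h (s7D π σ h) (s7Dh π₀ π φ (Lcut d n) σ h) (s7orow π (π.Wmat σ h) a)
          (s7orow π (π.Wmat σ h) c) (s7orow π (s7Ph π₀ π φ (Lcut d n) σ h) a)
          (s7orow π (s7Ph π₀ π φ (Lcut d n) σ h) c) u v := by
  have fl := hFlags n d π₀ π (s7t0 d n) u v hu hv huv
  have up := hUpd n d π₀ π φ (Lcut d n) σ h u v hn hext hu hv huv hl der.sig
    (lt_of_lt_of_le hm der.baseD.h_lo) der.baseD.h_hi hpos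
    (fun x y => (der.baseD.ent x y).trans hε) der.refAt.unit
    (fun x y => (der.baseDh.ent x y).trans hε)
  exact ⟨fl.1, fl.2.1, up.2.2.2.2.2.2.2.2.2⟩

/-- dead labels stay dead -/
theorem s7be_dead (j : ℕ) (b s : Bool) (a c : S7Out n d) (hl : 2 ≤ π.l)
    (hF : ∀ u v, π.Unres u → π.Unres v → u ≠ v →
      ∀ x, (π.resolve u v).Unres x ↔ π.Unres x ∧ x ≠ u ∧ x ≠ v)
    (hal : ¬ (a.Alive π ∧ c.Alive π)) :
    s7avg π.unres (fun u v => s7ZB ℝ d n par φ π₀ (.ent j b s a c) (π.resolve u v)) = 0 := by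
  have e : s7avg π.unres (fun u v => s7ZB ℝ d n par φ π₀ (.ent j b s a c) (π.resolve u v))
      = s7avg π.unres (fun _ _ => (0 : ℝ)) := by
    refine s7t_avg_congr (fun u hu v hv huv => ?_)
    have F1 := hF u v (Finset.mem_filter.1 hu).2 (Finset.mem_filter.1 hv).2 huv
    rw [s7be_Z_eq, if_neg]
    rintro ⟨h1, h2⟩
    exact hal ⟨(s7ae_alive_of (π₀ := π₀) (t0 := s7t0 d n) F1 a h1).1,
      (s7ae_alive_of (π₀ := π₀) (t0 := s7t0 d n) F1 c h2).1⟩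
  rw [e, s7t_avg_const hl]

/-- alive labels: Lemma 3.2 with ordinary and exceptional events -/
theorem s7be_alive (hExc : StS7ExcStep) (hCtr : StS7CtrRow) (j : ℕ) (b s : Bool) (a c : S7Out n d)
    (der : S7DerB d n par φ π₀ π (sgn b) ((prim d n j : ℚ) : ℝ))
    (cap : S7CapB d n par φ π₀ π (sgn b) ((prim d n j : ℚ) : ℝ))
    (dE : Stub n d → Stub n d → ℝ)
    (hup : ∀ u v, π.Unres u → π.Unres v → u ≠ v →
      (∀ x, (π.resolve u v).Unres x ↔ π.Unres x ∧ x ≠ u ∧ x ≠ v) ∧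
      (∀ i, s7removed π₀ (π.resolve u v) (s7t0 d n) i ↔
        s7removed π₀ π (s7t0 d n) i ∨ s7near π₀ (s7t0 d n) i u ∨ s7near π₀ (s7t0 d n) i v) ∧
      s7ent (s7E π₀ (π.resolve u v) φ (Lcut d n) (sgn b) ((prim d n j : ℚ) : ℝ)) a c =
        s7ent (s7E π₀ π φ (Lcut d n) (sgn b) ((prim d n j : ℚ) : ℝ)) a c + dE u v)
    (uniq : ∀ i x y, s7near π₀ (s7t0 d n) i x → s7near π₀ (s7t0 d n) i y → x = y)
    (ha : a.Alive π) (hc : c.Alive π) (hp : 2 ≤ par.p) (hε : (s7eps n : ℝ) ≤ 1 / 100)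
    (hJ : ∀ u v, π.Unres u → π.Unres v → u ≠ v → ∀ b₁ b₂ b₃ mw mp₁ mp₂ : ℝ,
      (∀ x, x = u ∨ x = v →
        |s7orow π (π.Wmat (sgn b) ((prim d n j : ℚ) : ℝ)) a x
          - s7orow π (s7Ph π₀ π φ (Lcut d n) (sgn b) ((prim d n j : ℚ) : ℝ)) a x| ≤ b₁ ∧
        |s7orow π (π.Wmat (sgn b) ((prim d n j : ℚ) : ℝ)) c x
          - s7orow π (s7Ph π₀ π φ (Lcut d n) (sgn b) ((prim d n j : ℚ) : ℝ)) c x| ≤ b₂ ∧
        |s7orow π (π.Wmat (sgn b) ((prim d n j : ℚ) : ℝ)) c x| ≤ mw ∧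
        |s7orow π (s7Ph π₀ π φ (Lcut d n) (sgn b) ((prim d n j : ℚ) : ℝ)) a x| ≤ mp₁ ∧
        |s7orow π (s7Ph π₀ π φ (Lcut d n) (sgn b) ((prim d n j : ℚ) : ℝ)) c x| ≤ mp₂) →
      (∀ x y, (x = u ∨ x = v) → (y = u ∨ y = v) →
        |s7D π (sgn b) ((prim d n j : ℚ) : ℝ) x y
          - s7Dh π₀ π φ (Lcut d n) (sgn b) ((prim d n j : ℚ) : ℝ) x y| ≤ b₃) →
      |dE u v| ≤ 4 * b₁ * mw + 4 * mp₁ * b₂ + 16 * mp₁ * mp₂ * b₃)
    (μ ν : ℝ) (hμ : 0 ≤ μ) (hν : 0 ≤ ν)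
    (hmean : |s7avg (s7allow π₀ π (s7t0 d n) a c) dE| ≤ μ)
    (hvar : s7avg (s7allow π₀ π (s7t0 d n) a c) (fun u v => dE u v ^ 2) ≤ ν)
    (hpt : ∀ u ∈ s7allow π₀ π (s7t0 d n) a c, ∀ v ∈ s7allow π₀ π (s7t0 d n) a c, u ≠ v →
      |dE u v| ≤ (((s7lam par.g n * s7BB par.g n : ℚ)) : ℝ)) :
    s7avg π.unres (fun u v => s7ZB ℝ d n par φ π₀ (.ent j b s a c) (π.resolve u v))
      ≤ (1 + (excessC par.p : ℝ) * (μ / (((s7lam par.g n * s7BB par.g n : ℚ)) : ℝ)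
          + ν / (((s7lam par.g n * s7BB par.g n : ℚ)) : ℝ) ^ 2))
        * s7ZB ℝ d n par φ π₀ (.ent j b s a c) π := by
  have hb : (0 : ℝ) < (((s7lam par.g n * s7BB par.g n : ℚ)) : ℝ) := by
    have : 0 < s7lam par.g n * s7BB par.g n := mul_pos (scQ_pos _ _) (scQ_pos _ _)
    exact_mod_cast this
  have hsub : s7allow π₀ π (s7t0 d n) a c ⊆ π.unres := Finset.filter_subset _ _
  rw [s7be_Z_eq j b s a c π, if_pos ⟨ha, hc⟩]
  refine hExc (Stub n d) π.unres (s7allow π₀ π (s7t0 d n) a c) par.p _ _ _ μ ν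
    (fun u v => sgn s * dE u v) _ hp hsub hb hμ hν ?_ ?_ ?_ ?_
  · intro u hu v hv huv
    obtain ⟨F1, F2, hE⟩ := hup u v (s7ae_mem_allow.1 hu).1 (s7ae_mem_allow.1 hv).1 huv
    refine ⟨?_, le_of_eq (s7be_Zord j b s a c F1 F2 ha hc hu hv _ hE)⟩
    rw [abs_mul, s7ae_sgn_abs, one_mul]
    exact hpt u hu v hv huv
  · intro u hu v hv huv hnot
    have hu' : π.Unres u := (Finset.mem_filter.1 hu).2
    have hv' : π.Unres v := (Finset.mem_filter.1 hv).2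
    obtain ⟨F1, F2, hE⟩ := hup u v hu' hv' huv
    refine s7be_Zexc j b s a c _ _ (by omega) (fun ha' hc' => ?_)
    rw [hE]
    exact s7be_excJump hCtr der cap F1 F2 uniq hu' hv' a c ha' hc' hnot hε _ (hJ u v hu' hv' huv)
  · rw [s7t_avg_smul]
    refine (le_abs_self _).trans ?_
    rw [abs_mul, s7ae_sgn_abs, one_mul]
    exact hmean
  · refine le_trans (le_of_eq ?_) hvar
    refine s7t_avg_congr (fun u _ v _ _ => ?_)
    rw [mul_pow, ← sq_abs (sgn s : ℝ), s7ae_sgn_abs]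
    ring

end Step

/-! ## numerics -/

/-- all facts on the scales used in the entry step of Phase B -/
theorem s7be_num {g : ℚ} (hg : S7gOK g) (ε0 : ℝ) (hε0 : 0 < ε0) (m : ℕ) (K : ℝ) :
    ∀ᶠ n : ℕ in atTop, 1 ≤ n ∧ (s7eps n : ℝ) ≤ ε0 ∧ m ≤ s7l3 n ∧
      K * (s7eps n : ℝ) ≤ (s7lam g n : ℝ) ∧ 13 * (s7BB g n : ℝ) ≤ 1 ∧
      (∀ L : ℝ, (s7l3 n : ℝ) ≤ L → 1 / L ≤ (s7GV g n : ℝ)) ∧
      (∀ L : ℝ, (s7l3 n : ℝ) ≤ L → (1 + (s7TcapB g n : ℝ)) / L ≤ 1) ∧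
      212 * (s7GV g n : ℝ) ≤ 1 ∧
      213 * (s7GV g n : ℝ) + (1 + Real.sqrt (s7TcapB g n : ℝ) + 1 / 4)
          * Real.sqrt (212 * (s7GV g n : ℝ)) ≤ (s7kap g n : ℝ) * (s7lam g n : ℝ) ∧
      848 * (s7GV g n : ℝ) ≤ (s7kap g n : ℝ) * (s7lam g n : ℝ) ^ 2 := by
  obtain ⟨hg0, hg1⟩ := hg
  have haa : aa = 1 / 10000 := rfl
  have x1 : (-(aa / 1000) : ℚ) < 0 := by rw [haa]; norm_num
  have xK : (-(aa / 1000) : ℚ) < -(g / 100) := by rw [haa] at hg1 ⊢; linarith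
  have xB : (40 / 100 * aa - (2 / 3 + 15 / 100 * aa - 2 * g) / 2 : ℚ) < 0 := by
    rw [haa] at hg1 ⊢; linarith
  have xG : (-(2 / 10 * g) : ℚ) < 0 := by linarith
  have xT : (6 * s7eta0 g : ℚ) < s7chi := by
    unfold s7eta0 s7chi; rw [haa] at hg1 ⊢; linarith
  have xV : (0 : ℚ) < s7chi + -(2 / 10 * g) := by
    unfold s7chi; rw [haa] at hg1 ⊢; linarith
  have x2 : (6 * s7eta0 g / 2 + -(2 / 10 * g) / 2 : ℚ) < -(2 * s7eta0 g) + -(g / 100) := by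
    unfold s7eta0; linarith
  have x3 : (-(2 / 10 * g) : ℚ) < -(2 * s7eta0 g) + (-(g / 100) + -(g / 100)) := by
    unfold s7eta0; linarith
  filter_upwards [eventually_ge_atTop 1, s7n_scQ_small x1 ε0 hε0, s7n_l3_large m, s7ag_lt xK K,
    s7ag_lt xB 13, s7ag_lt xG 212, s7ag_lt xT 1, s7ag_lt xV 1, s7ag_lt x2 666, s7ag_lt x3 3392]
    with n h1 h2 h3 hK hB hG hT hV h2' h3'
  have l3e : (s7l3 n : ℝ) = 2 * (scQ s7chi n : ℝ) := by exact_mod_cast s7n_l3 n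
  have z0 : (scQ 0 n : ℝ) = 1 := by exact_mod_cast s7n_scQ_zero n
  have pχ := s7n_cast_pos s7chi n
  have pV := s7n_cast_pos (-(2 / 10 * g)) n
  have pτ := s7n_cast_pos (6 * s7eta0 g) n
  have pκ := s7n_cast_pos (-(2 * s7eta0 g)) n
  have pl := s7n_cast_pos (-(g / 100)) n
  have τ1 : (1 : ℝ) ≤ (scQ (6 * s7eta0 g) n : ℝ) := s7ae_one_le (by unfold s7eta0; linarith) n
  refine ⟨h1, h2, h3, hK, ?_, ?_, ?_, ?_, ?_, ?_⟩
  · rw [z0] at hB; exact hB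
  · intro L hL
    have hL0 : 0 < L := by linarith
    unfold s7GV
    rw [div_le_iff₀ hL0]
    rw [z0] at hV
    have a1 := s7ae_add_le s7chi (-(2 / 10 * g)) n
    have a2 := mul_le_mul_of_nonneg_left hL pV.le
    rw [l3e] at a2
    linarith
  · intro L hL
    have hL0 : 0 < L := by linarith
    unfold s7TcapB
    rw [div_le_one hL0]
    linarith
  · rw [z0] at hG; exact hG
  · unfold s7GV s7TcapB s7kap s7lam
    have s1 := s7n_sqrt_scQ_le (6 * s7eta0 g) n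
    have s2 := s7n_sqrt_scQ_le (-(2 / 10 * g)) n
    have s3 : Real.sqrt (212 * (scQ (-(2 / 10 * g)) n : ℝ))
        ≤ 15 * Real.sqrt (scQ (-(2 / 10 * g)) n : ℝ) := by
      have : 212 * (scQ (-(2 / 10 * g)) n : ℝ) ≤ 15 ^ 2 * (scQ (-(2 / 10 * g)) n : ℝ) := by
        nlinarith
      refine (Real.sqrt_le_sqrt this).trans (le_of_eq ?_)
      rw [Real.sqrt_mul (by norm_num), Real.sqrt_sq (by norm_num)]
    have t1 : (1 : ℝ) ≤ (scQ (6 * s7eta0 g / 2) n : ℝ) :=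
      s7ae_one_le (by unfold s7eta0; linarith) n
    have m1 := s7ae_mul_le (6 * s7eta0 g / 2) (-(2 / 10 * g) / 2) n
    have m2 : (scQ (-(2 / 10 * g)) n : ℝ) ≤ (scQ (6 * s7eta0 g / 2 + -(2 / 10 * g) / 2) n : ℝ) :=
      s7ae_mono (by unfold s7eta0; linarith) n
    have a1 := s7ae_add_le (-(2 * s7eta0 g)) (-(g / 100)) n
    have p2 := s7n_cast_pos (-(2 / 10 * g) / 2) n
    have c1 : (1 + Real.sqrt (scQ (6 * s7eta0 g) n : ℝ) + 1 / 4)
          * Real.sqrt (212 * (scQ (-(2 / 10 * g)) n : ℝ))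
        ≤ (4 * (scQ (6 * s7eta0 g / 2) n : ℝ)) * (30 * (scQ (-(2 / 10 * g) / 2) n : ℝ)) :=
      mul_le_mul (by linarith) (by linarith) (Real.sqrt_nonneg _) (by positivity)
    nlinarith
  · unfold s7GV s7kap s7lam
    have a1 := s7ae_add_le (-(2 * s7eta0 g)) (-(g / 100) + -(g / 100)) n
    have a2 := s7ae_add_le (-(g / 100)) (-(g / 100)) n
    have b2 := mul_le_mul_of_nonneg_left a2 pκ.le
    nlinarith

/-- the numerical part of the alive case -/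
theorem s7be_final (L CM CV Cp κ lam BB ε τ GV : ℝ) (hL : 1 ≤ L) (hCM : 0 ≤ CM) (hCV : 0 ≤ CV)
    (hCp : 0 ≤ Cp) (hκ : 0 < κ) (hlam : 0 < lam) (hBB : 0 < BB) (hGV : 0 < GV) (hτ : 0 ≤ τ)
    (hε0 : 0 ≤ ε) (hε : ε ≤ 1 / 100) (b1 : 1 / L ≤ GV) (b5 : (1 + τ) / L ≤ 1) (b4 : 212 * GV ≤ 1)
    (b2 : 213 * GV + (1 + Real.sqrt τ + 1 / 4) * Real.sqrt (212 * GV) ≤ κ * lam)
    (b3 : 848 * GV ≤ κ * lam ^ 2) :
    Cp * ((CM * (13 * BB) * (1 / L ^ 2 + (210 * GV + 2 / L) / L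
          + (1 + Real.sqrt τ + 1 / 4) * Real.sqrt (210 * GV + 2 / L) / L)) / (lam * BB)
      + (CV * ((L * (13 * BB) ^ 2 * (210 * GV + 2 / L) + (13 * BB) ^ 2 * (210 * GV + 2 / L) ^ 2) / L ^ 2
          + (1 + τ) * (13 * BB) ^ 2 * (210 * GV + 2 / L) / L ^ 2
          + (13 * BB) ^ 2 * (2 * ε) ^ 2 * (210 * GV + 2 / L) / L)) / (lam * BB) ^ 2)
      ≤ Cp * (13 * CM + 169 * CV) * κ / L := by
  have hL0 : 0 < L := by linarith
  set W := 210 * GV + 2 / L with hW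
  have hW0 : 0 ≤ W := by rw [hW]; positivity
  have hW1 : W ≤ 212 * GV := by
    have : 2 / L = 2 * (1 / L) := by ring
    rw [hW, this]; linarith
  have hW2 : W ≤ 1 := hW1.trans b4
  have sW : Real.sqrt W ≤ Real.sqrt (212 * GV) := Real.sqrt_le_sqrt hW1
  have M : 1 / L + W + (1 + Real.sqrt τ + 1 / 4) * Real.sqrt W ≤ κ * lam := by
    have := mul_le_mul_of_nonneg_left sW
      (by positivity : 0 ≤ 1 + Real.sqrt τ + 1 / 4)
    linarith
  have N : W + W ^ 2 / L + (1 + τ) * W / L + (2 * ε) ^ 2 * W ≤ κ * lam ^ 2 := by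
    have n1 : W ^ 2 / L ≤ W := by
      rw [div_le_iff₀ hL0]; nlinarith
    have n2 : (1 + τ) * W / L ≤ W := by
      have e : (1 + τ) * W / L = (1 + τ) / L * W := by ring
      rw [e]
      have := mul_le_mul_of_nonneg_right b5 hW0
      linarith
    have n3 : (2 * ε) ^ 2 * W ≤ W := by
      have : (2 * ε) ^ 2 ≤ 1 := by nlinarith
      have := mul_le_mul_of_nonneg_right this hW0
      linarith
    linarith
  have e1 : (CM * (13 * BB) * (1 / L ^ 2 + W / L + (1 + Real.sqrt τ + 1 / 4) * Real.sqrt W / L))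
      / (lam * BB)
      = 13 * CM * ((1 / L + W + (1 + Real.sqrt τ + 1 / 4) * Real.sqrt W) / lam) / L := by
    field_simp
  have e2 : (CV * ((L * (13 * BB) ^ 2 * W + (13 * BB) ^ 2 * W ^ 2) / L ^ 2
          + (1 + τ) * (13 * BB) ^ 2 * W / L ^ 2 + (13 * BB) ^ 2 * (2 * ε) ^ 2 * W / L))
      / (lam * BB) ^ 2
      = 169 * CV * ((W + W ^ 2 / L + (1 + τ) * W / L + (2 * ε) ^ 2 * W) / lam ^ 2) / L := by
    field_simp
    ring
  rw [e1, e2]
  have q1 : (1 / L + W + (1 + Real.sqrt τ + 1 / 4) * Real.sqrt W) / lam ≤ κ := by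
    rw [div_le_iff₀ hlam]; exact M
  have q2 : (W + W ^ 2 / L + (1 + τ) * W / L + (2 * ε) ^ 2 * W) / lam ^ 2 ≤ κ := by
    rw [div_le_iff₀ (by positivity)]; exact N
  have r1 := div_le_div_of_nonneg_right
    (mul_le_mul_of_nonneg_left q1 (by positivity : 0 ≤ 13 * CM)) hL0.le
  have r2 := div_le_div_of_nonneg_right
    (mul_le_mul_of_nonneg_left q2 (by positivity : 0 ≤ 169 * CV)) hL0.le
  have := mul_le_mul_of_nonneg_left (add_le_add r1 r2) hCp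
  have e : Cp * (13 * CM + 169 * CV) * κ / L = Cp * (13 * CM * κ / L + 169 * CV * κ / L) := by ring
  rw [e]
  exact this

theorem s7be_Eg {ι : Type} [Fintype ι] [DecidableEq ι] {R I : Finset ι} (hall : S7Allowed R I)
    (w p : ι → ℝ) {β : ℝ} (hdf : ∀ x, |w x - p x| ≤ β) :
    s7sqOn I (w - p) ≤ (R.card : ℝ) * β ^ 2 := by
  unfold s7sqOn
  have h1 : ∀ x ∈ I, (w - p) x ^ 2 ≤ β ^ 2 := by
    intro x _
    rw [Pi.sub_apply, ← sq_abs]
    exact pow_le_pow_left₀ (abs_nonneg _) (hdf x) 2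
  refine (Finset.sum_le_sum h1).trans ?_
  rw [Finset.sum_const, nsmul_eq_mul]
  refine mul_le_mul_of_nonneg_right ?_ (sq_nonneg _)
  exact_mod_cast Finset.card_le_card hall.1

/-- **S7-B-STEP-6** entries. -/
theorem s7_bStepEnt (hDer : StS7BDer) (hUpd : StS7Upd) (hFlags : StS7Flags) (hCtr : StS7CtrRow)
    (hLavg : StS7Lavg) (hMean : StS7EntryMeanB) (hVar : StS7EntryVarB) (hVarA : StS7EntryVarA)
    (hJump : StS7EntryJump) (hExc : StS7ExcStep) (hScore : StS7Score) : StS7BStepEnt := by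
  intro d par hpar
  obtain ⟨hd, hg, hp, hcp0, hcp1⟩ := id hpar
  have hhmin := s7ag_hmin_pos d hd
  have hC0 := s7ag_ThS_pos d hd
  have hC1 := s7ae_C1_pos d hd
  obtain ⟨CM, εM, lM, hCM, hεM, hM⟩ := hMean (s7hmin d) ((s7ThS d : ℝ) + 1) (s7C1 d : ℝ) hhmin hC0 hC1
  obtain ⟨CV, εV, lV, hCV, hεV, hV⟩ := hVar (s7hmin d) ((s7ThS d : ℝ) + 1) (s7C1 d : ℝ) hhmin hC0 hC1
  obtain ⟨CA, εA, lA, hCA, hεA, hA⟩ := hVarA (s7hmin d) ((s7ThS d : ℝ) + 1) (s7C1 d : ℝ) hhmin hC0 hC1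
  obtain ⟨εJ, lJ, hεJ, hJ⟩ := hJump (s7hmin d) ((s7ThS d : ℝ) + 1) hhmin hC0
  have hCp : (0 : ℝ) < (excessC par.p : ℝ) := by
    have : 0 < excessC par.p := by unfold excessC; positivity
    exact_mod_cast this
  refine ⟨(excessC par.p : ℝ) * (13 * CM + 169 * CV), by positivity, ?_⟩
  filter_upwards [hDer d par hpar,
    s7be_num hg (min (min εM εV) (min (min εJ εA) (1 / 100))) (by positivity)
    (max (max lM lV) (max (max lJ lA) 8)) (26 * CA)] with n hder hnum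
  obtain ⟨hn1, hεs, hlm, n1, nB, b1, b5, b4, b2, b3⟩ := hnum
  intro φ π₀ π t hstop hinv hl i hi hk
  have hκ0 : (0 : ℝ) < (s7kap par.g n : ℝ) := s7n_cast_pos _ n
  have hεM' : (s7eps n : ℝ) ≤ εM := hεs.trans ((min_le_left _ _).trans (min_le_left _ _))
  have hεV' : (s7eps n : ℝ) ≤ εV := hεs.trans ((min_le_left _ _).trans (min_le_right _ _))
  have hεJ' : (s7eps n : ℝ) ≤ εJ :=
    hεs.trans ((min_le_right _ _).trans ((min_le_left _ _).trans (min_le_left _ _)))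
  have hεA' : (s7eps n : ℝ) ≤ εA :=
    hεs.trans ((min_le_right _ _).trans ((min_le_left _ _).trans (min_le_right _ _)))
  have hε100 : (s7eps n : ℝ) ≤ 1 / 100 := hεs.trans ((min_le_right _ _).trans (min_le_right _ _))
  have hlM : lM ≤ π.l := by
    have := ((le_max_left lM lV).trans (le_max_left _ (max (max lJ lA) 8))).trans hlm
    omega
  have hlV : lV ≤ π.l := by
    have := ((le_max_right lM lV).trans (le_max_left _ (max (max lJ lA) 8))).trans hlm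
    omega
  have hlJ : lJ ≤ π.l := by
    have := (((le_max_left lJ lA).trans (le_max_left _ 8)).trans
      (le_max_right (max lM lV) _)).trans hlm
    omega
  have hlA : lA ≤ π.l := by
    have := (((le_max_right lJ lA).trans (le_max_left _ 8)).trans
      (le_max_right (max lM lV) _)).trans hlm
    omega
  have hl8 : 8 ≤ π.l := by
    have := ((le_max_right (max lJ lA) 8).trans (le_max_right (max lM lV) _)).trans hlm
    omega
  have hL : (8 : ℝ) ≤ (π.l : ℝ) := by exact_mod_cast hl8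
  have hL3 : (s7l3 n : ℝ) ≤ (π.l : ℝ) := by exact_mod_cast hl.le
  refine ⟨by positivity, ?_⟩
  cases i
  case ent j b s a c =>
    have hiA := ((hScore d n par φ π₀ π).2.2.2.2.2.2.2.1 _).1 hi
    have hj : j ≤ Nprim d n par.cp := ((hScore d n par φ π₀ π).2.2.2.2.2.2.1 j b s a c).1 hiA.1
    have der := hder φ π₀ π t hstop hinv hl.le j hj b
    have cap := hinv.cap j hj b
    have e0 : (s7PhaseB ℝ d n par φ π₀).avg (.ent j b s a c) π
        = s7avg π.unres (fun u v => s7ZB ℝ d n par φ π₀ (.ent j b s a c) (π.resolve u v)) :=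
      (hLavg n d π (s7ZB ℝ d n par φ π₀ (.ent j b s a c))).1
    have hup := fun u v hu hv huv => s7be_upd hUpd hFlags (by omega) hinv.ext (hinv.pos j hj b) der
      hhmin (hε100.trans (by norm_num)) (by omega) u v hu hv huv
    rw [e0]
    show _ ≤ _ * s7ZB ℝ d n par φ π₀ (.ent j b s a c) π
    by_cases hal : a.Alive π ∧ c.Alive π
    · obtain ⟨ha, hc⟩ := hal
      obtain ⟨hall, oa⟩ := der.outer a c ha hc
      have oc := (der.outer c a hc ha).2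
      rw [s7ae_allow_comm] at oc
      obtain ⟨fa1, fa2, -, -⟩ := der.fine a c ha hc
      obtain ⟨-, -, fc1, fc2⟩ := der.fine c a hc ha
      have hBB0 : (0 : ℝ) < (s7BB par.g n : ℝ) := s7n_cast_pos _ n
      have hε0 : (0 : ℝ) < (s7eps n : ℝ) := s7n_cast_pos _ n
      have hdf : ∀ x y, |s7D π (sgn b) ((prim d n j : ℚ) : ℝ) x y
          - s7Dh π₀ π φ (Lcut d n) (sgn b) ((prim d n j : ℚ) : ℝ) x y| ≤ 13 * (s7BB par.g n : ℝ) :=
        fun x y => (der.dDiff x y).trans (by linarith)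
      have mean := hM (Stub n d) (sgn b) ((prim d n j : ℚ) : ℝ) (s7eps n : ℝ) (2 * (s7eps n : ℝ))
        (13 * (s7BB par.g n : ℝ)) π.unres _ _ _ _ _ _ _ der.baseD der.baseDh hεM' hlM hall oa oc
        (by linarith) (by positivity) nB hdf _ (s7TcapB par.g n : ℝ) _ der.opDh cap.dgT
        cap.dgTh fa1 fc1 fa2 fc2
      have var := hV (Stub n d) (sgn b) ((prim d n j : ℚ) : ℝ) (s7eps n : ℝ) (2 * (s7eps n : ℝ))
        (13 * (s7BB par.g n : ℝ)) π.unres _ _ _ _ _ _ _ der.baseD der.baseDh hεV' hlV hall oa oc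
        (by linarith) (by positivity) nB hdf (s7TcapB par.g n : ℝ) _ _ cap.dgT cap.dgTh fa1 fc1 fa2
        fc2 (s7be_Eg hall _ _ oa.df) (s7be_Eg hall _ _ oc.df)
      have pt := (hA (Stub n d) (sgn b) ((prim d n j : ℚ) : ℝ) (s7eps n : ℝ) (2 * (s7eps n : ℝ))
        (13 * (s7BB par.g n : ℝ)) π.unres _ _ _ _ _ _ _ der.baseD der.baseDh hεA' hlA hall oa oc
        (by linarith) (by positivity) nB hdf (s7TcapB par.g n : ℝ) cap.dgT cap.dgTh).2
      have ebr : (((s7lam par.g n * s7BB par.g n : ℚ)) : ℝ)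
          = (s7lam par.g n : ℝ) * (s7BB par.g n : ℝ) := by push_cast; ring
      have A := s7be_alive hExc hCtr j b s a c der cap _
        (fun u v hu hv huv => ⟨(hup u v hu hv huv).1, (hup u v hu hv huv).2.1,
          (hup u v hu hv huv).2.2 a c⟩)
        (hstop.ref j hj b).uniq ha hc hp.1 hε100
        (fun u v hu hv huv b₁ b₂ b₃ mw mp₁ mp₂ h1 h2 =>
          hJ (Stub n d) (sgn b) ((prim d n j : ℚ) : ℝ) (s7eps n : ℝ) π.unres _ _ _ _ _ _ b₁ b₂ b₃ mw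
            mp₁ mp₂ der.baseD der.baseDh hεJ' hlJ u (Finset.mem_filter.2 ⟨Finset.mem_univ _, hu⟩) v
            (Finset.mem_filter.2 ⟨Finset.mem_univ _, hv⟩) huv h1 h2)
        _ _ ((abs_nonneg _).trans mean)
        ((s7t_avg_nonneg (by have := hall.2; have : π.unres.card = π.l := rfl; omega)
          (fun u _ v _ _ => sq_nonneg _)).trans var) mean var
        (by
          intro u hu v hv huv
          refine (pt u hu v hv huv).trans ?_
          rw [ebr]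
          have := mul_le_mul_of_nonneg_right n1 hBB0.le
          nlinarith)
      refine A.trans (mul_le_mul_of_nonneg_right ?_ ?_)
      · rw [ebr]
        have fin := s7be_final (π.l : ℝ) CM CV (excessC par.p : ℝ)
          (s7kap par.g n : ℝ) (s7lam par.g n : ℝ) (s7BB par.g n : ℝ) (s7eps n : ℝ)
          (s7TcapB par.g n : ℝ) (s7GV par.g n : ℝ) (by linarith) hCM.le hCV.le hCp.le hκ0
          (s7n_cast_pos _ n) hBB0 (s7n_cast_pos _ n) (s7n_cast_pos _ n).le hε0.le hε100 (b1 _ hL3)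
          (b5 _ hL3) b4 b2 b3
        exact add_le_add le_rfl fin
      · rw [s7be_Z_eq, if_pos ⟨ha, hc⟩]
        have hb : (0 : ℝ) < (((s7lam par.g n * s7BB par.g n : ℚ)) : ℝ) := by
          rw [ebr]; exact mul_pos (s7n_cast_pos _ n) hBB0
        exact le_trans zero_le_one (excessZ_pos par.p _ _ _ hb)
    · rw [s7be_dead j b s a c (by omega) (fun u v hu hv huv => (hup u v hu hv huv).1) hal,
        s7be_Z_eq, if_neg hal, mul_zero]
  all_goals exact absurd hk (by simp [S7Lab.kind])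

end Claimed.Agent.R275
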