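import Claimed.Agent.R275.S7AccRows

/-!
# Row 275, Section 7: the update of a global tail `r_i = w_i - Π_S sh_i` under one exposure (phase independent glue)

Prover: helper127.  Prefix `s7tu_`.  Used by S7-B-STEP-GROW (and usable by S7-A-STEP-GROW).

* `s7tu_row_eq`   : `w_i = r_i + Π_R sh_i`;
* `s7tu_ord`      : ordinary event (`sh u = sh v = 0`): `r_i' = s7rstep r_i ((∑_R sh)/l) u v`;
* `s7tu_exc`      : exceptional event (`sh` supported at `s ∈ {u, v}`): `r_i' = s7rstep (r_i + sh s • Π_R e_s) 0 u v`;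
* `s7tu_sum_le`   : `|∑_R sh| ≤ 1`;
* `s7tu_not_removed`, `s7tu_flag_ord`, `s7tu_flag_exc` : the flag `s7removed`.
-/

set_option autoImplicit false
set_option linter.unusedSectionVars false
set_option linter.unusedVariables false

namespace Claimed.Agent.R275

open Matrix

section Abs

variable {ι : Type*} [Fintype ι] [DecidableEq ι]

/-- an array with at most one nonzero coordinate, of modulus `≤ 1`, has `|∑_R| ≤ 1` -/
theorem s7tu_sum_abs (R : Finset ι) (sh : ι → ℝ) (h1 : ∀ x y, sh x ≠ 0 → sh y ≠ 0 → x = y)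
    (h2 : ∀ x, |sh x| ≤ 1) : |∑ z ∈ R, sh z| ≤ 1 := by
  by_cases hex : ∃ s ∈ R, sh s ≠ 0
  · obtain ⟨s, hsR, hs⟩ := hex
    rw [Finset.sum_eq_single_of_mem s hsR]
    · exact h2 s
    · intro z _ hz
      by_contra hne
      exact hz (h1 z s hne hs)
  · push Not at hex
    rw [Finset.sum_eq_zero hex]
    simp

/-- `Π_R sh` for `sh` supported at `s` -/
theorem s7tu_Pi_single (R : Finset ι) (sh : ι → ℝ) (s : ι) (h : ∀ z, z ≠ s → sh z = 0) :
    s7Pi ℝ R *ᵥ sh = sh s • fun x => s7Pi ℝ R x s := by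
  funext x
  simp only [Matrix.mulVec, dotProduct, Pi.smul_apply, smul_eq_mul]
  rw [Finset.sum_eq_single s]
  · ring
  · intro z _ hz
    rw [h z hz, mul_zero]
  · intro hs
    exact absurd (Finset.mem_univ s) hs

/-- `Π_{R'} sh = 0` if `sh` vanishes on `R'` -/
theorem s7tu_Pi_zero (R : Finset ι) (sh : ι → ℝ) (h : ∀ z ∈ R, sh z = 0) : s7Pi ℝ R *ᵥ sh = 0 := by
  funext x
  simp only [Matrix.mulVec, dotProduct, Pi.zero_apply]
  refine Finset.sum_eq_zero (fun z _ => ?_)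
  by_cases hz : z ∈ R
  · rw [h z hz, mul_zero]
  · simp [s7Pi, hz]

end Abs

section Pair

variable {n d : ℕ} (π₀ π π' : PPair n d) (t0 : ℕ) (σ h : ℝ) (i : Fin n)

/-- the short part vanishes off the short endpoint -/
theorem s7tu_short_zero (x : Stub n d) (hx : ¬ s7near π₀ t0 i x) : s7short π₀ t0 σ h i x = 0 := by
  unfold s7short
  by_cases hxr : π₀.Unres x
  · rw [if_pos hxr]
    refine Finset.sum_eq_zero (fun k hk => ?_)
    have h2 : π₀.Nact ℚ k i x.1 = 0 := by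
      by_contra hne
      exact hx ⟨hxr, k, Finset.mem_range.1 hk, hne⟩
    rw [← PPair.s43v_Nact_cast, h2]
    simp
  · rw [if_neg hxr]

theorem s7tu_row_eq :
    s7row π (π.Wmat σ h) i = s7r π₀ π t0 σ h i + s7Pi ℝ π.unres *ᵥ s7short π₀ t0 σ h i := by
  unfold s7r s7tail
  rw [s7ar_PiS_eq, sub_add_cancel]

/-- ordinary event -/
theorem s7tu_ord (D : Matrix (Stub n d) (Stub n d) ℝ) (u v : Stub n d) (hu : u ∈ π.unres)
    (hv : v ∈ π.unres) (huv : u ≠ v) (hl : 2 < π.unres.card)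
    (hsu : s7short π₀ t0 σ h i u = 0) (hsv : s7short π₀ t0 σ h i v = 0)
    (hun : π'.unres = s7sub π.unres u v)
    (hrow : s7row π' (π'.Wmat σ h) i = s7rstep σ h π.unres D (s7row π (π.Wmat σ h) i) 0 u v) :
    s7r π₀ π' t0 σ h i = s7rstep σ h π.unres D (s7r π₀ π t0 σ h i)
      ((∑ z ∈ π.unres, s7short π₀ t0 σ h i z) / (π.unres.card : ℝ)) u v := by
  have h1 := s7_tailId ℝ (Stub n d) σ h π.unres D (s7r π₀ π t0 σ h i) (s7short π₀ t0 σ h i) u v
    hu hv huv hl hsu hsv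
  rw [← s7tu_row_eq, ← hrow] at h1
  have h2 : s7r π₀ π' t0 σ h i
      = s7row π' (π'.Wmat σ h) i - s7Pi ℝ π'.unres *ᵥ s7short π₀ t0 σ h i := by
    unfold s7r s7tail
    rw [s7ar_PiS_eq]
  rw [h2, h1, hun, add_sub_cancel_right]

/-- exceptional event -/
theorem s7tu_exc (D : Matrix (Stub n d) (Stub n d) ℝ) (u v s : Stub n d)
    (hs : ∀ z, z ≠ s → s7short π₀ t0 σ h i z = 0) (hsuv : s = u ∨ s = v)
    (hun : π'.unres = s7sub π.unres u v)
    (hrow : s7row π' (π'.Wmat σ h) i = s7rstep σ h π.unres D (s7row π (π.Wmat σ h) i) 0 u v) :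
    s7r π₀ π' t0 σ h i = s7rstep σ h π.unres D
      (s7r π₀ π t0 σ h i + s7short π₀ t0 σ h i s • fun x => s7Pi ℝ π.unres x s) 0 u v := by
  have h2 : s7r π₀ π' t0 σ h i
      = s7row π' (π'.Wmat σ h) i - s7Pi ℝ π'.unres *ᵥ s7short π₀ t0 σ h i := by
    unfold s7r s7tail
    rw [s7ar_PiS_eq]
  have h3 : s7Pi ℝ π'.unres *ᵥ s7short π₀ t0 σ h i = 0 := by
    refine s7tu_Pi_zero _ _ (fun z hz => hs z ?_)
    rw [hun] at hz
    rintro rfl
    rcases hsuv with rfl | rfl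
    · exact s7a_u_notMem _ _ _ hz
    · exact s7a_v_notMem _ _ _ hz
  rw [h2, h3, sub_zero, hrow, s7tu_row_eq π₀ π t0 σ h i, s7tu_Pi_single _ _ s hs]

/-- `|∑_R sh| ≤ 1` -/
theorem s7tu_sum_le (R : Finset (Stub n d))
    (huniq : ∀ x y, s7near π₀ t0 i x → s7near π₀ t0 i y → x = y)
    (hcle : ∀ x, |s7short π₀ t0 σ h i x| ≤ 1) :
    |∑ z ∈ R, s7short π₀ t0 σ h i z| ≤ 1 := by
  refine s7tu_sum_abs R _ (fun x y hx hy => huniq x y ?_ ?_) hcle
  · by_contra hn
    exact hx (s7tu_short_zero π₀ t0 σ h i x hn)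
  · by_contra hn
    exact hy (s7tu_short_zero π₀ t0 σ h i y hn)

/-- a label whose short endpoint is unresolved is not removed -/
theorem s7tu_not_removed (huniq : ∀ x y, s7near π₀ t0 i x → s7near π₀ t0 i y → x = y)
    (s : Stub n d) (hs : s7near π₀ t0 i s) (hsu : π.Unres s) : ¬ s7removed π₀ π t0 i := by
  rintro ⟨x, hx, hxu⟩
  rw [huniq x s hx hs] at hxu
  exact hxu hsu

/-- an ordinary event keeps the flag -/
theorem s7tu_flag_ord (u v : Stub n d) (hu : π.Unres u) (hv : π.Unres v) (huv : u ≠ v)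
    (hnu : ¬ s7near π₀ t0 i u) (hnv : ¬ s7near π₀ t0 i v) :
    s7removed π₀ (π.resolve u v) t0 i ↔ s7removed π₀ π t0 i := by
  rw [(s7_flags n d π₀ π t0 u v hu hv huv).2.1 i]
  tauto

/-- an exceptional event sets the flag -/
theorem s7tu_flag_exc (u v : Stub n d) (hu : π.Unres u) (hv : π.Unres v) (huv : u ≠ v)
    (hn : s7near π₀ t0 i u ∨ s7near π₀ t0 i v) : s7removed π₀ (π.resolve u v) t0 i := by
  rw [(s7_flags n d π₀ π t0 u v hu hv huv).2.1 i]
  exact Or.inr hn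

end Pair

end Claimed.Agent.R275
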