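import Claimed.Agent.R275.S7BStepTools
import Claimed.Agent.R275.S7TailUpd

/-!
# Row 275, Section 7, leaf S7-B-STEP-GROW: the one-step estimate of Phase B for the global tails

Prover: helper127.  Statement `StS7BStepGrow` in `R275/S7PhaseB.lean` (helper245).  Helper prefix `s7bg_`.

Account `excessZ p |r_i|² (Th G_V) (λ G_V)`, `Th = 1`, or `104` if the short endpoint of `i` has been removed.
Ordinary events `u, v ∈ I = R \ {short endpoint}`: `r' = s7rstep r k u v`, `|k| ≤ 1/l` (`s7tu_ord`); increment = homogeneous part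
(`StS7RowStep`) + shift (`StS7RowShift`).  Exceptional event: `StS7RowExc`, `|r'|² ≤ 72 G_V ≤ 104 G_V`.
-/

set_option autoImplicit false
set_option linter.unusedSectionVars false
set_option linter.unusedVariables false

namespace Claimed.Agent.R275

open Matrix

/-! ## A. Real arithmetic -/

/-- the numerical conditions (they hold for large `n`); `b = λ G_V`, `sz = √(2 G_S)`, `sV = √(105 G_V)`, `sε = √ε` -/
structure S7bgNum (CR CS ε sε κ b GS GV sz sV τ sτ : ℝ) : Prop where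
  hCR : 0 < CR
  hCS : 0 < CS
  hε : 0 < ε
  hsε : 0 ≤ sε
  hκ : 0 < κ
  hκ1 : κ ≤ 1
  hb : 0 < b
  hb1 : b ≤ 1
  hGS : 0 < GS
  hGV : 0 < GV
  hsz : 0 ≤ sz
  hsz2 : sz ^ 2 = 2 * GS
  hsV : 0 ≤ sV
  hτ : 0 ≤ τ
  hsτ : 0 ≤ sτ
  n1 : ε ≤ κ * b ^ 2
  n2 : sz * sV ≤ κ * b
  n3 : sε ≤ κ * b
  n4 : 2 * GS * (105 * GV) ^ 2 ≤ κ * b ^ 2
  n5 : (1 + τ) * ε ≤ 1
  n6 : 8 * GS + CR * ((1 + sτ) * sz + ε + 4 * GS) ≤ 2
  n7 : (2 * CR + 3 * CS) * ε ≤ b
  n8 : 105 * GV ≤ 1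
  n9 : 2 * GS ≤ 1

/-- the facts on one state and one tail -/
structure S7bgSt (ε GV L N : ℝ) : Prop where
  hL : 8 ≤ L
  hLε : 1 / L ≤ ε
  hN0 : 0 ≤ N
  hN : N ≤ 105 * GV

section Arith

variable {CR CS ε sε κ b GS GV sz sV τ sτ L N : ℝ}

theorem s7bg_basic (hn : S7bgNum CR CS ε sε κ b GS GV sz sV τ sτ) :
    κ * b ^ 2 ≤ κ * b ∧ κ * b ≤ b ∧ ε ≤ κ * b ∧ ε ≤ b ∧ ε ≤ 1 ∧ ε ^ 2 ≤ κ * b ^ 2 := by
  have hκ := hn.hκ
  have hb := hn.hb
  have h1 : κ * b ^ 2 ≤ κ * b :=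
    mul_le_mul_of_nonneg_left (pow_le_of_le_one hb.le hn.hb1 two_ne_zero) hκ.le
  have h2 : κ * b ≤ b := mul_le_of_le_one_left hb.le hn.hκ1
  have h3 : ε ≤ 1 := hn.n1.trans (h1.trans (h2.trans hn.hb1))
  refine ⟨h1, h2, hn.n1.trans h1, hn.n1.trans (h1.trans h2), h3, ?_⟩
  exact (pow_le_of_le_one hn.hε.le h3 two_ne_zero).trans hn.n1

theorem s7bg_alg2 {sT sL sz N L : ℝ} (hL : L ≠ 0) (hsL : sL ≠ 0) :
    (1 + sT) * (sL * sz) * N / (L * sL) = (1 + sT) * sz * (N / L) := by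
  field_simp

theorem s7bg_alg3 {GS N L : ℝ} (hL : L ≠ 0) :
    (2 * GS + L * (2 * GS)) * N / L ^ 2 = (2 * GS * (1 / L) + 2 * GS) * (N / L) := by
  field_simp

theorem s7bg_mean_hom (hn : S7bgNum CR CS ε sε κ b GS GV sz sV τ sτ) (hs : S7bgSt ε GV L N)
    {m X h sL Z sg sT : ℝ} (hsL0 : 0 < sL) (hsL : sL ^ 2 = L) (hZ : Z = sL * sz)
    (hsg0 : 0 ≤ sg) (hsg : sg ≤ 1) (hsT0 : 0 ≤ sT) (hsT : sT ≤ sτ) (hh : h ^ 2 ≤ 1)
    (hX0 : 0 ≤ X) (hX : X ≤ 2 * L * GS)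
    (hm : m ≤ -2 * N / L + 2 * h ^ 2 * N * X / (L * (L - 1))
      + CR * (ε ^ 2 / L + ε * sg / L ^ 2 + (1 + sT) * Z * N / (L * sL) + ε * N / L
          + (2 * GS + Z ^ 2) * N / L ^ 2)) :
    m ≤ 2 * CR * (κ * b) / L := by
  obtain ⟨q1, q2, q3, q4, q5, q6⟩ := s7bg_basic hn
  have hL := hs.hL
  have hL0 : 0 < L := by linarith
  have hL1 : 0 < L - 1 := by linarith
  have hCR := hn.hCR
  have hε := hn.hε
  have hGS := hn.hGS
  have hN0 := hs.hN0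
  obtain ⟨a, ha⟩ : ∃ a, a = N / L := ⟨_, rfl⟩
  have ha0 : 0 ≤ a := by rw [ha]; exact div_nonneg hN0 hL0.le
  have haN : N = a * L := by rw [ha]; field_simp
  have e0 : -2 * N / L = -2 * a := by rw [ha]; ring
  have t1 : 2 * h ^ 2 * N * X / (L * (L - 1)) ≤ 8 * GS * a := by
    rw [div_le_iff₀ (mul_pos hL0 hL1)]
    have h1 : h ^ 2 * X ≤ 2 * L * GS := (mul_le_of_le_one_left hX0 hh).trans hX
    have h2 : 2 * h ^ 2 * N * X = 2 * N * (h ^ 2 * X) := by ring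
    have h3 : 2 * N * (h ^ 2 * X) ≤ 2 * N * (2 * L * GS) :=
      mul_le_mul_of_nonneg_left h1 (by linarith)
    have h4 : 2 * N * (2 * L * GS) ≤ 8 * GS * a * (L * (L - 1)) := by
      rw [haN]
      have : 0 ≤ a * L * GS * (L - 2) := by
        have : 0 ≤ L - 2 := by linarith
        positivity
      nlinarith
    linarith
  have e2 : (1 + sT) * Z * N / (L * sL) = (1 + sT) * sz * a := by
    rw [ha, hZ]
    exact s7bg_alg2 hL0.ne' hsL0.ne'
  have e3 : (2 * GS + Z ^ 2) * N / L ^ 2 = (2 * GS * (1 / L) + 2 * GS) * a := by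
    rw [ha, hZ, mul_pow, hsL, hn.hsz2]
    exact s7bg_alg3 hL0.ne'
  have e4 : ε * N / L = ε * a := by rw [ha]; ring
  rw [e0, e2, e3, e4] at hm
  have hL1' : 1 / L ≤ 1 := hs.hLε.trans q5
  have b3 : (1 + sT) * sz * a + ε * a + (2 * GS * (1 / L) + 2 * GS) * a
      ≤ ((1 + sτ) * sz + ε + 4 * GS) * a := by
    have h1 : (1 + sT) * sz ≤ (1 + sτ) * sz := mul_le_mul_of_nonneg_right (by linarith) hn.hsz
    have h2 : 2 * GS * (1 / L) ≤ 2 * GS := mul_le_of_le_one_right (by linarith) hL1'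
    have h3 : (1 + sT) * sz + ε + (2 * GS * (1 / L) + 2 * GS) ≤ (1 + sτ) * sz + ε + 4 * GS := by
      linarith
    have := mul_le_mul_of_nonneg_right h3 ha0
    linarith
  have b4 : (8 * GS + CR * ((1 + sτ) * sz + ε + 4 * GS)) * a ≤ 2 * a :=
    mul_le_mul_of_nonneg_right hn.n6 ha0
  have b5 : ε ^ 2 / L + ε * sg / L ^ 2 ≤ 2 * (κ * b) / L := by
    have h1 : ε ^ 2 / L ≤ (κ * b) / L := div_le_div_of_nonneg_right (q6.trans q1) hL0.le
    have h2 : ε * sg / L ^ 2 = (ε * sg * (1 / L)) / L := by field_simp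
    have h3 : ε * sg * (1 / L) ≤ κ * b := by
      have : ε * sg ≤ ε := mul_le_of_le_one_right hε.le hsg
      have h4 : ε * sg * (1 / L) ≤ ε * 1 :=
        mul_le_mul this hL1' (by positivity) hε.le
      linarith
    have h5 : ε * sg / L ^ 2 ≤ (κ * b) / L := by
      rw [h2]; exact div_le_div_of_nonneg_right h3 hL0.le
    have : 2 * (κ * b) / L = (κ * b) / L + (κ * b) / L := by ring
    linarith
  have b6 := mul_le_mul_of_nonneg_left b3 hCR.le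
  have b7 := mul_le_mul_of_nonneg_left b5 hCR.le
  have e9 : 2 * CR * (κ * b) / L = CR * (2 * (κ * b) / L) := by ring
  rw [e9]
  nlinarith

theorem s7bg_mean_shift (hn : S7bgNum CR CS ε sε κ b GS GV sz sV τ sτ) (hs : S7bgSt ε GV L N)
    {sm k sL Z q : ℝ} (hsL0 : 0 < sL) (hZ : Z = sL * sz) (hk : |k| ≤ 1 / L)
    (hq0 : 0 ≤ q) (hq1 : sL * q ≤ sV) (hq2 : q ≤ sε)
    (hsm : sm ≤ CS * (|k| * (Z + 1) * q + k ^ 2)) : sm ≤ 3 * CS * (κ * b) / L := by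
  obtain ⟨q1, q2, q3, q4, q5, q6⟩ := s7bg_basic hn
  have hL := hs.hL
  have hL0 : 0 < L := by linarith
  have hCS := hn.hCS
  have hkb : 0 ≤ κ * b := mul_nonneg hn.hκ.le hn.hb.le
  have h1 : (Z + 1) * q ≤ 2 * (κ * b) := by
    have e : (Z + 1) * q = sz * (sL * q) + q := by rw [hZ]; ring
    have h2 : sz * (sL * q) ≤ sz * sV := mul_le_mul_of_nonneg_left hq1 hn.hsz
    rw [e]
    linarith [hn.n2, hn.n3]
  have hZ0 : 0 ≤ (Z + 1) * q := by
    have : 0 ≤ Z := by rw [hZ]; exact mul_nonneg hsL0.le hn.hsz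
    positivity
  have h3 : |k| * (Z + 1) * q ≤ (1 / L) * (2 * (κ * b)) := by
    rw [mul_assoc]
    exact mul_le_mul hk h1 hZ0 (by positivity)
  have h4 : k ^ 2 ≤ (1 / L) * (κ * b) := by
    rw [← sq_abs, sq]
    exact mul_le_mul hk (hk.trans (hs.hLε.trans q3)) (abs_nonneg _) (by positivity)
  have h5 := mul_le_mul_of_nonneg_left (add_le_add h3 h4) hCS.le
  have e : CS * (1 / L * (2 * (κ * b)) + 1 / L * (κ * b)) = 3 * CS * (κ * b) / L := by ring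
  linarith

theorem s7bg_alg6 {ε N GS T L : ℝ} (hL : L ≠ 0) :
    ε ^ 2 * N / L + L * (2 * GS) * N ^ 2 / L ^ 2 + (1 + T) * ε ^ 2 * (L * (2 * GS)) * N / L ^ 2
      = (ε ^ 2 * N + 2 * GS * N ^ 2 + ((1 + T) * ε) * (ε * ((2 * GS) * N))) / L := by
  field_simp

theorem s7bg_var_hom (hn : S7bgNum CR CS ε sε κ b GS GV sz sV τ sτ) (hs : S7bgSt ε GV L N)
    {v sL Z T : ℝ} (hsL : sL ^ 2 = L) (hZ : Z = sL * sz) (hT0 : 0 ≤ T) (hT : T ≤ τ)
    (hv : v ≤ CR * (ε ^ 2 * N / L + Z ^ 2 * N ^ 2 / L ^ 2 + (1 + T) * ε ^ 2 * Z ^ 2 * N / L ^ 2)) :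
    v ≤ 3 * CR * (κ * b ^ 2) / L := by
  obtain ⟨q1, q2, q3, q4, q5, q6⟩ := s7bg_basic hn
  have hL := hs.hL
  have hL0 : 0 < L := by linarith
  have hCR := hn.hCR
  have hε := hn.hε
  have hGS := hn.hGS
  have hN0 := hs.hN0
  have hN1 : N ≤ 1 := hs.hN.trans hn.n8
  have hZ2 : Z ^ 2 = L * (2 * GS) := by rw [hZ, mul_pow, hsL, hn.hsz2]
  rw [hZ2, s7bg_alg6 hL0.ne'] at hv
  have w1 : ε ^ 2 * N ≤ κ * b ^ 2 := (mul_le_of_le_one_right (sq_nonneg _) hN1).trans q6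
  have w2 : 2 * GS * N ^ 2 ≤ κ * b ^ 2 := by
    refine le_trans ?_ hn.n4
    exact mul_le_mul_of_nonneg_left (pow_le_pow_left₀ hN0 hs.hN 2) (by linarith)
  have w3 : ((1 + T) * ε) * (ε * ((2 * GS) * N)) ≤ κ * b ^ 2 := by
    have h1 : (1 + T) * ε ≤ 1 := le_trans (mul_le_mul_of_nonneg_right (by linarith) hε.le) hn.n5
    have h2 : (2 * GS) * N ≤ 1 := by
      calc (2 * GS) * N ≤ 1 * 1 := mul_le_mul hn.n9 hN1 hN0 zero_le_one
        _ = 1 := one_mul 1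
    have h3 : ε * ((2 * GS) * N) ≤ ε := mul_le_of_le_one_right hε.le h2
    have h4 : 0 ≤ ε * ((2 * GS) * N) := by positivity
    calc ((1 + T) * ε) * (ε * ((2 * GS) * N)) ≤ 1 * (ε * ((2 * GS) * N)) :=
          mul_le_mul_of_nonneg_right h1 h4
      _ ≤ κ * b ^ 2 := by rw [one_mul]; exact h3.trans hn.n1
  refine hv.trans ?_
  have e : 3 * CR * (κ * b ^ 2) / L = CR * ((κ * b ^ 2 + κ * b ^ 2 + κ * b ^ 2) / L) := by ring
  rw [e]
  refine mul_le_mul_of_nonneg_left (div_le_div_of_nonneg_right ?_ hL0.le) hCR.le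
  linarith

theorem s7bg_sup_shift (hn : S7bgNum CR CS ε sε κ b GS GV sz sV τ sτ) (hs : S7bgSt ε GV L N)
    {x k sg : ℝ} (hk : |k| ≤ 1 / L) (hsg0 : 0 ≤ sg) (hsg : sg ≤ 1)
    (hx : |x| ≤ CS * (|k| * (sg + ε) + k ^ 2)) : |x| ≤ 3 * CS * (1 / L) := by
  obtain ⟨q1, q2, q3, q4, q5, q6⟩ := s7bg_basic hn
  have hL := hs.hL
  have hL0 : 0 < L := by linarith
  have hε := hn.hε
  have h1 : |k| * (sg + ε) ≤ (1 / L) * 2 :=
    mul_le_mul hk (by linarith) (by linarith) (by positivity)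
  have h2 : k ^ 2 ≤ (1 / L) * 1 := by
    rw [← sq_abs, sq]
    exact mul_le_mul hk (hk.trans (hs.hLε.trans q5)) (abs_nonneg _) (by positivity)
  have h3 := mul_le_mul_of_nonneg_left (add_le_add h1 h2) hn.hCS.le
  have e : CS * (1 / L * 2 + 1 / L * 1) = 3 * CS * (1 / L) := by ring
  linarith

theorem s7bg_sup_hom (hn : S7bgNum CR CS ε sε κ b GS GV sz sV τ sτ)
    {x sg : ℝ} (hsg0 : 0 ≤ sg) (hsg : sg ≤ 1)
    (hx : |x| ≤ CR * (ε ^ 2 + ε * sg)) : |x| ≤ 2 * CR * ε := by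
  obtain ⟨q1, q2, q3, q4, q5, q6⟩ := s7bg_basic hn
  have hε := hn.hε
  have h1 : ε ^ 2 ≤ ε := pow_le_of_le_one hε.le q5 two_ne_zero
  have h2 : ε * sg ≤ ε := mul_le_of_le_one_right hε.le hsg
  have h3 := mul_le_mul_of_nonneg_left (add_le_add h1 h2) hn.hCR.le
  linarith

end Arith

/-! ## B. Averages -/

theorem s7bg_layer {ι : Type*} [DecidableEq ι] {I : Finset ι} (hI : 2 ≤ I.card) (N0 Nk : ι → ι → ℝ)
    (N A B V S : ℝ) (hS0 : 0 ≤ S)
    (hm : s7avg I (fun u v => N0 u v - N) ≤ A)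
    (hsm : s7avg I (fun u v => |Nk u v - N0 u v|) ≤ B)
    (hv : s7avg I (fun u v => (N0 u v - N) ^ 2) ≤ V)
    (hsup : ∀ u ∈ I, ∀ v ∈ I, u ≠ v → |Nk u v - N0 u v| ≤ S) :
    s7avg I (fun u v => Nk u v - N) ≤ A + B ∧
    s7avg I (fun u v => (Nk u v - N) ^ 2) ≤ 2 * V + 2 * (S * B) := by
  constructor
  · have h1 : s7avg I (fun u v => Nk u v - N)
        ≤ s7avg I (fun u v => (fun u v => N0 u v - N) u v + (fun u v => |Nk u v - N0 u v|) u v) := by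
      refine s7t_avg_mono hI (fun u _ v _ _ => ?_)
      have := le_abs_self (Nk u v - N0 u v)
      simp only []
      linarith
    rw [s7t_avg_add] at h1
    linarith
  · have h1 : s7avg I (fun u v => (Nk u v - N) ^ 2)
        ≤ s7avg I (fun u v => (fun u v => 2 * (N0 u v - N) ^ 2) u v
            + (fun u v => (2 * S) * |Nk u v - N0 u v|) u v) := by
      refine s7t_avg_mono hI (fun u hu v hv huv => ?_)
      have h2 := hsup u hu v hv huv
      have h3 : (Nk u v - N0 u v) ^ 2 ≤ S * |Nk u v - N0 u v| := by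
        rw [← sq_abs, sq]
        exact mul_le_mul_of_nonneg_right h2 (abs_nonneg _)
      simp only []
      nlinarith [sq_nonneg ((N0 u v - N) - (Nk u v - N0 u v))]
    rw [s7t_avg_add, s7t_avg_smul, s7t_avg_smul] at h1
    have h4 : 2 * S * s7avg I (fun u v => |Nk u v - N0 u v|) ≤ 2 * S * B :=
      mul_le_mul_of_nonneg_left hsm (by linarith)
    linarith

/-! ## C. Numerics -/

section Num

open Filter

theorem s7bg_sqrt_c (c C x : ℝ) (hc : 0 ≤ c) (hC : 0 ≤ C) (hcC : c ≤ C ^ 2) :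
    Real.sqrt (c * x) ≤ C * Real.sqrt x := by
  rw [Real.sqrt_mul hc]
  exact mul_le_mul_of_nonneg_right (Real.sqrt_le_iff.2 ⟨hC, hcC⟩) (Real.sqrt_nonneg _)

theorem s7bg_num {g : ℚ} (hg : S7gOK g) (CR CS : ℝ) (hCR : 0 < CR) (hCS : 0 < CS) :
    ∀ᶠ n : ℕ in atTop, S7bgNum CR CS (s7eps n : ℝ) (Real.sqrt (s7eps n : ℝ)) (s7kap g n : ℝ)
      ((s7lam g n : ℝ) * (s7GV g n : ℝ)) (s7GS g n : ℝ) (s7GV g n : ℝ)
      (Real.sqrt (2 * (s7GS g n : ℝ))) (Real.sqrt (105 * (s7GV g n : ℝ))) (s7TcapB g n : ℝ)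
      (Real.sqrt (s7TcapB g n : ℝ)) := by
  obtain ⟨hg0, hg1⟩ := hg
  have haa : (0 : ℚ) < aa := by unfold aa; norm_num
  have x1 : [-(aa / 1000)].sum
      < [-(2 * (g / 100)), -(g / 100), -(2 / 10 * g), -(g / 100), -(2 / 10 * g)].sum := by
    simp only [List.sum_cons, List.sum_nil]; linarith
  have x2 : [-(3 / 10 * g) / 2, -(2 / 10 * g) / 2].sum
      < [-(2 * (g / 100)), -(g / 100), -(2 / 10 * g)].sum := by
    simp only [List.sum_cons, List.sum_nil]; linarith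
  have x3 : [-(aa / 1000) / 2].sum < [-(2 * (g / 100)), -(g / 100), -(2 / 10 * g)].sum := by
    simp only [List.sum_cons, List.sum_nil]; linarith
  have x4 : [-(3 / 10 * g)].sum < [-(2 * (g / 100)), -(g / 100), -(g / 100)].sum := by
    simp only [List.sum_cons, List.sum_nil]; linarith
  have x5 : [6 * (g / 100), -(aa / 1000)].sum < ([] : List ℚ).sum := by
    simp only [List.sum_cons, List.sum_nil]; linarith
  have x6 : [-(3 / 10 * g)].sum < ([] : List ℚ).sum := by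
    simp only [List.sum_cons, List.sum_nil]; linarith
  have x7 : [6 * (g / 100) / 2, -(3 / 10 * g) / 2].sum < ([] : List ℚ).sum := by
    simp only [List.sum_cons, List.sum_nil]; linarith
  have x8 : [-(aa / 1000)].sum < ([] : List ℚ).sum := by
    simp only [List.sum_cons, List.sum_nil]; linarith
  have x9 : [-(aa / 1000)].sum < [-(g / 100), -(2 / 10 * g)].sum := by
    simp only [List.sum_cons, List.sum_nil]; linarith
  have x10 : [-(2 / 10 * g)].sum < ([] : List ℚ).sum := by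
    simp only [List.sum_cons, List.sum_nil]; linarith
  filter_upwards [s7bt_ev _ _ x1 1, s7bt_ev _ _ x2 88, s7bt_ev _ _ x3 2, s7bt_ev _ _ x4 22050,
    s7bt_ev _ _ x5 2, s7bt_ev _ _ x6 (16 + 8 * CR), s7bt_ev _ _ x7 (24 * CR),
    s7bt_ev _ _ x8 (2 * CR), s7bt_ev _ _ x9 (2 * CR + 3 * CS), s7bt_ev _ _ x10 105]
    with n y1 y2 y3 y4 y5 y6 y7 y8 y9 y10
  simp only [s7btP_cons, s7btP_nil, mul_one] at y1 y2 y3 y4 y5 y6 y7 y8 y9 y10
  have eε : (s7eps n : ℝ) = (scQ (-(aa / 1000)) n : ℝ) := rfl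
  have eκ : (s7kap g n : ℝ) = (scQ (-(2 * (g / 100))) n : ℝ) := rfl
  have eLm : (s7lam g n : ℝ) = (scQ (-(g / 100)) n : ℝ) := rfl
  have eS : (s7GS g n : ℝ) = (scQ (-(3 / 10 * g)) n : ℝ) := rfl
  have eV : (s7GV g n : ℝ) = (scQ (-(2 / 10 * g)) n : ℝ) := rfl
  have eτ : (s7TcapB g n : ℝ) = (scQ (6 * (g / 100)) n : ℝ) := rfl
  rw [eε, eκ, eLm, eS, eV, eτ]
  have s1 := s7n_sqrt_scQ_le (-(aa / 1000)) n
  have s2 := s7n_sqrt_scQ_le (-(3 / 10 * g)) n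
  have s3 := s7n_sqrt_scQ_le (-(2 / 10 * g)) n
  have s4 := s7n_sqrt_scQ_le (6 * (g / 100)) n
  have o1 := s7bt_one_le (by linarith : 0 ≤ 6 * (g / 100)) n
  have o2 := s7bt_one_le (by linarith : 0 ≤ 6 * (g / 100) / 2) n
  have l1 := s7bt_le_one (by linarith : -(2 * (g / 100)) ≤ 0) n
  have l2 := s7bt_le_one (by linarith : -(g / 100) ≤ 0) n
  have l3 := s7bt_le_one (by linarith : -(2 / 10 * g) ≤ 0) n
  have pε := s7n_cast_pos (-(aa / 1000)) n
  have pκ := s7n_cast_pos (-(2 * (g / 100))) n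
  have pLm := s7n_cast_pos (-(g / 100)) n
  have pS := s7n_cast_pos (-(3 / 10 * g)) n
  have pV := s7n_cast_pos (-(2 / 10 * g)) n
  have pτ := s7n_cast_pos (6 * (g / 100)) n
  have pε2 := s7n_cast_pos (-(aa / 1000) / 2) n
  have pS2 := s7n_cast_pos (-(3 / 10 * g) / 2) n
  have pV2 := s7n_cast_pos (-(2 / 10 * g) / 2) n
  have pτ2 := s7n_cast_pos (6 * (g / 100) / 2) n
  have z1 := s7bg_sqrt_c 2 2 (scQ (-(3 / 10 * g)) n : ℝ) (by norm_num) (by norm_num) (by norm_num)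
  have z2 := s7bg_sqrt_c 105 11 (scQ (-(2 / 10 * g)) n : ℝ) (by norm_num) (by norm_num)
    (by norm_num)
  generalize (scQ (-(aa / 1000)) n : ℝ) = ε at *
  generalize (scQ (-(2 * (g / 100))) n : ℝ) = κ at *
  generalize (scQ (-(g / 100)) n : ℝ) = lam at *
  generalize (scQ (-(3 / 10 * g)) n : ℝ) = GS at *
  generalize (scQ (-(2 / 10 * g)) n : ℝ) = GV at *
  generalize (scQ (6 * (g / 100)) n : ℝ) = τ at *
  generalize (scQ (-(aa / 1000) / 2) n : ℝ) = ε2 at *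
  generalize (scQ (-(3 / 10 * g) / 2) n : ℝ) = S2 at *
  generalize (scQ (-(2 / 10 * g) / 2) n : ℝ) = V2 at *
  generalize (scQ (6 * (g / 100) / 2) n : ℝ) = τ2 at *
  have hsz : Real.sqrt (2 * GS) ≤ 4 * S2 := by linarith
  have hsV : Real.sqrt (105 * GV) ≤ 22 * V2 := by linarith
  refine ⟨hCR, hCS, pε, Real.sqrt_nonneg _, pκ, l1, mul_pos pLm pV, ?_, pS, pV, Real.sqrt_nonneg _,
    Real.sq_sqrt (by linarith), Real.sqrt_nonneg _, pτ.le, Real.sqrt_nonneg _,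
    ?_, ?_, ?_, ?_, ?_, ?_, ?_, ?_, ?_⟩
  · calc lam * GV ≤ 1 * 1 := mul_le_mul l2 l3 pV.le zero_le_one
      _ = 1 := one_mul 1
  · -- n1
    calc ε = 1 * ε := (one_mul _).symm
      _ ≤ κ * (lam * (GV * (lam * GV))) := y1
      _ = κ * (lam * GV) ^ 2 := by ring
  · -- n2
    calc Real.sqrt (2 * GS) * Real.sqrt (105 * GV) ≤ (4 * S2) * (22 * V2) :=
          mul_le_mul hsz hsV (Real.sqrt_nonneg _) (by linarith)
      _ = 88 * (S2 * V2) := by ring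
      _ ≤ κ * (lam * GV) := y2
  · -- n3
    exact s1.trans y3
  · -- n4
    have h1 := mul_le_mul_of_nonneg_right y4 (sq_nonneg GV)
    calc 2 * GS * (105 * GV) ^ 2 = 22050 * GS * GV ^ 2 := by ring
      _ ≤ κ * (lam * lam) * GV ^ 2 := h1
      _ = κ * (lam * GV) ^ 2 := by ring
  · -- n5
    have h1 : (1 + τ) * ε ≤ (2 * τ) * ε := mul_le_mul_of_nonneg_right (by linarith) pε.le
    calc (1 + τ) * ε ≤ (2 * τ) * ε := h1
      _ = 2 * (τ * ε) := by ring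
      _ ≤ 1 := y5
  · -- n6
    have h1 : (1 + Real.sqrt τ) * Real.sqrt (2 * GS) ≤ (3 * τ2) * (4 * S2) :=
      mul_le_mul (by linarith) hsz (Real.sqrt_nonneg _) (by linarith)
    have h2 := mul_le_mul_of_nonneg_left h1 hCR.le
    nlinarith
  · exact y9
  · exact y10
  · have : (2 : ℝ) * GS ≤ (16 + 8 * CR) * GS := mul_le_mul_of_nonneg_right (by linarith) pS.le
    linarith

end Num

/-! ## D. The statement -/

theorem s7bg_excess_one (p : ℕ) (hp : p ≠ 0) (X T b : ℝ) (h : X ≤ T) : excessZ p X T b = 1 := by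
  unfold excessZ
  rw [max_eq_right (by linarith), zero_div, zero_pow hp, add_zero]

/-- exceptional event: `√g' ≤ √g + 5 √(2 G_S)`, `g ≤ 2 G_V`, `G_S ≤ G_V` give `g' ≤ 104 G_V` -/
theorem s7bg_exc_arith {g' g GS GV : ℝ} (hg'0 : 0 ≤ g') (hg0 : 0 ≤ g) (hg : g ≤ 2 * GV)
    (hGS0 : 0 ≤ GS) (hGS : GS ≤ GV)
    (h : Real.sqrt g' ≤ Real.sqrt g + 5 * Real.sqrt (2 * GS)) : g' ≤ 104 * GV := by
  have h1 : Real.sqrt g ≤ Real.sqrt (2 * GV) := Real.sqrt_le_sqrt hg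
  have h2 : Real.sqrt (2 * GS) ≤ Real.sqrt (2 * GV) := Real.sqrt_le_sqrt (by linarith)
  have h3 : Real.sqrt g' ≤ 6 * Real.sqrt (2 * GV) := by linarith
  have hGV : 0 ≤ 2 * GV := by linarith
  have h4 : g' = Real.sqrt g' ^ 2 := (Real.sq_sqrt hg'0).symm
  have h5 : Real.sqrt g' ^ 2 ≤ (6 * Real.sqrt (2 * GV)) ^ 2 :=
    pow_le_pow_left₀ (Real.sqrt_nonneg _) h3 2
  rw [mul_pow, Real.sq_sqrt hGV] at h5
  linarith

open Filter in
/-- **S7-B-STEP-5** global tails. -/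
theorem s7_bStepGrow (hDer : StS7BDer) (hUpd : StS7Upd) (hLavg : StS7Lavg) (hRow : StS7RowStep)
    (hShift : StS7RowShift) (hRExc : StS7RowExc) (hExc : StS7ExcStep) : StS7BStepGrow := by
  intro d par hp
  have hd : 3 ≤ d := hp.1
  have hg : S7gOK par.g := hp.2.1
  have hp2 : 2 ≤ par.p := hp.2.2.1.1
  have hΘ1 := s7bt_ThS d hd
  obtain ⟨CR, ε0, lR, hCR, hε0, hRow⟩ :=
    hRow (s7hmin d) ((s7ThS d : ℝ) + 1) (s7bt_hmin d hd) (by linarith)
  obtain ⟨CS, ε1, lS, hCS, hε1, hShift⟩ :=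
    hShift (s7hmin d) ((s7ThS d : ℝ) + 1) (s7bt_hmin d hd) (by linarith)
  obtain ⟨CX, ε2, lX, hCX, hε2, hRExc⟩ :=
    hRExc (s7hmin d) ((s7ThS d : ℝ) + 1) (s7bt_hmin d hd) (by linarith)
  obtain ⟨K1, hK1⟩ : ∃ K1, K1 = 2 * CR + 3 * CS := ⟨_, rfl⟩
  obtain ⟨K2, hK2⟩ : ∃ K2, K2 = 6 * CR + 18 * CS ^ 2 := ⟨_, rfl⟩
  have hK1p : 0 < K1 := by rw [hK1]; positivity
  have hK2p : 0 < K2 := by rw [hK2]; positivity
  have hCp : (0 : ℝ) < (excessC par.p : ℝ) := by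
    have : 0 < excessC par.p := by unfold excessC; positivity
    exact_mod_cast this
  refine ⟨(excessC par.p : ℝ) * (K1 + K2), by positivity, ?_⟩
  have xε : -(aa / 1000) < 0 := by unfold aa; norm_num
  filter_upwards [hDer d par hp, s7bg_num hg CR CS hCR hCS,
    s7n_l3_large (max 8 (max lR (max lS lX))),
    s7n_scQ_small xε (min (min ε0 ε1) (min ε2 (1 / 16)))
      (lt_min (lt_min hε0 hε1) (lt_min hε2 (by norm_num))), eventually_gt_atTop 0]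
    with n hder hnum hl3 hεs hn0
  intro φ π₀ π t hStop hInv hl i hi hk
  obtain ⟨j, b, i₀, rfl, hj⟩ := s7bt_lab5 i hi hk
  have pκ : (0 : ℝ) < (s7kap par.g n : ℝ) := s7n_cast_pos _ n
  have hl8 : 8 ≤ π.l := by
    have := le_trans (le_max_left 8 _) hl3
    omega
  have hlR : lR ≤ π.l := by
    have := le_trans (le_trans (le_max_left lR _) (le_max_right 8 _)) hl3
    omega
  have hlS : lS ≤ π.l := by
    have := le_trans (le_trans (le_trans (le_max_left lS lX) (le_max_right lR _))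
      (le_max_right 8 _)) hl3
    omega
  have hlX : lX ≤ π.l := by
    have := le_trans (le_trans (le_trans (le_max_right lS lX) (le_max_right lR _))
      (le_max_right 8 _)) hl3
    omega
  have hL8 : (8 : ℝ) ≤ (π.l : ℝ) := by exact_mod_cast hl8
  have hL0 : (0 : ℝ) < (π.l : ℝ) := by linarith
  refine ⟨by positivity, ?_⟩
  obtain ⟨σ, hσ⟩ : ∃ σ : ℝ, σ = sgn b := ⟨_, rfl⟩
  obtain ⟨h, hh⟩ : ∃ h : ℝ, h = ((prim d n j : ℚ) : ℝ) := ⟨_, rfl⟩
  obtain ⟨t0, ht0⟩ : ∃ t0 : ℕ, t0 = s7t0 d n := ⟨_, rfl⟩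
  have der : S7DerB d n par φ π₀ π σ h := by
    rw [hσ, hh]; exact hder φ π₀ π t hStop hInv hl.le j hj b
  have cap : S7CapB d n par φ π₀ π σ h := by
    rw [hσ, hh]; exact hInv.cap j hj b
  have pos : PosOn1 (π.Mmat σ h) := by
    rw [hσ, hh]; exact hInv.pos j hj b
  have ref := hStop.ref j hj b
  rw [← hσ, ← hh, ← ht0] at ref
  have huniq := ref.uniq i₀
  have hcle := ref.cle i₀
  obtain ⟨GV, hGV⟩ : ∃ GV : ℝ, GV = (s7GV par.g n : ℝ) := ⟨_, rfl⟩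
  obtain ⟨GS, hGS⟩ : ∃ GS : ℝ, GS = (s7GS par.g n : ℝ) := ⟨_, rfl⟩
  obtain ⟨bb, hbb⟩ : ∃ bb : ℝ, bb = (s7lam par.g n : ℝ) * (s7GV par.g n : ℝ) := ⟨_, rfl⟩
  have hGSV : GS ≤ GV := by
    rw [hGS, hGV]
    have : s7GS par.g n ≤ s7GV par.g n := s7n_scQ_mono (by have := hg.1; linarith) n
    exact_mod_cast this
  have hZ : ∀ π' : PPair n d, (s7PhaseB ℝ d n par φ π₀).Z (.grow j b i₀) π' =
      excessZ par.p (s7sq (s7r π₀ π' t0 σ h i₀))
        ((if s7removed π₀ π' t0 i₀ then 104 else 1) * GV) bb := by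
    intro π'
    rw [hσ, hh, ht0, hGV, hbb]
    show excessZ par.p _ ((((if s7removed π₀ π' (s7t0 d n) i₀ then 104 else 1)
      * s7GV par.g n : ℚ)) : ℝ) (((s7lam par.g n * s7GV par.g n : ℚ)) : ℝ) = _
    congr 1
    · split_ifs <;> push_cast <;> rfl
    · push_cast; rfl
  rw [Phase.avg_eq_lavg]
  have hcands : (s7PhaseB ℝ d n par φ π₀).cands π = s7cands π := rfl
  rw [hcands, (hLavg n d π _).1, hZ π]
  rw [← hbb, ← hGV, ← hGS] at hnum
  have base := der.baseD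
  have hεa : (s7eps n : ℝ) ≤ ε0 := le_trans hεs ((min_le_left _ _).trans (min_le_left _ _))
  have hεb : (s7eps n : ℝ) ≤ ε1 := le_trans hεs ((min_le_left _ _).trans (min_le_right _ _))
  have hεc : (s7eps n : ℝ) ≤ ε2 := le_trans hεs ((min_le_right _ _).trans (min_le_left _ _))
  have hε16 : (s7eps n : ℝ) ≤ 1 / 16 := le_trans hεs ((min_le_right _ _).trans (min_le_right _ _))
  have pε : (0 : ℝ) < (s7eps n : ℝ) := s7n_cast_pos _ n
  have hh0 : 0 < h := lt_of_lt_of_le (s7bt_hmin d hd) base.h_lo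
  have hh1 : h ^ 2 ≤ 1 := by
    have := base.h_hi
    nlinarith
  have upd := fun (u v : Stub n d) (hu : π.Unres u) (hv : π.Unres v) (huv : u ≠ v) =>
    hUpd n d π₀ π φ (Lcut d n) σ h u v hn0 hInv.ext hu hv huv (by omega) der.sig hh0 base.h_hi pos
      (fun a c => (base.ent a c).trans hε16) der.refAt.unit
      (fun a c => (der.baseDh.ent a c).trans hε16)
  obtain ⟨D, hD⟩ : ∃ D, D = s7D π σ h := ⟨_, rfl⟩
  rw [← hD] at base upd
  obtain ⟨r, hr⟩ : ∃ r, r = s7r π₀ π t0 σ h i₀ := ⟨_, rfl⟩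
  obtain ⟨sh, hsh⟩ : ∃ sh, sh = s7short π₀ t0 σ h i₀ := ⟨_, rfl⟩
  obtain ⟨I, hI⟩ : ∃ I, I = π.unres.filter (fun z => ¬ s7near π₀ t0 i₀ z) := ⟨_, rfl⟩
  have hmemI : ∀ z, z ∈ I ↔ π.Unres z ∧ ¬ s7near π₀ t0 i₀ z := by
    intro z
    rw [hI, Finset.mem_filter, s7ar_mem_unres]
  have hIR : I ⊆ π.unres := by rw [hI]; exact Finset.filter_subset _ _
  have hIc : π.unres.card ≤ I.card + 1 := by
    have h1 := Finset.card_filter_add_card_filter_not (s := π.unres)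
      (fun z => s7near π₀ t0 i₀ z)
    have h2 : (π.unres.filter (fun z => s7near π₀ t0 i₀ z)).card ≤ 1 := by
      refine Finset.card_le_one.2 (fun a ha c hc => huniq a c ?_ ?_)
      · exact (Finset.mem_filter.1 ha).2
      · exact (Finset.mem_filter.1 hc).2
    rw [hI]
    omega
  have hAll : S7Allowed π.unres I := ⟨hIR, by omega⟩
  have hI2 : 2 ≤ I.card := by
    have : 8 ≤ π.unres.card := hl8
    omega
  have hN0 := s7t_sq_nonneg r
  have hcapg := cap.grow i₀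
  rw [← ht0, ← hr, ← hGV] at hcapg
  have pGV : 0 < GV := hnum.hGV
  have hN : s7sq r ≤ 105 * GV := by
    refine hcapg.trans (mul_le_mul_of_nonneg_right ?_ pGV.le)
    split_ifs <;> norm_num
  have st : S7bgSt (s7eps n : ℝ) GV (π.l : ℝ) (s7sq r) :=
    ⟨hL8, s7bt_inv_l n π.l hl.le, hN0, hN⟩
  have hεr : ∀ z, |r z| ≤ (s7eps n : ℝ) := by
    intro z
    rw [hr, ht0]
    exact der.tailE i₀ z
  have hcent : S7Cent π.unres r := by
    rw [hr, ht0]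
    exact der.tailC i₀
  have hopD := der.opD
  have hrowG := der.rowG
  have hxD := der.xD
  rw [← hD, ← hGS] at hopD hrowG hxD
  obtain ⟨k, hk⟩ : ∃ k : ℝ, k = (∑ z ∈ π.unres, sh z) / (π.unres.card : ℝ) := ⟨_, rfl⟩
  have hkL : |k| ≤ 1 / (π.l : ℝ) := by
    rw [hk, abs_div]
    have h1 : |∑ z ∈ π.unres, sh z| ≤ 1 := by
      rw [hsh]; exact s7tu_sum_le π₀ t0 σ h i₀ π.unres huniq hcle
    have h2 : |((π.unres.card : ℕ) : ℝ)| = (π.l : ℝ) := abs_of_pos hL0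
    rw [h2]
    exact div_le_div_of_nonneg_right h1 hL0.le
  obtain ⟨q1, q2, q3, q4, q5, q6⟩ := s7bg_basic hnum
  have hk1 : |k| ≤ 1 := hkL.trans (st.hLε.trans q5)
  obtain ⟨rm, rv, rp⟩ := hRow (Stub n d) σ h (s7eps n : ℝ) π.unres D base hεa hlR I r _ _ _ hAll
    hcent hopD hrowG hεr q5
  obtain ⟨sm, sp⟩ := hShift (Stub n d) σ h (s7eps n : ℝ) π.unres D base hεb hlS I r _ _ _ k hAll
    hcent hopD hrowG hεr q5 hk1
  have hN1 : s7sq r ≤ 1 := hN.trans hnum.n8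
  have hsg : Real.sqrt (2 * GS * s7sq r) ≤ 1 := by
    rw [Real.sqrt_le_iff]
    refine ⟨zero_le_one, ?_⟩
    calc 2 * GS * s7sq r ≤ 1 * 1 := mul_le_mul hnum.n9 hN1 hN0 zero_le_one
      _ = 1 ^ 2 := by norm_num
  have hZs : Real.sqrt (2 * (π.l : ℝ) * GS) = Real.sqrt (π.l : ℝ) * Real.sqrt (2 * GS) := by
    rw [← Real.sqrt_mul hL0.le]
    congr 1
    ring
  have hTcap : s7T D ≤ (s7TcapB par.g n : ℝ) := by rw [hD]; exact cap.dgT
  have hsL0 : 0 < Real.sqrt (π.l : ℝ) := Real.sqrt_pos.2 hL0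
  have hX0 : 0 ≤ s7X D := s7t_X_nonneg base.symm
  have A1 := s7bg_mean_hom hnum st (X := s7X D) (h := h) hsL0 (Real.sq_sqrt hL0.le) hZs
    (Real.sqrt_nonneg _) hsg (Real.sqrt_nonneg _) (Real.sqrt_le_sqrt hTcap) hh1 hX0 hxD rm
  have hq1 : Real.sqrt (π.l : ℝ) * Real.sqrt (s7sq r / (π.l : ℝ)) ≤ Real.sqrt (105 * GV) := by
    rw [← Real.sqrt_mul hL0.le]
    refine Real.sqrt_le_sqrt ?_
    rw [mul_div_cancel₀ _ hL0.ne']
    exact hN
  have hq2 : Real.sqrt (s7sq r / (π.l : ℝ)) ≤ Real.sqrt (s7eps n : ℝ) := by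
    refine Real.sqrt_le_sqrt ?_
    exact (div_le_div_of_nonneg_right hN1 hL0.le).trans st.hLε
  have A2 := s7bg_mean_shift hnum st hsL0 hZs hkL (Real.sqrt_nonneg _) hq1 hq2 sm
  have A3 := s7bg_var_hom hnum st (Real.sq_sqrt hL0.le) hZs (s7t_T_nonneg D) hTcap rv
  have A4 : ∀ u ∈ π.unres, ∀ v ∈ π.unres, u ≠ v →
      |s7sq (s7rstep σ h π.unres D r k u v) - s7sq (s7rstep σ h π.unres D r 0 u v)|
        ≤ 3 * CS * (1 / (π.l : ℝ)) := fun u hu v hv huv =>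
    s7bg_sup_shift hnum st hkL (Real.sqrt_nonneg _) hsg (sp u hu v hv huv)
  have A5 : ∀ u ∈ π.unres, ∀ v ∈ π.unres, u ≠ v →
      |s7sq (s7rstep σ h π.unres D r 0 u v) - s7sq r| ≤ 2 * CR * (s7eps n : ℝ) :=
    fun u hu v hv huv => s7bg_sup_hom hnum (Real.sqrt_nonneg _) hsg (rp u hu v hv huv)
  have layer := s7bg_layer hI2 (fun u v => s7sq (s7rstep σ h π.unres D r 0 u v))
    (fun u v => s7sq (s7rstep σ h π.unres D r k u v)) (s7sq r) _ _ _ (3 * CS * (1 / (π.l : ℝ)))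
    (by positivity) A1 A2 A3 (fun u hu v hv huv => A4 u (hIR hu) v (hIR hv) huv)
  have pbb : 0 < bb := hnum.hb
  have M1 : s7avg I (fun u v => s7sq (s7rstep σ h π.unres D r k u v) - s7sq r)
      ≤ K1 * ((s7kap par.g n : ℝ) * bb) / (π.l : ℝ) := by
    refine layer.1.trans (le_of_eq ?_)
    rw [hK1]; ring
  have M2 : s7avg I (fun u v => (s7sq (s7rstep σ h π.unres D r k u v) - s7sq r) ^ 2)
      ≤ K2 * ((s7kap par.g n : ℝ) * bb ^ 2) / (π.l : ℝ) := by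
    refine layer.2.trans ?_
    have h1 : 1 / (π.l : ℝ) ≤ bb := st.hLε.trans q4
    have h2 : 3 * CS * (1 / (π.l : ℝ)) * (3 * CS * ((s7kap par.g n : ℝ) * bb) / (π.l : ℝ))
        ≤ 3 * CS * bb * (3 * CS * ((s7kap par.g n : ℝ) * bb) / (π.l : ℝ)) := by
      refine mul_le_mul_of_nonneg_right ?_ (by positivity)
      exact mul_le_mul_of_nonneg_left h1 (by positivity)
    have e : K2 * ((s7kap par.g n : ℝ) * bb ^ 2) / (π.l : ℝ)
        = 2 * (3 * CR * ((s7kap par.g n : ℝ) * bb ^ 2) / (π.l : ℝ))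
          + 2 * (3 * CS * bb * (3 * CS * ((s7kap par.g n : ℝ) * bb) / (π.l : ℝ))) := by
      rw [hK2]; ring
    rw [e]
    linarith
  have key := hExc (Stub n d) π.unres I par.p (s7sq r)
    ((if s7removed π₀ π t0 i₀ then 104 else 1) * GV) bb
    (K1 * ((s7kap par.g n : ℝ) * bb) / (π.l : ℝ))
    (K2 * ((s7kap par.g n : ℝ) * bb ^ 2) / (π.l : ℝ))
    (fun u v => s7sq (s7rstep σ h π.unres D r k u v) - s7sq r)
    (fun u v => (s7PhaseB ℝ d n par φ π₀).Z (.grow j b i₀) (π.resolve u v))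
    hp2 hIR pbb (by positivity) (by positivity) ?_ ?_ M1 M2
  · refine key.trans (le_of_eq ?_)
    rw [hr]
    congr 2
    field_simp
  · -- ordinary events
    intro u hu v hv huv
    obtain ⟨huR, hun⟩ := (hmemI u).1 hu
    obtain ⟨hvR, hvn⟩ := (hmemI v).1 hv
    constructor
    · have h1 := A4 u (hIR hu) v (hIR hv) huv
      have h2 := A5 u (hIR hu) v (hIR hv) huv
      have h3 : 3 * CS * (1 / (π.l : ℝ)) ≤ 3 * CS * (s7eps n : ℝ) :=
        mul_le_mul_of_nonneg_left st.hLε (by positivity)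
      have e : s7sq (s7rstep σ h π.unres D r k u v) - s7sq r
          = (s7sq (s7rstep σ h π.unres D r k u v) - s7sq (s7rstep σ h π.unres D r 0 u v))
            + (s7sq (s7rstep σ h π.unres D r 0 u v) - s7sq r) := by ring
      have h4 := hnum.n7
      rw [e]
      refine (abs_add_le _ _).trans ?_
      linarith
    · obtain ⟨-, -, ul, uun, -, -, -, urow, -⟩ := upd u v huR hvR huv
      have hr' := s7tu_ord π₀ π (π.resolve u v) t0 σ h i₀ D u v (hIR hu) (hIR hv) huv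
        (by show 2 < π.l; omega) (s7tu_short_zero π₀ t0 σ h i₀ u hun)
        (s7tu_short_zero π₀ t0 σ h i₀ v hvn) uun (urow (S7Out.glob i₀))
      refine le_of_eq ?_
      rw [hZ, hr', ← hr, ← hsh, ← hk, add_sub_cancel]
      congr 2
      exact if_congr (s7tu_flag_ord π₀ π t0 i₀ u v huR hvR huv hun hvn) rfl rfl
  · -- the short endpoint is selected
    intro u hu v hv huv hnot
    have huR := (s7ar_mem_unres π u).1 hu
    have hvR := (s7ar_mem_unres π v).1 hv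
    have hnear : s7near π₀ t0 i₀ u ∨ s7near π₀ t0 i₀ v := by
      by_contra hcon
      push Not at hcon
      exact hnot ⟨(hmemI u).2 ⟨huR, hcon.1⟩, (hmemI v).2 ⟨hvR, hcon.2⟩⟩
    obtain ⟨s, hs, hsR, hsuv⟩ : ∃ s, s7near π₀ t0 i₀ s ∧ π.Unres s ∧ (s = u ∨ s = v) := by
      rcases hnear with h1 | h1
      · exact ⟨u, h1, huR, Or.inl rfl⟩
      · exact ⟨v, h1, hvR, Or.inr rfl⟩
    have hnr := s7tu_not_removed π₀ π t0 i₀ huniq s hs hsR
    have hrem := s7tu_flag_exc π₀ π t0 i₀ u v huR hvR huv hnear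
    have hsz : ∀ z, z ≠ s → s7short π₀ t0 σ h i₀ z = 0 := by
      intro z hz
      refine s7tu_short_zero π₀ t0 σ h i₀ z (fun hzn => hz (huniq z s hzn hs))
    obtain ⟨-, -, ul, uun, -, -, -, urow, -⟩ := upd u v huR hvR huv
    have hr' := s7tu_exc π₀ π (π.resolve u v) t0 σ h i₀ D u v s hsz hsuv uun
      (urow (S7Out.glob i₀))
    have hx := hRExc (Stub n d) σ h (s7eps n : ℝ) π.unres D base hεc hlX r (2 * GS)
      (s7eps n : ℝ) (s7short π₀ t0 σ h i₀ s) s hcent hrowG hεr (by linarith) (hcle s)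
      u hu v hv huv hsuv
    rw [if_neg hnr] at hcapg
    have hle : s7sq (s7r π₀ (π.resolve u v) t0 σ h i₀) ≤ 104 * GV := by
      rw [hr', ← hr]
      exact s7bg_exc_arith (s7t_sq_nonneg _) hN0 (by linarith) hnum.hGS.le hGSV hx
    rw [hZ, if_pos hrem, s7bg_excess_one par.p (by omega) _ _ _ hle]
    exact excessZ_pos _ _ _ _ pbb

end Claimed.Agent.R275
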