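import Claimed.Agent.R275.S7PhaseB
import Claimed.Agent.R275.S7Num
import Claimed.Agent.R275.S7Tools
import Claimed.Agent.R275.S7AStepGap

/-!
# Row 275, Section 7, leaf S7-B-STEP-DGT-CROW: one step of the accounts `dgT` and `crow` in Phase B

Prover: helper17.  Prefix `s7br_`.  Statements `StS7BStepDgT`, `StS7BStepCrow` in `R275/S7PhaseB.lean` (helper245).

DGT.  `Z = 1 + T/Tcap`; `E T' ≤ T + C/l` (`StS7DiagStepB`, `(D²)_xx ≤ 2 G_S ≤ G₀`), `StS7AffAcc`: rate `C/(l Tcap) ≤ 2 C κ/l`.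
CROW.  `Z = excessZ p |D f|² G_S (λ G_S)`; ordinary events `u, v ∈ I = R \ {x, y}`: `D' f = s7rstep (D f) 0 u v`; `StS7RowStep` with
`ε_r = 2 ε`, `G = 2 G_S`, `Z = √(2 l G_S)`; all terms proportional to `g = |D f|²` are absorbed by `-2 g/l`.
-/

set_option autoImplicit false
set_option linter.unusedSectionVars false
set_option linter.unusedVariables false

namespace Claimed.Agent.R275

open Matrix Filter

/-! ## products of scales -/

/-- the product of the scales with exponents in the list `l` -/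
noncomputable def s7brP (l : List ℚ) (n : ℕ) : ℝ := (l.map fun x => (scQ x n : ℝ)).prod

theorem s7brP_nil (n : ℕ) : s7brP [] n = 1 := rfl

theorem s7brP_cons (x : ℚ) (l : List ℚ) (n : ℕ) : s7brP (x :: l) n = (scQ x n : ℝ) * s7brP l n := by
  simp [s7brP]

theorem s7brP_pos (l : List ℚ) (n : ℕ) : 0 < s7brP l n := by
  induction l with
  | nil => rw [s7brP_nil]; exact one_pos
  | cons x l ih => rw [s7brP_cons]; exact mul_pos (s7n_cast_pos x n) ih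

theorem s7brP_le (l : List ℚ) (n : ℕ) : s7brP l n ≤ (scQ l.sum n : ℝ) := by
  induction l with
  | nil =>
    rw [s7brP_nil, List.sum_nil, s7n_scQ_zero]; simp
  | cons x l ih =>
    rw [s7brP_cons, List.sum_cons]
    have h1 : (scQ x n : ℝ) * (scQ l.sum n : ℝ) ≤ (scQ (x + l.sum) n : ℝ) := by
      exact_mod_cast s7n_scQ_mul_le x l.sum n
    exact (mul_le_mul_of_nonneg_left ih (s7n_cast_pos x n).le).trans h1

theorem s7brP_ge (l : List ℚ) (n : ℕ) : (scQ l.sum n : ℝ) ≤ 2 ^ l.length * s7brP l n := by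
  induction l with
  | nil =>
    rw [s7brP_nil, List.sum_nil, s7n_scQ_zero]; simp
  | cons x l ih =>
    rw [s7brP_cons, List.sum_cons, List.length_cons]
    have h1 : (scQ (x + l.sum) n : ℝ) ≤ 2 * ((scQ x n : ℝ) * (scQ l.sum n : ℝ)) := by
      exact_mod_cast s7n_scQ_add_le x l.sum n
    have h2 := mul_le_mul_of_nonneg_left ih (s7n_cast_pos x n).le
    calc (scQ (x + l.sum) n : ℝ) ≤ 2 * ((scQ x n : ℝ) * (scQ l.sum n : ℝ)) := h1
      _ ≤ 2 * ((scQ x n : ℝ) * (2 ^ l.length * s7brP l n)) := by linarith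
      _ = 2 ^ (l.length + 1) * ((scQ x n : ℝ) * s7brP l n) := by ring

/-- **comparison of monomials in the scales**: `C ∏ n^{x_i} ≤ ∏ n^{y_j}` eventually if `∑ x_i < ∑ y_j`. -/
theorem s7br_ev (l₁ l₂ : List ℚ) (h : l₁.sum < l₂.sum) (C : ℝ) :
    ∀ᶠ n : ℕ in atTop, C * s7brP l₁ n ≤ s7brP l₂ n := by
  filter_upwards [s7ag_lt h (|C| * 2 ^ l₂.length)] with n hn
  have h1 := s7brP_le l₁ n
  have h2 := s7brP_ge l₂ n
  have h3 := s7brP_pos l₁ n
  have h4 : (0 : ℝ) < 2 ^ l₂.length := by positivity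
  have h5 : 2 ^ l₂.length * (C * s7brP l₁ n) ≤ 2 ^ l₂.length * s7brP l₂ n := by
    calc 2 ^ l₂.length * (C * s7brP l₁ n) ≤ 2 ^ l₂.length * (|C| * s7brP l₁ n) :=
          mul_le_mul_of_nonneg_left (mul_le_mul_of_nonneg_right (le_abs_self C) h3.le) h4.le
      _ ≤ 2 ^ l₂.length * (|C| * (scQ l₁.sum n : ℝ)) :=
          mul_le_mul_of_nonneg_left (mul_le_mul_of_nonneg_left h1 (abs_nonneg C)) h4.le
      _ = |C| * 2 ^ l₂.length * (scQ l₁.sum n : ℝ) := by ring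
      _ ≤ (scQ l₂.sum n : ℝ) := hn
      _ ≤ _ := h2
  exact le_of_mul_le_mul_left h5 h4

/-! ## DGT -/

/-- the numerics of the step `dgT` -/
theorem s7br_numT {g : ℚ} (hg : S7gOK g) (ε0 G0 : ℝ) (hε0 : 0 < ε0) (hG0 : 0 < G0) (m : ℕ) :
    ∀ᶠ n : ℕ in atTop, 1 ≤ n ∧ (s7eps n : ℝ) ≤ ε0 ∧ m ≤ s7l3 n ∧ 2 * (s7GS g n : ℝ) ≤ G0 ∧
      1 / (s7Tcap g n : ℝ) ≤ 2 * (s7kap g n : ℝ) := by
  obtain ⟨hg0, hg1⟩ := hg
  have haa : aa = 1 / 10000 := rfl
  have x1 : (-(aa / 1000) : ℚ) < 0 := by rw [haa]; norm_num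
  have x2 : (-(3 / 10 * g) : ℚ) < 0 := by linarith
  filter_upwards [eventually_ge_atTop 1, s7n_scQ_small x1 ε0 hε0, s7n_l3_large m,
    s7n_scQ_small x2 (G0 / 2) (by positivity)] with n h1 h2 h3 h4
  refine ⟨h1, h2, h3, ?_, ?_⟩
  · unfold s7GS; linarith
  · have a1 : (scQ (4 * s7eta0 g) n)⁻¹ ≤ 2 * scQ (-(4 * s7eta0 g)) n := s7n_scQ_inv_le _ n
    have a2 : scQ (-(4 * s7eta0 g)) n ≤ scQ (-(2 * s7eta0 g)) n :=
      s7n_scQ_mono (by unfold s7eta0; linarith) n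
    have a3 : (scQ (4 * s7eta0 g) n)⁻¹ ≤ 2 * scQ (-(2 * s7eta0 g)) n := by linarith
    unfold s7Tcap s7kap
    rw [one_div]
    exact_mod_cast a3

/-- the step of `1 + T/Tcap` for an abstract matrix -/
theorem s7br_coreT (hAff : StS7AffAcc) {ι : Type} [Fintype ι] [DecidableEq ι] (R : Finset ι)
    (T' : ι → ι → ℝ) (T S C κ : ℝ) (hR : 2 ≤ R.card) (hS : 0 < S) (hT : 0 ≤ T) (hC : 0 ≤ C)
    (hκ : 1 / S ≤ 2 * κ) (hstep : s7avg R T' ≤ T + C / R.card) :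
    s7avg R (fun u v => 1 + T' u v / S) ≤ (1 + 2 * C * κ / R.card) * (1 + T / S) := by
  have hl : (0 : ℝ) < (R.card : ℝ) := by
    have : 0 < R.card := by omega
    exact_mod_cast this
  have h1 := hAff ι R T S 0 (C / R.card) T' hR hS hT le_rfl (by positivity) (by linarith)
  refine h1.trans (mul_le_mul_of_nonneg_right ?_ (by positivity))
  have h2 : C / R.card / S = C / R.card * (1 / S) := by ring
  have h3 : C / R.card * (1 / S) ≤ C / R.card * (2 * κ) :=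
    mul_le_mul_of_nonneg_left hκ (by positivity)
  have h4 : C / R.card * (2 * κ) = 2 * C * κ / R.card := by ring
  linarith

/-- **S7-B-STEP-2** diagonal squares without a trace cap. -/
theorem s7_bStepDgT (hDer : StS7BDer) (hUpd : StS7Upd) (hLavg : StS7Lavg) (hDiag : StS7DiagStepB)
    (hAff : StS7AffAcc) (hScore : StS7Score) : StS7BStepDgT := by
  intro d par hpar
  obtain ⟨hd, hg, hp, hcp0, hcp1⟩ := id hpar
  have hhmin := s7ag_hmin_pos d hd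
  have hC0 := s7ag_ThS_pos d hd
  obtain ⟨C, ε0, G0, lE, hC, hε0, hG0, hE⟩ := hDiag (s7hmin d) ((s7ThS d : ℝ) + 1) hhmin hC0
  refine ⟨2 * C, by positivity, ?_⟩
  filter_upwards [hDer d par hpar, s7br_numT hg (min ε0 (1 / 16)) G0 (by positivity) hG0 (max lE 15)]
    with n hder hnum
  obtain ⟨hn1, hεs, hlm, nG, nT⟩ := hnum
  intro φ π₀ π t hstop hinv hl i hi hk
  have hκ0 : (0 : ℝ) < (s7kap par.g n : ℝ) := s7n_cast_pos _ n
  have hl15 : 15 ≤ π.l := by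
    have := (le_max_right lE 15).trans hlm
    omega
  have hlE : lE ≤ π.l := by
    have := (le_max_left lE 15).trans hlm
    omega
  have hL : (15 : ℝ) ≤ (π.l : ℝ) := by exact_mod_cast hl15
  refine ⟨by positivity, ?_⟩
  cases i
  case dgT j b hat =>
    have hiA := ((hScore d n par φ π₀ π).2.2.2.2.2.2.2.1 _).1 hi
    have hj : j ≤ Nprim d n par.cp := ((hScore d n par φ π₀ π).2.2.1 j b hat).1 hiA.1
    have der := hder φ π₀ π t hstop hinv hl.le j hj b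
    have hh0 : 0 < ((prim d n j : ℚ) : ℝ) := lt_of_lt_of_le hhmin der.baseD.h_lo
    have hh1 : ((prim d n j : ℚ) : ℝ) ≤ 3 / 4 := der.baseD.h_hi
    have hZ := (hLavg n d π (s7ZB ℝ d n par φ π₀ (.dgT j b hat))).1
    have e0 : (s7PhaseB ℝ d n par φ π₀).avg (.dgT j b hat) π
        = s7avg π.unres (fun u v => s7ZB ℝ d n par φ π₀ (.dgT j b hat) (π.resolve u v)) := hZ
    rw [e0]
    have up : ∀ u ∈ π.unres, ∀ v ∈ π.unres, u ≠ v →
        s7D (π.resolve u v) (sgn b) ((prim d n j : ℚ) : ℝ)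
          = s7Dstep (sgn b) ((prim d n j : ℚ) : ℝ) π.unres (s7D π (sgn b) ((prim d n j : ℚ) : ℝ)) u v ∧
        s7Dh π₀ (π.resolve u v) φ (Lcut d n) (sgn b) ((prim d n j : ℚ) : ℝ)
          = s7Dstep (sgn b) ((prim d n j : ℚ) : ℝ) π.unres
            (s7Dh π₀ π φ (Lcut d n) (sgn b) ((prim d n j : ℚ) : ℝ)) u v := by
      intro u hu v hv huv
      have hu' : π.Unres u := (Finset.mem_filter.1 hu).2
      have hv' : π.Unres v := (Finset.mem_filter.1 hv).2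
      have up := hUpd n d π₀ π φ (Lcut d n) (sgn b) ((prim d n j : ℚ) : ℝ) u v (by omega) hinv.ext
        hu' hv' huv (by omega) der.sig hh0 hh1 (hinv.pos j hj b)
        (fun x y => (der.baseD.ent x y).trans (hεs.trans (min_le_right _ _))) der.refAt.unit
        (fun x y => (der.baseDh.ent x y).trans (hεs.trans (min_le_right _ _)))
      exact ⟨up.2.2.2.2.2.1, up.2.2.2.2.2.2.1⟩
    have hS : (0 : ℝ) < (s7Tcap par.g n : ℝ) := s7n_cast_pos _ n
    cases hat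
    case false =>
      have st := hE (Stub n d) (sgn b) ((prim d n j : ℚ) : ℝ) (s7eps n : ℝ) π.unres
        (s7D π (sgn b) ((prim d n j : ℚ) : ℝ)) der.baseD (hεs.trans (min_le_left _ _)) hlE
        (fun x => (der.rowG x).trans nG)
      have key := s7br_coreT hAff π.unres _ _ (s7Tcap par.g n : ℝ) C (s7kap par.g n : ℝ)
        (by show 2 ≤ π.l; omega) hS (s7t_T_nonneg _) hC.le nT st
      refine le_trans (le_of_eq ?_) key
      refine s7t_avg_congr (fun u hu v hv huv => ?_)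
      show 1 + s7T (s7D (π.resolve u v) (sgn b) ((prim d n j : ℚ) : ℝ)) / ((s7Tcap par.g n : ℚ) : ℝ) = _
      rw [(up u hu v hv huv).1]
    case true =>
      have st := hE (Stub n d) (sgn b) ((prim d n j : ℚ) : ℝ) (s7eps n : ℝ) π.unres
        (s7Dh π₀ π φ (Lcut d n) (sgn b) ((prim d n j : ℚ) : ℝ)) der.baseDh
        (hεs.trans (min_le_left _ _)) hlE (fun x => (der.rowGh x).trans nG)
      have key := s7br_coreT hAff π.unres _ _ (s7Tcap par.g n : ℝ) C (s7kap par.g n : ℝ)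
        (by show 2 ≤ π.l; omega) hS (s7t_T_nonneg _) hC.le nT st
      refine le_trans (le_of_eq ?_) key
      refine s7t_avg_congr (fun u hu v hv huv => ?_)
      show 1 + s7T (s7Dh π₀ (π.resolve u v) φ (Lcut d n) (sgn b) ((prim d n j : ℚ) : ℝ))
        / ((s7Tcap par.g n : ℚ) : ℝ) = _
      rw [(up u hu v hv huv).2]
  all_goals exact absurd hk (by simp [S7Lab.kind])

/-! ## CROW: scalar estimates -/

/-- the mean of `StS7RowStep` after inserting the caps of Phase B -/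
theorem s7br_mean (L g X T τ h C ε S : ℝ) (hL : 2 ≤ L) (hg0 : 0 ≤ g) (hg : g ≤ 2 * S) (hX0 : 0 ≤ X)
    (hX : X ≤ 2 * L * S) (hT0 : 0 ≤ T) (hT : T ≤ τ) (hh : h ^ 2 ≤ 1) (hC : 0 ≤ C) (hε : 0 ≤ ε)
    (hS0 : 0 ≤ S) (hS1 : S ≤ 1) (hinv : 1 / L ≤ ε)
    (n1 : 8 * S + C * ((1 + Real.sqrt τ) * Real.sqrt (2 * S) + ε + 4 * S) ≤ 2) :
    -2 * g / L + 2 * h ^ 2 * g * X / (L * (L - 1))
      + C * ((2 * ε) ^ 2 / L + (2 * ε) * Real.sqrt (2 * S * g) / L ^ 2
          + (1 + Real.sqrt T) * Real.sqrt (2 * L * S) * g / (L * Real.sqrt L)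
          + ε * g / L + (2 * S + Real.sqrt (2 * L * S) ^ 2) * g / L ^ 2)
      ≤ 8 * C * ε ^ 2 / L := by
  have hL0 : 0 < L := by linarith
  have hL1 : 0 < L - 1 := by linarith
  have hsL : 0 < Real.sqrt L := Real.sqrt_pos.2 hL0
  have hgL : 0 ≤ g / L := by positivity
  have t1 : 2 * h ^ 2 * g * X / (L * (L - 1)) ≤ 8 * S * (g / L) := by
    have a1 : 2 * h ^ 2 * g * X ≤ 2 * 1 * g * (2 * L * S) := by
      have : 2 * h ^ 2 * g ≤ 2 * 1 * g := by
        have := mul_le_mul_of_nonneg_right hh hg0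
        linarith
      exact mul_le_mul this hX hX0 (by positivity)
    have a2 : 2 * h ^ 2 * g * X / (L * (L - 1)) ≤ 2 * 1 * g * (2 * L * S) / (L * (L - 1)) :=
      div_le_div_of_nonneg_right a1 (by positivity)
    have a3 : 2 * 1 * g * (2 * L * S) / (L * (L - 1)) = 4 * S * g * (1 / (L - 1)) := by
      field_simp; ring
    have a4 : 1 / (L - 1) ≤ 2 / L := by
      rw [div_le_div_iff₀ hL1 hL0]; linarith
    have a5 : 4 * S * g * (1 / (L - 1)) ≤ 4 * S * g * (2 / L) :=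
      mul_le_mul_of_nonneg_left a4 (by positivity)
    have a6 : 4 * S * g * (2 / L) = 8 * S * (g / L) := by ring
    linarith
  have t2 : (2 * ε) ^ 2 / L = 4 * (ε ^ 2 / L) := by ring
  have t3 : (2 * ε) * Real.sqrt (2 * S * g) / L ^ 2 ≤ 4 * (ε ^ 2 / L) := by
    have a1 : Real.sqrt (2 * S * g) ≤ 2 * S := by
      have : 2 * S * g ≤ (2 * S) ^ 2 := by
        have := mul_le_mul_of_nonneg_left hg (by positivity : 0 ≤ 2 * S)
        calc 2 * S * g ≤ 2 * S * (2 * S) := this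
          _ = (2 * S) ^ 2 := by ring
      exact (Real.sqrt_le_sqrt this).trans (le_of_eq (Real.sqrt_sq (by positivity)))
    have a2 : Real.sqrt (2 * S * g) ≤ 2 := by linarith
    have a3 : (2 * ε) * Real.sqrt (2 * S * g) / L ^ 2
        = (2 * ε / L) * (Real.sqrt (2 * S * g) * (1 / L)) := by field_simp
    have a4 : Real.sqrt (2 * S * g) * (1 / L) ≤ 2 * ε :=
      mul_le_mul a2 hinv (by positivity) (by norm_num)
    have a5 : (2 * ε / L) * (Real.sqrt (2 * S * g) * (1 / L)) ≤ (2 * ε / L) * (2 * ε) :=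
      mul_le_mul_of_nonneg_left a4 (by positivity)
    have a6 : (2 * ε / L) * (2 * ε) = 4 * (ε ^ 2 / L) := by ring
    linarith
  have t4 : (1 + Real.sqrt T) * Real.sqrt (2 * L * S) * g / (L * Real.sqrt L)
      ≤ (1 + Real.sqrt τ) * Real.sqrt (2 * S) * (g / L) := by
    have e1 : Real.sqrt (2 * L * S) = Real.sqrt L * Real.sqrt (2 * S) := by
      rw [← Real.sqrt_mul hL0.le]; congr 1; ring
    rw [e1]
    have e2 : (1 + Real.sqrt T) * (Real.sqrt L * Real.sqrt (2 * S)) * g / (L * Real.sqrt L)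
        = (1 + Real.sqrt T) * Real.sqrt (2 * S) * (g / L) := by field_simp
    rw [e2]
    have a1 := Real.sqrt_le_sqrt hT
    exact mul_le_mul_of_nonneg_right
      (mul_le_mul_of_nonneg_right (by linarith) (Real.sqrt_nonneg _)) hgL
  have t5 : ε * g / L = ε * (g / L) := by ring
  have t6 : (2 * S + Real.sqrt (2 * L * S) ^ 2) * g / L ^ 2 ≤ 4 * S * (g / L) := by
    rw [Real.sq_sqrt (by positivity)]
    have a1 : 2 * S + 2 * L * S ≤ 4 * S * L := by nlinarith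
    have a2 : (2 * S + 2 * L * S) * g / L ^ 2 ≤ 4 * S * L * g / L ^ 2 :=
      div_le_div_of_nonneg_right (mul_le_mul_of_nonneg_right a1 hg0) (by positivity)
    have a3 : 4 * S * L * g / L ^ 2 = 4 * S * (g / L) := by field_simp
    linarith
  have hsum : C * ((2 * ε) ^ 2 / L + (2 * ε) * Real.sqrt (2 * S * g) / L ^ 2
          + (1 + Real.sqrt T) * Real.sqrt (2 * L * S) * g / (L * Real.sqrt L)
          + ε * g / L + (2 * S + Real.sqrt (2 * L * S) ^ 2) * g / L ^ 2)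
      ≤ C * (8 * (ε ^ 2 / L) + ((1 + Real.sqrt τ) * Real.sqrt (2 * S) + ε + 4 * S) * (g / L)) := by
    refine mul_le_mul_of_nonneg_left ?_ hC
    rw [t2, t5]
    have : ((1 + Real.sqrt τ) * Real.sqrt (2 * S) + ε + 4 * S) * (g / L)
        = (1 + Real.sqrt τ) * Real.sqrt (2 * S) * (g / L) + ε * (g / L) + 4 * S * (g / L) := by ring
    linarith
  have hn := mul_le_mul_of_nonneg_right n1 hgL
  have e3 : -2 * g / L = -(2 * (g / L)) := by ring
  have e4 : 8 * C * ε ^ 2 / L = C * (8 * (ε ^ 2 / L)) := by ring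
  have e5 : (8 * S + C * ((1 + Real.sqrt τ) * Real.sqrt (2 * S) + ε + 4 * S)) * (g / L)
      = 8 * S * (g / L) + C * (((1 + Real.sqrt τ) * Real.sqrt (2 * S) + ε + 4 * S) * (g / L)) := by
    ring
  have e6 : C * (8 * (ε ^ 2 / L) + ((1 + Real.sqrt τ) * Real.sqrt (2 * S) + ε + 4 * S) * (g / L))
      = C * (8 * (ε ^ 2 / L)) + C * (((1 + Real.sqrt τ) * Real.sqrt (2 * S) + ε + 4 * S) * (g / L)) := by
    ring
  rw [e3, e4]
  rw [e5] at hn
  rw [e6] at hsum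
  linarith

/-- the second moment of `StS7RowStep` after inserting the caps of Phase B -/
theorem s7br_var (L g T τ C ε S : ℝ) (hL : 2 ≤ L) (hg0 : 0 ≤ g) (hg : g ≤ 2 * S) (hT0 : 0 ≤ T)
    (hT : T ≤ τ) (hC : 0 ≤ C) (hε : 0 ≤ ε) (hS0 : 0 ≤ S) :
    C * ((2 * ε) ^ 2 * g / L + Real.sqrt (2 * L * S) ^ 2 * g ^ 2 / L ^ 2
        + (1 + T) * (2 * ε) ^ 2 * Real.sqrt (2 * L * S) ^ 2 * g / L ^ 2)
      ≤ C * (8 * ε ^ 2 * S + 8 * S ^ 3 + 16 * (1 + τ) * ε ^ 2 * S ^ 2) / L := by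
  have hL0 : 0 < L := by linarith
  rw [Real.sq_sqrt (by positivity),
    mul_div_assoc C (8 * ε ^ 2 * S + 8 * S ^ 3 + 16 * (1 + τ) * ε ^ 2 * S ^ 2) L]
  refine mul_le_mul_of_nonneg_left ?_ hC
  have e1 : (2 * ε) ^ 2 * g / L + 2 * L * S * g ^ 2 / L ^ 2
      + (1 + T) * (2 * ε) ^ 2 * (2 * L * S) * g / L ^ 2
      = (4 * ε ^ 2 * g + 2 * S * g ^ 2 + 8 * (1 + T) * ε ^ 2 * S * g) / L := by
    field_simp
    ring
  rw [e1]
  refine div_le_div_of_nonneg_right ?_ hL0.le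
  have a1 : 4 * ε ^ 2 * g ≤ 4 * ε ^ 2 * (2 * S) := mul_le_mul_of_nonneg_left hg (by positivity)
  have a2 : g ^ 2 ≤ (2 * S) ^ 2 := pow_le_pow_left₀ hg0 hg 2
  have a3 : 2 * S * g ^ 2 ≤ 2 * S * (2 * S) ^ 2 := mul_le_mul_of_nonneg_left a2 (by positivity)
  have a4 : 8 * (1 + T) * ε ^ 2 * S * g ≤ 8 * (1 + τ) * ε ^ 2 * S * (2 * S) := by
    have hτ0 : 0 ≤ τ := hT0.trans hT
    refine mul_le_mul ?_ hg hg0 (by positivity)
    have : 8 * (1 + T) ≤ 8 * (1 + τ) := by linarith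
    exact mul_le_mul_of_nonneg_right (mul_le_mul_of_nonneg_right this (by positivity)) hS0
  nlinarith

/-- the pointwise bound of `StS7RowStep` after inserting the caps of Phase B -/
theorem s7br_jump (g C ε S : ℝ) (hg0 : 0 ≤ g) (hg : g ≤ 2 * S) (hC : 0 ≤ C) (hε : 0 ≤ ε)
    (hS0 : 0 ≤ S) :
    C * ((2 * ε) ^ 2 + (2 * ε) * Real.sqrt (2 * S * g)) ≤ C * (4 * ε ^ 2 + 4 * ε * S) := by
  refine mul_le_mul_of_nonneg_left ?_ hC
  have a1 : Real.sqrt (2 * S * g) ≤ 2 * S := by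
    have : 2 * S * g ≤ (2 * S) ^ 2 := by
      have := mul_le_mul_of_nonneg_left hg (by positivity : 0 ≤ 2 * S)
      calc 2 * S * g ≤ 2 * S * (2 * S) := this
        _ = (2 * S) ^ 2 := by ring
    exact (Real.sqrt_le_sqrt this).trans (le_of_eq (Real.sqrt_sq (by positivity)))
  have a2 := mul_le_mul_of_nonneg_left a1 (by positivity : 0 ≤ 2 * ε)
  nlinarith

/-- the growth rate of the account `crow` -/
theorem s7br_rate (L τ C ε S lam κ : ℝ) (hL : 0 < L) (hτ : 0 ≤ τ) (hC : 0 ≤ C) (hS0 : 0 < S)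
    (hlam0 : 0 < lam) (hlam1 : lam ≤ 1) (hκ : 0 ≤ κ) (n4 : ε ^ 2 ≤ κ * lam ^ 2 * S)
    (n5 : S ≤ κ * lam ^ 2) (n6 : (1 + τ) * ε ^ 2 ≤ κ * lam ^ 2) :
    (8 * C * ε ^ 2 / L) / (lam * S)
      + (C * (8 * ε ^ 2 * S + 8 * S ^ 3 + 16 * (1 + τ) * ε ^ 2 * S ^ 2) / L) / (lam * S) ^ 2
      ≤ 40 * C * κ / L := by
  have hb : 0 < lam * S := mul_pos hlam0 hS0
  have a1 : ε ^ 2 / (lam * S) ≤ κ := by
    rw [div_le_iff₀ hb]
    have : κ * lam ^ 2 * S ≤ κ * (lam * S) := by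
      have h1 : lam ^ 2 ≤ lam := by nlinarith
      have h2 : κ * lam ^ 2 ≤ κ * lam := mul_le_mul_of_nonneg_left h1 hκ
      have := mul_le_mul_of_nonneg_right h2 hS0.le
      linarith
    linarith
  have a2 : (8 * ε ^ 2 * S + 8 * S ^ 3 + 16 * (1 + τ) * ε ^ 2 * S ^ 2) / (lam * S) ^ 2 ≤ 32 * κ := by
    rw [div_le_iff₀ (by positivity)]
    have b1 : 8 * ε ^ 2 * S ≤ 8 * (κ * lam ^ 2 * S) * S :=
      mul_le_mul_of_nonneg_right (by linarith) hS0.le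
    have b2 : 8 * S ^ 3 ≤ 8 * (κ * lam ^ 2) * S ^ 2 := by
      have := mul_le_mul_of_nonneg_right n5 (by positivity : 0 ≤ S ^ 2)
      calc 8 * S ^ 3 = 8 * (S * S ^ 2) := by ring
        _ ≤ 8 * (κ * lam ^ 2 * S ^ 2) := by linarith
        _ = _ := by ring
    have b3 : 16 * (1 + τ) * ε ^ 2 * S ^ 2 ≤ 16 * (κ * lam ^ 2) * S ^ 2 := by
      have := mul_le_mul_of_nonneg_right n6 (by positivity : 0 ≤ S ^ 2)
      calc 16 * (1 + τ) * ε ^ 2 * S ^ 2 = 16 * ((1 + τ) * ε ^ 2 * S ^ 2) := by ring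
        _ ≤ 16 * (κ * lam ^ 2 * S ^ 2) := by linarith
        _ = _ := by ring
    have e : 32 * κ * (lam * S) ^ 2
        = 8 * (κ * lam ^ 2 * S) * S + 8 * (κ * lam ^ 2) * S ^ 2 + 16 * (κ * lam ^ 2) * S ^ 2 := by
      ring
    rw [e]
    linarith
  have e1 : (8 * C * ε ^ 2 / L) / (lam * S) = 8 * C / L * (ε ^ 2 / (lam * S)) := by
    field_simp
  have e2 : (C * (8 * ε ^ 2 * S + 8 * S ^ 3 + 16 * (1 + τ) * ε ^ 2 * S ^ 2) / L) / (lam * S) ^ 2
      = C / L * ((8 * ε ^ 2 * S + 8 * S ^ 3 + 16 * (1 + τ) * ε ^ 2 * S ^ 2) / (lam * S) ^ 2) := by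
    field_simp
  rw [e1, e2]
  have c1 := mul_le_mul_of_nonneg_left a1 (by positivity : 0 ≤ 8 * C / L)
  have c2 := mul_le_mul_of_nonneg_left a2 (by positivity : 0 ≤ C / L)
  have e3 : 40 * C * κ / L = 8 * C / L * κ + C / L * (32 * κ) := by ring
  rw [e3]
  linarith

/-! ## CROW: the scales -/

/-- the numerics of the step `crow` -/
theorem s7br_numC {g : ℚ} (hg : S7gOK g) (C ε0 : ℝ) (hC : 0 ≤ C) (hε0 : 0 < ε0) (m : ℕ) :
    ∀ᶠ n : ℕ in atTop, 1 ≤ n ∧ (s7eps n : ℝ) ≤ ε0 ∧ m ≤ s7l3 n ∧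
      8 * (s7GS g n : ℝ) + C * ((1 + Real.sqrt (s7TcapB g n : ℝ)) * Real.sqrt (2 * (s7GS g n : ℝ))
        + (s7eps n : ℝ) + 4 * (s7GS g n : ℝ)) ≤ 2 ∧
      (∀ L : ℝ, (s7l3 n : ℝ) ≤ L → 1 / L ≤ (s7eps n : ℝ)) ∧
      (s7GS g n : ℝ) ≤ 1 ∧ (s7lam g n : ℝ) ≤ 1 ∧
      (s7eps n : ℝ) ^ 2 ≤ (s7kap g n : ℝ) * (s7lam g n : ℝ) ^ 2 * (s7GS g n : ℝ) ∧
      (s7GS g n : ℝ) ≤ (s7kap g n : ℝ) * (s7lam g n : ℝ) ^ 2 ∧
      (1 + (s7TcapB g n : ℝ)) * (s7eps n : ℝ) ^ 2 ≤ (s7kap g n : ℝ) * (s7lam g n : ℝ) ^ 2 ∧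
      C * (4 * (s7eps n : ℝ) ^ 2 + 4 * (s7eps n : ℝ) * (s7GS g n : ℝ))
        ≤ (s7lam g n : ℝ) * (s7GS g n : ℝ) := by
  obtain ⟨hg0, hg1⟩ := hg
  have haa : aa = 1 / 10000 := rfl
  have x1 : (-(aa / 1000) : ℚ) < 0 := by rw [haa]; norm_num
  have y1 : ([-(3 / 10 * g)] : List ℚ).sum < ([] : List ℚ).sum := by simp; linarith
  have y2 : ([-(aa / 1000)] : List ℚ).sum < ([] : List ℚ).sum := by simp; rw [haa]; norm_num
  have y3 : ([6 * s7eta0 g / 2, -(3 / 10 * g) / 2] : List ℚ).sum < ([] : List ℚ).sum := by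
    simp [s7eta0]; linarith
  have y4 : ([-(aa / 1000), -(aa / 1000)] : List ℚ).sum
      < ([-(2 * s7eta0 g), -(g / 100), -(g / 100), -(3 / 10 * g)] : List ℚ).sum := by
    simp [s7eta0]; rw [haa] at hg1 ⊢; linarith
  have y5 : ([-(3 / 10 * g)] : List ℚ).sum
      < ([-(2 * s7eta0 g), -(g / 100), -(g / 100)] : List ℚ).sum := by
    simp [s7eta0]; linarith
  have y6 : ([6 * s7eta0 g, -(aa / 1000), -(aa / 1000)] : List ℚ).sum
      < ([-(2 * s7eta0 g), -(g / 100), -(g / 100)] : List ℚ).sum := by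
    simp [s7eta0]; rw [haa] at hg1 ⊢; linarith
  have y7 : ([-(aa / 1000), -(aa / 1000)] : List ℚ).sum
      < ([-(g / 100), -(3 / 10 * g)] : List ℚ).sum := by
    simp; rw [haa] at hg1 ⊢; linarith
  have y8 : ([-(aa / 1000)] : List ℚ).sum < ([-(g / 100)] : List ℚ).sum := by
    simp; rw [haa] at hg1 ⊢; linarith
  filter_upwards [eventually_ge_atTop 1, s7n_scQ_small x1 ε0 hε0, s7n_l3_large m,
    s7br_ev _ _ y1 (4 * (8 + 4 * C)), s7br_ev _ _ y2 (4 * C), s7br_ev _ _ y3 (48 * C),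
    s7br_ev _ _ y4 1, s7br_ev _ _ y5 1, s7br_ev _ _ y6 2, s7br_ev _ _ y7 (8 * C),
    s7br_ev _ _ y8 (8 * C)] with n h1 h2 h3 z1 z2 z3 z4 z5 z6 z7 z8
  simp only [s7brP_cons, s7brP_nil, mul_one] at z1 z2 z3 z4 z5 z6 z7 z8
  have pS := s7n_cast_pos (-(3 / 10 * g)) n
  have pe := s7n_cast_pos (-(aa / 1000)) n
  have pl := s7n_cast_pos (-(g / 100)) n
  have pk := s7n_cast_pos (-(2 * s7eta0 g)) n
  have pT := s7n_cast_pos (6 * s7eta0 g) n
  have hT1 : (1 : ℝ) ≤ (scQ (6 * s7eta0 g) n : ℝ) := by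
    have : 1 ≤ scQ (6 * s7eta0 g) n := s7n_one_le_scQ (by unfold s7eta0; linarith) n
    exact_mod_cast this
  refine ⟨h1, h2, h3, ?_, ?_, ?_, ?_, ?_, ?_, ?_, ?_⟩
  · -- absorption
    have a1 := s7n_sqrt_scQ_le (6 * s7eta0 g) n
    have a2 := s7n_sqrt_scQ_le (-(3 / 10 * g)) n
    have a3 : (1 : ℝ) ≤ (scQ (6 * s7eta0 g / 2) n : ℝ) := by
      have : 1 ≤ scQ (6 * s7eta0 g / 2) n := s7n_one_le_scQ (by unfold s7eta0; linarith) n
      exact_mod_cast this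
    have p2 := s7n_cast_pos (-(3 / 10 * g) / 2) n
    have a4 : Real.sqrt (2 * (scQ (-(3 / 10 * g)) n : ℝ)) ≤ 4 * (scQ (-(3 / 10 * g) / 2) n : ℝ) := by
      rw [Real.sqrt_mul (by norm_num)]
      have : Real.sqrt 2 ≤ 2 := by
        rw [Real.sqrt_le_left (by norm_num)]; norm_num
      calc Real.sqrt 2 * Real.sqrt (scQ (-(3 / 10 * g)) n : ℝ)
          ≤ 2 * (2 * (scQ (-(3 / 10 * g) / 2) n : ℝ)) :=
            mul_le_mul this a2 (Real.sqrt_nonneg _) (by norm_num)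
        _ = _ := by ring
    have a5 : (1 + Real.sqrt (scQ (6 * s7eta0 g) n : ℝ)) * Real.sqrt (2 * (scQ (-(3 / 10 * g)) n : ℝ))
        ≤ 12 * ((scQ (6 * s7eta0 g / 2) n : ℝ) * (scQ (-(3 / 10 * g) / 2) n : ℝ)) := by
      calc (1 + Real.sqrt (scQ (6 * s7eta0 g) n : ℝ)) * Real.sqrt (2 * (scQ (-(3 / 10 * g)) n : ℝ))
          ≤ (3 * (scQ (6 * s7eta0 g / 2) n : ℝ)) * (4 * (scQ (-(3 / 10 * g) / 2) n : ℝ)) :=
            mul_le_mul (by linarith) a4 (Real.sqrt_nonneg _) (by positivity)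
        _ = _ := by ring
    have a6 := mul_le_mul_of_nonneg_left a5 hC
    unfold s7GS s7TcapB s7eps
    have e : 8 * (scQ (-(3 / 10 * g)) n : ℝ) + C * ((1 + Real.sqrt (scQ (6 * s7eta0 g) n : ℝ))
          * Real.sqrt (2 * (scQ (-(3 / 10 * g)) n : ℝ)) + (scQ (-(aa / 1000)) n : ℝ)
          + 4 * (scQ (-(3 / 10 * g)) n : ℝ))
        = (8 + 4 * C) * (scQ (-(3 / 10 * g)) n : ℝ) + C * ((1 + Real.sqrt (scQ (6 * s7eta0 g) n : ℝ))
          * Real.sqrt (2 * (scQ (-(3 / 10 * g)) n : ℝ))) + C * (scQ (-(aa / 1000)) n : ℝ) := by ring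
    rw [e]
    linarith
  · intro L hL
    have l3e : (s7l3 n : ℝ) = 2 * (scQ s7chi n : ℝ) := by exact_mod_cast s7n_l3 n
    have p1 := s7n_cast_pos s7chi n
    have hL0 : 0 < L := by linarith
    have a1 : ((scQ s7chi n : ℝ))⁻¹ ≤ 2 * (scQ (-s7chi) n : ℝ) := by
      exact_mod_cast s7n_scQ_inv_le s7chi n
    have a2 : 1 / L ≤ 1 / (2 * (scQ s7chi n : ℝ)) :=
      one_div_le_one_div_of_le (by positivity) (by linarith)
    have a3 : 1 / (2 * (scQ s7chi n : ℝ)) = ((scQ s7chi n : ℝ))⁻¹ / 2 := by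
      field_simp
    have a4 : (s7eps n : ℝ) = (scQ (-s7chi) n : ℝ) := rfl
    rw [a4]
    linarith
  · have : s7GS g n ≤ 1 := s7n_scQ_le_one (by linarith) n
    exact_mod_cast this
  · have : s7lam g n ≤ 1 := s7n_scQ_le_one (by linarith) n
    exact_mod_cast this
  · unfold s7eps s7kap s7lam s7GS
    calc (scQ (-(aa / 1000)) n : ℝ) ^ 2
        = 1 * ((scQ (-(aa / 1000)) n : ℝ) * (scQ (-(aa / 1000)) n : ℝ)) := by ring
      _ ≤ _ := z4
      _ = _ := by ring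
  · unfold s7kap s7lam s7GS
    calc (scQ (-(3 / 10 * g)) n : ℝ) = 1 * (scQ (-(3 / 10 * g)) n : ℝ) := by ring
      _ ≤ _ := z5
      _ = _ := by ring
  · unfold s7eps s7kap s7lam s7TcapB
    calc (1 + (scQ (6 * s7eta0 g) n : ℝ)) * (scQ (-(aa / 1000)) n : ℝ) ^ 2
        ≤ (2 * (scQ (6 * s7eta0 g) n : ℝ)) * (scQ (-(aa / 1000)) n : ℝ) ^ 2 :=
          mul_le_mul_of_nonneg_right (by linarith) (by positivity)
      _ = 2 * ((scQ (6 * s7eta0 g) n : ℝ)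
            * ((scQ (-(aa / 1000)) n : ℝ) * (scQ (-(aa / 1000)) n : ℝ))) := by ring
      _ ≤ _ := z6
      _ = _ := by ring
  · unfold s7eps s7lam s7GS
    have b1 := mul_le_mul_of_nonneg_right z8 pS.le
    have e : C * (4 * (scQ (-(aa / 1000)) n : ℝ) ^ 2
          + 4 * (scQ (-(aa / 1000)) n : ℝ) * (scQ (-(3 / 10 * g)) n : ℝ))
        = (8 * C * ((scQ (-(aa / 1000)) n : ℝ) * (scQ (-(aa / 1000)) n : ℝ))) / 2
          + (8 * C * (scQ (-(aa / 1000)) n : ℝ) * (scQ (-(3 / 10 * g)) n : ℝ)) / 2 := by ring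
    rw [e]
    linarith

/-! ## CROW: the step -/

section Alg

variable {ι : Type} [Fintype ι] [DecidableEq ι]

theorem s7br_mulVec_ctr (D : Matrix ι ι ℝ) (x y z : ι) :
    (D *ᵥ s7ctr ℝ x y) z = D z x - D z y := by
  simp [Matrix.mulVec, dotProduct, s7ctr, mul_sub, Finset.sum_sub_distrib]

theorem s7br_cent {R : Finset ι} {D : Matrix ι ι ℝ} (hc : s7Pi ℝ R * D = D) (f : ι → ℝ) :
    S7Cent R (D *ᵥ f) := by
  unfold S7Cent
  rw [Matrix.mulVec_mulVec, hc]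

theorem s7br_mem_sub {R : Finset ι} {x y z : ι} : z ∈ s7sub R x y ↔ z ∈ R ∧ z ≠ x ∧ z ≠ y := by
  unfold s7sub
  rw [Finset.mem_erase, Finset.mem_erase]
  tauto

theorem s7br_allowed {R : Finset ι} {x y : ι} : S7Allowed R (s7sub R x y) := by
  refine ⟨fun z hz => (s7br_mem_sub.1 hz).1, ?_⟩
  unfold s7sub
  have h1 := Finset.pred_card_le_card_erase (s := R) (a := x)
  have h2 := Finset.pred_card_le_card_erase (s := R.erase x) (a := y)
  omega

/-- the step of the account `crow`, abstract form -/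
theorem s7br_coreC (hExc : StS7ExcStep) (R I : Finset ι) (p : ℕ) (Δ Z' : ι → ι → ℝ)
    (L g X T τ h C ε S lam κ : ℝ) (hp : 2 ≤ p) (hIR : I ⊆ R) (hLR : L = (R.card : ℝ)) (hL : 2 ≤ L)
    (hg0 : 0 ≤ g) (hg : g ≤ 2 * S) (hX0 : 0 ≤ X) (hX : X ≤ 2 * L * S) (hT0 : 0 ≤ T) (hT : T ≤ τ)
    (hh : h ^ 2 ≤ 1) (hC : 0 ≤ C) (hε : 0 ≤ ε) (hS0 : 0 < S) (hS1 : S ≤ 1) (hinv : 1 / L ≤ ε)
    (hlam0 : 0 < lam) (hlam1 : lam ≤ 1) (hκ : 0 ≤ κ)
    (n1 : 8 * S + C * ((1 + Real.sqrt τ) * Real.sqrt (2 * S) + ε + 4 * S) ≤ 2)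
    (n4 : ε ^ 2 ≤ κ * lam ^ 2 * S) (n5 : S ≤ κ * lam ^ 2) (n6 : (1 + τ) * ε ^ 2 ≤ κ * lam ^ 2)
    (n7 : C * (4 * ε ^ 2 + 4 * ε * S) ≤ lam * S)
    (hmean : s7avg I Δ ≤ -2 * g / L + 2 * h ^ 2 * g * X / (L * (L - 1))
      + C * ((2 * ε) ^ 2 / L + (2 * ε) * Real.sqrt (2 * S * g) / L ^ 2
          + (1 + Real.sqrt T) * Real.sqrt (2 * L * S) * g / (L * Real.sqrt L)
          + ε * g / L + (2 * S + Real.sqrt (2 * L * S) ^ 2) * g / L ^ 2))
    (hvar : s7avg I (fun u v => Δ u v ^ 2) ≤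
      C * ((2 * ε) ^ 2 * g / L + Real.sqrt (2 * L * S) ^ 2 * g ^ 2 / L ^ 2
        + (1 + T) * (2 * ε) ^ 2 * Real.sqrt (2 * L * S) ^ 2 * g / L ^ 2))
    (hjump : ∀ u ∈ R, ∀ v ∈ R, u ≠ v →
      |Δ u v| ≤ C * ((2 * ε) ^ 2 + (2 * ε) * Real.sqrt (2 * S * g)))
    (hord : ∀ u ∈ I, ∀ v ∈ I, u ≠ v → Z' u v ≤ excessZ p (g + Δ u v) S (lam * S))
    (hexc : ∀ u ∈ R, ∀ v ∈ R, u ≠ v → ¬ (u ∈ I ∧ v ∈ I) → Z' u v ≤ excessZ p g S (lam * S)) :
    s7avg R Z' ≤ (1 + (excessC p : ℝ) * (40 * C) * κ / L) * excessZ p g S (lam * S) := by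
  have hL0 : 0 < L := by linarith
  have hτ0 : 0 ≤ τ := hT0.trans hT
  have hb : 0 < lam * S := mul_pos hlam0 hS0
  have m1 := hmean.trans (s7br_mean L g X T τ h C ε S hL hg0 hg hX0 hX hT0 hT hh hC hε hS0.le hS1 hinv n1)
  have m2 := hvar.trans (s7br_var L g T τ C ε S hL hg0 hg hT0 hT hC hε hS0.le)
  have m3 := (s7br_jump g C ε S hg0 hg hC hε hS0.le).trans n7
  have key := hExc ι R I p g S (lam * S) (8 * C * ε ^ 2 / L)
    (C * (8 * ε ^ 2 * S + 8 * S ^ 3 + 16 * (1 + τ) * ε ^ 2 * S ^ 2) / L) Δ Z' hp hIR hb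
    (by positivity) (by positivity)
    (fun u hu v hv huv => ⟨(hjump u (hIR hu) v (hIR hv) huv).trans m3, hord u hu v hv huv⟩)
    hexc m1 m2
  refine key.trans (mul_le_mul_of_nonneg_right ?_ ?_)
  · have r := s7br_rate L τ C ε S lam κ hL0 hτ0 hC hS0 hlam0 hlam1 hκ n4 n5 n6
    have r2 := mul_le_mul_of_nonneg_left r (Nat.cast_nonneg (excessC p) : (0 : ℝ) ≤ (excessC p : ℝ))
    have e : (excessC p : ℝ) * (40 * C) * κ / L = (excessC p : ℝ) * (40 * C * κ / L) := by ring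
    rw [e]
    linarith
  · exact le_trans zero_le_one (excessZ_pos p g S (lam * S) hb)

end Alg

/-- **S7-B-STEP-4** contrast rows ((7.58)). -/
theorem s7_bStepCrow (hDer : StS7BDer) (hUpd : StS7Upd) (hFlags : StS7Flags) (hCtr : StS7CtrStep)
    (hLavg : StS7Lavg) (hRow : StS7RowStep) (hExc : StS7ExcStep) (hScore : StS7Score) :
    StS7BStepCrow := by
  intro d par hpar
  obtain ⟨hd, hg, hp, hcp0, hcp1⟩ := id hpar
  have hhmin := s7ag_hmin_pos d hd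
  have hC0 := s7ag_ThS_pos d hd
  obtain ⟨C, ε0, lE, hC, hε0, hE⟩ := hRow (s7hmin d) ((s7ThS d : ℝ) + 1) hhmin hC0
  have hexC : (0 : ℝ) < (excessC par.p : ℝ) := by
    have : 0 < excessC par.p := by unfold excessC; positivity
    exact_mod_cast this
  refine ⟨(excessC par.p : ℝ) * (40 * C), by positivity, ?_⟩
  filter_upwards [hDer d par hpar, s7br_numC hg C (min ε0 (1 / 16)) hC.le (by positivity) (max lE 15)]
    with n hder hnum
  obtain ⟨hn1, hεs, hlm, n1, n2, nS1, nl1, n4, n5, n6, n7⟩ := hnum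
  intro φ π₀ π t hstop hinv hl i hi hk
  have hκ0 : (0 : ℝ) < (s7kap par.g n : ℝ) := s7n_cast_pos _ n
  have hl15 : 15 ≤ π.l := by
    have := (le_max_right lE 15).trans hlm
    omega
  have hlE : lE ≤ π.l := by
    have := (le_max_left lE 15).trans hlm
    omega
  have hL : (15 : ℝ) ≤ (π.l : ℝ) := by exact_mod_cast hl15
  refine ⟨by positivity, ?_⟩
  cases i
  case crow j b x y =>
    have hiA := ((hScore d n par φ π₀ π).2.2.2.2.2.2.2.1 _).1 hi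
    have hj : j ≤ Nprim d n par.cp := ((hScore d n par φ π₀ π).2.2.2.2.1 j b x y).1 hiA.1
    have der := hder φ π₀ π t hstop hinv hl.le j hj b
    have cap := hinv.cap j hj b
    have hh0 : 0 < ((prim d n j : ℚ) : ℝ) := lt_of_lt_of_le hhmin der.baseD.h_lo
    have hh1 : ((prim d n j : ℚ) : ℝ) ≤ 3 / 4 := der.baseD.h_hi
    have hh2 : ((prim d n j : ℚ) : ℝ) ^ 2 ≤ 1 := by nlinarith
    have hZ := (hLavg n d π (s7ZB ℝ d n par φ π₀ (.crow j b x y))).1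
    have e0 : (s7PhaseB ℝ d n par φ π₀).avg (.crow j b x y) π
        = s7avg π.unres (fun u v => s7ZB ℝ d n par φ π₀ (.crow j b x y) (π.resolve u v)) := hZ
    rw [e0]
    have hcard : 2 ≤ π.unres.card := by show 2 ≤ π.l; omega
    have hfl : ∀ u ∈ π.unres, ∀ v ∈ π.unres, u ≠ v →
        ∀ z, (π.resolve u v).Unres z ↔ π.Unres z ∧ z ≠ u ∧ z ≠ v := by
      intro u hu v hv huv
      exact (hFlags n d π₀ π (s7t0 d n) u v (Finset.mem_filter.1 hu).2 (Finset.mem_filter.1 hv).2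
        huv).1
    have hb : (0 : ℝ) < (s7lam par.g n : ℝ) * (s7GS par.g n : ℝ) :=
      mul_pos (s7n_cast_pos _ n) (s7n_cast_pos _ n)
    have hbc : (((s7lam par.g n * s7GS par.g n : ℚ)) : ℝ)
        = (s7lam par.g n : ℝ) * (s7GS par.g n : ℝ) := by push_cast; ring
    by_cases hal : π.Unres x ∧ π.Unres y ∧ x ≠ y
    · -- the label is alive
      have hZ0 : (s7PhaseB ℝ d n par φ π₀).Z (.crow j b x y) π
          = excessZ par.p (s7sq (s7D π (sgn b) ((prim d n j : ℚ) : ℝ) *ᵥ s7ctr ℝ x y))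
            (s7GS par.g n : ℝ) ((s7lam par.g n : ℝ) * (s7GS par.g n : ℝ)) := by
        show (if π.Unres x ∧ π.Unres y ∧ x ≠ y then
          excessZ par.p (s7sq (s7D π (sgn b) ((prim d n j : ℚ) : ℝ) *ᵥ s7ctr ℝ x y))
            ((s7GS par.g n : ℚ) : ℝ) (((s7lam par.g n * s7GS par.g n : ℚ)) : ℝ) else 0) = _
        rw [if_pos hal, hbc]
      rw [hZ0]
      have row := hE (Stub n d) (sgn b) ((prim d n j : ℚ) : ℝ) (s7eps n : ℝ) π.unres
        (s7D π (sgn b) ((prim d n j : ℚ) : ℝ)) der.baseD (hεs.trans (min_le_left _ _)) hlE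
        (s7sub π.unres x y) (s7D π (sgn b) ((prim d n j : ℚ) : ℝ) *ᵥ s7ctr ℝ x y)
        (Real.sqrt (2 * (π.l : ℝ) * (s7GS par.g n : ℝ))) (2 * (s7GS par.g n : ℝ))
        (2 * (s7eps n : ℝ)) s7br_allowed (s7br_cent der.baseD.cent _) der.opD der.rowG
        (fun z => by
          rw [s7br_mulVec_ctr]
          have a1 := der.baseD.ent z x
          have a2 := der.baseD.ent z y
          have a3 := abs_sub (s7D π (sgn b) ((prim d n j : ℚ) : ℝ) z x)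
            (s7D π (sgn b) ((prim d n j : ℚ) : ℝ) z y)
          linarith)
        (by
          have := hεs.trans (min_le_right _ _)
          linarith)
      refine s7br_coreC hExc π.unres (s7sub π.unres x y) par.p
        (fun u v => s7sq (s7rstep (sgn b) ((prim d n j : ℚ) : ℝ) π.unres
            (s7D π (sgn b) ((prim d n j : ℚ) : ℝ))
            (s7D π (sgn b) ((prim d n j : ℚ) : ℝ) *ᵥ s7ctr ℝ x y) 0 u v)
          - s7sq (s7D π (sgn b) ((prim d n j : ℚ) : ℝ) *ᵥ s7ctr ℝ x y)) _ (π.l : ℝ)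
        (s7sq (s7D π (sgn b) ((prim d n j : ℚ) : ℝ) *ᵥ s7ctr ℝ x y))
        (s7X (s7D π (sgn b) ((prim d n j : ℚ) : ℝ))) (s7T (s7D π (sgn b) ((prim d n j : ℚ) : ℝ)))
        (s7TcapB par.g n : ℝ) ((prim d n j : ℚ) : ℝ) C (s7eps n : ℝ) (s7GS par.g n : ℝ)
        (s7lam par.g n : ℝ) (s7kap par.g n : ℝ) hp.1 s7br_allowed.1 rfl (by linarith)
        (s7t_sq_nonneg _) (cap.crow x y hal.1 hal.2.1 hal.2.2) (s7t_X_nonneg der.baseD.symm) der.xD
        (s7t_T_nonneg _) cap.dgT hh2 hC.le (s7n_cast_pos _ n).le (s7n_cast_pos _ n) nS1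
        (n2 _ (by exact_mod_cast hl.le)) (s7n_cast_pos _ n) nl1 hκ0.le n1 n4 n5 n6 n7
        row.1 row.2.1 row.2.2 ?_ ?_
      · -- ordinary events
        intro u hu v hv huv
        obtain ⟨huR, hux, huy⟩ := s7br_mem_sub.1 hu
        obtain ⟨hvR, hvx, hvy⟩ := s7br_mem_sub.1 hv
        have hu' : π.Unres u := (Finset.mem_filter.1 huR).2
        have hv' : π.Unres v := (Finset.mem_filter.1 hvR).2
        have up := hUpd n d π₀ π φ (Lcut d n) (sgn b) ((prim d n j : ℚ) : ℝ) u v (by omega) hinv.ext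
          hu' hv' huv (by omega) der.sig hh0 hh1 (hinv.pos j hj b)
          (fun x y => (der.baseD.ent x y).trans (hεs.trans (min_le_right _ _))) der.refAt.unit
          (fun x y => (der.baseDh.ent x y).trans (hεs.trans (min_le_right _ _)))
        have upD := up.2.2.2.2.2.1
        have hal' : (π.resolve u v).Unres x ∧ (π.resolve u v).Unres y ∧ x ≠ y :=
          ⟨(hfl u huR v hvR huv x).2 ⟨hal.1, hux.symm, hvx.symm⟩,
            (hfl u huR v hvR huv y).2 ⟨hal.2.1, huy.symm, hvy.symm⟩, hal.2.2⟩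
        have hxs : x ∈ s7sub π.unres u v :=
          s7br_mem_sub.2 ⟨Finset.mem_filter.2 ⟨Finset.mem_univ _, hal.1⟩, hux.symm, hvx.symm⟩
        have hys : y ∈ s7sub π.unres u v :=
          s7br_mem_sub.2 ⟨Finset.mem_filter.2 ⟨Finset.mem_univ _, hal.2.1⟩, huy.symm, hvy.symm⟩
        refine le_of_eq ?_
        show (if (π.resolve u v).Unres x ∧ (π.resolve u v).Unres y ∧ x ≠ y then
          excessZ par.p (s7sq (s7D (π.resolve u v) (sgn b) ((prim d n j : ℚ) : ℝ) *ᵥ s7ctr ℝ x y))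
            ((s7GS par.g n : ℚ) : ℝ) (((s7lam par.g n * s7GS par.g n : ℚ)) : ℝ) else 0) = _
        rw [if_pos hal', hbc, upD, hCtr ℝ (Stub n d) _ _ _ _ u v x y hxs hys, add_sub_cancel]
      · -- the label dies
        intro u hu v hv huv hnot
        have hdead : ¬ ((π.resolve u v).Unres x ∧ (π.resolve u v).Unres y ∧ x ≠ y) := by
          rintro ⟨h1, h2, -⟩
          obtain ⟨-, hxu, hxv⟩ := (hfl u hu v hv huv x).1 h1
          obtain ⟨-, hyu, hyv⟩ := (hfl u hu v hv huv y).1 h2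
          exact hnot ⟨s7br_mem_sub.2 ⟨hu, hxu.symm, hyu.symm⟩, s7br_mem_sub.2 ⟨hv, hxv.symm, hyv.symm⟩⟩
        have : s7ZB ℝ d n par φ π₀ (.crow j b x y) (π.resolve u v) = 0 := by
          show (if (π.resolve u v).Unres x ∧ (π.resolve u v).Unres y ∧ x ≠ y then
            excessZ par.p (s7sq (s7D (π.resolve u v) (sgn b) ((prim d n j : ℚ) : ℝ) *ᵥ s7ctr ℝ x y))
              ((s7GS par.g n : ℚ) : ℝ) (((s7lam par.g n * s7GS par.g n : ℚ)) : ℝ) else 0) = _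
          rw [if_neg hdead]
        rw [this]
        exact le_trans zero_le_one (excessZ_pos _ _ _ _ hb)
    · -- the label is dead
      have hZ0 : (s7PhaseB ℝ d n par φ π₀).Z (.crow j b x y) π = 0 := by
        show (if π.Unres x ∧ π.Unres y ∧ x ≠ y then
          excessZ par.p (s7sq (s7D π (sgn b) ((prim d n j : ℚ) : ℝ) *ᵥ s7ctr ℝ x y))
            ((s7GS par.g n : ℚ) : ℝ) (((s7lam par.g n * s7GS par.g n : ℚ)) : ℝ) else 0) = _
        rw [if_neg hal]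
      rw [hZ0, mul_zero]
      refine le_of_eq ?_
      rw [← s7t_avg_const hcard (0 : ℝ)]
      refine s7t_avg_congr (fun u hu v hv huv => ?_)
      have hdead : ¬ ((π.resolve u v).Unres x ∧ (π.resolve u v).Unres y ∧ x ≠ y) := by
        rintro ⟨h1, h2, h3⟩
        exact hal ⟨((hfl u hu v hv huv x).1 h1).1, ((hfl u hu v hv huv y).1 h2).1, h3⟩
      show (if (π.resolve u v).Unres x ∧ (π.resolve u v).Unres y ∧ x ≠ y then
        excessZ par.p (s7sq (s7D (π.resolve u v) (sgn b) ((prim d n j : ℚ) : ℝ) *ᵥ s7ctr ℝ x y))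
          ((s7GS par.g n : ℚ) : ℝ) (((s7lam par.g n * s7GS par.g n : ℚ)) : ℝ) else 0) = _
      rw [if_neg hdead]
  all_goals exact absurd hk (by simp [S7Lab.kind])

end Claimed.Agent.R275
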