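import Claimed.Agent.R275.S7PhaseB
import Claimed.Agent.R275.S7Num
import Claimed.Agent.R275.S7Tools

/-!
# Row 275, Section 7, Phase B: tools shared by the leaves S7-B-STEP-GROW and S7-B-STEP-ENT

Prover: helper127.  Prefix `s7bt_`.

* `s7btP l n` = the product of the scales `n^x`, `x ∈ l`; `s7bt_ev`: comparison of two monomials in the scales;
* `s7bt_inv_l`: `1/l ≤ ε` for `l ≥ l₃`;
* `s7bt_lab5`, `s7bt_lab6`: the labels of kind 5 and 6 of Phase B.
-/

set_option autoImplicit false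
set_option linter.unusedSectionVars false
set_option linter.unusedVariables false

namespace Claimed.Agent.R275

open Matrix Filter

/-! ## products of scales -/

/-- the product of the scales with exponents in the list `l` -/
noncomputable def s7btP (l : List ℚ) (n : ℕ) : ℝ := (l.map fun x => (scQ x n : ℝ)).prod

theorem s7btP_forced : True := by
  have := @s7btP.eq_1
  have := @s7btP.eq_def
  trivial

theorem s7btP_nil (n : ℕ) : s7btP [] n = 1 := rfl

theorem s7btP_cons (x : ℚ) (l : List ℚ) (n : ℕ) : s7btP (x :: l) n = (scQ x n : ℝ) * s7btP l n := by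
  simp [s7btP]

theorem s7btP_pos (l : List ℚ) (n : ℕ) : 0 < s7btP l n := by
  induction l with
  | nil => rw [s7btP_nil]; exact one_pos
  | cons x l ih => rw [s7btP_cons]; exact mul_pos (s7n_cast_pos x n) ih

theorem s7btP_le (l : List ℚ) (n : ℕ) : s7btP l n ≤ (scQ l.sum n : ℝ) := by
  induction l with
  | nil =>
    rw [s7btP_nil, List.sum_nil, s7n_scQ_zero]; simp
  | cons x l ih =>
    rw [s7btP_cons, List.sum_cons]
    have h1 : (scQ x n : ℝ) * (scQ l.sum n : ℝ) ≤ (scQ (x + l.sum) n : ℝ) := by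
      exact_mod_cast s7n_scQ_mul_le x l.sum n
    exact (mul_le_mul_of_nonneg_left ih (s7n_cast_pos x n).le).trans h1

theorem s7btP_ge (l : List ℚ) (n : ℕ) : (scQ l.sum n : ℝ) ≤ 2 ^ l.length * s7btP l n := by
  induction l with
  | nil =>
    rw [s7btP_nil, List.sum_nil, s7n_scQ_zero]; simp
  | cons x l ih =>
    rw [s7btP_cons, List.sum_cons, List.length_cons]
    have h1 : (scQ (x + l.sum) n : ℝ) ≤ 2 * ((scQ x n : ℝ) * (scQ l.sum n : ℝ)) := by
      exact_mod_cast s7n_scQ_add_le x l.sum n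
    have h2 := mul_le_mul_of_nonneg_left ih (s7n_cast_pos x n).le
    calc (scQ (x + l.sum) n : ℝ) ≤ 2 * ((scQ x n : ℝ) * (scQ l.sum n : ℝ)) := h1
      _ ≤ 2 * ((scQ x n : ℝ) * (2 ^ l.length * s7btP l n)) := by linarith
      _ = 2 ^ (l.length + 1) * ((scQ x n : ℝ) * s7btP l n) := by ring

/-- **comparison of monomials in the scales**: `C ∏ n^{x_i} ≤ ∏ n^{y_j}` eventually if `∑ x_i < ∑ y_j`. -/
theorem s7bt_ev (l₁ l₂ : List ℚ) (h : l₁.sum < l₂.sum) (C : ℝ) :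
    ∀ᶠ n : ℕ in atTop, C * s7btP l₁ n ≤ s7btP l₂ n := by
  have h0 : ∀ᶠ n : ℕ in atTop,
      (|C| * 2 ^ l₂.length) * (scQ l₁.sum n : ℝ) ≤ (scQ l₂.sum n : ℝ) := by
    filter_upwards [s7n_scQ_lt h (|C| * 2 ^ l₂.length) 0] with n hn
    simpa using hn
  filter_upwards [h0] with n hn
  have h1 := s7btP_le l₁ n
  have h2 := s7btP_ge l₂ n
  have h3 := s7btP_pos l₁ n
  have h4 : (0 : ℝ) < 2 ^ l₂.length := by positivity
  have h5 : 2 ^ l₂.length * (C * s7btP l₁ n) ≤ 2 ^ l₂.length * s7btP l₂ n := by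
    calc 2 ^ l₂.length * (C * s7btP l₁ n) ≤ 2 ^ l₂.length * (|C| * s7btP l₁ n) :=
          mul_le_mul_of_nonneg_left (mul_le_mul_of_nonneg_right (le_abs_self C) h3.le) h4.le
      _ ≤ 2 ^ l₂.length * (|C| * (scQ l₁.sum n : ℝ)) :=
          mul_le_mul_of_nonneg_left (mul_le_mul_of_nonneg_left h1 (abs_nonneg C)) h4.le
      _ = |C| * 2 ^ l₂.length * (scQ l₁.sum n : ℝ) := by ring
      _ ≤ (scQ l₂.sum n : ℝ) := hn
      _ ≤ _ := h2
  exact le_of_mul_le_mul_left h5 h4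

theorem s7bt_le_one {x : ℚ} (h : x ≤ 0) (n : ℕ) : (scQ x n : ℝ) ≤ 1 := by
  exact_mod_cast s7n_scQ_le_one h n

theorem s7bt_one_le {x : ℚ} (h : 0 ≤ x) (n : ℕ) : (1 : ℝ) ≤ (scQ x n : ℝ) := by
  exact_mod_cast s7n_one_le_scQ h n

/-! ## `1/l ≤ ε` -/

theorem s7bt_inv_l (n l : ℕ) (hl : s7l3 n ≤ l) : 1 / (l : ℝ) ≤ (s7eps n : ℝ) := by
  have h1 : (s7l3 n : ℚ) ≤ (l : ℚ) := by exact_mod_cast hl
  rw [s7n_l3] at h1
  have h2 := s7n_scQ_inv_le s7chi n
  have p1 := scQ_pos s7chi n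
  have h3 : 1 / (l : ℚ) ≤ s7eps n := by
    have e : s7eps n = scQ (-s7chi) n := rfl
    rw [e]
    calc 1 / (l : ℚ) ≤ 1 / (2 * scQ s7chi n) :=
          div_le_div_of_nonneg_left zero_le_one (by positivity) h1
      _ = (scQ s7chi n)⁻¹ / 2 := by field_simp
      _ ≤ _ := by linarith
  have h4 : ((1 / (l : ℚ) : ℚ) : ℝ) ≤ ((s7eps n : ℚ) : ℝ) := Rat.cast_le.2 h3
  push_cast at h4
  exact h4

/-! ## labels -/

theorem s7bt_lab5 {n d : ℕ} {cp : ℚ} (i : S7Lab n d) (hi : i ∈ s7labsB n d cp) (hk : i.kind = 5) :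
    ∃ j b i₀, i = .grow j b i₀ ∧ j ≤ Nprim d n cp := by
  cases i with
  | grow j b i₀ =>
    refine ⟨j, b, i₀, rfl, ?_⟩
    simp only [s7labsB, s7famDgT, s7famCrow, s7famGrow, s7famEnt,
      s7pts, List.mem_append, List.mem_map, List.mem_flatMap, List.mem_range] at hi
    simp at hi
    omega
  | nrm _ _ => simp [S7Lab.kind] at hk
  | trY _ _ _ => simp [S7Lab.kind] at hk
  | dgT _ _ _ => simp [S7Lab.kind] at hk
  | gap _ _ => simp [S7Lab.kind] at hk
  | crow _ _ _ _ => simp [S7Lab.kind] at hk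
  | ent _ _ _ _ _ => simp [S7Lab.kind] at hk

theorem s7bt_lab6 {n d : ℕ} {cp : ℚ} (i : S7Lab n d) (hi : i ∈ s7labsB n d cp) (hk : i.kind = 6) :
    ∃ j b s a c, i = .ent j b s a c ∧ j ≤ Nprim d n cp := by
  cases i with
  | ent j b s a c =>
    refine ⟨j, b, s, a, c, rfl, ?_⟩
    simp only [s7labsB, s7famDgT, s7famCrow, s7famGrow, s7famEnt,
      s7pts, List.mem_append, List.mem_map, List.mem_flatMap, List.mem_range] at hi
    simp at hi
    omega
  | nrm _ _ => simp [S7Lab.kind] at hk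
  | trY _ _ _ => simp [S7Lab.kind] at hk
  | dgT _ _ _ => simp [S7Lab.kind] at hk
  | gap _ _ => simp [S7Lab.kind] at hk
  | crow _ _ _ _ => simp [S7Lab.kind] at hk
  | grow _ _ _ => simp [S7Lab.kind] at hk

theorem s7bt_hmin (d : ℕ) (hd : 3 ≤ d) : 0 < s7hmin d := by
  unfold s7hmin
  have : (3 : ℝ) ≤ d := by exact_mod_cast hd
  have h1 : 0 < Real.sqrt ((d : ℝ) - 1) := Real.sqrt_pos.2 (by linarith)
  positivity

theorem s7bt_ThS (d : ℕ) (hd : 3 ≤ d) : (1 : ℝ) ≤ (s7ThS d : ℝ) + 1 := by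
  have h1 : (0 : ℚ) ≤ s7ThS d := by
    unfold s7ThS
    have : (3 : ℚ) ≤ d := by exact_mod_cast hd
    linarith
  have h2 : (0 : ℝ) ≤ (s7ThS d : ℝ) := by exact_mod_cast h1
  linarith

end Claimed.Agent.R275
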