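import Claimed.Agent.R275.S7ContB

/-!
# Row 275, Section 7, package S7-BRIDGE: the vertex-level update acts on the stub compression by the abstract step

Proof of `StS7Bridge` (statement: `S7Cont.lean`, helper245).  Owner of this file: helper8.

ROUTE.  `U = Ξ I`, `G₀ = Iᵀ Π_S I`, `Ξ' = Ξ Q`, `Q = Π_{S'} = s7Pi (s7sub S u v)`, `Π_S Q = Q = Q Π_S`, `Q I = 0`; with
`Γ = Ξᵀ X Ξ = D + Π_S` and `T = I H Iᵀ` everything is algebra in the ring of stub matrices (`s7br_ring`).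
-/

set_option autoImplicit false
set_option linter.unusedVariables false
set_option linter.unusedSectionVars false

namespace Claimed.Agent.R275

open Matrix

/-! ## selection matrices -/

section Sel

variable {ι α : Type*} [Fintype ι] [DecidableEq ι] {K : Type*} [Field K]

theorem s7br_mul_I (M : Matrix α ι K) (u v : ι) (w : α) (k : Fin 2) :
    (M * s7I K u v) w k = M w (if k = 0 then u else v) := by
  rw [Matrix.mul_apply]
  by_cases hk : k = 0
  · simp [s7I, hk]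
  · simp [s7I, hk]

theorem s7br_IT_mul (M : Matrix ι α K) (u v : ι) (k : Fin 2) (w : α) :
    ((s7I K u v)ᵀ * M) k w = M (if k = 0 then u else v) w := by
  rw [Matrix.mul_apply]
  by_cases hk : k = 0
  · simp [s7I, hk]
  · simp [s7I, hk]

theorem s7br_blk (D : Matrix ι ι K) (u v : ι) : (s7I K u v)ᵀ * D * s7I K u v = s7blk D u v := by
  ext a b
  rw [s7br_mul_I, s7br_IT_mul]
  rfl

theorem s7br_pv (r : ι → K) (u v : ι) : (s7I K u v)ᵀ *ᵥ r = s7pv r u v := by
  ext k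
  simp only [Matrix.mulVec, dotProduct, Matrix.transpose_apply, s7I, s7pv]
  by_cases hk : k = 0
  · simp [hk]
  · simp [hk]

theorem s7br_Pi_mul_I (R : Finset ι) {u v : ι} (hu : u ∉ R) (hv : v ∉ R) : s7Pi K R * s7I K u v = 0 := by
  ext x k
  rw [s7br_mul_I]
  by_cases hk : k = 0
  · simp [s7Pi, hk, hu]
  · simp [s7Pi, hk, hv]

theorem s7br_IT_mul_Pi (R : Finset ι) {u v : ι} (hu : u ∉ R) (hv : v ∉ R) :
    (s7I K u v)ᵀ * s7Pi K R = 0 := by
  ext k x
  rw [s7br_IT_mul]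
  by_cases hk : k = 0
  · simp [s7Pi, hk, hu]
  · simp [s7Pi, hk, hv]

end Sel

/-- the ring identity behind (7.44) -/
theorem s7br_ring {R : Type*} [Ring R] {Q P D T : R} (hQP : Q * P = Q) (hPQ : P * Q = Q) (hQQ : Q * Q = Q)
    (hQT : Q * T = 0) (hTQ : T * Q = 0) :
    Q * ((D + P) - (D + P) * T * (D + P)) * Q - Q = Q * (D - D * T * D) * Q := by
  linear_combination (norm := noncomm_ring) hQP * Q + hQQ - Q * D * T * hPQ - Q * D * hTQ - hQP * T * D * Q -
    hQT * D * Q - hQP * T * P * Q - hQT * P * Q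

namespace PPair

variable {n d : ℕ} (π : PPair n d) (K : Type*) [Field K] [CharZero K]

theorem s7br_mem_unres (z : Stub n d) : z ∈ π.unres ↔ π.Unres z := by
  simp [unres]

theorem s7br_PiS : π.PiS K = s7Pi K π.unres := by
  ext x y
  simp only [PiS, s7Pi, s7br_mem_unres, l]

variable {π}

theorem s7br_Upair {u v : Stub n d} (hu : π.Unres u) (hv : π.Unres v) :
    π.Upair K u v = π.Xi K * s7I K u v := by
  ext w k
  rw [s7br_mul_I]
  by_cases hk : k = 0
  · simp [Upair, Xi, hk, hu]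
  · simp [Upair, Xi, hk, hv]

theorem s7br_G0 {u v : Stub n d} (hu : π.Unres u) (hv : π.Unres v) (huv : u ≠ v) :
    G0 K π.l = (s7I K u v)ᵀ * π.PiS K * s7I K u v := by
  rw [s7br_blk]
  ext a b
  fin_cases a <;> fin_cases b <;> simp [G0, J2, s7blk, PiS, hu, hv, huv, huv.symm]

theorem s7br_ext {u v : Stub n d} (hu : π.Unres u) (hv : π.Unres v) : π.Ext (π.resolve u v) := by
  intro x hx
  rw [resolve_mate hu hv]
  have h1 : x ≠ u := fun e => hx (e ▸ hu)
  have h2 : x ≠ v := fun e => hx (e ▸ hv)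
  simp [h1, h2]

end PPair

/-- **S7-CONT-11** -/
theorem s7Bridge : StS7Bridge := by
  intro K _ _ n d π X σ h u v hu hv huv hl hX
  -- notation
  set Ξ := π.Xi K with hΞ
  set I := s7I K u v with hI
  set D := s7Dof π X with hD
  set Q := s7Pi K (s7sub π.unres u v) with hQ
  set H := s7H π.l σ h D u v with hH
  have hU : π.Upair K u v = Ξ * I := PPair.s7br_Upair K hu hv
  have hΓ : Ξᵀ * X * Ξ = D + π.PiS K := by rw [hD, s7Dof, sub_add_cancel]
  -- (a)
  have ha : π.blk X u v - G0 K π.l = s7blk D u v := by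
    rw [PPair.blk, hU, PPair.s7br_G0 K hu hv huv, ← s7br_blk, hD, s7Dof, Matrix.mul_sub, Matrix.sub_mul,
      Matrix.transpose_mul]
    simp only [Matrix.mul_assoc]
    rfl
  -- the update
  have hupd : s7upd π X σ h u v = X - X * Ξ * (I * H * Iᵀ) * Ξᵀ * X := by
    rw [s7upd, ha, hU, Matrix.transpose_mul]
    simp only [Matrix.mul_assoc]
    rfl
  -- the new pairing
  have hE := PPair.s7br_ext (π := π) hu hv
  obtain ⟨-, -, -, -, -, hPQ0, hXi'⟩ := s7PtAlg K n d π (π.resolve u v) hE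
  have hQ' : (π.resolve u v).PiS K = Q := by
    rw [PPair.s7br_PiS, PPair.resolve_unres hu hv huv]
    rfl
  rw [hQ'] at hPQ0 hXi'
  have hQt : Qᵀ = Q := by rw [← hQ', PPair.s7ctb_PiS_transpose]
  have hQQ : Q * Q = Q := by rw [← hQ', PPair.s7ctb_PiS_idem]
  have hQP : Q * π.PiS K = Q := by
    have h1 := congrArg Matrix.transpose hPQ0
    rwa [Matrix.transpose_mul, hQt, PPair.s7ctb_PiS_transpose] at h1
  have hu' : u ∉ s7sub π.unres u v := by simp [s7sub]
  have hv' : v ∉ s7sub π.unres u v := by simp [s7sub]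
  have hQI : Q * I = 0 := s7br_Pi_mul_I _ hu' hv'
  have hIQ : Iᵀ * Q = 0 := s7br_IT_mul_Pi _ hu' hv'
  have hQT : Q * (I * H * Iᵀ) = 0 := by rw [← Matrix.mul_assoc, ← Matrix.mul_assoc, hQI, Matrix.zero_mul, Matrix.zero_mul]
  have hTQ : (I * H * Iᵀ) * Q = 0 := by rw [Matrix.mul_assoc, hIQ, Matrix.mul_zero]
  have hcard : π.unres.card = π.l := rfl
  refine ⟨ha, ?_, ?_, ?_⟩
  · -- (b)
    rw [s7Dof, hQ', hXi', hupd, s7Dstep, s7Dpre, hcard]
    have h1 : (Ξ * Q)ᵀ * (X - X * Ξ * (I * H * Iᵀ) * Ξᵀ * X) * (Ξ * Q) =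
        Q * ((Ξᵀ * X * Ξ) - (Ξᵀ * X * Ξ) * (I * H * Iᵀ) * (Ξᵀ * X * Ξ)) * Q := by
      rw [Matrix.transpose_mul, hQt]
      simp only [Matrix.mul_sub, Matrix.sub_mul, Matrix.mul_assoc]
    rw [h1, hΓ, s7br_ring hQP hPQ0 hQQ hQT hTQ]
    simp only [Matrix.mul_assoc]
    rfl
  · -- (c)
    intro i
    have hr : ∀ (ρ : PPair n d) (Y : Matrix (Fin n) (Fin n) K), s7row ρ Y i = fun x => ((ρ.Xi K)ᵀ * Y) x i := by
      intro ρ Y
      funext x
      rw [Matrix.mul_apply]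
      rfl
    have hQΓI : Q * (Ξᵀ * X * Ξ) * I = Q * D * I := by
      rw [hΓ, Matrix.mul_add, Matrix.add_mul, hQP, hQI, add_zero]
    have h1 : (Ξ * Q)ᵀ * (X - X * Ξ * (I * H * Iᵀ) * Ξᵀ * X) =
        Q * (Ξᵀ * X - D * I * H * (Iᵀ * (Ξᵀ * X))) := by
      rw [Matrix.transpose_mul, hQt, Matrix.mul_sub, Matrix.mul_sub]
      congr 1
      · rw [Matrix.mul_assoc]
      · calc Q * Ξᵀ * (X * Ξ * (I * H * Iᵀ) * Ξᵀ * X)
            = (Q * (Ξᵀ * X * Ξ) * I) * H * (Iᵀ * (Ξᵀ * X)) := by simp only [Matrix.mul_assoc]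
          _ = _ := by rw [hQΓI]; simp only [Matrix.mul_assoc]
    have hz : ∀ f : Fin 2 → K, (f - fun _ => (0 : K)) = f := fun f => by
      funext k
      simp
    rw [hr, hXi', hupd, h1, s7rstep, hcard, hz, ← s7br_pv, hr]
    funext x
    rw [Matrix.mul_apply]
    simp only [Matrix.mulVec, dotProduct]
    refine Finset.sum_congr rfl fun y _ => ?_
    congr 1
  · -- (d)
    intro i j
    have hV : X * Ξ * I = (Iᵀ * (Ξᵀ * X))ᵀ := by
      rw [Matrix.transpose_mul, Matrix.transpose_mul, Matrix.transpose_transpose, Matrix.transpose_transpose, hX,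
        Matrix.mul_assoc]
    have hpv : ∀ i, s7pv (s7row π X i) u v = fun k => (Iᵀ * (Ξᵀ * X)) k i := by
      intro i
      rw [← s7br_pv]
      funext k
      rw [Matrix.mul_apply]
      simp only [Matrix.mulVec, dotProduct]
      refine Finset.sum_congr rfl fun x _ => ?_
      congr 1
    have h1 : X * Ξ * (I * H * Iᵀ) * Ξᵀ * X = (Iᵀ * (Ξᵀ * X))ᵀ * (H * (Iᵀ * (Ξᵀ * X))) := by
      rw [← hV]
      simp only [Matrix.mul_assoc]
    rw [hupd, Matrix.sub_apply, h1, hpv, hpv, s7q, Matrix.mul_apply]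
    congr 1

end Claimed.Agent.R275
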