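import Claimed.Agent.R275.S7Defs

/-!
# Row 275, Section 7, package S7-COEF: Lemma 7.3 (`lem:boundary-pair-averages`), statements

Owner of the statements: helper245.  Only `def St… : Prop`, no sorry.  A prover of a leaf `StS7Foo` creates a NEW file
`R275/S7Foo.lean` with `theorem s7_foo : StS7Foo`.

Notation: `l = |R|`, `a = D u u`, `b = D v v`, `c = D u v`, `κ = σ / h`.  The infinite word expansions of the paper are replaced
by the EXPLICIT inverse of the `2 × 2` matrix `H₀⁻¹ + A` and by the exact identity `H = H₀ - H₀ A H₀ + H₀ A H A H₀`: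
`H₀⁻¹ = -κ (F - J/l)`,  `H₀⁻¹ + A = [[a + κ/l, c - κ(1-1/l)], [c - κ(1-1/l), b + κ/l]]`,
`Δ = (a + κ/l)(b + κ/l) - (c - κ(1-1/l))²  (≈ -κ²)`,
`H = Δ⁻¹ [[b + κ/l, κ(1-1/l) - c], [κ(1-1/l) - c, a + κ/l]]`.
-/

set_option autoImplicit false

namespace Claimed.Agent.R275

open Matrix

/-! ## Exact algebra (any field of characteristic zero) -/

/-- determinant of `H₀⁻¹ + A` -/
def s7Det {K : Type*} [Field K] (l : ℕ) (σ h a b c : K) : K :=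
  (a + σ * h⁻¹ / l) * (b + σ * h⁻¹ / l) - (c - σ * h⁻¹ * (1 - 1 / (l : K))) ^ 2

/-- **S7-COEF-1** explicit `H`. -/
def StS7HExplicit : Prop :=
  ∀ (K : Type) [Field K] [CharZero K] (ι : Type) [Fintype ι] [DecidableEq ι] (l : ℕ) (σ h : K)
    (D : Matrix ι ι K) (u v : ι), 2 < l → σ ^ 2 = 1 → h ≠ 0 → D v u = D u v →
    s7Det l σ h (D u u) (D v v) (D u v) ≠ 0 →
    IsUnit ((H0 l σ h)⁻¹ + s7blk D u v) ∧
    s7H l σ h D u v 0 0 = (D v v + σ * h⁻¹ / l) / s7Det l σ h (D u u) (D v v) (D u v) ∧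
    s7H l σ h D u v 1 1 = (D u u + σ * h⁻¹ / l) / s7Det l σ h (D u u) (D v v) (D u v) ∧
    s7H l σ h D u v 0 1 =
      (σ * h⁻¹ * (1 - 1 / (l : K)) - D u v) / s7Det l σ h (D u u) (D v v) (D u v) ∧
    s7H l σ h D u v 1 0 = s7H l σ h D u v 0 1

/-- **S7-COEF-2** second order resolvent identities. -/
def StS7HResolvent : Prop :=
  ∀ (K : Type) [Field K] [CharZero K] (ι : Type) [Fintype ι] [DecidableEq ι] (l : ℕ) (σ h : K)
    (D : Matrix ι ι K) (u v : ι), 2 < l → σ ^ 2 = 1 → h ≠ 0 →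
    IsUnit ((H0 l σ h)⁻¹ + s7blk D u v) →
    s7N1 l σ h D u v = -(H0 l σ h * s7blk D u v * s7H l σ h D u v) ∧
    s7N1 l σ h D u v = -(s7H l σ h D u v * s7blk D u v * H0 l σ h) ∧
    s7N2 l σ h D u v = H0 l σ h * s7blk D u v * s7H l σ h D u v * s7blk D u v * H0 l σ h

/-- **S7-COEF-3** difference of two coefficients: `H - Ĥ = - H (A - Â) Ĥ`. -/
def StS7HDiff : Prop :=
  ∀ (K : Type) [Field K] [CharZero K] (ι : Type) [Fintype ι] [DecidableEq ι] (l : ℕ) (σ h : K)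
    (D D' : Matrix ι ι K) (u v : ι),
    IsUnit ((H0 l σ h)⁻¹ + s7blk D u v) → IsUnit ((H0 l σ h)⁻¹ + s7blk D' u v) →
    s7H l σ h D u v - s7H l σ h D' u v =
      -(s7H l σ h D u v * (s7blk D u v - s7blk D' u v) * s7H l σ h D' u v)

/-- **S7-COEF-4** the general pure-swap identity (contains the four signed identities of Lemma 7.3):
for symmetric `D₁ D₂`, summing over ordered distinct pairs in `I`,
`∑ Tr(F A₁ F A₂) = 2 [ (∑_I D₁uu)(∑_I D₂uu) + ∑_{I×I} D₁uv D₂uv - 2 ∑_I D₁uu D₂uu ]`. -/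
def StS7SwapId : Prop :=
  ∀ (K : Type) [Field K] (ι : Type) [Fintype ι] [DecidableEq ι] (I : Finset ι) (D₁ D₂ : Matrix ι ι K),
    D₁ᵀ = D₁ → D₂ᵀ = D₂ →
    ∑ u ∈ I, ∑ v ∈ I.erase u, (F2 K * s7blk D₁ u v * F2 K * s7blk D₂ u v).trace =
      2 * ((∑ u ∈ I, D₁ u u) * (∑ u ∈ I, D₂ u u) + ∑ u ∈ I, ∑ v ∈ I, D₁ u v * D₂ u v
        - 2 * ∑ u ∈ I, D₁ u u * D₂ u u)

/-- **S7-COEF-5** the restricted single-`A` contraction against two arrays. -/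
def StS7SwapArr : Prop :=
  ∀ (K : Type) [Field K] (ι : Type) [Fintype ι] [DecidableEq ι] (I : Finset ι) (D : Matrix ι ι K)
    (x y : ι → K), Dᵀ = D →
    ∑ u ∈ I, ∑ v ∈ I.erase u, s7q (F2 K * s7blk D u v * F2 K) (s7pv x u v) (s7pv y u v) =
      2 * ((∑ u ∈ I, D u u) * (∑ u ∈ I, x u * y u) + ∑ u ∈ I, ∑ v ∈ I, x u * D u v * y v
        - 2 * ∑ u ∈ I, D u u * x u * y u)

/-- **S7-COEF-6** centred matrices: `E Tr(F B · Iᵀ M I) = 0` over all ordered pairs of `R`, and `E Tr(B · Iᵀ M I) = 2 Tr M/(l-1)`. -/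
def StS7CentId : Prop :=
  ∀ (K : Type) [Field K] [CharZero K] (ι : Type) [Fintype ι] [DecidableEq ι] (R : Finset ι)
    (M : Matrix ι ι K), 2 < R.card → Mᵀ = M → s7Pi K R * M = M →
    s7avg R (fun u v => (F2 K * B2 K R.card * s7blk M u v).trace) = 0 ∧
    s7avg R (fun u v => (B2 K R.card * s7blk M u v).trace) = 2 * M.trace / ((R.card : K) - 1)

/-! ## Pointwise bounds -/

/-- **S7-COEF-7** pointwise bounds of the coefficients (first part of Lemma 7.3). -/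
def StS7CoefPt : Prop :=
  ∀ hmin C0 : ℝ, 0 < hmin → 0 < C0 → ∃ C ε0 : ℝ, ∃ l0 : ℕ, 0 < C ∧ 0 < ε0 ∧
    ∀ (ι : Type) [Fintype ι] [DecidableEq ι] (σ h ε : ℝ) (R : Finset ι) (D : Matrix ι ι ℝ),
    S7Base hmin C0 ε σ h R D → ε ≤ ε0 → l0 ≤ R.card → ∀ u ∈ R, ∀ v ∈ R, u ≠ v →
    IsUnit ((H0 R.card σ h)⁻¹ + s7blk D u v) ∧
    (∀ i j, |s7H R.card σ h D u v i j| ≤ C) ∧
    (s7H R.card σ h D u v)ᵀ = s7H R.card σ h D u v ∧
    |s7H R.card σ h D u v 0 0| ≤ C * (1 / (R.card : ℝ) + |D v v|) ∧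
    |s7H R.card σ h D u v 1 1| ≤ C * (1 / (R.card : ℝ) + |D u u|) ∧
    (∀ i j, |s7N1 R.card σ h D u v i j| ≤ C * ε) ∧
    |s7N1 R.card σ h D u v 0 0| ≤ C * (|D v v| + |D u v| + |D u u| / R.card) ∧
    |s7N1 R.card σ h D u v 1 1| ≤ C * (|D u u| + |D u v| + |D v v| / R.card) ∧
    |s7N1 R.card σ h D u v 0 1| ≤ C * (|D u v| + |D u u| * |D v v| + (|D u u| + |D v v|) / R.card) ∧
    |s7N2 R.card σ h D u v 0 0| ≤ C * ε * (|D v v| + |D u v| + |D u u| / R.card) ∧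
    |s7N2 R.card σ h D u v 1 1| ≤ C * ε * (|D u u| + |D u v| + |D v v| / R.card) ∧
    |s7N2 R.card σ h D u v 0 1| ≤
      C * (ε * |D u v| + |D u u| * |D v v| + ε * (|D u u| + |D v v|) / R.card)

/-! ## Averaged bounds -/

/-- absolute bilinear form of a `2 × 2` kernel against two nonnegative arrays -/
def s7absq {ι : Type*} (N : Matrix (Fin 2) (Fin 2) ℝ) (x y : ι → ℝ) (u v : ι) : ℝ :=
  |N 0 0| * (x u * y u) + |N 1 1| * (x v * y v) + |N 0 1| * (x u * y v) + |N 1 0| * (x v * y u)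

/-- **S7-COEF-8** conditional moments with the first endpoint fixed (partner uniform in `I \ {u}`). -/
def StS7CoefCond : Prop :=
  ∀ hmin C0 : ℝ, 0 < hmin → 0 < C0 → ∃ C ε0 : ℝ, ∃ l0 : ℕ, 0 < C ∧ 0 < ε0 ∧
    ∀ (ι : Type) [Fintype ι] [DecidableEq ι] (σ h ε : ℝ) (R I : Finset ι) (D : Matrix ι ι ℝ),
    S7Base hmin C0 ε σ h R D → ε ≤ ε0 → l0 ≤ R.card → S7Allowed R I → ∀ u ∈ I,
    ∑ v ∈ I.erase u, |s7N1 R.card σ h D u v 0 0| ≤ C * (1 + Real.sqrt (s7T D)) * Real.sqrt R.card ∧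
    ∑ v ∈ I.erase u, |s7N1 R.card σ h D u v 0 1| ≤ C * (1 + Real.sqrt (s7T D)) * Real.sqrt R.card ∧
    ∑ v ∈ I.erase u, |s7N2 R.card σ h D u v 0 0| ≤
      C * ε * (1 + Real.sqrt (s7T D)) * Real.sqrt R.card ∧
    ∑ v ∈ I.erase u, |s7N2 R.card σ h D u v 0 1| ≤
      C * ε * (1 + Real.sqrt (s7T D)) * Real.sqrt R.card ∧
    ∑ v ∈ I.erase u, (s7H R.card σ h D u v 0 0) ^ 2 ≤ C * (1 + s7T D)

/-- **S7-COEF-9** the bilinear rule (text after Lemma 7.3), absolute form. -/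
def StS7Bilin : Prop :=
  ∀ hmin C0 : ℝ, 0 < hmin → 0 < C0 → ∃ C ε0 : ℝ, ∃ l0 : ℕ, 0 < C ∧ 0 < ε0 ∧
    ∀ (ι : Type) [Fintype ι] [DecidableEq ι] (σ h ε : ℝ) (R I : Finset ι) (D : Matrix ι ι ℝ)
      (x y : ι → ℝ),
    S7Base hmin C0 ε σ h R D → ε ≤ ε0 → l0 ≤ R.card → S7Allowed R I →
    (∀ s, 0 ≤ x s) → (∀ s, 0 ≤ y s) →
    s7avg I (fun u v => s7absq (s7N1 R.card σ h D u v) x y u v) ≤
      C * (1 + Real.sqrt (s7T D)) / ((R.card : ℝ) * Real.sqrt R.card) *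
        (Real.sqrt (s7sqOn I x) * Real.sqrt (s7sqOn I y)) ∧
    s7avg I (fun u v => s7absq (s7N2 R.card σ h D u v) x y u v) ≤
      C * ε * (1 + Real.sqrt (s7T D)) / ((R.card : ℝ) * Real.sqrt R.card) *
        (Real.sqrt (s7sqOn I x) * Real.sqrt (s7sqOn I y))

/-- **S7-COEF-10** elementary pair averages of arrays and of the block `A`. -/
def StS7AvgBasic : Prop :=
  ∃ C : ℝ, 0 < C ∧
    ∀ (ι : Type) [Fintype ι] [DecidableEq ι] (R I : Finset ι) (x y : ι → ℝ) (D : Matrix ι ι ℝ),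
    8 ≤ R.card → S7Allowed R I → (∀ s, 0 ≤ x s) → (∀ s, 0 ≤ y s) → Dᵀ = D →
    s7avg I (fun u _ => x u * y u) ≤
      C / R.card * (Real.sqrt (s7sqOn I x) * Real.sqrt (s7sqOn I y)) ∧
    s7avg I (fun u v => x u * y v) ≤
      C / R.card * (Real.sqrt (s7sqOn I x) * Real.sqrt (s7sqOn I y)) ∧
    s7avg I (fun u v => (x u * y v) ^ 2) ≤ C / (R.card : ℝ) ^ 2 * (s7sqOn I x * s7sqOn I y) ∧
    s7avg I (fun u v => D u u ^ 2 + D v v ^ 2 + D u v ^ 2 + D v u ^ 2) ≤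
      C / R.card * (s7T D + s7X D / R.card)

end Claimed.Agent.R275
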