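import Claimed.Agent.R275.S7Coef
import Claimed.Agent.R275.L41D

/-!
# Row 275, Section 7, package S7-COEF-A: the exact `2 × 2` algebra of Lemma 7.3

Proofs by helper86.  Statements in `S7Coef.lean` (helper245).  Helper lemmas: prefix `s7cfa_`.
-/

set_option autoImplicit false

namespace Claimed.Agent.R275

open Matrix

section gen

variable {K : Type*} [Field K]

omit [Field K] in
theorem s7cfa_blk_eq {ι : Type*} (D : Matrix ι ι K) (u v : ι) :
    s7blk D u v = !![D u u, D u v; D v u, D v v] := by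
  ext i j
  fin_cases i <;> fin_cases j <;> simp [s7blk]

theorem s7cfa_F2_eq : F2 K = !![0, 1; 1, 0] := by
  ext i j
  fin_cases i <;> fin_cases j <;> simp [F2]

theorem s7cfa_J2_eq : J2 K = !![1, 1; 1, 1] := by
  ext i j
  fin_cases i <;> fin_cases j <;> simp [J2]

theorem s7cfa_B2_eq (l : ℕ) : B2 K l
    = !![1 + ((l : K) - 2)⁻¹, ((l : K) - 2)⁻¹; ((l : K) - 2)⁻¹, 1 + ((l : K) - 2)⁻¹] := by
  ext i j
  fin_cases i <;> fin_cases j <;> simp [B2, J2]

theorem s7cfa_G0F2_eq (l : ℕ) : G0 K l * F2 K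
    = !![-(l : K)⁻¹, 1 - (l : K)⁻¹; 1 - (l : K)⁻¹, -(l : K)⁻¹] := by
  ext i j
  fin_cases i <;> fin_cases j <;>
    simp [G0, J2, F2, Matrix.mul_apply, Fin.sum_univ_two, Matrix.one_apply]

theorem s7cfa_sum_erase {ι : Type*} [DecidableEq ι] (I : Finset ι) (f : ι → ι → K) :
    ∑ u ∈ I, ∑ v ∈ I.erase u, f u v = ∑ u ∈ I, ∑ v ∈ I, f u v - ∑ u ∈ I, f u u := by
  rw [← Finset.sum_sub_distrib]
  refine Finset.sum_congr rfl (fun u hu => ?_)
  rw [Finset.sum_erase_eq_sub hu]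

end gen

theorem s7cfa_X_eq {K : Type*} [Field K] [CharZero K] {ι : Type*} (l : ℕ) (σ h : K)
    (D : Matrix ι ι K) (u v : ι) (hl : 2 < l) (hσ : σ ^ 2 = 1) (hh : h ≠ 0) :
    (H0 l σ h)⁻¹ + s7blk D u v
      = !![D u u + σ * h⁻¹ / l, D u v - σ * h⁻¹ * (1 - 1 / (l : K));
           D v u - σ * h⁻¹ * (1 - 1 / (l : K)), D v v + σ * h⁻¹ / l] := by
  rw [(PPair.H0_inv hl σ h hσ hh).1, s7cfa_G0F2_eq, s7cfa_blk_eq]
  ext i j
  fin_cases i <;> fin_cases j <;> simp <;> ring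

theorem s7_hExplicit : StS7HExplicit := by
  intro K _ _ ι _ _ l σ h D u v hl hσ hh hsym hdet
  have hX := s7cfa_X_eq l σ h D u v hl hσ hh
  rw [hsym] at hX
  have hd : ((H0 l σ h)⁻¹ + s7blk D u v).det = s7Det l σ h (D u u) (D v v) (D u v) := by
    rw [hX, Matrix.det_fin_two_of, s7Det]
    ring
  have hu : IsUnit ((H0 l σ h)⁻¹ + s7blk D u v) := by
    rw [Matrix.isUnit_iff_isUnit_det, hd]
    exact isUnit_iff_ne_zero.2 hdet
  have hH : s7H l σ h D u v = (s7Det l σ h (D u u) (D v v) (D u v))⁻¹ •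
      !![D v v + σ * h⁻¹ / l, -(D u v - σ * h⁻¹ * (1 - 1 / (l : K)));
         -(D u v - σ * h⁻¹ * (1 - 1 / (l : K))), D u u + σ * h⁻¹ / l] := by
    rw [s7H, Matrix.inv_def, hd, Ring.inverse_eq_inv', hX, Matrix.adjugate_fin_two_of]
  refine ⟨hu, ?_, ?_, ?_, ?_⟩
  · rw [hH]; simp [div_eq_inv_mul]
  · rw [hH]; simp [div_eq_inv_mul]
  · rw [hH]; simp [div_eq_inv_mul]
  · rw [hH]; simp

theorem s7_hResolvent : StS7HResolvent := by
  intro K _ _ ι _ _ l σ h D u v hl hσ hh hu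
  obtain ⟨-, hH0⟩ := PPair.H0_inv hl σ h hσ hh
  have hH0d := (Matrix.isUnit_iff_isUnit_det _).1 hH0
  have hud := (Matrix.isUnit_iff_isUnit_det _).1 hu
  set A := s7blk D u v with hA
  set G := H0 l σ h with hG
  have hHdef : s7H l σ h D u v = (G⁻¹ + A)⁻¹ := rfl
  set H := s7H l σ h D u v with hH
  have e1 : (G⁻¹ + A) * H = 1 := by rw [hHdef]; exact Matrix.mul_nonsing_inv _ hud
  have e2 : H * (G⁻¹ + A) = 1 := by rw [hHdef]; exact Matrix.nonsing_inv_mul _ hud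
  have f1 : G = H + G * A * H := by
    have : G * ((G⁻¹ + A) * H) = G := by rw [e1, Matrix.mul_one]
    rw [← Matrix.mul_assoc, Matrix.mul_add, Matrix.mul_nonsing_inv _ hH0d, Matrix.add_mul,
      Matrix.one_mul] at this
    exact this.symm
  have f2 : G = H + H * A * G := by
    have : (H * (G⁻¹ + A)) * G = G := by rw [e2, Matrix.one_mul]
    rw [Matrix.mul_assoc, Matrix.add_mul, Matrix.nonsing_inv_mul _ hH0d, Matrix.mul_add,
      Matrix.mul_one, ← Matrix.mul_assoc] at this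
    exact this.symm
  have g1 : s7N1 l σ h D u v = -(G * A * H) := by
    rw [s7N1, ← hH, ← hG]
    nth_rewrite 1 [f1]
    abel
  have g2 : s7N1 l σ h D u v = -(H * A * G) := by
    rw [s7N1, ← hH, ← hG]
    nth_rewrite 1 [f2]
    abel
  refine ⟨g1, g2, ?_⟩
  have g3 : s7N2 l σ h D u v = s7N1 l σ h D u v + G * A * G := rfl
  have g4 : H - G = -(H * A * G) := g2
  rw [g3, g1]
  have : G * A * H * A * G = G * A * (H * A * G) := by simp only [Matrix.mul_assoc]
  rw [this]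
  have h5 : H * A * G = G - H := by rw [← neg_inj, ← g4]; abel
  rw [h5, Matrix.mul_sub]
  abel

theorem s7_hDiff : StS7HDiff := by
  intro K _ _ ι _ _ l σ h D D' u v hu hu'
  have hud := (Matrix.isUnit_iff_isUnit_det _).1 hu
  have hud' := (Matrix.isUnit_iff_isUnit_det _).1 hu'
  unfold s7H
  set X := (H0 l σ h)⁻¹ + s7blk D u v with hX
  set Y := (H0 l σ h)⁻¹ + s7blk D' u v with hY
  have e : s7blk D u v - s7blk D' u v = X - Y := by rw [hX, hY]; abel
  rw [e, Matrix.mul_sub, Matrix.sub_mul, Matrix.nonsing_inv_mul _ hud, Matrix.one_mul,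
    Matrix.mul_assoc, Matrix.mul_nonsing_inv _ hud', Matrix.mul_one]
  abel

theorem s7_swapId : StS7SwapId := by
  intro K _ ι _ _ I D₁ D₂ h1 h2
  have s1 : ∀ x y, D₁ x y = D₁ y x := fun x y => by
    conv_lhs => rw [← h1]
    rfl
  have s2 : ∀ x y, D₂ x y = D₂ y x := fun x y => by
    conv_lhs => rw [← h2]
    rfl
  have e : ∀ u v, (F2 K * s7blk D₁ u v * F2 K * s7blk D₂ u v).trace
      = D₁ v v * D₂ u u + D₁ u u * D₂ v v + 2 * (D₁ u v * D₂ u v) := by
    intro u v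
    rw [s7cfa_F2_eq, s7cfa_blk_eq, s7cfa_blk_eq]
    simp [Matrix.trace_fin_two]
    rw [s1 v u, s2 v u]
    ring
  simp only [e]
  rw [s7cfa_sum_erase]
  have a1 : ∑ u ∈ I, ∑ v ∈ I, D₁ v v * D₂ u u = (∑ u ∈ I, D₁ u u) * (∑ u ∈ I, D₂ u u) := by
    rw [Finset.sum_mul_sum, Finset.sum_comm]
  have a2 : ∑ u ∈ I, ∑ v ∈ I, D₁ u u * D₂ v v = (∑ u ∈ I, D₁ u u) * (∑ u ∈ I, D₂ u u) := by
    rw [Finset.sum_mul_sum]
  simp only [Finset.sum_add_distrib]
  rw [a1, a2]
  simp only [← Finset.mul_sum]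
  ring

theorem s7_swapArr : StS7SwapArr := by
  intro K _ ι _ _ I D x y h1
  have s1 : ∀ a b, D a b = D b a := fun a b => by
    conv_lhs => rw [← h1]
    rfl
  have e : ∀ u v, s7q (F2 K * s7blk D u v * F2 K) (s7pv x u v) (s7pv y u v)
      = D v v * (x u * y u) + D u u * (x v * y v) + x u * D u v * y v + x v * D v u * y u := by
    intro u v
    rw [s7cfa_F2_eq, s7cfa_blk_eq]
    simp [s7q, s7pv, Matrix.mulVec, dotProduct, Fin.sum_univ_two]
    rw [s1 v u]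
    ring
  simp only [e]
  rw [s7cfa_sum_erase]
  have a1 : ∑ u ∈ I, ∑ v ∈ I, D v v * (x u * y u) = (∑ u ∈ I, D u u) * (∑ u ∈ I, x u * y u) := by
    rw [Finset.sum_mul_sum, Finset.sum_comm]
  have a2 : ∑ u ∈ I, ∑ v ∈ I, D u u * (x v * y v) = (∑ u ∈ I, D u u) * (∑ u ∈ I, x u * y u) := by
    rw [Finset.sum_mul_sum]
  have a3 : ∑ u ∈ I, ∑ v ∈ I, x v * D v u * y u = ∑ u ∈ I, ∑ v ∈ I, x u * D u v * y v :=
    Finset.sum_comm
  simp only [Finset.sum_add_distrib]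
  rw [a1, a2, a3]
  have a4 : ∑ u ∈ I, D u u * (x u * y u) = ∑ u ∈ I, D u u * x u * y u :=
    Finset.sum_congr rfl (fun u _ => by ring)
  have a5 : ∑ u ∈ I, x u * D u u * y u = ∑ u ∈ I, D u u * x u * y u :=
    Finset.sum_congr rfl (fun u _ => by ring)
  rw [a4, a5]
  ring

section cent

variable {K : Type*} [Field K] [CharZero K] {ι : Type*} [Fintype ι] [DecidableEq ι]

omit [CharZero K] in
theorem s7cfa_zero_out {R : Finset ι} {M : Matrix ι ι K} (hM : s7Pi K R * M = M) {x : ι}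
    (hx : x ∉ R) (y : ι) : M x y = 0 := by
  rw [← hM, Matrix.mul_apply]
  refine Finset.sum_eq_zero (fun z _ => ?_)
  simp [s7Pi, hx]

theorem s7cfa_col_sum {R : Finset ι} {M : Matrix ι ι K} (hR : R.card ≠ 0) (hM : s7Pi K R * M = M)
    (y : ι) : ∑ x ∈ R, M x y = 0 := by
  have hl : (R.card : K) ≠ 0 := Nat.cast_ne_zero.2 hR
  have h1 : ∀ z, ∑ x ∈ R, s7Pi K R x z = 0 := by
    intro z
    by_cases hz : z ∈ R
    · have : ∀ x ∈ R, s7Pi K R x z = (if x = z then 1 else 0) - (R.card : K)⁻¹ := by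
        intro x hx
        simp [s7Pi, hx, hz]
      rw [Finset.sum_congr rfl this, Finset.sum_sub_distrib, Finset.sum_ite_eq' R z, if_pos hz,
        Finset.sum_const, nsmul_eq_mul, mul_inv_cancel₀ hl, sub_self]
    · refine Finset.sum_eq_zero (fun x _ => ?_)
      simp [s7Pi, hz]
  calc ∑ x ∈ R, M x y = ∑ x ∈ R, (s7Pi K R * M) x y := by rw [hM]
    _ = ∑ x ∈ R, ∑ z, s7Pi K R x z * M z y := by simp only [Matrix.mul_apply]
    _ = ∑ z, (∑ x ∈ R, s7Pi K R x z) * M z y := by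
        rw [Finset.sum_comm]
        simp only [Finset.sum_mul]
    _ = 0 := by simp [h1]

omit [CharZero K] in
theorem s7cfa_trace {R : Finset ι} {M : Matrix ι ι K} (hM : s7Pi K R * M = M) :
    M.trace = ∑ x ∈ R, M x x := by
  rw [Matrix.trace]
  symm
  refine Finset.sum_subset (Finset.subset_univ R) (fun x _ hx => ?_)
  exact s7cfa_zero_out hM hx x

end cent

theorem s7_centId : StS7CentId := by
  intro K _ _ ι _ _ R M hl hs hM
  have s1 : ∀ a b, M a b = M b a := fun a b => by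
    conv_lhs => rw [← hs]
    rfl
  have hR0 : R.card ≠ 0 := by omega
  have hlK : (R.card : K) ≠ 0 := Nat.cast_ne_zero.2 hR0
  have hl2 : (R.card : K) - 2 ≠ 0 := PPair.l_sub_two_ne K hl
  have hl1 : (R.card : K) - 1 ≠ 0 := by
    have : ((R.card - 1 : ℕ) : K) ≠ 0 := Nat.cast_ne_zero.2 (by omega)
    rwa [Nat.cast_sub (by omega), Nat.cast_one] at this
  have hT := s7cfa_trace hM
  have hcol := s7cfa_col_sum hR0 hM
  set T := ∑ x ∈ R, M x x with hTdef
  have b1 : ∑ u ∈ R, ∑ v ∈ R, M u v = 0 := by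
    have h0 : ∑ u ∈ R, ∑ v ∈ R, M u v = ∑ v ∈ R, ∑ u ∈ R, M u v := Finset.sum_comm
    rw [h0]
    exact Finset.sum_eq_zero (fun v _ => hcol v)
  have b2 : ∑ u ∈ R, ∑ v ∈ R, M u u = (R.card : K) * T := by
    simp only [Finset.sum_const, nsmul_eq_mul]
    rw [← Finset.mul_sum]
  have b3 : ∑ u ∈ R, ∑ v ∈ R, M v v = (R.card : K) * T := by
    simp only [Finset.sum_const, nsmul_eq_mul, ← hTdef]
  have e1 : ∀ u v, (F2 K * B2 K R.card * s7blk M u v).trace
      = 2 * M u v + ((R.card : K) - 2)⁻¹ * (M u u + M v v + 2 * M u v) := by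
    intro u v
    rw [s7cfa_F2_eq, s7cfa_B2_eq, s7cfa_blk_eq]
    simp [Matrix.trace_fin_two]
    rw [s1 v u]
    ring
  have e2 : ∀ u v, (B2 K R.card * s7blk M u v).trace
      = (M u u + M v v) + ((R.card : K) - 2)⁻¹ * (M u u + M v v + 2 * M u v) := by
    intro u v
    rw [s7cfa_B2_eq, s7cfa_blk_eq]
    simp [Matrix.trace_fin_two]
    rw [s1 v u]
    ring
  constructor
  · unfold s7avg
    simp only [e1]
    rw [s7cfa_sum_erase]
    simp only [Finset.sum_add_distrib, ← Finset.mul_sum]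
    rw [b1, b2, b3, ← hTdef]
    have : 2 * 0 + ((R.card : K) - 2)⁻¹ * ((R.card : K) * T + (R.card : K) * T + 2 * 0)
        - (2 * T + ((R.card : K) - 2)⁻¹ * (T + T + 2 * T)) = 0 := by
      field_simp
      ring
    rw [this, zero_div]
  · unfold s7avg
    simp only [e2]
    rw [s7cfa_sum_erase]
    simp only [Finset.sum_add_distrib, ← Finset.mul_sum]
    rw [b1, b2, b3, ← hTdef, hT]
    field_simp
    ring

end Claimed.Agent.R275
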