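import Claimed.Agent.R275.S7CoefA
import Claimed.Agent.R275.S7Step

/-!
# Row 275, Section 7, package S7-COEF-B: pointwise bounds of the coefficients (Lemma 7.3, first part)

Proofs by helper86.  Statements in `S7Coef.lean`, `S7Step.lean` (helper245).  Helper lemmas: prefix `s7cb_`.
Explicit constants: `ε0 = 1/24`, `l0 = max 32 ⌈5 / hmin⌉`, `C = 10 + 2 / hmin`; all `|H_ij| ≤ 1`.
-/

set_option autoImplicit false

namespace Claimed.Agent.R275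

open Matrix

theorem s7cb_scalar (κ a b c k L : ℝ) (hκ1 : 4 / 3 ≤ |κ|) (hκ2 : |κ| ≤ k) (ha : |a| ≤ 1 / 24)
    (hb : |b| ≤ 1 / 24) (hc : |c| ≤ 1 / 24) (hL : 32 ≤ L) (hkL : 5 * k ≤ L) :
    (a + κ / L) * (b + κ / L) - (c - κ * (1 - 1 / L)) ^ 2 ≤ -(3 / 2) ∧
    |κ * (1 - 1 / L) - c| ≤ -((a + κ / L) * (b + κ / L) - (c - κ * (1 - 1 / L)) ^ 2) ∧
    |a + κ / L| ≤ 1 / 4 ∧ |b + κ / L| ≤ 1 / 4 ∧ |κ / L| ≤ k / L := by
  have hL0 : 0 < L := by linarith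
  have hp : |κ / L| ≤ k / L := by
    rw [abs_div, abs_of_pos hL0]
    exact div_le_div_of_nonneg_right hκ2 hL0.le
  have hp5 : k / L ≤ 1 / 5 := by
    rw [div_le_div_iff₀ hL0 (by norm_num)]
    linarith
  set p := κ / L with hpdef
  have hap : |a + p| ≤ 1 / 4 := (abs_add_le _ _).trans (by linarith)
  have hbp : |b + p| ≤ 1 / 4 := (abs_add_le _ _).trans (by linarith)
  set w := κ * (1 - 1 / L) - c with hw
  have h1L : 31 / 32 ≤ 1 - 1 / L := by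
    have : 1 / L ≤ 1 / 32 := one_div_le_one_div_of_le (by norm_num) hL
    linarith
  have hr : 31 / 24 ≤ |κ * (1 - 1 / L)| := by
    rw [abs_mul, abs_of_nonneg (by linarith : (0 : ℝ) ≤ 1 - 1 / L)]
    nlinarith [abs_nonneg κ]
  have hw54 : 5 / 4 ≤ |w| := by
    have := abs_sub_abs_le_abs_sub (κ * (1 - 1 / L)) c
    linarith
  have hsq : (c - κ * (1 - 1 / L)) ^ 2 = |w| ^ 2 := by
    rw [sq_abs, hw]; ring
  have hprod : (a + p) * (b + p) ≤ 1 / 16 := by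
    have h1 : |(a + p) * (b + p)| ≤ 1 / 4 * (1 / 4) := by
      rw [abs_mul]
      exact mul_le_mul hap hbp (abs_nonneg _) (by norm_num)
    have := le_abs_self ((a + p) * (b + p))
    linarith
  rw [hsq]
  refine ⟨by nlinarith, by nlinarith, hap, hbp, hp⟩

theorem s7cb_abs3 {x y z X Y Z : ℝ} (hx : |x| ≤ X) (hy : |y| ≤ Y) (hz : |z| ≤ Z) :
    |x * y * z| ≤ X * Y * Z := by
  rw [abs_mul, abs_mul]
  have hX : 0 ≤ X := (abs_nonneg _).trans hx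
  have hY : 0 ≤ Y := (abs_nonneg _).trans hy
  exact mul_le_mul (mul_le_mul hx hy (abs_nonneg _) hX) hz (abs_nonneg _) (mul_nonneg hX hY)

theorem s7cb_abs4 {t1 t2 t3 t4 T1 T2 T3 T4 : ℝ} (h1 : |t1| ≤ T1) (h2 : |t2| ≤ T2) (h3 : |t3| ≤ T3)
    (h4 : |t4| ≤ T4) : |-(t1 + t2 + t3 + t4)| ≤ T1 + T2 + T3 + T4 := by
  rw [abs_neg]
  have e1 := abs_add_le (t1 + t2 + t3) t4
  have e2 := abs_add_le (t1 + t2) t3
  have e3 := abs_add_le t1 t2
  linarith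

theorem s7cb_entry (G A H : Matrix (Fin 2) (Fin 2) ℝ) (i j : Fin 2) :
    (-(G * A * H)) i j = -(G i 0 * A 0 0 * H 0 j + G i 0 * A 0 1 * H 1 j + G i 1 * A 1 0 * H 0 j
      + G i 1 * A 1 1 * H 1 j) := by
  simp only [Matrix.neg_apply, Matrix.mul_apply, Fin.sum_univ_two]
  ring

/-- the abstract estimate: everything follows from entry bounds of `G = H₀`, `A`, `H`. -/
theorem s7cb_core (G A H N1 N2 : Matrix (Fin 2) (Fin 2) ℝ) (a b c ε il k : ℝ)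
    (hA00 : A 0 0 = a) (hA01 : A 0 1 = c) (hA10 : A 1 0 = c) (hA11 : A 1 1 = b)
    (ha : |a| ≤ ε) (hb : |b| ≤ ε) (hc : |c| ≤ ε)
    (hG00 : |G 0 0| ≤ il) (hG11 : |G 1 1| ≤ il) (hG01 : |G 0 1| ≤ 1) (hG10 : |G 1 0| ≤ 1)
    (hH : ∀ i j, |H i j| ≤ 1) (hH11 : |H 1 1| ≤ k * (il + |a|))
    (hil1 : il ≤ 1) (hk : 1 ≤ k)
    (e1 : N1 = -(G * A * H)) (e2 : N2 = -(G * A * N1)) :
    (∀ i j, |N1 i j| ≤ 4 * ε) ∧
    |N1 0 0| ≤ 2 * (|b| + |c| + |a| * il) ∧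
    |N1 1 1| ≤ 2 * (|a| + |c| + |b| * il) ∧
    |N1 0 1| ≤ 2 * k * (|c| + |a| * |b| + (|a| + |b|) * il) ∧
    |N2 0 0| ≤ 8 * ε * (|b| + |c| + |a| * il) ∧
    |N2 1 1| ≤ 8 * ε * (|a| + |c| + |b| * il) ∧
    |N2 0 1| ≤ 10 * (ε * |c| + |a| * |b| + ε * (|a| + |b|) * il) := by
  have hil0 : 0 ≤ il := (abs_nonneg _).trans hG00
  have hε0 : 0 ≤ ε := (abs_nonneg _).trans ha
  have hG : ∀ i j, |G i j| ≤ 1 := by
    intro i j
    fin_cases i <;> fin_cases j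
    · exact hG00.trans hil1
    · exact hG01
    · exact hG10
    · exact hG11.trans hil1
  have hAε : ∀ i j, |A i j| ≤ ε := by
    intro i j
    fin_cases i <;> fin_cases j
    · simpa [hA00] using ha
    · simpa [hA01] using hc
    · simpa [hA10] using hc
    · simpa [hA11] using hb
  have na := abs_nonneg a
  have nb := abs_nonneg b
  have nc := abs_nonneg c
  have c1 : ∀ i j, |N1 i j| ≤ 4 * ε := by
    intro i j
    rw [e1, s7cb_entry]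
    refine (s7cb_abs4 (s7cb_abs3 (hG i 0) (hAε 0 0) (hH 0 j)) (s7cb_abs3 (hG i 0) (hAε 0 1) (hH 1 j))
      (s7cb_abs3 (hG i 1) (hAε 1 0) (hH 0 j)) (s7cb_abs3 (hG i 1) (hAε 1 1) (hH 1 j))).trans ?_
    linarith
  have c2 : |N1 0 0| ≤ 2 * (|b| + |c| + |a| * il) := by
    rw [e1, s7cb_entry, hA00, hA01, hA10, hA11]
    refine (s7cb_abs4 (s7cb_abs3 hG00 le_rfl (hH 0 0)) (s7cb_abs3 hG00 le_rfl (hH 1 0))
      (s7cb_abs3 hG01 le_rfl (hH 0 0)) (s7cb_abs3 hG01 le_rfl (hH 1 0))).trans ?_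
    nlinarith [mul_nonneg nc (sub_nonneg.2 hil1), mul_nonneg na hil0]
  have c3 : |N1 1 1| ≤ 2 * (|a| + |c| + |b| * il) := by
    rw [e1, s7cb_entry, hA00, hA01, hA10, hA11]
    refine (s7cb_abs4 (s7cb_abs3 hG10 le_rfl (hH 0 1)) (s7cb_abs3 hG10 le_rfl (hH 1 1))
      (s7cb_abs3 hG11 le_rfl (hH 0 1)) (s7cb_abs3 hG11 le_rfl (hH 1 1))).trans ?_
    nlinarith [mul_nonneg nc (sub_nonneg.2 hil1), mul_nonneg nb hil0]
  have c4 : |N1 0 1| ≤ 2 * k * (|c| + |a| * |b| + (|a| + |b|) * il) := by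
    rw [e1, s7cb_entry, hA00, hA01, hA10, hA11]
    refine (s7cb_abs4 (s7cb_abs3 hG00 le_rfl (hH 0 1)) (s7cb_abs3 hG00 le_rfl (hH 1 1))
      (s7cb_abs3 hG01 le_rfl (hH 0 1)) (s7cb_abs3 hG01 le_rfl hH11)).trans ?_
    have q1 : 0 ≤ |c| * (1 - il) := mul_nonneg nc (sub_nonneg.2 hil1)
    have q2 : 0 ≤ (k - 1) * |c| := mul_nonneg (sub_nonneg.2 hk) nc
    have q3 : 0 ≤ (k - 1) * (|a| * il) := mul_nonneg (sub_nonneg.2 hk) (mul_nonneg na hil0)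
    have q4 : 0 ≤ k * (|a| * |b|) := mul_nonneg (by linarith) (mul_nonneg na nb)
    have q5 : 0 ≤ k * (|b| * il) := mul_nonneg (by linarith) (mul_nonneg nb hil0)
    have q6 : 0 ≤ k * (|a| * il) := mul_nonneg (by linarith) (mul_nonneg na hil0)
    nlinarith
  refine ⟨c1, c2, c3, c4, ?_, ?_, ?_⟩
  · rw [e2, s7cb_entry, hA00, hA01, hA10, hA11]
    refine (s7cb_abs4 (s7cb_abs3 hG00 le_rfl (c1 0 0)) (s7cb_abs3 hG00 le_rfl (c1 1 0))
      (s7cb_abs3 hG01 le_rfl (c1 0 0)) (s7cb_abs3 hG01 le_rfl (c1 1 0))).trans ?_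
    have q1 : 0 ≤ ε * (|c| * (1 - il)) := mul_nonneg hε0 (mul_nonneg nc (sub_nonneg.2 hil1))
    have q2 : 0 ≤ ε * (|a| * il) := mul_nonneg hε0 (mul_nonneg na hil0)
    have q3 : 0 ≤ ε * |b| := mul_nonneg hε0 nb
    nlinarith
  · rw [e2, s7cb_entry, hA00, hA01, hA10, hA11]
    refine (s7cb_abs4 (s7cb_abs3 hG10 le_rfl (c1 0 1)) (s7cb_abs3 hG10 le_rfl (c1 1 1))
      (s7cb_abs3 hG11 le_rfl (c1 0 1)) (s7cb_abs3 hG11 le_rfl (c1 1 1))).trans ?_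
    have q1 : 0 ≤ ε * (|c| * (1 - il)) := mul_nonneg hε0 (mul_nonneg nc (sub_nonneg.2 hil1))
    have q2 : 0 ≤ ε * (|b| * il) := mul_nonneg hε0 (mul_nonneg nb hil0)
    have q3 : 0 ≤ ε * |a| := mul_nonneg hε0 na
    nlinarith
  · rw [e2, s7cb_entry, hA00, hA01, hA10, hA11]
    refine (s7cb_abs4 (s7cb_abs3 hG00 le_rfl (c1 0 1)) (s7cb_abs3 hG00 le_rfl (c1 1 1))
      (s7cb_abs3 hG01 le_rfl (c1 0 1)) (s7cb_abs3 hG01 le_rfl c3)).trans ?_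
    have q1 : 0 ≤ ε * (|c| * (1 - il)) := mul_nonneg hε0 (mul_nonneg nc (sub_nonneg.2 hil1))
    have q2 : 0 ≤ ε * (|a| * il) := mul_nonneg hε0 (mul_nonneg na hil0)
    have q3 : 0 ≤ (ε - |b|) * |c| := mul_nonneg (sub_nonneg.2 hb) nc
    have q4 : 0 ≤ (ε - |b|) * (|b| * il) := mul_nonneg (sub_nonneg.2 hb) (mul_nonneg nb hil0)
    have q5 : 0 ≤ |a| * |b| := mul_nonneg na nb
    have q6 : 0 ≤ ε * (|b| * il) := mul_nonneg hε0 (mul_nonneg nb hil0)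
    have q7 : 0 ≤ ε * |c| := mul_nonneg hε0 nc
    nlinarith

theorem s7cb_H0_entries (l : ℕ) (σ h : ℝ) :
    H0 l σ h 0 0 = -(σ * h) * ((l : ℝ) - 2)⁻¹ ∧ H0 l σ h 1 1 = -(σ * h) * ((l : ℝ) - 2)⁻¹ ∧
    H0 l σ h 0 1 = -(σ * h) * (1 + ((l : ℝ) - 2)⁻¹) ∧
    H0 l σ h 1 0 = -(σ * h) * (1 + ((l : ℝ) - 2)⁻¹) := by
  rw [H0, s7cfa_F2_eq, s7cfa_B2_eq]
  simp

theorem s7cb_H0_bounds (l : ℕ) (σ h : ℝ) (hσ : |σ| = 1) (h0 : 0 < h) (h34 : h ≤ 3 / 4)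
    (hl : 32 ≤ l) :
    |H0 l σ h 0 0| ≤ 1 / (l : ℝ) ∧ |H0 l σ h 1 1| ≤ 1 / (l : ℝ) ∧ |H0 l σ h 0 1| ≤ 1 ∧
    |H0 l σ h 1 0| ≤ 1 := by
  obtain ⟨e00, e11, e01, e10⟩ := s7cb_H0_entries l σ h
  have hL : (32 : ℝ) ≤ l := by exact_mod_cast hl
  have hL2 : 0 < (l : ℝ) - 2 := by linarith
  have hi0 : 0 < ((l : ℝ) - 2)⁻¹ := inv_pos.2 hL2
  have hi : ((l : ℝ) - 2)⁻¹ ≤ 1 / 30 := by
    rw [inv_eq_one_div]
    exact one_div_le_one_div_of_le (by norm_num) (by linarith)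
  have hs : |-(σ * h)| = h := by rw [abs_neg, abs_mul, hσ, one_mul, abs_of_pos h0]
  have b0 : |-(σ * h) * ((l : ℝ) - 2)⁻¹| ≤ 1 / (l : ℝ) := by
    rw [abs_mul, hs, abs_of_pos hi0, ← div_eq_mul_inv, div_le_div_iff₀ hL2 (by linarith)]
    nlinarith
  have b1 : |-(σ * h) * (1 + ((l : ℝ) - 2)⁻¹)| ≤ 1 := by
    rw [abs_mul, hs, abs_of_pos (by linarith)]
    nlinarith
  rw [e00, e11, e01, e10]
  exact ⟨b0, b0, b1, b1⟩

/-- all facts about `H` itself, with explicit constants. -/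
theorem s7cb_H {ι : Type} [Fintype ι] [DecidableEq ι] {hmin C0 ε σ h : ℝ} {R : Finset ι}
    {D : Matrix ι ι ℝ} (hB : S7Base hmin C0 ε σ h R D) (hm : 0 < hmin) (hε : ε ≤ 1 / 24)
    (hl : 32 ≤ R.card) (hl5 : 5 * hmin⁻¹ ≤ (R.card : ℝ)) (u v : ι) :
    IsUnit ((H0 R.card σ h)⁻¹ + s7blk D u v) ∧
    (∀ i j, |s7H R.card σ h D u v i j| ≤ 1) ∧
    (s7H R.card σ h D u v)ᵀ = s7H R.card σ h D u v ∧
    |s7H R.card σ h D u v 0 0| ≤ hmin⁻¹ * (1 / (R.card : ℝ) + |D v v|) ∧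
    |s7H R.card σ h D u v 1 1| ≤ hmin⁻¹ * (1 / (R.card : ℝ) + |D u u|) := by
  have h0 : 0 < h := lt_of_lt_of_le hm hB.h_lo
  have hσ2 : σ ^ 2 = 1 := by rcases hB.sig with h | h <;> rw [h] <;> norm_num
  have hσa : |σ| = 1 := by rcases hB.sig with h | h <;> rw [h] <;> norm_num
  have hsym : D v u = D u v := by
    conv_lhs => rw [← hB.symm]
    rfl
  have hκ : |σ * h⁻¹| = h⁻¹ := by rw [abs_mul, hσa, one_mul, abs_of_pos (inv_pos.2 h0)]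
  have hκ1 : 4 / 3 ≤ |σ * h⁻¹| := by
    rw [hκ, inv_eq_one_div, le_div_iff₀ h0]
    linarith [hB.h_hi]
  have hκ2 : |σ * h⁻¹| ≤ hmin⁻¹ := by
    rw [hκ]
    exact inv_anti₀ hm hB.h_lo
  have hk1 : 1 ≤ hmin⁻¹ := by linarith
  have hL : (32 : ℝ) ≤ R.card := by exact_mod_cast hl
  have hL0 : (0 : ℝ) < R.card := by linarith
  obtain ⟨d1, d2, d3, d4, d5⟩ := s7cb_scalar (σ * h⁻¹) (D u u) (D v v) (D u v) hmin⁻¹ R.card hκ1 hκ2
    ((hB.ent u u).trans hε) ((hB.ent v v).trans hε) ((hB.ent u v).trans hε) hL hl5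
  have hdet : s7Det R.card σ h (D u u) (D v v) (D u v) ≤ -(3 / 2) := d1
  have hdet0 : s7Det R.card σ h (D u u) (D v v) (D u v) ≠ 0 := by
    intro h; rw [h] at hdet; norm_num at hdet
  obtain ⟨hu, e00, e11, e01, e10⟩ := s7_hExplicit ℝ ι R.card σ h D u v (by omega) hσ2 h0.ne' hsym hdet0
  set Δ := s7Det R.card σ h (D u u) (D v v) (D u v) with hΔ
  have hΔabs : |Δ| = -Δ := abs_of_neg (by linarith)
  have hΔ32 : 3 / 2 ≤ |Δ| := by rw [hΔabs]; linarith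
  have hΔpos : 0 < |Δ| := by linarith
  have gen : ∀ x : ℝ, |x / Δ| ≤ |x| := by
    intro x
    rw [abs_div, div_le_iff₀ hΔpos]
    nlinarith [abs_nonneg x]
  have b01 : |s7H R.card σ h D u v 0 1| ≤ 1 := by
    rw [e01, abs_div, div_le_one hΔpos, hΔabs]
    exact d2
  have b00 : |s7H R.card σ h D u v 0 0| ≤ |D v v + σ * h⁻¹ / R.card| := by rw [e00]; exact gen _
  have b11 : |s7H R.card σ h D u v 1 1| ≤ |D u u + σ * h⁻¹ / R.card| := by rw [e11]; exact gen _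
  have fin : ∀ x : ℝ, |x + σ * h⁻¹ / R.card| ≤ hmin⁻¹ * (1 / (R.card : ℝ) + |x|) := by
    intro x
    refine (abs_add_le _ _).trans ?_
    have : hmin⁻¹ * (1 / (R.card : ℝ)) = hmin⁻¹ / R.card := by ring
    rw [mul_add, this]
    nlinarith [abs_nonneg x]
  refine ⟨hu, ?_, ?_, b00.trans (fin _), b11.trans (fin _)⟩
  · intro i j
    fin_cases i <;> fin_cases j
    · exact b00.trans (d4.trans (by norm_num))
    · exact b01
    · show |s7H R.card σ h D u v 1 0| ≤ 1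
      rw [e10]; exact b01
    · exact b11.trans (d3.trans (by norm_num))
  · ext i j
    fin_cases i <;> fin_cases j
    · rfl
    · exact e10
    · exact e10.symm
    · rfl

theorem s7cb_l0 (hmin : ℝ) (l : ℕ) (hl : max 32 ⌈5 * hmin⁻¹⌉₊ ≤ l) :
    32 ≤ l ∧ 5 * hmin⁻¹ ≤ (l : ℝ) := by
  refine ⟨(le_max_left _ _).trans hl, ?_⟩
  have h1 : ⌈5 * hmin⁻¹⌉₊ ≤ l := (le_max_right _ _).trans hl
  exact (Nat.le_ceil _).trans (by exact_mod_cast h1)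

theorem s7_coefOne : StS7CoefOne := by
  intro hmin C0 hm _
  refine ⟨1, 1 / 24, max 32 ⌈5 * hmin⁻¹⌉₊, one_pos, by norm_num, ?_⟩
  intro ι _ _ σ h ε R D hB hε hl u _ v _ _
  obtain ⟨hl32, hl5⟩ := s7cb_l0 hmin R.card hl
  exact (s7cb_H hB hm hε hl32 hl5 u v).2.1

theorem s7_coefPt : StS7CoefPt := by
  intro hmin C0 hm _
  have hk0 : 0 < hmin⁻¹ := inv_pos.2 hm
  refine ⟨10 + 2 * hmin⁻¹, 1 / 24, max 32 ⌈5 * hmin⁻¹⌉₊, by positivity, by norm_num, ?_⟩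
  intro ι _ _ σ h ε R D hB hε hl u _ v _ _
  obtain ⟨hl32, hl5⟩ := s7cb_l0 hmin R.card hl
  obtain ⟨hu, hH1, hHs, hH00, hH11⟩ := s7cb_H hB hm hε hl32 hl5 u v
  have h0 : 0 < h := lt_of_lt_of_le hm hB.h_lo
  have hσ2 : σ ^ 2 = 1 := by rcases hB.sig with h | h <;> rw [h] <;> norm_num
  have hσa : |σ| = 1 := by rcases hB.sig with h | h <;> rw [h] <;> norm_num
  have hsym : D v u = D u v := by
    conv_lhs => rw [← hB.symm]
    rfl
  have hk1 : 1 ≤ hmin⁻¹ := by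
    have : h⁻¹ ≤ hmin⁻¹ := inv_anti₀ hm hB.h_lo
    have h2 : 4 / 3 ≤ h⁻¹ := by
      rw [inv_eq_one_div, le_div_iff₀ h0]
      linarith [hB.h_hi]
    linarith
  have hL : (32 : ℝ) ≤ R.card := by exact_mod_cast hl32
  have hL0 : (0 : ℝ) < R.card := by linarith
  have hil1 : 1 / (R.card : ℝ) ≤ 1 := by
    rw [div_le_one hL0]; linarith
  have hil0 : 0 ≤ 1 / (R.card : ℝ) := by positivity
  obtain ⟨g00, g11, g01, g10⟩ := s7cb_H0_bounds R.card σ h hσa h0 hB.h_hi hl32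
  obtain ⟨r1, r2, r3⟩ := s7_hResolvent ℝ ι R.card σ h D u v (by omega) hσ2 h0.ne' hu
  have r4 : s7N2 R.card σ h D u v
      = -(H0 R.card σ h * s7blk D u v * s7N1 R.card σ h D u v) := by
    rw [r3, r2]
    simp only [Matrix.mul_neg, neg_neg, Matrix.mul_assoc]
  obtain ⟨c1, c2, c3, c4, c5, c6, c7⟩ := s7cb_core (H0 R.card σ h) (s7blk D u v)
    (s7H R.card σ h D u v) (s7N1 R.card σ h D u v) (s7N2 R.card σ h D u v)
    (D u u) (D v v) (D u v) ε (1 / (R.card : ℝ)) hmin⁻¹ rfl rfl hsym rfl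
    (hB.ent u u) (hB.ent v v) (hB.ent u v) g00 g11 g01 g10 hH1 hH11 hil1 hk1 r1 r4
  have hε0 : 0 ≤ ε := (abs_nonneg _).trans (hB.ent u u)
  have na := abs_nonneg (D u u)
  have nb := abs_nonneg (D v v)
  have nc := abs_nonneg (D u v)
  have ediv : ∀ x : ℝ, x / (R.card : ℝ) = x * (1 / (R.card : ℝ)) := fun x => div_eq_mul_one_div _ _
  have p1 : 0 ≤ |D v v| + |D u v| + |D u u| * (1 / (R.card : ℝ)) := by
    have := mul_nonneg na hil0; linarith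
  have p2 : 0 ≤ |D u u| + |D u v| + |D v v| * (1 / (R.card : ℝ)) := by
    have := mul_nonneg nb hil0; linarith
  have p3 : 0 ≤ |D u v| + |D u u| * |D v v| + (|D u u| + |D v v|) * (1 / (R.card : ℝ)) := by
    have := mul_nonneg (add_nonneg na nb) hil0
    have := mul_nonneg na nb
    linarith
  have p4 : 0 ≤ ε * |D u v| + |D u u| * |D v v| + ε * (|D u u| + |D v v|) * (1 / (R.card : ℝ)) := by
    have := mul_nonneg (mul_nonneg hε0 (add_nonneg na nb)) hil0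
    have := mul_nonneg na nb
    have := mul_nonneg hε0 nc
    linarith
  refine ⟨hu, ?_, hHs, ?_, ?_, ?_, ?_, ?_, ?_, ?_, ?_, ?_⟩
  · intro i j
    exact (hH1 i j).trans (by linarith)
  · refine hH00.trans (mul_le_mul_of_nonneg_right (by linarith) (add_nonneg hil0 nb))
  · refine hH11.trans (mul_le_mul_of_nonneg_right (by linarith) (add_nonneg hil0 na))
  · intro i j
    refine (c1 i j).trans (mul_le_mul_of_nonneg_right (by linarith) hε0)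
  · rw [ediv]
    refine c2.trans (mul_le_mul_of_nonneg_right (by linarith) p1)
  · rw [ediv]
    refine c3.trans (mul_le_mul_of_nonneg_right (by linarith) p2)
  · rw [ediv]
    refine c4.trans (mul_le_mul_of_nonneg_right (by linarith) p3)
  · rw [ediv]
    refine c5.trans (mul_le_mul_of_nonneg_right
      (mul_le_mul_of_nonneg_right (by linarith) hε0) p1)
  · rw [ediv]
    refine c6.trans (mul_le_mul_of_nonneg_right
      (mul_le_mul_of_nonneg_right (by linarith) hε0) p2)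
  · rw [ediv]
    refine c7.trans (mul_le_mul_of_nonneg_right (by linarith) p4)

end Claimed.Agent.R275
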