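import Claimed.Agent.R275.S7CoefB

/-!
# Row 275, Section 7, package S7-COEF-C: averaged bounds of the coefficients (Lemma 7.3, second part)

Proofs by helper86.  Statements in `S7Coef.lean` (helper245).  Helper lemmas: prefix `s7cc_`.
-/

set_option autoImplicit false

namespace Claimed.Agent.R275

open Matrix

section tools

variable {ι : Type*} [Fintype ι] [DecidableEq ι]

omit [Fintype ι] [DecidableEq ι] in
theorem s7cc_cs (I : Finset ι) (x y : ι → ℝ) :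
    ∑ s ∈ I, x s * y s ≤ √(s7sqOn I x) * √(s7sqOn I y) :=
  Real.sum_mul_le_sqrt_mul_sqrt I x y

omit [Fintype ι] [DecidableEq ι] in
theorem s7cc_sum_le (I : Finset ι) (x : ι → ℝ) :
    ∑ s ∈ I, x s ≤ √(I.card : ℝ) * √(s7sqOn I x) := by
  have h := Real.sum_mul_le_sqrt_mul_sqrt I (fun _ => (1 : ℝ)) x
  simpa [s7sqOn] using h

omit [DecidableEq ι] in
theorem s7cc_diag_sq (I : Finset ι) (D : Matrix ι ι ℝ) : ∑ s ∈ I, |D s s| ^ 2 ≤ s7T D := by
  simp only [sq_abs]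
  exact Finset.sum_le_univ_sum_of_nonneg (fun s => sq_nonneg _)

omit [DecidableEq ι] in
theorem s7cc_row_sq (I : Finset ι) (D : Matrix ι ι ℝ) (hs : Dᵀ = D) (u : ι) :
    ∑ v ∈ I, |D u v| ^ 2 ≤ (D * D) u u := by
  simp only [sq_abs]
  have e : (D * D) u u = ∑ v, D u v ^ 2 := by
    rw [Matrix.mul_apply]
    refine Finset.sum_congr rfl (fun v _ => ?_)
    have : D v u = D u v := by
      conv_lhs => rw [← hs]
      rfl
    rw [this, sq]
  rw [e]
  exact Finset.sum_le_univ_sum_of_nonneg (fun s => sq_nonneg _)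

omit [DecidableEq ι] in
/-- `∑_{s ∈ I} |D_ss| x_s ≤ √T ‖x‖`. -/
theorem s7cc_diag_dot (I : Finset ι) (D : Matrix ι ι ℝ) (x : ι → ℝ) :
    ∑ s ∈ I, |D s s| * x s ≤ √(s7T D) * √(s7sqOn I x) := by
  refine (Real.sum_mul_le_sqrt_mul_sqrt I (fun s => |D s s|) x).trans ?_
  exact mul_le_mul_of_nonneg_right (Real.sqrt_le_sqrt (s7cc_diag_sq I D)) (Real.sqrt_nonneg _)

omit [DecidableEq ι] in
/-- `∑_{s ∈ I} |D_ss| ≤ √|I| √T`. -/
theorem s7cc_diag_sum (I : Finset ι) (D : Matrix ι ι ℝ) :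
    ∑ s ∈ I, |D s s| ≤ √(I.card : ℝ) * √(s7T D) := by
  refine (s7cc_sum_le I (fun s => |D s s|)).trans ?_
  exact mul_le_mul_of_nonneg_left (Real.sqrt_le_sqrt (s7cc_diag_sq I D)) (Real.sqrt_nonneg _)

omit [DecidableEq ι] in
/-- `∑_{v ∈ I} |D_uv| ≤ √|I| √C0`. -/
theorem s7cc_row_sum (I : Finset ι) (D : Matrix ι ι ℝ) (hs : Dᵀ = D) {C0 : ℝ}
    (hrow : ∀ x, (D * D) x x ≤ C0) (u : ι) :
    ∑ v ∈ I, |D u v| ≤ √(I.card : ℝ) * √C0 := by
  refine (s7cc_sum_le I (fun v => |D u v|)).trans ?_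
  exact mul_le_mul_of_nonneg_left
    (Real.sqrt_le_sqrt ((s7cc_row_sq I D hs u).trans (hrow u))) (Real.sqrt_nonneg _)

omit [Fintype ι] [DecidableEq ι] in
/-- Schur test. -/
theorem s7cc_schur (I : Finset ι) (Kr : ι → ι → ℝ) (hK0 : ∀ u v, 0 ≤ Kr u v)
    (hKs : ∀ u v, Kr u v = Kr v u) (S : ℝ) (hS : ∀ u, ∑ v ∈ I, Kr u v ≤ S) (x y : ι → ℝ) :
    ∑ u ∈ I, ∑ v ∈ I, Kr u v * (x u * y v) ≤ S * (√(s7sqOn I x) * √(s7sqOn I y)) := by
  by_cases hI : I.Nonempty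
  swap
  · rw [Finset.not_nonempty_iff_eq_empty] at hI
    subst hI
    simp [s7sqOn]
  obtain ⟨u0, hu0⟩ := hI
  have hS0 : 0 ≤ S := (Finset.sum_nonneg (fun v _ => hK0 u0 v)).trans (hS u0)
  have h1 := Real.sum_mul_le_sqrt_mul_sqrt (I ×ˢ I) (fun p => √(Kr p.1 p.2) * x p.1)
    (fun p => √(Kr p.1 p.2) * y p.2)
  have e1 : ∑ p ∈ I ×ˢ I, (√(Kr p.1 p.2) * x p.1) * (√(Kr p.1 p.2) * y p.2)
      = ∑ u ∈ I, ∑ v ∈ I, Kr u v * (x u * y v) := by
    rw [Finset.sum_product]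
    refine Finset.sum_congr rfl (fun u _ => Finset.sum_congr rfl (fun v _ => ?_))
    have := Real.mul_self_sqrt (hK0 u v)
    calc (√(Kr u v) * x u) * (√(Kr u v) * y v) = (√(Kr u v) * √(Kr u v)) * (x u * y v) := by ring
      _ = _ := by rw [this]
  have e2 : ∑ p ∈ I ×ˢ I, (√(Kr p.1 p.2) * x p.1) ^ 2 ≤ S * s7sqOn I x := by
    rw [Finset.sum_product, s7sqOn, Finset.mul_sum]
    refine Finset.sum_le_sum (fun u _ => ?_)
    have : ∀ v ∈ I, (√(Kr u v) * x u) ^ 2 = Kr u v * x u ^ 2 := by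
      intro v _
      rw [mul_pow, Real.sq_sqrt (hK0 u v)]
    rw [Finset.sum_congr rfl this, ← Finset.sum_mul]
    exact mul_le_mul_of_nonneg_right (hS u) (sq_nonneg _)
  have e3 : ∑ p ∈ I ×ˢ I, (√(Kr p.1 p.2) * y p.2) ^ 2 ≤ S * s7sqOn I y := by
    rw [Finset.sum_product_right, s7sqOn, Finset.mul_sum]
    refine Finset.sum_le_sum (fun v _ => ?_)
    have : ∀ u ∈ I, (√(Kr u v) * y v) ^ 2 = Kr v u * y v ^ 2 := by
      intro u _
      rw [mul_pow, Real.sq_sqrt (hK0 u v), hKs]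
    rw [Finset.sum_congr rfl this, ← Finset.sum_mul]
    exact mul_le_mul_of_nonneg_right (hS v) (sq_nonneg _)
  rw [e1] at h1
  refine h1.trans ?_
  calc √(∑ p ∈ I ×ˢ I, (√(Kr p.1 p.2) * x p.1) ^ 2) * √(∑ p ∈ I ×ˢ I, (√(Kr p.1 p.2) * y p.2) ^ 2)
      ≤ √(S * s7sqOn I x) * √(S * s7sqOn I y) :=
        mul_le_mul (Real.sqrt_le_sqrt e2) (Real.sqrt_le_sqrt e3) (Real.sqrt_nonneg _)
          (Real.sqrt_nonneg _)
    _ = S * (√(s7sqOn I x) * √(s7sqOn I y)) := by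
        rw [Real.sqrt_mul hS0, Real.sqrt_mul hS0]
        have := Real.mul_self_sqrt hS0
        calc √S * √(s7sqOn I x) * (√S * √(s7sqOn I y))
            = (√S * √S) * (√(s7sqOn I x) * √(s7sqOn I y)) := by ring
          _ = _ := by rw [this]

end tools

section kernels

variable {ι : Type*} [Fintype ι] {D : Matrix ι ι ℝ} {I : Finset ι} {C0 ε L : ℝ}

/-- row sums of the majorant kernel of the `00` entries. -/
theorem s7cc_A0 (hs : Dᵀ = D) (hrow : ∀ x, (D * D) x x ≤ C0) (hent : ∀ x y, |D x y| ≤ ε)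
    (hε : ε ≤ 1) (hI : (I.card : ℝ) ≤ L) (hL : 1 ≤ L) (u : ι) :
    ∑ v ∈ I, (|D v v| + |D u v| + |D u u| / L) ≤ (√(s7T D) + √C0 + 1) * √L := by
  have hL0 : 0 < L := by linarith
  have hsI : √(I.card : ℝ) ≤ √L := Real.sqrt_le_sqrt hI
  have hsL : 1 ≤ √L := by rw [← Real.sqrt_one]; exact Real.sqrt_le_sqrt hL
  rw [Finset.sum_add_distrib, Finset.sum_add_distrib]
  have h1 : ∑ v ∈ I, |D v v| ≤ √L * √(s7T D) :=
    (s7cc_diag_sum I D).trans (mul_le_mul_of_nonneg_right hsI (Real.sqrt_nonneg _))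
  have h2 : ∑ v ∈ I, |D u v| ≤ √L * √C0 :=
    (s7cc_row_sum I D hs hrow u).trans (mul_le_mul_of_nonneg_right hsI (Real.sqrt_nonneg _))
  have h3 : ∑ _v ∈ I, |D u u| / L ≤ 1 := by
    rw [Finset.sum_const, nsmul_eq_mul, mul_div_assoc', div_le_one hL0]
    have := (hent u u).trans hε
    nlinarith [abs_nonneg (D u u), Nat.cast_nonneg (α := ℝ) I.card]
  nlinarith

/-- row sums of the majorant kernel of the `01` entries. -/
theorem s7cc_B0 (hs : Dᵀ = D) (hrow : ∀ x, (D * D) x x ≤ C0) (hent : ∀ x y, |D x y| ≤ ε)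
    (hε : ε ≤ 1) (hI : (I.card : ℝ) ≤ L) (hL : 1 ≤ L) (u : ι) :
    ∑ v ∈ I, (|D u v| + |D v v| + (|D u u| + |D v v|) / L) ≤ (√C0 + 2 * √(s7T D) + 1) * √L := by
  have hL0 : 0 < L := by linarith
  have hsI : √(I.card : ℝ) ≤ √L := Real.sqrt_le_sqrt hI
  have hsL : 1 ≤ √L := by rw [← Real.sqrt_one]; exact Real.sqrt_le_sqrt hL
  simp only [add_div]
  rw [Finset.sum_add_distrib, Finset.sum_add_distrib, Finset.sum_add_distrib]
  have h1 : ∑ v ∈ I, |D v v| ≤ √L * √(s7T D) :=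
    (s7cc_diag_sum I D).trans (mul_le_mul_of_nonneg_right hsI (Real.sqrt_nonneg _))
  have h2 : ∑ v ∈ I, |D u v| ≤ √L * √C0 :=
    (s7cc_row_sum I D hs hrow u).trans (mul_le_mul_of_nonneg_right hsI (Real.sqrt_nonneg _))
  have h3 : ∑ _v ∈ I, |D u u| / L ≤ 1 := by
    rw [Finset.sum_const, nsmul_eq_mul, mul_div_assoc', div_le_one hL0]
    have := (hent u u).trans hε
    nlinarith [abs_nonneg (D u u), Nat.cast_nonneg (α := ℝ) I.card]
  have h4 : ∑ v ∈ I, |D v v| / L ≤ √L * √(s7T D) := by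
    rw [← Finset.sum_div]
    refine (div_le_self (Finset.sum_nonneg (fun v _ => abs_nonneg _)) hL).trans h1
  nlinarith

theorem s7cc_kern00 (hs : Dᵀ = D) (hrow : ∀ x, (D * D) x x ≤ C0) (hent : ∀ x y, |D x y| ≤ ε)
    (hε : ε ≤ 1) (hI : (I.card : ℝ) ≤ L) (hL : 1 ≤ L) (x y : ι → ℝ) (hx : ∀ s, 0 ≤ x s)
    (hy : ∀ s, 0 ≤ y s) :
    ∑ u ∈ I, ∑ v ∈ I, (|D v v| + |D u v| + |D u u| / L) * (x u * y u)
      ≤ (√(s7T D) + √C0 + 1) * √L * (√(s7sqOn I x) * √(s7sqOn I y)) := by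
  have hb0 : 0 ≤ (√(s7T D) + √C0 + 1) * √L := by positivity
  calc ∑ u ∈ I, ∑ v ∈ I, (|D v v| + |D u v| + |D u u| / L) * (x u * y u)
      = ∑ u ∈ I, (∑ v ∈ I, (|D v v| + |D u v| + |D u u| / L)) * (x u * y u) := by
        simp only [Finset.sum_mul]
    _ ≤ ∑ u ∈ I, ((√(s7T D) + √C0 + 1) * √L) * (x u * y u) :=
        Finset.sum_le_sum (fun u _ => mul_le_mul_of_nonneg_right
          (s7cc_A0 hs hrow hent hε hI hL u) (mul_nonneg (hx u) (hy u)))
    _ = (√(s7T D) + √C0 + 1) * √L * ∑ u ∈ I, x u * y u := by rw [Finset.mul_sum]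
    _ ≤ _ := mul_le_mul_of_nonneg_left (s7cc_cs I x y) hb0

theorem s7cc_kern01 (hs : Dᵀ = D) (hrow : ∀ x, (D * D) x x ≤ C0)
    (hI : (I.card : ℝ) ≤ L) (hL : 1 ≤ L) (x y : ι → ℝ) :
    ∑ u ∈ I, ∑ v ∈ I, (|D u v| + |D v v| + (|D u u| + |D v v|) / L) * (x u * y v)
      ≤ (√C0 + 3 * √(s7T D)) * √L * (√(s7sqOn I x) * √(s7sqOn I y)) := by
  have hL0 : 0 < L := by linarith
  have hsI : √(I.card : ℝ) ≤ √L := Real.sqrt_le_sqrt hI
  have nx := Real.sqrt_nonneg (s7sqOn I x)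
  have ny := Real.sqrt_nonneg (s7sqOn I y)
  have nT := Real.sqrt_nonneg (s7T D)
  have nL := Real.sqrt_nonneg L
  have sym : ∀ u v, |D u v| = |D v u| := by
    intro u v
    have : D v u = D u v := by
      conv_lhs => rw [← hs]
      rfl
    rw [this]
  have sx : |∑ u ∈ I, x u| ≤ √L * √(s7sqOn I x) := by
    rw [abs_le]
    constructor
    · have h := s7cc_sum_le I (fun s => -x s)
      have e : s7sqOn I (fun s => -x s) = s7sqOn I x := by simp [s7sqOn]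
      rw [e, Finset.sum_neg_distrib] at h
      have := mul_le_mul_of_nonneg_right hsI nx
      linarith
    · exact (s7cc_sum_le I x).trans (mul_le_mul_of_nonneg_right hsI nx)
  have sy : |∑ u ∈ I, y u| ≤ √L * √(s7sqOn I y) := by
    rw [abs_le]
    constructor
    · have h := s7cc_sum_le I (fun s => -y s)
      have e : s7sqOn I (fun s => -y s) = s7sqOn I y := by simp [s7sqOn]
      rw [e, Finset.sum_neg_distrib] at h
      have := mul_le_mul_of_nonneg_right hsI ny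
      linarith
    · exact (s7cc_sum_le I y).trans (mul_le_mul_of_nonneg_right hsI ny)
  have dx : |∑ u ∈ I, |D u u| * x u| ≤ √(s7T D) * √(s7sqOn I x) := by
    rw [abs_le]
    constructor
    · have h := s7cc_diag_dot I D (fun s => -x s)
      have e : s7sqOn I (fun s => -x s) = s7sqOn I x := by simp [s7sqOn]
      simp only [mul_neg, Finset.sum_neg_distrib] at h
      rw [e] at h
      linarith
    · exact s7cc_diag_dot I D x
  have dy : |∑ u ∈ I, |D u u| * y u| ≤ √(s7T D) * √(s7sqOn I y) := by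
    rw [abs_le]
    constructor
    · have h := s7cc_diag_dot I D (fun s => -y s)
      have e : s7sqOn I (fun s => -y s) = s7sqOn I y := by simp [s7sqOn]
      simp only [mul_neg, Finset.sum_neg_distrib] at h
      rw [e] at h
      linarith
    · exact s7cc_diag_dot I D y
  have t1 : ∑ u ∈ I, ∑ v ∈ I, |D u v| * (x u * y v)
      ≤ √L * √C0 * (√(s7sqOn I x) * √(s7sqOn I y)) :=
    s7cc_schur I (fun u v => |D u v|) (fun _ _ => abs_nonneg _) sym _
      (fun u => (s7cc_row_sum I D hs hrow u).trans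
        (mul_le_mul_of_nonneg_right hsI (Real.sqrt_nonneg _))) x y
  have t2 : ∑ u ∈ I, ∑ v ∈ I, |D v v| * (x u * y v)
      ≤ (√L * √(s7sqOn I x)) * (√(s7T D) * √(s7sqOn I y)) := by
    have e : ∑ u ∈ I, ∑ v ∈ I, |D v v| * (x u * y v)
        = (∑ u ∈ I, x u) * (∑ v ∈ I, |D v v| * y v) := by
      rw [Finset.sum_mul_sum]
      refine Finset.sum_congr rfl (fun u _ => Finset.sum_congr rfl (fun v _ => by ring))
    rw [e]
    refine (le_abs_self _).trans ?_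
    rw [abs_mul]
    exact mul_le_mul sx dy (abs_nonneg _) (mul_nonneg nL nx)
  have t3 : ∑ u ∈ I, ∑ v ∈ I, |D u u| * (x u * y v)
      ≤ (√(s7T D) * √(s7sqOn I x)) * (√L * √(s7sqOn I y)) := by
    have e : ∑ u ∈ I, ∑ v ∈ I, |D u u| * (x u * y v)
        = (∑ u ∈ I, |D u u| * x u) * (∑ v ∈ I, y v) := by
      rw [Finset.sum_mul_sum]
      refine Finset.sum_congr rfl (fun u _ => Finset.sum_congr rfl (fun v _ => by ring))
    rw [e]
    refine (le_abs_self _).trans ?_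
    rw [abs_mul]
    exact mul_le_mul dx sy (abs_nonneg _) (mul_nonneg nT nx)
  have e : ∑ u ∈ I, ∑ v ∈ I, (|D u v| + |D v v| + (|D u u| + |D v v|) / L) * (x u * y v)
      = ∑ u ∈ I, ∑ v ∈ I, |D u v| * (x u * y v) + ∑ u ∈ I, ∑ v ∈ I, |D v v| * (x u * y v)
        + (∑ u ∈ I, ∑ v ∈ I, |D u u| * (x u * y v)) / L
        + (∑ u ∈ I, ∑ v ∈ I, |D v v| * (x u * y v)) / L := by
    simp only [Finset.sum_div, ← Finset.sum_add_distrib]
    refine Finset.sum_congr rfl (fun u _ => Finset.sum_congr rfl (fun v _ => by ring))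
  rw [e]
  have b2 : 0 ≤ (√L * √(s7sqOn I x)) * (√(s7T D) * √(s7sqOn I y)) := by positivity
  have b3 : 0 ≤ (√(s7T D) * √(s7sqOn I x)) * (√L * √(s7sqOn I y)) := by positivity
  have t2' := (div_le_div_of_nonneg_right t2 hL0.le).trans (div_le_self b2 hL)
  have t3' := (div_le_div_of_nonneg_right t3 hL0.le).trans (div_le_self b3 hL)
  nlinarith

theorem s7cc_bilin_core [DecidableEq ι] (hs : Dᵀ = D) (hrow : ∀ x, (D * D) x x ≤ C0)
    (hent : ∀ x y, |D x y| ≤ ε) (hε : ε ≤ 1) (hI : (I.card : ℝ) ≤ L) (hL : 1 ≤ L) (x y : ι → ℝ)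
    (hx : ∀ s, 0 ≤ x s) (hy : ∀ s, 0 ≤ y s)
    (N : ι → ι → Matrix (Fin 2) (Fin 2) ℝ) (c : ℝ) (hc : 0 ≤ c)
    (h00 : ∀ u ∈ I, ∀ v ∈ I.erase u, |N u v 0 0| ≤ c * (|D v v| + |D u v| + |D u u| / L))
    (h11 : ∀ u ∈ I, ∀ v ∈ I.erase u, |N u v 1 1| ≤ c * (|D u u| + |D u v| + |D v v| / L))
    (h01 : ∀ u ∈ I, ∀ v ∈ I.erase u,
      |N u v 0 1| ≤ c * (|D u v| + |D v v| + (|D u u| + |D v v|) / L))
    (h10 : ∀ u ∈ I, ∀ v ∈ I.erase u,
      |N u v 1 0| ≤ c * (|D u v| + |D v v| + (|D u u| + |D v v|) / L)) :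
    ∑ u ∈ I, ∑ v ∈ I.erase u, s7absq (N u v) x y u v
      ≤ c * (4 * ((3 + √C0) * (1 + √(s7T D)) * √L)) * (√(s7sqOn I x) * √(s7sqOn I y)) := by
  have hL0 : 0 < L := by linarith
  have sym : ∀ u v, D v u = D u v := by
    intro u v
    conv_lhs => rw [← hs]
    rfl
  set F : ι → ι → ℝ := fun u v => (|D v v| + |D u v| + |D u u| / L) * (x u * y u)
    + (|D u u| + |D u v| + |D v v| / L) * (x v * y v)
    + (|D u v| + |D v v| + (|D u u| + |D v v|) / L) * (x u * y v)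
    + (|D u v| + |D v v| + (|D u u| + |D v v|) / L) * (y u * x v) with hF
  have hF0 : ∀ u v, 0 ≤ F u v := by
    intro u v
    have := hx u; have := hx v; have := hy u; have := hy v
    simp only [hF]
    positivity
  have s1 : ∀ u ∈ I, ∀ v ∈ I.erase u, s7absq (N u v) x y u v ≤ c * F u v := by
    intro u hu v hv
    have a1 := mul_le_mul_of_nonneg_right (h00 u hu v hv) (mul_nonneg (hx u) (hy u))
    have a2 := mul_le_mul_of_nonneg_right (h11 u hu v hv) (mul_nonneg (hx v) (hy v))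
    have a3 := mul_le_mul_of_nonneg_right (h01 u hu v hv) (mul_nonneg (hx u) (hy v))
    have a4 := mul_le_mul_of_nonneg_right (h10 u hu v hv) (mul_nonneg (hx v) (hy u))
    simp only [s7absq, hF]
    nlinarith
  have s2 : ∑ u ∈ I, ∑ v ∈ I.erase u, s7absq (N u v) x y u v ≤ c * ∑ u ∈ I, ∑ v ∈ I, F u v := by
    rw [Finset.mul_sum]
    refine Finset.sum_le_sum (fun u hu => ?_)
    rw [Finset.mul_sum]
    refine (Finset.sum_le_sum (s1 u hu)).trans ?_
    exact Finset.sum_le_sum_of_subset_of_nonneg (Finset.erase_subset _ _)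
      (fun v _ _ => mul_nonneg hc (hF0 u v))
  have k1 := s7cc_kern00 hs hrow hent hε hI hL x y hx hy
  have k2 : ∑ u ∈ I, ∑ v ∈ I, (|D u u| + |D u v| + |D v v| / L) * (x v * y v)
      ≤ (√(s7T D) + √C0 + 1) * √L * (√(s7sqOn I x) * √(s7sqOn I y)) := by
    rw [Finset.sum_comm]
    refine le_trans (le_of_eq ?_) k1
    refine Finset.sum_congr rfl (fun u _ => Finset.sum_congr rfl (fun v _ => ?_))
    rw [sym u v]
  have k3 := s7cc_kern01 hs hrow hI hL x y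
  have k4 := s7cc_kern01 hs hrow hI hL y x
  have s3 : ∑ u ∈ I, ∑ v ∈ I, F u v
      ≤ 4 * ((3 + √C0) * (1 + √(s7T D)) * √L) * (√(s7sqOn I x) * √(s7sqOn I y)) := by
    simp only [hF, Finset.sum_add_distrib]
    have nn : 0 ≤ √L * (√(s7sqOn I x) * √(s7sqOn I y)) := by positivity
    have nT := Real.sqrt_nonneg (s7T D)
    have nC := Real.sqrt_nonneg C0
    have q1 : (√(s7T D) + √C0 + 1) * (√L * (√(s7sqOn I x) * √(s7sqOn I y)))
        ≤ ((3 + √C0) * (1 + √(s7T D))) * (√L * (√(s7sqOn I x) * √(s7sqOn I y))) :=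
      mul_le_mul_of_nonneg_right (by nlinarith) nn
    have q2 : (√C0 + 3 * √(s7T D)) * (√L * (√(s7sqOn I x) * √(s7sqOn I y)))
        ≤ ((3 + √C0) * (1 + √(s7T D))) * (√L * (√(s7sqOn I x) * √(s7sqOn I y))) :=
      mul_le_mul_of_nonneg_right (by nlinarith) nn
    nlinarith
  calc _ ≤ c * ∑ u ∈ I, ∑ v ∈ I, F u v := s2
    _ ≤ c * (4 * ((3 + √C0) * (1 + √(s7T D)) * √L) * (√(s7sqOn I x) * √(s7sqOn I y))) :=
        mul_le_mul_of_nonneg_left s3 hc
    _ = _ := by ring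

end kernels

section avg

variable {ι : Type*} [Fintype ι] [DecidableEq ι]

omit [Fintype ι] [DecidableEq ι] in
theorem s7cc_card {R I : Finset ι} (hA : S7Allowed R I) (hl : 8 ≤ R.card) :
    (I.card : ℝ) ≤ R.card ∧ (R.card : ℝ) - 4 ≤ I.card ∧ (8 : ℝ) ≤ R.card ∧
    (R.card : ℝ) ^ 2 / 6 ≤ (I.card : ℝ) * ((I.card : ℝ) - 1) := by
  have h1 : (I.card : ℝ) ≤ R.card := by exact_mod_cast Finset.card_le_card hA.1
  have h2 : (R.card : ℝ) ≤ I.card + 4 := by exact_mod_cast hA.2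
  have h3 : (8 : ℝ) ≤ R.card := by exact_mod_cast hl
  refine ⟨h1, by linarith, h3, ?_⟩
  have h4 : ((R.card : ℝ) - 4) * ((R.card : ℝ) - 5) ≤ (I.card : ℝ) * ((I.card : ℝ) - 1) :=
    mul_le_mul (by linarith) (by linarith) (by linarith) (by linarith)
  nlinarith

omit [Fintype ι] in
theorem s7cc_avg_le {R I : Finset ι} (hA : S7Allowed R I) (hl : 8 ≤ R.card) (f : ι → ι → ℝ) (B : ℝ)
    (hB0 : 0 ≤ B) (hB : ∑ u ∈ I, ∑ v ∈ I.erase u, f u v ≤ B) :
    s7avg I f ≤ 6 * B / (R.card : ℝ) ^ 2 := by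
  obtain ⟨h1, h2, h3, h4⟩ := s7cc_card hA hl
  have hL2 : 0 < (R.card : ℝ) ^ 2 / 6 := by positivity
  unfold s7avg
  calc _ ≤ B / ((I.card : ℝ) * ((I.card : ℝ) - 1)) :=
        div_le_div_of_nonneg_right hB (hL2.le.trans h4)
    _ ≤ B / ((R.card : ℝ) ^ 2 / 6) := div_le_div_of_nonneg_left hB0 hL2 h4
    _ = _ := by field_simp

end avg

theorem s7_avgBasic : StS7AvgBasic := by
  refine ⟨12, by norm_num, ?_⟩
  intro ι _ _ R I x y D hl hA hx hy hs
  obtain ⟨h1, h2, h3, h4⟩ := s7cc_card hA hl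
  have hL0 : (0 : ℝ) < R.card := by linarith
  have nx := Real.sqrt_nonneg (s7sqOn I x)
  have ny := Real.sqrt_nonneg (s7sqOn I y)
  have nn : 0 ≤ √(s7sqOn I x) * √(s7sqOn I y) := mul_nonneg nx ny
  have sym : ∀ u v, D v u = D u v := by
    intro u v
    conv_lhs => rw [← hs]
    rfl
  have fin1 : 6 * ((R.card : ℝ) * (√(s7sqOn I x) * √(s7sqOn I y))) / (R.card : ℝ) ^ 2
      ≤ 12 / (R.card : ℝ) * (√(s7sqOn I x) * √(s7sqOn I y)) := by
    have e : 6 * ((R.card : ℝ) * (√(s7sqOn I x) * √(s7sqOn I y))) / (R.card : ℝ) ^ 2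
        = 6 / (R.card : ℝ) * (√(s7sqOn I x) * √(s7sqOn I y)) := by
      field_simp
    rw [e]
    refine mul_le_mul_of_nonneg_right ?_ nn
    exact div_le_div_of_nonneg_right (by norm_num) hL0.le
  refine ⟨?_, ?_, ?_, ?_⟩
  · refine (s7cc_avg_le hA hl _ ((R.card : ℝ) * (√(s7sqOn I x) * √(s7sqOn I y)))
      (by positivity) ?_).trans fin1
    calc ∑ u ∈ I, ∑ _v ∈ I.erase u, x u * y u ≤ ∑ u ∈ I, (R.card : ℝ) * (x u * y u) := by
          refine Finset.sum_le_sum (fun u _ => ?_)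
          rw [Finset.sum_const, nsmul_eq_mul]
          refine mul_le_mul_of_nonneg_right ?_ (mul_nonneg (hx u) (hy u))
          have : ((I.erase u).card : ℝ) ≤ I.card := by
            exact_mod_cast Finset.card_le_card (Finset.erase_subset _ _)
          linarith
      _ = (R.card : ℝ) * ∑ u ∈ I, x u * y u := by rw [Finset.mul_sum]
      _ ≤ _ := mul_le_mul_of_nonneg_left (s7cc_cs I x y) hL0.le
  · refine (s7cc_avg_le hA hl _ ((R.card : ℝ) * (√(s7sqOn I x) * √(s7sqOn I y)))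
      (by positivity) ?_).trans fin1
    calc ∑ u ∈ I, ∑ v ∈ I.erase u, x u * y v ≤ ∑ u ∈ I, ∑ v ∈ I, x u * y v :=
          Finset.sum_le_sum (fun u _ => Finset.sum_le_sum_of_subset_of_nonneg
            (Finset.erase_subset _ _) (fun v _ _ => mul_nonneg (hx u) (hy v)))
      _ = (∑ u ∈ I, x u) * (∑ v ∈ I, y v) := by rw [Finset.sum_mul_sum]
      _ ≤ (√(I.card : ℝ) * √(s7sqOn I x)) * (√(I.card : ℝ) * √(s7sqOn I y)) :=
          mul_le_mul (s7cc_sum_le I x) (s7cc_sum_le I y) (Finset.sum_nonneg (fun v _ => hy v))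
            (by positivity)
      _ = (I.card : ℝ) * (√(s7sqOn I x) * √(s7sqOn I y)) := by
          have := Real.mul_self_sqrt (Nat.cast_nonneg (α := ℝ) I.card)
          calc _ = (√(I.card : ℝ) * √(I.card : ℝ)) * (√(s7sqOn I x) * √(s7sqOn I y)) := by ring
            _ = _ := by rw [this]
      _ ≤ _ := mul_le_mul_of_nonneg_right h1 nn
  · have sx0 : 0 ≤ s7sqOn I x := Finset.sum_nonneg (fun s _ => sq_nonneg _)
    have sy0 : 0 ≤ s7sqOn I y := Finset.sum_nonneg (fun s _ => sq_nonneg _)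
    refine (s7cc_avg_le hA hl _ (s7sqOn I x * s7sqOn I y) (mul_nonneg sx0 sy0) ?_).trans ?_
    · calc ∑ u ∈ I, ∑ v ∈ I.erase u, (x u * y v) ^ 2 ≤ ∑ u ∈ I, ∑ v ∈ I, (x u * y v) ^ 2 :=
            Finset.sum_le_sum (fun u _ => Finset.sum_le_sum_of_subset_of_nonneg
              (Finset.erase_subset _ _) (fun v _ _ => sq_nonneg _))
        _ = _ := by
            rw [s7sqOn, s7sqOn, Finset.sum_mul_sum]
            refine Finset.sum_congr rfl (fun u _ => Finset.sum_congr rfl (fun v _ => by ring))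
    · rw [mul_div_right_comm]
      refine mul_le_mul_of_nonneg_right ?_ (mul_nonneg sx0 sy0)
      exact div_le_div_of_nonneg_right (by norm_num) (by positivity)
  · have hT0 : 0 ≤ s7T D := Finset.sum_nonneg (fun s _ => sq_nonneg _)
    have hDD : ∀ u, (D * D) u u = ∑ v, D u v ^ 2 := by
      intro u
      rw [Matrix.mul_apply]
      refine Finset.sum_congr rfl (fun v _ => ?_)
      rw [sym u v, sq]
    have hX0 : 0 ≤ s7X D := by
      rw [s7X, Matrix.trace]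
      refine Finset.sum_nonneg (fun u _ => ?_)
      rw [Matrix.diag_apply, hDD]
      exact Finset.sum_nonneg (fun v _ => sq_nonneg _)
    have dI : ∑ u ∈ I, D u u ^ 2 ≤ s7T D :=
      Finset.sum_le_univ_sum_of_nonneg (fun s => sq_nonneg _)
    have oI : ∑ u ∈ I, ∑ v ∈ I, D u v ^ 2 ≤ s7X D := by
      rw [s7X, Matrix.trace]
      simp only [Matrix.diag_apply, hDD]
      refine (Finset.sum_le_sum (fun u _ => Finset.sum_le_univ_sum_of_nonneg
        (fun v => sq_nonneg (D u v)))).trans ?_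
      exact Finset.sum_le_univ_sum_of_nonneg (fun u => Finset.sum_nonneg (fun v _ => sq_nonneg _))
    refine (s7cc_avg_le hA hl _ (2 * (R.card : ℝ) * s7T D + 2 * s7X D) (by positivity) ?_).trans ?_
    · calc ∑ u ∈ I, ∑ v ∈ I.erase u, (D u u ^ 2 + D v v ^ 2 + D u v ^ 2 + D v u ^ 2)
          ≤ ∑ u ∈ I, ∑ v ∈ I, (D u u ^ 2 + D v v ^ 2 + D u v ^ 2 + D v u ^ 2) :=
            Finset.sum_le_sum (fun u _ => Finset.sum_le_sum_of_subset_of_nonneg
              (Finset.erase_subset _ _) (fun v _ _ => by positivity))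
        _ = 2 * ((I.card : ℝ) * ∑ u ∈ I, D u u ^ 2) + 2 * ∑ u ∈ I, ∑ v ∈ I, D u v ^ 2 := by
            simp only [sym, Finset.sum_add_distrib, Finset.sum_const, nsmul_eq_mul, ← Finset.mul_sum]
            ring
        _ ≤ _ := by
            have : (I.card : ℝ) * ∑ u ∈ I, D u u ^ 2 ≤ (R.card : ℝ) * s7T D :=
              mul_le_mul h1 dI (Finset.sum_nonneg (fun s _ => sq_nonneg _)) hL0.le
            linarith
    · refine le_of_eq ?_
      field_simp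
      ring

theorem s7cc_H0_symm (l : ℕ) (σ h : ℝ) : (H0 l σ h)ᵀ = H0 l σ h := by
  obtain ⟨-, -, e01, e10⟩ := s7cb_H0_entries l σ h
  ext i j
  fin_cases i <;> fin_cases j
  · rfl
  · show H0 l σ h 1 0 = H0 l σ h 0 1
    rw [e01, e10]
  · show H0 l σ h 0 1 = H0 l σ h 1 0
    rw [e01, e10]
  · rfl

theorem s7cc_blk_symm {ι : Type*} (D : Matrix ι ι ℝ) (hs : Dᵀ = D) (u v : ι) :
    (s7blk D u v)ᵀ = s7blk D u v := by
  have sym : D v u = D u v := by
    conv_lhs => rw [← hs]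
    rfl
  rw [s7cfa_blk_eq]
  ext i j
  fin_cases i <;> fin_cases j <;> simp [sym]

/-- the pointwise bounds of Lemma 7.3 in kernel form. -/
theorem s7cc_pt (hmin C0 : ℝ) (hm : 0 < hmin) (hC0 : 0 < C0) :
    ∃ C ε0 : ℝ, ∃ l0 : ℕ, 0 < C ∧ 0 < ε0 ∧ ε0 ≤ 1 ∧ 8 ≤ l0 ∧
    ∀ (ι : Type) [Fintype ι] [DecidableEq ι] (σ h ε : ℝ) (R : Finset ι) (D : Matrix ι ι ℝ),
    S7Base hmin C0 ε σ h R D → ε ≤ ε0 → l0 ≤ R.card → ∀ u ∈ R, ∀ v ∈ R, u ≠ v →
    |s7H R.card σ h D u v 0 0| ≤ C * (1 / (R.card : ℝ) + |D v v|) ∧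
    |s7N1 R.card σ h D u v 0 0| ≤ C * (|D v v| + |D u v| + |D u u| / R.card) ∧
    |s7N1 R.card σ h D u v 1 1| ≤ C * (|D u u| + |D u v| + |D v v| / R.card) ∧
    |s7N1 R.card σ h D u v 0 1| ≤ C * (|D u v| + |D v v| + (|D u u| + |D v v|) / R.card) ∧
    |s7N1 R.card σ h D u v 1 0| ≤ C * (|D u v| + |D v v| + (|D u u| + |D v v|) / R.card) ∧
    |s7N2 R.card σ h D u v 0 0| ≤ C * ε * (|D v v| + |D u v| + |D u u| / R.card) ∧
    |s7N2 R.card σ h D u v 1 1| ≤ C * ε * (|D u u| + |D u v| + |D v v| / R.card) ∧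
    |s7N2 R.card σ h D u v 0 1| ≤ C * ε * (|D u v| + |D v v| + (|D u u| + |D v v|) / R.card) ∧
    |s7N2 R.card σ h D u v 1 0| ≤ C * ε * (|D u v| + |D v v| + (|D u u| + |D v v|) / R.card) := by
  obtain ⟨C, ε0, l0, hC, hε0, H⟩ := s7_coefPt hmin C0 hm hC0
  refine ⟨C, min ε0 1, max l0 8, hC, lt_min hε0 one_pos, min_le_right _ _, le_max_right _ _, ?_⟩
  intro ι _ _ σ h ε R D hB hε hl u hu v hv huv
  obtain ⟨-, -, hHs, h00, -, -, a00, a11, a01, b00, b11, b01⟩ :=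
    H ι σ h ε R D hB (hε.trans (min_le_left _ _)) ((le_max_left _ _).trans hl) u hu v hv huv
  have hε1 : ε ≤ 1 := hε.trans (min_le_right _ _)
  have hl8 : 8 ≤ R.card := (le_max_right _ _).trans hl
  have hL0 : (0 : ℝ) < R.card := by
    have : (8 : ℝ) ≤ R.card := by exact_mod_cast hl8
    linarith
  have na := abs_nonneg (D u u)
  have nb := abs_nonneg (D v v)
  have nc := abs_nonneg (D u v)
  have ea := hB.ent u u
  have hε00 : 0 ≤ ε := na.trans ea
  have hN1s : (s7N1 R.card σ h D u v)ᵀ = s7N1 R.card σ h D u v := by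
    rw [s7N1, Matrix.transpose_sub, hHs, s7cc_H0_symm]
  have hN2s : (s7N2 R.card σ h D u v)ᵀ = s7N2 R.card σ h D u v := by
    rw [s7N2, Matrix.transpose_add, Matrix.transpose_sub, Matrix.transpose_mul, Matrix.transpose_mul,
      hHs, s7cc_H0_symm, s7cc_blk_symm D hB.symm, Matrix.mul_assoc]
  have e1 : s7N1 R.card σ h D u v 1 0 = s7N1 R.card σ h D u v 0 1 := by
    conv_lhs => rw [← hN1s]
    rfl
  have e2 : s7N2 R.card σ h D u v 1 0 = s7N2 R.card σ h D u v 0 1 := by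
    conv_lhs => rw [← hN2s]
    rfl
  have a01' : |s7N1 R.card σ h D u v 0 1|
      ≤ C * (|D u v| + |D v v| + (|D u u| + |D v v|) / R.card) := by
    refine a01.trans (mul_le_mul_of_nonneg_left ?_ hC.le)
    have : |D u u| * |D v v| ≤ 1 * |D v v| := mul_le_mul_of_nonneg_right (ea.trans hε1) nb
    linarith
  have b01' : |s7N2 R.card σ h D u v 0 1|
      ≤ C * ε * (|D u v| + |D v v| + (|D u u| + |D v v|) / R.card) := by
    refine b01.trans ?_
    rw [mul_assoc]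
    refine mul_le_mul_of_nonneg_left ?_ hC.le
    have : |D u u| * |D v v| ≤ ε * |D v v| := mul_le_mul_of_nonneg_right ea nb
    have e : ε * (|D u u| + |D v v|) / (R.card : ℝ) = ε * ((|D u u| + |D v v|) / R.card) := by ring
    rw [e]
    nlinarith
  refine ⟨h00, a00, a11, a01', ?_, b00, b11, b01', ?_⟩
  · rw [e1]; exact a01'
  · rw [e2]; exact b01'

theorem s7_bilin : StS7Bilin := by
  intro hmin C0 hm hC0
  obtain ⟨C, ε0, l0, hC, hε0, hε01, hl08, H⟩ := s7cc_pt hmin C0 hm hC0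
  refine ⟨C * 24 * (3 + √C0), ε0, l0, by positivity, hε0, ?_⟩
  intro ι _ _ σ h ε R I D x y hB hε hl hA hx hy
  have hl8 : 8 ≤ R.card := hl08.trans hl
  obtain ⟨h1, h2, h3, h4⟩ := s7cc_card hA hl8
  have hL0 : (0 : ℝ) < R.card := by linarith
  have hL1 : (1 : ℝ) ≤ R.card := by linarith
  have hsL : 0 < √(R.card : ℝ) := Real.sqrt_pos.2 hL0
  have hsq : √(R.card : ℝ) * √(R.card : ℝ) = R.card := Real.mul_self_sqrt hL0.le
  have key : ∀ (N : ι → ι → Matrix (Fin 2) (Fin 2) ℝ) (c : ℝ), 0 ≤ c →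
      (∀ u ∈ I, ∀ v ∈ I.erase u, |N u v 0 0| ≤ c * (|D v v| + |D u v| + |D u u| / R.card)) →
      (∀ u ∈ I, ∀ v ∈ I.erase u, |N u v 1 1| ≤ c * (|D u u| + |D u v| + |D v v| / R.card)) →
      (∀ u ∈ I, ∀ v ∈ I.erase u,
        |N u v 0 1| ≤ c * (|D u v| + |D v v| + (|D u u| + |D v v|) / R.card)) →
      (∀ u ∈ I, ∀ v ∈ I.erase u,
        |N u v 1 0| ≤ c * (|D u v| + |D v v| + (|D u u| + |D v v|) / R.card)) →
      s7avg I (fun u v => s7absq (N u v) x y u v) ≤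
        c * 24 * (3 + √C0) * (1 + √(s7T D)) / ((R.card : ℝ) * √(R.card : ℝ)) *
          (√(s7sqOn I x) * √(s7sqOn I y)) := by
    intro N c hc n00 n11 n01 n10
    have hcore := s7cc_bilin_core hB.symm hB.row hB.ent (hε.trans hε01) h1 hL1 x y hx hy N c hc
      n00 n11 n01 n10
    refine (s7cc_avg_le hA hl8 _ _ (by positivity) hcore).trans (le_of_eq ?_)
    have e : (R.card : ℝ) ^ 2 = ((R.card : ℝ) * √(R.card : ℝ)) * √(R.card : ℝ) := by
      rw [mul_assoc, hsq, sq]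
    rw [e]
    field_simp
    ring
  have mem : ∀ u ∈ I, ∀ v ∈ I.erase u, u ∈ R ∧ v ∈ R ∧ u ≠ v := by
    intro u hu v hv
    exact ⟨hA.1 hu, hA.1 (Finset.mem_of_mem_erase hv), (Finset.ne_of_mem_erase hv).symm⟩
  have hε00 : 0 ≤ ε := by
    by_cases hne : Nonempty ι
    · obtain ⟨s⟩ := hne
      exact (abs_nonneg _).trans (hB.ent s s)
    · exfalso
      have : R.card = 0 := by
        rw [Finset.card_eq_zero, Finset.eq_empty_iff_forall_notMem]
        exact fun s _ => hne ⟨s⟩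
      omega
  constructor
  · refine key (fun u v => s7N1 R.card σ h D u v) C hC.le ?_ ?_ ?_ ?_ <;> intro u hu v hv <;>
      obtain ⟨m1, m2, m3⟩ := mem u hu v hv
    · exact (H ι σ h ε R D hB hε hl u m1 v m2 m3).2.1
    · exact (H ι σ h ε R D hB hε hl u m1 v m2 m3).2.2.1
    · exact (H ι σ h ε R D hB hε hl u m1 v m2 m3).2.2.2.1
    · exact (H ι σ h ε R D hB hε hl u m1 v m2 m3).2.2.2.2.1
  · have := key (fun u v => s7N2 R.card σ h D u v) (C * ε) (mul_nonneg hC.le hε00) ?_ ?_ ?_ ?_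
    · refine this.trans (le_of_eq ?_)
      ring
    all_goals
      intro u hu v hv
      obtain ⟨m1, m2, m3⟩ := mem u hu v hv
    · exact (H ι σ h ε R D hB hε hl u m1 v m2 m3).2.2.2.2.2.1
    · exact (H ι σ h ε R D hB hε hl u m1 v m2 m3).2.2.2.2.2.2.1
    · exact (H ι σ h ε R D hB hε hl u m1 v m2 m3).2.2.2.2.2.2.2.1
    · exact (H ι σ h ε R D hB hε hl u m1 v m2 m3).2.2.2.2.2.2.2.2

theorem s7cc_sum_erase_le {ι : Type*} [DecidableEq ι] (I : Finset ι) (u : ι) (f Kr : ι → ℝ) (c B : ℝ)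
    (hc : 0 ≤ c) (hK : ∀ v, 0 ≤ Kr v) (hf : ∀ v ∈ I.erase u, f v ≤ c * Kr v)
    (hB : ∑ v ∈ I, Kr v ≤ B) : ∑ v ∈ I.erase u, f v ≤ c * B := by
  calc ∑ v ∈ I.erase u, f v ≤ ∑ v ∈ I.erase u, c * Kr v := Finset.sum_le_sum hf
    _ ≤ ∑ v ∈ I, c * Kr v := Finset.sum_le_sum_of_subset_of_nonneg (Finset.erase_subset _ _)
        (fun v _ _ => mul_nonneg hc (hK v))
    _ = c * ∑ v ∈ I, Kr v := by rw [Finset.mul_sum]
    _ ≤ c * B := mul_le_mul_of_nonneg_left hB hc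

theorem s7_coefCond : StS7CoefCond := by
  intro hmin C0 hm hC0
  obtain ⟨C, ε0, l0, hC, hε0, hε01, hl08, H⟩ := s7cc_pt hmin C0 hm hC0
  refine ⟨C * (3 + √C0) + 2 * C ^ 2, ε0, l0, by positivity, hε0, ?_⟩
  intro ι _ _ σ h ε R I D hB hε hl hA u hu
  have hl8 : 8 ≤ R.card := hl08.trans hl
  obtain ⟨h1, h2, h3, h4⟩ := s7cc_card hA hl8
  have hL0 : (0 : ℝ) < R.card := by linarith
  have hL1 : (1 : ℝ) ≤ R.card := by linarith
  have hε00 : 0 ≤ ε := (abs_nonneg _).trans (hB.ent u u)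
  have nT := Real.sqrt_nonneg (s7T D)
  have nC := Real.sqrt_nonneg C0
  have nL := Real.sqrt_nonneg (R.card : ℝ)
  have mem : ∀ v ∈ I.erase u, u ∈ R ∧ v ∈ R ∧ u ≠ v := by
    intro v hv
    exact ⟨hA.1 hu, hA.1 (Finset.mem_of_mem_erase hv), (Finset.ne_of_mem_erase hv).symm⟩
  have A0 := s7cc_A0 hB.symm hB.row hB.ent (hε.trans hε01) h1 hL1 u
  have B0 := s7cc_B0 hB.symm hB.row hB.ent (hε.trans hε01) h1 hL1 u
  have K0 : ∀ v, 0 ≤ |D v v| + |D u v| + |D u u| / (R.card : ℝ) := fun v => by positivity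
  have K1 : ∀ v, 0 ≤ |D u v| + |D v v| + (|D u u| + |D v v|) / (R.card : ℝ) := fun v => by positivity
  have qA : (√(s7T D) + √C0 + 1) * √(R.card : ℝ)
      ≤ (3 + √C0) * ((1 + √(s7T D)) * √(R.card : ℝ)) := by
    rw [← mul_assoc]
    exact mul_le_mul_of_nonneg_right (by nlinarith) nL
  have qB : (√C0 + 2 * √(s7T D) + 1) * √(R.card : ℝ)
      ≤ (3 + √C0) * ((1 + √(s7T D)) * √(R.card : ℝ)) := by
    rw [← mul_assoc]
    exact mul_le_mul_of_nonneg_right (by nlinarith) nL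
  have nW : 0 ≤ (1 + √(s7T D)) * √(R.card : ℝ) := by positivity
  have up : ∀ c : ℝ, 0 ≤ c → C * c * ((3 + √C0) * ((1 + √(s7T D)) * √(R.card : ℝ)))
      ≤ (C * (3 + √C0) + 2 * C ^ 2) * c * (1 + √(s7T D)) * √(R.card : ℝ) := by
    intro c hc
    have : 0 ≤ 2 * C ^ 2 * c * ((1 + √(s7T D)) * √(R.card : ℝ)) := by positivity
    nlinarith
  refine ⟨?_, ?_, ?_, ?_, ?_⟩
  · have := s7cc_sum_erase_le I u (fun v => |s7N1 R.card σ h D u v 0 0|) _ C _ hC.le K0
      (fun v hv => (H ι σ h ε R D hB hε hl u (mem v hv).1 v (mem v hv).2.1 (mem v hv).2.2).2.1)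
      (A0.trans qA)
    have u1 := up 1 zero_le_one
    simp only [mul_one] at u1
    exact this.trans u1
  · have := s7cc_sum_erase_le I u (fun v => |s7N1 R.card σ h D u v 0 1|) _ C _ hC.le K1
      (fun v hv => (H ι σ h ε R D hB hε hl u (mem v hv).1 v (mem v hv).2.1 (mem v hv).2.2).2.2.2.1)
      (B0.trans qB)
    have u1 := up 1 zero_le_one
    simp only [mul_one] at u1
    exact this.trans u1
  · have := s7cc_sum_erase_le I u (fun v => |s7N2 R.card σ h D u v 0 0|) _ (C * ε) _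
      (mul_nonneg hC.le hε00) K0
      (fun v hv =>
        (H ι σ h ε R D hB hε hl u (mem v hv).1 v (mem v hv).2.1 (mem v hv).2.2).2.2.2.2.2.1)
      (A0.trans qA)
    exact this.trans (up ε hε00)
  · have := s7cc_sum_erase_le I u (fun v => |s7N2 R.card σ h D u v 0 1|) _ (C * ε) _
      (mul_nonneg hC.le hε00) K1
      (fun v hv =>
        (H ι σ h ε R D hB hε hl u (mem v hv).1 v (mem v hv).2.1 (mem v hv).2.2).2.2.2.2.2.2.2.1)
      (B0.trans qB)
    exact this.trans (up ε hε00)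
  · have hT0 : 0 ≤ s7T D := Finset.sum_nonneg (fun s _ => sq_nonneg _)
    have hsum : ∑ v ∈ I, (1 / (R.card : ℝ) ^ 2 + D v v ^ 2) ≤ 1 + s7T D := by
      rw [Finset.sum_add_distrib, Finset.sum_const, nsmul_eq_mul]
      have d1 : ∑ v ∈ I, D v v ^ 2 ≤ s7T D :=
        Finset.sum_le_univ_sum_of_nonneg (fun s => sq_nonneg _)
      have d2 : (I.card : ℝ) * (1 / (R.card : ℝ) ^ 2) ≤ 1 := by
        rw [mul_one_div, div_le_one (by positivity)]
        nlinarith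
      linarith
    have := s7cc_sum_erase_le I u (fun v => (s7H R.card σ h D u v 0 0) ^ 2)
      (fun v => 1 / (R.card : ℝ) ^ 2 + D v v ^ 2) (2 * C ^ 2) _ (by positivity)
      (fun v => by positivity)
      (fun v hv => by
        have hb := (H ι σ h ε R D hB hε hl u (mem v hv).1 v (mem v hv).2.1 (mem v hv).2.2).1
        have hsq : (s7H R.card σ h D u v 0 0) ^ 2 ≤ (C * (1 / (R.card : ℝ) + |D v v|)) ^ 2 := by
          rw [← sq_abs]
          exact pow_le_pow_left₀ (abs_nonneg _) hb 2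
        refine hsq.trans ?_
        have e1 : (1 / (R.card : ℝ) + |D v v|) ^ 2 ≤ 2 * (1 / (R.card : ℝ) ^ 2 + D v v ^ 2) := by
          have : (1 / (R.card : ℝ)) ^ 2 = 1 / (R.card : ℝ) ^ 2 := by rw [div_pow, one_pow]
          rw [← this, ← sq_abs (D v v)]
          nlinarith [sq_nonneg (1 / (R.card : ℝ) - |D v v|)]
        rw [mul_pow]
        have := mul_le_mul_of_nonneg_left e1 (sq_nonneg C)
        linarith)
      hsum
    refine this.trans ?_
    refine mul_le_mul_of_nonneg_right ?_ (by linarith)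
    have : 0 ≤ C * (3 + √C0) := by positivity
    linarith

end Claimed.Agent.R275
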