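import Claimed.Agent.R275.S7Defs

/-!
# Row 275, Section 7, package S7-CONT: continuation of a reference by exact updates (`boundary.tex` §7.2), statements

Owner of the statements: helper245.  Only definitions and `def St… : Prop`, no sorry.

KEY DEFINITION.  `s7cont X 𝒦 = (1 + X 𝒦)⁻¹ X`: "the inverse of `X⁻¹ + 𝒦`", defined without inverting `X`.
* the actual normalised inverse satisfies `W_π = s7cont W_{π₀} 𝒦`, `𝒦 = m_h (M_π - M_{π₀})`  (`StS7ContW`);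
* the reference is DEFINED by the same formula, `P̂_π = s7cont P̂₀ 𝒦`  (`s7Ref`), for every pairing `π` extending the stop `π₀`
  and every `h`: it depends only on the stop data and on the current matching, not on the order of exposure;
* semigroup law (`StS7ContAdd`) + low-rank form (`StS7ContLow`) give the one-step update `P̂' = P̂ - P̂ U Ĥ Uᵀ P̂` and
  the aggregate formula `P̂_t = P̂₀ - P̂₀ Ξ₀ H_t Ξ₀ᵀ P̂₀`, `H_t = H_{t0} (1 + D̂₀ H_{t0})⁻¹`, `H_{t0} = -σ h P_t`.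
-/

set_option autoImplicit false
set_option linter.unusedVariables false

namespace Claimed.Agent.R275

open Matrix

section Gen

variable {V : Type*} [Fintype V] [DecidableEq V] {K : Type*} [Field K]

/-- `(1 + X 𝒦)⁻¹ X` -/
noncomputable def s7cont (X 𝒦 : Matrix V V K) : Matrix V V K := (1 + X * 𝒦)⁻¹ * X

end Gen

/-- **S7-CONT-1** semigroup law. -/
def StS7ContAdd : Prop :=
  ∀ (K : Type) [Field K] (V : Type) [Fintype V] [DecidableEq V] (X K₁ K₂ : Matrix V V K),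
    IsUnit (1 + X * K₁) →
    (IsUnit (1 + X * (K₁ + K₂)) ↔ IsUnit (1 + s7cont X K₁ * K₂)) ∧
    (IsUnit (1 + X * (K₁ + K₂)) → s7cont (s7cont X K₁) K₂ = s7cont X (K₁ + K₂))

/-- **S7-CONT-2** symmetry and push-through. -/
def StS7ContSymm : Prop :=
  ∀ (K : Type) [Field K] (V : Type) [Fintype V] [DecidableEq V] (X 𝒦 : Matrix V V K),
    IsUnit (1 + X * 𝒦) →
    IsUnit (1 + 𝒦 * X) ∧ s7cont X 𝒦 = X * (1 + 𝒦 * X)⁻¹ ∧
    s7cont X 𝒦 = X - X * 𝒦 * s7cont X 𝒦 ∧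
    (Xᵀ = X → 𝒦ᵀ = 𝒦 → (s7cont X 𝒦)ᵀ = s7cont X 𝒦)

/-- **S7-CONT-3** low-rank form, `𝒦 = U κ Uᵀ`, `Γ = Uᵀ X U` (`κ` need not be invertible). -/
def StS7ContLow : Prop :=
  ∀ (K : Type) [Field K] (V m : Type) [Fintype V] [DecidableEq V] [Fintype m] [DecidableEq m]
    (X : Matrix V V K) (U : Matrix V m K) (κ : Matrix m m K),
    IsUnit (1 + Uᵀ * X * U * κ) →
    IsUnit (1 + X * (U * κ * Uᵀ)) ∧
    s7cont X (U * κ * Uᵀ) = X - X * U * (κ * (1 + Uᵀ * X * U * κ)⁻¹) * Uᵀ * X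

/-- **S7-CONT-4** Woodbury form for invertible `κ`: `κ (1 + Γ κ)⁻¹ = (κ⁻¹ + Γ)⁻¹`. -/
def StS7ContWood : Prop :=
  ∀ (K : Type) [Field K] (m : Type) [Fintype m] [DecidableEq m] (Γ κ : Matrix m m K),
    IsUnit κ → (IsUnit (κ⁻¹ + Γ) ↔ IsUnit (1 + Γ * κ)) ∧
    (IsUnit (κ⁻¹ + Γ) → κ * (1 + Γ * κ)⁻¹ = (κ⁻¹ + Γ)⁻¹)

/-! ## Pairings extending the stop -/

namespace PPair

variable {n d : ℕ}

/-- `π` extends `π₀`: every pair of `π₀` is a pair of `π`. -/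
def Ext (π₀ π : PPair n d) : Prop := ∀ x, ¬ π₀.Unres x → π.mate x = π₀.mate x

end PPair

section Ref

variable {n d : ℕ} {K : Type*} [Field K]

/-- the normalised precision increment `𝒦 = m_h (M_π - M_{π₀})` -/
def s7Kinc (π₀ π : PPair n d) (σ h : K) : Matrix (Fin n) (Fin n) K :=
  mh h • (π.Mmat σ h - π₀.Mmat σ h)

/-- the continued reference `P̂_π` with initial value `X₀ = P̂₀` at the stop `π₀` -/
noncomputable def s7Ref (π₀ π : PPair n d) (X₀ : Matrix (Fin n) (Fin n) K) (σ h : K) :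
    Matrix (Fin n) (Fin n) K :=
  s7cont X₀ (s7Kinc π₀ π σ h)

/-- stub compression minus identity, `Ξᵀ X Ξ - Π_l`, of a vertex-space matrix (`X = W`: `PPair.Dst`) -/
def s7Dof (π : PPair n d) (X : Matrix (Fin n) (Fin n) K) : Matrix (Stub n d) (Stub n d) K :=
  (π.Xi K)ᵀ * X * π.Xi K - π.PiS K

/-- the row `Ξᵀ X e_i` of a global vertex `i` -/
def s7row (π : PPair n d) (X : Matrix (Fin n) (Fin n) K) (i : Fin n) : Stub n d → K :=
  fun x => ∑ w, π.Xi K w x * X w i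

/-- one numerical update `X - X U (H₀⁻¹ + (Uᵀ X U - G₀))⁻¹ Uᵀ X` -/
noncomputable def s7upd (π : PPair n d) (X : Matrix (Fin n) (Fin n) K) (σ h : K) (u v : Stub n d) :
    Matrix (Fin n) (Fin n) K :=
  X - X * π.Upair K u v * ((H0 π.l σ h)⁻¹ + (π.blk X u v - G0 K π.l))⁻¹ * (π.Upair K u v)ᵀ * X

/-- the matching operator `P_t` on the contrasts of `S₀`: swaps of the pairs added since the stop, averaging on the
current unresolved stubs -/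
def s7Pt (π₀ π : PPair n d) (K : Type*) [Field K] : Matrix (Stub n d) (Stub n d) K :=
  π₀.PiS K * π.Pstar K * π₀.PiS K

/-- `H_{t0} = -σ h P_t` -/
def s7Ht0 (π₀ π : PPair n d) (σ h : K) : Matrix (Stub n d) (Stub n d) K := -(σ * h) • s7Pt π₀ π K

/-- `H_t = H_{t0} (1 + D̂₀ H_{t0})⁻¹` -/
noncomputable def s7Ht (π₀ π : PPair n d) (X₀ : Matrix (Fin n) (Fin n) K) (σ h : K) :
    Matrix (Stub n d) (Stub n d) K :=
  s7Ht0 π₀ π σ h * (1 + s7Dof π₀ X₀ * s7Ht0 π₀ π σ h)⁻¹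

end Ref

/-- **S7-CONT-5** algebra of `P_t`:  `P_t = P_*^π - P_*^{π₀}`, `P_t² = Π_{S₀} - Π_S`, `P_t Π_S = 0`, symmetric, and
`Ξ_π = Ξ₀ Π_S`, `Π_{S₀} Π_S = Π_S`. -/
def StS7PtAlg : Prop :=
  ∀ (K : Type) [Field K] [CharZero K] (n d : ℕ) (π₀ π : PPair n d), π₀.Ext π →
    s7Pt π₀ π K = π.Pstar K - π₀.Pstar K ∧
    s7Pt π₀ π K * s7Pt π₀ π K = π₀.PiS K - π.PiS K ∧
    s7Pt π₀ π K * π.PiS K = 0 ∧ π.PiS K * s7Pt π₀ π K = 0 ∧
    (s7Pt π₀ π K)ᵀ = s7Pt π₀ π K ∧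
    π₀.PiS K * π.PiS K = π.PiS K ∧ π.Xi K = π₀.Xi K * π.PiS K

/-- **S7-CONT-6** the precision increment since the stop: `M_π - M_{π₀} = Ξ₀ [h (Π_{S₀} - Π_S) - σ P_t] Ξ₀ᵀ`. -/
def StS7Kinc : Prop :=
  ∀ (K : Type) [Field K] [CharZero K] (n d : ℕ) (π₀ π : PPair n d) (σ h : K), π₀.Ext π →
    π.Mmat σ h - π₀.Mmat σ h =
      π₀.Xi K * (h • (π₀.PiS K - π.PiS K) - σ • s7Pt π₀ π K) * (π₀.Xi K)ᵀ

/-- **S7-CONT-7** the ideal Woodbury coefficient: with `κ = m_h [h (Π_{S₀} - Π_S) - σ P_t]`,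
`1 + Π_{S₀} κ` is invertible and `κ (1 + Π_{S₀} κ)⁻¹ = -σ h P_t`. -/
def StS7Ideal : Prop :=
  ∀ (K : Type) [Field K] [CharZero K] (n d : ℕ) (π₀ π : PPair n d) (σ h : K), π₀.Ext π → σ ^ 2 = 1 →
    h ^ 2 ≠ 1 →
    let κ := mh h • (h • (π₀.PiS K - π.PiS K) - σ • s7Pt π₀ π K)
    IsUnit (1 + π₀.PiS K * κ) ∧ κ * (1 + π₀.PiS K * κ)⁻¹ = s7Ht0 π₀ π σ h

/-- **S7-CONT-8** the aggregate formula (text after the definition of `H_t`). -/
def StS7Aggregate : Prop :=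
  ∀ (K : Type) [Field K] [CharZero K] (n d : ℕ) (π₀ π : PPair n d) (X₀ : Matrix (Fin n) (Fin n) K)
    (σ h : K), π₀.Ext π → σ ^ 2 = 1 → h ^ 2 ≠ 1 →
    IsUnit (1 + s7Dof π₀ X₀ * s7Ht0 π₀ π σ h) →
    IsUnit (1 + X₀ * s7Kinc π₀ π σ h) ∧
    s7Ref π₀ π X₀ σ h = X₀ - X₀ * π₀.Xi K * s7Ht π₀ π X₀ σ h * (π₀.Xi K)ᵀ * X₀ ∧
    s7Ht π₀ π X₀ σ h * π.PiS K = 0 ∧ π.PiS K * s7Ht π₀ π X₀ σ h = 0 ∧
    s7Ht π₀ π X₀ σ h = (1 + s7Ht0 π₀ π σ h * s7Dof π₀ X₀)⁻¹ * s7Ht0 π₀ π σ h ∧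
    s7Dof π (s7Ref π₀ π X₀ σ h) =
      π.PiS K * (s7Dof π₀ X₀ - s7Dof π₀ X₀ * s7Ht π₀ π X₀ σ h * s7Dof π₀ X₀) * π.PiS K ∧
    ∀ i, s7row π (s7Ref π₀ π X₀ σ h) i =
      π.PiS K *ᵥ (s7row π₀ X₀ i - (s7Dof π₀ X₀ * s7Ht π₀ π X₀ σ h) *ᵥ s7row π₀ X₀ i)

/-- **S7-CONT-9** one step of the continuation is the numerical update `s7upd` (for `W` and for the reference alike). -/
def StS7ContStep : Prop :=
  ∀ (K : Type) [Field K] [CharZero K] (n d : ℕ) (π₀ π : PPair n d) (X₀ : Matrix (Fin n) (Fin n) K)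
    (σ h : K) (u v : Stub n d), π₀.Ext π → π.Unres u → π.Unres v → u ≠ v → 2 < π.l → σ ^ 2 = 1 →
    h ≠ 0 → h ^ 2 ≠ 1 → IsUnit (1 + X₀ * s7Kinc π₀ π σ h) →
    IsUnit ((H0 π.l σ h)⁻¹ + (π.blk (s7Ref π₀ π X₀ σ h) u v - G0 K π.l)) →
    IsUnit (1 + X₀ * s7Kinc π₀ (π.resolve u v) σ h) ∧
    s7Ref π₀ (π.resolve u v) X₀ σ h = s7upd π (s7Ref π₀ π X₀ σ h) σ h u v

/-- **S7-CONT-10** the actual inverse is the continuation of the stop inverse. -/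
def StS7ContW : Prop :=
  ∀ (K : Type) [Field K] [CharZero K] (n d : ℕ) (π₀ π : PPair n d) (σ h : K), 0 < n → π₀.Ext π →
    h ≠ 0 → h ^ 2 ≠ 1 →
    IsUnit (π₀.Mmat σ h * Pi1 K n + J1 K n) → IsUnit (π.Mmat σ h * Pi1 K n + J1 K n) →
    IsUnit (1 + π₀.Wmat σ h * s7Kinc π₀ π σ h) ∧ π.Wmat σ h = s7Ref π₀ π (π₀.Wmat σ h) σ h

/-- **S7-CONT-11** bridge to layer 1: the update `s7upd` of a symmetric `X` with `X 1 = 0` acts on the stub compression, on the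
global rows and on the global entries by `s7Dstep`, `s7rstep`, `s7q`. -/
def StS7Bridge : Prop :=
  ∀ (K : Type) [Field K] [CharZero K] (n d : ℕ) (π : PPair n d) (X : Matrix (Fin n) (Fin n) K)
    (σ h : K) (u v : Stub n d), π.Unres u → π.Unres v → u ≠ v → 2 < π.l → Xᵀ = X →
    π.blk X u v - G0 K π.l = s7blk (s7Dof π X) u v ∧
    s7Dof (π.resolve u v) (s7upd π X σ h u v) = s7Dstep σ h π.unres (s7Dof π X) u v ∧
    (∀ i, s7row (π.resolve u v) (s7upd π X σ h u v) i =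
      s7rstep σ h π.unres (s7Dof π X) (s7row π X i) 0 u v) ∧
    ∀ i j, s7upd π X σ h u v i j =
      X i j - s7q (s7H π.l σ h (s7Dof π X) u v) (s7pv (s7row π X i) u v) (s7pv (s7row π X j) u v)

end Claimed.Agent.R275
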