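import Claimed.Agent.R275.S7Cont

/-!
# Row 275, Section 7, package S7-CONT-A: general algebra of `s7cont X 𝒦 = (1 + X 𝒦)⁻¹ X`.
Proofs of `StS7ContAdd`, `StS7ContSymm`, `StS7ContLow`, `StS7ContWood` (statements: helper245).  Proofs: helper258.
-/

set_option autoImplicit false

namespace Claimed.Agent.R275

open Matrix

section Aux

variable {V : Type*} [Fintype V] [DecidableEq V] {K : Type*} [Field K]

theorem s7ca_isUnit_mul_iff (A B : Matrix V V K) : IsUnit (A * B) ↔ IsUnit A ∧ IsUnit B := by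
  rw [Matrix.isUnit_iff_isUnit_det, Matrix.isUnit_iff_isUnit_det, Matrix.isUnit_iff_isUnit_det,
    Matrix.det_mul, IsUnit.mul_iff]

theorem s7ca_isUnit_comm {m : Type*} [Fintype m] [DecidableEq m] (A : Matrix V m K)
    (B : Matrix m V K) : IsUnit (1 + A * B) ↔ IsUnit (1 + B * A) := by
  rw [Matrix.isUnit_iff_isUnit_det, Matrix.isUnit_iff_isUnit_det, Matrix.det_one_add_mul_comm]

theorem s7ca_inv_mul_eq {m : Type*} [Fintype m] (B : Matrix V V K) (hB : IsUnit B)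
    (X R : Matrix V m K) (h : B * R = X) : B⁻¹ * X = R := by
  rw [← h]
  exact Matrix.nonsing_inv_mul_cancel_left B R ((Matrix.isUnit_iff_isUnit_det _).1 hB)

end Aux

theorem s7_contSymm : StS7ContSymm := by
  intro K _ V _ _ X 𝒦 hu
  have hu' : IsUnit (1 + 𝒦 * X) := (s7ca_isUnit_comm X 𝒦).1 hu
  have hd := (Matrix.isUnit_iff_isUnit_det _).1 hu
  have hd' := (Matrix.isUnit_iff_isUnit_det _).1 hu'
  have hpush : s7cont X 𝒦 = X * (1 + 𝒦 * X)⁻¹ := by
    unfold s7cont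
    apply s7ca_inv_mul_eq _ hu
    have e : (1 + X * 𝒦) * X = X * (1 + 𝒦 * X) := by
      rw [Matrix.add_mul, Matrix.mul_add, Matrix.one_mul, Matrix.mul_one, Matrix.mul_assoc]
    rw [← Matrix.mul_assoc, e, Matrix.mul_assoc, Matrix.mul_nonsing_inv _ hd', Matrix.mul_one]
  refine ⟨hu', hpush, ?_, ?_⟩
  · have e : (1 + X * 𝒦) * s7cont X 𝒦 = X := by
      unfold s7cont
      rw [← Matrix.mul_assoc, Matrix.mul_nonsing_inv _ hd, Matrix.one_mul]
    rw [Matrix.add_mul, Matrix.one_mul] at e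
    exact eq_sub_of_add_eq e
  · intro hX h𝒦
    conv_lhs => unfold s7cont
    rw [Matrix.transpose_mul, Matrix.transpose_nonsing_inv, Matrix.transpose_add,
      Matrix.transpose_one, Matrix.transpose_mul, hX, h𝒦, hpush]

theorem s7_contAdd : StS7ContAdd := by
  intro K _ V _ _ X K₁ K₂ hu
  have hd := (Matrix.isUnit_iff_isUnit_det _).1 hu
  have e : 1 + X * (K₁ + K₂) = (1 + X * K₁) * (1 + s7cont X K₁ * K₂) := by
    unfold s7cont
    rw [Matrix.mul_add (1 + X * K₁), Matrix.mul_one, ← Matrix.mul_assoc, ← Matrix.mul_assoc,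
      Matrix.mul_nonsing_inv _ hd, Matrix.one_mul, Matrix.mul_add, add_assoc]
  refine ⟨?_, ?_⟩
  · rw [e, s7ca_isUnit_mul_iff]
    exact ⟨fun h => h.2, fun h => ⟨hu, h⟩⟩
  · intro _
    conv_rhs => unfold s7cont
    rw [e, Matrix.mul_inv_rev, Matrix.mul_assoc]
    rfl

theorem s7_contLow : StS7ContLow := by
  intro K _ V m _ _ _ _ X U κ hu
  have hd := (Matrix.isUnit_iff_isUnit_det _).1 hu
  have hB : IsUnit (1 + X * (U * κ * Uᵀ)) := by
    have e1 : X * (U * κ * Uᵀ) = (X * U) * (κ * Uᵀ) := by simp only [Matrix.mul_assoc]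
    have e2 : (κ * Uᵀ) * (X * U) = κ * (Uᵀ * X * U) := by simp only [Matrix.mul_assoc]
    rw [e1, s7ca_isUnit_comm, e2, s7ca_isUnit_comm]
    exact hu
  refine ⟨hB, ?_⟩
  unfold s7cont
  apply s7ca_inv_mul_eq _ hB
  set W : Matrix m m K := (1 + Uᵀ * X * U * κ)⁻¹ with hW
  set a : Matrix V m K := X * U * κ with ha
  have e1 : X * (U * κ * Uᵀ) = a * Uᵀ := by simp only [ha, Matrix.mul_assoc]
  have e2 : X * U * (κ * W) * Uᵀ * X = a * W * (Uᵀ * X) := by simp only [ha, Matrix.mul_assoc]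
  have e3 : Uᵀ * a * W = 1 - W := by
    have h1 : (1 + Uᵀ * X * U * κ) * W = 1 := Matrix.mul_nonsing_inv _ hd
    rw [Matrix.add_mul, Matrix.one_mul] at h1
    have h2 : Uᵀ * a = Uᵀ * X * U * κ := by simp only [ha, Matrix.mul_assoc]
    rw [h2]
    exact eq_sub_of_add_eq' h1
  rw [e1, e2]
  calc (1 + a * Uᵀ) * (X - a * W * (Uᵀ * X))
      = X - a * W * (Uᵀ * X) + a * (Uᵀ * X) - a * (Uᵀ * a * W) * (Uᵀ * X) := by
        simp only [Matrix.add_mul, Matrix.mul_sub, Matrix.one_mul, Matrix.mul_assoc]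
        abel
    _ = X := by
        rw [e3, Matrix.mul_sub, Matrix.mul_one, Matrix.sub_mul]
        abel

theorem s7_contWood : StS7ContWood := by
  intro K _ m _ _ Γ κ hκ
  have hd := (Matrix.isUnit_iff_isUnit_det _).1 hκ
  have hκi : IsUnit κ⁻¹ := by
    rw [Matrix.isUnit_iff_isUnit_det]
    exact Matrix.isUnit_nonsing_inv_det κ hd
  have e : κ⁻¹ + Γ = (1 + Γ * κ) * κ⁻¹ := by
    rw [Matrix.add_mul, Matrix.one_mul, Matrix.mul_assoc, Matrix.mul_nonsing_inv _ hd,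
      Matrix.mul_one]
  refine ⟨?_, ?_⟩
  · rw [e, s7ca_isUnit_mul_iff]
    exact ⟨fun h => h.1, fun h => ⟨h, hκi⟩⟩
  · intro _
    rw [e, Matrix.mul_inv_rev, Matrix.nonsing_inv_nonsing_inv _ hd]

end Claimed.Agent.R275
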