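import Claimed.Agent.R275.S7Cont
import Claimed.Agent.R275.L41C

/-!
# Row 275, Section 7, package S7-CONT-B: the matching operator `P_t` (`boundary.tex` 352-375)

Proofs of `StS7PtAlg`, `StS7Kinc`, `StS7Ideal` (statements: `S7Cont.lean`, helper245).  Owner of this file: helper8.

ROUTE (no entrywise combinatorics beyond one relation).  Write `P = P_*^π`, `P₀ = P_*^{π₀}`.
* `Π_S = 1 - P²` (`s7ctb_PiS_eq`), `Ξ = C Π_S` (`s7ctb_Xi_eq`), `A_e = C P Cᵀ` (L41C), `𝒟 = Ξ Ξᵀ` (L41B), `P³ = P`, `Pᵀ = P` (L41C);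
* if `π` extends `π₀` then `P₀² P = P₀` (`s7ctb_key`): the only place where the pairings are inspected;
* everything else is algebra in a ring with `a³ = a`, `b³ = b`, `b² a = b = a b²` (`s7ctb_ring`).
-/

set_option autoImplicit false
set_option linter.unusedVariables false
set_option linter.unusedSectionVars false

namespace Claimed.Agent.R275

open Matrix

/-! ## ring algebra -/

section Ring

variable {R : Type*} [Ring R] {a b : R}

theorem s7ctb_ab (h03 : b * b * b = b) (hk' : a * b * b = b) : a * b = b * b := by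
  linear_combination (norm := noncomm_ring) hk' * b - a * h03

theorem s7ctb_ba (h03 : b * b * b = b) (hk : b * b * a = b) : b * a = b * b := by
  linear_combination (norm := noncomm_ring) b * hk - h03 * a

theorem s7ctb_r1 (h03 : b * b * b = b) (hk : b * b * a = b) (hk' : a * b * b = b) :
    (1 - b * b) * a * (1 - b * b) = a - b := by
  linear_combination (norm := noncomm_ring) -hk' - hk + hk * b * b + h03

theorem s7ctb_r2 (h03 : b * b * b = b) (hk : b * b * a = b) (hk' : a * b * b = b) :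
    (a - b) * (a - b) = (1 - b * b) - (1 - a * a) := by
  linear_combination (norm := noncomm_ring) -(s7ctb_ab h03 hk') - s7ctb_ba h03 hk

theorem s7ctb_r3 (h3 : a * a * a = a) (h03 : b * b * b = b) (hk : b * b * a = b) :
    (a - b) * (1 - a * a) = 0 := by
  linear_combination (norm := noncomm_ring) -h3 + s7ctb_ba h03 hk * a + hk

theorem s7ctb_r4 (h3 : a * a * a = a) (h03 : b * b * b = b) (hk' : a * b * b = b) :
    (1 - a * a) * (a - b) = 0 := by
  linear_combination (norm := noncomm_ring) -h3 + a * s7ctb_ab h03 hk' + hk'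

theorem s7ctb_r5 (h03 : b * b * b = b) (hk : b * b * a = b) :
    (1 - b * b) * (1 - a * a) = 1 - a * a := by
  linear_combination (norm := noncomm_ring) hk * a + s7ctb_ba h03 hk

theorem s7ctb_r5' (h03 : b * b * b = b) (hk' : a * b * b = b) :
    (1 - a * a) * (1 - b * b) = 1 - a * a := by
  linear_combination (norm := noncomm_ring) a * hk' + s7ctb_ab h03 hk'

theorem s7ctb_idem (h3 : a * a * a = a) : (1 - a * a) * (1 - a * a) = 1 - a * a := by
  linear_combination (norm := noncomm_ring) h3 * a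

end Ring

namespace PPair

variable {n d : ℕ} (π : PPair n d) (K : Type*) [Field K] [CharZero K]

/-- `Π_S = 1 - P_*²` -/
theorem s7ctb_PiS_eq : π.PiS K = 1 - π.Pstar K * π.Pstar K := by
  ext x y
  rw [Matrix.sub_apply, Pstar_sq_apply, Matrix.one_apply, PiS]
  by_cases hx : π.Unres x <;> by_cases hy : π.Unres y
  · simp [hx, hy]
  · have : x ≠ y := fun e => hy (e ▸ hx)
    simp [hx, hy, this]
  · simp [hx, hy]
  · simp [hx, hy]

theorem s7ctb_PiS_transpose : (π.PiS K)ᵀ = π.PiS K := by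
  rw [s7ctb_PiS_eq, Matrix.transpose_sub, Matrix.transpose_one, Matrix.transpose_mul, Pstar_transpose]

theorem s7ctb_PiS_idem : π.PiS K * π.PiS K = π.PiS K := by
  rw [s7ctb_PiS_eq]
  exact s7ctb_idem (π.Pstar_cube' K)

/-- `Ξᵀ = Π_S Cᵀ` -/
theorem s7ctb_XiT_eq : (π.Xi K)ᵀ = π.PiS K * (Cinc K n d)ᵀ := by
  ext x w
  rw [s7ctb_PiS_eq, Matrix.sub_mul, Matrix.one_mul, Matrix.sub_apply, Matrix.mul_apply]
  have e : ∑ y, (π.Pstar K * π.Pstar K) x y * (Cinc K n d)ᵀ y w =
      ∑ y : Stub n d, (π.Pstar K * π.Pstar K) x y * (if y.1 = w then (1 : K) else 0) := rfl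
  rw [e, Pstar_sq_row]
  simp only [Matrix.transpose_apply, Xi, Cinc, xi_apply]
  by_cases hx : π.Unres x
  · simp only [hx, if_true]
    rw [div_eq_mul_inv, mul_comm]
  · simp [hx]

/-- `Ξ = C Π_S` -/
theorem s7ctb_Xi_eq : π.Xi K = Cinc K n d * π.PiS K := by
  have h := congrArg Matrix.transpose (π.s7ctb_XiT_eq K)
  rwa [Matrix.transpose_transpose, Matrix.transpose_mul, Matrix.transpose_transpose, s7ctb_PiS_transpose] at h

/-- `𝒟 = C Π_S Cᵀ` -/
theorem s7ctb_Dcal_eq : π.Dcal K = Cinc K n d * π.PiS K * (Cinc K n d)ᵀ := by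
  rw [Dcal_eq_Xi_mul, s7ctb_XiT_eq, s7ctb_Xi_eq, Matrix.mul_assoc, ← Matrix.mul_assoc (π.PiS K), s7ctb_PiS_idem,
    Matrix.mul_assoc]

variable {π} {π₀ : PPair n d}

theorem s7ctb_ext_unres (h : π₀.Ext π) {x : Stub n d} (hx : π.Unres x) : π₀.Unres x := by
  by_contra h0
  exact h0 ((h x h0).symm.trans hx)

theorem s7ctb_ext_mate' (h : π₀.Ext π) {y : Stub n d} (hy : π₀.Unres (π.mate y)) : π₀.Unres y := by
  by_contra h0
  rw [h y h0] at hy
  exact π₀.unres_mate h0 hy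

theorem s7ctb_ext_mate (h : π₀.Ext π) (y : Stub n d) : π₀.Unres (π.mate y) ↔ π₀.Unres y := by
  refine ⟨s7ctb_ext_mate' h, fun hy => s7ctb_ext_mate' h ?_⟩
  rwa [π.mate_mate]

/-- the indicator of `S₀` is fixed by `P_*^π` -/
theorem s7ctb_colsum (h : π₀.Ext π) (y : Stub n d) :
    ∑ z, (if π₀.Unres z then (1 : K) else 0) * π.Pstar K z y = if π₀.Unres y then 1 else 0 := by
  have hs : ∀ z, π.Pstar K z y = π.Pstar K y z := fun z => congrFun (congrFun (π.Pstar_transpose K) y) z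
  simp only [hs]
  by_cases hy : π.Unres y
  · have h1 : ∀ z, (if π₀.Unres z then (1 : K) else 0) * π.Pstar K y z = π.Pstar K y z * 1 := by
      intro z
      simp only [Pstar, hy, if_true]
      by_cases hz : π.Unres z
      · simp [hz, s7ctb_ext_unres h hz]
      · simp [hz]
    simp only [h1]
    have h2 := congrFun (π.Pstar_mulVec_one K) y
    simp only [Matrix.mulVec, dotProduct] at h2
    rw [h2, if_pos (s7ctb_ext_unres h hy)]
  · simp only [Pstar, hy, if_false, mul_ite, mul_one, mul_zero, Finset.sum_ite_eq, Finset.mem_univ, if_true]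
    simp only [s7ctb_ext_mate h y]

/-- **the only relation between the two matchings**: `P₀² P = P₀` -/
theorem s7ctb_key (h : π₀.Ext π) : π₀.Pstar K * π₀.Pstar K * π.Pstar K = π₀.Pstar K := by
  ext x y
  rw [Matrix.mul_apply]
  simp only [Pstar_sq_apply]
  by_cases hx : π₀.Unres x
  · simp only [hx, if_true]
    have e : ∀ z, (if π₀.Unres z then (π₀.l : K)⁻¹ else 0) * π.Pstar K z y =
        (π₀.l : K)⁻¹ * ((if π₀.Unres z then (1 : K) else 0) * π.Pstar K z y) := by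
      intro z
      split_ifs <;> simp
    rw [Finset.sum_congr rfl fun z _ => e z, ← Finset.mul_sum, s7ctb_colsum K h y]
    simp only [Pstar, hx, if_true]
    split_ifs <;> simp
  · have hx' : ¬ π.Unres x := fun h' => hx (s7ctb_ext_unres h h')
    simp only [hx, if_false, ite_mul, one_mul, zero_mul, Finset.sum_ite_eq, Finset.mem_univ, if_true]
    simp only [Pstar, hx, hx', if_false, h x hx]

theorem s7ctb_key' (h : π₀.Ext π) : π.Pstar K * π₀.Pstar K * π₀.Pstar K = π₀.Pstar K := by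
  have h1 := congrArg Matrix.transpose (s7ctb_key K h)
  simpa only [Matrix.transpose_mul, Pstar_transpose, ← Matrix.mul_assoc] using h1

end PPair

/-- **S7-CONT-5** -/
theorem s7PtAlg : StS7PtAlg := by
  intro K _ _ n d π₀ π hE
  have h3 := π.Pstar_cube' K
  have h03 := π₀.Pstar_cube' K
  have hk := PPair.s7ctb_key K hE
  have hk' := PPair.s7ctb_key' K hE
  have hPt : s7Pt π₀ π K = π.Pstar K - π₀.Pstar K := by
    rw [s7Pt, PPair.s7ctb_PiS_eq]
    exact s7ctb_r1 h03 hk hk'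
  have h5 : π₀.PiS K * π.PiS K = π.PiS K := by
    rw [π.s7ctb_PiS_eq, π₀.s7ctb_PiS_eq]
    exact s7ctb_r5 h03 hk
  refine ⟨hPt, ?_, ?_, ?_, ?_, h5, ?_⟩
  · rw [hPt, π.s7ctb_PiS_eq, π₀.s7ctb_PiS_eq]
    exact s7ctb_r2 h03 hk hk'
  · rw [hPt, π.s7ctb_PiS_eq]
    exact s7ctb_r3 h3 h03 hk
  · rw [hPt, π.s7ctb_PiS_eq]
    exact s7ctb_r4 h3 h03 hk'
  · rw [hPt, Matrix.transpose_sub, PPair.Pstar_transpose, PPair.Pstar_transpose]
  · rw [π.s7ctb_Xi_eq, π₀.s7ctb_Xi_eq, Matrix.mul_assoc, h5]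

/-- **S7-CONT-6** -/
theorem s7KincPf : StS7Kinc := by
  intro K _ _ n d π₀ π σ h hE
  obtain ⟨hPt, -, -, -, -, hPP, -⟩ := s7PtAlg K n d π₀ π hE
  have h00 := π₀.s7ctb_PiS_idem K
  have hPP' : π.PiS K * π₀.PiS K = π.PiS K := by
    have h1 := congrArg Matrix.transpose hPP
    rwa [Matrix.transpose_mul, PPair.s7ctb_PiS_transpose, PPair.s7ctb_PiS_transpose] at h1
  have hA : π₀.PiS K * s7Pt π₀ π K * π₀.PiS K = s7Pt π₀ π K := by
    rw [s7Pt]
    calc π₀.PiS K * (π₀.PiS K * π.Pstar K * π₀.PiS K) * π₀.PiS K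
        = (π₀.PiS K * π₀.PiS K) * π.Pstar K * (π₀.PiS K * π₀.PiS K) := by simp only [Matrix.mul_assoc]
      _ = _ := by rw [h00]
  have hX : π₀.PiS K * (h • (π₀.PiS K - π.PiS K) - σ • s7Pt π₀ π K) * π₀.PiS K =
      h • (π₀.PiS K - π.PiS K) - σ • s7Pt π₀ π K := by
    rw [Matrix.mul_sub, Matrix.sub_mul, Matrix.mul_smul, Matrix.smul_mul, Matrix.mul_smul, Matrix.smul_mul, hA,
      Matrix.mul_sub, Matrix.sub_mul, h00, h00, hPP, hPP']
  calc π.Mmat σ h - π₀.Mmat σ h
      = Cinc K n d * (h • (π₀.PiS K - π.PiS K) - σ • s7Pt π₀ π K) * (Cinc K n d)ᵀ := by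
        rw [PPair.Mmat_eq, PPair.Mmat_eq, ← PPair.Cinc_Pstar, ← PPair.Cinc_Pstar, PPair.s7ctb_Dcal_eq,
          PPair.s7ctb_Dcal_eq, hPt]
        simp only [Matrix.mul_sub, Matrix.sub_mul, Matrix.mul_smul, Matrix.smul_mul, smul_sub]
        abel
    _ = Cinc K n d * (π₀.PiS K * (h • (π₀.PiS K - π.PiS K) - σ • s7Pt π₀ π K) * π₀.PiS K) *
          (Cinc K n d)ᵀ := by rw [hX]
    _ = _ := by
        rw [π₀.s7ctb_XiT_eq, π₀.s7ctb_Xi_eq]
        simp only [Matrix.mul_assoc]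

/-- polynomial algebra in one matrix with `A³ = A` -/
theorem s7ctb_poly {m K : Type*} [Fintype m] [DecidableEq m] [Field K] (A : Matrix m m K)
    (h3 : A * A * A = A) (α β γ : K) :
    (α • (A * A) + β • A) * (1 + γ • A) = (α + β * γ) • (A * A) + (β + α * γ) • A := by
  simp only [Matrix.mul_add, Matrix.add_mul, Matrix.mul_one, Matrix.smul_mul, Matrix.mul_smul, h3]
  module

/-- **S7-CONT-7** -/
theorem s7IdealPf : StS7Ideal := by
  intro K _ _ n d π₀ π σ h hE hσ hh κ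
  obtain ⟨-, hsq, -, hPiPt, -, -, -⟩ := s7PtAlg K n d π₀ π hE
  have h00 := π₀.s7ctb_PiS_idem K
  have h0A : π₀.PiS K * s7Pt π₀ π K = s7Pt π₀ π K := by
    rw [s7Pt, ← Matrix.mul_assoc, ← Matrix.mul_assoc, h00]
  have hA3 : s7Pt π₀ π K * s7Pt π₀ π K * s7Pt π₀ π K = s7Pt π₀ π K := by
    rw [hsq, Matrix.sub_mul, h0A, hPiPt, sub_zero]
  have hκ : κ = (mh h * h) • (s7Pt π₀ π K * s7Pt π₀ π K) + (-(mh h * σ)) • s7Pt π₀ π K := by
    show mh h • (h • (π₀.PiS K - π.PiS K) - σ • s7Pt π₀ π K) = _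
    rw [← hsq]
    module
  have h0κ : π₀.PiS K * κ = κ := by
    rw [hκ, Matrix.mul_add, Matrix.mul_smul, Matrix.mul_smul, ← Matrix.mul_assoc, h0A]
  have h1 : (1 : K) - h ^ 2 ≠ 0 := fun e => hh (by linear_combination -e)
  have hm : mh h * (1 - h ^ 2) = h := by
    unfold mh
    field_simp
  have c1 : mh h * h + -(mh h * σ) * (σ * h) = 0 := by linear_combination (-(mh h) * h) * hσ
  have c2 : -(mh h * σ) + mh h * h * (σ * h) = -(σ * h) := by linear_combination (-σ) * hm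
  have hprod : κ * (1 + (σ * h) • s7Pt π₀ π K) = -(σ * h) • s7Pt π₀ π K := by
    rw [hκ, s7ctb_poly _ hA3, c1, c2, zero_smul, zero_add]
  have hinv : (1 + κ) * (1 + (σ * h) • s7Pt π₀ π K) = 1 := by
    rw [add_mul, one_mul, hprod]
    module
  rw [h0κ]
  refine ⟨IsUnit.of_mul_eq_one _ hinv, ?_⟩
  rw [Matrix.inv_eq_right_inv hinv, hprod]
  rfl

end Claimed.Agent.R275
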