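import Claimed.Agent.R275.S7ContA
import Claimed.Agent.R275.S7ContB
import Claimed.Agent.R275.L41D

/-!
# Row 275, Section 7, package S7-CONT-C: aggregate formula, one step of the continuation, the actual inverse.
Proofs of `StS7Aggregate`, `StS7ContStep`, `StS7ContW` (statements: `S7Cont.lean`, helper245).  Proofs: helper60.
-/

set_option autoImplicit false
set_option linter.unusedVariables false

namespace Claimed.Agent.R275

open Matrix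

/-- **S7-CONT-10** -/
theorem s7_contW : StS7ContW := by
  intro K _ _ n d π₀ π σ h hn hext hh hh1 hU0 hU
  rw [← PPair.compN_Mmat π₀ hn] at hU0
  rw [← PPair.compN_Mmat π hn] at hU
  obtain ⟨hMR0, hRM0, hRJ0, hJR0, -⟩ := π₀.Mmat_mul_Rinv hn σ h hU0
  obtain ⟨hMR, hRM, hRJ, hJR, -⟩ := π.Mmat_mul_Rinv hn σ h hU
  have hm : mh h ≠ 0 := PPair.mh_ne_zero hh hh1
  have hMJ := mul_J1_of_mulVec_one (π.Mmat σ h) _ (π.Mmat_mulVec_one σ h)
  have e1 : 1 + π₀.Wmat σ h * s7Kinc π₀ π σ h = J1 K n + π₀.Rinv σ h * π.Mmat σ h := by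
    rw [PPair.Wmat_eq_smul, s7Kinc, Matrix.smul_mul, Matrix.mul_smul, smul_smul, inv_mul_cancel₀ hm,
      one_smul, Matrix.mul_sub, hRM0, Pi1]
    abel
  have hRP0 : π₀.Rinv σ h * Pi1 K n = π₀.Rinv σ h := by
    rw [Pi1, Matrix.mul_sub, Matrix.mul_one, hRJ0, sub_zero]
  have key : (J1 K n + π₀.Rinv σ h * π.Mmat σ h) * (J1 K n + π.Rinv σ h * π₀.Mmat σ h) = 1 := by
    have t1 : J1 K n * (π.Rinv σ h * π₀.Mmat σ h) = 0 := by
      rw [← Matrix.mul_assoc, hJR, Matrix.zero_mul]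
    have t2 : π₀.Rinv σ h * π.Mmat σ h * J1 K n = 0 := by
      rw [Matrix.mul_assoc, hMJ, Matrix.mul_smul, hRJ0, smul_zero]
    have t3 : π₀.Rinv σ h * π.Mmat σ h * (π.Rinv σ h * π₀.Mmat σ h) = Pi1 K n := by
      rw [Matrix.mul_assoc, ← Matrix.mul_assoc (π.Mmat σ h), hMR, ← Matrix.mul_assoc, hRP0, hRM0]
    rw [Matrix.add_mul, Matrix.mul_add, Matrix.mul_add, J1_mul_J1 K hn, t1, t2, t3, add_zero, zero_add,
      add_comm, Pi1_add_J1]
  have hu : IsUnit (1 + π₀.Wmat σ h * s7Kinc π₀ π σ h) := by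
    rw [e1]
    exact (Matrix.isUnit_iff_isUnit_det _).2 (Matrix.isUnit_det_of_right_inverse key)
  refine ⟨hu, ?_⟩
  rw [s7Ref, s7cont]
  symm
  apply s7ca_inv_mul_eq _ hu
  rw [e1, PPair.Wmat_eq_smul, PPair.Wmat_eq_smul, Matrix.mul_smul, Matrix.add_mul, hJR, zero_add,
    Matrix.mul_assoc, hMR, hRP0]

/-- **S7-CONT-9** -/
theorem s7_contStep : StS7ContStep := by
  intro K _ _ n d π₀ π X₀ σ h u v hext hu hv huv hl hσ hh hh1 hU1 hU2
  have hK : s7Kinc π₀ (π.resolve u v) σ h = s7Kinc π₀ π σ h +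
      π.Upair K u v * (mh h • ((h • 1 - σ • F2 K) * B2 K π.l)) * (π.Upair K u v)ᵀ := by
    rw [s7Kinc, s7Kinc, PPair.Mmat_resolve hu hv huv hl, Matrix.mul_smul, Matrix.smul_mul, ← smul_add]
    congr 1
    abel
  have hκ : IsUnit (mh h • ((h • 1 - σ • F2 K) * B2 K π.l)) :=
    (Matrix.isUnit_iff_isUnit_det _).2
      (Matrix.isUnit_det_of_right_inverse (PPair.woodbury_coeff_aux hl σ h hσ hh hh1))
  have hT : (H0 π.l σ h)⁻¹ + (π.blk (s7Ref π₀ π X₀ σ h) u v - G0 K π.l) =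
      (mh h • ((h • 1 - σ • F2 K) * B2 K π.l))⁻¹ +
        (π.Upair K u v)ᵀ * s7Ref π₀ π X₀ σ h * π.Upair K u v := by
    rw [← PPair.woodbury_coeff hl σ h hσ hh hh1, PPair.blk]
    abel
  rw [hT] at hU2
  obtain ⟨hw1, hw2⟩ := s7_contWood K (Fin 2)
    ((π.Upair K u v)ᵀ * s7Ref π₀ π X₀ σ h * π.Upair K u v) _ hκ
  have hU3 := hw1.1 hU2
  obtain ⟨hl1, hl2⟩ := s7_contLow K (Fin n) (Fin 2) (s7Ref π₀ π X₀ σ h) (π.Upair K u v) _ hU3
  obtain ⟨ha1, ha2⟩ := s7_contAdd K (Fin n) X₀ (s7Kinc π₀ π σ h)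
    (π.Upair K u v * (mh h • ((h • 1 - σ • F2 K) * B2 K π.l)) * (π.Upair K u v)ᵀ) hU1
  have hU4 := ha1.2 hl1
  refine ⟨by rw [hK]; exact hU4, ?_⟩
  rw [s7upd, hT, ← hw2 hU2, ← hl2]
  conv_lhs => rw [s7Ref, hK, ← ha2 hU4]
  rfl

/-! ## the aggregate formula -/

theorem s7ctc_row_eq {n d : ℕ} {K : Type*} [Field K] (π : PPair n d) (X : Matrix (Fin n) (Fin n) K)
    (i : Fin n) : s7row π X i = fun x => ((π.Xi K)ᵀ * X) x i := by
  funext x
  simp only [s7row, Matrix.mul_apply, Matrix.transpose_apply]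

theorem s7ctc_mulVec_col {m k : Type*} [Fintype m] {K : Type*} [Field K] (A : Matrix m m K)
    (B : Matrix m k K) (i : k) : A *ᵥ (fun x => B x i) = fun x => (A * B) x i := by
  funext x
  simp only [Matrix.mulVec, dotProduct, Matrix.mul_apply]

/-- ring part of the compression identity -/
theorem s7ctc_ring {R : Type*} [Ring R] (P P₀ D H G : R) (hG : G = D + P₀) (h1 : P₀ * P = P)
    (h2 : P * P₀ = P) (h3 : P * P = P) (h4 : H * P = 0) (h5 : P * H = 0) :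
    P * (G - G * H * G) * P - P = P * (D - D * H * D) * P := by
  have a1 : P * G = P * D + P := by rw [hG, mul_add, h2]
  have a2 : G * P = D * P + P := by rw [hG, add_mul, h1]
  have b1 : P * (G - G * H * G) * P = P * G * P - (P * G) * H * (G * P) := by noncomm_ring
  have b2 : (P * D + P) * H * (D * P + P) =
      P * D * H * D * P + P * D * (H * P) + (P * H) * D * P + (P * H) * P := by noncomm_ring
  rw [b1, a1, a2, b2, h4, h5, add_mul, h3]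
  noncomm_ring

/-- **S7-CONT-8** -/
theorem s7_aggregate : StS7Aggregate := by
  intro K _ _ n d π₀ π X₀ σ h hext hσ hh1 hU
  obtain ⟨-, -, hPP, hPP', -, h01, hXi⟩ := s7PtAlg K n d π₀ π hext
  have hKinc := s7KincPf K n d π₀ π σ h hext
  obtain ⟨hI1, hI2⟩ := s7IdealPf K n d π₀ π σ h hext hσ hh1
  have hPt : (π.PiS K)ᵀ = π.PiS K := π.s7ctb_PiS_transpose K
  have hP0t : (π₀.PiS K)ᵀ = π₀.PiS K := π₀.s7ctb_PiS_transpose K
  have hPi : π.PiS K * π.PiS K = π.PiS K := π.s7ctb_PiS_idem K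
  have h10 : π.PiS K * π₀.PiS K = π.PiS K := by
    have := congrArg Matrix.transpose h01
    rwa [Matrix.transpose_mul, hPt, hP0t] at this
  have hXiT : (π.Xi K)ᵀ = π.PiS K * (π₀.Xi K)ᵀ := by
    rw [hXi, Matrix.transpose_mul, hPt]
  set κ : Matrix (Stub n d) (Stub n d) K :=
    mh h • (h • (π₀.PiS K - π.PiS K) - σ • s7Pt π₀ π K) with hκ
  set D := s7Dof π₀ X₀ with hD
  set H₀ := s7Ht0 π₀ π σ h with hH₀
  set G := (π₀.Xi K)ᵀ * X₀ * π₀.Xi K with hG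
  have hGD : G = D + π₀.PiS K := by rw [hD, s7Dof, sub_add_cancel]
  have hK : s7Kinc π₀ π σ h = π₀.Xi K * κ * (π₀.Xi K)ᵀ := by
    rw [s7Kinc, hKinc, hκ, Matrix.mul_smul, Matrix.smul_mul]
  have hdI := (Matrix.isUnit_iff_isUnit_det _).1 hI1
  have hH₀κ : H₀ * (1 + π₀.PiS K * κ) = κ := by
    rw [← hI2, Matrix.mul_assoc, Matrix.nonsing_inv_mul _ hdI, Matrix.mul_one]
  have hfac : 1 + G * κ = (1 + D * H₀) * (1 + π₀.PiS K * κ) := by
    rw [Matrix.add_mul, Matrix.one_mul, Matrix.mul_assoc D, hH₀κ, hGD, Matrix.add_mul]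
    abel
  have hUG : IsUnit (1 + G * κ) := by
    rw [hfac, s7ca_isUnit_mul_iff]
    exact ⟨hU, hI1⟩
  have hHt : κ * (1 + G * κ)⁻¹ = s7Ht π₀ π X₀ σ h := by
    rw [hfac, Matrix.mul_inv_rev, ← Matrix.mul_assoc, hI2, s7Ht]
  obtain ⟨hl1, hl2⟩ := s7_contLow K (Fin n) (Stub n d) X₀ (π₀.Xi K) κ hUG
  rw [hHt, ← hK] at hl2
  rw [← hK] at hl1
  have hU' : IsUnit (1 + H₀ * D) := (s7ca_isUnit_comm D H₀).1 hU
  obtain ⟨-, hs2, -, -⟩ := s7_contSymm K (Stub n d) H₀ D hU'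
  have hpush : s7Ht π₀ π X₀ σ h = (1 + H₀ * D)⁻¹ * H₀ := by
    rw [s7Ht, ← hs2, s7cont]
  have hH₀P : H₀ * π.PiS K = 0 := by rw [hH₀, s7Ht0, Matrix.smul_mul, hPP, smul_zero]
  have hPH₀ : π.PiS K * H₀ = 0 := by rw [hH₀, s7Ht0, Matrix.mul_smul, hPP', smul_zero]
  have hHP : s7Ht π₀ π X₀ σ h * π.PiS K = 0 := by
    rw [hpush, Matrix.mul_assoc, hH₀P, Matrix.mul_zero]
  have hPH : π.PiS K * s7Ht π₀ π X₀ σ h = 0 := by
    rw [s7Ht, ← Matrix.mul_assoc, hPH₀, Matrix.zero_mul]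
  have hRef : s7Ref π₀ π X₀ σ h =
      X₀ - X₀ * π₀.Xi K * s7Ht π₀ π X₀ σ h * (π₀.Xi K)ᵀ * X₀ := hl2
  set H := s7Ht π₀ π X₀ σ h with hH
  refine ⟨hl1, hRef, hHP, hPH, hpush, ?_, ?_⟩
  · rw [← s7ctc_ring (π.PiS K) (π₀.PiS K) D H G hGD h01 h10 hPi hHP hPH, s7Dof, hRef, hXiT, hXi, hG]
    congr 1
    simp only [Matrix.mul_sub, Matrix.sub_mul, Matrix.mul_assoc]
  · intro i
    have e : (π.Xi K)ᵀ * s7Ref π₀ π X₀ σ h =
        π.PiS K * ((π₀.Xi K)ᵀ * X₀ - D * H * ((π₀.Xi K)ᵀ * X₀)) := by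
      have e1 : (π.Xi K)ᵀ * s7Ref π₀ π X₀ σ h =
          π.PiS K * ((π₀.Xi K)ᵀ * X₀) - π.PiS K * G * H * ((π₀.Xi K)ᵀ * X₀) := by
        rw [hRef, hXiT, hG]
        simp only [Matrix.mul_sub, Matrix.mul_assoc]
      have e2 : π.PiS K * G * H = π.PiS K * (D * H) := by
        rw [hGD, Matrix.mul_add, h10, Matrix.add_mul, hPH, add_zero, Matrix.mul_assoc]
      rw [e1, e2, Matrix.mul_sub, Matrix.mul_assoc]
    rw [s7ctc_row_eq, s7ctc_row_eq, e, s7ctc_mulVec_col, ← s7ctc_mulVec_col (π.PiS K)]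
    rfl

end Claimed.Agent.R275
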