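import Claimed.Agent.R275.S7PhaseB
import Claimed.Agent.R275.S7AccRows
import Claimed.Agent.R275.S7Num
import Claimed.Agent.R275.S7Schatten
import Claimed.Agent.R275.S7Tools
import Claimed.Agent.R275.S6Step

/-!
# Row 275, Section 7, leaves S7-A-DER / S7-B-DER: the part common to both phases (not asymptotic)

Prover: helper167.  Prefix `s7dc_`.  Everything here is at FIXED `n`: from the entry caps (unit `B`), the row caps (`GS`, `GV`) and the reference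
bounds (`S7RefAt`) we derive the centred-stub errors, the entry bounds of `D`, the bounds of the tails and of the outer rows.
-/

set_option autoImplicit false
set_option linter.unusedSectionVars false
set_option linter.unusedVariables false

namespace Claimed.Agent.R275

open Matrix

/-! ## arrays -/

section Arr

variable {ι : Type} [Fintype ι] [DecidableEq ι]

theorem s7dc_sq_le (r : ι → ℝ) (x : ι) : r x ^ 2 ≤ s7sq r := by
  unfold s7sq dotProduct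
  have := Finset.single_le_sum (f := fun i => r i * r i) (fun i _ => mul_self_nonneg (r i))
    (Finset.mem_univ x)
  simpa [sq] using this

theorem s7dc_abs_le {r : ι → ℝ} {c : ℝ} (hc : 0 ≤ c) (h : s7sq r ≤ c ^ 2) (x : ι) : |r x| ≤ c :=
  abs_le_of_sq_le_sq ((s7dc_sq_le r x).trans h) hc

theorem s7dc_sq_add (a b : ι → ℝ) : s7sq (a + b) ≤ 2 * s7sq a + 2 * s7sq b := by
  unfold s7sq dotProduct
  rw [Finset.mul_sum, Finset.mul_sum, ← Finset.sum_add_distrib]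
  refine Finset.sum_le_sum fun i _ => ?_
  simp only [Pi.add_apply]
  nlinarith [sq_nonneg (a i - b i)]

theorem s7dc_sq_sub (a b : ι → ℝ) : s7sq (a - b) ≤ 2 * s7sq a + 2 * s7sq b := by
  unfold s7sq dotProduct
  rw [Finset.mul_sum, Finset.mul_sum, ← Finset.sum_add_distrib]
  refine Finset.sum_le_sum fun i _ => ?_
  simp only [Pi.sub_apply]
  nlinarith [sq_nonneg (a i + b i)]

theorem s7dc_sqOn_le (I : Finset ι) (r : ι → ℝ) : s7sqOn I r ≤ s7sq r := by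
  unfold s7sqOn s7sq dotProduct
  calc ∑ x ∈ I, r x ^ 2 ≤ ∑ x, r x ^ 2 :=
        Finset.sum_le_sum_of_subset_of_nonneg (Finset.subset_univ _) (fun x _ _ => sq_nonneg _)
    _ = _ := Finset.sum_congr rfl fun x _ => sq _

theorem s7dc_opLE_mono {D : Matrix ι ι ℝ} {Z Z' : ℝ} (h : s7opLE D Z) (hZ : Z ≤ Z') : s7opLE D Z' := by
  refine ⟨h.1.trans hZ, fun x => (h.2 x).trans ?_⟩
  exact mul_le_mul_of_nonneg_right (pow_le_pow_left₀ h.1 hZ 2) (s7t_sq_nonneg x)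

/-- the projection `Π_R` is a contraction -/
theorem s7dc_Pi_sq_le (R : Finset ι) (x : ι → ℝ) : s7sq (s7Pi ℝ R *ᵥ x) ≤ s7sq x := by
  have h1 := s7sch_sq_mulVec (s7a_Pi_transpose (K := ℝ) R) x
  rw [s7a_Pi_mul_Pi (Finset.Subset.refl R)] at h1
  have h2 := s7sch_dot_cs x (s7Pi ℝ R *ᵥ x)
  rw [← h1] at h2
  have h3 := s7t_sq_nonneg (s7Pi ℝ R *ᵥ x)
  have h4 := s7t_sq_nonneg x
  rcases h3.eq_or_lt with h5 | h5
  · rw [← h5]; exact h4
  · rw [sq] at h2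
    exact le_of_mul_le_mul_right h2 h5

theorem s7dc_Pi_zero {R : Finset ι} {x : ι} (hx : x ∉ R) (f : ι → ℝ) : (s7Pi ℝ R *ᵥ f) x = 0 := by
  simp [Matrix.mulVec, dotProduct, s7Pi, hx]

/-- averages of bounded terms -/
theorem s7dc_avg_abs (R : Finset ι) (f : ι → ℝ) (c : ℝ) (hc : 0 ≤ c) (h : ∀ y ∈ R, |f y| ≤ c) :
    |((R.card : ℝ))⁻¹ * ∑ y ∈ R, f y| ≤ c := by
  have h1 : |∑ y ∈ R, f y| ≤ (R.card : ℝ) * c := by
    calc |∑ y ∈ R, f y| ≤ ∑ y ∈ R, |f y| := Finset.abs_sum_le_sum_abs _ _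
      _ ≤ ∑ _y ∈ R, c := Finset.sum_le_sum h
      _ = (R.card : ℝ) * c := by rw [Finset.sum_const, nsmul_eq_mul]
  rw [abs_mul, abs_inv, Nat.abs_cast]
  rcases Nat.eq_zero_or_pos R.card with h0 | h0
  · rw [h0]; simpa using hc
  · have h0' : (0 : ℝ) < (R.card : ℝ) := by exact_mod_cast h0
    rw [inv_mul_le_iff₀ h0']
    exact h1

/-- an array with at most one non-zero coordinate, bounded by one -/
theorem s7dc_one_sum {f : ι → ℝ} (hu : ∀ x y, f x ≠ 0 → f y ≠ 0 → x = y) (hb : ∀ x, |f x| ≤ 1)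
    (R : Finset ι) : |∑ z ∈ R, f z| ≤ 1 := by
  by_cases h : ∃ x0, f x0 ≠ 0
  · obtain ⟨x0, hx0⟩ := h
    have e : ∀ z ∈ R, f z = if z = x0 then f x0 else 0 := by
      intro z _
      by_cases hz : z = x0
      · rw [if_pos hz, hz]
      · rw [if_neg hz]
        by_contra hne
        exact hz (hu z x0 hne hx0)
    rw [Finset.sum_congr rfl e, Finset.sum_ite_eq']
    split_ifs
    · exact hb x0
    · simp
  · push Not at h
    rw [Finset.sum_eq_zero fun z _ => h z]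
    simp

theorem s7dc_one_sq {f : ι → ℝ} (hu : ∀ x y, f x ≠ 0 → f y ≠ 0 → x = y) (hb : ∀ x, |f x| ≤ 1) :
    s7sq f ≤ 1 := by
  have hu' : ∀ x y, f x * f x ≠ 0 → f y * f y ≠ 0 → x = y := by
    intro x y hx hy
    exact hu x y (fun e => hx (by rw [e, mul_zero])) (fun e => hy (by rw [e, mul_zero]))
  have hb' : ∀ x, |f x * f x| ≤ 1 := by
    intro x
    rw [abs_mul]
    exact mul_le_one₀ (hb x) (abs_nonneg _) (hb x)
  exact (le_abs_self _).trans (s7dc_one_sum hu' hb' Finset.univ)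

theorem s7dc_ctr_sq_le (x y : ι) : s7sq (s7ctr ℝ x y) ≤ 2 := by
  unfold s7sq dotProduct s7ctr
  calc ∑ s, ((if s = x then (1 : ℝ) else 0) - (if s = y then 1 else 0))
          * ((if s = x then (1 : ℝ) else 0) - (if s = y then 1 else 0))
      ≤ ∑ s, ((if s = x then (1 : ℝ) else 0) + (if s = y then 1 else 0)) := by
        refine Finset.sum_le_sum fun s _ => ?_
        split_ifs <;> norm_num
    _ = 2 := by
        rw [Finset.sum_add_distrib]
        simp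
        norm_num

end Arr

/-! ## thresholds, entries -/

theorem s7dc_Th_nonneg (ty fl : ℕ) : (0 : ℝ) ≤ (s7Th ty fl : ℝ) := by
  unfold s7Th
  split_ifs <;> norm_num

theorem s7dc_Th_zero (fl : ℕ) : s7Th 0 fl = 1 := by
  simp [s7Th]

section Pair

variable {n d : ℕ} (π₀ π : PPair n d) (t0 : ℕ) (σ h : ℝ)

theorem s7dc_Th_le (a : S7Out n d) : (s7Th a.ty (a.fl π₀ π t0) : ℝ) ≤ 12 := by
  rcases a with i | ⟨x, y⟩
  · have e1 : S7Out.ty (Sum.inl i : S7Out n d) = 1 := rfl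
    rw [e1]
    have e2 : ∀ fl, s7Th 1 fl = if fl = 0 then 1 else 12 := fun fl => by simp [s7Th]
    rw [e2]
    split_ifs <;> norm_num
  · have e1 : S7Out.ty (Sum.inr (x, y) : S7Out n d) = 0 := rfl
    rw [e1, s7dc_Th_zero]
    norm_num

theorem s7dc_ent_sub (X X' : Matrix (Fin n) (Fin n) ℝ) (a c : S7Out n d) :
    s7ent (X - X') a c = s7ent X a c - s7ent X' a c := by
  unfold s7ent
  rw [Matrix.sub_mulVec, dotProduct_sub]

theorem s7dc_short_zero (i : Fin n) (x : Stub n d) (hx : ¬ s7near π₀ t0 i x) :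
    s7short π₀ t0 σ h i x = 0 := by
  unfold s7short
  by_cases hxr : π₀.Unres x
  · rw [if_pos hxr]
    refine Finset.sum_eq_zero (fun k hk => ?_)
    have h2 : π₀.Nact ℚ k i x.1 = 0 := by
      by_contra hne
      exact hx ⟨hxr, k, Finset.mem_range.1 hk, hne⟩
    rw [← PPair.s43v_Nact_cast, h2]
    simp
  · rw [if_neg hxr]

/-- what is used of the short parts -/
structure S7Sh (π₀ : PPair n d) (t0 : ℕ) (σ h : ℝ) : Prop where
  uniq : ∀ i x y, s7near π₀ t0 i x → s7near π₀ t0 i y → x = y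
  cle : ∀ i x, |s7short π₀ t0 σ h i x| ≤ 1

variable {π₀ t0 σ h}

theorem S7Sh.one (S : S7Sh π₀ t0 σ h) (i : Fin n) (x y : Stub n d)
    (hx : s7short π₀ t0 σ h i x ≠ 0) (hy : s7short π₀ t0 σ h i y ≠ 0) : x = y := by
  refine S.uniq i x y ?_ ?_
  · by_contra hn; exact hx (s7dc_short_zero π₀ t0 σ h i x hn)
  · by_contra hn; exact hy (s7dc_short_zero π₀ t0 σ h i y hn)

theorem S7Sh.sum_abs (S : S7Sh π₀ t0 σ h) (i : Fin n) (R : Finset (Stub n d)) :
    |∑ z ∈ R, s7short π₀ t0 σ h i z| ≤ 1 :=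
  s7dc_one_sum (S.one i) (S.cle i) R

theorem S7Sh.sq_le (S : S7Sh π₀ t0 σ h) (i : Fin n) : s7sq (s7short π₀ t0 σ h i) ≤ 1 :=
  s7dc_one_sq (S.one i) (S.cle i)

/-- `|(Π_S sh_i)(x)| ≤ |sh_i(x)| + 1/l` -/
theorem S7Sh.Pi_abs (S : S7Sh π₀ t0 σ h) (i : Fin n) (x : Stub n d) :
    |(s7Pi ℝ π.unres *ᵥ s7short π₀ t0 σ h i) x| ≤ |s7short π₀ t0 σ h i x| + 1 / (π.l : ℝ) := by
  have hl : (0 : ℝ) ≤ 1 / (π.l : ℝ) := by positivity
  by_cases hx : x ∈ π.unres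
  · rw [s7ar_Pi_mulVec_apply hx]
    have h1 : |(∑ z ∈ π.unres, s7short π₀ t0 σ h i z) / (π.unres.card : ℝ)| ≤ 1 / (π.l : ℝ) := by
      rw [abs_div, Nat.abs_cast]
      exact div_le_div_of_nonneg_right (S.sum_abs i _) (Nat.cast_nonneg _)
    calc |s7short π₀ t0 σ h i x - (∑ z ∈ π.unres, s7short π₀ t0 σ h i z) / (π.unres.card : ℝ)|
        ≤ |s7short π₀ t0 σ h i x| + |(∑ z ∈ π.unres, s7short π₀ t0 σ h i z) / (π.unres.card : ℝ)| :=
          abs_sub _ _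
      _ ≤ _ := by linarith
  · rw [s7dc_Pi_zero hx]
    have := abs_nonneg (s7short π₀ t0 σ h i x)
    simp only [abs_zero]
    linarith

variable (π₀ t0 σ h)

/-- the row of a global label = tail + projected short part -/
theorem s7dc_glob_eq (X : Matrix (Fin n) (Fin n) ℝ) (i : Fin n) :
    s7orow π X (S7Out.glob i) = s7tail π₀ π t0 σ h X i + s7Pi ℝ π.unres *ᵥ s7short π₀ t0 σ h i := by
  unfold s7tail
  rw [s7ar_PiS_eq]
  change s7row π X i = _
  abel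

theorem s7dc_tail_sub (X X' : Matrix (Fin n) (Fin n) ℝ) (i : Fin n) (x : Stub n d) :
    s7tail π₀ π t0 σ h X i x - s7tail π₀ π t0 σ h X' i x
      = s7orow π X (S7Out.glob i) x - s7orow π X' (S7Out.glob i) x := by
  rw [s7dc_glob_eq π₀ π t0 σ h X i, s7dc_glob_eq π₀ π t0 σ h X' i]
  simp only [Pi.add_apply]
  ring

theorem s7dc_tail_cent (X : Matrix (Fin n) (Fin n) ℝ) (i : Fin n) :
    S7Cent π.unres (s7tail π₀ π t0 σ h X i) := by
  have h1 : S7Cent π.unres (s7orow π X (S7Out.glob i)) := (s7_ctrRow n d π X).2.1 _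
  unfold S7Cent at h1 ⊢
  unfold s7tail
  rw [s7ar_PiS_eq, Matrix.mulVec_sub, Matrix.mulVec_mulVec, s7a_Pi_mul_Pi (Finset.Subset.refl _)]
  congr 1

/-- rows of a contrast -/
theorem s7dc_ctr_eq (X : Matrix (Fin n) (Fin n) ℝ) {x y : Stub n d} (hx : π.Unres x)
    (hy : π.Unres y) (z : Stub n d) :
    s7orow π X (S7Out.ctr x y) z = s7ctr ℝ x y z + (s7Dof π X z x - s7Dof π X z y) := by
  rw [(s7_ctrRow n d π X).1 x y hx hy, s7ar_mulVec_ctr]
  rfl

/-! ## bounds of the outer rows of one matrix `X` -/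

/-- the data of one matrix: bounds of its tails and of its stub compression -/
structure S7RowH (π₀ π : PPair n d) (t0 : ℕ) (σ h : ℝ) (X : Matrix (Fin n) (Fin n) ℝ)
    (τ GV eD GS : ℝ) : Prop where
  sh : S7Sh π₀ t0 σ h
  tail : ∀ i x, |s7tail π₀ π t0 σ h X i x| ≤ τ
  grow : ∀ i, s7sq (s7tail π₀ π t0 σ h X i) ≤ GV
  ent : ∀ x y, |s7Dof π X x y| ≤ eD
  crow : ∀ x y, π.Unres x → π.Unres y → x ≠ y → s7sq (s7Dof π X *ᵥ s7ctr ℝ x y) ≤ GS

variable {π₀ π t0 σ h}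
variable {X : Matrix (Fin n) (Fin n) ℝ} {τ GV eD GS : ℝ}

theorem S7RowH.norm (H : S7RowH π₀ π t0 σ h X τ GV eD GS) {N : ℝ} (h1 : 2 * GV + 2 ≤ N)
    (h2 : 2 * GS + 4 ≤ N) (a : S7Out n d) (ha : a.Alive π) : s7sq (s7orow π X a) ≤ N := by
  rcases a with i | ⟨x, y⟩
  · change s7sq (s7orow π X (S7Out.glob i)) ≤ N
    rw [s7dc_glob_eq π₀ π t0 σ h X i]
    have e1 := s7dc_sq_add (s7tail π₀ π t0 σ h X i) (s7Pi ℝ π.unres *ᵥ s7short π₀ t0 σ h i)
    have e2 := s7dc_Pi_sq_le π.unres (s7short π₀ t0 σ h i)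
    have e3 := H.sh.sq_le i
    have e4 := H.grow i
    linarith
  · obtain ⟨hx, hy, hxy⟩ : π.Unres x ∧ π.Unres y ∧ x ≠ y := ha
    change s7sq (s7orow π X (S7Out.ctr x y)) ≤ N
    rw [(s7_ctrRow n d π X).1 x y hx hy]
    have e1 := s7dc_sq_add (s7ctr ℝ x y) (s7Dof π X *ᵥ s7ctr ℝ x y)
    have e2 := s7dc_ctr_sq_le x y
    have e3 := H.crow x y hx hy hxy
    linarith

/-- off the avoided stubs -/
theorem S7RowH.small (H : S7RowH π₀ π t0 σ h X τ GV eD GS) {e : ℝ} (h1 : τ + 1 / (π.l : ℝ) ≤ e)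
    (h2 : 2 * eD ≤ e) (a : S7Out n d) (ha : a.Alive π) (z : Stub n d) (hz : ¬ a.Avoid π₀ t0 z) :
    |s7orow π X a z| ≤ e := by
  rcases a with i | ⟨x, y⟩
  · change |s7orow π X (S7Out.glob i) z| ≤ e
    have hz' : ¬ s7near π₀ t0 i z := hz
    rw [s7dc_glob_eq π₀ π t0 σ h X i, Pi.add_apply]
    have e1 := H.sh.Pi_abs π i z
    rw [s7dc_short_zero π₀ t0 σ h i z hz', abs_zero, zero_add] at e1
    have e2 := H.tail i z
    have e3 := abs_add_le (s7tail π₀ π t0 σ h X i z) ((s7Pi ℝ π.unres *ᵥ s7short π₀ t0 σ h i) z)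
    linarith
  · obtain ⟨hx, hy, hxy⟩ : π.Unres x ∧ π.Unres y ∧ x ≠ y := ha
    have hz' : ¬ (z = x ∨ z = y) := hz
    push Not at hz'
    change |s7orow π X (S7Out.ctr x y) z| ≤ e
    rw [s7dc_ctr_eq π X hx hy]
    have e0 : s7ctr ℝ x y z = 0 := by simp [s7ctr, hz'.1, hz'.2]
    rw [e0, zero_add]
    have e1 := H.ent z x
    have e2 := H.ent z y
    have e3 := abs_sub (s7Dof π X z x) (s7Dof π X z y)
    linarith

/-- at arbitrary stubs (global labels), off the endpoints (contrasts) -/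
theorem S7RowH.big (H : S7RowH π₀ π t0 σ h X τ GV eD GS) {e : ℝ}
    (h1 : τ + 1 + 1 / (π.l : ℝ) ≤ e) (h2 : 2 * eD ≤ e) (a : S7Out n d) (ha : a.Alive π)
    (z : Stub n d) (hz : a.ty = 0 → ¬ a.Avoid π₀ t0 z) : |s7orow π X a z| ≤ e := by
  rcases a with i | ⟨x, y⟩
  · change |s7orow π X (S7Out.glob i) z| ≤ e
    rw [s7dc_glob_eq π₀ π t0 σ h X i, Pi.add_apply]
    have e1 := H.sh.Pi_abs π i z
    have e2 := H.tail i z
    have e3 := abs_add_le (s7tail π₀ π t0 σ h X i z) ((s7Pi ℝ π.unres *ᵥ s7short π₀ t0 σ h i) z)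
    have e4 := H.sh.cle i z
    linarith
  · have hτ : 0 ≤ 1 / (π.l : ℝ) := by positivity
    obtain ⟨hx, hy, hxy⟩ : π.Unres x ∧ π.Unres y ∧ x ≠ y := ha
    have hz' : ¬ (z = x ∨ z = y) := hz rfl
    push Not at hz'
    change |s7orow π X (S7Out.ctr x y) z| ≤ e
    rw [s7dc_ctr_eq π X hx hy]
    have e0 : s7ctr ℝ x y z = 0 := by simp [s7ctr, hz'.1, hz'.2]
    rw [e0, zero_add]
    have e1 := H.ent z x
    have e2 := H.ent z y
    have e3 := abs_sub (s7Dof π X z x) (s7Dof π X z y)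
    linarith

/-- (7.59): the finer norm on a set of unresolved stubs avoiding the label -/
theorem S7RowH.fine (H : S7RowH π₀ π t0 σ h X τ GV eD GS) {N : ℝ}
    (h1 : 2 * GV + 2 / (π.l : ℝ) ≤ N) (h2 : GS ≤ N) (a : S7Out n d) (ha : a.Alive π)
    (I : Finset (Stub n d)) (hI : ∀ z ∈ I, z ∈ π.unres ∧ ¬ a.Avoid π₀ t0 z) :
    s7sqOn I (s7orow π X a) ≤ N := by
  rcases a with i | ⟨x, y⟩
  · change s7sqOn I (s7orow π X (S7Out.glob i)) ≤ N
    refine le_trans ?_ h1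
    have hsub : I ⊆ π.unres := fun z hz => (hI z hz).1
    have hcard : (I.card : ℝ) ≤ (π.l : ℝ) := by exact_mod_cast Finset.card_le_card hsub
    have hpt : ∀ z ∈ I, s7orow π X (S7Out.glob i) z ^ 2
        ≤ 2 * s7tail π₀ π t0 σ h X i z ^ 2 + 2 * (1 / (π.l : ℝ)) ^ 2 := by
      intro z hz
      have hz' : ¬ s7near π₀ t0 i z := (hI z hz).2
      rw [s7dc_glob_eq π₀ π t0 σ h X i, Pi.add_apply]
      have e1 := H.sh.Pi_abs π i z
      rw [s7dc_short_zero π₀ t0 σ h i z hz', abs_zero, zero_add] at e1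
      have e2 : ((s7Pi ℝ π.unres *ᵥ s7short π₀ t0 σ h i) z) ^ 2 ≤ (1 / (π.l : ℝ)) ^ 2 :=
        sq_le_sq' (by linarith [(abs_le.1 e1).1]) (abs_le.1 e1).2
      nlinarith [sq_nonneg (s7tail π₀ π t0 σ h X i z - (s7Pi ℝ π.unres *ᵥ s7short π₀ t0 σ h i) z)]
    unfold s7sqOn
    calc ∑ z ∈ I, s7orow π X (S7Out.glob i) z ^ 2
        ≤ ∑ z ∈ I, (2 * s7tail π₀ π t0 σ h X i z ^ 2 + 2 * (1 / (π.l : ℝ)) ^ 2) :=
          Finset.sum_le_sum hpt
      _ = 2 * s7sqOn I (s7tail π₀ π t0 σ h X i) + (I.card : ℝ) * (2 * (1 / (π.l : ℝ)) ^ 2) := by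
          rw [Finset.sum_add_distrib, ← Finset.mul_sum, Finset.sum_const, nsmul_eq_mul]
          rfl
      _ ≤ 2 * GV + 2 / (π.l : ℝ) := by
          have e1 := (s7dc_sqOn_le I (s7tail π₀ π t0 σ h X i)).trans (H.grow i)
          have e2 : (I.card : ℝ) * (2 * (1 / (π.l : ℝ)) ^ 2) ≤ 2 / (π.l : ℝ) := by
            rcases Nat.eq_zero_or_pos π.l with h0 | h0
            · rw [h0]; simp
            · have h0' : (0 : ℝ) < (π.l : ℝ) := by exact_mod_cast h0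
              calc (I.card : ℝ) * (2 * (1 / (π.l : ℝ)) ^ 2)
                  ≤ (π.l : ℝ) * (2 * (1 / (π.l : ℝ)) ^ 2) :=
                    mul_le_mul_of_nonneg_right hcard (by positivity)
                _ = 2 / (π.l : ℝ) := by field_simp
          linarith
  · obtain ⟨hx, hy, hxy⟩ : π.Unres x ∧ π.Unres y ∧ x ≠ y := ha
    change s7sqOn I (s7orow π X (S7Out.ctr x y)) ≤ N
    refine le_trans ?_ h2
    refine le_trans ?_ (H.crow x y hx hy hxy)
    refine le_trans (le_of_eq ?_) (s7dc_sqOn_le I (s7Dof π X *ᵥ s7ctr ℝ x y))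
    unfold s7sqOn
    refine Finset.sum_congr rfl fun z hz => ?_
    have hz' : ¬ (z = x ∨ z = y) := (hI z hz).2
    push Not at hz'
    rw [s7dc_ctr_eq π X hx hy, s7ar_mulVec_ctr]
    have e0 : s7ctr ℝ x y z = 0 := by simp [s7ctr, hz'.1, hz'.2]
    rw [e0, zero_add]

/-! ## the allowed sets -/

theorem S7Sh.avoid_card (S : S7Sh π₀ t0 σ h) (a : S7Out n d) (R : Finset (Stub n d)) :
    (R.filter fun z => a.Avoid π₀ t0 z).card ≤ 2 := by
  rcases a with i | ⟨x, y⟩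
  · refine le_trans (Finset.card_le_one.2 ?_) (by norm_num)
    intro z hz z' hz'
    exact S.uniq i z z' (Finset.mem_filter.1 hz).2 (Finset.mem_filter.1 hz').2
  · refine le_trans (Finset.card_le_card (t := {x, y}) ?_) Finset.card_le_two
    intro z hz
    have h1 : z = x ∨ z = y := (Finset.mem_filter.1 hz).2
    simpa using h1

theorem S7Sh.allowed (S : S7Sh π₀ t0 σ h) (π : PPair n d) (a c : S7Out n d) :
    S7Allowed π.unres (s7allow π₀ π t0 a c) := by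
  refine ⟨Finset.filter_subset _ _, ?_⟩
  have hsub : π.unres ⊆ s7allow π₀ π t0 a c ∪
      ((π.unres.filter fun z => a.Avoid π₀ t0 z) ∪ (π.unres.filter fun z => c.Avoid π₀ t0 z)) := by
    intro z hz
    by_cases h1 : a.Avoid π₀ t0 z
    · exact Finset.mem_union_right _ (Finset.mem_union_left _ (Finset.mem_filter.2 ⟨hz, h1⟩))
    · by_cases h2 : c.Avoid π₀ t0 z
      · exact Finset.mem_union_right _ (Finset.mem_union_right _ (Finset.mem_filter.2 ⟨hz, h2⟩))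
      · exact Finset.mem_union_left _ (Finset.mem_filter.2 ⟨hz, h1, h2⟩)
  have h1 := Finset.card_le_card hsub
  have h2 := Finset.card_union_le (s7allow π₀ π t0 a c)
    ((π.unres.filter fun z => a.Avoid π₀ t0 z) ∪ (π.unres.filter fun z => c.Avoid π₀ t0 z))
  have h3 := Finset.card_union_le (π.unres.filter fun z => a.Avoid π₀ t0 z)
    (π.unres.filter fun z => c.Avoid π₀ t0 z)
  have h4 := S.avoid_card a π.unres
  have h5 := S.avoid_card c π.unres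
  omega

theorem s7dc_mem_allow {a c : S7Out n d} {z : Stub n d} (hz : z ∈ s7allow π₀ π t0 a c) :
    z ∈ π.unres ∧ ¬ a.Avoid π₀ t0 z ∧ ¬ c.Avoid π₀ t0 z := Finset.mem_filter.1 hz

/-! ## the pair (actual matrix `W`, reference `Ph`) -/

/-- hypotheses common to both phases at one `(σ, h)`; `B` = unit of the entry caps, `GS`, `GV` = row caps -/
structure S7DcH (π₀ π : PPair n d) (t0 : ℕ) (σ h : ℝ) (W Ph : Matrix (Fin n) (Fin n) ℝ)
    (ρ ε B GS GV C1 : ℝ) : Prop where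
  sh : S7Sh π₀ t0 σ h
  symW : Wᵀ = W
  symP : Phᵀ = Ph
  dent : ∀ x y, |s7Dof π Ph x y| ≤ 3 * ρ
  drow : ∀ x, (s7Dof π Ph * s7Dof π Ph) x x ≤ (3 * ρ) ^ 2
  tailP : ∀ i, s7sq (s7tail π₀ π t0 σ h Ph i) ≤ (3 * ρ) ^ 2
  crow : ∀ x y, π.Unres x → π.Unres y → x ≠ y → s7sq (s7Dof π W *ᵥ s7ctr ℝ x y) ≤ GS
  grow : ∀ i, s7sq (s7tail π₀ π t0 σ h W i) ≤ GV
  ent : ∀ a c : S7Out n d, a.Alive π → c.Alive π →
    |s7ent (W - Ph) a c| ≤ ((s7Th (a.ty + c.ty) (a.fl π₀ π t0 + c.fl π₀ π t0) : ℝ) + 1) * B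
  ρ0 : 0 ≤ ρ
  B0 : 0 ≤ B
  GS0 : 0 ≤ GS
  num1 : 3 * ρ + 13 * B ≤ ε
  num2 : 1 / (π.l : ℝ) ≤ ε
  num3 : ε ≤ 1 / 40
  hC1 : 2 * GV + 2 ≤ C1
  hC2 : 2 * GS + 4 ≤ C1
  hC3 : 6 ≤ C1

variable {W Ph : Matrix (Fin n) (Fin n) ℝ} {ρ ε B C1 : ℝ}

theorem S7DcH.oDiff (H : S7DcH π₀ π t0 σ h W Ph ρ ε B GS GV C1) (a : S7Out n d) (ha : a.Alive π)
    (x : Stub n d) :
    |s7orow π W a x - s7orow π Ph a x| ≤ ((s7Th a.ty (a.fl π₀ π t0) : ℝ) + 1) * B := by
  have hK : 0 ≤ ((s7Th a.ty (a.fl π₀ π t0) : ℝ) + 1) * B :=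
    mul_nonneg (by have := s7dc_Th_nonneg a.ty (a.fl π₀ π t0); linarith) H.B0
  obtain ⟨h1, -, h3, -, -⟩ := s7_avgCtr n d π W Ph
  obtain ⟨h1', -, h3', -, -⟩ := s7_avgCtr n d π Ph W
  by_cases hx : π.Unres x
  · rw [h1 a x hx, h1' a x hx, ← mul_sub, ← Finset.sum_sub_distrib]
    refine s7dc_avg_abs π.unres _ _ hK ?_
    intro y hy
    rw [← s7dc_ent_sub]
    by_cases hxy : x = y
    · subst hxy
      rw [((s7_avgCtr n d π (W - Ph) W).2.2.2.2 a x).1, abs_zero]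
      exact hK
    · have h5 := H.ent (S7Out.ctr x y) a ⟨hx, (s7ar_mem_unres π y).1 hy, hxy⟩ ha
      have e1 : S7Out.ty (S7Out.ctr x y : S7Out n d) = 0 := rfl
      have e2 : S7Out.fl π₀ π t0 (S7Out.ctr x y : S7Out n d) = 0 := rfl
      rw [e1, e2, zero_add, zero_add] at h5
      exact h5
  · rw [h3 a x hx, h3' a x hx, sub_zero, abs_zero]
    exact hK

theorem S7DcH.oDiff13 (H : S7DcH π₀ π t0 σ h W Ph ρ ε B GS GV C1) (a : S7Out n d) (ha : a.Alive π)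
    (x : Stub n d) : |s7orow π W a x - s7orow π Ph a x| ≤ 13 * B := by
  refine (H.oDiff a ha x).trans (mul_le_mul_of_nonneg_right ?_ H.B0)
  have := s7dc_Th_le π₀ π t0 a
  linarith

theorem S7DcH.dDiff (H : S7DcH π₀ π t0 σ h W Ph ρ ε B GS GV C1) (x y : Stub n d) :
    |s7Dof π W x y - s7Dof π Ph x y| ≤ 2 * B := by
  have hK : 0 ≤ 2 * B := mul_nonneg (by norm_num) H.B0
  obtain ⟨-, h2, -, h4, -⟩ := s7_avgCtr n d π W Ph
  obtain ⟨-, -, -, h4', -⟩ := s7_avgCtr n d π Ph W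
  have h5 := (s7_avgCtr n d π (W - Ph) W).2.2.2.2
  by_cases hx : π.Unres x ∧ π.Unres y
  · obtain ⟨hx, hy⟩ := hx
    rw [h2 x y hx hy, sq, mul_assoc, Finset.mul_sum]
    refine s7dc_avg_abs π.unres _ _ hK ?_
    intro z hz
    refine s7dc_avg_abs π.unres _ _ hK ?_
    intro z' hz'
    by_cases hxz : x = z
    · subst hxz
      rw [(h5 _ x).1, abs_zero]
      exact hK
    · by_cases hyz : y = z'
      · subst hyz
        rw [(h5 _ y).2, abs_zero]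
        exact hK
      · have h6 := H.ent (S7Out.ctr x z) (S7Out.ctr y z') ⟨hx, (s7ar_mem_unres π z).1 hz, hxz⟩
          ⟨hy, (s7ar_mem_unres π z').1 hz', hyz⟩
        have e1 : ∀ u v : Stub n d, S7Out.ty (S7Out.ctr u v : S7Out n d) = 0 := fun _ _ => rfl
        have e2 : ∀ u v : Stub n d, S7Out.fl π₀ π t0 (S7Out.ctr u v : S7Out n d) = 0 :=
          fun _ _ => rfl
        rw [e1, e1, e2, e2, zero_add, s7dc_Th_zero] at h6
        refine h6.trans (le_of_eq ?_)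
        norm_num
  · have hx' : ¬ π.Unres x ∨ ¬ π.Unres y := by
      by_cases h0 : π.Unres x
      · exact Or.inr fun h1 => hx ⟨h0, h1⟩
      · exact Or.inl h0
    rw [h4 x y hx', h4' x y hx', sub_zero, abs_zero]
    exact hK

theorem S7DcH.entD (H : S7DcH π₀ π t0 σ h W Ph ρ ε B GS GV C1) (x y : Stub n d) :
    |s7Dof π W x y| ≤ ε := by
  have h1 := H.dDiff x y
  have h2 := H.dent x y
  have h3 : |s7Dof π W x y| ≤ |s7Dof π W x y - s7Dof π Ph x y| + |s7Dof π Ph x y| := by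
    have := abs_add_le (s7Dof π W x y - s7Dof π Ph x y) (s7Dof π Ph x y)
    rwa [sub_add_cancel] at this
  have := H.num1
  have := H.B0
  linarith

theorem S7DcH.entDh (H : S7DcH π₀ π t0 σ h W Ph ρ ε B GS GV C1) (x y : Stub n d) :
    |s7Dof π Ph x y| ≤ ε := by
  have h2 := H.dent x y
  have := H.num1
  have := H.B0
  linarith

theorem S7DcH.symD (H : S7DcH π₀ π t0 σ h W Ph ρ ε B GS GV C1) : (s7Dof π W)ᵀ = s7Dof π W :=
  s7ar_Dof_transpose π H.symW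

theorem S7DcH.symDh (H : S7DcH π₀ π t0 σ h W Ph ρ ε B GS GV C1) : (s7Dof π Ph)ᵀ = s7Dof π Ph :=
  s7ar_Dof_transpose π H.symP

theorem s7dc_cent (X : Matrix (Fin n) (Fin n) ℝ) : s7Pi ℝ π.unres * s7Dof π X = s7Dof π X :=
  (s7_ctrRow n d π X).2.2.2.1

/-- Jensen -/
theorem S7DcH.rowD (H : S7DcH π₀ π t0 σ h W Ph ρ ε B GS GV C1) (x : Stub n d) :
    (s7Dof π W * s7Dof π W) x x ≤ GS := by
  refine s7_jensen (Stub n d) π.unres (s7Dof π W) GS H.symD (s7dc_cent W) H.GS0 ?_ x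
  intro x hx y hy hxy
  exact H.crow x y ((s7ar_mem_unres π x).1 hx) ((s7ar_mem_unres π y).1 hy) hxy

theorem S7DcH.tailPE (H : S7DcH π₀ π t0 σ h W Ph ρ ε B GS GV C1) (i : Fin n) (x : Stub n d) :
    |s7tail π₀ π t0 σ h Ph i x| ≤ 3 * ρ :=
  s7dc_abs_le (mul_nonneg (by norm_num) H.ρ0) (H.tailP i) x

theorem S7DcH.tailE (H : S7DcH π₀ π t0 σ h W Ph ρ ε B GS GV C1) (i : Fin n) (x : Stub n d) :
    |s7tail π₀ π t0 σ h W i x| ≤ ε := by
  have h1 := H.oDiff13 (S7Out.glob i) trivial x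
  rw [← s7dc_tail_sub π₀ π t0 σ h W Ph i x] at h1
  have h2 := H.tailPE i x
  have h3 : |s7tail π₀ π t0 σ h W i x|
      ≤ |s7tail π₀ π t0 σ h W i x - s7tail π₀ π t0 σ h Ph i x| + |s7tail π₀ π t0 σ h Ph i x| := by
    have := abs_add_le (s7tail π₀ π t0 σ h W i x - s7tail π₀ π t0 σ h Ph i x)
      (s7tail π₀ π t0 σ h Ph i x)
    rwa [sub_add_cancel] at this
  have := H.num1
  linarith

/-- contrast rows of the reference -/
theorem S7DcH.crowP (H : S7DcH π₀ π t0 σ h W Ph ρ ε B GS GV C1) (x y : Stub n d) :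
    s7sq (s7Dof π Ph *ᵥ s7ctr ℝ x y) ≤ 4 * (3 * ρ) ^ 2 := by
  rw [s7ar_mulVec_ctr]
  have e : (fun s => s7Dof π Ph s x - s7Dof π Ph s y) = s7Dof π Ph x - s7Dof π Ph y := by
    funext s
    rw [s7t_symm_apply H.symDh s x, s7t_symm_apply H.symDh s y]
    rfl
  rw [e]
  have h1 := s7dc_sq_sub (s7Dof π Ph x) (s7Dof π Ph y)
  rw [s7t_sq_row H.symDh, s7t_sq_row H.symDh] at h1
  have h2 := H.drow x
  have h3 := H.drow y
  linarith

theorem S7DcH.rowW (H : S7DcH π₀ π t0 σ h W Ph ρ ε B GS GV C1) :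
    S7RowH π₀ π t0 σ h W ε GV ε GS :=
  ⟨H.sh, H.tailE, H.grow, H.entD, H.crow⟩

theorem S7DcH.rowP (H : S7DcH π₀ π t0 σ h W Ph ρ ε B GS GV C1) :
    S7RowH π₀ π t0 σ h Ph (3 * ρ) ((3 * ρ) ^ 2) (3 * ρ) (4 * (3 * ρ) ^ 2) :=
  ⟨H.sh, H.tailPE, H.tailP, H.dent, fun x y _ _ _ => H.crowP x y⟩

theorem S7DcH.rho_le (H : S7DcH π₀ π t0 σ h W Ph ρ ε B GS GV C1) : 3 * ρ ≤ ε := by
  have := H.num1
  have := H.B0
  linarith

theorem S7DcH.rho_sq (H : S7DcH π₀ π t0 σ h W Ph ρ ε B GS GV C1) : (3 * ρ) ^ 2 ≤ 1 / 1600 := by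
  have h1 := H.rho_le
  have h2 := H.num3
  have h3 := H.ρ0
  nlinarith

theorem s7dc_abs_le_of_sq {ι : Type} [Fintype ι] [DecidableEq ι] {w : ι → ℝ} {C : ℝ} (hC : 1 ≤ C)
    (h : s7sq w ≤ C) (x : ι) : |w x| ≤ C :=
  s7dc_abs_le (by linarith) (h.trans (by nlinarith)) x

theorem S7DcH.outer (H : S7DcH π₀ π t0 σ h W Ph ρ ε B GS GV C1) (a c : S7Out n d)
    (ha : a.Alive π) :
    S7Outer C1 (2 * ε) (13 * B) π.unres (s7allow π₀ π t0 a c) (s7orow π W a) (s7orow π Ph a) := by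
  have hr := H.rho_le
  have hr2 := H.rho_sq
  have hn2 := H.num2
  have hC3 := H.hC3
  have hwn : s7sq (s7orow π W a) ≤ C1 := H.rowW.norm H.hC1 H.hC2 a ha
  have hpn : s7sq (s7orow π Ph a) ≤ C1 := H.rowP.norm (by linarith) (by linarith) a ha
  exact
    { wc := (s7_ctrRow n d π W).2.1 a
      pc := (s7_ctrRow n d π Ph).2.1 a
      wn := hwn
      pn := hpn
      wb := s7dc_abs_le_of_sq (by linarith) hwn
      pb := s7dc_abs_le_of_sq (by linarith) hpn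
      ws := fun x hx => H.rowW.small (by linarith) (le_refl _) a ha x (s7dc_mem_allow hx).2.1
      ps := fun x hx => H.rowP.small (by linarith) (by linarith) a ha x (s7dc_mem_allow hx).2.1
      df := H.oDiff13 a ha }

theorem S7DcH.big (H : S7DcH π₀ π t0 σ h W Ph ρ ε B GS GV C1) (a : S7Out n d) (ha : a.Alive π)
    (x : Stub n d) (hx : a.ty = 0 → ¬ a.Avoid π₀ t0 x) :
    |s7orow π Ph a x| ≤ 105 / 100 ∧ |s7orow π W a x| ≤ 11 / 10 := by
  have hr := H.rho_le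
  have hn2 := H.num2
  have hn3 := H.num3
  exact ⟨H.rowP.big (by linarith) (by linarith) a ha x hx,
    H.rowW.big (by linarith) (by linarith) a ha x hx⟩

end Pair

end Claimed.Agent.R275
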