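import Claimed.Agent.R275.S7DerC

/-!
# Row 275, Section 7, leaves S7-A-DER / S7-B-DER: the fields common to `S7DerA` and `S7DerB`

Prover: helper167.  `s7dc_com`: at FIXED `n`, from the stop data, the caps (rows `GS`, `GV`, entries in the unit `B`) and five numerical inequalities, ALL
common fields (`S7DerCom`, unit `B`), and the bundle `S7DcH` (S7DerC.lean) from which the phase-specific fields follow
(`S7DcH.rowD` Jensen, `S7DcH.rowW/.rowP` + `S7RowH.fine` for (7.59), `S7DcH.drow`, `S7DcH.symD`, `s7dc_cent`).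
-/

set_option autoImplicit false
set_option linter.unusedSectionVars false
set_option linter.unusedVariables false

namespace Claimed.Agent.R275

open Matrix

/-- the fields common to `S7DerA` (`B = B_A`) and `S7DerB` (`B = B_B`) -/
structure S7DerCom (d n : ℕ) (φ : ℕ → ℚ) (π₀ π : PPair n d) (σ h B : ℝ) : Prop where
  sig : σ ^ 2 = 1
  refAt : S7RefAt π₀ π (s7t0 d n) σ h (s7P0R d n φ π₀ σ h) (1 / 32) (s7rho n : ℝ)
  baseD : S7Base (s7hmin d) ((s7ThS d : ℝ) + 1) (s7eps n : ℝ) σ h π.unres (s7D π σ h)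
  baseDh : S7Base (s7hmin d) ((s7ThS d : ℝ) + 1) (s7eps n : ℝ) σ h π.unres
    (s7Dh π₀ π φ (Lcut d n) σ h)
  opDh : s7opLE (s7Dh π₀ π φ (Lcut d n) σ h) (1 / 4)
  tailE : ∀ i x, |s7r π₀ π (s7t0 d n) σ h i x| ≤ (s7eps n : ℝ)
  tailC : ∀ i, S7Cent π.unres (s7r π₀ π (s7t0 d n) σ h i)
  dDiff : ∀ x y, |s7D π σ h x y - s7Dh π₀ π φ (Lcut d n) σ h x y| ≤ 2 * B
  oDiff : ∀ a : S7Out n d, a.Alive π → ∀ x,
    |s7orow π (π.Wmat σ h) a x - s7orow π (s7Ph π₀ π φ (Lcut d n) σ h) a x| ≤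
      ((s7Th a.ty (a.fl π₀ π (s7t0 d n)) : ℝ) + 1) * B
  outer : ∀ a c : S7Out n d, a.Alive π → c.Alive π →
    S7Allowed π.unres (s7allow π₀ π (s7t0 d n) a c) ∧
    S7Outer (s7C1 d : ℝ) (2 * (s7eps n : ℝ)) (13 * B) π.unres
      (s7allow π₀ π (s7t0 d n) a c) (s7orow π (π.Wmat σ h) a)
      (s7orow π (s7Ph π₀ π φ (Lcut d n) σ h) a)
  big : ∀ a : S7Out n d, a.Alive π → ∀ x, (a.ty = 0 → ¬ a.Avoid π₀ (s7t0 d n) x) →
    |s7orow π (s7Ph π₀ π φ (Lcut d n) σ h) a x| ≤ 105 / 100 ∧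
    |s7orow π (π.Wmat σ h) a x| ≤ 11 / 10

theorem s7dc_ThS_cast (d : ℕ) : (s7ThS d : ℝ) = 32 * (d : ℝ) - 12 := by
  unfold s7ThS; push_cast; ring

theorem s7dc_ThV0_cast (d : ℕ) : (s7ThV0 d : ℝ) = 8 * (d : ℝ) - 2 := by
  unfold s7ThV0; push_cast; ring

theorem s7dc_ThV1_cast (d : ℕ) :
    (s7ThV1 d : ℝ) = 4 * ((s7ThV0 d : ℝ) + 1) + 100 * ((s7ThS d : ℝ) + 1) := by
  unfold s7ThV1; push_cast; ring

theorem s7dc_C1_cast (d : ℕ) : (s7C1 d : ℝ) = 2 * ((s7ThV1 d : ℝ) + 1) + 4 := by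
  unfold s7C1; push_cast; ring

theorem s7dc_hmin_pos {d : ℕ} (hd : 3 ≤ d) : 0 < s7hmin d := by
  have hd' : (3 : ℝ) ≤ (d : ℝ) := by exact_mod_cast hd
  unfold s7hmin
  have : 0 < Real.sqrt ((d : ℝ) - 1) := Real.sqrt_pos.2 (by linarith)
  positivity

theorem s7dc_sgn (b : Bool) : (sgn b : ℝ) = 1 ∨ (sgn b : ℝ) = -1 := by
  cases b <;> simp [sgn]

theorem s7dc_sgn_sq (b : Bool) : (sgn b : ℝ) ^ 2 = 1 := by
  cases b <;> simp [sgn]

/-- **the common part of S7-A-DER and S7-B-DER** -/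
theorem s7dc_com (hRef : StS7RefAll) {d n : ℕ} (hd : 3 ≤ d) {φ : ℕ → ℚ} {π₀ π : PPair n d} {b : Bool}
    {h B GS GV Yb Tb βP : ℝ}
    (ref : S7RefOut π₀ (s7t0 d n) (Lcut d n) (sgn b) h (s7P0R d n φ π₀ (sgn b) h) (1 / 32)
      (s7rho n : ℝ) Yb Tb βP)
    (ext : π₀.Ext π) (hlo : s7hmin d ≤ h) (hhi : h ≤ 3 / 4)
    (crow : ∀ x y, π.Unres x → π.Unres y → x ≠ y → s7sq (s7D π (sgn b) h *ᵥ s7ctr ℝ x y) ≤ GS)
    (grow : ∀ i, s7sq (s7r π₀ π (s7t0 d n) (sgn b) h i) ≤ GV)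
    (ent : ∀ a c : S7Out n d, a.Alive π → c.Alive π →
      |s7ent (s7E π₀ π φ (Lcut d n) (sgn b) h) a c| ≤
        ((s7Th (a.ty + c.ty) (a.fl π₀ π (s7t0 d n) + c.fl π₀ π (s7t0 d n)) : ℝ) + 1) * B)
    (B0 : 0 ≤ B) (GS0 : 0 ≤ GS) (hGS : GS ≤ (s7ThS d : ℝ) + 1) (hGV : GV ≤ (s7ThV1 d : ℝ) + 1)
    (num1 : 3 * (s7rho n : ℝ) + 13 * B ≤ (s7eps n : ℝ)) (num2 : 1 / (π.l : ℝ) ≤ (s7eps n : ℝ))
    (num3 : (s7eps n : ℝ) ≤ 1 / 40) :
    S7DerCom d n φ π₀ π (sgn b) h B ∧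
    S7DcH π₀ π (s7t0 d n) (sgn b) h (π.Wmat (sgn b) h) (s7Ph π₀ π φ (Lcut d n) (sgn b) h)
      (s7rho n : ℝ) (s7eps n : ℝ) B GS GV (s7C1 d : ℝ) := by
  have hd' : (3 : ℝ) ≤ (d : ℝ) := by exact_mod_cast hd
  have hρ0 : (0 : ℝ) ≤ (s7rho n : ℝ) := (s7n_cast_pos _ n).le
  have hh0 : 0 < h := lt_of_lt_of_le (s7dc_hmin_pos hd) hlo
  have hT1 := s7dc_ThS_cast d
  have hT2 := s7dc_ThV0_cast d
  have hT3 := s7dc_ThV1_cast d
  have hT4 := s7dc_C1_cast d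
  have RA : S7RefAt π₀ π (s7t0 d n) (sgn b) h (s7P0R d n φ π₀ (sgn b) h) (1 / 32) (s7rho n : ℝ) :=
    hRef n d π₀ π _ _ _ _ _ _ _ _ _ _ ref ext (s7dc_sgn_sq b) hh0 hhi (by norm_num) hρ0
  have H : S7DcH π₀ π (s7t0 d n) (sgn b) h (π.Wmat (sgn b) h) (s7Ph π₀ π φ (Lcut d n) (sgn b) h)
      (s7rho n : ℝ) (s7eps n : ℝ) B GS GV (s7C1 d : ℝ) :=
    { sh := ⟨ref.uniq, ref.cle⟩
      symW := π.s6_Wmat_transpose _ _
      symP := RA.symm
      dent := RA.dent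
      drow := RA.drow
      tailP := RA.tail
      crow := crow
      grow := grow
      ent := ent
      ρ0 := hρ0
      B0 := B0
      GS0 := GS0
      num1 := num1
      num2 := num2
      num3 := num3
      hC1 := by linarith
      hC2 := by linarith
      hC3 := by linarith }
  refine ⟨?_, H⟩
  exact
    { sig := s7dc_sgn_sq b
      refAt := RA
      baseD :=
        { h_lo := hlo
          h_hi := hhi
          sig := s7dc_sgn b
          symm := H.symD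
          cent := s7dc_cent _
          row := fun x => (H.rowD x).trans hGS
          ent := H.entD }
      baseDh :=
        { h_lo := hlo
          h_hi := hhi
          sig := s7dc_sgn b
          symm := H.symDh
          cent := s7dc_cent _
          row := fun x => (H.drow x).trans (by have := H.rho_sq; linarith)
          ent := H.entDh }
      opDh := s7dc_opLE_mono RA.op (by norm_num)
      tailE := H.tailE
      tailC := fun i => s7dc_tail_cent _ _ _ _ _ _ i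
      dDiff := H.dDiff
      oDiff := H.oDiff
      outer := fun a c ha _ => ⟨H.sh.allowed π a c, H.outer a c ha⟩
      big := H.big }

end Claimed.Agent.R275
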