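import Claimed.Agent.R275.S7Schatten

/-!
# Row 275, Section 7, leaf S7-NORMSTEP: `E Tr D'⁸ ≤ (1 + C/l) Tr D⁸ + C`

Prover: helper143.  Prefix `s7ns`.

Plan (replaces the expansion in 256 words of the paper).  `P = D I`, `U = P H Pᵀ`, `M = D - U`.
* `Tr D'⁸ ≤ Tr M⁸` (`s7_schatten`).
* Two applications of `M^n = D^n - ∑_{j<n} M^j U D^{n-1-j}` give the EXACT identity
  `Tr M⁸ = Tr D⁸ - 8 Tr (H Pᵀ D⁷ P) + ∑_{j<8} ∑_{i<j} Tr (M^i U D^{j-1-i} U D^{7-j})`.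
* With `t ≥ 1`, `t⁶ = 1 + m₈/C0`, interpolation (log-convexity of `(D^{2a})_xx`) gives `|(D^{s+2})_xy| ≤ C0 t^s`, `s ≤ 6`,
  on the two selected coordinates; by induction on `i` the `2 × 2` matrices `Pᵀ D^b M^i P` are `≤ C t^{b+i}`, so each of the
  28 remainder terms is `≤ C t⁶ = C (1 + m₈/C0)`.
* The first order term: `H = H₀ + N₁`; `H₀` has mean zero (`StS7CentId`), `N₁` by the bilinear rule (`StS7Bilin`) with
  `x_s = √(D⁸)_ss` and `|(D⁹)_xy| ≤ Z x_x x_y`.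
-/

set_option autoImplicit false

namespace Claimed.Agent.R275

open Matrix

/-! ## Noncommutative expansion -/

theorem s7ns_pow_sub {A : Type*} [Ring A] (D U : A) (n : ℕ) :
    (D - U) ^ n = D ^ n - ∑ j ∈ Finset.range n, (D - U) ^ j * U * D ^ (n - 1 - j) := by
  induction n with
  | zero => simp
  | succ n ih =>
    rw [Finset.sum_range_succ]
    have h1 : ∑ j ∈ Finset.range n, (D - U) ^ j * U * D ^ (n + 1 - 1 - j)
        = (∑ j ∈ Finset.range n, (D - U) ^ j * U * D ^ (n - 1 - j)) * D := by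
      rw [Finset.sum_mul]
      refine Finset.sum_congr rfl fun j hj => ?_
      have hj' : j < n := Finset.mem_range.mp hj
      have : n + 1 - 1 - j = (n - 1 - j) + 1 := by omega
      rw [this, pow_succ, mul_assoc, mul_assoc, mul_assoc]
    have h2 : n + 1 - 1 - n = 0 := by omega
    rw [h1, h2, pow_zero, mul_one]
    have h3 : (D - U) ^ (n + 1) = (D - U) ^ n * D - (D - U) ^ n * U := by
      rw [pow_succ, mul_sub]
    have h4 : (D - U) ^ n * D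
        = D ^ (n + 1) - (∑ j ∈ Finset.range n, (D - U) ^ j * U * D ^ (n - 1 - j)) * D := by
      rw [ih, sub_mul, ← pow_succ]
    rw [h3, h4]
    abel

/-! ## Entrywise bounds of `2 × 2` matrices -/

/-- entrywise bound -/
def s7nsB (X : Matrix (Fin 2) (Fin 2) ℝ) (c : ℝ) : Prop := ∀ i j, |X i j| ≤ c

theorem s7nsB_nonneg {X : Matrix (Fin 2) (Fin 2) ℝ} {c : ℝ} (h : s7nsB X c) : 0 ≤ c :=
  (abs_nonneg _).trans (h 0 0)

theorem s7nsB_mono {X : Matrix (Fin 2) (Fin 2) ℝ} {c c' : ℝ} (h : s7nsB X c) (hc : c ≤ c') :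
    s7nsB X c' := fun i j => (h i j).trans hc

theorem s7nsB_mul {X Y : Matrix (Fin 2) (Fin 2) ℝ} {a b : ℝ} (hX : s7nsB X a) (hY : s7nsB Y b) :
    s7nsB (X * Y) (2 * (a * b)) := by
  intro i j
  rw [Matrix.mul_apply, Fin.sum_univ_two]
  have ha : 0 ≤ a := s7nsB_nonneg hX
  have h1 : |X i 0 * Y 0 j| ≤ a * b := by
    rw [abs_mul]; exact mul_le_mul (hX _ _) (hY _ _) (abs_nonneg _) ha
  have h2 : |X i 1 * Y 1 j| ≤ a * b := by
    rw [abs_mul]; exact mul_le_mul (hX _ _) (hY _ _) (abs_nonneg _) ha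
  calc |X i 0 * Y 0 j + X i 1 * Y 1 j| ≤ |X i 0 * Y 0 j| + |X i 1 * Y 1 j| := abs_add_le _ _
    _ ≤ 2 * (a * b) := by linarith

theorem s7nsB_sub {X Y : Matrix (Fin 2) (Fin 2) ℝ} {a b : ℝ} (hX : s7nsB X a) (hY : s7nsB Y b) :
    s7nsB (X - Y) (a + b) := by
  intro i j
  rw [Matrix.sub_apply]
  calc |X i j - Y i j| ≤ |X i j| + |Y i j| := abs_sub _ _
    _ ≤ a + b := add_le_add (hX _ _) (hY _ _)

theorem s7nsB_trace {X : Matrix (Fin 2) (Fin 2) ℝ} {a : ℝ} (hX : s7nsB X a) :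
    |X.trace| ≤ 2 * a := by
  rw [Matrix.trace, Fin.sum_univ_two, Matrix.diag_apply, Matrix.diag_apply]
  calc |X 0 0 + X 1 1| ≤ |X 0 0| + |X 1 1| := abs_add_le _ _
    _ ≤ 2 * a := by linarith [hX 0 0, hX 1 1]

/-! ## The abstract remainder bound -/

section Abstract

variable {ι : Type} [Fintype ι] [DecidableEq ι]
variable (D : Matrix ι ι ℝ) (P : Matrix ι (Fin 2) ℝ) (H : Matrix (Fin 2) (Fin 2) ℝ)

theorem s7ns_W_succ (b i : ℕ) :
    Pᵀ * D ^ b * (D - P * H * Pᵀ) ^ (i + 1) * P =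
      Pᵀ * D ^ (b + 1) * (D - P * H * Pᵀ) ^ i * P
        - (Pᵀ * D ^ b * P) * H * (Pᵀ * D ^ 0 * (D - P * H * Pᵀ) ^ i * P) := by
  generalize hM : (D - P * H * Pᵀ) ^ i = Mi
  rw [pow_succ', hM, pow_succ, pow_zero]
  simp only [Matrix.mul_sub, Matrix.sub_mul, Matrix.mul_assoc, Matrix.mul_one]

variable {D P H}

theorem s7ns_W_bound {c0 cH t : ℝ} (ht : 1 ≤ t)
    (hP : ∀ b, b ≤ 6 → s7nsB (Pᵀ * D ^ b * P) (c0 * t ^ b)) (hH : s7nsB H cH) :
    ∀ i b, b + i ≤ 6 →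
      s7nsB (Pᵀ * D ^ b * (D - P * H * Pᵀ) ^ i * P) (c0 * (1 + 4 * c0 * cH) ^ i * t ^ (b + i)) := by
  have ht0 : 0 ≤ t := zero_le_one.trans ht
  have hc0 : 0 ≤ c0 := by
    have := s7nsB_nonneg (hP 0 (by norm_num))
    simpa using this
  have hcH : 0 ≤ cH := s7nsB_nonneg hH
  intro i
  induction i with
  | zero =>
    intro b hb
    simpa using hP b (by omega)
  | succ i ih =>
    intro b hb
    rw [s7ns_W_succ]
    have h1 := ih (b + 1) (by omega)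
    have h2 := s7nsB_mul (s7nsB_mul (hP b (by omega)) hH) (ih 0 (by omega))
    refine s7nsB_mono (s7nsB_sub h1 h2) ?_
    set κ := (1 + 4 * c0 * cH) with hκ
    have hκ0 : 0 ≤ κ := by positivity
    have e1 : t ^ (b + 1 + i) = t ^ (b + (i + 1)) := by congr 1; omega
    have e2 : t ^ b * t ^ (0 + i) ≤ t ^ (b + (i + 1)) := by
      rw [← pow_add]
      exact pow_le_pow_right₀ ht (by omega)
    have e3 : 2 * (2 * (c0 * t ^ b * cH) * (c0 * κ ^ i * t ^ (0 + i)))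
        = (4 * c0 * cH * (c0 * κ ^ i)) * (t ^ b * t ^ (0 + i)) := by ring
    rw [e1, e3]
    have e4 : (4 * c0 * cH * (c0 * κ ^ i)) * (t ^ b * t ^ (0 + i))
        ≤ (4 * c0 * cH * (c0 * κ ^ i)) * t ^ (b + (i + 1)) :=
      mul_le_mul_of_nonneg_left e2 (by positivity)
    calc c0 * κ ^ i * t ^ (b + (i + 1)) + (4 * c0 * cH * (c0 * κ ^ i)) * (t ^ b * t ^ (0 + i))
        ≤ c0 * κ ^ i * t ^ (b + (i + 1)) + (4 * c0 * cH * (c0 * κ ^ i)) * t ^ (b + (i + 1)) := by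
          linarith
      _ = c0 * κ ^ (i + 1) * t ^ (b + (i + 1)) := by rw [hκ]; ring

omit [Fintype ι] [DecidableEq ι] in
theorem s7ns_M_symm (hD : Dᵀ = D) (hH : Hᵀ = H) : (D - P * H * Pᵀ)ᵀ = D - P * H * Pᵀ := by
  rw [Matrix.transpose_sub, Matrix.transpose_mul, Matrix.transpose_mul, Matrix.transpose_transpose,
    hH, hD, Matrix.mul_assoc]

theorem s7ns_term_eq (i a b : ℕ) :
    ((D - P * H * Pᵀ) ^ i * (P * H * Pᵀ) * D ^ a * (P * H * Pᵀ) * D ^ b).trace =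
      (H * (Pᵀ * D ^ a * P) * H * (Pᵀ * D ^ b * (D - P * H * Pᵀ) ^ i * P)).trace := by
  generalize (D - P * H * Pᵀ) ^ i = Mi
  calc (Mi * (P * H * Pᵀ) * D ^ a * (P * H * Pᵀ) * D ^ b).trace
      = ((Mi * P) * (H * Pᵀ * D ^ a * P * H * Pᵀ * D ^ b)).trace := by
        simp only [Matrix.mul_assoc]
    _ = ((H * Pᵀ * D ^ a * P * H * Pᵀ * D ^ b) * (Mi * P)).trace := Matrix.trace_mul_comm _ _
    _ = _ := by simp only [Matrix.mul_assoc]

theorem s7ns_term_bound {c0 cH t : ℝ} (ht : 1 ≤ t)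
    (hP : ∀ b, b ≤ 6 → s7nsB (Pᵀ * D ^ b * P) (c0 * t ^ b)) (hH : s7nsB H cH)
    (i a b : ℕ) (hs : i + a + b = 6) :
    |((D - P * H * Pᵀ) ^ i * (P * H * Pᵀ) * D ^ a * (P * H * Pᵀ) * D ^ b).trace| ≤
      16 * cH ^ 2 * c0 ^ 2 * (1 + 4 * c0 * cH) ^ 6 * t ^ 6 := by
  have ht0 : 0 ≤ t := zero_le_one.trans ht
  have hc0 : 0 ≤ c0 := by
    have := s7nsB_nonneg (hP 0 (by norm_num))
    simpa using this
  have hcH : 0 ≤ cH := s7nsB_nonneg hH
  rw [s7ns_term_eq]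
  have h1 := s7nsB_trace (s7nsB_mul (s7nsB_mul (s7nsB_mul hH (hP a (by omega))) hH)
    (s7ns_W_bound ht hP hH i b (by omega)))
  refine h1.trans ?_
  set κ := (1 + 4 * c0 * cH) with hκ
  have hκ1 : 1 ≤ κ := by rw [hκ]; nlinarith [mul_nonneg hc0 hcH]
  have e1 : κ ^ i ≤ κ ^ 6 := pow_le_pow_right₀ hκ1 (by omega)
  have e2 : t ^ a * t ^ (b + i) = t ^ 6 := by rw [← pow_add]; congr 1; omega
  calc 2 * (2 * (2 * (2 * (cH * (c0 * t ^ a)) * cH) * (c0 * κ ^ i * t ^ (b + i))))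
      = 16 * cH ^ 2 * c0 ^ 2 * κ ^ i * (t ^ a * t ^ (b + i)) := by ring
    _ = 16 * cH ^ 2 * c0 ^ 2 * κ ^ i * t ^ 6 := by rw [e2]
    _ ≤ 16 * cH ^ 2 * c0 ^ 2 * κ ^ 6 * t ^ 6 := by gcongr

theorem s7ns_first_eq (j : ℕ) (hj : j < 8) :
    (D ^ j * (P * H * Pᵀ) * D ^ (8 - 1 - j)).trace = (H * (Pᵀ * D ^ 7 * P)).trace := by
  have e : D ^ (8 - 1 - j) * D ^ j = D ^ 7 := by rw [← pow_add]; congr 1; omega
  calc (D ^ j * (P * H * Pᵀ) * D ^ (8 - 1 - j)).trace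
      = ((D ^ j * P) * (H * Pᵀ * D ^ (8 - 1 - j))).trace := by simp only [Matrix.mul_assoc]
    _ = ((H * Pᵀ * D ^ (8 - 1 - j)) * (D ^ j * P)).trace := Matrix.trace_mul_comm _ _
    _ = (H * (Pᵀ * (D ^ (8 - 1 - j) * D ^ j) * P)).trace := by simp only [Matrix.mul_assoc]
    _ = _ := by rw [e]

/-- exact second order expansion of `Tr (D - U)⁸` -/
theorem s7ns_expand :
    ((D - P * H * Pᵀ) ^ 8).trace = (D ^ 8).trace - 8 * (H * (Pᵀ * D ^ 7 * P)).trace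
      + ∑ j ∈ Finset.range 8, ∑ i ∈ Finset.range j,
        ((D - P * H * Pᵀ) ^ i * (P * H * Pᵀ) * D ^ (j - 1 - i) * (P * H * Pᵀ) * D ^ (8 - 1 - j)).trace := by
  set U := P * H * Pᵀ with hU
  have h1 : ((D - U) ^ 8).trace
      = (D ^ 8).trace - ∑ j ∈ Finset.range 8, ((D - U) ^ j * U * D ^ (8 - 1 - j)).trace := by
    conv_lhs => rw [s7ns_pow_sub D U 8]
    rw [Matrix.trace_sub, Matrix.trace_sum]
  have h2 : ∀ j ∈ Finset.range 8, ((D - U) ^ j * U * D ^ (8 - 1 - j)).trace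
      = (H * (Pᵀ * D ^ 7 * P)).trace - ∑ i ∈ Finset.range j,
        ((D - U) ^ i * U * D ^ (j - 1 - i) * U * D ^ (8 - 1 - j)).trace := by
    intro j hj
    conv_lhs => rw [s7ns_pow_sub D U j]
    rw [sub_mul, sub_mul, Matrix.trace_sub, Finset.sum_mul, Finset.sum_mul, Matrix.trace_sum,
      hU, s7ns_first_eq j (Finset.mem_range.mp hj)]
  rw [h1, Finset.sum_congr rfl h2, Finset.sum_sub_distrib]
  simp only [Finset.sum_const, Finset.card_range, nsmul_eq_mul]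
  push_cast
  ring

theorem s7ns_abstract {c0 cH t : ℝ} (ht : 1 ≤ t)
    (hP : ∀ b, b ≤ 6 → s7nsB (Pᵀ * D ^ b * P) (c0 * t ^ b)) (hH : s7nsB H cH) :
    ((D - P * H * Pᵀ) ^ 8).trace ≤ (D ^ 8).trace - 8 * (H * (Pᵀ * D ^ 7 * P)).trace
      + 28 * (16 * cH ^ 2 * c0 ^ 2 * (1 + 4 * c0 * cH) ^ 6) * t ^ 6 := by
  rw [s7ns_expand]
  have : ∑ j ∈ Finset.range 8, ∑ i ∈ Finset.range j,
        ((D - P * H * Pᵀ) ^ i * (P * H * Pᵀ) * D ^ (j - 1 - i) * (P * H * Pᵀ) * D ^ (8 - 1 - j)).trace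
      ≤ ∑ j ∈ Finset.range 8, ∑ i ∈ Finset.range j,
        16 * cH ^ 2 * c0 ^ 2 * (1 + 4 * c0 * cH) ^ 6 * t ^ 6 := by
    refine Finset.sum_le_sum fun j hj => Finset.sum_le_sum fun i hi => ?_
    have hj' := Finset.mem_range.mp hj
    have hi' := Finset.mem_range.mp hi
    exact (le_abs_self _).trans (s7ns_term_bound ht hP hH i (j - 1 - i) (8 - 1 - j) (by omega))
  have e : ∑ j ∈ Finset.range 8, ∑ i ∈ Finset.range j,
        16 * cH ^ 2 * c0 ^ 2 * (1 + 4 * c0 * cH) ^ 6 * t ^ 6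
      = 28 * (16 * cH ^ 2 * c0 ^ 2 * (1 + 4 * c0 * cH) ^ 6) * t ^ 6 := by
    simp only [Finset.sum_const, Finset.card_range, nsmul_eq_mul, Finset.sum_range_succ,
      Finset.sum_range_zero]
    push_cast
    ring
  linarith

end Abstract

/-! ## Powers of a symmetric matrix on two coordinates -/

section Powers

variable {ι : Type} [Fintype ι] [DecidableEq ι]

/-- the column `D^a e_x` -/
def s7nsCol (D : Matrix ι ι ℝ) (a : ℕ) (x : ι) : ι → ℝ := fun i => (D ^ a) i x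

theorem s7ns_pow_apply {D : Matrix ι ι ℝ} (hD : Dᵀ = D) (a b : ℕ) (x y : ι) :
    (D ^ (a + b)) x y = s7nsCol D a x ⬝ᵥ s7nsCol D b y := by
  rw [pow_add, Matrix.mul_apply]
  unfold s7nsCol dotProduct
  refine Finset.sum_congr rfl fun i _ => ?_
  have : (D ^ a) x i = (D ^ a) i x := by
    conv_lhs => rw [← s7sch_pow_symm hD a]
    rfl
  rw [this]

theorem s7ns_nu {D : Matrix ι ι ℝ} (hD : Dᵀ = D) (a : ℕ) (x : ι) :
    s7sq (s7nsCol D a x) = (D ^ (a + a)) x x := by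
  rw [s7ns_pow_apply hD]; rfl

theorem s7ns_cs {D : Matrix ι ι ℝ} (hD : Dᵀ = D) (a b : ℕ) (x y : ι) :
    ((D ^ (a + b)) x y) ^ 2 ≤ s7sq (s7nsCol D a x) * s7sq (s7nsCol D b y) := by
  rw [s7ns_pow_apply hD]
  exact s7sch_dot_cs _ _

theorem s7ns_interp {n1 n2 n3 n4 c t : ℝ} (h1 : 0 ≤ n1) (h2 : 0 ≤ n2) (h3 : 0 ≤ n3) (h4 : 0 ≤ n4)
    (hc : 0 ≤ c) (b1 : n1 ≤ c) (b4 : n4 ≤ c * t ^ 6) (c2 : n2 ^ 2 ≤ n1 * n3)
    (c3 : n3 ^ 2 ≤ n2 * n4) : n2 ≤ c * t ^ 2 ∧ n3 ≤ c * t ^ 4 := by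
  constructor
  · rcases h2.eq_or_lt with h0 | hpos
    · rw [← h0]; positivity
    · have e1 : n2 * n2 ^ 3 ≤ n2 * (n1 ^ 2 * n4) := by
        calc n2 * n2 ^ 3 = (n2 ^ 2) ^ 2 := by ring
          _ ≤ (n1 * n3) ^ 2 := pow_le_pow_left₀ (sq_nonneg _) c2 2
          _ = n1 ^ 2 * n3 ^ 2 := by ring
          _ ≤ n1 ^ 2 * (n2 * n4) := mul_le_mul_of_nonneg_left c3 (sq_nonneg _)
          _ = n2 * (n1 ^ 2 * n4) := by ring
      have e2 : n2 ^ 3 ≤ n1 ^ 2 * n4 := le_of_mul_le_mul_left e1 hpos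
      have e3 : n1 ^ 2 * n4 ≤ c ^ 2 * (c * t ^ 6) :=
        mul_le_mul (pow_le_pow_left₀ h1 b1 2) b4 h4 (sq_nonneg _)
      have e4 : n2 ^ 3 ≤ (c * t ^ 2) ^ 3 := by
        calc n2 ^ 3 ≤ c ^ 2 * (c * t ^ 6) := e2.trans e3
          _ = (c * t ^ 2) ^ 3 := by ring
      exact le_of_pow_le_pow_left₀ (by norm_num) (by positivity) e4
  · rcases h3.eq_or_lt with h0 | hpos
    · rw [← h0]; positivity
    · have e1 : n3 * n3 ^ 3 ≤ n3 * (n1 * n4 ^ 2) := by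
        calc n3 * n3 ^ 3 = (n3 ^ 2) ^ 2 := by ring
          _ ≤ (n2 * n4) ^ 2 := pow_le_pow_left₀ (sq_nonneg _) c3 2
          _ = n2 ^ 2 * n4 ^ 2 := by ring
          _ ≤ (n1 * n3) * n4 ^ 2 := mul_le_mul_of_nonneg_right c2 (sq_nonneg _)
          _ = n3 * (n1 * n4 ^ 2) := by ring
      have e2 : n3 ^ 3 ≤ n1 * n4 ^ 2 := le_of_mul_le_mul_left e1 hpos
      have e3 : n1 * n4 ^ 2 ≤ c * (c * t ^ 6) ^ 2 :=
        mul_le_mul b1 (pow_le_pow_left₀ h4 b4 2) (sq_nonneg _) hc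
      have e4 : n3 ^ 3 ≤ (c * t ^ 4) ^ 3 := by
        calc n3 ^ 3 ≤ c * (c * t ^ 6) ^ 2 := e2.trans e3
          _ = (c * t ^ 4) ^ 3 := by ring
      exact le_of_pow_le_pow_left₀ (by norm_num) (by positivity) e4

theorem s7ns_nu_bound {D : Matrix ι ι ℝ} (hD : Dᵀ = D) {c t : ℝ} (hc : 0 ≤ c) {x : ι}
    (b1 : (D * D) x x ≤ c) (b4 : (D ^ 8) x x ≤ c * t ^ 6) :
    ∀ a, a ≤ 3 → s7sq (s7nsCol D (a + 1) x) ≤ c * (t ^ a) ^ 2 := by
  have n1 : s7sq (s7nsCol D 1 x) ≤ c := by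
    rw [s7ns_nu hD]; simpa [pow_succ] using b1
  have n4 : s7sq (s7nsCol D 4 x) ≤ c * t ^ 6 := by
    rw [s7ns_nu hD]; exact b4
  have c2 : s7sq (s7nsCol D 2 x) ^ 2 ≤ s7sq (s7nsCol D 1 x) * s7sq (s7nsCol D 3 x) := by
    rw [s7ns_nu hD 2]; exact s7ns_cs hD 1 3 x x
  have c3 : s7sq (s7nsCol D 3 x) ^ 2 ≤ s7sq (s7nsCol D 2 x) * s7sq (s7nsCol D 4 x) := by
    rw [s7ns_nu hD 3]; exact s7ns_cs hD 2 4 x x
  obtain ⟨n2, n3⟩ := s7ns_interp (s7sch_sq_nonneg _) (s7sch_sq_nonneg _) (s7sch_sq_nonneg _)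
    (s7sch_sq_nonneg _) hc n1 n4 c2 c3
  intro a ha
  interval_cases a
  · simpa using n1
  · simpa using n2
  · have : (t ^ 2) ^ 2 = t ^ 4 := by ring
    rw [this]; exact n3
  · have : (t ^ 3) ^ 2 = t ^ 6 := by ring
    rw [this]; exact n4

theorem s7ns_ent_bound {D : Matrix ι ι ℝ} (hD : Dᵀ = D) {c t : ℝ} (hc : 0 ≤ c) (ht : 0 ≤ t) {x y : ι}
    (bx1 : (D * D) x x ≤ c) (bx4 : (D ^ 8) x x ≤ c * t ^ 6)
    (by1 : (D * D) y y ≤ c) (by4 : (D ^ 8) y y ≤ c * t ^ 6) :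
    ∀ s, s ≤ 6 → |(D ^ (s + 2)) x y| ≤ c * t ^ s := by
  intro s hs
  obtain ⟨a, b, ha, hb, hab⟩ : ∃ a b, a ≤ 3 ∧ b ≤ 3 ∧ a + b = s :=
    ⟨s / 2, s - s / 2, by omega, by omega, by omega⟩
  have e : s + 2 = (a + 1) + (b + 1) := by omega
  have h1 := s7ns_cs hD (a + 1) (b + 1) x y
  have h2 := s7ns_nu_bound hD hc bx1 bx4 a ha
  have h3 := s7ns_nu_bound hD hc by1 by4 b hb
  rw [e]
  refine abs_le_of_sq_le_sq ?_ (by positivity)
  calc ((D ^ (a + 1 + (b + 1))) x y) ^ 2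
      ≤ s7sq (s7nsCol D (a + 1) x) * s7sq (s7nsCol D (b + 1) y) := h1
    _ ≤ (c * (t ^ a) ^ 2) * (c * (t ^ b) ^ 2) :=
        mul_le_mul h2 h3 (s7sch_sq_nonneg _) (by positivity)
    _ = (c * t ^ s) ^ 2 := by rw [← hab, pow_add]; ring

theorem s7ns_nine {D : Matrix ι ι ℝ} (hD : Dᵀ = D) {Z : ℝ} (hZ : s7opLE D Z) (x y : ι) :
    |(D ^ 9) x y| ≤ Z * (Real.sqrt ((D ^ 8) x x) * Real.sqrt ((D ^ 8) y y)) := by
  have h1 := s7ns_cs hD 4 5 x y
  have e5 : s7nsCol D 5 y = D *ᵥ s7nsCol D 4 y := by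
    funext i
    simp only [s7nsCol, Matrix.mulVec, dotProduct]
    rw [pow_succ', Matrix.mul_apply]
  have h2 : s7sq (s7nsCol D 5 y) ≤ Z ^ 2 * s7sq (s7nsCol D 4 y) := by
    rw [e5]; exact hZ.2 _
  have ex : s7sq (s7nsCol D 4 x) = (D ^ 8) x x := s7ns_nu hD 4 x
  have ey : s7sq (s7nsCol D 4 y) = (D ^ 8) y y := s7ns_nu hD 4 y
  have px : 0 ≤ (D ^ 8) x x := by rw [← ex]; exact s7sch_sq_nonneg _
  have py : 0 ≤ (D ^ 8) y y := by rw [← ey]; exact s7sch_sq_nonneg _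
  refine abs_le_of_sq_le_sq ?_ (mul_nonneg hZ.1 (mul_nonneg (Real.sqrt_nonneg _) (Real.sqrt_nonneg _)))
  calc ((D ^ 9) x y) ^ 2 ≤ s7sq (s7nsCol D 4 x) * s7sq (s7nsCol D 5 y) := h1
    _ ≤ (D ^ 8) x x * (Z ^ 2 * (D ^ 8) y y) := by
        rw [ex]; rw [ey] at h2; exact mul_le_mul_of_nonneg_left h2 px
    _ = (Z * (Real.sqrt ((D ^ 8) x x) * Real.sqrt ((D ^ 8) y y))) ^ 2 := by
        rw [mul_pow, mul_pow, Real.sq_sqrt px, Real.sq_sqrt py]; ring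

theorem s7ns_blk (X : Matrix ι ι ℝ) (u v : ι) :
    (s7I ℝ u v)ᵀ * X * s7I ℝ u v = s7blk X u v := by
  funext a b
  simp only [Matrix.mul_apply, Matrix.transpose_apply, s7I, s7blk]
  fin_cases a <;> fin_cases b <;> simp [Finset.sum_ite_eq']

end Powers

/-! ## Averages over ordered pairs -/

section Avg

variable {ι : Type} [DecidableEq ι]

omit [DecidableEq ι] in
theorem s7ns_den_pos {R : Finset ι} (hl : 2 ≤ R.card) :
    0 < (R.card : ℝ) * ((R.card : ℝ) - 1) := by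
  have : (2 : ℝ) ≤ R.card := by exact_mod_cast hl
  have h1 : (0 : ℝ) < R.card := by linarith
  have h2 : (0 : ℝ) < (R.card : ℝ) - 1 := by linarith
  exact mul_pos h1 h2

theorem s7ns_avg_mono {R : Finset ι} (hl : 2 ≤ R.card) {f g : ι → ι → ℝ}
    (h : ∀ u ∈ R, ∀ v ∈ R, u ≠ v → f u v ≤ g u v) : s7avg R f ≤ s7avg R g := by
  unfold s7avg
  refine div_le_div_of_nonneg_right ?_ (s7ns_den_pos hl).le
  refine Finset.sum_le_sum fun u hu => Finset.sum_le_sum fun v hv => ?_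
  exact h u hu v (Finset.mem_of_mem_erase hv) (Finset.ne_of_mem_erase hv).symm

theorem s7ns_avg_add (R : Finset ι) (f g : ι → ι → ℝ) :
    s7avg R (fun u v => f u v + g u v) = s7avg R f + s7avg R g := by
  unfold s7avg
  simp only [Finset.sum_add_distrib, add_div]

theorem s7ns_avg_mul (R : Finset ι) (c : ℝ) (f : ι → ι → ℝ) :
    s7avg R (fun u v => c * f u v) = c * s7avg R f := by
  unfold s7avg
  simp only [← Finset.mul_sum, mul_div_assoc]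

theorem s7ns_avg_const {R : Finset ι} (hl : 2 ≤ R.card) (c : ℝ) :
    s7avg R (fun _ _ => c) = c := by
  unfold s7avg
  have h1 : ∑ u ∈ R, ∑ _v ∈ R.erase u, c = (R.card : ℝ) * ((R.card : ℝ) - 1) * c := by
    have : ∀ u ∈ R, ∑ _v ∈ R.erase u, c = ((R.card : ℝ) - 1) * c := by
      intro u hu
      rw [Finset.sum_const, Finset.card_erase_of_mem hu, nsmul_eq_mul,
        Nat.cast_sub (by omega : 1 ≤ R.card), Nat.cast_one]
    rw [Finset.sum_congr rfl this, Finset.sum_const, nsmul_eq_mul]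
    ring
  rw [h1, mul_div_cancel_left₀ _ (s7ns_den_pos hl).ne']

theorem s7ns_avg_diag {R : Finset ι} (hl : 2 ≤ R.card) (f : ι → ℝ) :
    s7avg R (fun u v => f u + f v) = 2 * (∑ u ∈ R, f u) / R.card := by
  unfold s7avg
  have h1 : ∑ u ∈ R, ∑ v ∈ R.erase u, (f u + f v) = 2 * ((R.card : ℝ) - 1) * ∑ u ∈ R, f u := by
    have : ∀ u ∈ R, ∑ v ∈ R.erase u, (f u + f v)
        = ((R.card : ℝ) - 2) * f u + ∑ v ∈ R, f v := by
      intro u hu
      rw [Finset.sum_add_distrib, Finset.sum_const, Finset.card_erase_of_mem hu, nsmul_eq_mul,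
        Nat.cast_sub (by omega : 1 ≤ R.card), Nat.cast_one, Finset.sum_erase_eq_sub hu]
      ring
    rw [Finset.sum_congr rfl this, Finset.sum_add_distrib, Finset.sum_const, nsmul_eq_mul,
      ← Finset.mul_sum]
    ring
  rw [h1]
  have h2 : (2 : ℝ) ≤ R.card := by exact_mod_cast hl
  have h3 : (R.card : ℝ) ≠ 0 := by linarith
  have h4 : (R.card : ℝ) - 1 ≠ 0 := by linarith
  field_simp

end Avg

/-! ## The pointwise estimate -/

section Point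

variable {ι : Type} [Fintype ι] [DecidableEq ι]

theorem s7ns_trace_abs (N X : Matrix (Fin 2) (Fin 2) ℝ) :
    |(N * X).trace| ≤ |N 0 0| * |X 0 0| + |N 1 1| * |X 1 1| + |N 0 1| * |X 1 0|
      + |N 1 0| * |X 0 1| := by
  have e : (N * X).trace = N 0 0 * X 0 0 + N 1 1 * X 1 1 + N 0 1 * X 1 0 + N 1 0 * X 0 1 := by
    simp only [Matrix.trace, Matrix.diag_apply, Matrix.mul_apply, Fin.sum_univ_two]
    ring
  rw [e]
  calc |N 0 0 * X 0 0 + N 1 1 * X 1 1 + N 0 1 * X 1 0 + N 1 0 * X 0 1|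
      ≤ |N 0 0 * X 0 0| + |N 1 1 * X 1 1| + |N 0 1 * X 1 0| + |N 1 0 * X 0 1| := by
        refine (abs_add_le _ _).trans (add_le_add ((abs_add_le _ _).trans
          (add_le_add (abs_add_le _ _) le_rfl)) le_rfl)
    _ = _ := by simp only [abs_mul]

/-- the constant of the remainder -/
noncomputable def s7nsK (C0 cH : ℝ) : ℝ := 28 * (16 * cH ^ 2 * C0 ^ 2 * (1 + 4 * C0 * cH) ^ 6)

theorem s7ns_point (hS : StS7Struct) {σ h : ℝ} {R : Finset ι} {D : Matrix ι ι ℝ} (hD : Dᵀ = D)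
    {C0 cH Z : ℝ} (hC0 : 0 < C0) (hrow : ∀ x, (D * D) x x ≤ C0) (hZ : s7opLE D Z) (u v : ι)
    (hH : ∀ i j, |s7H R.card σ h D u v i j| ≤ cH)
    (hHs : (s7H R.card σ h D u v)ᵀ = s7H R.card σ h D u v) :
    ((s7Dstep σ h R D u v) ^ 8).trace ≤
      (D ^ 8).trace + (8 * (σ * h)) * (F2 ℝ * B2 ℝ R.card * s7blk (D ^ 9) u v).trace
      + (8 * Z) * s7absq (s7N1 R.card σ h D u v) (fun s => Real.sqrt ((D ^ 8) s s))
          (fun s => Real.sqrt ((D ^ 8) s s)) u v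
      + s7nsK C0 cH * (1 + ((D ^ 8) u u + (D ^ 8) v v) / C0) := by
  set H := s7H R.card σ h D u v with hHdef
  set I := s7I ℝ u v with hI
  set P := D * I with hP
  have hPt : Pᵀ = Iᵀ * D := by rw [hP, Matrix.transpose_mul, hD]
  have hpre : s7Dpre σ h R D u v = D - P * H * Pᵀ := by
    unfold s7Dpre
    rw [hPt, hP, ← hHdef, ← hI]
    simp only [Matrix.mul_assoc]
  have hMs : (D - P * H * Pᵀ)ᵀ = D - P * H * Pᵀ := s7ns_M_symm hD hHs
  obtain ⟨-, -, -, -, -, hQQ, hQs⟩ := hS ℝ ι σ h (s7sub R u v) D u v 0 0 hD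
  have h1 : ((s7Dstep σ h R D u v) ^ 8).trace ≤ ((D - P * H * Pᵀ) ^ 8).trace := by
    unfold s7Dstep
    rw [hpre]
    exact s7_schatten ι _ _ hMs hQs hQQ
  -- diagonal entries of `D⁸`
  have pos8 : ∀ x, 0 ≤ (D ^ 8) x x := fun x => by
    have := s7ns_nu hD 4 x
    rw [show (4 + 4 = 8) from rfl] at this
    rw [← this]; exact s7sch_sq_nonneg _
  -- the scale
  set m8 := (D ^ 8) u u + (D ^ 8) v v with hm8
  have hm8p : 0 ≤ m8 := add_nonneg (pos8 u) (pos8 v)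
  have hbase : 1 ≤ 1 + m8 / C0 := by
    have : 0 ≤ m8 / C0 := div_nonneg hm8p hC0.le
    linarith
  set t := (1 + m8 / C0) ^ (((6 : ℕ) : ℝ)⁻¹) with ht
  have ht6 : t ^ 6 = 1 + m8 / C0 :=
    Real.rpow_inv_natCast_pow (zero_le_one.trans hbase) (by norm_num)
  have ht1 : 1 ≤ t := Real.one_le_rpow hbase (by positivity)
  have ht0 : 0 ≤ t := zero_le_one.trans ht1
  have hC0t : C0 * t ^ 6 = C0 + m8 := by
    rw [ht6]; field_simp
  have bu : (D ^ 8) u u ≤ C0 * t ^ 6 := by rw [hC0t, hm8]; linarith [pos8 v]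
  have bv : (D ^ 8) v v ≤ C0 * t ^ 6 := by rw [hC0t, hm8]; linarith [pos8 u]
  have hPD : ∀ b, Pᵀ * D ^ b * P = s7blk (D ^ (b + 2)) u v := by
    intro b
    rw [← s7ns_blk, hPt, hP]
    have : D ^ (b + 2) = D * D ^ b * D := by rw [pow_succ, pow_succ']
    rw [this]
    simp only [Matrix.mul_assoc]
    rfl
  have hPb : ∀ b, b ≤ 6 → s7nsB (Pᵀ * D ^ b * P) (C0 * t ^ b) := by
    intro b hb i j
    rw [hPD]
    unfold s7blk
    split_ifs
    · exact s7ns_ent_bound hD hC0.le ht0 (hrow u) bu (hrow u) bu b hb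
    · exact s7ns_ent_bound hD hC0.le ht0 (hrow u) bu (hrow v) bv b hb
    · exact s7ns_ent_bound hD hC0.le ht0 (hrow v) bv (hrow u) bu b hb
    · exact s7ns_ent_bound hD hC0.le ht0 (hrow v) bv (hrow v) bv b hb
  have h2 := s7ns_abstract (D := D) (P := P) (H := H) ht1 hPb hH
  rw [hPD 7, ht6] at h2
  -- the first order term
  have hsplit : H = H0 R.card σ h + s7N1 R.card σ h D u v := by
    unfold s7N1; rw [← hHdef]; abel
  have h3 : (H * s7blk (D ^ 9) u v).trace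
      = -(σ * h) * (F2 ℝ * B2 ℝ R.card * s7blk (D ^ 9) u v).trace
        + (s7N1 R.card σ h D u v * s7blk (D ^ 9) u v).trace := by
    conv_lhs => rw [hsplit]
    rw [Matrix.add_mul, Matrix.trace_add]
    unfold H0
    rw [Matrix.smul_mul, Matrix.trace_smul, smul_eq_mul]
  have h4 : |(s7N1 R.card σ h D u v * s7blk (D ^ 9) u v).trace| ≤
      Z * s7absq (s7N1 R.card σ h D u v) (fun s => Real.sqrt ((D ^ 8) s s))
          (fun s => Real.sqrt ((D ^ 8) s s)) u v := by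
    refine (s7ns_trace_abs _ _).trans ?_
    unfold s7absq
    have a00 : |s7blk (D ^ 9) u v 0 0| ≤ _ := s7ns_nine hD hZ u u
    have a11 : |s7blk (D ^ 9) u v 1 1| ≤ _ := s7ns_nine hD hZ v v
    have a10 : |s7blk (D ^ 9) u v 1 0| ≤ _ := s7ns_nine hD hZ v u
    have a01 : |s7blk (D ^ 9) u v 0 1| ≤ _ := s7ns_nine hD hZ u v
    have b00 := mul_le_mul_of_nonneg_left a00 (abs_nonneg (s7N1 R.card σ h D u v 0 0))
    have b11 := mul_le_mul_of_nonneg_left a11 (abs_nonneg (s7N1 R.card σ h D u v 1 1))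
    have b10 := mul_le_mul_of_nonneg_left a10 (abs_nonneg (s7N1 R.card σ h D u v 0 1))
    have b01 := mul_le_mul_of_nonneg_left a01 (abs_nonneg (s7N1 R.card σ h D u v 1 0))
    calc _ ≤ _ := add_le_add (add_le_add (add_le_add b00 b11) b10) b01
      _ = _ := by ring
  have h5 := (abs_le.mp h4).1
  rw [show (7 + 2 = 9) from rfl] at h2
  rw [h3] at h2
  unfold s7nsK
  refine h1.trans (h2.trans ?_)
  nlinarith [h5]

end Point

/-! ## The theorem -/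

/-- **S7-STEP-9** -/
theorem s7_normStep (hS : StS7Struct) (hP : StS7CoefPt) (hB : StS7Bilin) (hC : StS7CentId) :
    StS7NormStep := by
  intro hmin C0 hmin0 hC0
  obtain ⟨C1, ε1, l1, hC1, hε1, hpt⟩ := hP hmin C0 hmin0 hC0
  obtain ⟨C2, ε2, l2, hC2, hε2, hbl⟩ := hB hmin C0 hmin0 hC0
  obtain ⟨K, hKdef⟩ : ∃ K, K = s7nsK C0 C1 := ⟨_, rfl⟩
  have hK : 0 ≤ K := by rw [hKdef]; unfold s7nsK; positivity
  refine ⟨8 * C2 + 2 * K / C0 + K + 1, min ε1 ε2, max (max l1 l2) 3, by positivity,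
    lt_min hε1 hε2, ?_⟩
  intro ι _ _ σ h ε R D hb hε hl Z hZ hTZ
  have hl1 : l1 ≤ R.card := le_trans (le_trans (le_max_left _ _) (le_max_left _ _)) hl
  have hl2 : l2 ≤ R.card := le_trans (le_trans (le_max_right _ _) (le_max_left _ _)) hl
  have hl3 : 3 ≤ R.card := le_trans (le_max_right _ _) hl
  have hD := hb.symm
  have pos8 : ∀ x, 0 ≤ (D ^ 8) x x := fun x => by
    have := s7ns_nu hD 4 x
    rw [show (4 + 4 = 8) from rfl] at this
    rw [← this]; exact s7sch_sq_nonneg _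
  obtain ⟨x, hx⟩ : ∃ x : ι → ℝ, x = fun s => Real.sqrt ((D ^ 8) s s) := ⟨_, rfl⟩
  have hx0 : ∀ s, 0 ≤ x s := fun s => by rw [hx]; exact Real.sqrt_nonneg _
  obtain ⟨S, hSdef⟩ : ∃ S, S = ∑ s ∈ R, (D ^ 8) s s := ⟨_, rfl⟩
  have hS0 : 0 ≤ S := by rw [hSdef]; exact Finset.sum_nonneg fun s _ => pos8 s
  have hST : S ≤ (D ^ 8).trace := by
    rw [hSdef]
    exact Finset.sum_le_sum_of_subset_of_nonneg (Finset.subset_univ _) fun s _ _ => pos8 s
  have hlR : (3 : ℝ) ≤ R.card := by exact_mod_cast hl3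
  have hlpos : (0 : ℝ) < R.card := by linarith
  -- pointwise
  have hpw : ∀ u ∈ R, ∀ v ∈ R, u ≠ v → ((s7Dstep σ h R D u v) ^ 8).trace ≤
      (D ^ 8).trace + (8 * (σ * h)) * (F2 ℝ * B2 ℝ R.card * s7blk (D ^ 9) u v).trace
      + (8 * Z) * s7absq (s7N1 R.card σ h D u v) x x u v
      + (K + K / C0 * ((D ^ 8) u u + (D ^ 8) v v)) := by
    intro u hu v hv huv
    obtain ⟨-, hH, hHs, -⟩ := hpt ι σ h ε R D hb (hε.trans (min_le_left _ _)) hl1 u hu v hv huv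
    have := s7ns_point hS (σ := σ) (h := h) (R := R) hD hC0 hb.row hZ u v hH hHs
    rw [← hKdef, ← hx] at this
    refine this.trans (le_of_eq ?_)
    ring
  have h1 := s7ns_avg_mono (by omega : 2 ≤ R.card) hpw
  rw [s7ns_avg_add, s7ns_avg_add, s7ns_avg_add, s7ns_avg_add, s7ns_avg_mul, s7ns_avg_mul,
    s7ns_avg_mul, s7ns_avg_const (by omega : 2 ≤ R.card), s7ns_avg_const (by omega : 2 ≤ R.card),
    s7ns_avg_diag (by omega : 2 ≤ R.card) (fun s => (D ^ 8) s s), ← hSdef] at h1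
  -- the mean of the `H₀` part
  have hcent : s7Pi ℝ R * D ^ 9 = D ^ 9 := by
    rw [pow_succ' D 8, ← Matrix.mul_assoc, hb.cent]
  have h2 := (hC ℝ ι R (D ^ 9) (by omega) (s7sch_pow_symm hD 9) hcent).1
  rw [h2] at h1
  -- the `N₁` part
  have h3 := (hbl ι σ h ε R R D x x hb (hε.trans (min_le_right _ _)) hl2
    ⟨Finset.Subset.refl _, by omega⟩ hx0 hx0).1
  have hsq : s7sqOn R x = S := by
    unfold s7sqOn
    rw [hSdef, hx]
    exact Finset.sum_congr rfl fun s _ => Real.sq_sqrt (pos8 s)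
  rw [hsq, Real.mul_self_sqrt hS0] at h3
  have hsl : 0 < Real.sqrt R.card := Real.sqrt_pos.mpr hlpos
  have h4 : (8 * Z) * s7avg R (fun u v => s7absq (s7N1 R.card σ h D u v) x x u v)
      ≤ 8 * C2 / R.card * S := by
    have hZ0 := hZ.1
    calc (8 * Z) * s7avg R (fun u v => s7absq (s7N1 R.card σ h D u v) x x u v)
        ≤ (8 * Z) * (C2 * (1 + Real.sqrt (s7T D)) / ((R.card : ℝ) * Real.sqrt R.card) * S) :=
          mul_le_mul_of_nonneg_left h3 (by positivity)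
      _ = 8 * C2 * S / ((R.card : ℝ) * Real.sqrt R.card) * ((1 + Real.sqrt (s7T D)) * Z) := by ring
      _ ≤ 8 * C2 * S / ((R.card : ℝ) * Real.sqrt R.card) * Real.sqrt R.card :=
          mul_le_mul_of_nonneg_left hTZ (by positivity)
      _ = 8 * C2 / R.card * S := by field_simp
  have hT0 : 0 ≤ (D ^ 8).trace := hS0.trans hST
  refine h1.trans ?_
  have e1 : 8 * C2 / R.card * S ≤ 8 * C2 / R.card * (D ^ 8).trace :=
    mul_le_mul_of_nonneg_left hST (by positivity)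
  have e2 : K / C0 * (2 * S / R.card) ≤ 2 * K / C0 / R.card * (D ^ 8).trace := by
    calc K / C0 * (2 * S / R.card) = 2 * K / C0 / R.card * S := by ring
      _ ≤ _ := mul_le_mul_of_nonneg_left hST (by positivity)
  have e3 : (1 + (8 * C2 + 2 * K / C0 + K + 1) / R.card) * (D ^ 8).trace
      = (D ^ 8).trace + 8 * C2 / R.card * (D ^ 8).trace + 2 * K / C0 / R.card * (D ^ 8).trace
        + (K + 1) / R.card * (D ^ 8).trace := by ring
  have e4 : 0 ≤ (K + 1) / R.card * (D ^ 8).trace := by positivity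
  have e5 : 0 ≤ 8 * C2 + 2 * K / C0 := by positivity
  rw [e3]
  linarith

end Claimed.Agent.R275
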