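import Claimed.Agent.R275.S7Tools
import Claimed.Agent.R275.S7StepA
import Claimed.Agent.R275.S7CoefA
import Claimed.Agent.R275.S7NormStep

/-!
# Row 275, Section 7, leaf S7-DIAGSTEP: `E T' ≤ T + C/l` for `T = ∑ D_xx²` ((7.49)), Phases A and B

Prover: helper143.  Prefix `s7dg`.

Sub-blueprint.  `l = |R|`, `c = 1/(l-2)`, `M = D - D I H Iᵀ D`, `δ_x = D_xx`, `R' = R \ {u,v}`.
1. `D'_xx = M_xx + 2c (M_xu + M_xv) + c² (M_uu + 2 M_uv + M_vv)` for `x ∈ R'`, `D'_xx = 0` otherwise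
   (`M 1_R = 0`).  `M_xx = δ_x - κ_x`, `κ_x = H₀₀ D_xu² + H₁₁ D_xv² + 2 H₀₁ D_xu D_xv`; the rest is `ρ_x`.
2. `(δ - κ + ρ)² ≤ δ² - 2δκ + 2|δ||ρ| + 2κ² + 2ρ²`, summed over `R'`:
   * `∑_{R'} δ² = T - δ_u² - δ_v²` (mean of the loss: `2T/l`);
   * `ρ` terms: POINTWISE `≤ T/(8l) + C/l` (Young);
   * `∑ κ² ≤ C ε (δ_u²+δ_v²) + C W(u,v) + C/l`, `W = ∑_x D_xu² D_xv²`, `E W ≤ C0²/(l-1)`;
   * `∑_{R'} δκ = Tr (H blk E) - δ_u κ_u - δ_v κ_v`, `E = D diag(δ) D`; the two excluded terms are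
     `≤ C ε (δ_u²+δ_v²) + C/l` pointwise.
3. `E Tr (H₀ blk E) = 0` (`s7_centId`).  Phase B: `|Tr (N₁ blk E)| ≤ ∑_x |δ_x| absq(N₁)(|D_x|,|D_x|)`, bilinear rule for each `x`,
   `∑ |δ_x| ≤ √(lT)`.  Phase A: `N₁ = N₂ - H₀ A H₀`; `N₂` as before (gains `ε`), `H₀ A H₀ = h² F A F + O(ε/l)`, and the pure
   swap term by `s7_swapId` with `D₂ = E`: `≤ C (|Y| + Z + 1) √(lT) / l²`.
-/

set_option autoImplicit false
set_option linter.unusedSectionVars false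
set_option linter.unusedVariables false

namespace Claimed.Agent.R275

open Matrix

/-! ## Structure: the diagonal of `D'` -/

section Struct

variable {ι : Type} [Fintype ι] [DecidableEq ι]

omit [Fintype ι] in
theorem s7dg_sum_sub {R : Finset ι} {u v : ι} (hu : u ∈ R) (hv : v ∈ R) (huv : u ≠ v) (f : ι → ℝ) :
    ∑ x ∈ s7sub R u v, f x = ∑ x ∈ R, f x - f u - f v := by
  unfold s7sub
  rw [Finset.sum_erase_eq_sub (Finset.mem_erase.2 ⟨huv.symm, hv⟩), Finset.sum_erase_eq_sub hu]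

theorem s7dg_Pi_sum {S : Finset ι} {x : ι} (hx : x ∈ S) (f : ι → ℝ) :
    ∑ y, s7Pi ℝ S y x * f y = f x - (S.card : ℝ)⁻¹ * ∑ y ∈ S, f y := by
  have e : ∀ y, s7Pi ℝ S y x * f y
      = (if y = x then f y else 0) - (S.card : ℝ)⁻¹ * (if y ∈ S then f y else 0) := by
    intro y
    rw [s7a_Pi_apply_right hx y]
    unfold s7one
    by_cases h1 : y = x
    · subst h1
      simp only [if_true, if_pos hx]
      ring
    · by_cases h2 : y ∈ S
      · simp only [if_neg h1, if_pos h2]; ring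
      · simp only [if_neg h1, if_neg h2]; ring
  rw [Finset.sum_congr rfl fun y _ => e y, Finset.sum_sub_distrib, ← Finset.mul_sum,
    Finset.sum_ite_eq' Finset.univ x, if_pos (Finset.mem_univ _), Finset.sum_ite_mem,
    Finset.univ_inter]

theorem s7dg_diag {R : Finset ι} {M : Matrix ι ι ℝ} (hs : Mᵀ = M) (hc : s7Pi ℝ R * M = M)
    {u v x : ι} (hu : u ∈ R) (hv : v ∈ R) (huv : u ≠ v) (hx : x ∈ s7sub R u v) :
    (s7Pi ℝ (s7sub R u v) * M * s7Pi ℝ (s7sub R u v)) x x =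
      M x x + 2 * ((R.card : ℝ) - 2)⁻¹ * (M x u + M x v)
        + ((R.card : ℝ) - 2)⁻¹ ^ 2 * (M u u + 2 * M u v + M v v) := by
  have hR : R.card ≠ 0 := Finset.card_ne_zero_of_mem hu
  have hcard : ((s7sub R u v).card : ℝ) = (R.card : ℝ) - 2 := by
    have := s7a_card_sub hu hv huv
    have h2 : (((s7sub R u v).card + 2 : ℕ) : ℝ) = (R.card : ℝ) := by exact_mod_cast this
    push_cast at h2
    linarith
  have sy : ∀ a b, M a b = M b a := s7t_symm_apply hs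
  have col0 : ∀ y, ∑ z ∈ R, M z y = 0 := s7cfa_col_sum hR hc
  have row0 : ∀ y, ∑ z ∈ R, M y z = 0 := fun y => by
    rw [← col0 y]; exact Finset.sum_congr rfl fun z _ => sy _ _
  set c := ((R.card : ℝ) - 2)⁻¹ with hcdef
  -- `M Q`
  have h1 : ∀ y, (M * s7Pi ℝ (s7sub R u v)) y x = M y x + c * (M y u + M y v) := by
    intro y
    rw [Matrix.mul_apply]
    have : ∑ z, M y z * s7Pi ℝ (s7sub R u v) z x = ∑ z, s7Pi ℝ (s7sub R u v) z x * M y z :=
      Finset.sum_congr rfl fun z _ => mul_comm _ _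
    rw [this, s7dg_Pi_sum hx, hcard, s7dg_sum_sub hu hv huv, row0]
    ring
  rw [Matrix.mul_assoc, Matrix.mul_apply]
  have h2 : ∑ y, s7Pi ℝ (s7sub R u v) x y * (M * s7Pi ℝ (s7sub R u v)) y x
      = ∑ y, s7Pi ℝ (s7sub R u v) y x * (M y x + c * (M y u + M y v)) := by
    refine Finset.sum_congr rfl fun y _ => ?_
    rw [h1, s7t_symm_apply (s7a_Pi_transpose (K := ℝ) (s7sub R u v)) x y]
  rw [h2, s7dg_Pi_sum hx, hcard, s7dg_sum_sub hu hv huv]
  have h3 : ∑ y ∈ R, (M y x + c * (M y u + M y v)) = 0 := by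
    rw [Finset.sum_add_distrib, ← Finset.mul_sum, Finset.sum_add_distrib, col0, col0, col0]
    ring
  rw [h3, sy u x, sy v x, sy v u]
  ring

theorem s7dg_T_step {σ h : ℝ} {R : Finset ι} {D : Matrix ι ι ℝ} (hs : Dᵀ = D) (u v : ι) :
    s7T (s7Dstep σ h R D u v) = ∑ x ∈ s7sub R u v, (s7Dstep σ h R D u v x x) ^ 2 := by
  unfold s7T
  symm
  refine Finset.sum_subset (Finset.subset_univ _) fun x _ hx => ?_
  have := (s7_struct ℝ ι σ h R D u v 0 0 hs).2.1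
  rw [s7cfa_zero_out this hx x]
  simp

theorem s7dg_pre_apply {σ h : ℝ} {R : Finset ι} {D : Matrix ι ι ℝ} (hs : Dᵀ = D) (u v x y : ι) :
    s7Dpre σ h R D u v x y = D x y
      - ((D u x * s7H R.card σ h D u v 0 0 + D v x * s7H R.card σ h D u v 1 0) * D u y
        + (D u x * s7H R.card σ h D u v 0 1 + D v x * s7H R.card σ h D u v 1 1) * D v y) := by
  unfold s7Dpre
  rw [Matrix.sub_apply, s7a_sandwich_apply, s7t_symm_apply hs x u, s7t_symm_apply hs x v]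

theorem s7dg_pre_cent {σ h : ℝ} {R : Finset ι} {D : Matrix ι ι ℝ} (hc : s7Pi ℝ R * D = D) (u v : ι) :
    s7Pi ℝ R * s7Dpre σ h R D u v = s7Dpre σ h R D u v := by
  unfold s7Dpre
  exact s7a_PM _ _ _ _ _ hc

end Struct

/-! ## Scalar inequalities -/

theorem s7dg_term (δ κ ρ : ℝ) :
    (δ - κ + ρ) ^ 2 ≤ δ ^ 2 - 2 * (δ * κ) + (2 * (|δ| * |ρ|) + 2 * ρ ^ 2) + 2 * κ ^ 2 := by
  have h1 : δ * ρ ≤ |δ| * |ρ| := by rw [← abs_mul]; exact le_abs_self _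
  nlinarith [sq_nonneg (κ + ρ)]

theorem s7dg_rho_term {δ ρ s c K1 : ℝ} (hK : 1 ≤ K1) (hc0 : 0 ≤ c) (hc1 : c ≤ 1) (hδ : |δ| ≤ 1)
    (hs : 0 ≤ s) (hρ : |ρ| ≤ K1 * (2 * c * s + 4 * c ^ 2)) :
    2 * (|δ| * |ρ|) + 2 * ρ ^ 2 ≤
      c / 24 * δ ^ 2 + 112 * K1 ^ 2 * c * s ^ 2 + (8 * K1 + 64 * K1 ^ 2) * c ^ 2 := by
  have hK0 : 0 ≤ K1 := zero_le_one.trans hK
  have hd0 : 0 ≤ |δ| := abs_nonneg _
  have hB0 : 0 ≤ K1 * (2 * c * s + 4 * c ^ 2) := by positivity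
  have e1 : |δ| * |ρ| ≤ |δ| * (K1 * (2 * c * s + 4 * c ^ 2)) := mul_le_mul_of_nonneg_left hρ hd0
  have e2 : ρ ^ 2 ≤ (K1 * (2 * c * s + 4 * c ^ 2)) ^ 2 := by
    rw [← sq_abs ρ]; exact pow_le_pow_left₀ (abs_nonneg _) hρ 2
  have e3 : 4 * K1 * (|δ| * s) ≤ δ ^ 2 / 24 + 96 * K1 ^ 2 * s ^ 2 := by
    have := sq_nonneg (|δ| - 48 * K1 * s)
    rw [← sq_abs δ]
    nlinarith
  have e4 : c * (4 * K1 * (|δ| * s)) ≤ c * (δ ^ 2 / 24 + 96 * K1 ^ 2 * s ^ 2) :=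
    mul_le_mul_of_nonneg_left e3 hc0
  have e5 : 8 * K1 * c ^ 2 * |δ| ≤ 8 * K1 * c ^ 2 * 1 :=
    mul_le_mul_of_nonneg_left hδ (by positivity)
  have e6 : (K1 * (2 * c * s + 4 * c ^ 2)) ^ 2 ≤ K1 ^ 2 * (8 * c ^ 2 * s ^ 2 + 32 * c ^ 4) := by
    have := sq_nonneg (2 * c * s - 4 * c ^ 2)
    have h2 : (2 * c * s + 4 * c ^ 2) ^ 2 ≤ 8 * c ^ 2 * s ^ 2 + 32 * c ^ 4 := by nlinarith
    rw [mul_pow]
    exact mul_le_mul_of_nonneg_left h2 (sq_nonneg _)
  have e7 : c ^ 2 ≤ c := by nlinarith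
  have e8 : c ^ 4 ≤ c ^ 2 := by
    have : c ^ 4 = c ^ 2 * c ^ 2 := by ring
    rw [this]
    have h1 : c ^ 2 ≤ 1 := by nlinarith
    nlinarith [sq_nonneg c]
  have e9 : K1 ^ 2 * (8 * c ^ 2 * s ^ 2 + 32 * c ^ 4) ≤ K1 ^ 2 * (8 * c * s ^ 2 + 32 * c ^ 2) := by
    refine mul_le_mul_of_nonneg_left ?_ (sq_nonneg _)
    have : c ^ 2 * s ^ 2 ≤ c * s ^ 2 := mul_le_mul_of_nonneg_right e7 (sq_nonneg _)
    linarith
  nlinarith

theorem s7dg_kap_sq {p q r a b ε CH : ℝ} (ha : |a| ≤ ε) (hb : |b| ≤ ε) (hr : |r| ≤ CH) :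
    2 * (p * a ^ 2 + q * b ^ 2 + 2 * r * (a * b)) ^ 2 ≤
      6 * ε ^ 2 * (p ^ 2 * a ^ 2 + q ^ 2 * b ^ 2) + 24 * CH ^ 2 * (a ^ 2 * b ^ 2) := by
  have ha2 : a ^ 2 ≤ ε ^ 2 := by rw [← sq_abs a]; exact pow_le_pow_left₀ (abs_nonneg _) ha 2
  have hb2 : b ^ 2 ≤ ε ^ 2 := by rw [← sq_abs b]; exact pow_le_pow_left₀ (abs_nonneg _) hb 2
  have hr2 : r ^ 2 ≤ CH ^ 2 := by rw [← sq_abs r]; exact pow_le_pow_left₀ (abs_nonneg _) hr 2
  have h3 : ∀ x y z : ℝ, (x + y + z) ^ 2 ≤ 3 * (x ^ 2 + y ^ 2 + z ^ 2) := fun x y z => by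
    nlinarith [sq_nonneg (x - y), sq_nonneg (y - z), sq_nonneg (x - z)]
  have e1 : (p * a ^ 2) ^ 2 ≤ ε ^ 2 * (p ^ 2 * a ^ 2) := by
    have : (p * a ^ 2) ^ 2 = a ^ 2 * (p ^ 2 * a ^ 2) := by ring
    rw [this]; exact mul_le_mul_of_nonneg_right ha2 (by positivity)
  have e2 : (q * b ^ 2) ^ 2 ≤ ε ^ 2 * (q ^ 2 * b ^ 2) := by
    have : (q * b ^ 2) ^ 2 = b ^ 2 * (q ^ 2 * b ^ 2) := by ring
    rw [this]; exact mul_le_mul_of_nonneg_right hb2 (by positivity)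
  have e3 : (2 * r * (a * b)) ^ 2 ≤ 4 * CH ^ 2 * (a ^ 2 * b ^ 2) := by
    have : (2 * r * (a * b)) ^ 2 = 4 * r ^ 2 * (a ^ 2 * b ^ 2) := by ring
    rw [this]
    exact mul_le_mul_of_nonneg_right (by linarith) (by positivity)
  have := h3 (p * a ^ 2) (q * b ^ 2) (2 * r * (a * b))
  nlinarith

theorem s7dg_excl {p q r du dv w ε CH il : ℝ} (hε : ε ≤ 1) (hdu : |du| ≤ ε)
    (hw : |w| ≤ ε) (hil : 0 ≤ il) (hp : |p| ≤ CH * (il + |dv|))
    (hq : |q| ≤ CH * (il + |du|)) (hr : |r| ≤ CH) :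
    |du * (p * du ^ 2 + q * w ^ 2 + 2 * r * (du * w))| ≤
      CH * (2 * il + ε * (du ^ 2 + dv ^ 2) / 2 + 3 * ε * du ^ 2) := by
  have hε0 : 0 ≤ ε := (abs_nonneg _).trans hdu
  have hCH : 0 ≤ CH := (abs_nonneg _).trans hr
  set x := |du| with hx
  set y := |dv| with hy
  set z := |w| with hz
  have x0 : 0 ≤ x := abs_nonneg _
  have y0 : 0 ≤ y := abs_nonneg _
  have z0 : 0 ≤ z := abs_nonneg _
  have x1 : x ≤ 1 := hdu.trans hε
  have z1 : z ≤ 1 := hw.trans hε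
  have ex : du ^ 2 = x ^ 2 := (sq_abs du).symm
  have ey : dv ^ 2 = y ^ 2 := (sq_abs dv).symm
  have t0 : |du * (p * du ^ 2 + q * w ^ 2 + 2 * r * (du * w))|
      ≤ |p| * x ^ 3 + |q| * (x * z ^ 2) + 2 * |r| * (x ^ 2 * z) := by
    have e : du * (p * du ^ 2 + q * w ^ 2 + 2 * r * (du * w))
        = p * du ^ 3 + q * (du * w ^ 2) + 2 * r * (du ^ 2 * w) := by ring
    rw [e]
    refine (abs_add_le _ _).trans (add_le_add ((abs_add_le _ _).trans (add_le_add ?_ ?_)) ?_)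
    · rw [abs_mul, abs_pow]
    · rw [abs_mul, abs_mul, abs_pow]
    · rw [abs_mul, abs_mul, abs_mul, abs_pow, abs_two]
  have x3 : x ^ 3 ≤ 1 := pow_le_one₀ x0 x1
  have t1 : |p| * x ^ 3 ≤ CH * (il + ε * (x ^ 2 + y ^ 2) / 2) := by
    have a1 : |p| * x ^ 3 ≤ CH * (il + y) * x ^ 3 := mul_le_mul_of_nonneg_right hp (by positivity)
    have a2 : il * x ^ 3 ≤ il := by nlinarith
    have a3 : y * x ^ 3 ≤ ε * (x ^ 2 + y ^ 2) / 2 := by
      have b1 : x ^ 2 ≤ ε * 1 := by nlinarith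
      have b2 : y * x ^ 3 = x ^ 2 * (x * y) := by ring
      have b3 : x * y ≤ (x ^ 2 + y ^ 2) / 2 := by nlinarith [sq_nonneg (x - y)]
      rw [b2]
      calc x ^ 2 * (x * y) ≤ ε * ((x ^ 2 + y ^ 2) / 2) :=
            mul_le_mul (by linarith) b3 (by positivity) hε0
        _ = _ := by ring
    calc |p| * x ^ 3 ≤ CH * (il + y) * x ^ 3 := a1
      _ = CH * (il * x ^ 3 + y * x ^ 3) := by ring
      _ ≤ _ := mul_le_mul_of_nonneg_left (by linarith) hCH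
  have t2 : |q| * (x * z ^ 2) ≤ CH * (il + ε * x ^ 2) := by
    have a1 : |q| * (x * z ^ 2) ≤ CH * (il + x) * (x * z ^ 2) :=
      mul_le_mul_of_nonneg_right hq (by positivity)
    have z2 : z ^ 2 ≤ ε := by nlinarith
    have z21 : z ^ 2 ≤ 1 := z2.trans hε
    have a2 : il * (x * z ^ 2) ≤ il := by
      have : x * z ^ 2 ≤ 1 := by nlinarith [sq_nonneg z]
      nlinarith
    have a3 : x * (x * z ^ 2) ≤ ε * x ^ 2 := by
      have : x * (x * z ^ 2) = z ^ 2 * x ^ 2 := by ring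
      rw [this]; exact mul_le_mul_of_nonneg_right z2 (sq_nonneg _)
    calc |q| * (x * z ^ 2) ≤ CH * (il + x) * (x * z ^ 2) := a1
      _ = CH * (il * (x * z ^ 2) + x * (x * z ^ 2)) := by ring
      _ ≤ _ := mul_le_mul_of_nonneg_left (by linarith) hCH
  have t3 : 2 * |r| * (x ^ 2 * z) ≤ CH * (2 * ε * x ^ 2) := by
    have a1 : x ^ 2 * z ≤ x ^ 2 * ε := mul_le_mul_of_nonneg_left hw (sq_nonneg _)
    calc 2 * |r| * (x ^ 2 * z) ≤ 2 * CH * (x ^ 2 * ε) :=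
          mul_le_mul (by linarith) a1 (by positivity) (by positivity)
      _ = _ := by ring
  have fin : CH * (2 * il + ε * (du ^ 2 + dv ^ 2) / 2 + 3 * ε * du ^ 2)
      = CH * (il + ε * (x ^ 2 + y ^ 2) / 2) + CH * (il + ε * x ^ 2) + CH * (2 * ε * x ^ 2) := by
    rw [ex, ey]; ring
  rw [fin]
  linarith

/-! ## The matrix `E = D diag(D_xx) D` and the pointwise estimate -/

section Point

variable {ι : Type} [Fintype ι] [DecidableEq ι]

/-- `E = D diag(D_xx) D` -/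
def s7dgE (D : Matrix ι ι ℝ) : Matrix ι ι ℝ := D * Matrix.diagonal (fun x => D x x) * D

/-- `W(u,v) = ∑_x D_ux² D_vx²` -/
def s7dgW (D : Matrix ι ι ℝ) (u v : ι) : ℝ := ∑ x, D u x ^ 2 * D v x ^ 2

theorem s7dgE_apply {D : Matrix ι ι ℝ} (hs : Dᵀ = D) (a b : ι) :
    s7dgE D a b = ∑ x, D x x * (D a x * D b x) := by
  unfold s7dgE
  rw [Matrix.mul_apply]
  refine Finset.sum_congr rfl fun x _ => ?_
  rw [Matrix.mul_diagonal, s7t_symm_apply hs x b]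
  ring

theorem s7dgE_symm {D : Matrix ι ι ℝ} (hs : Dᵀ = D) : (s7dgE D)ᵀ = s7dgE D := by
  unfold s7dgE
  rw [Matrix.transpose_mul, Matrix.transpose_mul, Matrix.diagonal_transpose, hs, Matrix.mul_assoc]

theorem s7dgE_cent {R : Finset ι} {D : Matrix ι ι ℝ} (hc : s7Pi ℝ R * D = D) :
    s7Pi ℝ R * s7dgE D = s7dgE D := by
  unfold s7dgE
  rw [← Matrix.mul_assoc, ← Matrix.mul_assoc, hc]

/-- `Tr (N blk E) = ∑_x D_xx (quadratic form of N at (D_ux, D_vx))` for symmetric `N` -/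
theorem s7dg_trace_E {D : Matrix ι ι ℝ} (hs : Dᵀ = D) (N : Matrix (Fin 2) (Fin 2) ℝ)
    (hN : N 1 0 = N 0 1) (u v : ι) :
    (N * s7blk (s7dgE D) u v).trace =
      ∑ x, D x x * (N 0 0 * D u x ^ 2 + N 1 1 * D v x ^ 2 + 2 * N 0 1 * (D u x * D v x)) := by
  have e : (N * s7blk (s7dgE D) u v).trace
      = N 0 0 * s7dgE D u u + N 1 1 * s7dgE D v v + N 0 1 * s7dgE D v u + N 1 0 * s7dgE D u v := by
    simp only [Matrix.trace, Matrix.diag_apply, Matrix.mul_apply, Fin.sum_univ_two, s7blk]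
    simp
    ring
  rw [e, hN, s7dgE_apply hs, s7dgE_apply hs, s7dgE_apply hs, s7dgE_apply hs, Finset.mul_sum,
    Finset.mul_sum, Finset.mul_sum, Finset.mul_sum, ← Finset.sum_add_distrib,
    ← Finset.sum_add_distrib, ← Finset.sum_add_distrib]
  refine Finset.sum_congr rfl fun x _ => ?_
  ring

theorem s7dg_M_abs {σ h : ℝ} {R : Finset ι} {D : Matrix ι ι ℝ} (hs : Dᵀ = D) {CH : ℝ} {u v : ι}
    (hH : ∀ i j, |s7H R.card σ h D u v i j| ≤ CH) (x y : ι) :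
    |s7Dpre σ h R D u v x y| ≤ |D x y| + CH * ((|D u x| + |D v x|) * (|D u y| + |D v y|)) := by
  rw [s7dg_pre_apply hs]
  set H := s7H R.card σ h D u v
  have hCH : 0 ≤ CH := (abs_nonneg _).trans (hH 0 0)
  have e : (D u x * H 0 0 + D v x * H 1 0) * D u y + (D u x * H 0 1 + D v x * H 1 1) * D v y
      = H 0 0 * (D u x * D u y) + H 1 0 * (D v x * D u y) + H 0 1 * (D u x * D v y)
        + H 1 1 * (D v x * D v y) := by ring
  have b : ∀ (i j : Fin 2) (s t : ℝ), |H i j * (s * t)| ≤ CH * (|s| * |t|) := fun i j s t => by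
    rw [abs_mul, abs_mul]
    exact mul_le_mul_of_nonneg_right (hH i j) (by positivity)
  rw [e]
  calc |D x y - (H 0 0 * (D u x * D u y) + H 1 0 * (D v x * D u y) + H 0 1 * (D u x * D v y)
        + H 1 1 * (D v x * D v y))|
      ≤ |D x y| + |H 0 0 * (D u x * D u y) + H 1 0 * (D v x * D u y) + H 0 1 * (D u x * D v y)
        + H 1 1 * (D v x * D v y)| := abs_sub _ _
    _ ≤ |D x y| + (|H 0 0 * (D u x * D u y)| + |H 1 0 * (D v x * D u y)|
        + |H 0 1 * (D u x * D v y)| + |H 1 1 * (D v x * D v y)|) := by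
        refine add_le_add le_rfl ?_
        exact (abs_add_le _ _).trans (add_le_add ((abs_add_le _ _).trans
          (add_le_add (abs_add_le _ _) le_rfl)) le_rfl)
    _ ≤ |D x y| + (CH * (|D u x| * |D u y|) + CH * (|D v x| * |D u y|)
        + CH * (|D u x| * |D v y|) + CH * (|D v x| * |D v y|)) := by
        refine add_le_add le_rfl ?_
        exact add_le_add (add_le_add (add_le_add (b _ _ _ _) (b _ _ _ _)) (b _ _ _ _)) (b _ _ _ _)
    _ = _ := by ring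

/-- the centring correction of the diagonal entry `x` -/
noncomputable def s7dgRho (σ h : ℝ) (R : Finset ι) (D : Matrix ι ι ℝ) (u v x : ι) : ℝ :=
  2 * ((R.card : ℝ) - 2)⁻¹ * (s7Dpre σ h R D u v x u + s7Dpre σ h R D u v x v)
    + ((R.card : ℝ) - 2)⁻¹ ^ 2 *
      (s7Dpre σ h R D u v u u + 2 * s7Dpre σ h R D u v u v + s7Dpre σ h R D u v v v)

theorem s7dg_rho_abs {σ h : ℝ} {R : Finset ι} {D : Matrix ι ι ℝ} (hs : Dᵀ = D) {ε CH : ℝ} {u v : ι}
    (hε : ε ≤ 1) (hent : ∀ x y, |D x y| ≤ ε) (hH : ∀ i j, |s7H R.card σ h D u v i j| ≤ CH)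
    (hc0 : 0 ≤ ((R.card : ℝ) - 2)⁻¹) (x : ι) :
    |s7dgRho σ h R D u v x| ≤ (1 + 4 * CH) *
      (2 * ((R.card : ℝ) - 2)⁻¹ * (|D u x| + |D v x|) + 4 * ((R.card : ℝ) - 2)⁻¹ ^ 2) := by
  unfold s7dgRho
  set c := ((R.card : ℝ) - 2)⁻¹
  set M := s7Dpre σ h R D u v
  have hCH : 0 ≤ CH := (abs_nonneg _).trans (hH 0 0)
  have e1 : ∀ a b, |D a b| ≤ 1 := fun a b => (hent a b).trans hε
  have s2 : ∀ y, |D u y| + |D v y| ≤ 2 := fun y => by linarith [e1 u y, e1 v y]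
  have s0 : ∀ y, 0 ≤ |D u y| + |D v y| := fun y => by positivity
  have mb : ∀ a y, |M a y| ≤ |D a y| + CH * ((|D u a| + |D v a|) * 2) := fun a y => by
    refine (s7dg_M_abs hs hH a y).trans (add_le_add le_rfl ?_)
    exact mul_le_mul_of_nonneg_left (mul_le_mul_of_nonneg_left (s2 y) (s0 a)) hCH
  have mb1 : ∀ a y, |M a y| ≤ 1 + 4 * CH := fun a y => by
    refine (mb a y).trans ?_
    have : CH * ((|D u a| + |D v a|) * 2) ≤ CH * (2 * 2) :=
      mul_le_mul_of_nonneg_left (by linarith [s2 a]) hCH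
    linarith [e1 a y]
  have h1 : |M x u + M x v| ≤ (1 + 4 * CH) * (|D u x| + |D v x|) := by
    have a1 := mb x u
    have a2 := mb x v
    rw [s7t_symm_apply hs x u] at a1
    rw [s7t_symm_apply hs x v] at a2
    calc |M x u + M x v| ≤ |M x u| + |M x v| := abs_add_le _ _
      _ ≤ _ := by nlinarith
  have h2 : |M u u + 2 * M u v + M v v| ≤ 4 * (1 + 4 * CH) := by
    calc |M u u + 2 * M u v + M v v| ≤ |M u u| + |2 * M u v| + |M v v| :=
          (abs_add_le _ _).trans (add_le_add (abs_add_le _ _) le_rfl)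
      _ = |M u u| + 2 * |M u v| + |M v v| := by rw [abs_mul, abs_two]
      _ ≤ _ := by linarith [mb1 u u, mb1 u v, mb1 v v]
  calc |2 * c * (M x u + M x v) + c ^ 2 * (M u u + 2 * M u v + M v v)|
      ≤ |2 * c * (M x u + M x v)| + |c ^ 2 * (M u u + 2 * M u v + M v v)| := abs_add_le _ _
    _ = 2 * c * |M x u + M x v| + c ^ 2 * |M u u + 2 * M u v + M v v| := by
        rw [abs_mul (2 * c), abs_mul (c ^ 2), abs_of_nonneg (by positivity : 0 ≤ 2 * c),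
          abs_of_nonneg (by positivity : 0 ≤ c ^ 2)]
    _ ≤ 2 * c * ((1 + 4 * CH) * (|D u x| + |D v x|)) + c ^ 2 * (4 * (1 + 4 * CH)) :=
        add_le_add (mul_le_mul_of_nonneg_left h1 (by positivity))
          (mul_le_mul_of_nonneg_left h2 (by positivity))
    _ = _ := by ring

/-- constants of the pointwise estimate -/
noncomputable def s7dgKa (C0 CH : ℝ) : ℝ := 8 * CH + 12 * C0 * CH ^ 2

noncomputable def s7dgKc (C0 CH : ℝ) : ℝ :=
  8 * CH + 24 * C0 * CH ^ 2 + 1344 * (1 + 4 * CH) ^ 2 * C0 + 72 * (1 + 4 * CH)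
    + 576 * (1 + 4 * CH) ^ 2

theorem s7dg_T_eq {R : Finset ι} {D : Matrix ι ι ℝ} (hc : s7Pi ℝ R * D = D) :
    ∑ x ∈ R, D x x ^ 2 = s7T D := by
  unfold s7T
  refine Finset.sum_subset (Finset.subset_univ _) fun x _ hx => ?_
  rw [s7t_row_zero hc hx]; simp

theorem s7dg_sum3 {D : Matrix ι ι ℝ} {S : Finset ι} {u v : ι} {c K1 l C0 : ℝ} (hl0 : 0 < l)
    (hc0 : 0 ≤ c) (hcl : c ≤ 3 / l) (hK : 0 ≤ K1) (hC0 : 0 ≤ C0) (hS : (S.card : ℝ) ≤ l)
    (rowu : ∑ x, D u x ^ 2 ≤ C0) (rowv : ∑ x, D v x ^ 2 ≤ C0) :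
    ∑ x ∈ S, (c / 24 * D x x ^ 2 + 112 * K1 ^ 2 * c * (|D u x| + |D v x|) ^ 2
          + (8 * K1 + 64 * K1 ^ 2) * c ^ 2)
      ≤ s7T D / (8 * l) + (1344 * K1 ^ 2 * C0 + 72 * K1 + 576 * K1 ^ 2) / l := by
  have sub_le : ∀ f : ι → ℝ, (∀ x, 0 ≤ f x) → ∑ x ∈ S, f x ≤ ∑ x, f x := fun f hf =>
    Finset.sum_le_sum_of_subset_of_nonneg (Finset.subset_univ _) fun x _ _ => hf x
  rw [Finset.sum_add_distrib, Finset.sum_add_distrib, ← Finset.mul_sum, ← Finset.mul_sum,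
    Finset.sum_const, nsmul_eq_mul]
  have a1 : ∑ x ∈ S, D x x ^ 2 ≤ s7T D := sub_le _ fun x => sq_nonneg _
  have a2 : ∑ x ∈ S, (|D u x| + |D v x|) ^ 2 ≤ 4 * C0 := by
    calc ∑ x ∈ S, (|D u x| + |D v x|) ^ 2 ≤ ∑ x, (|D u x| + |D v x|) ^ 2 :=
          sub_le _ fun x => sq_nonneg _
      _ ≤ ∑ x, (2 * D u x ^ 2 + 2 * D v x ^ 2) := by
          refine Finset.sum_le_sum fun x _ => ?_
          have := sq_nonneg (|D u x| - |D v x|)
          rw [← sq_abs (D u x), ← sq_abs (D v x)]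
          nlinarith
      _ = 2 * ∑ x, D u x ^ 2 + 2 * ∑ x, D v x ^ 2 := by
          rw [Finset.sum_add_distrib, Finset.mul_sum, Finset.mul_sum]
      _ ≤ 4 * C0 := by linarith
  have hT := s7t_T_nonneg D
  have b1 : c / 24 * ∑ x ∈ S, D x x ^ 2 ≤ s7T D / (8 * l) := by
    calc c / 24 * ∑ x ∈ S, D x x ^ 2 ≤ (3 / l) / 24 * s7T D :=
          mul_le_mul (by linarith) a1 (Finset.sum_nonneg fun x _ => sq_nonneg _) (by positivity)
      _ = s7T D / (8 * l) := by field_simp; ring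
  have b2 : 112 * K1 ^ 2 * c * ∑ x ∈ S, (|D u x| + |D v x|) ^ 2 ≤ 1344 * K1 ^ 2 * C0 / l := by
    calc 112 * K1 ^ 2 * c * ∑ x ∈ S, (|D u x| + |D v x|) ^ 2
        ≤ 112 * K1 ^ 2 * (3 / l) * (4 * C0) :=
          mul_le_mul (mul_le_mul_of_nonneg_left hcl (by positivity)) a2
            (Finset.sum_nonneg fun x _ => sq_nonneg _) (by positivity)
      _ = 1344 * K1 ^ 2 * C0 / l := by ring
  have b3 : (S.card : ℝ) * ((8 * K1 + 64 * K1 ^ 2) * c ^ 2) ≤ (72 * K1 + 576 * K1 ^ 2) / l := by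
    have c2 : c ^ 2 ≤ (3 / l) ^ 2 := pow_le_pow_left₀ hc0 hcl 2
    calc (S.card : ℝ) * ((8 * K1 + 64 * K1 ^ 2) * c ^ 2)
        ≤ l * ((8 * K1 + 64 * K1 ^ 2) * (3 / l) ^ 2) :=
          mul_le_mul hS (mul_le_mul_of_nonneg_left c2 (by positivity)) (by positivity) hl0.le
      _ = (72 * K1 + 576 * K1 ^ 2) / l := by field_simp; ring
  calc _ ≤ s7T D / (8 * l) + 1344 * K1 ^ 2 * C0 / l + (72 * K1 + 576 * K1 ^ 2) / l :=
        add_le_add (add_le_add b1 b2) b3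
    _ = _ := by ring

theorem s7dg_sum4 {D : Matrix ι ι ℝ} {S : Finset ι} {u v : ι} {ε CH C0 p q : ℝ}
    (rowu : ∑ x, D u x ^ 2 ≤ C0) (rowv : ∑ x, D v x ^ 2 ≤ C0) :
    ∑ x ∈ S, (6 * ε ^ 2 * (p ^ 2 * D u x ^ 2 + q ^ 2 * D v x ^ 2)
          + 24 * CH ^ 2 * (D u x ^ 2 * D v x ^ 2))
      ≤ 6 * ε ^ 2 * C0 * (p ^ 2 + q ^ 2) + 24 * CH ^ 2 * s7dgW D u v := by
  calc _ ≤ ∑ x, (6 * ε ^ 2 * (p ^ 2 * D u x ^ 2 + q ^ 2 * D v x ^ 2)
        + 24 * CH ^ 2 * (D u x ^ 2 * D v x ^ 2)) :=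
        Finset.sum_le_sum_of_subset_of_nonneg (Finset.subset_univ _) fun x _ _ => by positivity
    _ = 6 * ε ^ 2 * (p ^ 2 * ∑ x, D u x ^ 2 + q ^ 2 * ∑ x, D v x ^ 2)
        + 24 * CH ^ 2 * s7dgW D u v := by
        unfold s7dgW
        rw [Finset.sum_add_distrib, ← Finset.mul_sum, ← Finset.mul_sum, Finset.sum_add_distrib,
          ← Finset.mul_sum, ← Finset.mul_sum]
    _ ≤ 6 * ε ^ 2 * (p ^ 2 * C0 + q ^ 2 * C0) + 24 * CH ^ 2 * s7dgW D u v := by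
        refine add_le_add (mul_le_mul_of_nonneg_left (add_le_add
          (mul_le_mul_of_nonneg_left rowu (sq_nonneg _))
          (mul_le_mul_of_nonneg_left rowv (sq_nonneg _))) (by positivity)) le_rfl
    _ = _ := by ring

omit [Fintype ι] [DecidableEq ι] in
theorem s7dg_sc5 {ε C0 CH l p q du dv : ℝ} (hε0 : 0 ≤ ε) (hε : ε ≤ 1) (hC0 : 0 ≤ C0) (hl : 1 ≤ l)
    (hp : |p| ≤ CH * (1 / l + |dv|)) (hq : |q| ≤ CH * (1 / l + |du|)) :
    6 * ε ^ 2 * C0 * (p ^ 2 + q ^ 2)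
      ≤ 24 * C0 * CH ^ 2 / l + 12 * C0 * CH ^ 2 * ε * (du ^ 2 + dv ^ 2) := by
  have hl0 : 0 < l := by linarith
  have il0 : 0 ≤ 1 / l := by positivity
  have il1 : 1 / l ≤ 1 := by rw [div_le_one hl0]; exact hl
  have psq : ∀ (t d : ℝ), |t| ≤ CH * (1 / l + |d|) → t ^ 2 ≤ 2 * CH ^ 2 * (1 / l + d ^ 2) := by
    intro t d ht
    have h1 : t ^ 2 ≤ (CH * (1 / l + |d|)) ^ 2 := by
      rw [← sq_abs t]; exact pow_le_pow_left₀ (abs_nonneg _) ht 2
    have h2 : (1 / l + |d|) ^ 2 ≤ 2 * (1 / l + d ^ 2) := by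
      have := sq_nonneg (1 / l - |d|)
      rw [← sq_abs d]
      nlinarith
    calc t ^ 2 ≤ CH ^ 2 * (1 / l + |d|) ^ 2 := by rw [← mul_pow]; exact h1
      _ ≤ CH ^ 2 * (2 * (1 / l + d ^ 2)) := mul_le_mul_of_nonneg_left h2 (sq_nonneg _)
      _ = _ := by ring
  have P0 := psq _ _ hp
  have P1 := psq _ _ hq
  have hε2 : ε ^ 2 ≤ ε := by nlinarith
  have hε21 : ε ^ 2 ≤ 1 := hε2.trans hε
  calc 6 * ε ^ 2 * C0 * (p ^ 2 + q ^ 2)
      ≤ 6 * ε ^ 2 * C0 * (2 * CH ^ 2 * (1 / l + dv ^ 2) + 2 * CH ^ 2 * (1 / l + du ^ 2)) :=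
        mul_le_mul_of_nonneg_left (add_le_add P0 P1) (by positivity)
    _ = ε ^ 2 * (24 * C0 * CH ^ 2 / l) + ε ^ 2 * (12 * C0 * CH ^ 2 * (du ^ 2 + dv ^ 2)) := by
        ring
    _ ≤ 1 * (24 * C0 * CH ^ 2 / l) + ε * (12 * C0 * CH ^ 2 * (du ^ 2 + dv ^ 2)) :=
        add_le_add (mul_le_mul_of_nonneg_right hε21 (by positivity))
          (mul_le_mul_of_nonneg_right hε2 (by positivity))
    _ = _ := by ring

/-- the core increment -/
noncomputable def s7dgKap (σ h : ℝ) (R : Finset ι) (D : Matrix ι ι ℝ) (u v x : ι) : ℝ :=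
  s7H R.card σ h D u v 0 0 * D u x ^ 2 + s7H R.card σ h D u v 1 1 * D v x ^ 2
    + 2 * s7H R.card σ h D u v 0 1 * (D u x * D v x)

theorem s7dg_step_diag {σ h : ℝ} {R : Finset ι} {D : Matrix ι ι ℝ} (hs : Dᵀ = D)
    (hc : s7Pi ℝ R * D = D) {u v x : ι} (hu : u ∈ R) (hv : v ∈ R) (huv : u ≠ v)
    (hx : x ∈ s7sub R u v) :
    s7Dstep σ h R D u v x x = D x x - s7dgKap σ h R D u v x + s7dgRho σ h R D u v x := by
  have hH10 : s7H R.card σ h D u v 1 0 = s7H R.card σ h D u v 0 1 :=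
    s7t_symm_apply (s7a_H_transpose hs R.card σ h u v) 1 0
  unfold s7Dstep
  rw [s7dg_diag (s7a_Dpre_transpose hs σ h R u v) (s7dg_pre_cent hc u v) hu hv huv hx,
    s7dg_pre_apply hs u v x x, hH10]
  unfold s7dgRho s7dgKap
  ring

theorem s7dg_hterm {hmin C0 ε σ h : ℝ} {R : Finset ι} {D : Matrix ι ι ℝ}
    (hb : S7Base hmin C0 ε σ h R D) (hε : ε ≤ 1) (hl : 3 ≤ R.card) {CH : ℝ} {u v x : ι}
    (hu : u ∈ R) (hv : v ∈ R) (huv : u ≠ v) (hH : ∀ i j, |s7H R.card σ h D u v i j| ≤ CH)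
    (hx : x ∈ s7sub R u v) :
    (s7Dstep σ h R D u v x x) ^ 2 ≤
      D x x ^ 2 - 2 * (D x x * s7dgKap σ h R D u v x)
      + (((R.card : ℝ) - 2)⁻¹ / 24 * D x x ^ 2
          + 112 * (1 + 4 * CH) ^ 2 * ((R.card : ℝ) - 2)⁻¹ * (|D u x| + |D v x|) ^ 2
          + (8 * (1 + 4 * CH) + 64 * (1 + 4 * CH) ^ 2) * ((R.card : ℝ) - 2)⁻¹ ^ 2)
      + (6 * ε ^ 2 * ((s7H R.card σ h D u v 0 0) ^ 2 * D u x ^ 2
            + (s7H R.card σ h D u v 1 1) ^ 2 * D v x ^ 2)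
          + 24 * CH ^ 2 * (D u x ^ 2 * D v x ^ 2)) := by
  have hs := hb.symm
  have hl3 : (3 : ℝ) ≤ R.card := by exact_mod_cast hl
  have hc0 : 0 ≤ ((R.card : ℝ) - 2)⁻¹ := inv_nonneg.mpr (by linarith)
  have hc1 : ((R.card : ℝ) - 2)⁻¹ ≤ 1 := inv_le_one_of_one_le₀ (by linarith)
  have hCH : 0 ≤ CH := (abs_nonneg _).trans (hH 0 0)
  rw [s7dg_step_diag hs hb.cent hu hv huv hx]
  have h1 := s7dg_term (D x x) (s7dgKap σ h R D u v x) (s7dgRho σ h R D u v x)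
  have h2 := s7dg_rho_abs (σ := σ) (h := h) (R := R) hs hε hb.ent hH hc0 x
  have h3 := s7dg_rho_term (by linarith : 1 ≤ 1 + 4 * CH) hc0 hc1 ((hb.ent x x).trans hε)
    (by positivity : 0 ≤ |D u x| + |D v x|) h2
  have h4 := s7dg_kap_sq (p := s7H R.card σ h D u v 0 0) (q := s7H R.card σ h D u v 1 1)
    (hb.ent u x) (hb.ent v x) (hH 0 1)
  unfold s7dgKap at h1 ⊢
  linarith

theorem s7dg_point {hmin C0 ε σ h : ℝ} {R : Finset ι} {D : Matrix ι ι ℝ}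
    (hb : S7Base hmin C0 ε σ h R D) (hε : ε ≤ 1) (hl : 3 ≤ R.card) {CH : ℝ} {u v : ι}
    (hu : u ∈ R) (hv : v ∈ R) (huv : u ≠ v)
    (hH : ∀ i j, |s7H R.card σ h D u v i j| ≤ CH)
    (hH00 : |s7H R.card σ h D u v 0 0| ≤ CH * (1 / (R.card : ℝ) + |D v v|))
    (hH11 : |s7H R.card σ h D u v 1 1| ≤ CH * (1 / (R.card : ℝ) + |D u u|)) :
    s7T (s7Dstep σ h R D u v) ≤
      s7T D - (D u u ^ 2 + D v v ^ 2) - 2 * (s7H R.card σ h D u v * s7blk (s7dgE D) u v).trace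
      + s7T D / (8 * R.card) + s7dgKa C0 CH * ε * (D u u ^ 2 + D v v ^ 2)
      + 24 * CH ^ 2 * s7dgW D u v + s7dgKc C0 CH / R.card := by
  have hs := hb.symm
  have hc := hb.cent
  have hl3 : (3 : ℝ) ≤ R.card := by exact_mod_cast hl
  have hl0 : (0 : ℝ) < R.card := by linarith
  have hcl : ((R.card : ℝ) - 2)⁻¹ ≤ 3 / (R.card : ℝ) := s7t_inv_sub_two_le hl
  have hc0 : 0 ≤ ((R.card : ℝ) - 2)⁻¹ := inv_nonneg.mpr (by linarith)
  have hε0 : 0 ≤ ε := (abs_nonneg _).trans (hb.ent u u)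
  have hCH : 0 ≤ CH := (abs_nonneg _).trans (hH 0 0)
  have hC0 : 0 ≤ C0 := (s7t_sq_diag_nonneg hs u).trans (hb.row u)
  have hH10 : s7H R.card σ h D u v 1 0 = s7H R.card σ h D u v 0 1 :=
    s7t_symm_apply (s7a_H_transpose hs R.card σ h u v) 1 0
  have rowu : ∑ x, D u x ^ 2 ≤ C0 := by rw [← s7t_sq_diag hs]; exact hb.row u
  have rowv : ∑ x, D v x ^ 2 ≤ C0 := by rw [← s7t_sq_diag hs]; exact hb.row v
  rw [s7dg_T_step hs]
  have S0 := Finset.sum_le_sum fun x hx => s7dg_hterm hb hε hl hu hv huv hH hx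
  rw [Finset.sum_add_distrib, Finset.sum_add_distrib, Finset.sum_sub_distrib,
    ← Finset.mul_sum] at S0
  have F1 : ∑ x ∈ s7sub R u v, D x x ^ 2 = s7T D - (D u u ^ 2 + D v v ^ 2) := by
    rw [s7dg_sum_sub hu hv huv, s7dg_T_eq hc]; ring
  have F2 : ∑ x ∈ s7sub R u v, D x x * s7dgKap σ h R D u v x
      = (s7H R.card σ h D u v * s7blk (s7dgE D) u v).trace - D u u * s7dgKap σ h R D u v u
        - D v v * s7dgKap σ h R D u v v := by
    rw [s7dg_sum_sub hu hv huv, s7dg_trace_E hs _ hH10]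
    congr 2
    refine Finset.sum_subset (Finset.subset_univ _) fun x _ hx => ?_
    rw [s7t_row_zero hc hx]; simp
  have a3 : ((s7sub R u v).card : ℝ) ≤ R.card := by
    exact_mod_cast Finset.card_le_card (s7a_sub_subset R u v)
  have F3 := s7dg_sum3 (D := D) (S := s7sub R u v) (u := u) (v := v) hl0 hc0 hcl
    (by linarith : 0 ≤ 1 + 4 * CH) hC0 a3 rowu rowv
  have F4 := s7dg_sum4 (D := D) (S := s7sub R u v) (u := u) (v := v) (ε := ε) (CH := CH)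
    (p := s7H R.card σ h D u v 0 0) (q := s7H R.card σ h D u v 1 1) rowu rowv
  have F5 := s7dg_sc5 hε0 hε hC0 (by linarith : (1 : ℝ) ≤ R.card) hH00 hH11
  have il0 : 0 ≤ 1 / (R.card : ℝ) := by positivity
  have X1 : |D u u * s7dgKap σ h R D u v u| ≤ CH * (2 * (1 / (R.card : ℝ))
      + ε * (D u u ^ 2 + D v v ^ 2) / 2 + 3 * ε * D u u ^ 2) :=
    s7dg_excl (p := s7H R.card σ h D u v 0 0) (q := s7H R.card σ h D u v 1 1)
      (r := s7H R.card σ h D u v 0 1) (du := D u u) (dv := D v v)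
      (w := D v u) hε (hb.ent u u) (hb.ent v u) il0 hH00 hH11 (hH 0 1)
  have X2 : |D v v * s7dgKap σ h R D u v v| ≤ CH * (2 * (1 / (R.card : ℝ))
      + ε * (D v v ^ 2 + D u u ^ 2) / 2 + 3 * ε * D v v ^ 2) := by
    have := s7dg_excl (p := s7H R.card σ h D u v 1 1) (q := s7H R.card σ h D u v 0 0)
      (r := s7H R.card σ h D u v 0 1) (du := D v v) (dv := D u u)
      (w := D u v) hε (hb.ent v v) (hb.ent u v) il0 hH11 hH00 (hH 0 1)
    have e : D v v * s7dgKap σ h R D u v v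
        = D v v * (s7H R.card σ h D u v 1 1 * D v v ^ 2 + s7H R.card σ h D u v 0 0 * D u v ^ 2
          + 2 * s7H R.card σ h D u v 0 1 * (D v v * D u v)) := by
      unfold s7dgKap; ring
    rw [e]
    exact this
  have Y1 := (abs_le.mp X1).2
  have Y2 := (abs_le.mp X2).2
  rw [F1, F2] at S0
  refine S0.trans ?_
  unfold s7dgKa s7dgKc
  generalize (s7H R.card σ h D u v * s7blk (s7dgE D) u v).trace = tr at *
  generalize s7dgKap σ h R D u v u = ku at *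
  generalize s7dgKap σ h R D u v v = kv at *
  generalize s7dgW D u v = W at *
  generalize s7T D = T at *
  generalize (R.card : ℝ) = l at *
  generalize D u u = du at *
  generalize D v v = dv at *
  have fin : T - (du ^ 2 + dv ^ 2) - 2 * tr
      + T / (8 * l) + (8 * CH + 12 * C0 * CH ^ 2) * ε * (du ^ 2 + dv ^ 2)
      + 24 * CH ^ 2 * W
      + (8 * CH + 24 * C0 * CH ^ 2 + 1344 * (1 + 4 * CH) ^ 2 * C0 + 72 * (1 + 4 * CH)
          + 576 * (1 + 4 * CH) ^ 2) / l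
      = T - (du ^ 2 + dv ^ 2) - 2 * tr
      + 2 * (CH * (2 * (1 / l) + ε * (du ^ 2 + dv ^ 2) / 2 + 3 * ε * du ^ 2))
      + 2 * (CH * (2 * (1 / l) + ε * (dv ^ 2 + du ^ 2) / 2 + 3 * ε * dv ^ 2))
      + (T / (8 * l) + (1344 * (1 + 4 * CH) ^ 2 * C0 + 72 * (1 + 4 * CH)
          + 576 * (1 + 4 * CH) ^ 2) / l)
      + (24 * C0 * CH ^ 2 / l + 12 * C0 * CH ^ 2 * ε * (du ^ 2 + dv ^ 2)
          + 24 * CH ^ 2 * W) := by ring
  rw [fin]
  linarith

end Point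

/-! ## Averages -/

section Avg

variable {ι : Type} [Fintype ι] [DecidableEq ι]

theorem s7dg_avg_sum (R : Finset ι) (f : ι → ι → ι → ℝ) :
    s7avg R (fun u v => ∑ x, f x u v) = ∑ x, s7avg R (f x) := by
  unfold s7avg
  rw [← Finset.sum_div]
  congr 1
  rw [Finset.sum_comm]
  refine Finset.sum_congr rfl fun u _ => ?_
  rw [Finset.sum_comm]

theorem s7dg_avg_W {R : Finset ι} {D : Matrix ι ι ℝ} {C0 : ℝ} (hs : Dᵀ = D) (hl : 2 ≤ R.card)
    (hrow : ∀ x, (D * D) x x ≤ C0) : s7avg R (s7dgW D) ≤ 2 * C0 ^ 2 / R.card := by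
  have hl2 : (2 : ℝ) ≤ R.card := by exact_mod_cast hl
  have h1 : ∀ u, ∑ v ∈ R.erase u, s7dgW D u v ≤ C0 ^ 2 := by
    intro u
    have hC0 : 0 ≤ C0 := (s7t_sq_diag_nonneg hs u).trans (hrow u)
    calc ∑ v ∈ R.erase u, s7dgW D u v ≤ ∑ v, s7dgW D u v :=
          Finset.sum_le_sum_of_subset_of_nonneg (Finset.subset_univ _) fun v _ _ =>
            Finset.sum_nonneg fun x _ => by positivity
      _ = ∑ x, D u x ^ 2 * (D * D) x x := by
          unfold s7dgW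
          rw [Finset.sum_comm]
          refine Finset.sum_congr rfl fun x _ => ?_
          rw [← Finset.mul_sum, s7t_sq_diag hs]
          congr 1
          exact Finset.sum_congr rfl fun v _ => by rw [s7t_symm_apply hs v x]
      _ ≤ ∑ x, D u x ^ 2 * C0 :=
          Finset.sum_le_sum fun x _ => mul_le_mul_of_nonneg_left (hrow x) (sq_nonneg _)
      _ = (D * D) u u * C0 := by rw [← Finset.sum_mul, s7t_sq_diag hs]
      _ ≤ C0 * C0 := mul_le_mul_of_nonneg_right (hrow u) hC0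
      _ = C0 ^ 2 := by ring
  unfold s7avg
  have h2 : ∑ u ∈ R, ∑ v ∈ R.erase u, s7dgW D u v ≤ R.card * C0 ^ 2 := by
    calc _ ≤ ∑ _u ∈ R, C0 ^ 2 := Finset.sum_le_sum fun u _ => h1 u
      _ = _ := by rw [Finset.sum_const, nsmul_eq_mul]
  rw [div_le_div_iff₀ (s7t_den_pos hl) (by linarith)]
  have h3 : 0 ≤ C0 ^ 2 := sq_nonneg _
  have h4 : (R.card : ℝ) * R.card ≤ 2 * ((R.card : ℝ) * ((R.card : ℝ) - 1)) := by nlinarith
  calc (∑ u ∈ R, ∑ v ∈ R.erase u, s7dgW D u v) * R.card ≤ (R.card * C0 ^ 2) * R.card :=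
        mul_le_mul_of_nonneg_right h2 (by linarith)
    _ = C0 ^ 2 * ((R.card : ℝ) * R.card) := by ring
    _ ≤ C0 ^ 2 * (2 * ((R.card : ℝ) * ((R.card : ℝ) - 1))) := mul_le_mul_of_nonneg_left h4 h3
    _ = _ := by ring

theorem s7dg_sum_abs_diag {R : Finset ι} {D : Matrix ι ι ℝ} (hc : s7Pi ℝ R * D = D) :
    ∑ x, |D x x| ≤ Real.sqrt R.card * Real.sqrt (s7T D) := by
  have e : ∑ x, |D x x| = ∑ x ∈ R, |D x x| := by
    symm
    refine Finset.sum_subset (Finset.subset_univ _) fun x _ hx => ?_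
    rw [s7t_row_zero hc hx]; simp
  rw [e, ← Real.sqrt_mul (Nat.cast_nonneg _)]
  refine Real.le_sqrt_of_sq_le ?_
  have h := Finset.sum_mul_sq_le_sq_mul_sq R (fun _ => (1 : ℝ)) (fun x => |D x x|)
  simp only [one_mul, one_pow, Finset.sum_const, nsmul_eq_mul, mul_one, sq_abs] at h
  rw [s7dg_T_eq hc] at h
  exact h

theorem s7dgE_abs {D : Matrix ι ι ℝ} (hs : Dᵀ = D) (a b : ι) :
    |s7dgE D a b| ≤ ∑ x, |D x x| * (|D x a| * |D x b|) := by
  rw [s7dgE_apply hs]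
  refine (Finset.abs_sum_le_sum_abs _ _).trans (le_of_eq ?_)
  refine Finset.sum_congr rfl fun x _ => ?_
  rw [abs_mul, abs_mul, s7t_symm_apply hs a x, s7t_symm_apply hs b x]

theorem s7dg_trace_absq {D : Matrix ι ι ℝ} (hs : Dᵀ = D) (N : Matrix (Fin 2) (Fin 2) ℝ) (u v : ι) :
    |(N * s7blk (s7dgE D) u v).trace| ≤
      ∑ x, |D x x| * s7absq N (fun s => |D x s|) (fun s => |D x s|) u v := by
  refine (s7ns_trace_abs _ _).trans ?_
  have a00 : |s7blk (s7dgE D) u v 0 0| ≤ _ := s7dgE_abs hs u u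
  have a11 : |s7blk (s7dgE D) u v 1 1| ≤ _ := s7dgE_abs hs v v
  have a10 : |s7blk (s7dgE D) u v 1 0| ≤ _ := s7dgE_abs hs v u
  have a01 : |s7blk (s7dgE D) u v 0 1| ≤ _ := s7dgE_abs hs u v
  have b00 := mul_le_mul_of_nonneg_left a00 (abs_nonneg (N 0 0))
  have b11 := mul_le_mul_of_nonneg_left a11 (abs_nonneg (N 1 1))
  have b10 := mul_le_mul_of_nonneg_left a10 (abs_nonneg (N 0 1))
  have b01 := mul_le_mul_of_nonneg_left a01 (abs_nonneg (N 1 0))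
  refine (add_le_add (add_le_add (add_le_add b00 b11) b10) b01).trans (le_of_eq ?_)
  unfold s7absq
  rw [Finset.mul_sum, Finset.mul_sum, Finset.mul_sum, Finset.mul_sum, ← Finset.sum_add_distrib,
    ← Finset.sum_add_distrib, ← Finset.sum_add_distrib]
  refine Finset.sum_congr rfl fun x _ => ?_
  ring

/-- a kernel obeying the bilinear rule, tested against `E` -/
theorem s7dg_kernel {R : Finset ι} {D : Matrix ι ι ℝ} (hs : Dᵀ = D) (hc : s7Pi ℝ R * D = D)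
    (hl : 2 ≤ R.card) (N : ι → ι → Matrix (Fin 2) (Fin 2) ℝ) {Bd G : ℝ} (hBd : 0 ≤ Bd)
    (hN : ∀ y : ι → ℝ, (∀ s, 0 ≤ y s) → s7avg R (fun u v => s7absq (N u v) y y u v) ≤
      Bd * (Real.sqrt (s7sqOn R y) * Real.sqrt (s7sqOn R y)))
    (hG : ∀ x, (D * D) x x ≤ G) :
    s7avg R (fun u v => |(N u v * s7blk (s7dgE D) u v).trace|) ≤
      Bd * G * (Real.sqrt R.card * Real.sqrt (s7T D)) := by
  have h1 : s7avg R (fun u v => |(N u v * s7blk (s7dgE D) u v).trace|) ≤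
      s7avg R (fun u v => ∑ x, |D x x| * s7absq (N u v) (fun s => |D x s|) (fun s => |D x s|) u v) :=
    s7t_avg_mono hl fun u _ v _ _ => s7dg_trace_absq hs (N u v) u v
  refine h1.trans ?_
  rw [s7dg_avg_sum]
  have h2 : ∀ x, s7avg R (fun u v => |D x x| *
      s7absq (N u v) (fun s => |D x s|) (fun s => |D x s|) u v) ≤ |D x x| * (Bd * G) := by
    intro x
    rw [s7t_avg_smul]
    refine mul_le_mul_of_nonneg_left ?_ (abs_nonneg _)
    refine (hN _ fun s => abs_nonneg _).trans ?_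
    have h3 : 0 ≤ s7sqOn R (fun s => |D x s|) := Finset.sum_nonneg fun s _ => sq_nonneg _
    rw [Real.mul_self_sqrt h3]
    refine mul_le_mul_of_nonneg_left ?_ hBd
    refine le_trans ?_ (hG x)
    rw [s7t_sq_diag hs]
    unfold s7sqOn
    calc ∑ s ∈ R, |D x s| ^ 2 ≤ ∑ s, |D x s| ^ 2 :=
          Finset.sum_le_sum_of_subset_of_nonneg (Finset.subset_univ _) fun s _ _ => sq_nonneg _
      _ = ∑ s, D x s ^ 2 := Finset.sum_congr rfl fun s _ => sq_abs _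
  refine (Finset.sum_le_sum fun x _ => h2 x).trans ?_
  rw [← Finset.sum_mul, mul_comm]
  have hG0 : 0 ≤ G := by
    rcases R.eq_empty_or_nonempty with h | ⟨x, _⟩
    · rw [h] at hl; simp at hl
    · exact (s7t_sq_diag_nonneg hs x).trans (hG x)
  exact mul_le_mul_of_nonneg_left (s7dg_sum_abs_diag hc) (mul_nonneg hBd hG0)

theorem s7dg_H_split (l : ℕ) (σ h : ℝ) (D X : Matrix ι ι ℝ) (u v : ι) :
    (s7H l σ h D u v * s7blk X u v).trace
      = -(σ * h) * (F2 ℝ * B2 ℝ l * s7blk X u v).trace + (s7N1 l σ h D u v * s7blk X u v).trace := by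
  have hsplit : s7H l σ h D u v = H0 l σ h + s7N1 l σ h D u v := by
    unfold s7N1; abel
  conv_lhs => rw [hsplit]
  rw [Matrix.add_mul, Matrix.trace_add]
  unfold H0
  rw [Matrix.smul_mul, Matrix.trace_smul, smul_eq_mul]

theorem s7dg_avg_common {hmin C0 ε σ h : ℝ} {R : Finset ι} {D : Matrix ι ι ℝ}
    (hb : S7Base hmin C0 ε σ h R D) (hε : ε ≤ 1) (hl : 3 ≤ R.card) {CH : ℝ}
    (hpt : ∀ u ∈ R, ∀ v ∈ R, u ≠ v → (∀ i j, |s7H R.card σ h D u v i j| ≤ CH) ∧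
      |s7H R.card σ h D u v 0 0| ≤ CH * (1 / (R.card : ℝ) + |D v v|) ∧
      |s7H R.card σ h D u v 1 1| ≤ CH * (1 / (R.card : ℝ) + |D u u|))
    (g : ι → ι → ℝ)
    (hg : ∀ u ∈ R, ∀ v ∈ R, u ≠ v →
      -2 * (s7N1 R.card σ h D u v * s7blk (s7dgE D) u v).trace ≤ g u v) :
    s7avg R (fun u v => s7T (s7Dstep σ h R D u v)) ≤
      s7T D - 2 * s7T D / R.card + s7avg R g + s7T D / (8 * R.card)
      + 2 * s7dgKa C0 CH * ε * s7T D / R.card + 48 * CH ^ 2 * C0 ^ 2 / R.card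
      + s7dgKc C0 CH / R.card := by
  have hs := hb.symm
  have hc := hb.cent
  have hl2 : 2 ≤ R.card := by omega
  have hpw : ∀ u ∈ R, ∀ v ∈ R, u ≠ v → s7T (s7Dstep σ h R D u v) ≤
      (s7T D + s7T D / (8 * R.card) + s7dgKc C0 CH / R.card)
      + (s7dgKa C0 CH * ε - 1) * (D u u ^ 2 + D v v ^ 2)
      + (2 * (σ * h)) * (F2 ℝ * B2 ℝ R.card * s7blk (s7dgE D) u v).trace
      + g u v + (24 * CH ^ 2) * s7dgW D u v := by
    intro u hu v hv huv
    obtain ⟨h1, h2, h3⟩ := hpt u hu v hv huv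
    have h4 := s7dg_point hb hε hl hu hv huv h1 h2 h3
    rw [s7dg_H_split] at h4
    have h5 := hg u hu v hv huv
    refine h4.trans ?_
    linarith
  have h1 := s7t_avg_mono hl2 hpw
  rw [s7t_avg_add, s7t_avg_add, s7t_avg_add, s7t_avg_add, s7t_avg_smul, s7t_avg_smul,
    s7t_avg_smul, s7t_avg_const hl2, s7ns_avg_diag hl2 (fun s => D s s ^ 2), s7dg_T_eq hc,
    (s7_centId ℝ ι R (s7dgE D) (by omega) (s7dgE_symm hs) (s7dgE_cent hc)).1] at h1
  have h2 := s7dg_avg_W hs hl2 hb.row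
  have h3 : (24 * CH ^ 2) * s7avg R (s7dgW D) ≤ (24 * CH ^ 2) * (2 * C0 ^ 2 / R.card) :=
    mul_le_mul_of_nonneg_left h2 (by positivity)
  refine h1.trans ?_
  have e : (s7dgKa C0 CH * ε - 1) * (2 * s7T D / R.card)
      = 2 * s7dgKa C0 CH * ε * s7T D / R.card - 2 * s7T D / R.card := by ring
  have e2 : (24 * CH ^ 2) * (2 * C0 ^ 2 / R.card) = 48 * CH ^ 2 * C0 ^ 2 / R.card := by ring
  rw [e]
  rw [e2] at h3
  have h4 : s7avg R (fun u v => s7dgW D u v) = s7avg R (s7dgW D) := rfl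
  have h5 : s7avg R (fun u v => g u v) = s7avg R g := rfl
  rw [h4, h5]
  linarith

end Avg

/-! ## Phase A: the single-`A` term -/

section PhaseA

variable {ι : Type} [Fintype ι] [DecidableEq ι]

theorem s7dgE_le {D : Matrix ι ι ℝ} (hs : Dᵀ = D) {ε C0 : ℝ} (hent : ∀ x y, |D x y| ≤ ε)
    (hrow : ∀ x, (D * D) x x ≤ C0) (a b : ι) : |s7dgE D a b| ≤ ε * C0 := by
  have hε0 : 0 ≤ ε := (abs_nonneg _).trans (hent a a)
  refine (s7dgE_abs hs a b).trans ?_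
  calc ∑ x, |D x x| * (|D x a| * |D x b|) ≤ ∑ x, ε * ((D a x ^ 2 + D b x ^ 2) / 2) := by
        refine Finset.sum_le_sum fun x _ => ?_
        refine mul_le_mul (hent x x) ?_ (by positivity) hε0
        rw [s7t_symm_apply hs x a, s7t_symm_apply hs x b, ← sq_abs (D a x), ← sq_abs (D b x)]
        nlinarith [sq_nonneg (|D a x| - |D b x|)]
    _ = ε * (((D * D) a a + (D * D) b b) / 2) := by
        rw [← Finset.mul_sum, ← Finset.sum_div, Finset.sum_add_distrib, s7t_sq_diag hs,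
          s7t_sq_diag hs]
    _ ≤ ε * C0 := mul_le_mul_of_nonneg_left (by linarith [hrow a, hrow b]) hε0

theorem s7dg_sum_E_diag {D : Matrix ι ι ℝ} (hs : Dᵀ = D) {C0 : ℝ} (hrow : ∀ x, (D * D) x x ≤ C0)
    (R : Finset ι) : |∑ u ∈ R, s7dgE D u u| ≤ C0 * ∑ x, |D x x| := by
  calc |∑ u ∈ R, s7dgE D u u| ≤ ∑ u ∈ R, |s7dgE D u u| := Finset.abs_sum_le_sum_abs _ _
    _ ≤ ∑ u, |s7dgE D u u| :=
        Finset.sum_le_sum_of_subset_of_nonneg (Finset.subset_univ _) fun u _ _ => abs_nonneg _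
    _ ≤ ∑ u, ∑ x, |D x x| * (|D x u| * |D x u|) := Finset.sum_le_sum fun u _ => s7dgE_abs hs u u
    _ = ∑ x, |D x x| * (D * D) x x := by
        rw [Finset.sum_comm]
        refine Finset.sum_congr rfl fun x _ => ?_
        rw [← Finset.mul_sum, s7t_sq_diag hs]
        congr 1
        exact Finset.sum_congr rfl fun u _ => by rw [← sq, sq_abs]
    _ ≤ ∑ x, |D x x| * C0 :=
        Finset.sum_le_sum fun x _ => mul_le_mul_of_nonneg_left (hrow x) (abs_nonneg _)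
    _ = _ := by rw [← Finset.sum_mul, mul_comm]

theorem s7dg_sum_DE {R : Finset ι} {D : Matrix ι ι ℝ} (hs : Dᵀ = D) (hc : s7Pi ℝ R * D = D) :
    ∑ u ∈ R, ∑ v ∈ R, D u v * s7dgE D u v = ∑ x, D x x * (D * D * D) x x := by
  have e1 : ∑ u ∈ R, ∑ v ∈ R, D u v * s7dgE D u v = ∑ u, ∑ v, D u v * s7dgE D u v := by
    have : ∀ u, ∑ v ∈ R, D u v * s7dgE D u v = ∑ v, D u v * s7dgE D u v := fun u => by
      refine Finset.sum_subset (Finset.subset_univ _) fun v _ hv => ?_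
      rw [s7t_symm_apply hs u v, s7t_row_zero hc hv]; simp
    rw [Finset.sum_congr rfl fun u _ => this u]
    refine Finset.sum_subset (Finset.subset_univ _) fun u _ hu => ?_
    refine Finset.sum_eq_zero fun v _ => ?_
    rw [s7t_row_zero hc hu]; simp
  rw [e1]
  have e2 : ∀ u v, D u v * s7dgE D u v = ∑ x, D x x * (D x u * D u v * D v x) := fun u v => by
    rw [s7dgE_apply hs, Finset.mul_sum]
    refine Finset.sum_congr rfl fun x _ => ?_
    rw [s7t_symm_apply hs u x]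
    ring
  simp only [e2]
  have e3 : ∀ x, (D * D * D) x x = ∑ u, ∑ v, D x u * D u v * D v x := fun x => by
    rw [Matrix.mul_apply, Finset.sum_comm]
    refine Finset.sum_congr rfl fun v _ => ?_
    rw [Matrix.mul_apply, Finset.sum_mul]
  calc ∑ u, ∑ v, ∑ x, D x x * (D x u * D u v * D v x)
      = ∑ u, ∑ x, ∑ v, D x x * (D x u * D u v * D v x) :=
        Finset.sum_congr rfl fun u _ => Finset.sum_comm
    _ = ∑ x, ∑ u, ∑ v, D x x * (D x u * D u v * D v x) := Finset.sum_comm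
    _ = _ := by
        refine Finset.sum_congr rfl fun x _ => ?_
        rw [e3, Finset.mul_sum]
        exact Finset.sum_congr rfl fun u _ => by rw [Finset.mul_sum]

theorem s7dg_swap_bound {hmin C0 ε σ h : ℝ} {R : Finset ι} {D : Matrix ι ι ℝ}
    (hb : S7Base hmin C0 ε σ h R D) {Z : ℝ} (hZ : s7opLE D Z) :
    |∑ u ∈ R, ∑ v ∈ R.erase u, (F2 ℝ * s7blk D u v * F2 ℝ * s7blk (s7dgE D) u v).trace| ≤
      2 * (C0 * (∑ x, |D x x|) * (|s7Y D| + Z + 2 * ε)) := by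
  have hs := hb.symm
  have hc := hb.cent
  rw [s7_swapId ℝ ι R D (s7dgE D) hs (s7dgE_symm hs), abs_mul, abs_two]
  refine mul_le_mul_of_nonneg_left ?_ (by norm_num)
  obtain ⟨S1, hS1⟩ : ∃ S1, S1 = ∑ x, |D x x| := ⟨_, rfl⟩
  have hS10 : 0 ≤ S1 := by rw [hS1]; exact Finset.sum_nonneg fun x _ => abs_nonneg _
  rw [← hS1]
  have t1 : |(∑ u ∈ R, D u u) * ∑ u ∈ R, s7dgE D u u| ≤ |s7Y D| * (C0 * S1) := by
    rw [abs_mul]
    have : ∑ u ∈ R, D u u = s7Y D := (s7cfa_trace hc).symm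
    rw [this, hS1]
    exact mul_le_mul_of_nonneg_left (s7dg_sum_E_diag hs hb.row R) (abs_nonneg _)
  have t2 : |∑ u ∈ R, ∑ v ∈ R, D u v * s7dgE D u v| ≤ Z * C0 * S1 := by
    rw [s7dg_sum_DE hs hc]
    calc |∑ x, D x x * (D * D * D) x x| ≤ ∑ x, |D x x * (D * D * D) x x| :=
          Finset.abs_sum_le_sum_abs _ _
      _ ≤ ∑ x, |D x x| * (Z * C0) := by
          refine Finset.sum_le_sum fun x _ => ?_
          rw [abs_mul]
          refine mul_le_mul_of_nonneg_left ?_ (abs_nonneg _)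
          refine (s7t_cube_le hs hZ x x).trans ?_
          rw [Real.mul_self_sqrt (s7t_sq_diag_nonneg hs x)]
          exact mul_le_mul_of_nonneg_left (hb.row x) hZ.1
      _ = _ := by rw [← Finset.sum_mul, ← hS1]; ring
  have t3 : |∑ u ∈ R, D u u * s7dgE D u u| ≤ ε * C0 * S1 := by
    calc |∑ u ∈ R, D u u * s7dgE D u u| ≤ ∑ u ∈ R, |D u u * s7dgE D u u| :=
          Finset.abs_sum_le_sum_abs _ _
      _ ≤ ∑ u, |D u u * s7dgE D u u| :=
          Finset.sum_le_sum_of_subset_of_nonneg (Finset.subset_univ _) fun u _ _ => abs_nonneg _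
      _ ≤ ∑ u, |D u u| * (ε * C0) := by
          refine Finset.sum_le_sum fun u _ => ?_
          rw [abs_mul]
          exact mul_le_mul_of_nonneg_left (s7dgE_le hs hb.ent hb.row u u) (abs_nonneg _)
      _ = _ := by rw [← Finset.sum_mul, ← hS1]; ring
  calc |(∑ u ∈ R, D u u) * ∑ u ∈ R, s7dgE D u u + ∑ u ∈ R, ∑ v ∈ R, D u v * s7dgE D u v
        - 2 * ∑ u ∈ R, D u u * s7dgE D u u|
      ≤ |(∑ u ∈ R, D u u) * ∑ u ∈ R, s7dgE D u u| + |∑ u ∈ R, ∑ v ∈ R, D u v * s7dgE D u v|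
        + 2 * |∑ u ∈ R, D u u * s7dgE D u u| := by
        refine (abs_sub _ _).trans (add_le_add (abs_add_le _ _) ?_)
        rw [abs_mul, abs_two]
    _ ≤ |s7Y D| * (C0 * S1) + Z * C0 * S1 + 2 * (ε * C0 * S1) := by linarith
    _ = _ := by ring

theorem s7dg_rest {D : Matrix ι ι ℝ} (hs : Dᵀ = D) {ε C0 σ h : ℝ} {l : ℕ} (hl : 3 ≤ l)
    (hε : ε ≤ 1) (hent : ∀ x y, |D x y| ≤ ε) (hrow : ∀ x, (D * D) x x ≤ C0)
    (hσh : |σ * h| ≤ 1) (u v : ι) :
    (H0 l σ h * s7blk D u v * H0 l σ h * s7blk (s7dgE D) u v).trace ≤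
      (σ * h) ^ 2 * (F2 ℝ * s7blk D u v * F2 ℝ * s7blk (s7dgE D) u v).trace + 240 * C0 / l := by
  have hl3 : (3 : ℝ) ≤ l := by exact_mod_cast hl
  have hl0 : (0 : ℝ) < l := by linarith
  have hε0 : 0 ≤ ε := (abs_nonneg _).trans (hent u u)
  have hC0 : 0 ≤ C0 := (s7t_sq_diag_nonneg hs u).trans (hrow u)
  obtain ⟨A, hA⟩ : ∃ A, A = s7blk D u v := ⟨_, rfl⟩
  obtain ⟨X, hX⟩ : ∃ X, X = s7blk (s7dgE D) u v := ⟨_, rfl⟩
  obtain ⟨Δ, hΔ⟩ : ∃ Δ, Δ = H0 l σ h - (-(σ * h)) • F2 ℝ := ⟨_, rfl⟩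
  have nA : s7nb A ε := by rw [hA]; intro i j; exact hent _ _
  have nX : s7nb X (ε * C0) := by rw [hX]; intro i j; exact s7dgE_le hs hent hrow _ _
  have nΔ : s7nb Δ (3 / l) := by
    rw [hΔ]
    refine (s7t_nb_H0_sub hl σ h).mono ?_
    calc |σ * h| * (3 / l) ≤ 1 * (3 / l) := mul_le_mul_of_nonneg_right hσh (by positivity)
      _ = _ := one_mul _
  have hH0 : H0 l σ h = (-(σ * h)) • F2 ℝ + Δ := by rw [hΔ]; abel
  rw [← hA, ← hX, hH0]
  have e : ((-(σ * h)) • F2 ℝ + Δ) * A * ((-(σ * h)) • F2 ℝ + Δ)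
      = (σ * h) ^ 2 • (F2 ℝ * A * F2 ℝ)
        + ((-(σ * h)) • (F2 ℝ * A * Δ) + (-(σ * h)) • (Δ * A * F2 ℝ) + Δ * A * Δ) := by
    simp only [Matrix.add_mul, Matrix.mul_add, Matrix.smul_mul, Matrix.mul_smul, smul_add,
      smul_smul]
    have : -(σ * h) * -(σ * h) = (σ * h) ^ 2 := by ring
    rw [this]
    abel
  rw [e, Matrix.add_mul, Matrix.trace_add, Matrix.smul_mul, Matrix.trace_smul, smul_eq_mul]
  refine add_le_add le_rfl ?_
  have n1 := ((s7t_nb_F2.mul nA).mul nΔ).smul (-(σ * h))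
  have n2 := ((nΔ.mul nA).mul s7t_nb_F2).smul (-(σ * h))
  have n3 := (nΔ.mul nA).mul nΔ
  have n4 := (((n1.add n2).add n3).mul nX).trace_le
  refine n4.trans ?_
  rw [abs_neg]
  have il1 : 3 / (l : ℝ) ≤ 1 := by rw [div_le_one hl0]; exact hl3
  have il0 : 0 ≤ 3 / (l : ℝ) := by positivity
  have b1 : |σ * h| * (2 * (2 * 1 * ε) * (3 / l)) ≤ 4 * (3 / l) := by
    calc |σ * h| * (2 * (2 * 1 * ε) * (3 / l)) ≤ 1 * (2 * (2 * 1 * 1) * (3 / l)) := by
          refine mul_le_mul hσh ?_ (by positivity) (by norm_num)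
          refine mul_le_mul_of_nonneg_right ?_ il0
          linarith
      _ = _ := by ring
  have b2 : |σ * h| * (2 * (2 * (3 / l) * ε) * 1) ≤ 4 * (3 / l) := by
    calc |σ * h| * (2 * (2 * (3 / l) * ε) * 1) ≤ 1 * (2 * (2 * (3 / l) * 1) * 1) := by
          refine mul_le_mul hσh ?_ (by positivity) (by norm_num)
          have : 3 / (l : ℝ) * ε ≤ 3 / (l : ℝ) * 1 := mul_le_mul_of_nonneg_left hε il0
          linarith
      _ = _ := by ring
  have b3 : 2 * (2 * (3 / l) * ε) * (3 / l) ≤ 4 * (3 / (l : ℝ)) := by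
    calc 2 * (2 * (3 / l) * ε) * (3 / l) ≤ 2 * (2 * (3 / (l : ℝ)) * 1) * 1 := by
          refine mul_le_mul ?_ il1 il0 (by positivity)
          have : 3 / (l : ℝ) * ε ≤ 3 / (l : ℝ) * 1 := mul_le_mul_of_nonneg_left hε il0
          linarith
      _ = _ := by ring
  have b4 : ε * C0 ≤ C0 := by nlinarith
  have b5 : 0 ≤ ε * C0 := mul_nonneg hε0 hC0
  calc 2 * (2 * (|σ * h| * (2 * (2 * 1 * ε) * (3 / l)) + |σ * h| * (2 * (2 * (3 / l) * ε) * 1)
        + 2 * (2 * (3 / l) * ε) * (3 / l)) * (ε * C0))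
      ≤ 2 * (2 * (4 * (3 / l) + 4 * (3 / l) + 4 * (3 / l)) * C0) := by
        refine mul_le_mul_of_nonneg_left ?_ (by norm_num)
        refine mul_le_mul ?_ b4 b5 (by positivity)
        linarith
    _ = 144 * C0 / l := by ring
    _ ≤ 240 * C0 / l := by
        refine div_le_div_of_nonneg_right ?_ hl0.le
        linarith

end PhaseA

/-! ## The two theorems -/

theorem s7dg_final {T l X a K1 K2 K3 : ℝ} (hl : 0 < l) (hT : 0 ≤ T) (hX : X ≤ (T / 2 + K1) / l)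
    (ha : a ≤ 1 / 8) :
    T - 2 * T / l + X + T / (8 * l) + a * T / l + K2 / l + K3 / l ≤ T + (K1 + K2 + K3) / l := by
  have h1 : a * T / l ≤ (1 / 8) * T / l := by
    have : a * T ≤ (1 / 8) * T := mul_le_mul_of_nonneg_right ha hT
    exact div_le_div_of_nonneg_right this hl.le
  have h2 : 0 ≤ T / l := by positivity
  have e1 : 2 * T / l = 2 * (T / l) := by ring
  have e2 : T / (8 * l) = (1 / 8) * (T / l) := by field_simp
  have e3 : (1 / 8) * T / l = (1 / 8) * (T / l) := by ring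
  have e4 : (T / 2 + K1) / l = (1 / 2) * (T / l) + K1 / l := by ring
  have e5 : (K1 + K2 + K3) / l = K1 / l + K2 / l + K3 / l := by ring
  rw [e4] at hX
  rw [e3] at h1
  rw [e1, e2, e5]
  linarith

theorem s7dgKa_pos {C0 CH : ℝ} (hC0 : 0 < C0) (hCH : 0 < CH) : 0 < s7dgKa C0 CH := by
  unfold s7dgKa; positivity

theorem s7dgKc_pos {C0 CH : ℝ} (hC0 : 0 < C0) (hCH : 0 < CH) : 0 < s7dgKc C0 CH := by
  unfold s7dgKc; positivity

/-- **S7-STEP-12** -/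
theorem s7_diagStepB (hP : StS7CoefPt) (hB : StS7Bilin) : StS7DiagStepB := by
  intro hmin C0 hmin0 hC0
  obtain ⟨C1, ε1, l1, hC1, hε1, hpt⟩ := hP hmin C0 hmin0 hC0
  obtain ⟨C2, ε2, l2, hC2, hε2, hbl⟩ := hB hmin C0 hmin0 hC0
  have hKa := s7dgKa_pos hC0 hC1
  have hKc := s7dgKc_pos hC0 hC1
  refine ⟨1 / 24 + 48 * C1 ^ 2 * C0 ^ 2 + s7dgKc C0 C1,
    min (min ε1 ε2) (min 1 (1 / (16 * s7dgKa C0 C1))), 1 / (24 * C2), max (max l1 l2) 3,
    by positivity, lt_min (lt_min hε1 hε2) (lt_min one_pos (by positivity)), by positivity, ?_⟩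
  intro ι _ _ σ h ε R D hb hε hl hG
  have hl1 : l1 ≤ R.card := le_trans (le_trans (le_max_left _ _) (le_max_left _ _)) hl
  have hl2 : l2 ≤ R.card := le_trans (le_trans (le_max_right _ _) (le_max_left _ _)) hl
  have hl3 : 3 ≤ R.card := le_trans (le_max_right _ _) hl
  have hεa : ε ≤ ε1 := hε.trans ((min_le_left _ _).trans (min_le_left _ _))
  have hεb : ε ≤ ε2 := hε.trans ((min_le_left _ _).trans (min_le_right _ _))
  have hεc : ε ≤ 1 := hε.trans ((min_le_right _ _).trans (min_le_left _ _))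
  have hεd : ε ≤ 1 / (16 * s7dgKa C0 C1) := hε.trans ((min_le_right _ _).trans (min_le_right _ _))
  have hlR : (3 : ℝ) ≤ R.card := by exact_mod_cast hl3
  have hl0 : (0 : ℝ) < R.card := by linarith
  have hT := s7t_T_nonneg D
  have hcommon := s7dg_avg_common hb hεc hl3 (CH := C1)
    (fun u hu v hv huv => by
      obtain ⟨-, a1, -, a2, a3, -⟩ := hpt ι σ h ε R D hb hεa hl1 u hu v hv huv
      exact ⟨a1, a2, a3⟩)
    (fun u v => 2 * |(s7N1 R.card σ h D u v * s7blk (s7dgE D) u v).trace|)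
    (fun u _ v _ _ => by
      have := neg_abs_le ((s7N1 R.card σ h D u v * s7blk (s7dgE D) u v).trace)
      linarith)
  rw [s7t_avg_smul] at hcommon
  have hker := s7dg_kernel hb.symm hb.cent (by omega : 2 ≤ R.card)
    (fun u v => s7N1 R.card σ h D u v)
    (Bd := C2 * (1 + Real.sqrt (s7T D)) / ((R.card : ℝ) * Real.sqrt R.card)) (G := 1 / (24 * C2))
    (by positivity)
    (fun y hy => (hbl ι σ h ε R R D y y hb hεb hl2 ⟨Finset.Subset.refl _, by omega⟩ hy hy).1) hG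
  have hsl : 0 < Real.sqrt R.card := Real.sqrt_pos.mpr hl0
  obtain ⟨τ, hτ⟩ : ∃ τ, τ = Real.sqrt (s7T D) := ⟨_, rfl⟩
  have hτ0 : 0 ≤ τ := by rw [hτ]; exact Real.sqrt_nonneg _
  have hτ2 : τ ^ 2 = s7T D := by rw [hτ]; exact Real.sq_sqrt hT
  rw [← hτ] at hker
  have hX : 2 * s7avg R (fun u v => |(s7N1 R.card σ h D u v * s7blk (s7dgE D) u v).trace|)
      ≤ (s7T D / 2 + 1 / 24) / R.card := by
    have e : C2 * (1 + τ) / ((R.card : ℝ) * Real.sqrt R.card) * (1 / (24 * C2))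
        * (Real.sqrt R.card * τ) = (τ + τ ^ 2) / 24 / R.card := by
      field_simp
    rw [e, hτ2] at hker
    have h1 : τ ≤ (1 + s7T D) / 2 := by rw [← hτ2]; nlinarith [sq_nonneg (τ - 1)]
    have h2 : 2 * ((τ + s7T D) / 24 / R.card) ≤ (s7T D / 2 + 1 / 24) / R.card := by
      rw [← mul_div_assoc]
      refine div_le_div_of_nonneg_right ?_ hl0.le
      linarith
    linarith
  have ha : 2 * s7dgKa C0 C1 * ε ≤ 1 / 8 := by
    have : 2 * s7dgKa C0 C1 * ε ≤ 2 * s7dgKa C0 C1 * (1 / (16 * s7dgKa C0 C1)) :=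
      mul_le_mul_of_nonneg_left hεd (by positivity)
    refine this.trans (le_of_eq ?_)
    field_simp
    norm_num
  exact hcommon.trans (s7dg_final hl0 hT hX ha)

theorem s7dg_swap_avg {ι : Type} [Fintype ι] [DecidableEq ι] {hmin C0 ε σ h : ℝ} {R : Finset ι}
    {D : Matrix ι ι ℝ} (hb : S7Base hmin C0 ε σ h R D) (hε : ε ≤ 1) (hl : 3 ≤ R.card) {Z : ℝ}
    (hZ : s7opLE D Z) (hYZ : |s7Y D| + Z + 1 ≤ Real.sqrt R.card) :
    |s7avg R (fun u v => (F2 ℝ * s7blk D u v * F2 ℝ * s7blk (s7dgE D) u v).trace)| ≤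
      8 * C0 * Real.sqrt (s7T D) / R.card := by
  have hlR : (3 : ℝ) ≤ R.card := by exact_mod_cast hl
  have hl0 : (0 : ℝ) < R.card := by linarith
  obtain ⟨x0, hx0⟩ : R.Nonempty := Finset.card_pos.mp (by omega)
  have hC0 : 0 ≤ C0 := (s7t_sq_diag_nonneg hb.symm x0).trans (hb.row x0)
  have h1 := s7dg_swap_bound hb hZ
  have h2 := s7dg_sum_abs_diag hb.cent
  obtain ⟨τ, hτ⟩ : ∃ τ, τ = Real.sqrt (s7T D) := ⟨_, rfl⟩
  obtain ⟨lam, hlam⟩ : ∃ lam, lam = Real.sqrt R.card := ⟨_, rfl⟩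
  have hτ0 : 0 ≤ τ := by rw [hτ]; exact Real.sqrt_nonneg _
  have hlam0 : 0 ≤ lam := by rw [hlam]; exact Real.sqrt_nonneg _
  have hlam2 : lam * lam = R.card := by rw [hlam]; exact Real.mul_self_sqrt hl0.le
  rw [← hτ, ← hlam] at h2
  rw [← hlam] at hYZ
  rw [← hτ]
  have hS0 : 0 ≤ ∑ x, |D x x| := Finset.sum_nonneg fun x _ => abs_nonneg _
  have hYZ0 : 0 ≤ |s7Y D| + Z + 2 * ε := by
    have := hZ.1
    have h3 : 0 ≤ ε := (abs_nonneg _).trans (hb.ent x0 x0)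
    positivity
  have h3 : 2 * (C0 * (∑ x, |D x x|) * (|s7Y D| + Z + 2 * ε)) ≤ 4 * C0 * τ * R.card := by
    have a1 : |s7Y D| + Z + 2 * ε ≤ 2 * lam := by
      have := abs_nonneg (s7Y D)
      have := hZ.1
      linarith
    calc 2 * (C0 * (∑ x, |D x x|) * (|s7Y D| + Z + 2 * ε)) ≤ 2 * (C0 * (lam * τ) * (2 * lam)) := by
          refine mul_le_mul_of_nonneg_left ?_ (by norm_num)
          exact mul_le_mul (mul_le_mul_of_nonneg_left h2 hC0) a1 hYZ0 (by positivity)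
      _ = 4 * C0 * τ * (lam * lam) := by ring
      _ = _ := by rw [hlam2]
  unfold s7avg
  rw [abs_div, abs_of_pos (s7t_den_pos (by omega : 2 ≤ R.card)),
    div_le_div_iff₀ (s7t_den_pos (by omega : 2 ≤ R.card)) hl0]
  have h4 : (R.card : ℝ) ≤ 2 * ((R.card : ℝ) - 1) := by linarith
  calc |∑ u ∈ R, ∑ v ∈ R.erase u, (F2 ℝ * s7blk D u v * F2 ℝ * s7blk (s7dgE D) u v).trace| * R.card
      ≤ (4 * C0 * τ * R.card) * R.card := mul_le_mul_of_nonneg_right (h1.trans h3) hl0.le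
    _ = (4 * C0 * τ * R.card) * (R.card : ℝ) := rfl
    _ ≤ (4 * C0 * τ * R.card) * (2 * ((R.card : ℝ) - 1)) :=
        mul_le_mul_of_nonneg_left h4 (by positivity)
    _ = _ := by ring

/-- **S7-STEP-11** -/
theorem s7_diagStepA (hP : StS7CoefPt) (hB : StS7Bilin) : StS7DiagStepA := by
  intro hmin C0 hmin0 hC0
  obtain ⟨C1, ε1, l1, hC1, hε1, hpt⟩ := hP hmin C0 hmin0 hC0
  obtain ⟨C2, ε2, l2, hC2, hε2, hbl⟩ := hB hmin C0 hmin0 hC0
  have hKa := s7dgKa_pos hC0 hC1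
  have hKc := s7dgKc_pos hC0 hC1
  refine ⟨(1 / 24 + 512 * C0 ^ 2 + 480 * C0) + 48 * C1 ^ 2 * C0 ^ 2 + s7dgKc C0 C1,
    min (min ε1 ε2) (min 1 (min (1 / (16 * s7dgKa C0 C1)) (1 / (24 * C2 * C0)))),
    max (max l1 l2) 3, by positivity,
    lt_min (lt_min hε1 hε2) (lt_min one_pos (lt_min (by positivity) (by positivity))), ?_⟩
  intro ι _ _ σ h ε R D hb hε hl Z hZ hYZ
  have hl1 : l1 ≤ R.card := le_trans (le_trans (le_max_left _ _) (le_max_left _ _)) hl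
  have hl2 : l2 ≤ R.card := le_trans (le_trans (le_max_right _ _) (le_max_left _ _)) hl
  have hl3 : 3 ≤ R.card := le_trans (le_max_right _ _) hl
  have hεa : ε ≤ ε1 := hε.trans ((min_le_left _ _).trans (min_le_left _ _))
  have hεb : ε ≤ ε2 := hε.trans ((min_le_left _ _).trans (min_le_right _ _))
  have hεc : ε ≤ 1 := hε.trans ((min_le_right _ _).trans (min_le_left _ _))
  have hεd : ε ≤ 1 / (16 * s7dgKa C0 C1) :=
    hε.trans ((min_le_right _ _).trans ((min_le_right _ _).trans (min_le_left _ _)))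
  have hεe : ε ≤ 1 / (24 * C2 * C0) :=
    hε.trans ((min_le_right _ _).trans ((min_le_right _ _).trans (min_le_right _ _)))
  have hlR : (3 : ℝ) ≤ R.card := by exact_mod_cast hl3
  have hl0 : (0 : ℝ) < R.card := by linarith
  have hT := s7t_T_nonneg D
  obtain ⟨x0, hx0⟩ : R.Nonempty := Finset.card_pos.mp (by omega)
  have hε0 : 0 ≤ ε := (abs_nonneg _).trans (hb.ent x0 x0)
  have hσh : |σ * h| ≤ 1 := by
    have h0 : 0 ≤ h := hmin0.le.trans hb.h_lo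
    have : |σ| = 1 := by rcases hb.sig with h1 | h1 <;> rw [h1] <;> simp
    rw [abs_mul, this, one_mul, abs_of_nonneg h0]
    linarith [hb.h_hi]
  have hσh2 : (σ * h) ^ 2 ≤ 1 := by
    rw [← sq_abs]; exact pow_le_one₀ (abs_nonneg _) hσh
  have hcommon := s7dg_avg_common hb hεc hl3 (CH := C1)
    (fun u hu v hv huv => by
      obtain ⟨-, a1, -, a2, a3, -⟩ := hpt ι σ h ε R D hb hεa hl1 u hu v hv huv
      exact ⟨a1, a2, a3⟩)
    (fun u v => 2 * |(s7N2 R.card σ h D u v * s7blk (s7dgE D) u v).trace|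
      + (2 * (σ * h) ^ 2) * (F2 ℝ * s7blk D u v * F2 ℝ * s7blk (s7dgE D) u v).trace
      + 480 * C0 / R.card)
    (fun u _ v _ _ => by
      have e : s7N1 R.card σ h D u v
          = s7N2 R.card σ h D u v - H0 R.card σ h * s7blk D u v * H0 R.card σ h := by
        unfold s7N1 s7N2; abel
      rw [e, Matrix.sub_mul, Matrix.trace_sub]
      have h1 := neg_abs_le ((s7N2 R.card σ h D u v * s7blk (s7dgE D) u v).trace)
      have h2 := s7dg_rest hb.symm hl3 hεc hb.ent hb.row hσh u v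
      have e2 : 480 * C0 / (R.card : ℝ) = 2 * (240 * C0 / R.card) := by ring
      rw [e2]
      linarith)
  rw [s7t_avg_add, s7t_avg_add, s7t_avg_smul, s7t_avg_smul,
    s7t_avg_const (by omega : 2 ≤ R.card)] at hcommon
  have hker := s7dg_kernel hb.symm hb.cent (by omega : 2 ≤ R.card)
    (fun u v => s7N2 R.card σ h D u v)
    (Bd := C2 * ε * (1 + Real.sqrt (s7T D)) / ((R.card : ℝ) * Real.sqrt R.card)) (G := C0)
    (by positivity)
    (fun y hy => (hbl ι σ h ε R R D y y hb hεb hl2 ⟨Finset.Subset.refl _, by omega⟩ hy hy).2)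
    hb.row
  have hswap := s7dg_swap_avg hb hεc hl3 hZ hYZ
  have hsl : 0 < Real.sqrt R.card := Real.sqrt_pos.mpr hl0
  obtain ⟨τ, hτ⟩ : ∃ τ, τ = Real.sqrt (s7T D) := ⟨_, rfl⟩
  have hτ0 : 0 ≤ τ := by rw [hτ]; exact Real.sqrt_nonneg _
  have hτ2 : τ ^ 2 = s7T D := by rw [hτ]; exact Real.sq_sqrt hT
  rw [← hτ] at hker hswap
  have hX1 : 2 * s7avg R (fun u v => |(s7N2 R.card σ h D u v * s7blk (s7dgE D) u v).trace|)
      ≤ (s7T D / 8 + 1 / 24) / R.card := by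
    have e : C2 * ε * (1 + τ) / ((R.card : ℝ) * Real.sqrt R.card) * C0
        * (Real.sqrt R.card * τ) = (C2 * C0 * ε) * (τ + τ ^ 2) / R.card := by
      field_simp
    rw [e, hτ2] at hker
    have h0 : C2 * C0 * ε ≤ 1 / 24 := by
      calc C2 * C0 * ε ≤ C2 * C0 * (1 / (24 * C2 * C0)) :=
            mul_le_mul_of_nonneg_left hεe (by positivity)
        _ = 1 / 24 := by field_simp
    have h1 : τ ≤ (1 + s7T D) / 2 := by rw [← hτ2]; nlinarith [sq_nonneg (τ - 1)]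
    have h2 : 2 * ((C2 * C0 * ε) * (τ + s7T D) / R.card) ≤ (s7T D / 8 + 1 / 24) / R.card := by
      rw [← mul_div_assoc]
      refine div_le_div_of_nonneg_right ?_ hl0.le
      have : (C2 * C0 * ε) * (τ + s7T D) ≤ (1 / 24) * (τ + s7T D) :=
        mul_le_mul_of_nonneg_right h0 (by positivity)
      linarith
    linarith
  have hX2 : (2 * (σ * h) ^ 2) *
      s7avg R (fun u v => (F2 ℝ * s7blk D u v * F2 ℝ * s7blk (s7dgE D) u v).trace)
      ≤ (s7T D / 8 + 512 * C0 ^ 2) / R.card := by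
    have a1 : (2 * (σ * h) ^ 2) *
        s7avg R (fun u v => (F2 ℝ * s7blk D u v * F2 ℝ * s7blk (s7dgE D) u v).trace)
        ≤ (2 * (σ * h) ^ 2) * (8 * C0 * τ / R.card) :=
      mul_le_mul_of_nonneg_left ((le_abs_self _).trans hswap) (by positivity)
    have a2 : (2 * (σ * h) ^ 2) * (8 * C0 * τ / R.card) ≤ 2 * (8 * C0 * τ / R.card) :=
      mul_le_mul_of_nonneg_right (by linarith) (by positivity)
    have a3 : 2 * (8 * C0 * τ / R.card) ≤ (s7T D / 8 + 512 * C0 ^ 2) / R.card := by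
      rw [← mul_div_assoc]
      refine div_le_div_of_nonneg_right ?_ hl0.le
      rw [← hτ2]
      nlinarith [sq_nonneg (τ - 64 * C0)]
    exact a1.trans (a2.trans a3)
  have hX : 2 * s7avg R (fun u v => |(s7N2 R.card σ h D u v * s7blk (s7dgE D) u v).trace|)
      + (2 * (σ * h) ^ 2) *
        s7avg R (fun u v => (F2 ℝ * s7blk D u v * F2 ℝ * s7blk (s7dgE D) u v).trace)
      + 480 * C0 / R.card ≤ (s7T D / 2 + (1 / 24 + 512 * C0 ^ 2 + 480 * C0)) / R.card := by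
    have e : (s7T D / 2 + (1 / 24 + 512 * C0 ^ 2 + 480 * C0)) / R.card
        = (s7T D / 8 + 1 / 24) / R.card + (s7T D / 8 + 512 * C0 ^ 2) / R.card
          + 480 * C0 / R.card + s7T D / 4 / R.card := by ring
    have : 0 ≤ s7T D / 4 / R.card := by positivity
    rw [e]
    linarith
  have ha : 2 * s7dgKa C0 C1 * ε ≤ 1 / 8 := by
    have : 2 * s7dgKa C0 C1 * ε ≤ 2 * s7dgKa C0 C1 * (1 / (16 * s7dgKa C0 C1)) :=
      mul_le_mul_of_nonneg_left hεd (by positivity)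
    refine this.trans (le_of_eq ?_)
    field_simp
    norm_num
  exact hcommon.trans (s7dg_final hl0 hT hX ha)

end Claimed.Agent.R275
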