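import Claimed.Agent.R275.S7Tools

/-!
# Row 275, Section 7, leaf S7-ENERGYSTEP: mean and second moment of `ΔX`, `X = Tr D²`

Prover: helper102.  Prefix `s7en_`.  Paper: boundary.tex, "Growth of the averaged gap", before (7.50).
`ΔX = -2 Tr BK - 2 Tr H₀J - 2 Tr N₁J + h² Tr FKFK + rem`,
`|rem| ≤ C (‖A‖² + ‖A‖ ‖K‖ + (ε + 1/l) ‖K‖)`.
-/

set_option autoImplicit false
set_option linter.unusedSectionVars false
set_option linter.unusedVariables false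

namespace Claimed.Agent.R275

open Matrix

/-- the remainder of (7.48) after the main terms (abstract `2 × 2` form) -/
theorem s7en_rem (c κ δm : ℝ) (hc : 0 ≤ c) (hκ : 0 ≤ κ) (hδm : 0 ≤ δm) : ∃ K : ℝ, 0 ≤ K ∧
    ∀ (H G Hd A K2 B : Matrix (Fin 2) (Fin 2) ℝ) (nA nK δ : ℝ), H = G + Hd → s7nb G 1 →
      s7nb Hd δ → s7nb H c → s7nb A nA → s7nb K2 nK → s7nb B 2 → nA ≤ 3 → nK ≤ κ → δ ≤ δm →
      |(B * A * B * A).trace - 2 * (H * (-(A * B * K2) - K2 * B * A + A * B * A * B * A)).trace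
        + (H * (K2 - A * B * A) * H * (K2 - A * B * A)).trace - (G * K2 * G * K2).trace|
        ≤ K * (nA ^ 2 + nA * nK + δ * nK) := by
  refine ⟨64 + 1536 * c + 128 * c * (κ + 72) * δm + 128 * c * (κ + 72) + 128 * κ + 128 * c
    + 16 * c * (κ + 72) + 16 * (κ + 72), by positivity, ?_⟩
  intro H G Hd A K2 B nA nK δ hH hG hHd hHc hA hK hB hnA hnK hδ
  have hnA0 := hA.nonneg
  have hnK0 := hK.nonneg
  have hδ0 := hHd.nonneg
  -- raw bounds
  have r1 := (((hB.mul hA).mul hB).mul hA).trace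
  have bKd := ((hA.mul hB).mul hA)
  have bKt := hK.sub bKd
  have r2 := (hHc.mul ((((hA.mul hB).mul hK).neg.sub ((hK.mul hB).mul hA)).add
    ((((hA.mul hB).mul hA).mul hB).mul hA))).trace
  have r3 := (((hHd.mul bKt).mul hHc).mul bKt).trace
  have r4 := (((hG.mul bKd.neg).mul hHc).mul bKt).trace
  have r5 := (((hG.mul hK).mul hHd).mul bKt).trace
  have r6 := (((hG.mul hK).mul hG).mul bKd.neg).trace
  have tel : H * (K2 - A * B * A) * H * (K2 - A * B * A) - G * K2 * G * K2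
      = Hd * (K2 - A * B * A) * H * (K2 - A * B * A) + G * (-(A * B * A)) * H * (K2 - A * B * A)
        + G * K2 * Hd * (K2 - A * B * A) + G * K2 * G * (-(A * B * A)) := by
    subst hH
    noncomm_ring
  have telT : (H * (K2 - A * B * A) * H * (K2 - A * B * A)).trace - (G * K2 * G * K2).trace
      = (Hd * (K2 - A * B * A) * H * (K2 - A * B * A)).trace
        + (G * (-(A * B * A)) * H * (K2 - A * B * A)).trace
        + (G * K2 * Hd * (K2 - A * B * A)).trace + (G * K2 * G * (-(A * B * A))).trace := by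
    rw [← Matrix.trace_sub, tel, Matrix.trace_add, Matrix.trace_add, Matrix.trace_add]
  set t := nK + 2 * (2 * nA * 2) * nA with ht
  have ht0 : 0 ≤ t := by positivity
  have htτ : t ≤ κ + 72 := by
    have : nA * nA ≤ 3 * 3 := mul_le_mul hnA hnA hnA0 (by norm_num)
    rw [ht]; nlinarith
  have hn3 : nA * nA * nA ≤ 3 * (nA * nA) := by
    have := mul_le_mul_of_nonneg_right hnA (mul_nonneg hnA0 hnA0)
    linarith
  have hA2 : 0 ≤ nA * nA := mul_nonneg hnA0 hnA0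
  -- reduce the degrees
  have q3 : 2 * (2 * (2 * (2 * δ * t) * c) * t)
      ≤ 16 * c * (κ + 72) * (δ * nK) + 128 * c * (κ + 72) * δm * (nA * nA) := by
    have h1 : t * t ≤ (κ + 72) * t := mul_le_mul_of_nonneg_right htτ ht0
    have h2 : δ * c * (t * t) ≤ δ * c * ((κ + 72) * t) :=
      mul_le_mul_of_nonneg_left h1 (mul_nonneg hδ0 hc)
    have h3 : δ * (c * (κ + 72) * (nA * nA)) ≤ δm * (c * (κ + 72) * (nA * nA)) :=
      mul_le_mul_of_nonneg_right hδ (by positivity)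
    rw [ht] at h2 ⊢
    nlinarith
  have q4 : 2 * (2 * (2 * (2 * 1 * (2 * (2 * nA * 2) * nA)) * c) * t)
      ≤ 128 * c * (κ + 72) * (nA * nA) := by
    have h1 : c * (nA * nA) * t ≤ c * (nA * nA) * (κ + 72) :=
      mul_le_mul_of_nonneg_left htτ (by positivity)
    nlinarith
  have q5 : 2 * (2 * (2 * (2 * 1 * nK) * δ) * t) ≤ 16 * (κ + 72) * (δ * nK) := by
    have h1 : δ * nK * t ≤ δ * nK * (κ + 72) := mul_le_mul_of_nonneg_left htτ (by positivity)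
    nlinarith
  have q6 : 2 * (2 * (2 * (2 * 1 * nK) * 1) * (2 * (2 * nA * 2) * nA)) ≤ 128 * κ * (nA * nA) := by
    have h1 : nK * (nA * nA) ≤ κ * (nA * nA) := mul_le_mul_of_nonneg_right hnK hA2
    nlinarith
  have q2 : 2 * (2 * c * (2 * (2 * nA * 2) * nK + 2 * (2 * nK * 2) * nA
      + 2 * (2 * (2 * (2 * nA * 2) * nA) * 2) * nA))
      ≤ 64 * c * (nA * nK) + 768 * c * (nA * nA) := by
    have h1 : c * (nA * nA * nA) ≤ c * (3 * (nA * nA)) := mul_le_mul_of_nonneg_left hn3 hc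
    nlinarith
  have e1 : 0 ≤ nA * nK := mul_nonneg hnA0 hnK0
  have e2 : 0 ≤ δ * nK := mul_nonneg hδ0 hnK0
  have key : (B * A * B * A).trace
      - 2 * (H * (-(A * B * K2) - K2 * B * A + A * B * A * B * A)).trace
      + (H * (K2 - A * B * A) * H * (K2 - A * B * A)).trace - (G * K2 * G * K2).trace
      = (B * A * B * A).trace
      - 2 * (H * (-(A * B * K2) - K2 * B * A + A * B * A * B * A)).trace
      + ((Hd * (K2 - A * B * A) * H * (K2 - A * B * A)).trace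
        + (G * (-(A * B * A)) * H * (K2 - A * B * A)).trace
        + (G * K2 * Hd * (K2 - A * B * A)).trace + (G * K2 * G * (-(A * B * A))).trace) := by
    rw [← telT]; ring
  rw [key]
  have P1 : 0 ≤ c * (κ + 72) * δm := by positivity
  have P2 : 0 ≤ c * (κ + 72) := by positivity
  have big : 2 * (2 * (2 * (2 * 2 * nA) * 2) * nA)
      + 2 * (64 * c * (nA * nK) + 768 * c * (nA * nA))
      + (16 * c * (κ + 72) * (δ * nK) + 128 * c * (κ + 72) * δm * (nA * nA))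
      + 128 * c * (κ + 72) * (nA * nA) + 16 * (κ + 72) * (δ * nK) + 128 * κ * (nA * nA)
      ≤ (64 + 1536 * c + 128 * c * (κ + 72) * δm + 128 * c * (κ + 72) + 128 * κ + 128 * c
        + 16 * c * (κ + 72) + 16 * (κ + 72)) * (nA ^ 2 + nA * nK + δ * nK) := by
    have hs1 : 0 ≤ nA ^ 2 := sq_nonneg _
    have hκ72 : 0 ≤ κ + 72 := by linarith
    have b1 : (64 + 1536 * c + 128 * c * (κ + 72) * δm + 128 * c * (κ + 72) + 128 * κ) * nA ^ 2
        ≤ (64 + 1536 * c + 128 * c * (κ + 72) * δm + 128 * c * (κ + 72) + 128 * κ + 128 * c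
        + 16 * c * (κ + 72) + 16 * (κ + 72)) * nA ^ 2 :=
      mul_le_mul_of_nonneg_right (by linarith) hs1
    have b2 : (128 * c) * (nA * nK)
        ≤ (64 + 1536 * c + 128 * c * (κ + 72) * δm + 128 * c * (κ + 72) + 128 * κ + 128 * c
        + 16 * c * (κ + 72) + 16 * (κ + 72)) * (nA * nK) :=
      mul_le_mul_of_nonneg_right (by linarith) e1
    have b3 : (16 * c * (κ + 72) + 16 * (κ + 72)) * (δ * nK)
        ≤ (64 + 1536 * c + 128 * c * (κ + 72) * δm + 128 * c * (κ + 72) + 128 * κ + 128 * c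
        + 16 * c * (κ + 72) + 16 * (κ + 72)) * (δ * nK) :=
      mul_le_mul_of_nonneg_right (by linarith) e2
    calc _ = (64 + 1536 * c + 128 * c * (κ + 72) * δm + 128 * c * (κ + 72) + 128 * κ) * nA ^ 2
          + (128 * c) * (nA * nK) + (16 * c * (κ + 72) + 16 * (κ + 72)) * (δ * nK) := by ring
      _ ≤ _ := by rw [mul_add, mul_add]; linarith
  rw [abs_le] at r1 r2 r3 r4 r5 r6 ⊢
  constructor <;> linarith [r1.1, r1.2, r2.1, r2.2, r3.1, r3.2, r4.1, r4.2, r5.1, r5.2, r6.1, r6.2]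

theorem s7en_sq3 (x y z : ℝ) : (x + y + z) ^ 2 ≤ 3 * (x ^ 2 + y ^ 2 + z ^ 2) := by
  nlinarith [sq_nonneg (x - y), sq_nonneg (x - z), sq_nonneg (y - z)]

theorem s7en_sq4 (x y z w : ℝ) : (x + y + z + w) ^ 2 ≤ 4 * (x ^ 2 + y ^ 2 + z ^ 2 + w ^ 2) := by
  nlinarith [sq_nonneg (x - y), sq_nonneg (x - z), sq_nonneg (y - z), sq_nonneg (x - w),
    sq_nonneg (y - w), sq_nonneg (z - w)]

section Blocks

variable {ι : Type} [Fintype ι] [DecidableEq ι]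

theorem s7en_nb_blk {M : Matrix ι ι ℝ} {u v : ι} {c : ℝ} (h1 : |M u u| ≤ c) (h2 : |M u v| ≤ c)
    (h3 : |M v u| ≤ c) (h4 : |M v v| ≤ c) : s7nb (s7blk M u v) c := by
  intro i j
  unfold s7blk
  by_cases hi : i = 0 <;> by_cases hj : j = 0 <;> simp only [hi, hj, if_true, if_false] <;>
    assumption

/-- entries of the pair block of `D` -/
theorem s7en_nb_A {D : Matrix ι ι ℝ} (hs : Dᵀ = D) (u v : ι) :
    s7nb (s7blk D u v) (|D u u| + |D v v| + |D u v|) := by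
  have h1 := abs_nonneg (D u u)
  have h2 := abs_nonneg (D v v)
  have h3 := abs_nonneg (D u v)
  have e : D v u = D u v := s7t_symm_apply hs v u
  refine s7en_nb_blk ?_ ?_ ?_ ?_
  · linarith
  · linarith
  · rw [e]; linarith
  · linarith

/-- entries of the pair block of `D²` -/
theorem s7en_nb_K {D : Matrix ι ι ℝ} (hs : Dᵀ = D) (u v : ι) :
    s7nb (s7blk (D * D) u v) ((D * D) u u + (D * D) v v) := by
  have h1 := s7t_sq_diag_nonneg hs u
  have h2 := s7t_sq_diag_nonneg hs v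
  have h3 := s7t_sq_offdiag hs u v
  have h4 := s7t_sq_offdiag hs v u
  refine s7en_nb_blk ?_ ?_ ?_ ?_
  · rw [abs_of_nonneg h1]; linarith
  · linarith
  · linarith
  · rw [abs_of_nonneg h2]; linarith

end Blocks

/-- pointwise decomposition of `ΔX` -/
theorem s7en_point (hId : StS7EnergyId) (C1 C0 : ℝ) (hC1 : 0 ≤ C1) (hC0 : 0 ≤ C0) :
    ∃ K : ℝ, 0 ≤ K ∧
    ∀ (ι : Type) [Fintype ι] [DecidableEq ι] (σ h ε : ℝ) (R : Finset ι) (D : Matrix ι ι ℝ) (u v : ι),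
      Dᵀ = D → s7Pi ℝ R * D = D → (∀ x, (D * D) x x ≤ C0) → (∀ x y, |D x y| ≤ ε) → ε ≤ 1 →
      |σ * h| ≤ 1 → σ ^ 2 = 1 → 3 ≤ R.card → u ∈ R → v ∈ R → u ≠ v →
      s7nb (s7H R.card σ h D u v) C1 → s7nb (s7N1 R.card σ h D u v) (C1 * ε) →
      |s7X (s7Dstep σ h R D u v) - s7X D
        - (-2 * (B2 ℝ R.card * s7blk (D * D) u v).trace
          - 2 * (s7H R.card σ h D u v * s7blk (D * D * D) u v).trace
          + h ^ 2 * (F2 ℝ * s7blk (D * D) u v * F2 ℝ * s7blk (D * D) u v).trace)|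
        ≤ K * ((D u u ^ 2 + D v v ^ 2 + D u v ^ 2 + D v u ^ 2)
          + (ε + 1 / (R.card : ℝ)) * ((D * D) u u + (D * D) v v)) := by
  obtain ⟨K, hK0, hK⟩ := s7en_rem C1 (2 * C0) (3 + C1) hC1 (by positivity) (by positivity)
  refine ⟨K * (3 + C1), by positivity, ?_⟩
  intro ι _ _ σ h ε R D u v hs hc hrow hent hε hσh hσ hl hu hv huv hH hN
  have hl3 : (3 : ℝ) ≤ R.card := by exact_mod_cast hl
  have hε0 : 0 ≤ ε := (abs_nonneg _).trans (hent u u)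
  have hid := hId ℝ ι σ h R D u v hu hv huv (by omega) hs hc
  simp only [] at hid
  set B := B2 ℝ R.card with hB
  set A := s7blk D u v with hA
  set K2 := s7blk (D * D) u v with hK2
  set J := s7blk (D * D * D) u v with hJ
  set H := s7H R.card σ h D u v with hHdef
  set G := (-(σ * h)) • F2 ℝ with hG
  have nbG : s7nb G 1 := by
    have := s7t_nb_F2.smul (-(σ * h))
    rw [abs_neg] at this
    exact this.mono (by linarith)
  have nbHd : s7nb ((H0 R.card σ h - G) + s7N1 R.card σ h D u v)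
      (|σ * h| * (3 / (R.card : ℝ)) + C1 * ε) := (s7t_nb_H0_sub hl σ h).add hN
  have hsum : H = G + ((H0 R.card σ h - G) + s7N1 R.card σ h D u v) := by
    unfold s7N1
    rw [← hHdef]
    abel
  have nbA := s7en_nb_A hs u v
  have nbK := s7en_nb_K hs u v
  have hl1 : (3 : ℝ) / R.card ≤ 1 := by rw [div_le_one (by linarith)]; exact hl3
  have hl0 : (0 : ℝ) ≤ 3 / R.card := by positivity
  have hnA : |D u u| + |D v v| + |D u v| ≤ 3 * ε := by
    have := hent u u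
    have := hent v v
    have := hent u v
    linarith
  have hnK : (D * D) u u + (D * D) v v ≤ 2 * C0 := by
    have := hrow u
    have := hrow v
    linarith
  have hδ : |σ * h| * (3 / (R.card : ℝ)) + C1 * ε ≤ 3 + C1 := by
    have h1 : |σ * h| * (3 / (R.card : ℝ)) ≤ 1 * 1 :=
      mul_le_mul hσh hl1 hl0 (by norm_num)
    have h2 : C1 * ε ≤ C1 * 1 := mul_le_mul_of_nonneg_left hε hC1
    linarith
  have main := hK H G _ A K2 B _ _ _ hsum nbG nbHd hH nbA nbK (s7t_nb_B2 hl) (by linarith) hnK hδ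
  have eG : (G * K2 * G * K2).trace = h ^ 2 * (F2 ℝ * K2 * F2 ℝ * K2).trace := by
    rw [hG]
    simp only [Matrix.smul_mul, Matrix.mul_smul, smul_smul, Matrix.trace_smul, smul_eq_mul]
    have : -(σ * h) * -(σ * h) = h ^ 2 := by
      have : -(σ * h) * -(σ * h) = σ ^ 2 * h ^ 2 := by ring
      rw [this, hσ, one_mul]
    rw [this]
  have eJ : (H * (J - A * B * K2 - K2 * B * A + A * B * A * B * A)).trace
      = (H * J).trace + (H * (-(A * B * K2) - K2 * B * A + A * B * A * B * A)).trace := by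
    rw [← Matrix.trace_add, ← Matrix.mul_add]
    congr 2
    abel
  have eq1 : s7X (s7Dstep σ h R D u v) - s7X D
        - (-2 * (B * K2).trace - 2 * (H * J).trace + h ^ 2 * (F2 ℝ * K2 * F2 ℝ * K2).trace)
      = (B * A * B * A).trace
        - 2 * (H * (-(A * B * K2) - K2 * B * A + A * B * A * B * A)).trace
        + (H * (K2 - A * B * A) * H * (K2 - A * B * A)).trace - (G * K2 * G * K2).trace := by
    rw [hid, eJ, eG]; ring
  rw [eq1]
  refine main.trans ?_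
  -- arithmetic
  set nK := (D * D) u u + (D * D) v v with hnKdef
  have hnK0 : 0 ≤ nK := nbK.nonneg
  have hnA0 := nbA.nonneg
  have s1 : (|D u u| + |D v v| + |D u v|) ^ 2 ≤ 3 * (D u u ^ 2 + D v v ^ 2 + D u v ^ 2 + D v u ^ 2) := by
    have g := s7en_sq3 (|D u u|) (|D v v|) (|D u v|)
    rw [sq_abs, sq_abs, sq_abs] at g
    have := sq_nonneg (D v u)
    linarith
  have s2 : (|D u u| + |D v v| + |D u v|) * nK ≤ 3 * ε * nK := mul_le_mul_of_nonneg_right hnA hnK0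
  have s3 : (|σ * h| * (3 / (R.card : ℝ)) + C1 * ε) * nK ≤ (3 / (R.card : ℝ) + C1 * ε) * nK := by
    refine mul_le_mul_of_nonneg_right ?_ hnK0
    have : |σ * h| * (3 / (R.card : ℝ)) ≤ 1 * (3 / (R.card : ℝ)) :=
      mul_le_mul_of_nonneg_right hσh hl0
    linarith
  have f5 : 0 ≤ D u u ^ 2 + D v v ^ 2 + D u v ^ 2 + D v u ^ 2 := by positivity
  have hinv : (0 : ℝ) ≤ 1 / R.card := by positivity
  calc K * ((|D u u| + |D v v| + |D u v|) ^ 2 + (|D u u| + |D v v| + |D u v|) * nK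
        + (|σ * h| * (3 / (R.card : ℝ)) + C1 * ε) * nK)
      ≤ K * (3 * (D u u ^ 2 + D v v ^ 2 + D u v ^ 2 + D v u ^ 2) + 3 * ε * nK
        + (3 / (R.card : ℝ) + C1 * ε) * nK) := mul_le_mul_of_nonneg_left (by linarith) hK0
    _ ≤ K * ((3 + C1) * ((D u u ^ 2 + D v v ^ 2 + D u v ^ 2 + D v u ^ 2)
        + (ε + 1 / (R.card : ℝ)) * nK)) := by
        refine mul_le_mul_of_nonneg_left ?_ hK0
        have t1 : 0 ≤ C1 * (D u u ^ 2 + D v v ^ 2 + D u v ^ 2 + D v u ^ 2) := by positivity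
        have t2 : 0 ≤ C1 * (1 / (R.card : ℝ) * nK) := by positivity
        have t3 : (3 + C1) * ((D u u ^ 2 + D v v ^ 2 + D u v ^ 2 + D v u ^ 2)
            + (ε + 1 / (R.card : ℝ)) * nK)
            - (3 * (D u u ^ 2 + D v v ^ 2 + D u v ^ 2 + D v u ^ 2) + 3 * ε * nK
              + (3 / (R.card : ℝ) + C1 * ε) * nK)
            = C1 * (D u u ^ 2 + D v v ^ 2 + D u v ^ 2 + D v u ^ 2)
              + C1 * (1 / (R.card : ℝ) * nK) := by ring
        linarith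
    _ = K * (3 + C1) * ((D u u ^ 2 + D v v ^ 2 + D u v ^ 2 + D v u ^ 2)
        + (ε + 1 / (R.card : ℝ)) * nK) := by ring

/-! ## Averages -/

theorem s7en_avg_lin6 {ι : Type} [DecidableEq ι] (I : Finset ι) (c1 c2 c3 c4 c5 c6 : ℝ)
    (f1 f2 f3 f4 f5 f6 : ι → ι → ℝ) :
    s7avg I (fun u v => c1 * f1 u v + c2 * f2 u v + c3 * f3 u v + c4 * f4 u v + c5 * f5 u v
      + c6 * f6 u v)
      = c1 * s7avg I f1 + c2 * s7avg I f2 + c3 * s7avg I f3 + c4 * s7avg I f4 + c5 * s7avg I f5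
        + c6 * s7avg I f6 := by
  unfold s7avg
  simp only [Finset.sum_add_distrib, ← Finset.mul_sum]
  ring

section Averages

variable {ι : Type} [Fintype ι] [DecidableEq ι]

/-- `Tr (N J)` for a pair block -/
theorem s7en_trace_blk (N : Matrix (Fin 2) (Fin 2) ℝ) (M : Matrix ι ι ℝ) (u v : ι) :
    (N * s7blk M u v).trace = N 0 0 * M u u + N 0 1 * M v u + N 1 0 * M u v + N 1 1 * M v v := by
  rw [Matrix.trace_fin_two, Matrix.mul_apply, Matrix.mul_apply, Fin.sum_univ_two, Fin.sum_univ_two]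
  simp [s7blk]
  ring

/-- `|Tr (N J)| ≤ Z · |N|(x, x)`, `J = blk D³`, `x_s = √((D²)_ss)` -/
theorem s7en_trace_NJ {D : Matrix ι ι ℝ} {Z : ℝ} (hs : Dᵀ = D) (hZ : s7opLE D Z)
    (N : Matrix (Fin 2) (Fin 2) ℝ) (u v : ι) :
    |(N * s7blk (D * D * D) u v).trace| ≤
      Z * s7absq N (fun s => Real.sqrt ((D * D) s s)) (fun s => Real.sqrt ((D * D) s s)) u v := by
  rw [s7en_trace_blk]
  unfold s7absq
  have b1 := s7t_cube_le hs hZ u u
  have b2 := s7t_cube_le hs hZ v u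
  have b3 := s7t_cube_le hs hZ u v
  have b4 := s7t_cube_le hs hZ v v
  have m1 : |N 0 0 * (D * D * D) u u| ≤ |N 0 0| * (Z * (Real.sqrt ((D * D) u u) * Real.sqrt ((D * D) u u))) := by
    rw [abs_mul]; exact mul_le_mul_of_nonneg_left b1 (abs_nonneg _)
  have m2 : |N 0 1 * (D * D * D) v u| ≤ |N 0 1| * (Z * (Real.sqrt ((D * D) v v) * Real.sqrt ((D * D) u u))) := by
    rw [abs_mul]; exact mul_le_mul_of_nonneg_left b2 (abs_nonneg _)
  have m3 : |N 1 0 * (D * D * D) u v| ≤ |N 1 0| * (Z * (Real.sqrt ((D * D) u u) * Real.sqrt ((D * D) v v))) := by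
    rw [abs_mul]; exact mul_le_mul_of_nonneg_left b3 (abs_nonneg _)
  have m4 : |N 1 1 * (D * D * D) v v| ≤ |N 1 1| * (Z * (Real.sqrt ((D * D) v v) * Real.sqrt ((D * D) v v))) := by
    rw [abs_mul]; exact mul_le_mul_of_nonneg_left b4 (abs_nonneg _)
  have t1 := abs_add_le (N 0 0 * (D * D * D) u u + N 0 1 * (D * D * D) v u + N 1 0 * (D * D * D) u v)
    (N 1 1 * (D * D * D) v v)
  have t2 := abs_add_le (N 0 0 * (D * D * D) u u + N 0 1 * (D * D * D) v u) (N 1 0 * (D * D * D) u v)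
  have t3 := abs_add_le (N 0 0 * (D * D * D) u u) (N 0 1 * (D * D * D) v u)
  calc _ ≤ |N 0 0| * (Z * (Real.sqrt ((D * D) u u) * Real.sqrt ((D * D) u u)))
        + |N 0 1| * (Z * (Real.sqrt ((D * D) v v) * Real.sqrt ((D * D) u u)))
        + |N 1 0| * (Z * (Real.sqrt ((D * D) u u) * Real.sqrt ((D * D) v v)))
        + |N 1 1| * (Z * (Real.sqrt ((D * D) v v) * Real.sqrt ((D * D) v v))) := by linarith
    _ = _ := by ring

/-- `s7sqOn R x = X` for `x_s = √((D²)_ss)` -/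
theorem s7en_sqOn {R : Finset ι} {D : Matrix ι ι ℝ} (hs : Dᵀ = D) (hc : s7Pi ℝ R * D = D) :
    s7sqOn R (fun s => Real.sqrt ((D * D) s s)) = s7X D := by
  rw [s7t_X_eq hs hc]
  unfold s7sqOn
  exact Finset.sum_congr rfl (fun s _ => Real.sq_sqrt (s7t_sq_diag_nonneg hs s))

/-- the quadratic main term -/
theorem s7en_avg_swap (hSwap : StS7SwapId) {R : Finset ι} {D : Matrix ι ι ℝ} {Z : ℝ} (hs : Dᵀ = D)
    (hc : s7Pi ℝ R * D = D) (hZ : s7opLE D Z) (hl : 2 ≤ R.card) :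
    s7avg R (fun u v => (F2 ℝ * s7blk (D * D) u v * F2 ℝ * s7blk (D * D) u v).trace) ≤
      2 * (s7X D ^ 2 + Z ^ 2 * s7X D) / ((R.card : ℝ) * ((R.card : ℝ) - 1)) := by
  unfold s7avg
  refine div_le_div_of_nonneg_right ?_ (s7t_den_pos hl).le
  rw [hSwap ℝ ι R (D * D) (D * D) (s7t_sq_symm hs) (s7t_sq_symm hs), ← s7t_X_eq hs hc]
  have h1 : ∑ u ∈ R, ∑ v ∈ R, (D * D) u v * (D * D) u v ≤ Z ^ 2 * s7X D := by
    refine le_trans ?_ (s7t_sq_fro hs hZ)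
    calc ∑ u ∈ R, ∑ v ∈ R, (D * D) u v * (D * D) u v
        ≤ ∑ u ∈ R, ∑ v, (D * D) u v ^ 2 := by
          refine Finset.sum_le_sum (fun u _ => ?_)
          simp only [← sq]
          exact Finset.sum_le_sum_of_subset_of_nonneg (Finset.subset_univ _)
            (fun v _ _ => sq_nonneg _)
      _ ≤ ∑ u, ∑ v, (D * D) u v ^ 2 :=
          Finset.sum_le_sum_of_subset_of_nonneg (Finset.subset_univ _)
            (fun u _ _ => Finset.sum_nonneg (fun v _ => sq_nonneg _))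
  have h2 : 0 ≤ ∑ u ∈ R, (D * D) u u * (D * D) u u :=
    Finset.sum_nonneg (fun u _ => mul_self_nonneg _)
  nlinarith

/-- the average of `(D²)_uu + (D²)_vv` -/
theorem s7en_avg_K {R : Finset ι} {D : Matrix ι ι ℝ} (hs : Dᵀ = D) (hc : s7Pi ℝ R * D = D)
    (hl : 2 ≤ R.card) :
    s7avg R (fun u v => (D * D) u u + (D * D) v v) = 2 * s7X D / R.card := by
  rw [s7t_avg_add R (fun u _ => (D * D) u u) (fun _ v => (D * D) v v), s7t_avg_fst hl,
    s7t_avg_snd hl, ← s7t_X_eq hs hc]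
  ring

end Averages

/-! ## The mean -/

theorem s7en_arith1 (L S X T t Z ε h K C2 C3 C0 : ℝ) (hL : 8 ≤ L) (hS : 0 < S) (hX : 0 ≤ X)
    (hXL : X ≤ C0 * L) (hT : 0 ≤ T) (ht : 0 ≤ t) (hZ : 0 ≤ Z) (hε : 0 ≤ ε) (hh : h ^ 2 ≤ 1)
    (hK : 0 ≤ K) (hC2 : 0 ≤ C2) (hC3 : 0 ≤ C3) (hC0 : 0 ≤ C0) :
    -2 * (2 * X / (L - 1)) + 2 * Z * (C2 * (1 + t) / (L * S) * X)
      + h ^ 2 * (2 * (X ^ 2 + Z ^ 2 * X) / (L * (L - 1))) + K * (C3 / L * (T + X / L))
      + K * (ε + 1 / L) * (2 * X / L)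
    ≤ -4 * X / (L - 1) + 2 * h ^ 2 * X ^ 2 / (L * (L - 1))
      + (2 * C2 + 4 + 2 * K + K * C3 * (1 + C0)) * ((1 + Z ^ 2) * X / L ^ 2
        + (1 + t) * Z * X / (L * S) + ε * X / L + (1 + T) / L) := by
  have hL0 : 0 < L := by linarith
  have hL1 : 0 < L - 1 := by linarith
  set e1 := (1 + Z ^ 2) * X / L ^ 2 with he1
  set e2 := (1 + t) * Z * X / (L * S) with he2
  set e3 := ε * X / L with he3
  set e4 := (1 + T) / L with he4
  have p1 : 0 ≤ e1 := by positivity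
  have p2 : 0 ≤ e2 := by positivity
  have p3 : 0 ≤ e3 := by positivity
  have p4 : 0 ≤ e4 := by positivity
  have i1 : 2 * Z * (C2 * (1 + t) / (L * S) * X) = 2 * C2 * e2 := by
    rw [he2]; field_simp
  have i2 : h ^ 2 * (2 * (X ^ 2 + Z ^ 2 * X) / (L * (L - 1)))
      ≤ 2 * h ^ 2 * X ^ 2 / (L * (L - 1)) + 4 * e1 := by
    have a1 : h ^ 2 * (2 * (X ^ 2 + Z ^ 2 * X) / (L * (L - 1)))
        = 2 * h ^ 2 * X ^ 2 / (L * (L - 1)) + h ^ 2 * (2 * (Z ^ 2 * X) * (1 / (L * (L - 1)))) := by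
      field_simp
    have a2 : 1 / (L * (L - 1)) ≤ 2 / L ^ 2 := by
      rw [div_le_div_iff₀ (mul_pos hL0 hL1) (by positivity)]
      nlinarith
    have a3 : 2 * (Z ^ 2 * X) * (1 / (L * (L - 1))) ≤ 2 * (Z ^ 2 * X) * (2 / L ^ 2) :=
      mul_le_mul_of_nonneg_left a2 (by positivity)
    have a4 : h ^ 2 * (2 * (Z ^ 2 * X) * (1 / (L * (L - 1)))) ≤ 1 * (2 * (Z ^ 2 * X) * (2 / L ^ 2)) :=
      mul_le_mul hh a3 (by positivity) (by norm_num)
    have a5 : 1 * (2 * (Z ^ 2 * X) * (2 / L ^ 2)) ≤ 4 * e1 := by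
      have : 4 * e1 - 1 * (2 * (Z ^ 2 * X) * (2 / L ^ 2)) = 4 * X / L ^ 2 := by
        rw [he1]; field_simp; ring
      have : 0 ≤ 4 * X / L ^ 2 := by positivity
      linarith
    linarith
  have i3 : K * (C3 / L * (T + X / L)) ≤ K * C3 * (1 + C0) * e4 := by
    have a1 : X / L ≤ C0 := by rw [div_le_iff₀ hL0]; exact hXL
    have a2 : T + X / L ≤ (1 + C0) * (1 + T) := by nlinarith
    have a3 : C3 / L * (T + X / L) ≤ C3 / L * ((1 + C0) * (1 + T)) :=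
      mul_le_mul_of_nonneg_left a2 (by positivity)
    have a4 := mul_le_mul_of_nonneg_left a3 hK
    have a5 : K * (C3 / L * ((1 + C0) * (1 + T))) = K * C3 * (1 + C0) * e4 := by
      rw [he4]; field_simp
    linarith
  have i4 : K * (ε + 1 / L) * (2 * X / L) ≤ 2 * K * e3 + 2 * K * e1 := by
    have a1 : K * (ε + 1 / L) * (2 * X / L) = 2 * K * e3 + 2 * K * (X / L ^ 2) := by
      rw [he3]; field_simp
    have a2 : X / L ^ 2 ≤ e1 := by
      rw [he1]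
      refine div_le_div_of_nonneg_right ?_ (by positivity)
      nlinarith [sq_nonneg Z]
    have := mul_le_mul_of_nonneg_left a2 (by positivity : 0 ≤ 2 * K)
    linarith
  have i0 : -2 * (2 * X / (L - 1)) = -4 * X / (L - 1) := by ring
  have hC : 0 ≤ K * C3 * (1 + C0) := by positivity
  have f1 : (4 + 2 * K) * e1 ≤ (2 * C2 + 4 + 2 * K + K * C3 * (1 + C0)) * e1 :=
    mul_le_mul_of_nonneg_right (by linarith) p1
  have f2 : (2 * C2) * e2 ≤ (2 * C2 + 4 + 2 * K + K * C3 * (1 + C0)) * e2 :=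
    mul_le_mul_of_nonneg_right (by linarith) p2
  have f3 : (2 * K) * e3 ≤ (2 * C2 + 4 + 2 * K + K * C3 * (1 + C0)) * e3 :=
    mul_le_mul_of_nonneg_right (by linarith) p3
  have f4 : (K * C3 * (1 + C0)) * e4 ≤ (2 * C2 + 4 + 2 * K + K * C3 * (1 + C0)) * e4 :=
    mul_le_mul_of_nonneg_right (by linarith) p4
  have ex : (2 * C2 + 4 + 2 * K + K * C3 * (1 + C0)) * (e1 + e2 + e3 + e4)
      = (2 * C2 + 4 + 2 * K + K * C3 * (1 + C0)) * e1 + (2 * C2 + 4 + 2 * K + K * C3 * (1 + C0)) * e2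
        + (2 * C2 + 4 + 2 * K + K * C3 * (1 + C0)) * e3
        + (2 * C2 + 4 + 2 * K + K * C3 * (1 + C0)) * e4 := by ring
  rw [i0, i1, ex]
  linarith

section Mean

variable {ι : Type} [Fintype ι] [DecidableEq ι]

theorem s7en_trace_HJ (l : ℕ) (σ h : ℝ) (D M : Matrix ι ι ℝ) (u v : ι) :
    (s7H l σ h D u v * s7blk M u v).trace
      = -(σ * h) * (F2 ℝ * B2 ℝ l * s7blk M u v).trace + (s7N1 l σ h D u v * s7blk M u v).trace := by
  have e : s7H l σ h D u v = H0 l σ h + s7N1 l σ h D u v := by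
    unfold s7N1; abel
  rw [e, Matrix.add_mul, Matrix.trace_add]
  congr 1
  unfold H0
  rw [Matrix.smul_mul, Matrix.trace_smul, smul_eq_mul]

theorem s7en_mean (hCent : StS7CentId) (hSwap : StS7SwapId) (σ h ε : ℝ) (R : Finset ι)
    (D : Matrix ι ι ℝ) (Z C0 K C2 C3 : ℝ) (hs : Dᵀ = D) (hc : s7Pi ℝ R * D = D)
    (hrow : ∀ x, (D * D) x x ≤ C0) (hε0 : 0 ≤ ε) (hh : h ^ 2 ≤ 1) (hl : 8 ≤ R.card)
    (hZ : s7opLE D Z) (hK : 0 ≤ K) (hC2 : 0 ≤ C2) (hC3 : 0 ≤ C3) (hC0 : 0 ≤ C0)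
    (hpt : ∀ u ∈ R, ∀ v ∈ R, u ≠ v →
      |s7X (s7Dstep σ h R D u v) - s7X D
        - (-2 * (B2 ℝ R.card * s7blk (D * D) u v).trace
          - 2 * (s7H R.card σ h D u v * s7blk (D * D * D) u v).trace
          + h ^ 2 * (F2 ℝ * s7blk (D * D) u v * F2 ℝ * s7blk (D * D) u v).trace)|
        ≤ K * ((D u u ^ 2 + D v v ^ 2 + D u v ^ 2 + D v u ^ 2)
          + (ε + 1 / (R.card : ℝ)) * ((D * D) u u + (D * D) v v)))
    (hbil : s7avg R (fun u v => s7absq (s7N1 R.card σ h D u v)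
        (fun s => Real.sqrt ((D * D) s s)) (fun s => Real.sqrt ((D * D) s s)) u v) ≤
      C2 * (1 + Real.sqrt (s7T D)) / ((R.card : ℝ) * Real.sqrt R.card) *
        (Real.sqrt (s7sqOn R (fun s => Real.sqrt ((D * D) s s)))
          * Real.sqrt (s7sqOn R (fun s => Real.sqrt ((D * D) s s)))))
    (havg : s7avg R (fun u v => D u u ^ 2 + D v v ^ 2 + D u v ^ 2 + D v u ^ 2) ≤
      C3 / R.card * (s7T D + s7X D / R.card)) :
    s7avg R (fun u v => s7X (s7Dstep σ h R D u v) - s7X D) ≤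
      -4 * s7X D / ((R.card : ℝ) - 1) + 2 * h ^ 2 * s7X D ^ 2 / ((R.card : ℝ) * ((R.card : ℝ) - 1))
      + (2 * C2 + 4 + 2 * K + K * C3 * (1 + C0)) * ((1 + Z ^ 2) * s7X D / (R.card : ℝ) ^ 2
          + (1 + Real.sqrt (s7T D)) * Z * s7X D / ((R.card : ℝ) * Real.sqrt R.card)
          + ε * s7X D / R.card + (1 + s7T D) / R.card) := by
  have hl8 : (8 : ℝ) ≤ R.card := by exact_mod_cast hl
  have hl2 : 2 ≤ R.card := by omega
  have hX0 := s7t_X_nonneg hs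
  have hinv : (0 : ℝ) ≤ 1 / R.card := by positivity
  -- pointwise
  have step1 : s7avg R (fun u v => s7X (s7Dstep σ h R D u v) - s7X D) ≤
      s7avg R (fun u v => (-2) * (B2 ℝ R.card * s7blk (D * D) u v).trace
        + (2 * (σ * h)) * (F2 ℝ * B2 ℝ R.card * s7blk (D * D * D) u v).trace
        + (2 * Z) * s7absq (s7N1 R.card σ h D u v)
            (fun s => Real.sqrt ((D * D) s s)) (fun s => Real.sqrt ((D * D) s s)) u v
        + h ^ 2 * (F2 ℝ * s7blk (D * D) u v * F2 ℝ * s7blk (D * D) u v).trace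
        + K * (D u u ^ 2 + D v v ^ 2 + D u v ^ 2 + D v u ^ 2)
        + (K * (ε + 1 / (R.card : ℝ))) * ((D * D) u u + (D * D) v v)) := by
    refine s7t_avg_mono hl2 (fun u hu v hv huv => ?_)
    have h1 := (abs_le.1 (hpt u hu v hv huv)).2
    have h2 := s7en_trace_HJ R.card σ h D (D * D * D) u v
    have h3 := (abs_le.1 (s7en_trace_NJ hs hZ (s7N1 R.card σ h D u v) u v)).1
    rw [h2] at h1
    linarith
  refine step1.trans ?_
  rw [s7en_avg_lin6]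
  have c1 := (hCent ℝ ι R (D * D) (by omega) (s7t_sq_symm hs) (s7t_sq_cent hc)).2
  have c2 := (hCent ℝ ι R (D * D * D) (by omega) (s7t_cube_symm hs) (s7t_cube_cent hc)).1
  have c4 := s7en_avg_swap hSwap hs hc hZ hl2
  have c6 := s7en_avg_K hs hc hl2
  rw [s7en_sqOn hs hc, Real.mul_self_sqrt hX0] at hbil
  rw [c1, c2, c6]
  have e1 : (D * D).trace = s7X D := rfl
  rw [e1]
  have m3 := mul_le_mul_of_nonneg_left hbil (by have := hZ.1; positivity : 0 ≤ 2 * Z)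
  have m4 := mul_le_mul_of_nonneg_left c4 (sq_nonneg h)
  have m5 := mul_le_mul_of_nonneg_left havg hK
  have ar := s7en_arith1 (R.card : ℝ) (Real.sqrt R.card) (s7X D) (s7T D) (Real.sqrt (s7T D)) Z ε h K
    C2 C3 C0 hl8 (Real.sqrt_pos.2 (by linarith)) hX0 (s7t_X_le hs hc hrow) (s7t_T_nonneg D)
    (Real.sqrt_nonneg _) hZ.1 hε0 hh hK hC2 hC3 hC0
  linarith

end Mean

/-! ## The second moment -/

theorem s7en_avg_lin4 {ι : Type} [DecidableEq ι] (I : Finset ι) (c1 c2 c3 c4 : ℝ)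
    (f1 f2 f3 f4 : ι → ι → ℝ) :
    s7avg I (fun u v => c1 * f1 u v + c2 * f2 u v + c3 * f3 u v + c4 * f4 u v)
      = c1 * s7avg I f1 + c2 * s7avg I f2 + c3 * s7avg I f3 + c4 * s7avg I f4 := by
  unfold s7avg
  simp only [Finset.sum_add_distrib, ← Finset.mul_sum]
  ring

theorem s7en_arith2 (L X T Z Wm C1 C0 : ℝ) (hL : 8 ≤ L) (hX : 0 ≤ X) (hXL : X ≤ C0 * L)
    (hT : 0 ≤ T) (hZ : 0 ≤ Z) (hC1 : 0 ≤ C1) (hC0 : 0 ≤ C0) :
    (2 * Wm ^ 2 + 128 * C1 ^ 2 * C0 ^ 2 * Z ^ 2 * (1 / L) ^ 2) * 1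
      + 64 * C1 ^ 2 * C0 ^ 2 * Z ^ 2 * (T / L) + 64 * C1 ^ 2 * C0 ^ 2 * Z ^ 2 * (T / L)
      + 64 * C1 ^ 2 * (Z ^ 4 * X / (L * (L - 1)))
    ≤ (2 * Wm ^ 2 + 128 * C1 ^ 2 * C0 ^ 2 + 128 * C1 ^ 2 * C0)
      * (1 + Z ^ 4 / L + (1 + T) * Z ^ 2 / L) := by
  have hL0 : 0 < L := by linarith
  have hL1 : 0 < L - 1 := by linarith
  have a1 : (1 / L) ^ 2 ≤ 1 / L := by
    have h1 : 1 / L ≤ 1 := by rw [div_le_one hL0]; linarith
    have h0 : 0 ≤ 1 / L := by positivity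
    nlinarith
  have a2 : Z ^ 4 * X / (L * (L - 1)) ≤ 2 * C0 * (Z ^ 4 / L) := by
    rw [div_le_iff₀ (mul_pos hL0 hL1)]
    have e : 2 * C0 * (Z ^ 4 / L) * (L * (L - 1)) = Z ^ 4 * (2 * C0 * (L - 1)) := by
      field_simp
    rw [e]
    refine mul_le_mul_of_nonneg_left ?_ (by positivity)
    nlinarith
  have b1 : 128 * C1 ^ 2 * C0 ^ 2 * Z ^ 2 * (1 / L) ^ 2 ≤ 128 * C1 ^ 2 * C0 ^ 2 * Z ^ 2 * (1 / L) :=
    mul_le_mul_of_nonneg_left a1 (by positivity)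
  have b2 : 64 * C1 ^ 2 * (Z ^ 4 * X / (L * (L - 1))) ≤ 64 * C1 ^ 2 * (2 * C0 * (Z ^ 4 / L)) :=
    mul_le_mul_of_nonneg_left a2 (by positivity)
  have e3 : (2 * Wm ^ 2 + 128 * C1 ^ 2 * C0 ^ 2 + 128 * C1 ^ 2 * C0)
      * (1 + Z ^ 4 / L + (1 + T) * Z ^ 2 / L)
      - (2 * Wm ^ 2 + 128 * C1 ^ 2 * C0 ^ 2 * Z ^ 2 * (1 / L)
        + 64 * C1 ^ 2 * C0 ^ 2 * Z ^ 2 * (T / L) + 64 * C1 ^ 2 * C0 ^ 2 * Z ^ 2 * (T / L)
        + 64 * C1 ^ 2 * (2 * C0 * (Z ^ 4 / L)))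
      = (128 * C1 ^ 2 * C0 ^ 2 + 128 * C1 ^ 2 * C0)
        + (2 * Wm ^ 2 + 128 * C1 ^ 2 * C0 ^ 2) * (Z ^ 4 / L)
        + (2 * Wm ^ 2 + 128 * C1 ^ 2 * C0) * ((1 + T) * Z ^ 2 / L) := by
    field_simp
    ring
  have p : 0 ≤ (128 * C1 ^ 2 * C0 ^ 2 + 128 * C1 ^ 2 * C0)
        + (2 * Wm ^ 2 + 128 * C1 ^ 2 * C0 ^ 2) * (Z ^ 4 / L)
        + (2 * Wm ^ 2 + 128 * C1 ^ 2 * C0) * ((1 + T) * Z ^ 2 / L) := by positivity
  linarith

section Var

variable {ι : Type} [Fintype ι] [DecidableEq ι]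

theorem s7en_var_point (σ h ε : ℝ) (R : Finset ι) (D : Matrix ι ι ℝ) (Z C0 K C1 : ℝ) (hs : Dᵀ = D)
    (hrow : ∀ x, (D * D) x x ≤ C0) (hent : ∀ x y, |D x y| ≤ ε)
    (hε0 : 0 ≤ ε) (hε1 : ε ≤ 1) (hh : h ^ 2 ≤ 1) (hl : 8 ≤ R.card) (hZ : s7opLE D Z) (hK : 0 ≤ K)
    (hC1 : 0 ≤ C1) (hC0 : 0 ≤ C0) (u v : ι)
    (hp : |s7X (s7Dstep σ h R D u v) - s7X D
        - (-2 * (B2 ℝ R.card * s7blk (D * D) u v).trace
          - 2 * (s7H R.card σ h D u v * s7blk (D * D * D) u v).trace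
          + h ^ 2 * (F2 ℝ * s7blk (D * D) u v * F2 ℝ * s7blk (D * D) u v).trace)|
        ≤ K * ((D u u ^ 2 + D v v ^ 2 + D u v ^ 2 + D v u ^ 2)
          + (ε + 1 / (R.card : ℝ)) * ((D * D) u u + (D * D) v v))) :
    |s7X (s7Dstep σ h R D u v) - s7X D
      + 2 * (s7H R.card σ h D u v * s7blk (D * D * D) u v).trace|
      ≤ 32 * C0 + 64 * C0 ^ 2 + K * (4 + 4 * C0) := by
  have hl8 : (8 : ℝ) ≤ R.card := by exact_mod_cast hl
  have hl3 : 3 ≤ R.card := by omega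
  have hinv : (0 : ℝ) ≤ 1 / R.card := by positivity
  have hinv1 : (1 : ℝ) / R.card ≤ 1 := by rw [div_le_one (by linarith)]; linarith
  have nbK := s7en_nb_K hs u v
  have hnK : (D * D) u u + (D * D) v v ≤ 2 * C0 := by
    have := hrow u
    have := hrow v
    linarith
  have hnK0 := nbK.nonneg
  have b1 := ((s7t_nb_B2 hl3).mul nbK).trace
  have b4 := (((s7t_nb_F2.mul nbK).mul s7t_nb_F2).mul nbK).trace
  set nK := (D * D) u u + (D * D) v v with hnKd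
  set tHJ := (s7H R.card σ h D u v * s7blk (D * D * D) u v).trace with htHJ
  set f1 := (B2 ℝ R.card * s7blk (D * D) u v).trace with hf1
  set f4 := (F2 ℝ * s7blk (D * D) u v * F2 ℝ * s7blk (D * D) u v).trace with hf4
  set dX := s7X (s7Dstep σ h R D u v) - s7X D with hdX
  have sqle : ∀ x y : ι, D x y ^ 2 ≤ 1 := by
    intro x y
    have h1 := hent x y
    have : |D x y| ≤ 1 := h1.trans hε1
    rw [← sq_abs]
    exact pow_le_one₀ (abs_nonneg _) this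
  have hf5 : D u u ^ 2 + D v v ^ 2 + D u v ^ 2 + D v u ^ 2 ≤ 4 := by
    have := sqle u u
    have := sqle v v
    have := sqle u v
    have := sqle v u
    linarith
  have hf6 : (ε + 1 / (R.card : ℝ)) * nK ≤ 2 * (2 * C0) :=
    mul_le_mul (by linarith) hnK hnK0 (by norm_num)
  have hrem : K * ((D u u ^ 2 + D v v ^ 2 + D u v ^ 2 + D v u ^ 2)
        + (ε + 1 / (R.card : ℝ)) * nK) ≤ K * (4 + 4 * C0) :=
    mul_le_mul_of_nonneg_left (by linarith) hK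
  have hb4 : |f4| ≤ 64 * C0 ^ 2 := by
    refine b4.trans ?_
    have : nK * nK ≤ (2 * C0) * (2 * C0) := mul_le_mul hnK hnK hnK0 (by positivity)
    linarith
  have hb4' : |h ^ 2 * f4| ≤ 64 * C0 ^ 2 := by
    rw [abs_mul, abs_of_nonneg (sq_nonneg h)]
    calc h ^ 2 * |f4| ≤ 1 * (64 * C0 ^ 2) := mul_le_mul hh hb4 (abs_nonneg _) (by norm_num)
      _ = 64 * C0 ^ 2 := one_mul _
  rw [abs_le] at hp b1 hb4' ⊢
  constructor <;> linarith [hp.1, hp.2, b1.1, b1.2, hb4'.1, hb4'.2]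

theorem s7en_var_HJ (σ h : ℝ) (R : Finset ι) (D : Matrix ι ι ℝ) (Z C0 C1 : ℝ) (hs : Dᵀ = D)
    (hrow : ∀ x, (D * D) x x ≤ C0) (hZ : s7opLE D Z) (hC1 : 0 ≤ C1) (hC0 : 0 ≤ C0) (u v : ι)
    (nH : s7nb (s7H R.card σ h D u v) C1)
    (h00 : |s7H R.card σ h D u v 0 0| ≤ C1 * (1 / (R.card : ℝ) + |D v v|))
    (h11 : |s7H R.card σ h D u v 1 1| ≤ C1 * (1 / (R.card : ℝ) + |D u u|)) :
    (s7H R.card σ h D u v * s7blk (D * D * D) u v).trace ^ 2 ≤
      4 * (2 * C1 ^ 2 * ((1 / (R.card : ℝ)) ^ 2 + D v v ^ 2) * (Z ^ 2 * C0 ^ 2)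
        + 2 * C1 ^ 2 * ((1 / (R.card : ℝ)) ^ 2 + D u u ^ 2) * (Z ^ 2 * C0 ^ 2)
        + 2 * (C1 ^ 2 * (D * D * D) u v ^ 2)) := by
  have eT := s7en_trace_blk (s7H R.card σ h D u v) (D * D * D) u v
  have hsym : (D * D * D) v u = (D * D * D) u v := s7t_symm_apply (s7t_cube_symm hs) v u
  have jd : ∀ x : ι, (D * D * D) x x ^ 2 ≤ Z ^ 2 * C0 ^ 2 := by
    intro x
    have h1 := s7t_cube_le hs hZ x x
    rw [Real.mul_self_sqrt (s7t_sq_diag_nonneg hs x)] at h1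
    have h2 : |(D * D * D) x x| ≤ Z * C0 :=
      h1.trans (mul_le_mul_of_nonneg_left (hrow x) hZ.1)
    rw [← sq_abs, ← mul_pow]
    exact pow_le_pow_left₀ (abs_nonneg _) h2 2
  have hd : ∀ (p a : ℝ), |p| ≤ C1 * (1 / (R.card : ℝ) + |a|) →
      p ^ 2 ≤ 2 * C1 ^ 2 * ((1 / (R.card : ℝ)) ^ 2 + a ^ 2) := by
    intro p a hpa
    have h1 : p ^ 2 ≤ (C1 * (1 / (R.card : ℝ) + |a|)) ^ 2 := by
      rw [← sq_abs]
      exact pow_le_pow_left₀ (abs_nonneg _) hpa 2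
    have h2 : (1 / (R.card : ℝ) + |a|) ^ 2 ≤ 2 * ((1 / (R.card : ℝ)) ^ 2 + a ^ 2) := by
      have := sq_abs a
      nlinarith [sq_nonneg (1 / (R.card : ℝ) - |a|)]
    calc p ^ 2 ≤ C1 ^ 2 * (1 / (R.card : ℝ) + |a|) ^ 2 := by rw [← mul_pow]; exact h1
      _ ≤ C1 ^ 2 * (2 * ((1 / (R.card : ℝ)) ^ 2 + a ^ 2)) :=
          mul_le_mul_of_nonneg_left h2 (sq_nonneg _)
      _ = _ := by ring
  have ho : ∀ i j, s7H R.card σ h D u v i j ^ 2 ≤ C1 ^ 2 := by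
    intro i j
    rw [← sq_abs]
    exact pow_le_pow_left₀ (abs_nonneg _) (nH i j) 2
  have q := s7en_sq4 (s7H R.card σ h D u v 0 0 * (D * D * D) u u)
    (s7H R.card σ h D u v 0 1 * (D * D * D) v u) (s7H R.card σ h D u v 1 0 * (D * D * D) u v)
    (s7H R.card σ h D u v 1 1 * (D * D * D) v v)
  rw [← eT, hsym] at q
  have t1 : (s7H R.card σ h D u v 0 0 * (D * D * D) u u) ^ 2
      ≤ 2 * C1 ^ 2 * ((1 / (R.card : ℝ)) ^ 2 + D v v ^ 2) * (Z ^ 2 * C0 ^ 2) := by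
    rw [mul_pow]
    exact mul_le_mul (hd _ _ h00) (jd u) (sq_nonneg _) (by positivity)
  have t4 : (s7H R.card σ h D u v 1 1 * (D * D * D) v v) ^ 2
      ≤ 2 * C1 ^ 2 * ((1 / (R.card : ℝ)) ^ 2 + D u u ^ 2) * (Z ^ 2 * C0 ^ 2) := by
    rw [mul_pow]
    exact mul_le_mul (hd _ _ h11) (jd v) (sq_nonneg _) (by positivity)
  have t2 : (s7H R.card σ h D u v 0 1 * (D * D * D) u v) ^ 2 ≤ C1 ^ 2 * (D * D * D) u v ^ 2 := by
    rw [mul_pow]
    exact mul_le_mul_of_nonneg_right (ho 0 1) (sq_nonneg _)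
  have t3 : (s7H R.card σ h D u v 1 0 * (D * D * D) u v) ^ 2 ≤ C1 ^ 2 * (D * D * D) u v ^ 2 := by
    rw [mul_pow]
    exact mul_le_mul_of_nonneg_right (ho 1 0) (sq_nonneg _)
  linarith

theorem s7en_split (dX t Wm : ℝ) (hW : |dX + 2 * t| ≤ Wm) : dX ^ 2 ≤ 2 * Wm ^ 2 + 8 * t ^ 2 := by
  have hW2 : (dX + 2 * t) ^ 2 ≤ Wm ^ 2 := by
    rw [← sq_abs]
    exact pow_le_pow_left₀ (abs_nonneg _) hW 2
  nlinarith [sq_nonneg (dX + 4 * t)]

theorem s7en_var (σ h ε : ℝ) (R : Finset ι) (D : Matrix ι ι ℝ) (Z C0 K C1 : ℝ) (hs : Dᵀ = D)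
    (hc : s7Pi ℝ R * D = D) (hrow : ∀ x, (D * D) x x ≤ C0) (hent : ∀ x y, |D x y| ≤ ε)
    (hε0 : 0 ≤ ε) (hε1 : ε ≤ 1) (hh : h ^ 2 ≤ 1) (hl : 8 ≤ R.card) (hZ : s7opLE D Z) (hK : 0 ≤ K)
    (hC1 : 0 ≤ C1) (hC0 : 0 ≤ C0)
    (hpt : ∀ u ∈ R, ∀ v ∈ R, u ≠ v →
      |s7X (s7Dstep σ h R D u v) - s7X D
        - (-2 * (B2 ℝ R.card * s7blk (D * D) u v).trace
          - 2 * (s7H R.card σ h D u v * s7blk (D * D * D) u v).trace
          + h ^ 2 * (F2 ℝ * s7blk (D * D) u v * F2 ℝ * s7blk (D * D) u v).trace)|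
        ≤ K * ((D u u ^ 2 + D v v ^ 2 + D u v ^ 2 + D v u ^ 2)
          + (ε + 1 / (R.card : ℝ)) * ((D * D) u u + (D * D) v v)))
    (hH : ∀ u ∈ R, ∀ v ∈ R, u ≠ v → s7nb (s7H R.card σ h D u v) C1 ∧
      |s7H R.card σ h D u v 0 0| ≤ C1 * (1 / (R.card : ℝ) + |D v v|) ∧
      |s7H R.card σ h D u v 1 1| ≤ C1 * (1 / (R.card : ℝ) + |D u u|)) :
    s7avg R (fun u v => (s7X (s7Dstep σ h R D u v) - s7X D) ^ 2) ≤
      (2 * (32 * C0 + 64 * C0 ^ 2 + K * (4 + 4 * C0)) ^ 2 + 128 * C1 ^ 2 * C0 ^ 2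
        + 128 * C1 ^ 2 * C0) * (1 + Z ^ 4 / R.card + (1 + s7T D) * Z ^ 2 / R.card) := by
  have hl8 : (8 : ℝ) ≤ R.card := by exact_mod_cast hl
  have hl2 : 2 ≤ R.card := by omega
  have hX0 := s7t_X_nonneg hs
  set Wm := 32 * C0 + 64 * C0 ^ 2 + K * (4 + 4 * C0) with hWm
  have step1 : s7avg R (fun u v => (s7X (s7Dstep σ h R D u v) - s7X D) ^ 2) ≤
      s7avg R (fun u v => (2 * Wm ^ 2 + 128 * C1 ^ 2 * C0 ^ 2 * Z ^ 2 * (1 / (R.card : ℝ)) ^ 2) * 1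
        + (64 * C1 ^ 2 * C0 ^ 2 * Z ^ 2) * (D v v ^ 2) + (64 * C1 ^ 2 * C0 ^ 2 * Z ^ 2) * (D u u ^ 2)
        + (64 * C1 ^ 2) * ((D * D * D) u v ^ 2)) := by
    refine s7t_avg_mono hl2 (fun u hu v hv huv => ?_)
    obtain ⟨nH, h00, h11⟩ := hH u hu v hv huv
    have hW := s7en_var_point σ h ε R D Z C0 K C1 hs hrow hent hε0 hε1 hh hl hZ hK hC1 hC0 u v
      (hpt u hu v hv huv)
    have hT := s7en_var_HJ σ h R D Z C0 C1 hs hrow hZ hC1 hC0 u v nH h00 h11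
    have hS := s7en_split _ _ _ hW
    linarith
  refine step1.trans ?_
  rw [s7en_avg_lin4, s7t_avg_const hl2, s7t_avg_snd hl2, s7t_avg_fst hl2]
  have d1 : (∑ u ∈ R, D u u ^ 2) / (R.card : ℝ) ≤ s7T D / R.card :=
    div_le_div_of_nonneg_right (s7t_sum_diag_sq_le D R) (by positivity)
  have d2 : s7avg R (fun u v => (D * D * D) u v ^ 2)
      ≤ Z ^ 4 * s7X D / ((R.card : ℝ) * ((R.card : ℝ) - 1)) :=
    (s7t_avg_le_full hl2 _ (fun u v => sq_nonneg _)).trans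
      (div_le_div_of_nonneg_right (s7t_cube_fro hs hZ) (s7t_den_pos hl2).le)
  have m1 := mul_le_mul_of_nonneg_left d1 (by positivity : 0 ≤ 64 * C1 ^ 2 * C0 ^ 2 * Z ^ 2)
  have m2 := mul_le_mul_of_nonneg_left d2 (by positivity : 0 ≤ 64 * C1 ^ 2)
  have ar := s7en_arith2 (R.card : ℝ) (s7X D) (s7T D) Z Wm C1 C0 hl8 hX0 (s7t_X_le hs hc hrow)
    (s7t_T_nonneg D) hZ.1 hC1 hC0
  linarith

end Var

/-- **S7-STEP-13** the energy step. -/
theorem s7_energyStep (hId : StS7EnergyId) (hCent : StS7CentId) (hSwap : StS7SwapId)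
    (hPt : StS7CoefPt) (hBil : StS7Bilin) (hAvg : StS7AvgBasic) : StS7EnergyStep := by
  intro hmin C0 hhmin hC0
  obtain ⟨C1, ε1, l1, hC1, hε1, hP⟩ := hPt hmin C0 hhmin hC0
  obtain ⟨C2, ε2, l2, hC2, hε2, hB⟩ := hBil hmin C0 hhmin hC0
  obtain ⟨C3, hC3, hA⟩ := hAvg
  obtain ⟨K, hK, hpoint⟩ := s7en_point hId C1 C0 hC1.le hC0.le
  set Ca := 2 * C2 + 4 + 2 * K + K * C3 * (1 + C0) with hCa
  set Cb := 2 * (32 * C0 + 64 * C0 ^ 2 + K * (4 + 4 * C0)) ^ 2 + 128 * C1 ^ 2 * C0 ^ 2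
        + 128 * C1 ^ 2 * C0 with hCb
  have hCa0 : 0 < Ca := by positivity
  have hCb0 : 0 ≤ Cb := by positivity
  refine ⟨Ca + Cb, min (min ε1 ε2) 1, max (max l1 l2) 8, by positivity,
    lt_min (lt_min hε1 hε2) one_pos, ?_⟩
  intro ι _ _ σ h ε R D hbase hε hl Z hZ
  have hεa : ε ≤ ε1 := hε.trans ((min_le_left _ _).trans (min_le_left _ _))
  have hεb : ε ≤ ε2 := hε.trans ((min_le_left _ _).trans (min_le_right _ _))
  have hεc : ε ≤ 1 := hε.trans (min_le_right _ _)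
  have hla : l1 ≤ R.card := le_trans ((le_max_left _ _).trans (le_max_left _ _)) hl
  have hlb : l2 ≤ R.card := le_trans ((le_max_right _ _).trans (le_max_left _ _)) hl
  have hl8 : 8 ≤ R.card := le_trans (le_max_right _ _) hl
  have hs := hbase.symm
  have hc := hbase.cent
  have hrow := hbase.row
  have hent := hbase.ent
  have hh0 : 0 < h := lt_of_lt_of_le hhmin hbase.h_lo
  have hh1 : h ≤ 3 / 4 := hbase.h_hi
  have hh2 : h ^ 2 ≤ 1 := by nlinarith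
  have hσ2 : σ ^ 2 = 1 := by
    rcases hbase.sig with e | e <;> rw [e] <;> norm_num
  have hσh : |σ * h| ≤ 1 := by
    rcases hbase.sig with e | e
    · rw [e, one_mul, abs_of_pos hh0]; linarith
    · rw [e, neg_one_mul, abs_neg, abs_of_pos hh0]; linarith
  have hRne : R.Nonempty := Finset.card_pos.mp (by omega)
  obtain ⟨w, _⟩ := hRne
  have hε0 : 0 ≤ ε := (abs_nonneg _).trans (hent w w)
  have hall : S7Allowed R R := ⟨Finset.Subset.refl _, by omega⟩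
  have hpt : ∀ u ∈ R, ∀ v ∈ R, u ≠ v →
      |s7X (s7Dstep σ h R D u v) - s7X D
        - (-2 * (B2 ℝ R.card * s7blk (D * D) u v).trace
          - 2 * (s7H R.card σ h D u v * s7blk (D * D * D) u v).trace
          + h ^ 2 * (F2 ℝ * s7blk (D * D) u v * F2 ℝ * s7blk (D * D) u v).trace)|
        ≤ K * ((D u u ^ 2 + D v v ^ 2 + D u v ^ 2 + D v u ^ 2)
          + (ε + 1 / (R.card : ℝ)) * ((D * D) u u + (D * D) v v)) := by
    intro u hu v hv huv
    have q := hP ι σ h ε R D hbase hεa hla u hu v hv huv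
    exact hpoint ι σ h ε R D u v hs hc hrow hent hεc hσh hσ2 (by omega) hu hv huv q.2.1
      q.2.2.2.2.2.1
  have hH : ∀ u ∈ R, ∀ v ∈ R, u ≠ v → s7nb (s7H R.card σ h D u v) C1 ∧
      |s7H R.card σ h D u v 0 0| ≤ C1 * (1 / (R.card : ℝ) + |D v v|) ∧
      |s7H R.card σ h D u v 1 1| ≤ C1 * (1 / (R.card : ℝ) + |D u u|) := by
    intro u hu v hv huv
    have q := hP ι σ h ε R D hbase hεa hla u hu v hv huv
    exact ⟨q.2.1, q.2.2.2.1, q.2.2.2.2.1⟩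
  have hbil := (hB ι σ h ε R R D (fun s => Real.sqrt ((D * D) s s))
    (fun s => Real.sqrt ((D * D) s s)) hbase hεb hlb hall (fun s => Real.sqrt_nonneg _)
    (fun s => Real.sqrt_nonneg _)).1
  have havg := (hA ι R R (fun _ => 0) (fun _ => 0) D hl8 hall (fun _ => le_refl _)
    (fun _ => le_refl _) hs).2.2.2
  have m := s7en_mean hCent hSwap σ h ε R D Z C0 K C2 C3 hs hc hrow hε0 hh2 hl8 hZ hK hC2.le hC3.le
    hC0.le hpt hbil havg
  have vv := s7en_var σ h ε R D Z C0 K C1 hs hc hrow hent hε0 hεc hh2 hl8 hZ hK hC1.le hC0.le hpt hH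
  have hX0 := s7t_X_nonneg hs
  have hT0 := s7t_T_nonneg D
  have hZ0 := hZ.1
  have hL : (0 : ℝ) < R.card := by
    have : (8 : ℝ) ≤ R.card := by exact_mod_cast hl8
    linarith
  constructor
  · refine m.trans ?_
    have e0 : 0 ≤ (1 + Z ^ 2) * s7X D / (R.card : ℝ) ^ 2
          + (1 + Real.sqrt (s7T D)) * Z * s7X D / ((R.card : ℝ) * Real.sqrt R.card)
          + ε * s7X D / R.card + (1 + s7T D) / R.card := by positivity
    have := mul_le_mul_of_nonneg_right (by linarith : Ca ≤ Ca + Cb) e0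
    linarith
  · refine vv.trans ?_
    have e0 : 0 ≤ 1 + Z ^ 4 / R.card + (1 + s7T D) * Z ^ 2 / R.card := by positivity
    exact mul_le_mul_of_nonneg_right (by linarith : Cb ≤ Ca + Cb) e0

end Claimed.Agent.R275
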