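import Claimed.Agent.R275.S7RowShift

/-!
# Row 275, Section 7, leaf S7-ENTRY-JUMP: exceptional events, explicit constants

Prover: helper102.  Prefix `s7ej_`.  Statement `StS7EntryJump` in `R275/S7Step.lean` (helper245).
`ΔE = -(Iᵀe₁)ᵀ H (Iᵀw₂) - (Iᵀp₁)ᵀ H (Iᵀe₂) + (Iᵀp₁)ᵀ H (A - Â) Ĥ (Iᵀp₂)`, `e = w - p`, and `|H_ab|, |Ĥ_ab| ≤ 1`.
-/

set_option autoImplicit false
set_option linter.unusedSectionVars false
set_option linter.unusedVariables false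

namespace Claimed.Agent.R275

open Matrix

/-- the telescoping form of (7.55), abstract -/
theorem s7ej_tel (H Hh X : Matrix (Fin 2) (Fin 2) ℝ) (hX : H - Hh = -X) (w1 w2 p1 p2 : Fin 2 → ℝ) :
    -(s7q H w1 w2) + s7q Hh p1 p2
      = -(s7q H (w1 - p1) w2) - s7q H p1 (w2 - p2) + s7q X p1 p2 := by
  have e : Hh = H + X := by
    rw [← sub_eq_zero, ← neg_eq_zero]
    have : -(Hh - (H + X)) = (H - Hh) + X := by abel
    rw [this, hX]; abel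
  rw [e]
  simp only [s7q, dotProduct, Matrix.mulVec, Fin.sum_univ_two, Pi.sub_apply, Matrix.add_apply]
  ring

/-- **S7-STEP-19**. -/
theorem s7_entryJump : StS7EntryJump := by
  intro hmin C0 hhmin hC0
  obtain ⟨C1, ε1, l1, hC1, hε1, hP⟩ := s7_coefOne hmin C0 hhmin hC0
  obtain ⟨C2, ε2, l2, hC2, hε2, hU⟩ := s7_coefPt hmin C0 hhmin hC0
  refine ⟨min ε1 ε2, max l1 l2, lt_min hε1 hε2, ?_⟩
  intro ι _ _ σ h ε R D Dh w₁ w₂ p₁ p₂ b₁ b₂ b₃ mw mp₁ mp₂ hbase hbaseh hε hl u hu v hv huv hx hD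
  have hεa : ε ≤ ε1 := hε.trans (min_le_left _ _)
  have hεb : ε ≤ ε2 := hε.trans (min_le_right _ _)
  have hla : l1 ≤ R.card := le_trans (le_max_left _ _) hl
  have hlb : l2 ≤ R.card := le_trans (le_max_right _ _) hl
  have nH : s7nb (s7H R.card σ h D u v) 1 := hP ι σ h ε R D hbase hεa hla u hu v hv huv
  have nHh : s7nb (s7H R.card σ h Dh u v) 1 := hP ι σ h ε R Dh hbaseh hεa hla u hu v hv huv
  have uH := (hU ι σ h ε R D hbase hεb hlb u hu v hv huv).1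
  have uHh := (hU ι σ h ε R Dh hbaseh hεb hlb u hu v hv huv).1
  have hdiff := s7_hDiff ℝ ι R.card σ h D Dh u v uH uHh
  have nA : s7nb (s7blk D u v - s7blk Dh u v) b₃ := by
    intro i j
    rw [Matrix.sub_apply]
    unfold s7blk
    refine hD _ _ ?_ ?_
    · by_cases hi : i = 0 <;> simp [hi]
    · by_cases hj : j = 0 <;> simp [hj]
  have nX := (nH.mul nA).mul nHh
  unfold s7dE
  rw [s7ej_tel _ _ _ hdiff]
  obtain ⟨u1, u2, u3, u4, u5⟩ := hx u (Or.inl rfl)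
  obtain ⟨v1, v2, v3, v4, v5⟩ := hx v (Or.inr rfl)
  have q1 := s7rs_q_le nH (s7pv w₁ u v - s7pv p₁ u v) (s7pv w₂ u v)
  have q2 := s7rs_q_le nH (s7pv p₁ u v) (s7pv w₂ u v - s7pv p₂ u v)
  have q3 := s7rs_q_le nX (s7pv p₁ u v) (s7pv p₂ u v)
  have hb1 : 0 ≤ b₁ := (abs_nonneg _).trans u1
  have hb2 : 0 ≤ b₂ := (abs_nonneg _).trans u2
  have hb3 : 0 ≤ b₃ := nA.nonneg
  have hmw : 0 ≤ mw := (abs_nonneg _).trans u3
  have hmp1 : 0 ≤ mp₁ := (abs_nonneg _).trans u4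
  have hmp2 : 0 ≤ mp₂ := (abs_nonneg _).trans u5
  have s1 : |(s7pv w₁ u v - s7pv p₁ u v) 0| + |(s7pv w₁ u v - s7pv p₁ u v) 1| ≤ 2 * b₁ := by
    have e0 : (s7pv w₁ u v - s7pv p₁ u v) 0 = w₁ u - p₁ u := rfl
    have e1 : (s7pv w₁ u v - s7pv p₁ u v) 1 = w₁ v - p₁ v := rfl
    rw [e0, e1]; linarith
  have s2 : |(s7pv w₂ u v - s7pv p₂ u v) 0| + |(s7pv w₂ u v - s7pv p₂ u v) 1| ≤ 2 * b₂ := by
    have e0 : (s7pv w₂ u v - s7pv p₂ u v) 0 = w₂ u - p₂ u := rfl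
    have e1 : (s7pv w₂ u v - s7pv p₂ u v) 1 = w₂ v - p₂ v := rfl
    rw [e0, e1]; linarith
  have s3 : |s7pv w₂ u v 0| + |s7pv w₂ u v 1| ≤ 2 * mw := by
    have e0 : s7pv w₂ u v 0 = w₂ u := rfl
    have e1 : s7pv w₂ u v 1 = w₂ v := rfl
    rw [e0, e1]; linarith
  have s4 : |s7pv p₁ u v 0| + |s7pv p₁ u v 1| ≤ 2 * mp₁ := by
    have e0 : s7pv p₁ u v 0 = p₁ u := rfl
    have e1 : s7pv p₁ u v 1 = p₁ v := rfl
    rw [e0, e1]; linarith
  have s5 : |s7pv p₂ u v 0| + |s7pv p₂ u v 1| ≤ 2 * mp₂ := by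
    have e0 : s7pv p₂ u v 0 = p₂ u := rfl
    have e1 : s7pv p₂ u v 1 = p₂ v := rfl
    rw [e0, e1]; linarith
  have m1 := mul_le_mul s1 s3 (by positivity) (by positivity)
  have m2 := mul_le_mul s4 s2 (by positivity) (by positivity)
  have m3 := mul_le_mul s4 s5 (by positivity) (by positivity)
  have m3' := mul_le_mul_of_nonneg_left m3 (by positivity : 0 ≤ 2 * (2 * 1 * b₃) * 1)
  have a1 := abs_add_le (-(s7q (s7H R.card σ h D u v) (s7pv w₁ u v - s7pv p₁ u v) (s7pv w₂ u v))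
      - s7q (s7H R.card σ h D u v) (s7pv p₁ u v) (s7pv w₂ u v - s7pv p₂ u v))
    (s7q (s7H R.card σ h D u v * (s7blk D u v - s7blk Dh u v) * s7H R.card σ h Dh u v)
      (s7pv p₁ u v) (s7pv p₂ u v))
  have a2 := abs_sub (-(s7q (s7H R.card σ h D u v) (s7pv w₁ u v - s7pv p₁ u v) (s7pv w₂ u v)))
    (s7q (s7H R.card σ h D u v) (s7pv p₁ u v) (s7pv w₂ u v - s7pv p₂ u v))
  rw [abs_neg] at a2
  linarith

end Claimed.Agent.R275
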