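import Claimed.Agent.R275.S7CoefC
import Claimed.Agent.R275.S7EntryJump

/-!
# Row 275, Section 7, leaf S7-ENTRY-A: entry comparison in Phase A on ordinary events

Prover: helper102.  Prefix `s7ea_`.  Statements `StS7EntryMeanA`, `StS7EntryVarA` in `R275/S7Step.lean` (helper245).
`ΔE = -q(H, w₁, w₂) + q(Ĥ, p₁, p₂)`, `H = H₀ - H₀ A H₀ + N₂`.
* zero-`A` and single-`A` terms: each of the two separately, `|∑ q(H₀ - H₀AH₀, x, y)| ≤ C (1 + |Y| + Z)`;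
* `N₂ = H₀ A H A H₀`: telescoping.
All sums are raw sums over ordered pairs (`s7ea_S`), divided by `|I| (|I| - 1) ≥ l² / 6` at the end.
-/

set_option autoImplicit false
set_option linter.unusedSectionVars false
set_option linter.unusedVariables false

namespace Claimed.Agent.R275

open Matrix

/-! ## raw sums over ordered pairs -/

section Raw

variable {ι : Type} [DecidableEq ι]

/-- the raw sum over ordered pairs of distinct elements -/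
def s7ea_S (I : Finset ι) (f : ι → ι → ℝ) : ℝ := ∑ u ∈ I, ∑ v ∈ I.erase u, f u v

theorem s7ea_avg_eq (I : Finset ι) (f : ι → ι → ℝ) :
    s7avg I f = s7ea_S I f / ((I.card : ℝ) * ((I.card : ℝ) - 1)) := rfl

theorem s7ea_S_add (I : Finset ι) (f g : ι → ι → ℝ) :
    s7ea_S I (fun u v => f u v + g u v) = s7ea_S I f + s7ea_S I g := by
  unfold s7ea_S
  simp only [Finset.sum_add_distrib]

theorem s7ea_S_smul (I : Finset ι) (c : ℝ) (f : ι → ι → ℝ) :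
    s7ea_S I (fun u v => c * f u v) = c * s7ea_S I f := by
  unfold s7ea_S
  simp only [Finset.mul_sum]

theorem s7ea_S_mono {I : Finset ι} {f g : ι → ι → ℝ}
    (h : ∀ u ∈ I, ∀ v ∈ I, u ≠ v → f u v ≤ g u v) : s7ea_S I f ≤ s7ea_S I g := by
  unfold s7ea_S
  refine Finset.sum_le_sum (fun u hu => Finset.sum_le_sum (fun v hv => ?_))
  exact h u hu v (Finset.mem_of_mem_erase hv) (Finset.ne_of_mem_erase hv).symm

theorem s7ea_S_congr {I : Finset ι} {f g : ι → ι → ℝ}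
    (h : ∀ u ∈ I, ∀ v ∈ I, u ≠ v → f u v = g u v) : s7ea_S I f = s7ea_S I g :=
  le_antisymm (s7ea_S_mono (fun u hu v hv huv => (h u hu v hv huv).le))
    (s7ea_S_mono (fun u hu v hv huv => (h u hu v hv huv).ge))

theorem s7ea_S_abs_le {I : Finset ι} {f g : ι → ι → ℝ}
    (h : ∀ u ∈ I, ∀ v ∈ I, u ≠ v → |f u v| ≤ g u v) : |s7ea_S I f| ≤ s7ea_S I g := by
  unfold s7ea_S
  refine (Finset.abs_sum_le_sum_abs _ _).trans (Finset.sum_le_sum (fun u hu => ?_))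
  refine (Finset.abs_sum_le_sum_abs _ _).trans (Finset.sum_le_sum (fun v hv => ?_))
  exact h u hu v (Finset.mem_of_mem_erase hv) (Finset.ne_of_mem_erase hv).symm

theorem s7ea_S_cross (I : Finset ι) (x y : ι → ℝ) :
    s7ea_S I (fun u v => x u * y v) = (∑ u ∈ I, x u) * (∑ v ∈ I, y v) - ∑ u ∈ I, x u * y u := by
  unfold s7ea_S
  rw [Finset.sum_mul, ← Finset.sum_sub_distrib]
  refine Finset.sum_congr rfl (fun u hu => ?_)
  rw [← Finset.mul_sum, ← Finset.add_sum_erase I y hu]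
  ring

theorem s7ea_S_cross_le (I : Finset ι) (x y : ι → ℝ) (hx : ∀ s, 0 ≤ x s) (hy : ∀ s, 0 ≤ y s) :
    s7ea_S I (fun u v => x u * y v) ≤ (∑ u ∈ I, x u) * (∑ v ∈ I, y v) := by
  rw [s7ea_S_cross]
  have : 0 ≤ ∑ u ∈ I, x u * y u := Finset.sum_nonneg (fun u _ => mul_nonneg (hx u) (hy u))
  linarith

theorem s7ea_S_fst_le (I : Finset ι) (x : ι → ℝ) (hx : ∀ s, 0 ≤ x s) :
    s7ea_S I (fun u _ => x u) ≤ (I.card : ℝ) * ∑ u ∈ I, x u := by
  have h := s7ea_S_cross_le I x (fun _ => 1) hx (fun _ => zero_le_one)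
  simp only [mul_one, Finset.sum_const, nsmul_eq_mul] at h
  linarith

theorem s7ea_S_snd_le (I : Finset ι) (x : ι → ℝ) (hx : ∀ s, 0 ≤ x s) :
    s7ea_S I (fun _ v => x v) ≤ (I.card : ℝ) * ∑ u ∈ I, x u := by
  have h := s7ea_S_cross_le I (fun _ => 1) x (fun _ => zero_le_one) hx
  simp only [one_mul, Finset.sum_const, nsmul_eq_mul, mul_one] at h
  linarith

theorem s7ea_avg_abs_le {R I : Finset ι} (hA : S7Allowed R I) (hl : 8 ≤ R.card) (f : ι → ι → ℝ)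
    (B : ℝ) (hB : |s7ea_S I f| ≤ B) : |s7avg I f| ≤ 6 * B / (R.card : ℝ) ^ 2 := by
  have hB0 : 0 ≤ B := (abs_nonneg _).trans hB
  have h1 := s7cc_avg_le hA hl f B hB0 ((le_abs_self _).trans hB)
  have h2 := s7cc_avg_le hA hl (fun u v => -f u v) B hB0 (by
    have : ∑ u ∈ I, ∑ v ∈ I.erase u, -f u v = -s7ea_S I f := by
      unfold s7ea_S
      simp only [Finset.sum_neg_distrib]
    rw [this]
    exact (neg_le_abs _).trans hB)
  have h3 : s7avg I (fun u v => -f u v) = -s7avg I f := by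
    unfold s7avg
    simp only [Finset.sum_neg_distrib, neg_div]
  rw [h3] at h2
  rw [abs_le]
  constructor <;> linarith

end Raw

/-! ## centred arrays, omitted coordinates -/

section Sums

variable {ι : Type} [Fintype ι] [DecidableEq ι]

theorem s7ea_cent_sum {R : Finset ι} {r : ι → ℝ} (hr : S7Cent R r) (hR : R.Nonempty) :
    ∑ x ∈ R, r x = 0 := by
  obtain ⟨u, hu⟩ := hR
  have hc : (R.card : ℝ) ≠ 0 := by
    have : 0 < R.card := Finset.card_pos.mpr ⟨u, hu⟩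
    positivity
  have h1 : (s7Pi ℝ R *ᵥ r) u = r u := by rw [hr]
  have h2 : (s7Pi ℝ R *ᵥ r) u = r u - (R.card : ℝ)⁻¹ * ∑ x ∈ R, r x := by
    simp only [Matrix.mulVec, dotProduct, s7a_Pi_apply_left hu, sub_mul, Finset.sum_sub_distrib,
      s7one]
    congr 1
    · simp
    · rw [Finset.mul_sum, ← Finset.sum_filter_add_sum_filter_not Finset.univ (fun x => x ∈ R)]
      have e1 : ∑ x ∈ Finset.univ.filter (fun x => ¬ x ∈ R),
          (R.card : ℝ)⁻¹ * (if x ∈ R then 1 else 0) * r x = 0 := by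
        refine Finset.sum_eq_zero (fun x hx => ?_)
        simp [(Finset.mem_filter.1 hx).2]
      rw [e1, add_zero]
      have e2 : Finset.univ.filter (fun x => x ∈ R) = R := by ext x; simp
      rw [e2]
      refine Finset.sum_congr rfl (fun x hx => ?_)
      simp [hx]
  rw [h2] at h1
  have h3 : (R.card : ℝ)⁻¹ * ∑ x ∈ R, r x = 0 := by linarith
  rcases mul_eq_zero.1 h3 with h4 | h4
  · exact absurd h4 (inv_ne_zero hc)
  · exact h4

/-- omitting at most four coordinates -/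
theorem s7ea_omit {R I : Finset ι} (hall : S7Allowed R I) (f : ι → ℝ) {c : ℝ} (hc0 : 0 ≤ c)
    (hb : ∀ x, |f x| ≤ c) : |∑ x ∈ I, f x| ≤ |∑ x ∈ R, f x| + 4 * c := by
  have e := Finset.sum_sdiff (f := f) hall.1
  have hcard : (R \ I).card ≤ 4 := by
    have := Finset.card_sdiff_add_card_eq_card hall.1
    have := hall.2
    omega
  have h1 : |∑ x ∈ R \ I, f x| ≤ 4 * c := by
    refine (Finset.abs_sum_le_sum_abs _ _).trans ?_
    refine (Finset.sum_le_sum (fun x _ => hb x)).trans ?_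
    rw [Finset.sum_const, nsmul_eq_mul]
    have : ((R \ I).card : ℝ) ≤ 4 := by exact_mod_cast hcard
    exact mul_le_mul_of_nonneg_right this hc0
  have e2 : ∑ x ∈ I, f x = ∑ x ∈ R, f x - ∑ x ∈ R \ I, f x := by linarith
  rw [e2]
  exact (abs_sub _ _).trans (by linarith)

theorem s7ea_sum_I {R I : Finset ι} (hall : S7Allowed R I) (hR : R.Nonempty) {r : ι → ℝ}
    (hr : S7Cent R r) {c : ℝ} (hc0 : 0 ≤ c) (hb : ∀ x, |r x| ≤ c) : |∑ x ∈ I, r x| ≤ 4 * c := by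
  have h := s7ea_omit hall r hc0 hb
  rw [s7ea_cent_sum hr hR, abs_zero, zero_add] at h
  exact h

theorem s7ea_diag_I {R I : Finset ι} (hall : S7Allowed R I) {D : Matrix ι ι ℝ}
    (hc : s7Pi ℝ R * D = D) {ε : ℝ} (hε0 : 0 ≤ ε) (hent : ∀ x y, |D x y| ≤ ε) :
    |∑ x ∈ I, D x x| ≤ |s7Y D| + 4 * ε := by
  have h := s7ea_omit hall (fun x => D x x) hε0 (fun x => hent x x)
  have e : ∑ x ∈ R, D x x = s7Y D := by
    unfold s7Y Matrix.trace
    refine Finset.sum_subset (Finset.subset_univ R) (fun x _ hx => ?_)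
    exact s7t_row_zero hc hx x
  rwa [e] at h

theorem s7ea_sqOn_le (I : Finset ι) (x : ι → ℝ) : ∑ u ∈ I, x u ^ 2 ≤ s7sq x := by
  unfold s7sq dotProduct
  refine (Finset.sum_le_sum_of_subset_of_nonneg (Finset.subset_univ I)
    (fun i _ _ => sq_nonneg _)).trans (le_of_eq (Finset.sum_congr rfl (fun i _ => ?_)))
  ring

theorem s7ea_dot_I (I : Finset ι) (x y : ι → ℝ) {c : ℝ} (hx : s7sq x ≤ c) (hy : s7sq y ≤ c) :
    ∑ u ∈ I, |x u * y u| ≤ c := by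
  have h1 := s7ea_sqOn_le I x
  have h2 := s7ea_sqOn_le I y
  have h3 : ∑ u ∈ I, |x u * y u| ≤ ∑ u ∈ I, (x u ^ 2 + y u ^ 2) / 2 := by
    refine Finset.sum_le_sum (fun u _ => ?_)
    rw [abs_le]
    constructor <;> nlinarith [sq_nonneg (x u - y u), sq_nonneg (x u + y u)]
  rw [← Finset.sum_div, Finset.sum_add_distrib] at h3
  linarith

/-- the restricted bilinear form -/
theorem s7ea_bil {D : Matrix ι ι ℝ} {Z : ℝ} (hZ : s7opLE D Z) (I : Finset ι) (x y : ι → ℝ) {c : ℝ}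
    (hx : s7sq x ≤ c) (hy : s7sq y ≤ c) : |∑ u ∈ I, ∑ v ∈ I, x u * D u v * y v| ≤ Z * c := by
  set xI : ι → ℝ := fun s => if s ∈ I then x s else 0 with hxI
  set yI : ι → ℝ := fun s => if s ∈ I then y s else 0 with hyI
  have hsq : ∀ z : ι → ℝ, s7sq (fun s => if s ∈ I then z s else 0) ≤ s7sq z := by
    intro z
    unfold s7sq dotProduct
    refine Finset.sum_le_sum (fun i _ => ?_)
    by_cases hi : i ∈ I
    · simp [hi]
    · simp only [hi, if_false, mul_zero]; exact mul_self_nonneg _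
  have e : ∑ u ∈ I, ∑ v ∈ I, x u * D u v * y v = xI ⬝ᵥ (D *ᵥ yI) := by
    simp only [dotProduct, Matrix.mulVec, hxI, hyI]
    rw [← Finset.sum_subset (Finset.subset_univ I) (fun u _ hu => by simp [hu])]
    refine Finset.sum_congr rfl (fun u hu => ?_)
    rw [if_pos hu, Finset.mul_sum,
      ← Finset.sum_subset (Finset.subset_univ I) (fun v _ hv => by simp [hv])]
    refine Finset.sum_congr rfl (fun v hv => ?_)
    rw [if_pos hv]; ring
  rw [e]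
  have c0 : 0 ≤ c := (s7t_sq_nonneg x).trans hx
  have h1 := s7t_cs xI (D *ᵥ yI)
  have h2 := s7t_op_sqrt hZ yI
  have h3 : Real.sqrt (s7sq xI) ≤ Real.sqrt c := Real.sqrt_le_sqrt ((hsq x).trans hx)
  have h4 : Real.sqrt (s7sq yI) ≤ Real.sqrt c := Real.sqrt_le_sqrt ((hsq y).trans hy)
  calc |xI ⬝ᵥ (D *ᵥ yI)| ≤ Real.sqrt (s7sq xI) * Real.sqrt (s7sq (D *ᵥ yI)) := h1
    _ ≤ Real.sqrt c * (Z * Real.sqrt c) :=
        mul_le_mul h3 (h2.trans (mul_le_mul_of_nonneg_left h4 hZ.1)) (Real.sqrt_nonneg _)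
          (Real.sqrt_nonneg _)
    _ = Z * c := by
        have := Real.mul_self_sqrt c0
        linear_combination Z * this

end Sums

/-! ## abstract `2 × 2` algebra -/

section Two

theorem s7ea_q_add (X Y : Matrix (Fin 2) (Fin 2) ℝ) (a b : Fin 2 → ℝ) :
    s7q (X + Y) a b = s7q X a b + s7q Y a b := by
  simp only [s7q, dotProduct, Matrix.mulVec, Fin.sum_univ_two, Matrix.add_apply]
  ring

theorem s7ea_q_sub (X Y : Matrix (Fin 2) (Fin 2) ℝ) (a b : Fin 2 → ℝ) :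
    s7q (X - Y) a b = s7q X a b - s7q Y a b := by
  simp only [s7q, dotProduct, Matrix.mulVec, Fin.sum_univ_two, Matrix.sub_apply]
  ring

theorem s7ea_q_smul (c : ℝ) (X : Matrix (Fin 2) (Fin 2) ℝ) (a b : Fin 2 → ℝ) :
    s7q (c • X) a b = c * s7q X a b := by
  simp only [s7q, dotProduct, Matrix.mulVec, Fin.sum_univ_two, Matrix.smul_apply, smul_eq_mul]
  ring

theorem s7ea_q_F (a b : Fin 2 → ℝ) : s7q (F2 ℝ) a b = a 0 * b 1 + a 1 * b 0 := by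
  simp [s7q, dotProduct, Matrix.mulVec, Fin.sum_univ_two, F2]

/-- zero-`A` and single-`A` terms: the pure swap parts and an `O(1/l)` kernel -/
theorem s7ea_lin_point {l : ℕ} (hl : 3 ≤ l) (σ h : ℝ) (hσh : |σ * h| ≤ 1) (hσ : σ ^ 2 = 1)
    {A : Matrix (Fin 2) (Fin 2) ℝ} (hA : s7nb A 1) (a b : Fin 2 → ℝ) :
    |s7q (H0 l σ h - H0 l σ h * A * H0 l σ h) a b
        - (-(σ * h) * (a 0 * b 1 + a 1 * b 0) - h ^ 2 * s7q (F2 ℝ * A * F2 ℝ) a b)|
      ≤ 39 / l * ((|a 0| + |a 1|) * (|b 0| + |b 1|)) := by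
  have hl3 : (3 : ℝ) ≤ l := by exact_mod_cast hl
  set G := (-(σ * h)) • F2 ℝ with hG
  set E0 := H0 l σ h - G with hE0
  have nG : s7nb G 1 := by
    have := s7t_nb_F2.smul (-(σ * h))
    rw [abs_neg] at this
    exact this.mono (by linarith)
  have nE0 : s7nb E0 (3 / l) := by
    refine (s7t_nb_H0_sub hl σ h).mono ?_
    have : 0 ≤ (3 : ℝ) / l := by positivity
    nlinarith
  have nH0 : s7nb (H0 l σ h) 2 := (s7t_nb_H0 hl σ h).mono (by linarith)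
  have nE := nE0.sub (((nE0.mul hA).mul nH0).add ((nG.mul hA).mul nE0))
  have eM : H0 l σ h - H0 l σ h * A * H0 l σ h
      = (G - G * A * G) + (E0 - (E0 * A * H0 l σ h + G * A * E0)) := by
    rw [hE0]; noncomm_ring
  have eG : s7q (G - G * A * G) a b
      = -(σ * h) * (a 0 * b 1 + a 1 * b 0) - h ^ 2 * s7q (F2 ℝ * A * F2 ℝ) a b := by
    have e1 : G * A * G = (h ^ 2) • (F2 ℝ * A * F2 ℝ) := by
      rw [hG, Matrix.smul_mul, Matrix.smul_mul, Matrix.mul_smul, smul_smul]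
      congr 1
      linear_combination h ^ 2 * hσ
    rw [s7ea_q_sub, e1, s7ea_q_smul, s7ea_q_smul, s7ea_q_F]
  rw [eM, s7ea_q_add, eG, add_sub_cancel_left]
  refine (s7rs_q_le nE a b).trans (mul_le_mul_of_nonneg_right ?_ (by positivity))
  have : (39 : ℝ) / l = 13 * (3 / l) := by ring
  rw [this]
  linarith

/-- `N₂ - N̂₂` -/
theorem s7ea_N2_diff {M A Ah H Hh : Matrix (Fin 2) (Fin 2) ℝ} {c β ε : ℝ} (n0 : s7nb M 2)
    (nA : s7nb A ε) (nAh : s7nb Ah ε) (nH : s7nb H c) (nHh : s7nb Hh c) (nd : s7nb (A - Ah) β)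
    (hd : H - Hh = -(H * (A - Ah) * Hh)) (hε1 : ε ≤ 1) :
    s7nb (M * A * H * A * M - M * Ah * Hh * Ah * M) (16 * (8 * c + 16 * c ^ 2) * (β * ε)) := by
  have hε0 := nA.nonneg
  have hβ0 := nd.nonneg
  have hc0 := nH.nonneg
  have e : M * A * H * A * M - M * Ah * Hh * Ah * M
      = M * ((A - Ah) * H * A + Ah * (H - Hh) * A + Ah * Hh * (A - Ah)) * M := by
    noncomm_ring
  have nHd : s7nb (H - Hh) (2 * (2 * c * β) * c) := by
    rw [hd]; exact ((nH.mul nd).mul nHh).neg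
  have n := (n0.mul ((((nd.mul nH).mul nA).add ((nAh.mul nHd).mul nA)).add
    ((nAh.mul nHh).mul nd))).mul n0
  rw [e]
  refine n.mono ?_
  have h1 : ε * ε ≤ ε := by nlinarith
  have h2 : 0 ≤ c ^ 2 * β := by positivity
  have h3 := mul_le_mul_of_nonneg_left h1 h2
  nlinarith

theorem s7ea_N2_nb {M A H : Matrix (Fin 2) (Fin 2) ℝ} {c a : ℝ} (n0 : s7nb M 2) (nA : s7nb A a)
    (nH : s7nb H c) : s7nb (M * A * H * A * M) (64 * c * a ^ 2) := by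
  refine ((((n0.mul nA).mul nH).mul nA).mul n0).mono (le_of_eq ?_)
  ring

/-- telescoping of the remainders -/
theorem s7ea_rem_tel (N Nh : Matrix (Fin 2) (Fin 2) ℝ) (w1 w2 p1 p2 : Fin 2 → ℝ) :
    -(s7q N w1 w2) + s7q Nh p1 p2
      = -(s7q (N - Nh) w1 w2) - s7q Nh (w1 - p1) w2 - s7q Nh p1 (w2 - p2) := by
  simp only [s7q, dotProduct, Matrix.mulVec, Fin.sum_univ_two, Pi.sub_apply, Matrix.sub_apply]
  ring

end Two

/-! ## the linear part -/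

section Lin

variable {ι : Type} [Fintype ι] [DecidableEq ι]

theorem s7ea_card_le {R I : Finset ι} (hall : S7Allowed R I) : (I.card : ℝ) ≤ R.card := by
  exact_mod_cast Finset.card_le_card hall.1

/-- the raw sum of the absolute pair product -/
theorem s7ea_S_P {R I : Finset ι} (hall : S7Allowed R I) (x y : ι → ℝ) {c : ℝ} (hx : s7sq x ≤ c)
    (hy : s7sq y ≤ c) :
    s7ea_S I (fun u v => (|x u| + |x v|) * (|y u| + |y v|)) ≤ 4 * c * R.card := by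
  have hc0 : 0 ≤ c := (s7t_sq_nonneg x).trans hx
  have h1 : s7ea_S I (fun u v => (|x u| + |x v|) * (|y u| + |y v|))
      ≤ s7ea_S I (fun u v => (x u ^ 2 + y u ^ 2) + (x v ^ 2 + y v ^ 2)) := by
    refine s7ea_S_mono (fun u _ v _ _ => ?_)
    rw [← sq_abs (x u), ← sq_abs (x v), ← sq_abs (y u), ← sq_abs (y v)]
    nlinarith [sq_nonneg (|x u| + |x v| - |y u| - |y v|), sq_nonneg (|x u| - |x v|),
      sq_nonneg (|y u| - |y v|)]
  refine h1.trans ?_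
  rw [s7ea_S_add I (fun u _ => x u ^ 2 + y u ^ 2) (fun _ v => x v ^ 2 + y v ^ 2)]
  have a1 := s7ea_S_fst_le I (fun s => x s ^ 2 + y s ^ 2) (fun s => by positivity)
  have a2 := s7ea_S_snd_le I (fun s => x s ^ 2 + y s ^ 2) (fun s => by positivity)
  have a3 : ∑ u ∈ I, (x u ^ 2 + y u ^ 2) ≤ 2 * c := by
    rw [Finset.sum_add_distrib]
    have := s7ea_sqOn_le I x
    have := s7ea_sqOn_le I y
    linarith
  have a4 : (I.card : ℝ) * ∑ u ∈ I, (x u ^ 2 + y u ^ 2) ≤ R.card * (2 * c) :=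
    mul_le_mul (s7ea_card_le hall) a3 (Finset.sum_nonneg (fun s _ => by positivity))
      (Nat.cast_nonneg _)
  linarith

/-- `∑ (x_u y_v + x_v y_u)` for centred arrays -/
theorem s7ea_S_swap {R I : Finset ι} (hall : S7Allowed R I) (hR : R.Nonempty) {x y : ι → ℝ}
    (hxc : S7Cent R x) (hyc : S7Cent R y) {c : ℝ} (hx : s7sq x ≤ c) (hy : s7sq y ≤ c)
    (hxb : ∀ s, |x s| ≤ c) (hyb : ∀ s, |y s| ≤ c) :
    |s7ea_S I (fun u v => x u * y v + x v * y u)| ≤ 2 * (16 * c ^ 2 + c) := by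
  have hc0 : 0 ≤ c := (s7t_sq_nonneg x).trans hx
  have e : s7ea_S I (fun u v => x u * y v + x v * y u)
      = 2 * ((∑ u ∈ I, x u) * (∑ v ∈ I, y v) - ∑ u ∈ I, x u * y u) := by
    rw [s7ea_S_add I (fun u v => x u * y v) (fun u v => x v * y u), s7ea_S_cross]
    have : s7ea_S I (fun u v => x v * y u) = s7ea_S I (fun u v => y u * x v) :=
      s7ea_S_congr (fun u _ v _ _ => mul_comm _ _)
    rw [this, s7ea_S_cross]
    have : ∑ u ∈ I, y u * x u = ∑ u ∈ I, x u * y u :=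
      Finset.sum_congr rfl (fun u _ => mul_comm _ _)
    rw [this]; ring
  rw [e, abs_mul, abs_of_pos (by norm_num : (0 : ℝ) < 2)]
  refine mul_le_mul_of_nonneg_left ?_ (by norm_num)
  have s1 := s7ea_sum_I hall hR hxc hc0 hxb
  have s2 := s7ea_sum_I hall hR hyc hc0 hyb
  have s3 := (Finset.abs_sum_le_sum_abs _ _).trans (s7ea_dot_I I x y hx hy)
  have s4 : |(∑ u ∈ I, x u) * (∑ v ∈ I, y v)| ≤ (4 * c) * (4 * c) := by
    rw [abs_mul]; exact mul_le_mul s1 s2 (abs_nonneg _) (by positivity)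
  refine (abs_sub _ _).trans ?_
  nlinarith

/-- `∑ q(F A F, x, y)` -/
theorem s7ea_S_FAF {R I : Finset ι} (hall : S7Allowed R I) {D : Matrix ι ι ℝ} {Z ε : ℝ}
    (hs : Dᵀ = D) (hc : s7Pi ℝ R * D = D) (hent : ∀ x y, |D x y| ≤ ε) (hε0 : 0 ≤ ε) (hε1 : ε ≤ 1)
    (hZ : s7opLE D Z) {x y : ι → ℝ} {c : ℝ} (hx : s7sq x ≤ c) (hy : s7sq y ≤ c) :
    |s7ea_S I (fun u v => s7q (F2 ℝ * s7blk D u v * F2 ℝ) (s7pv x u v) (s7pv y u v))|
      ≤ 2 * c * (|s7Y D| + Z + 6) := by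
  have hc0 : 0 ≤ c := (s7t_sq_nonneg x).trans hx
  have e := s7_swapArr ℝ ι I D x y hs
  unfold s7ea_S
  rw [e, abs_mul, abs_of_pos (by norm_num : (0 : ℝ) < 2)]
  have s1 := s7ea_diag_I hall hc hε0 hent
  have s2 := (Finset.abs_sum_le_sum_abs _ _).trans (s7ea_dot_I I x y hx hy)
  have s3 := s7ea_bil hZ I x y hx hy
  have s4 : |∑ u ∈ I, D u u * x u * y u| ≤ c := by
    refine (Finset.abs_sum_le_sum_abs _ _).trans (le_trans ?_ (s7ea_dot_I I x y hx hy))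
    refine Finset.sum_le_sum (fun u _ => ?_)
    rw [mul_assoc, abs_mul]
    have := mul_le_mul_of_nonneg_right ((hent u u).trans hε1) (abs_nonneg (x u * y u))
    linarith
  have s5 : |(∑ u ∈ I, D u u) * (∑ u ∈ I, x u * y u)| ≤ (|s7Y D| + 4) * c := by
    rw [abs_mul]
    exact mul_le_mul (by linarith) s2 (abs_nonneg _) (by positivity)
  have t1 := abs_sub ((∑ u ∈ I, D u u) * (∑ u ∈ I, x u * y u) + ∑ u ∈ I, ∑ v ∈ I, x u * D u v * y v)
    (2 * ∑ u ∈ I, D u u * x u * y u)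
  have t2 := abs_add_le ((∑ u ∈ I, D u u) * (∑ u ∈ I, x u * y u))
    (∑ u ∈ I, ∑ v ∈ I, x u * D u v * y v)
  have t3 : |2 * ∑ u ∈ I, D u u * x u * y u| = 2 * |∑ u ∈ I, D u u * x u * y u| := by
    rw [abs_mul]; norm_num
  linarith

/-- zero-`A` and single-`A` terms of one of the two products -/
theorem s7ea_lin {R I : Finset ι} (hall : S7Allowed R I) (hl : 8 ≤ R.card) {D : Matrix ι ι ℝ}
    {Z ε σ h : ℝ} (hs : Dᵀ = D) (hc : s7Pi ℝ R * D = D) (hent : ∀ x y, |D x y| ≤ ε) (hε0 : 0 ≤ ε)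
    (hε1 : ε ≤ 1) (hZ : s7opLE D Z) (hσh : |σ * h| ≤ 1) (hσ : σ ^ 2 = 1) (hh : h ^ 2 ≤ 1)
    {x y : ι → ℝ} (hxc : S7Cent R x) (hyc : S7Cent R y) {c : ℝ} (hx : s7sq x ≤ c) (hy : s7sq y ≤ c)
    (hxb : ∀ s, |x s| ≤ c) (hyb : ∀ s, |y s| ≤ c) :
    |s7ea_S I (fun u v => s7q (H0 R.card σ h - H0 R.card σ h * s7blk D u v * H0 R.card σ h)
        (s7pv x u v) (s7pv y u v))| ≤ (32 * c ^ 2 + 170 * c) * (1 + |s7Y D| + Z) := by
  have hc0 : 0 ≤ c := (s7t_sq_nonneg x).trans hx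
  have hL : (8 : ℝ) ≤ R.card := by exact_mod_cast hl
  have hR : R.Nonempty := Finset.card_pos.mp (by omega)
  set f : ι → ι → ℝ := fun u v =>
    s7q (H0 R.card σ h - H0 R.card σ h * s7blk D u v * H0 R.card σ h) (s7pv x u v) (s7pv y u v)
    with hf
  set m1 : ι → ι → ℝ := fun u v => x u * y v + x v * y u with hm1
  set m2 : ι → ι → ℝ := fun u v => s7q (F2 ℝ * s7blk D u v * F2 ℝ) (s7pv x u v) (s7pv y u v)
    with hm2
  set er : ι → ι → ℝ := fun u v => f u v - (-(σ * h) * m1 u v - h ^ 2 * m2 u v) with her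
  have e : s7ea_S I f = -(σ * h) * s7ea_S I m1 + (-(h ^ 2)) * s7ea_S I m2 + s7ea_S I er := by
    rw [← s7ea_S_smul, ← s7ea_S_smul, ← s7ea_S_add, ← s7ea_S_add]
    refine s7ea_S_congr (fun u _ v _ _ => ?_)
    simp only [her]; ring
  have b1 := s7ea_S_swap hall hR hxc hyc hx hy hxb hyb
  have b2 := s7ea_S_FAF hall hs hc hent hε0 hε1 hZ hx hy
  have b3 : |s7ea_S I er| ≤ 156 * c := by
    have h1 : |s7ea_S I er|
        ≤ s7ea_S I (fun u v => 39 / (R.card : ℝ) * ((|x u| + |x v|) * (|y u| + |y v|))) := by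
      refine s7ea_S_abs_le (fun u _ v _ _ => ?_)
      exact s7ea_lin_point (by omega) σ h hσh hσ
        (s7rs_nb_blk (fun a b => (hent a b).trans hε1) u v) (s7pv x u v) (s7pv y u v)
    rw [s7ea_S_smul] at h1
    have h2 := mul_le_mul_of_nonneg_left (s7ea_S_P hall x y hx hy)
      (by positivity : 0 ≤ 39 / (R.card : ℝ))
    have h3 : 39 / (R.card : ℝ) * (4 * c * R.card) = 156 * c := by
      field_simp; ring
    linarith
  have c1 : |-(σ * h) * s7ea_S I m1| ≤ 1 * (2 * (16 * c ^ 2 + c)) := by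
    rw [abs_mul, abs_neg]
    exact mul_le_mul hσh b1 (abs_nonneg _) (by norm_num)
  have c2 : |(-(h ^ 2)) * s7ea_S I m2| ≤ 1 * (2 * c * (|s7Y D| + Z + 6)) := by
    rw [abs_mul, abs_neg, abs_of_nonneg (sq_nonneg h)]
    exact mul_le_mul hh b2 (abs_nonneg _) (by norm_num)
  rw [e]
  have t1 := abs_add_le (-(σ * h) * s7ea_S I m1 + (-(h ^ 2)) * s7ea_S I m2) (s7ea_S I er)
  have t2 := abs_add_le (-(σ * h) * s7ea_S I m1) ((-(h ^ 2)) * s7ea_S I m2)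
  have hY := abs_nonneg (s7Y D)
  have hZ0 := hZ.1
  have p1 : 0 ≤ c ^ 2 * (|s7Y D| + Z) := by positivity
  have p2 : 0 ≤ c * (|s7Y D| + Z) := by positivity
  nlinarith

end Lin

/-! ## the remainder `N₂` -/

section Rem

variable {ι : Type} [Fintype ι] [DecidableEq ι]

theorem s7ea_nb_A {D : Matrix ι ι ℝ} (hs : Dᵀ = D) (u v : ι) :
    s7nb (s7blk D u v) (|D u u| + |D v v| + |D u v|) := by
  have h1 := abs_nonneg (D u u)
  have h2 := abs_nonneg (D v v)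
  have h3 := abs_nonneg (D u v)
  have e : D v u = D u v := s7t_symm_apply hs v u
  intro i j
  unfold s7blk
  by_cases hi : i = 0 <;> by_cases hj : j = 0 <;> simp only [hi, hj, if_true, if_false]
  · linarith
  · linarith
  · rw [e]; linarith
  · linarith

theorem s7ea_S_A2 {R I : Finset ι} (hall : S7Allowed R I) {D : Matrix ι ι ℝ} {C0 τ : ℝ}
    (hs : Dᵀ = D) (hrow : ∀ x, (D * D) x x ≤ C0) (hT : s7T D ≤ τ) (hC0 : 0 ≤ C0) :
    s7ea_S I (fun u v => D u u ^ 2 + D v v ^ 2 + D u v ^ 2) ≤ R.card * (2 * τ + C0) := by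
  have hτ : 0 ≤ τ := (s7t_T_nonneg D).trans hT
  rw [s7ea_S_add I (fun u v => D u u ^ 2 + D v v ^ 2) (fun u v => D u v ^ 2),
    s7ea_S_add I (fun u _ => D u u ^ 2) (fun _ v => D v v ^ 2)]
  have a1 := s7ea_S_fst_le I (fun s => D s s ^ 2) (fun s => sq_nonneg _)
  have a2 := s7ea_S_snd_le I (fun s => D s s ^ 2) (fun s => sq_nonneg _)
  have a3 : (I.card : ℝ) * ∑ u ∈ I, D u u ^ 2 ≤ R.card * τ :=
    mul_le_mul (s7ea_card_le hall) ((s7t_sum_diag_sq_le D I).trans hT)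
      (Finset.sum_nonneg (fun s _ => sq_nonneg _)) (Nat.cast_nonneg _)
  have a4 : s7ea_S I (fun u v => D u v ^ 2) ≤ R.card * C0 := by
    unfold s7ea_S
    have h1 : ∀ u ∈ I, ∑ v ∈ I.erase u, D u v ^ 2 ≤ C0 := by
      intro u _
      refine le_trans ?_ (hrow u)
      rw [s7t_sq_diag hs]
      exact Finset.sum_le_sum_of_subset_of_nonneg (Finset.subset_univ _) (fun i _ _ => sq_nonneg _)
    refine (Finset.sum_le_sum h1).trans ?_
    rw [Finset.sum_const, nsmul_eq_mul]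
    exact mul_le_mul_of_nonneg_right (s7ea_card_le hall) hC0
  linarith

/-- pointwise bound of the difference of the two remainders -/
theorem s7ea_rem_point {l : ℕ} (hl : 3 ≤ l) {σ h : ℝ} (hσh : |σ * h| ≤ 1) {D Dh : Matrix ι ι ℝ}
    {u v : ι} {c β ε ε1 : ℝ} (hsh : Dhᵀ = Dh)
    (hN : s7N2 l σ h D u v
      = H0 l σ h * s7blk D u v * s7H l σ h D u v * s7blk D u v * H0 l σ h)
    (hNh : s7N2 l σ h Dh u v
      = H0 l σ h * s7blk Dh u v * s7H l σ h Dh u v * s7blk Dh u v * H0 l σ h)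
    (nH : s7nb (s7H l σ h D u v) c) (nHh : s7nb (s7H l σ h Dh u v) c)
    (hd : s7H l σ h D u v - s7H l σ h Dh u v
      = -(s7H l σ h D u v * (s7blk D u v - s7blk Dh u v) * s7H l σ h Dh u v))
    (hent : ∀ x y, |D x y| ≤ ε) (henth : ∀ x y, |Dh x y| ≤ ε) (hε1 : ε ≤ 1)
    (hdf : ∀ x y, |D x y - Dh x y| ≤ β) {w₁ w₂ p₁ p₂ : ι → ℝ}
    (h1 : ∀ x, |w₁ x - p₁ x| ≤ β) (h2 : ∀ x, |w₂ x - p₂ x| ≤ β)
    (hwu : |w₂ u| ≤ ε1) (hwv : |w₂ v| ≤ ε1) (hpu : |p₁ u| ≤ ε1) (hpv : |p₁ v| ≤ ε1) :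
    |-(s7q (s7N2 l σ h D u v) (s7pv w₁ u v) (s7pv w₂ u v))
        + s7q (s7N2 l σ h Dh u v) (s7pv p₁ u v) (s7pv p₂ u v)|
      ≤ 16 * (8 * c + 16 * c ^ 2) * (β * ε) * ((|w₁ u| + |w₁ v|) * (|w₂ u| + |w₂ v|))
        + 1536 * c * (β * ε1) * (Dh u u ^ 2 + Dh v v ^ 2 + Dh u v ^ 2) := by
  have n0 : s7nb (H0 l σ h) 2 := (s7t_nb_H0 hl σ h).mono (by linarith)
  have nA : s7nb (s7blk D u v) ε := s7rs_nb_blk hent u v
  have nAh : s7nb (s7blk Dh u v) ε := s7rs_nb_blk henth u v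
  have nd : s7nb (s7blk D u v - s7blk Dh u v) β := fun i j => hdf _ _
  have hc0 := nH.nonneg
  have hβ0 := nd.nonneg
  have hε10 : 0 ≤ ε1 := (abs_nonneg _).trans hwu
  have nD := s7ea_N2_diff n0 nA nAh nH nHh nd hd hε1
  have nN := s7ea_N2_nb n0 (s7ea_nb_A hsh u v) nHh
  rw [← hN, ← hNh] at nD
  rw [← hNh] at nN
  rw [s7ea_rem_tel]
  have q1 := s7rs_q_le nD (s7pv w₁ u v) (s7pv w₂ u v)
  have q2 := s7rs_q_le nN (s7pv w₁ u v - s7pv p₁ u v) (s7pv w₂ u v)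
  have q3 := s7rs_q_le nN (s7pv p₁ u v) (s7pv w₂ u v - s7pv p₂ u v)
  set a := |Dh u u| + |Dh v v| + |Dh u v| with ha
  have ha2 : a ^ 2 ≤ 3 * (Dh u u ^ 2 + Dh v v ^ 2 + Dh u v ^ 2) := by
    rw [← sq_abs (Dh u u), ← sq_abs (Dh v v), ← sq_abs (Dh u v), ha]
    nlinarith [sq_nonneg (|Dh u u| - |Dh v v|), sq_nonneg (|Dh u u| - |Dh u v|),
      sq_nonneg (|Dh v v| - |Dh u v|)]
  have s1 : |(s7pv w₁ u v - s7pv p₁ u v) 0| + |(s7pv w₁ u v - s7pv p₁ u v) 1| ≤ 2 * β := by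
    have e0 : (s7pv w₁ u v - s7pv p₁ u v) 0 = w₁ u - p₁ u := rfl
    have e1 : (s7pv w₁ u v - s7pv p₁ u v) 1 = w₁ v - p₁ v := rfl
    rw [e0, e1]; linarith [h1 u, h1 v]
  have s2 : |(s7pv w₂ u v - s7pv p₂ u v) 0| + |(s7pv w₂ u v - s7pv p₂ u v) 1| ≤ 2 * β := by
    have e0 : (s7pv w₂ u v - s7pv p₂ u v) 0 = w₂ u - p₂ u := rfl
    have e1 : (s7pv w₂ u v - s7pv p₂ u v) 1 = w₂ v - p₂ v := rfl
    rw [e0, e1]; linarith [h2 u, h2 v]
  have s3 : |s7pv w₂ u v 0| + |s7pv w₂ u v 1| ≤ 2 * ε1 := by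
    have e0 : s7pv w₂ u v 0 = w₂ u := rfl
    have e1 : s7pv w₂ u v 1 = w₂ v := rfl
    rw [e0, e1]; linarith
  have s4 : |s7pv p₁ u v 0| + |s7pv p₁ u v 1| ≤ 2 * ε1 := by
    have e0 : s7pv p₁ u v 0 = p₁ u := rfl
    have e1 : s7pv p₁ u v 1 = p₁ v := rfl
    rw [e0, e1]; linarith
  have m2 := mul_le_mul s1 s3 (by positivity) (by positivity)
  have m3 := mul_le_mul s4 s2 (by positivity) (by positivity)
  have k0 : 0 ≤ 64 * c * a ^ 2 := by positivity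
  have m2' := mul_le_mul_of_nonneg_left m2 k0
  have m3' := mul_le_mul_of_nonneg_left m3 k0
  have k1 : 64 * c * a ^ 2 * (2 * β * (2 * ε1)) + 64 * c * a ^ 2 * (2 * ε1 * (2 * β))
      ≤ 1536 * c * (β * ε1) * (Dh u u ^ 2 + Dh v v ^ 2 + Dh u v ^ 2) := by
    have := mul_le_mul_of_nonneg_left ha2 (by positivity : 0 ≤ 512 * c * (β * ε1))
    linarith
  have q1' : |s7q (s7N2 l σ h D u v - s7N2 l σ h Dh u v) (s7pv w₁ u v) (s7pv w₂ u v)|
      ≤ 16 * (8 * c + 16 * c ^ 2) * (β * ε) * ((|w₁ u| + |w₁ v|) * (|w₂ u| + |w₂ v|)) := q1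
  have t1 := abs_sub (-(s7q (s7N2 l σ h D u v - s7N2 l σ h Dh u v) (s7pv w₁ u v) (s7pv w₂ u v))
      - s7q (s7N2 l σ h Dh u v) (s7pv w₁ u v - s7pv p₁ u v) (s7pv w₂ u v))
    (s7q (s7N2 l σ h Dh u v) (s7pv p₁ u v) (s7pv w₂ u v - s7pv p₂ u v))
  have t2 := abs_sub (-(s7q (s7N2 l σ h D u v - s7N2 l σ h Dh u v) (s7pv w₁ u v) (s7pv w₂ u v)))
    (s7q (s7N2 l σ h Dh u v) (s7pv w₁ u v - s7pv p₁ u v) (s7pv w₂ u v))
  rw [abs_neg] at t2
  linarith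

end Rem

/-! ## the mean -/

theorem s7ea_arith (L KA K1 C1 c C0 β ε ε1 τ y : ℝ) (hL : 0 < L) (hKA : 0 ≤ KA) (hK1 : 0 ≤ K1)
    (hC1 : 0 ≤ C1) (hc : 0 ≤ c) (hC0 : 0 ≤ C0) (hβ : 0 ≤ β) (hε : 0 ≤ ε) (hε1 : 0 ≤ ε1) (hτ : 0 ≤ τ)
    (hy : 0 ≤ y) :
    6 * (KA * (2 + y) + (K1 * (β * ε) * (4 * C1 * L) + 1536 * c * (β * ε1) * (L * (2 * τ + C0))))
        / L ^ 2
      ≤ (12 * KA + 6 * (4 * K1 * C1 + 1536 * c * (2 + C0)))
        * ((1 + y) / L ^ 2 + β * (ε + ε1 * (1 + τ)) / L) := by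
  have e : 6 * (KA * (2 + y) + (K1 * (β * ε) * (4 * C1 * L)
        + 1536 * c * (β * ε1) * (L * (2 * τ + C0)))) / L ^ 2
      = 6 * KA * ((2 + y) / L ^ 2)
        + 6 * ((4 * K1 * C1 * (β * ε) + 1536 * c * (2 * τ + C0) * (β * ε1)) / L) := by
    field_simp
  rw [e]
  have a1 : (2 + y) / L ^ 2 ≤ 2 * ((1 + y) / L ^ 2) := by
    rw [← mul_div_assoc]
    exact div_le_div_of_nonneg_right (by linarith) (by positivity)
  have a2 : (4 * K1 * C1 * (β * ε) + 1536 * c * (2 * τ + C0) * (β * ε1)) / L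
      ≤ (4 * K1 * C1 + 1536 * c * (2 + C0)) * (β * (ε + ε1 * (1 + τ)) / L) := by
    rw [← mul_div_assoc]
    refine div_le_div_of_nonneg_right ?_ hL.le
    have p1 : 0 ≤ K1 * C1 * (β * ε1 * (1 + τ)) := by positivity
    have p2 : 0 ≤ c * (2 + C0) * (β * ε) := by positivity
    have p3 : 0 ≤ c * (β * ε1) * (2 + C0 * τ) := by positivity
    nlinarith
  have b1 := mul_le_mul_of_nonneg_left a1 (by positivity : 0 ≤ 6 * KA)
  have p4 : 0 ≤ KA * (β * (ε + ε1 * (1 + τ)) / L) := by positivity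
  have p5 : 0 ≤ (4 * K1 * C1 + 1536 * c * (2 + C0)) * ((1 + y) / L ^ 2) := by positivity
  nlinarith

section Mean

variable {ι : Type} [Fintype ι] [DecidableEq ι]

theorem s7ea_dE_split (l : ℕ) (σ h : ℝ) (D Dh : Matrix ι ι ℝ) (w₁ w₂ p₁ p₂ : ι → ℝ) (u v : ι) :
    s7dE l σ h D Dh w₁ w₂ p₁ p₂ u v
      = (-1) * s7q (H0 l σ h - H0 l σ h * s7blk D u v * H0 l σ h) (s7pv w₁ u v) (s7pv w₂ u v)
        + s7q (H0 l σ h - H0 l σ h * s7blk Dh u v * H0 l σ h) (s7pv p₁ u v) (s7pv p₂ u v)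
        + (-(s7q (s7N2 l σ h D u v) (s7pv w₁ u v) (s7pv w₂ u v))
          + s7q (s7N2 l σ h Dh u v) (s7pv p₁ u v) (s7pv p₂ u v)) := by
  have e : ∀ M : Matrix ι ι ℝ, s7H l σ h M u v
      = (H0 l σ h - H0 l σ h * s7blk M u v * H0 l σ h) + s7N2 l σ h M u v := by
    intro M; unfold s7N2; abel
  unfold s7dE
  rw [e D, e Dh, s7ea_q_add, s7ea_q_add]
  ring

end Mean

/-- elementary consequences of the standing hypotheses -/
theorem s7ea_base {ι : Type} [Fintype ι] [DecidableEq ι] {hmin C0 ε σ h : ℝ} {R : Finset ι}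
    {D : Matrix ι ι ℝ} (hm : 0 < hmin) (hb : S7Base hmin C0 ε σ h R D) :
    σ ^ 2 = 1 ∧ |σ * h| ≤ 1 ∧ h ^ 2 ≤ 1 ∧ h ≠ 0 := by
  have hh0 : 0 < h := lt_of_lt_of_le hm hb.h_lo
  have hh1 : h ≤ 3 / 4 := hb.h_hi
  refine ⟨?_, ?_, by nlinarith, hh0.ne'⟩
  · rcases hb.sig with e | e <;> rw [e] <;> norm_num
  · rcases hb.sig with e | e
    · rw [e, one_mul, abs_of_pos hh0]; linarith
    · rw [e, neg_one_mul, abs_neg, abs_of_pos hh0]; linarith

/-- **S7-STEP-17** (7.56). -/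
theorem s7_entryMeanA : StS7EntryMeanA := by
  intro hmin C0 C1 hhmin hC0 hC1
  obtain ⟨c, εa, l1, hc, hεa, hP⟩ := s7_coefPt hmin C0 hhmin hC0
  refine ⟨12 * (32 * C1 ^ 2 + 170 * C1) + 6 * (4 * (16 * (8 * c + 16 * c ^ 2)) * C1
    + 1536 * c * (2 + C0)), min εa 1, max l1 8, by positivity, lt_min hεa one_pos, ?_⟩
  intro ι _ _ σ h ε ε1 β R I D Dh w₁ w₂ p₁ p₂ hb hbh hε hl hall ho1 ho2 hε11 hβ0 hβ1 hdf Z Zh τ hZ
    hZh hT hTh
  have hεa' : ε ≤ εa := hε.trans (min_le_left _ _)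
  have hεc : ε ≤ 1 := hε.trans (min_le_right _ _)
  have hla : l1 ≤ R.card := le_trans (le_max_left _ _) hl
  have hl8 : 8 ≤ R.card := le_trans (le_max_right _ _) hl
  have hL8 : (8 : ℝ) ≤ R.card := by exact_mod_cast hl8
  obtain ⟨hσ, hσh, hh, hh0⟩ := s7ea_base hhmin hb
  have hIc : R.card ≤ I.card + 4 := hall.2
  obtain ⟨i0, hi0⟩ : I.Nonempty := Finset.card_pos.mp (by omega)
  have hε0 : 0 ≤ ε := (abs_nonneg _).trans (hb.ent i0 i0)
  have hε10 : 0 ≤ ε1 := (abs_nonneg _).trans (ho1.ws i0 hi0)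
  have hτ : 0 ≤ τ := (s7t_T_nonneg D).trans hT
  -- the two linear parts
  have A1 := s7ea_lin hall hl8 hb.symm hb.cent hb.ent hε0 hεc hZ hσh hσ hh ho1.wc ho2.wc ho1.wn
    ho2.wn ho1.wb ho2.wb
  have A2 := s7ea_lin hall hl8 hbh.symm hbh.cent hbh.ent hε0 hεc hZh hσh hσ hh ho1.pc ho2.pc ho1.pn
    ho2.pn ho1.pb ho2.pb
  -- the remainder
  have A3 : |s7ea_S I (fun u v => -(s7q (s7N2 R.card σ h D u v) (s7pv w₁ u v) (s7pv w₂ u v))
          + s7q (s7N2 R.card σ h Dh u v) (s7pv p₁ u v) (s7pv p₂ u v))|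
      ≤ 16 * (8 * c + 16 * c ^ 2) * (β * ε) * (4 * C1 * R.card)
        + 1536 * c * (β * ε1) * (R.card * (2 * τ + C0)) := by
    have h1 : |s7ea_S I (fun u v => -(s7q (s7N2 R.card σ h D u v) (s7pv w₁ u v) (s7pv w₂ u v))
          + s7q (s7N2 R.card σ h Dh u v) (s7pv p₁ u v) (s7pv p₂ u v))|
        ≤ s7ea_S I (fun u v =>
          16 * (8 * c + 16 * c ^ 2) * (β * ε) * ((|w₁ u| + |w₁ v|) * (|w₂ u| + |w₂ v|))
          + 1536 * c * (β * ε1) * (Dh u u ^ 2 + Dh v v ^ 2 + Dh u v ^ 2)) := by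
      refine s7ea_S_abs_le (fun u hu v hv huv => ?_)
      have q := hP ι σ h ε R D hb hεa' hla u (hall.1 hu) v (hall.1 hv) huv
      have qh := hP ι σ h ε R Dh hbh hεa' hla u (hall.1 hu) v (hall.1 hv) huv
      have r := (s7_hResolvent ℝ ι R.card σ h D u v (by omega) hσ hh0 q.1).2.2
      have rh := (s7_hResolvent ℝ ι R.card σ h Dh u v (by omega) hσ hh0 qh.1).2.2
      exact s7ea_rem_point (by omega) hσh hbh.symm r rh q.2.1 qh.2.1
        (s7_hDiff ℝ ι R.card σ h D Dh u v q.1 qh.1) hb.ent hbh.ent hεc hdf ho1.df ho2.df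
        (ho2.ws u hu) (ho2.ws v hv) (ho1.ps u hu) (ho1.ps v hv)
    refine h1.trans ?_
    rw [s7ea_S_add, s7ea_S_smul, s7ea_S_smul]
    have b1 := mul_le_mul_of_nonneg_left (s7ea_S_P hall w₁ w₂ ho1.wn ho2.wn)
      (by positivity : 0 ≤ 16 * (8 * c + 16 * c ^ 2) * (β * ε))
    have b2 := mul_le_mul_of_nonneg_left (s7ea_S_A2 hall hbh.symm hbh.row hTh hC0.le)
      (by positivity : 0 ≤ 1536 * c * (β * ε1))
    linarith
  -- assembly
  have e : s7ea_S I (fun u v => s7dE R.card σ h D Dh w₁ w₂ p₁ p₂ u v)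
      = (-1) * s7ea_S I (fun u v => s7q (H0 R.card σ h - H0 R.card σ h * s7blk D u v * H0 R.card σ h)
          (s7pv w₁ u v) (s7pv w₂ u v))
        + s7ea_S I (fun u v => s7q (H0 R.card σ h - H0 R.card σ h * s7blk Dh u v * H0 R.card σ h)
          (s7pv p₁ u v) (s7pv p₂ u v))
        + s7ea_S I (fun u v => -(s7q (s7N2 R.card σ h D u v) (s7pv w₁ u v) (s7pv w₂ u v))
          + s7q (s7N2 R.card σ h Dh u v) (s7pv p₁ u v) (s7pv p₂ u v)) := by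
    rw [← s7ea_S_smul, ← s7ea_S_add, ← s7ea_S_add]
    exact s7ea_S_congr (fun u _ v _ _ => s7ea_dE_split _ _ _ _ _ _ _ _ _ _ _)
  have B : |s7ea_S I (fun u v => s7dE R.card σ h D Dh w₁ w₂ p₁ p₂ u v)|
      ≤ (32 * C1 ^ 2 + 170 * C1) * (2 + (|s7Y D| + |s7Y Dh| + Z + Zh))
        + (16 * (8 * c + 16 * c ^ 2) * (β * ε) * (4 * C1 * R.card)
          + 1536 * c * (β * ε1) * (R.card * (2 * τ + C0))) := by
    rw [e]
    refine (abs_add_le _ _).trans ?_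
    have t := abs_add_le ((-1) * s7ea_S I (fun u v =>
        s7q (H0 R.card σ h - H0 R.card σ h * s7blk D u v * H0 R.card σ h)
          (s7pv w₁ u v) (s7pv w₂ u v)))
      (s7ea_S I (fun u v => s7q (H0 R.card σ h - H0 R.card σ h * s7blk Dh u v * H0 R.card σ h)
          (s7pv p₁ u v) (s7pv p₂ u v)))
    rw [abs_mul, abs_neg, abs_one, one_mul] at t
    linarith
  have F := s7ea_avg_abs_le hall hl8 _ _ B
  refine F.trans ?_
  have ar := s7ea_arith (R.card : ℝ) (32 * C1 ^ 2 + 170 * C1) (16 * (8 * c + 16 * c ^ 2)) C1 c C0 β ε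
    ε1 τ (|s7Y D| + |s7Y Dh| + Z + Zh) (by linarith) (by positivity) (by positivity) hC1.le hc.le
    hC0.le hβ0 hε0 hε10 hτ (by have := hZ.1; have := hZh.1; positivity)
  have e2 : (1 + |s7Y D| + |s7Y Dh| + Z + Zh) = 1 + (|s7Y D| + |s7Y Dh| + Z + Zh) := by ring
  rw [e2]
  exact ar

/-! ## the second moment -/

section Var

variable {ι : Type} [Fintype ι] [DecidableEq ι]

/-- pointwise bound of the square of one product -/
theorem s7ea_sq_point {N : Matrix (Fin 2) (Fin 2) ℝ} {c li du dv ε1 : ℝ} (a b : Fin 2 → ℝ)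
    (hc : 0 ≤ c) (h01 : |N 0 1| ≤ c) (h10 : |N 1 0| ≤ c) (h00 : |N 0 0| ≤ c * (li + |dv|))
    (h11 : |N 1 1| ≤ c * (li + |du|)) (hli : 0 ≤ li) (hb0 : |b 0| ≤ ε1) (hb1 : |b 1| ≤ ε1) :
    s7q N a b ^ 2 ≤ 8 * c ^ 2 * ε1 ^ 2 * (a 0 ^ 2 * (li ^ 2 + dv ^ 2))
      + 8 * c ^ 2 * ε1 ^ 2 * ((li ^ 2 + du ^ 2) * a 1 ^ 2)
      + 4 * c ^ 2 * (a 0 ^ 2 * b 1 ^ 2) + 4 * c ^ 2 * (b 0 ^ 2 * a 1 ^ 2) := by
  have e : s7q N a b = N 0 0 * (a 0 * b 0) + N 1 1 * (a 1 * b 1) + N 0 1 * (a 0 * b 1)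
      + N 1 0 * (a 1 * b 0) := by
    simp only [s7q, dotProduct, Matrix.mulVec, Fin.sum_univ_two]
    ring
  have sq4 : ∀ x y z w : ℝ, (x + y + z + w) ^ 2 ≤ 4 * (x ^ 2 + y ^ 2 + z ^ 2 + w ^ 2) := by
    intro x y z w
    nlinarith [sq_nonneg (x - y), sq_nonneg (x - z), sq_nonneg (y - z), sq_nonneg (x - w),
      sq_nonneg (y - w), sq_nonneg (z - w)]
  have sqle : ∀ {x y : ℝ}, |x| ≤ y → x ^ 2 ≤ y ^ 2 := by
    intro x y hxy
    rw [← sq_abs x]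
    exact pow_le_pow_left₀ (abs_nonneg _) hxy 2
  have k00 : N 0 0 ^ 2 ≤ 2 * c ^ 2 * (li ^ 2 + dv ^ 2) := by
    refine (sqle h00).trans ?_
    rw [mul_pow, ← sq_abs dv]
    have : (li + |dv|) ^ 2 ≤ 2 * (li ^ 2 + |dv| ^ 2) := by nlinarith [sq_nonneg (li - |dv|)]
    have := mul_le_mul_of_nonneg_left this (sq_nonneg c)
    linarith
  have k11 : N 1 1 ^ 2 ≤ 2 * c ^ 2 * (li ^ 2 + du ^ 2) := by
    refine (sqle h11).trans ?_
    rw [mul_pow, ← sq_abs du]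
    have : (li + |du|) ^ 2 ≤ 2 * (li ^ 2 + |du| ^ 2) := by nlinarith [sq_nonneg (li - |du|)]
    have := mul_le_mul_of_nonneg_left this (sq_nonneg c)
    linarith
  have k01 := sqle h01
  have k10 := sqle h10
  have kb0 := sqle hb0
  have kb1 := sqle hb1
  rw [e]
  refine (sq4 _ _ _ _).trans ?_
  have t1 : (N 0 0 * (a 0 * b 0)) ^ 2 ≤ (2 * c ^ 2 * (li ^ 2 + dv ^ 2)) * (a 0 ^ 2 * ε1 ^ 2) := by
    rw [mul_pow, mul_pow]
    exact mul_le_mul k00 (mul_le_mul_of_nonneg_left kb0 (sq_nonneg _)) (by positivity)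
      (by positivity)
  have t2 : (N 1 1 * (a 1 * b 1)) ^ 2 ≤ (2 * c ^ 2 * (li ^ 2 + du ^ 2)) * (a 1 ^ 2 * ε1 ^ 2) := by
    rw [mul_pow, mul_pow]
    exact mul_le_mul k11 (mul_le_mul_of_nonneg_left kb1 (sq_nonneg _)) (by positivity)
      (by positivity)
  have t3 : (N 0 1 * (a 0 * b 1)) ^ 2 ≤ c ^ 2 * (a 0 ^ 2 * b 1 ^ 2) := by
    rw [mul_pow, mul_pow]
    exact mul_le_mul_of_nonneg_right k01 (by positivity)
  have t4 : (N 1 0 * (a 1 * b 0)) ^ 2 ≤ c ^ 2 * (a 1 ^ 2 * b 0 ^ 2) := by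
    rw [mul_pow, mul_pow]
    exact mul_le_mul_of_nonneg_right k10 (by positivity)
  linarith

/-- raw second moment of one product -/
theorem s7ea_sq_sum {R I : Finset ι} (hall : S7Allowed R I) (hl : 8 ≤ R.card) {D : Matrix ι ι ℝ}
    {σ h c C1 ε1 τ : ℝ} (hc : 0 ≤ c) (hT : s7T D ≤ τ) {x y : ι → ℝ} (hx : s7sq x ≤ C1)
    (hy : s7sq y ≤ C1) (hys : ∀ s ∈ I, |y s| ≤ ε1)
    (hH : ∀ u ∈ I, ∀ v ∈ I, u ≠ v → s7nb (s7H R.card σ h D u v) c ∧
      |s7H R.card σ h D u v 0 0| ≤ c * (1 / (R.card : ℝ) + |D v v|) ∧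
      |s7H R.card σ h D u v 1 1| ≤ c * (1 / (R.card : ℝ) + |D u u|)) :
    s7ea_S I (fun u v => s7q (s7H R.card σ h D u v) (s7pv x u v) (s7pv y u v) ^ 2)
      ≤ 16 * c ^ 2 * C1 * (ε1 ^ 2 * (1 + τ)) + 8 * c ^ 2 * C1 ^ 2 := by
  have hL8 : (8 : ℝ) ≤ R.card := by exact_mod_cast hl
  have hC1 : 0 ≤ C1 := (s7t_sq_nonneg x).trans hx
  have hτ : 0 ≤ τ := (s7t_T_nonneg D).trans hT
  have h1 : s7ea_S I (fun u v => s7q (s7H R.card σ h D u v) (s7pv x u v) (s7pv y u v) ^ 2)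
      ≤ s7ea_S I (fun u v =>
        8 * c ^ 2 * ε1 ^ 2 * (x u ^ 2 * ((1 / (R.card : ℝ)) ^ 2 + D v v ^ 2))
        + 8 * c ^ 2 * ε1 ^ 2 * (((1 / (R.card : ℝ)) ^ 2 + D u u ^ 2) * x v ^ 2)
        + 4 * c ^ 2 * (x u ^ 2 * y v ^ 2) + 4 * c ^ 2 * (y u ^ 2 * x v ^ 2)) := by
    refine s7ea_S_mono (fun u hu v hv huv => ?_)
    obtain ⟨n, h00, h11⟩ := hH u hu v hv huv
    exact s7ea_sq_point (s7pv x u v) (s7pv y u v) hc (n 0 1) (n 1 0) h00 h11 (by positivity)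
      (hys u hu) (hys v hv)
  refine h1.trans ?_
  rw [s7ea_S_add, s7ea_S_add, s7ea_S_add, s7ea_S_smul, s7ea_S_smul, s7ea_S_smul, s7ea_S_smul]
  have sx := s7ea_sqOn_le I x
  have sy := s7ea_sqOn_le I y
  have sx0 : 0 ≤ ∑ u ∈ I, x u ^ 2 := Finset.sum_nonneg (fun s _ => sq_nonneg _)
  have sy0 : 0 ≤ ∑ u ∈ I, y u ^ 2 := Finset.sum_nonneg (fun s _ => sq_nonneg _)
  have sd : ∑ v ∈ I, ((1 / (R.card : ℝ)) ^ 2 + D v v ^ 2) ≤ 1 + τ := by
    rw [Finset.sum_add_distrib, Finset.sum_const, nsmul_eq_mul]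
    have a1 := (s7t_sum_diag_sq_le D I).trans hT
    have a2 : (I.card : ℝ) * (1 / (R.card : ℝ)) ^ 2 ≤ 1 := by
      have h3 : (I.card : ℝ) * (1 / (R.card : ℝ)) ^ 2 ≤ R.card * (1 / (R.card : ℝ)) ^ 2 :=
        mul_le_mul_of_nonneg_right (s7ea_card_le hall) (by positivity)
      have h4 : (R.card : ℝ) * (1 / (R.card : ℝ)) ^ 2 = 1 / R.card := by field_simp
      have h5 : 1 / (R.card : ℝ) ≤ 1 := by
        rw [div_le_one (by linarith)]; linarith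
      linarith
    linarith
  have sd0 : 0 ≤ ∑ v ∈ I, ((1 / (R.card : ℝ)) ^ 2 + D v v ^ 2) :=
    Finset.sum_nonneg (fun s _ => by positivity)
  have c1 := (s7ea_S_cross_le I (fun s => x s ^ 2) (fun s => (1 / (R.card : ℝ)) ^ 2 + D s s ^ 2)
    (fun s => sq_nonneg _) (fun s => by positivity)).trans
    (mul_le_mul (sx.trans hx) sd sd0 hC1)
  have c2 := (s7ea_S_cross_le I (fun s => (1 / (R.card : ℝ)) ^ 2 + D s s ^ 2) (fun s => x s ^ 2)
    (fun s => by positivity) (fun s => sq_nonneg _)).trans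
    (mul_le_mul sd (sx.trans hx) sx0 (by linarith))
  have c3 := (s7ea_S_cross_le I (fun s => x s ^ 2) (fun s => y s ^ 2)
    (fun s => sq_nonneg _) (fun s => sq_nonneg _)).trans
    (mul_le_mul (sx.trans hx) (sy.trans hy) sy0 hC1)
  have c4 := (s7ea_S_cross_le I (fun s => y s ^ 2) (fun s => x s ^ 2)
    (fun s => sq_nonneg _) (fun s => sq_nonneg _)).trans
    (mul_le_mul (sy.trans hy) (sx.trans hx) sx0 hC1)
  have d1 := mul_le_mul_of_nonneg_left c1 (by positivity : 0 ≤ 8 * c ^ 2 * ε1 ^ 2)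
  have d2 := mul_le_mul_of_nonneg_left c2 (by positivity : 0 ≤ 8 * c ^ 2 * ε1 ^ 2)
  have d3 := mul_le_mul_of_nonneg_left c3 (by positivity : 0 ≤ 4 * c ^ 2)
  have d4 := mul_le_mul_of_nonneg_left c4 (by positivity : 0 ≤ 4 * c ^ 2)
  linarith

end Var

/-- **S7-STEP-18**. -/
theorem s7_entryVarA : StS7EntryVarA := by
  intro hmin C0 C1 hhmin hC0 hC1
  obtain ⟨c, εa, l1, hc, hεa, hP⟩ := s7_coefPt hmin C0 hhmin hC0
  obtain ⟨εb, l2, hεb, hJ⟩ := s7_entryJump hmin C0 hhmin hC0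
  refine ⟨6 * (64 * c ^ 2 * C1 + 32 * c ^ 2 * C1 ^ 2) + 24, min εa εb, max (max l1 l2) 8,
    by positivity, lt_min hεa hεb, ?_⟩
  intro ι _ _ σ h ε ε1 β R I D Dh w₁ w₂ p₁ p₂ hb hbh hε hl hall ho1 ho2 hε11 hβ0 hβ1 hdf τ hT hTh
  have hεa' : ε ≤ εa := hε.trans (min_le_left _ _)
  have hεb' : ε ≤ εb := hε.trans (min_le_right _ _)
  have hla : l1 ≤ R.card := le_trans ((le_max_left _ _).trans (le_max_left _ _)) hl
  have hlb : l2 ≤ R.card := le_trans ((le_max_right _ _).trans (le_max_left _ _)) hl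
  have hl8 : 8 ≤ R.card := le_trans (le_max_right _ _) hl
  have hL8 : (8 : ℝ) ≤ R.card := by exact_mod_cast hl8
  have hIc : R.card ≤ I.card + 4 := hall.2
  obtain ⟨i0, hi0⟩ : I.Nonempty := Finset.card_pos.mp (by omega)
  have hε10 : 0 ≤ ε1 := (abs_nonneg _).trans (ho1.ws i0 hi0)
  have hτ : 0 ≤ τ := (s7t_T_nonneg D).trans hT
  constructor
  · have V1 := s7ea_sq_sum (σ := σ) (h := h) hall hl8 hc.le hT ho1.wn ho2.wn ho2.ws
      (fun u hu v hv huv => by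
        have q := hP ι σ h ε R D hb hεa' hla u (hall.1 hu) v (hall.1 hv) huv
        exact ⟨q.2.1, q.2.2.2.1, q.2.2.2.2.1⟩)
    have V2 := s7ea_sq_sum (σ := σ) (h := h) hall hl8 hc.le hTh ho1.pn ho2.pn ho2.ps
      (fun u hu v hv huv => by
        have q := hP ι σ h ε R Dh hbh hεa' hla u (hall.1 hu) v (hall.1 hv) huv
        exact ⟨q.2.1, q.2.2.2.1, q.2.2.2.2.1⟩)
    have h1 : s7ea_S I (fun u v => (s7dE R.card σ h D Dh w₁ w₂ p₁ p₂ u v) ^ 2)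
        ≤ s7ea_S I (fun u v =>
          2 * s7q (s7H R.card σ h D u v) (s7pv w₁ u v) (s7pv w₂ u v) ^ 2
          + 2 * s7q (s7H R.card σ h Dh u v) (s7pv p₁ u v) (s7pv p₂ u v) ^ 2) := by
      refine s7ea_S_mono (fun u _ v _ _ => ?_)
      unfold s7dE
      nlinarith [sq_nonneg (s7q (s7H R.card σ h D u v) (s7pv w₁ u v) (s7pv w₂ u v)
        + s7q (s7H R.card σ h Dh u v) (s7pv p₁ u v) (s7pv p₂ u v))]
    rw [s7ea_S_add, s7ea_S_smul, s7ea_S_smul] at h1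
    have B : s7ea_S I (fun u v => (s7dE R.card σ h D Dh w₁ w₂ p₁ p₂ u v) ^ 2)
        ≤ (64 * c ^ 2 * C1 + 32 * c ^ 2 * C1 ^ 2) * (1 + (1 + τ) * ε1 ^ 2) := by
      have p1 : 0 ≤ c ^ 2 * C1 := by positivity
      have p2 : 0 ≤ c ^ 2 * C1 ^ 2 * ((1 + τ) * ε1 ^ 2) := by positivity
      nlinarith
    have F := s7cc_avg_le hall hl8 _ _ (by positivity) B
    refine F.trans (div_le_div_of_nonneg_right ?_ (by positivity))
    have p3 : 0 ≤ 1 + (1 + τ) * ε1 ^ 2 := by positivity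
    nlinarith
  · intro u hu v hv huv
    have j := hJ ι σ h ε R D Dh w₁ w₂ p₁ p₂ β β β ε1 ε1 ε1 hb hbh hεb' hlb u (hall.1 hu) v
      (hall.1 hv) huv (by
        intro x hx
        have hxI : x ∈ I := by
          rcases hx with e | e <;> rw [e] <;> assumption
        exact ⟨ho1.df x, ho2.df x, ho2.ws x hxI, ho1.ps x hxI, ho2.ps x hxI⟩)
      (fun x y _ _ => hdf x y)
    refine j.trans ?_
    have p1 : 0 ≤ β * ε1 := by positivity
    have p2 : ε1 * ε1 ≤ ε1 := by nlinarith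
    have p3 := mul_le_mul_of_nonneg_left p2 hβ0
    have p4 : 0 ≤ (c ^ 2 * C1 + c ^ 2 * C1 ^ 2) * (β * ε1) := by positivity
    nlinarith

end Claimed.Agent.R275
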