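import Claimed.Agent.R275.S7CoefC
import Claimed.Agent.R275.S7EntryJump

/-!
# Row 275, Section 7, leaf S7-ENTRY-B: Phase B mean and second moment of an entry increment ((7.59), (7.60))

Prover: helper155.  Prefix `s7eb_`.  Statements `StS7EntryMeanB`, `StS7EntryVarB` in `R275/S7Step.lean` (helper245).

Telescoping with the HATTED coefficient in the outer differences (`X = H (A - Â) Ĥ`, `H - Ĥ = -X`, `e = w - p`):
  `ΔE = q(X; w₁, w₂) - q(Ĥ; e₁, w₂) - q(Ĥ; p₁, e₂)`.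
* `|X_ab| ≤ C β`: absolute bound `|∑ q(X; w₁, w₂)| ≤ 4 C β |I| W_g`.
* KEY LEMMA `s7eb_key`: for `|x| ≤ β`, `|∑_I x| ≤ 4 β`, `∑_I y² ≤ W_g`, `|∑_I y| ≤ 4 C₁`:
  `|E q(Ĥ; x, y)| ≤ C β (1/l² + (1 + √τ + Ẑ) √W_g / l)`, from `Ĥ = αF - α² F Â F + K₁ + N̂₂`, `α = -σh`, `|K₁| ≤ 39/l`:
  exact sum for `F`, `StS7SwapArr` for `F Â F`, absolute bound for `K₁`, `StS7Bilin` for `N̂₂`.
* second moment: `q² ≤ 4 ∑ (four terms)²`; opposite ends by `(∑ x²)(∑ y²)`, same ends by `H₀₀² ≤ 2C²(1/l² + D_vv²)`.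
-/

set_option autoImplicit false
set_option linter.unusedSectionVars false
set_option linter.unusedVariables false

namespace Claimed.Agent.R275

open Matrix

/-! ## Sums over ordered pairs -/

section sums

variable {ι : Type*} [DecidableEq ι]

/-- the sum over the ordered pairs of distinct elements of `I` -/
def s7ebS (I : Finset ι) (f : ι → ι → ℝ) : ℝ := ∑ u ∈ I, ∑ v ∈ I.erase u, f u v

theorem s7eb_avg_eq (I : Finset ι) (f : ι → ι → ℝ) :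
    s7avg I f = s7ebS I f / ((I.card : ℝ) * ((I.card : ℝ) - 1)) := rfl

theorem s7eb_S_mono {I : Finset ι} {f g : ι → ι → ℝ}
    (h : ∀ u ∈ I, ∀ v ∈ I, u ≠ v → f u v ≤ g u v) : s7ebS I f ≤ s7ebS I g := by
  refine Finset.sum_le_sum (fun u hu => Finset.sum_le_sum (fun v hv => ?_))
  exact h u hu v (Finset.mem_of_mem_erase hv) (Finset.ne_of_mem_erase hv).symm

theorem s7eb_S_congr {I : Finset ι} {f g : ι → ι → ℝ}
    (h : ∀ u ∈ I, ∀ v ∈ I, u ≠ v → f u v = g u v) : s7ebS I f = s7ebS I g := by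
  refine Finset.sum_congr rfl (fun u hu => Finset.sum_congr rfl (fun v hv => ?_))
  exact h u hu v (Finset.mem_of_mem_erase hv) (Finset.ne_of_mem_erase hv).symm

theorem s7eb_S_abs (I : Finset ι) (f : ι → ι → ℝ) : |s7ebS I f| ≤ s7ebS I (fun u v => |f u v|) :=
  (Finset.abs_sum_le_sum_abs _ _).trans
    (Finset.sum_le_sum fun _ _ => Finset.abs_sum_le_sum_abs _ _)

theorem s7eb_S_add (I : Finset ι) (f g : ι → ι → ℝ) :
    s7ebS I (fun u v => f u v + g u v) = s7ebS I f + s7ebS I g := by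
  simp only [s7ebS, Finset.sum_add_distrib]

theorem s7eb_S_smul (I : Finset ι) (c : ℝ) (f : ι → ι → ℝ) :
    s7ebS I (fun u v => c * f u v) = c * s7ebS I f := by
  simp only [s7ebS, Finset.mul_sum]

theorem s7eb_S_fst (I : Finset ι) (f : ι → ℝ) :
    s7ebS I (fun u _ => f u) = ((I.card : ℝ) - 1) * ∑ u ∈ I, f u := by
  unfold s7ebS
  rw [Finset.mul_sum]
  refine Finset.sum_congr rfl (fun u hu => ?_)
  have h1 : 1 ≤ I.card := Finset.card_pos.2 ⟨u, hu⟩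
  rw [Finset.sum_const, Finset.card_erase_of_mem hu, nsmul_eq_mul, Nat.cast_sub h1]
  simp

theorem s7eb_S_prod (I : Finset ι) (x y : ι → ℝ) :
    s7ebS I (fun u v => x u * y v) = (∑ u ∈ I, x u) * (∑ u ∈ I, y u) - ∑ u ∈ I, x u * y u := by
  unfold s7ebS
  have : ∀ u ∈ I, ∑ v ∈ I.erase u, x u * y v = x u * (∑ v ∈ I, y v) - x u * y u := by
    intro u hu
    rw [← Finset.mul_sum, ← Finset.add_sum_erase I y hu]; ring
  rw [Finset.sum_congr rfl this, Finset.sum_sub_distrib, Finset.sum_mul]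

theorem s7eb_S_snd (I : Finset ι) (f : ι → ℝ) :
    s7ebS I (fun _ v => f v) = ((I.card : ℝ) - 1) * ∑ u ∈ I, f u := by
  have := s7eb_S_prod I (fun _ => 1) f
  simp only [one_mul, Finset.sum_const, nsmul_eq_mul, mul_one] at this
  rw [this]; ring

theorem s7eb_S_prod' (I : Finset ι) (x y : ι → ℝ) :
    s7ebS I (fun u v => x v * y u) = (∑ u ∈ I, x u) * (∑ u ∈ I, y u) - ∑ u ∈ I, x u * y u := by
  have := s7eb_S_prod I y x
  simp only [mul_comm (y _)] at this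
  rw [this, mul_comm]

/-- nonnegative factors: the off-diagonal sum is at most the product of the sums -/
theorem s7eb_S_prod_le (I : Finset ι) (x y : ι → ℝ) (hx : ∀ s, 0 ≤ x s) (hy : ∀ s, 0 ≤ y s) :
    s7ebS I (fun u v => x u * y v) ≤ (∑ u ∈ I, x u) * (∑ u ∈ I, y u) := by
  rw [s7eb_S_prod]
  have : 0 ≤ ∑ u ∈ I, x u * y u := Finset.sum_nonneg fun u _ => mul_nonneg (hx u) (hy u)
  linarith

theorem s7eb_sqOn_abs (I : Finset ι) (x : ι → ℝ) : s7sqOn I (fun s => |x s|) = s7sqOn I x := by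
  simp only [s7sqOn, sq_abs]

theorem s7eb_sqOn_nonneg (I : Finset ι) (x : ι → ℝ) : 0 ≤ s7sqOn I x :=
  Finset.sum_nonneg fun _ _ => sq_nonneg _

/-- `∑_I |x| |y| ≤ ‖x‖ ‖y‖` -/
theorem s7eb_dot_abs (I : Finset ι) (x y : ι → ℝ) :
    ∑ s ∈ I, |x s| * |y s| ≤ √(s7sqOn I x) * √(s7sqOn I y) := by
  have := s7cc_cs I (fun s => |x s|) (fun s => |y s|)
  rwa [s7eb_sqOn_abs, s7eb_sqOn_abs] at this

theorem s7eb_dot (I : Finset ι) (x y : ι → ℝ) :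
    |∑ s ∈ I, x s * y s| ≤ √(s7sqOn I x) * √(s7sqOn I y) := by
  refine (Finset.abs_sum_le_sum_abs _ _).trans ?_
  simp only [abs_mul]
  exact s7eb_dot_abs I x y

theorem s7eb_sum_abs (I : Finset ι) (x : ι → ℝ) :
    ∑ s ∈ I, |x s| ≤ √(I.card : ℝ) * √(s7sqOn I x) := by
  have := s7cc_sum_le I (fun s => |x s|)
  rwa [s7eb_sqOn_abs] at this

/-- the basic absolute pair sum -/
theorem s7eb_S_four (I : Finset ι) (x y : ι → ℝ) :
    s7ebS I (fun u v => (|x u| + |x v|) * (|y u| + |y v|))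
      ≤ 4 * (I.card : ℝ) * (√(s7sqOn I x) * √(s7sqOn I y)) := by
  have e : s7ebS I (fun u v => (|x u| + |x v|) * (|y u| + |y v|))
      = s7ebS I (fun u _ => |x u| * |y u|) + s7ebS I (fun u v => |x u| * |y v|)
        + s7ebS I (fun u v => |x v| * |y u|) + s7ebS I (fun _ v => |x v| * |y v|) := by
    rw [← s7eb_S_add, ← s7eb_S_add, ← s7eb_S_add]
    refine s7eb_S_congr fun u _ v _ _ => ?_
    ring
  rw [e, s7eb_S_fst, s7eb_S_snd, s7eb_S_prod, s7eb_S_prod']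
  have hP := s7eb_dot_abs I x y
  have hP0 : 0 ≤ ∑ s ∈ I, |x s| * |y s| := Finset.sum_nonneg fun s _ => by positivity
  have hX := s7eb_sum_abs I x
  have hY := s7eb_sum_abs I y
  have hX0 : 0 ≤ ∑ s ∈ I, |x s| := Finset.sum_nonneg fun s _ => abs_nonneg _
  have hY0 : 0 ≤ ∑ s ∈ I, |y s| := Finset.sum_nonneg fun s _ => abs_nonneg _
  have hXY : (∑ s ∈ I, |x s|) * (∑ s ∈ I, |y s|)
      ≤ (I.card : ℝ) * (√(s7sqOn I x) * √(s7sqOn I y)) := by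
    calc _ ≤ (√(I.card : ℝ) * √(s7sqOn I x)) * (√(I.card : ℝ) * √(s7sqOn I y)) :=
          mul_le_mul hX hY hY0 (by positivity)
      _ = (√(I.card : ℝ) * √(I.card : ℝ)) * (√(s7sqOn I x) * √(s7sqOn I y)) := by ring
      _ = _ := by rw [Real.mul_self_sqrt (Nat.cast_nonneg _)]
  have hm : (0 : ℝ) ≤ I.card := Nat.cast_nonneg _
  have hmP := mul_le_mul_of_nonneg_left hP hm
  nlinarith

/-! ### bilinear forms of `2 × 2` kernels against two arrays -/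

theorem s7eb_q_eq (N : Matrix (Fin 2) (Fin 2) ℝ) (x y : ι → ℝ) (u v : ι) :
    s7q N (s7pv x u v) (s7pv y u v)
      = N 0 0 * (x u * y u) + N 0 1 * (x u * y v) + N 1 0 * (x v * y u) + N 1 1 * (x v * y v) := by
  simp only [s7q, dotProduct, Matrix.mulVec, Fin.sum_univ_two, s7pv]
  simp
  ring

theorem s7eb_q_abs {N : Matrix (Fin 2) (Fin 2) ℝ} {c : ℝ} (hN : s7nb N c) (x y : ι → ℝ) (u v : ι) :
    |s7q N (s7pv x u v) (s7pv y u v)| ≤ c * ((|x u| + |x v|) * (|y u| + |y v|)) :=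
  s7rs_q_le hN (s7pv x u v) (s7pv y u v)

/-- **Lemma A**: a kernel with entries `≤ c`. -/
theorem s7eb_S_kernel (I : Finset ι) (N : ι → ι → Matrix (Fin 2) (Fin 2) ℝ) (c : ℝ) (hc : 0 ≤ c)
    (hN : ∀ u ∈ I, ∀ v ∈ I, u ≠ v → s7nb (N u v) c) (x y : ι → ℝ) :
    |s7ebS I (fun u v => s7q (N u v) (s7pv x u v) (s7pv y u v))|
      ≤ 4 * c * (I.card : ℝ) * (√(s7sqOn I x) * √(s7sqOn I y)) := by
  refine (s7eb_S_abs _ _).trans ?_
  calc s7ebS I (fun u v => |s7q (N u v) (s7pv x u v) (s7pv y u v)|)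
      ≤ s7ebS I (fun u v => c * ((|x u| + |x v|) * (|y u| + |y v|))) :=
        s7eb_S_mono fun u hu v hv huv => s7eb_q_abs (hN u hu v hv huv) x y u v
    _ = c * s7ebS I (fun u v => (|x u| + |x v|) * (|y u| + |y v|)) := s7eb_S_smul _ _ _
    _ ≤ c * (4 * (I.card : ℝ) * (√(s7sqOn I x) * √(s7sqOn I y))) :=
        mul_le_mul_of_nonneg_left (s7eb_S_four I x y) hc
    _ = _ := by ring

/-- **Lemma V**: second moment of a bilinear form. -/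
theorem s7eb_S_sq (I : Finset ι) (N : ι → ι → Matrix (Fin 2) (Fin 2) ℝ) (c : ℝ) (g : ι → ℝ)
    (hg : ∀ s, 0 ≤ g s)
    (h01 : ∀ u ∈ I, ∀ v ∈ I, u ≠ v → |N u v 0 1| ≤ c) (h10 : ∀ u ∈ I, ∀ v ∈ I, u ≠ v → |N u v 1 0| ≤ c)
    (h00 : ∀ u ∈ I, ∀ v ∈ I, u ≠ v → (N u v 0 0) ^ 2 ≤ g v)
    (h11 : ∀ u ∈ I, ∀ v ∈ I, u ≠ v → (N u v 1 1) ^ 2 ≤ g u) (x y : ι → ℝ) :
    s7ebS I (fun u v => (s7q (N u v) (s7pv x u v) (s7pv y u v)) ^ 2)
      ≤ 8 * c ^ 2 * (s7sqOn I x * s7sqOn I y) + 8 * ((∑ s ∈ I, g s) * ∑ s ∈ I, x s ^ 2 * y s ^ 2) := by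
  have hpt : ∀ u ∈ I, ∀ v ∈ I, u ≠ v → (s7q (N u v) (s7pv x u v) (s7pv y u v)) ^ 2
      ≤ 4 * ((x u ^ 2 * y u ^ 2) * g v) + 4 * c ^ 2 * (x u ^ 2 * y v ^ 2)
        + 4 * c ^ 2 * (y u ^ 2 * x v ^ 2) + 4 * (g u * (x v ^ 2 * y v ^ 2)) := by
    intro u hu v hv huv
    rw [s7eb_q_eq]
    have a1 : (N u v 0 0 * (x u * y u)) ^ 2 ≤ (x u ^ 2 * y u ^ 2) * g v := by
      have := mul_le_mul_of_nonneg_left (h00 u hu v hv huv) (by positivity : 0 ≤ x u ^ 2 * y u ^ 2)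
      calc _ = x u ^ 2 * y u ^ 2 * N u v 0 0 ^ 2 := by ring
        _ ≤ _ := this
    have a4 : (N u v 1 1 * (x v * y v)) ^ 2 ≤ g u * (x v ^ 2 * y v ^ 2) := by
      have := mul_le_mul_of_nonneg_right (h11 u hu v hv huv) (by positivity : 0 ≤ x v ^ 2 * y v ^ 2)
      calc _ = N u v 1 1 ^ 2 * (x v ^ 2 * y v ^ 2) := by ring
        _ ≤ _ := this
    have b01 : N u v 0 1 ^ 2 ≤ c ^ 2 := sq_le_sq' (abs_le.1 (h01 u hu v hv huv)).1
      (abs_le.1 (h01 u hu v hv huv)).2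
    have b10 : N u v 1 0 ^ 2 ≤ c ^ 2 := sq_le_sq' (abs_le.1 (h10 u hu v hv huv)).1
      (abs_le.1 (h10 u hu v hv huv)).2
    have a2 : (N u v 0 1 * (x u * y v)) ^ 2 ≤ c ^ 2 * (x u ^ 2 * y v ^ 2) := by
      have := mul_le_mul_of_nonneg_right b01 (by positivity : 0 ≤ x u ^ 2 * y v ^ 2)
      calc _ = N u v 0 1 ^ 2 * (x u ^ 2 * y v ^ 2) := by ring
        _ ≤ _ := this
    have a3 : (N u v 1 0 * (x v * y u)) ^ 2 ≤ c ^ 2 * (y u ^ 2 * x v ^ 2) := by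
      have := mul_le_mul_of_nonneg_right b10 (by positivity : 0 ≤ y u ^ 2 * x v ^ 2)
      calc _ = N u v 1 0 ^ 2 * (y u ^ 2 * x v ^ 2) := by ring
        _ ≤ _ := this
    have key : ∀ a b c d : ℝ, (a + b + c + d) ^ 2 ≤ 4 * (a ^ 2 + b ^ 2 + c ^ 2 + d ^ 2) := by
      intro a b c d
      nlinarith [sq_nonneg (a - b), sq_nonneg (a - c), sq_nonneg (a - d), sq_nonneg (b - c),
        sq_nonneg (b - d), sq_nonneg (c - d)]
    have := key (N u v 0 0 * (x u * y u)) (N u v 0 1 * (x u * y v)) (N u v 1 0 * (x v * y u))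
      (N u v 1 1 * (x v * y v))
    linarith
  refine (s7eb_S_mono hpt).trans ?_
  rw [s7eb_S_add, s7eb_S_add, s7eb_S_add, s7eb_S_smul, s7eb_S_smul, s7eb_S_smul, s7eb_S_smul]
  have c1 := s7eb_S_prod_le I (fun s => x s ^ 2 * y s ^ 2) g (fun s => by positivity) hg
  have c2 := s7eb_S_prod_le I (fun s => x s ^ 2) (fun s => y s ^ 2) (fun s => by positivity)
    (fun s => by positivity)
  have c3 := s7eb_S_prod_le I (fun s => y s ^ 2) (fun s => x s ^ 2) (fun s => by positivity)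
    (fun s => by positivity)
  have c4 := s7eb_S_prod_le I g (fun s => x s ^ 2 * y s ^ 2) hg (fun s => by positivity)
  have hc2 : 0 ≤ 4 * c ^ 2 := by positivity
  have c2' := mul_le_mul_of_nonneg_left c2 hc2
  have c3' := mul_le_mul_of_nonneg_left c3 hc2
  unfold s7sqOn
  nlinarith

end sums

/-! ## Averages -/

section avg

variable {ι : Type*} [DecidableEq ι]

theorem s7eb_avg_abs_le {R I : Finset ι} (hA : S7Allowed R I) (hl : 8 ≤ R.card) (f : ι → ι → ℝ)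
    (B : ℝ) (hB : |s7ebS I f| ≤ B) : |s7avg I f| ≤ 6 * B / (R.card : ℝ) ^ 2 := by
  have hB0 : 0 ≤ B := (abs_nonneg _).trans hB
  rw [abs_le]
  constructor
  · have := s7cc_avg_le hA hl (fun u v => -f u v) B hB0 (by
      have e : ∑ u ∈ I, ∑ v ∈ I.erase u, -f u v = -s7ebS I f := by
        simp only [s7ebS, Finset.sum_neg_distrib]
      rw [e]
      exact (neg_le_abs _).trans hB)
    have e2 : s7avg I (fun u v => -f u v) = -s7avg I f := by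
      simp only [s7avg, Finset.sum_neg_distrib, neg_div]
    rw [e2] at this
    linarith
  · exact s7cc_avg_le hA hl f B hB0 ((le_abs_self _).trans hB)

end avg

/-! ## Centred arrays, quadratic forms -/

section cent

variable {ι : Type*} [Fintype ι] [DecidableEq ι]

theorem s7eb_cent_sum {R : Finset ι} {r : ι → ℝ} (hR : R.card ≠ 0) (h : S7Cent R r) :
    ∑ x ∈ R, r x = 0 := by
  rcases R.eq_empty_or_nonempty with h0 | ⟨y, _⟩
  · simp [h0]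
  have hM : s7Pi ℝ R * (Matrix.of fun x _ => r x : Matrix ι ι ℝ)
      = (Matrix.of fun x _ => r x : Matrix ι ι ℝ) := by
    funext x z
    rw [Matrix.mul_apply]
    exact congrFun h x
  exact s7cfa_col_sum hR hM y

/-- the sum of a centred array over an allowed set -/
theorem s7eb_cent_sum_I {R I : Finset ι} {r : ι → ℝ} (hA : S7Allowed R I) (hR : R.card ≠ 0)
    (h : S7Cent R r) (b : ℝ) (hb : ∀ x, |r x| ≤ b) : |∑ x ∈ I, r x| ≤ 4 * b := by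
  have h1 := s7eb_cent_sum hR h
  rw [← Finset.sum_sdiff hA.1] at h1
  have h2 : ∑ x ∈ I, r x = -∑ x ∈ R \ I, r x := by linarith
  rw [h2, abs_neg]
  have hb0 : 0 ≤ b := by
    obtain ⟨y, _⟩ := Finset.card_pos.1 (Nat.pos_of_ne_zero hR)
    exact (abs_nonneg _).trans (hb y)
  have hcard : ((R \ I).card : ℝ) ≤ 4 := by
    have := Finset.card_sdiff_add_card_eq_card hA.1
    have h3 := hA.2
    have : (R \ I).card ≤ 4 := by omega
    exact_mod_cast this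
  calc |∑ x ∈ R \ I, r x| ≤ ∑ x ∈ R \ I, |r x| := Finset.abs_sum_le_sum_abs _ _
    _ ≤ ∑ _x ∈ R \ I, b := Finset.sum_le_sum fun x _ => hb x
    _ = ((R \ I).card : ℝ) * b := by rw [Finset.sum_const, nsmul_eq_mul]
    _ ≤ 4 * b := mul_le_mul_of_nonneg_right hcard hb0

theorem s7eb_cent_sub {R : Finset ι} {w p : ι → ℝ} (hw : S7Cent R w) (hp : S7Cent R p) :
    S7Cent R (w - p) := by
  unfold S7Cent at *
  rw [Matrix.mulVec_sub, hw, hp]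

/-- restricted quadratic form against the operator norm -/
theorem s7eb_quad (I : Finset ι) {D : Matrix ι ι ℝ} {Z : ℝ} (hZ : s7opLE D Z) (x y : ι → ℝ) :
    |∑ u ∈ I, ∑ v ∈ I, x u * D u v * y v| ≤ Z * (√(s7sqOn I x) * √(s7sqOn I y)) := by
  have hsq : ∀ z : ι → ℝ, s7sq (fun s => if s ∈ I then z s else 0) = s7sqOn I z := by
    intro z
    simp only [s7sq, s7sqOn, dotProduct, ite_mul, zero_mul, mul_ite, mul_zero,
      Finset.sum_ite_mem, Finset.univ_inter, Finset.inter_self, sq]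
  have e : ∑ u ∈ I, ∑ v ∈ I, x u * D u v * y v
      = (fun s => if s ∈ I then x s else 0) ⬝ᵥ (D *ᵥ fun s => if s ∈ I then y s else 0) := by
    simp only [dotProduct, Matrix.mulVec, ite_mul, zero_mul, mul_ite, mul_zero,
      Finset.sum_ite_mem, Finset.univ_inter, Finset.mul_sum, mul_assoc]
    rw [Finset.sum_comm, Finset.sum_comm (s := Finset.univ)]
    simp only [Finset.sum_ite_mem, Finset.univ_inter]
  rw [e]
  refine (s7t_cs _ _).trans ?_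
  have h1 := s7t_op_sqrt hZ (fun s => if s ∈ I then y s else 0)
  rw [hsq] at h1 ⊢
  calc √(s7sqOn I x) * √(s7sq (D *ᵥ fun s => if s ∈ I then y s else 0))
      ≤ √(s7sqOn I x) * (Z * √(s7sqOn I y)) := mul_le_mul_of_nonneg_left h1 (Real.sqrt_nonneg _)
    _ = _ := by ring

end cent

/-! ## The pieces of the key lemma -/

section key

variable {ι : Type} [Fintype ι] [DecidableEq ι]

theorem s7eb_S_F (I : Finset ι) (x y : ι → ℝ) :
    s7ebS I (fun u v => s7q (F2 ℝ) (s7pv x u v) (s7pv y u v))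
      = 2 * ((∑ s ∈ I, x s) * (∑ s ∈ I, y s) - ∑ s ∈ I, x s * y s) := by
  have e : s7ebS I (fun u v => s7q (F2 ℝ) (s7pv x u v) (s7pv y u v))
      = s7ebS I (fun u v => x u * y v) + s7ebS I (fun u v => x v * y u) := by
    rw [← s7eb_S_add]
    refine s7eb_S_congr fun u _ v _ _ => ?_
    rw [s7eb_q_eq]
    simp [F2]
  rw [e, s7eb_S_prod, s7eb_S_prod']
  ring

theorem s7eb_S_FAF (I : Finset ι) {D : Matrix ι ι ℝ} {Z ε : ℝ} (hs : Dᵀ = D) (hZ : s7opLE D Z)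
    (hε : 0 ≤ ε) (hent : ∀ a b, |D a b| ≤ ε) (x y : ι → ℝ) :
    |s7ebS I (fun u v => s7q (F2 ℝ * s7blk D u v * F2 ℝ) (s7pv x u v) (s7pv y u v))|
      ≤ 2 * (√(I.card : ℝ) * √(s7T D) + Z + 2 * ε) * (√(s7sqOn I x) * √(s7sqOn I y)) := by
  have h := s7_swapArr ℝ ι I D x y hs
  have e : s7ebS I (fun u v => s7q (F2 ℝ * s7blk D u v * F2 ℝ) (s7pv x u v) (s7pv y u v))
      = 2 * ((∑ u ∈ I, D u u) * (∑ u ∈ I, x u * y u) + ∑ u ∈ I, ∑ v ∈ I, x u * D u v * y v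
        - 2 * ∑ u ∈ I, D u u * x u * y u) := h
  rw [e]
  set P := √(s7sqOn I x) * √(s7sqOn I y) with hP
  have hP0 : 0 ≤ P := by positivity
  have h1 : |∑ u ∈ I, D u u| ≤ √(I.card : ℝ) * √(s7T D) :=
    (Finset.abs_sum_le_sum_abs _ _).trans (s7cc_diag_sum I D)
  have h2 : |∑ u ∈ I, x u * y u| ≤ P := s7eb_dot I x y
  have h3 : |∑ u ∈ I, ∑ v ∈ I, x u * D u v * y v| ≤ Z * P := s7eb_quad I hZ x y
  have h4 : |∑ u ∈ I, D u u * x u * y u| ≤ ε * P := by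
    calc |∑ u ∈ I, D u u * x u * y u| ≤ ∑ u ∈ I, |D u u * x u * y u| :=
          Finset.abs_sum_le_sum_abs _ _
      _ ≤ ∑ u ∈ I, ε * (|x u| * |y u|) := by
          refine Finset.sum_le_sum fun u _ => ?_
          rw [abs_mul, abs_mul, mul_assoc]
          exact mul_le_mul_of_nonneg_right (hent u u) (by positivity)
      _ = ε * ∑ u ∈ I, |x u| * |y u| := by rw [Finset.mul_sum]
      _ ≤ ε * P := mul_le_mul_of_nonneg_left (s7eb_dot_abs I x y) hε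
  have h12 : |(∑ u ∈ I, D u u) * (∑ u ∈ I, x u * y u)| ≤ √(I.card : ℝ) * √(s7T D) * P := by
    rw [abs_mul]
    exact mul_le_mul h1 h2 (abs_nonneg _) (by positivity)
  rw [abs_mul, abs_of_pos (by norm_num : (0 : ℝ) < 2)]
  have a1 := abs_sub ((∑ u ∈ I, D u u) * (∑ u ∈ I, x u * y u)
    + ∑ u ∈ I, ∑ v ∈ I, x u * D u v * y v) (2 * ∑ u ∈ I, D u u * x u * y u)
  have a2 := abs_add_le ((∑ u ∈ I, D u u) * (∑ u ∈ I, x u * y u))
    (∑ u ∈ I, ∑ v ∈ I, x u * D u v * y v)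
  rw [abs_mul, abs_of_pos (by norm_num : (0 : ℝ) < 2)] at a1
  nlinarith

/-- the algebraic decomposition of the coefficient -/
theorem s7eb_decomp (H H0 A G : Matrix (Fin 2) (Fin 2) ℝ) :
    H = G - G * A * G + ((H0 - G) - (H0 * A * (H0 - G) + (H0 - G) * A * G))
      + (H - H0 + H0 * A * H0) := by
  noncomm_ring

/-- the small part `K₁` of `H₀ - H₀ A H₀` -/
noncomputable def s7ebK (l : ℕ) (σ h : ℝ) (A : Matrix (Fin 2) (Fin 2) ℝ) :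
    Matrix (Fin 2) (Fin 2) ℝ :=
  (H0 l σ h - (-(σ * h)) • F2 ℝ) - (H0 l σ h * A * (H0 l σ h - (-(σ * h)) • F2 ℝ)
    + (H0 l σ h - (-(σ * h)) • F2 ℝ) * A * ((-(σ * h)) • F2 ℝ))

theorem s7eb_nb_K {l : ℕ} (hl : 3 ≤ l) {σ h ε : ℝ} (hα : |σ * h| ≤ 1) (hε1 : ε ≤ 1)
    {A : Matrix (Fin 2) (Fin 2) ℝ} (hA : s7nb A ε) : s7nb (s7ebK l σ h A) (39 / l) := by
  have hE := s7t_nb_H0_sub hl σ h
  have hH := s7t_nb_H0 hl σ h
  have hG := s7t_nb_F2.smul (-(σ * h))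
  have hh := hE.sub (((hH.mul hA).mul hE).add ((hE.mul hA).mul hG))
  refine hh.mono ?_
  have hε0 := hA.nonneg
  have hl0 : (0 : ℝ) < l := by
    have : (3 : ℝ) ≤ l := by exact_mod_cast hl
    linarith
  rw [abs_neg]
  set a := |σ * h| with ha
  have ha0 : 0 ≤ a := abs_nonneg _
  have ht : 0 ≤ 3 / (l : ℝ) := by positivity
  have e39 : (39 : ℝ) / l = 13 * (3 / l) := by ring
  rw [e39]
  set t := 3 / (l : ℝ) with htdef
  have h1 : a * t ≤ t := by nlinarith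
  have h2 : a * ε ≤ 1 := by nlinarith
  have h3 : 0 ≤ a * ε := mul_nonneg ha0 hε0
  have h4 : 0 ≤ a * t := mul_nonneg ha0 ht
  have h5 : (a * ε) * (a * t) ≤ 1 * t := mul_le_mul h2 h1 h4 (by norm_num)
  nlinarith

theorem s7eb_q_decomp (l : ℕ) (σ h : ℝ) (D : Matrix ι ι ℝ) (u v : ι) (x y : ι → ℝ) :
    s7q (s7H l σ h D u v) (s7pv x u v) (s7pv y u v)
      = (-(σ * h) * s7q (F2 ℝ) (s7pv x u v) (s7pv y u v)
          + -((σ * h) ^ 2) * s7q (F2 ℝ * s7blk D u v * F2 ℝ) (s7pv x u v) (s7pv y u v)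
          + s7q (s7ebK l σ h (s7blk D u v)) (s7pv x u v) (s7pv y u v))
        + s7q (s7N2 l σ h D u v) (s7pv x u v) (s7pv y u v) := by
  have hH := s7eb_decomp (s7H l σ h D u v) (H0 l σ h) (s7blk D u v) ((-(σ * h)) • F2 ℝ)
  have hG : ((-(σ * h)) • F2 ℝ) * s7blk D u v * ((-(σ * h)) • F2 ℝ)
      = ((σ * h) ^ 2) • (F2 ℝ * s7blk D u v * F2 ℝ) := by
    rw [smul_mul_assoc, smul_mul_assoc, mul_smul_comm, smul_smul]
    congr 1
    ring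
  rw [hG] at hH
  have e : ∀ i j, s7H l σ h D u v i j
      = -(σ * h) * F2 ℝ i j - (σ * h) ^ 2 * (F2 ℝ * s7blk D u v * F2 ℝ) i j
        + s7ebK l σ h (s7blk D u v) i j + s7N2 l σ h D u v i j := by
    intro i j
    have := congrFun (congrFun hH i) j
    simp only [s7ebK, s7N2, Matrix.add_apply, Matrix.sub_apply, Matrix.smul_apply, smul_eq_mul]
      at this ⊢
    exact this
  rw [s7eb_q_eq, s7eb_q_eq, s7eb_q_eq, s7eb_q_eq, s7eb_q_eq, e 0 0, e 0 1, e 1 0, e 1 1]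
  ring

theorem s7eb_q_absq (N : Matrix (Fin 2) (Fin 2) ℝ) (x y : ι → ℝ) (u v : ι) :
    |s7q N (s7pv x u v) (s7pv y u v)| ≤ s7absq N (fun s => |x s|) (fun s => |y s|) u v := by
  rw [s7eb_q_eq]
  unfold s7absq
  have a1 := abs_add_le (N 0 0 * (x u * y u) + N 0 1 * (x u * y v) + N 1 0 * (x v * y u))
    (N 1 1 * (x v * y v))
  have a2 := abs_add_le (N 0 0 * (x u * y u) + N 0 1 * (x u * y v)) (N 1 0 * (x v * y u))
  have a3 := abs_add_le (N 0 0 * (x u * y u)) (N 0 1 * (x u * y v))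
  simp only [abs_mul] at a1 a2 a3
  linarith

theorem s7eb_avg_abs {I : Finset ι} (hI : 2 ≤ I.card) (f : ι → ι → ℝ) :
    |s7avg I f| ≤ s7avg I (fun u v => |f u v|) := by
  rw [s7eb_avg_eq, s7eb_avg_eq, abs_div, abs_of_pos (s7t_den_pos hI)]
  exact div_le_div_of_nonneg_right (s7eb_S_abs I f) (s7t_den_pos hI).le

/-- pure arithmetic at the end of the key lemma -/
theorem s7eb_key_arith (C1 CB β l t Z g : ℝ) (hC1 : 0 ≤ C1) (hCB : 0 ≤ CB) (hβ : 0 ≤ β)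
    (hl : 0 < l) (ht : 0 ≤ t) (hZ : 0 ≤ Z) (hg : 0 ≤ g) :
    6 * (32 * β * C1 + (162 + 2 * t + 2 * Z) * l * β * g) / l ^ 2 + CB * (1 + t) * β * g / l
      ≤ (192 * C1 + 1000 + CB) * β * (1 / l ^ 2 + (1 + t + Z) * g / l) := by
  obtain ⟨a, ha⟩ : ∃ a, a = β * (1 / l ^ 2) := ⟨_, rfl⟩
  obtain ⟨b, hb⟩ : ∃ b, b = β * (g / l) := ⟨_, rfl⟩
  have ha0 : 0 ≤ a := by rw [ha]; positivity
  have hb0 : 0 ≤ b := by rw [hb]; positivity
  have e1 : 6 * (32 * β * C1 + (162 + 2 * t + 2 * Z) * l * β * g) / l ^ 2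
      + CB * (1 + t) * β * g / l
      = 192 * C1 * a + 6 * (162 + 2 * t + 2 * Z) * b + CB * (1 + t) * b := by
    rw [ha, hb]; field_simp; ring
  have e2 : (192 * C1 + 1000 + CB) * β * (1 / l ^ 2 + (1 + t + Z) * g / l)
      = (192 * C1 + 1000 + CB) * (a + (1 + t + Z) * b) := by
    rw [ha, hb]; field_simp
  rw [e1, e2]
  nlinarith [mul_nonneg hCB ha0, mul_nonneg hC1 hb0, mul_nonneg (mul_nonneg hC1 ht) hb0,
    mul_nonneg (mul_nonneg hC1 hZ) hb0, mul_nonneg ht hb0, mul_nonneg hZ hb0,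
    mul_nonneg (mul_nonneg hCB hZ) hb0]

theorem s7eb_key_arith2 (a β C1 P r t Z l g S1 S2 S3 : ℝ) (ha : |a| ≤ 1) (hβ0 : 0 ≤ β)
    (hg0 : 0 ≤ g) (hr0 : 0 ≤ r) (ht0 : 0 ≤ t) (hZ0 : 0 ≤ Z) (hrr : r * r = l) (hrl : r ≤ l)
    (hPle : P ≤ r * β * g) (b1 : |S1| ≤ 2 * (16 * β * C1 + P))
    (b2 : |S2| ≤ 2 * (r * t + Z + 2) * P) (b3 : |S3| ≤ 156 * P) :
    |-a * S1 + -(a ^ 2) * S2 + S3| ≤ 32 * β * C1 + (162 + 2 * t + 2 * Z) * l * β * g := by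
  have ha2 : a ^ 2 ≤ 1 := by rw [← sq_abs]; nlinarith [abs_nonneg a]
  have c1 : |-a * S1| ≤ |S1| := by
    rw [abs_mul, abs_neg]; nlinarith [abs_nonneg S1]
  have c2 : |-(a ^ 2) * S2| ≤ |S2| := by
    rw [abs_mul, abs_neg, abs_of_nonneg (sq_nonneg _)]; nlinarith [abs_nonneg S2]
  have a1 := abs_add_le (-a * S1 + -(a ^ 2) * S2) S3
  have a2 := abs_add_le (-a * S1) (-(a ^ 2) * S2)
  have hbg : 0 ≤ β * g := mul_nonneg hβ0 hg0
  have k1 : (162 + 2 * (r * t) + 2 * Z) * P ≤ (162 + 2 * (r * t) + 2 * Z) * (r * β * g) :=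
    mul_le_mul_of_nonneg_left hPle (by positivity)
  have k2 : (162 + 2 * (r * t) + 2 * Z) * (r * β * g)
      = (162 * r + 2 * (r * r) * t + 2 * Z * r) * (β * g) := by ring
  have k3 : 162 * r + 2 * (r * r) * t + 2 * Z * r ≤ 162 * l + 2 * l * t + 2 * Z * l := by
    rw [hrr]
    have := mul_le_mul_of_nonneg_left hrl hZ0
    linarith
  have k4 := mul_le_mul_of_nonneg_right k3 hbg
  have k5 : (162 * l + 2 * l * t + 2 * Z * l) * (β * g) = (162 + 2 * t + 2 * Z) * l * β * g := by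
    ring
  have k6 : 2 * (16 * β * C1 + P) + 2 * (r * t + Z + 2) * P + 156 * P
      = 32 * β * C1 + (162 + 2 * (r * t) + 2 * Z) * P := by ring
  linarith

/-- **Key lemma**, explicit form. -/
theorem s7eb_key_core {hmin C0 ε σ h : ℝ} {R I : Finset ι} {D : Matrix ι ι ℝ}
    (hb : S7Base hmin C0 ε σ h R D) (hmin0 : 0 < hmin) (hε1 : ε ≤ 1) (hl : 8 ≤ R.card)
    (hA : S7Allowed R I) (CB : ℝ) (hCB : 0 ≤ CB)
    (hN2 : ∀ x y : ι → ℝ, (∀ s, 0 ≤ x s) → (∀ s, 0 ≤ y s) →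
      s7avg I (fun u v => s7absq (s7N2 R.card σ h D u v) x y u v) ≤
        CB * ε * (1 + √(s7T D)) / ((R.card : ℝ) * √(R.card : ℝ)) *
          (√(s7sqOn I x) * √(s7sqOn I y)))
    (Z τ Wg β C1 : ℝ) (hZ : s7opLE D Z) (hτ : s7T D ≤ τ) (x y : ι → ℝ) (hx : ∀ s, |x s| ≤ β)
    (hxs : |∑ s ∈ I, x s| ≤ 4 * β) (hy : s7sqOn I y ≤ Wg) (hys : |∑ s ∈ I, y s| ≤ 4 * C1) :
    |s7avg I (fun u v => s7q (s7H R.card σ h D u v) (s7pv x u v) (s7pv y u v))|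
      ≤ (192 * C1 + 1000 + CB) * β * (1 / (R.card : ℝ) ^ 2 + (1 + √τ + Z) * √Wg / R.card) := by
  obtain ⟨hm1, hm2, hl8, hden⟩ := s7cc_card hA hl
  have hI2 : 2 ≤ I.card := by have := hA.2; omega
  have hβ0 : 0 ≤ β := by have := (abs_nonneg _).trans hxs; linarith
  have hC10 : 0 ≤ C1 := by have := (abs_nonneg _).trans hys; linarith
  have hε0 : 0 ≤ ε := by
    obtain ⟨s, _⟩ := Finset.card_pos.1 (by omega : 0 < R.card)
    exact (abs_nonneg _).trans (hb.ent s s)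
  have hh0 : 0 < h := lt_of_lt_of_le hmin0 hb.h_lo
  have hα : |σ * h| ≤ 1 := by
    have hσ : |σ| = 1 := by rcases hb.sig with e | e <;> rw [e] <;> simp
    rw [abs_mul, hσ, one_mul, abs_of_pos hh0]
    linarith [hb.h_hi]
  have hα2 : (σ * h) ^ 2 ≤ 1 := by
    rw [← sq_abs]; nlinarith [abs_nonneg (σ * h)]
  obtain ⟨l, hldef⟩ : ∃ l : ℝ, l = (R.card : ℝ) := ⟨_, rfl⟩
  rw [← hldef] at hm1 hm2 hl8 hden hN2 ⊢
  obtain ⟨m, hmdef⟩ : ∃ m : ℝ, m = (I.card : ℝ) := ⟨_, rfl⟩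
  have hm0 : 0 ≤ m := by rw [hmdef]; positivity
  obtain ⟨r, hr⟩ : ∃ r, r = √l := ⟨_, rfl⟩
  have hr0 : 0 ≤ r := by rw [hr]; positivity
  have hrr : r * r = l := by rw [hr]; exact Real.mul_self_sqrt (by linarith)
  have hr1 : 1 ≤ r := by rw [hr]; exact Real.one_le_sqrt.2 (by linarith)
  have hrl : r ≤ l := by nlinarith
  obtain ⟨t, ht⟩ : ∃ t, t = √τ := ⟨_, rfl⟩
  have ht0 : 0 ≤ t := by rw [ht]; positivity
  have hTt : √(s7T D) ≤ t := by rw [ht]; exact Real.sqrt_le_sqrt hτ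
  have hT0 : 0 ≤ √(s7T D) := Real.sqrt_nonneg _
  obtain ⟨g, hg⟩ : ∃ g, g = √Wg := ⟨_, rfl⟩
  have hg0 : 0 ≤ g := by rw [hg]; positivity
  rw [← ht, ← hg]
  have hZ0 := hZ.1
  -- the norms
  have hsx : √(s7sqOn I x) ≤ r * β := by
    have h1 : s7sqOn I x ≤ (r * β) ^ 2 := by
      calc s7sqOn I x ≤ ∑ _s ∈ I, β ^ 2 := by
            refine Finset.sum_le_sum fun s _ => ?_
            exact sq_le_sq' (abs_le.1 (hx s)).1 (abs_le.1 (hx s)).2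
        _ = m * β ^ 2 := by rw [Finset.sum_const, nsmul_eq_mul, hmdef]
        _ ≤ l * β ^ 2 := by
            rw [hmdef]; exact mul_le_mul_of_nonneg_right hm1 (by positivity)
        _ = (r * β) ^ 2 := by rw [← hrr]; ring
    exact (Real.sqrt_le_sqrt h1).trans (by rw [Real.sqrt_sq (by positivity)])
  have hsy : √(s7sqOn I y) ≤ g := by rw [hg]; exact Real.sqrt_le_sqrt hy
  obtain ⟨P, hP⟩ : ∃ P, P = √(s7sqOn I x) * √(s7sqOn I y) := ⟨_, rfl⟩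
  have hP0 : 0 ≤ P := by rw [hP]; positivity
  have hPle : P ≤ r * β * g := by
    rw [hP]; exact mul_le_mul hsx hsy (Real.sqrt_nonneg _) (by positivity)
  have hl0 : 0 < l := by linarith
  -- the three explicit sums
  have b1 : |s7ebS I (fun u v => s7q (F2 ℝ) (s7pv x u v) (s7pv y u v))|
      ≤ 2 * (16 * β * C1 + P) := by
    rw [s7eb_S_F, abs_mul, abs_of_pos (by norm_num : (0 : ℝ) < 2)]
    have h1 : |(∑ s ∈ I, x s) * (∑ s ∈ I, y s)| ≤ (4 * β) * (4 * C1) := by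
      rw [abs_mul]; exact mul_le_mul hxs hys (abs_nonneg _) (by positivity)
    have h2 : |∑ s ∈ I, x s * y s| ≤ P := by rw [hP]; exact s7eb_dot I x y
    have := abs_sub ((∑ s ∈ I, x s) * (∑ s ∈ I, y s)) (∑ s ∈ I, x s * y s)
    linarith
  have b2 : |s7ebS I (fun u v => s7q (F2 ℝ * s7blk D u v * F2 ℝ) (s7pv x u v) (s7pv y u v))|
      ≤ 2 * (r * t + Z + 2) * P := by
    have h0 := s7eb_S_FAF I hb.symm hZ hε0 hb.ent x y
    rw [← hP] at h0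
    refine h0.trans ?_
    have h1 : √(I.card : ℝ) ≤ r := by rw [hr]; exact Real.sqrt_le_sqrt hm1
    have h2 : √(I.card : ℝ) * √(s7T D) ≤ r * t := mul_le_mul h1 hTt hT0 hr0
    have h3 : 2 * (√(I.card : ℝ) * √(s7T D) + Z + 2 * ε) ≤ 2 * (r * t + Z + 2) := by linarith
    exact mul_le_mul_of_nonneg_right h3 hP0
  have b3 : |s7ebS I (fun u v => s7q (s7ebK R.card σ h (s7blk D u v)) (s7pv x u v)
      (s7pv y u v))| ≤ 156 * P := by
    have hnb : ∀ u ∈ I, ∀ v ∈ I, u ≠ v →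
        s7nb (s7ebK R.card σ h (s7blk D u v)) (39 / (R.card : ℝ)) :=
      fun u _ v _ _ => s7eb_nb_K (by omega) hα hε1 (fun i j => hb.ent _ _)
    have h0 := s7eb_S_kernel I _ (39 / (R.card : ℝ)) (by positivity) hnb x y
    rw [← hP, ← hldef] at h0
    refine h0.trans ?_
    have h1 : 4 * (39 / l) * (I.card : ℝ) ≤ 156 := by
      rw [show 4 * (39 / l) * (I.card : ℝ) = 156 * ((I.card : ℝ) / l) by ring]
      have : (I.card : ℝ) / l ≤ 1 := by rw [div_le_one hl0]; exact hm1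
      linarith
    exact mul_le_mul_of_nonneg_right h1 hP0
  have hsplit : s7avg I (fun u v => s7q (s7H R.card σ h D u v) (s7pv x u v) (s7pv y u v))
      = s7avg I (fun u v => -(σ * h) * s7q (F2 ℝ) (s7pv x u v) (s7pv y u v)
          + -((σ * h) ^ 2) * s7q (F2 ℝ * s7blk D u v * F2 ℝ) (s7pv x u v) (s7pv y u v)
          + s7q (s7ebK R.card σ h (s7blk D u v)) (s7pv x u v) (s7pv y u v))
        + s7avg I (fun u v => s7q (s7N2 R.card σ h D u v) (s7pv x u v) (s7pv y u v)) := by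
    rw [← s7t_avg_add]
    exact s7t_avg_congr fun u _ v _ _ => s7eb_q_decomp _ _ _ _ _ _ _ _
  have hS1 : |s7ebS I (fun u v => -(σ * h) * s7q (F2 ℝ) (s7pv x u v) (s7pv y u v)
          + -((σ * h) ^ 2) * s7q (F2 ℝ * s7blk D u v * F2 ℝ) (s7pv x u v) (s7pv y u v)
          + s7q (s7ebK R.card σ h (s7blk D u v)) (s7pv x u v) (s7pv y u v))|
      ≤ 32 * β * C1 + (162 + 2 * t + 2 * Z) * l * β * g := by
    rw [s7eb_S_add, s7eb_S_add, s7eb_S_smul, s7eb_S_smul]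
    generalize s7ebS I (fun u v => s7q (F2 ℝ) (s7pv x u v) (s7pv y u v)) = S1 at b1 ⊢
    generalize s7ebS I (fun u v => s7q (F2 ℝ * s7blk D u v * F2 ℝ) (s7pv x u v)
      (s7pv y u v)) = S2 at b2 ⊢
    generalize s7ebS I (fun u v => s7q (s7ebK R.card σ h (s7blk D u v)) (s7pv x u v)
      (s7pv y u v)) = S3 at b3 ⊢
    exact s7eb_key_arith2 (σ * h) β C1 P r t Z l g S1 S2 S3 hα hβ0 hg0 hr0 ht0 hZ0 hrr hrl hPle b1 b2 b3
  have hS2 : |s7avg I (fun u v => s7q (s7N2 R.card σ h D u v) (s7pv x u v) (s7pv y u v))|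
      ≤ CB * (1 + t) * β * g / l := by
    refine (s7eb_avg_abs hI2 _).trans ?_
    refine (s7t_avg_mono hI2 (fun u _ v _ _ => s7eb_q_absq _ x y u v)).trans ?_
    refine (hN2 _ _ (fun s => abs_nonneg _) (fun s => abs_nonneg _)).trans ?_
    rw [s7eb_sqOn_abs, s7eb_sqOn_abs, ← hP, ← hr]
    have h1 : CB * ε * (1 + √(s7T D)) ≤ CB * (1 + t) := by
      have h2 : CB * ε ≤ CB := by nlinarith
      calc _ ≤ CB * (1 + √(s7T D)) := mul_le_mul_of_nonneg_right h2 (by positivity)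
        _ ≤ CB * (1 + t) := mul_le_mul_of_nonneg_left (by linarith) hCB
    have hr0' : 0 < r := by linarith
    have hlr : 0 < l * r := by positivity
    calc CB * ε * (1 + √(s7T D)) / (l * r) * P ≤ CB * (1 + t) / (l * r) * (r * β * g) :=
          mul_le_mul (div_le_div_of_nonneg_right h1 hlr.le) hPle hP0 (by positivity)
      _ = CB * (1 + t) * β * g / l := by field_simp
  rw [hsplit]
  have hA1 := s7eb_avg_abs_le hA hl _ _ hS1
  rw [← hldef] at hA1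
  have fin := s7eb_key_arith C1 CB β l t Z g hC10 hCB hβ0 hl0 ht0 hZ0 hg0
  exact (abs_add_le _ _).trans ((add_le_add hA1 hS2).trans fin)

/-- telescoping with the hatted coefficient in the outer differences -/
theorem s7eb_tel (H Hh X : Matrix (Fin 2) (Fin 2) ℝ) (hX : H - Hh = -X) (hsym : Hhᵀ = Hh)
    (w1 w2 p1 p2 : ι → ℝ) (u v : ι) :
    -(s7q H (s7pv w1 u v) (s7pv w2 u v)) + s7q Hh (s7pv p1 u v) (s7pv p2 u v)
      = s7q X (s7pv w1 u v) (s7pv w2 u v) - s7q Hh (s7pv (w1 - p1) u v) (s7pv w2 u v)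
        - s7q Hh (s7pv (w2 - p2) u v) (s7pv p1 u v) := by
  have e : ∀ i j, H i j = Hh i j - X i j := by
    intro i j
    have := congrFun (congrFun hX i) j
    simp only [Matrix.sub_apply, Matrix.neg_apply] at this
    linarith
  have e10 : Hh 1 0 = Hh 0 1 := by
    conv_lhs => rw [← hsym]
    rfl
  simp only [s7eb_q_eq, e, e10, Pi.sub_apply]
  ring

/-- the pointwise facts on the two coefficients -/
theorem s7eb_pt {CP β σ h : ℝ} {l : ℕ} {D Dh : Matrix ι ι ℝ} {u v : ι}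
    (hU : IsUnit ((H0 l σ h)⁻¹ + s7blk D u v)) (hUh : IsUnit ((H0 l σ h)⁻¹ + s7blk Dh u v))
    (nH : s7nb (s7H l σ h D u v) CP) (nHh : s7nb (s7H l σ h Dh u v) CP)
    (hDD : ∀ a b, |D a b - Dh a b| ≤ β) :
    s7H l σ h D u v - s7H l σ h Dh u v
        = -(s7H l σ h D u v * (s7blk D u v - s7blk Dh u v) * s7H l σ h Dh u v) ∧
      s7nb (s7H l σ h D u v * (s7blk D u v - s7blk Dh u v) * s7H l σ h Dh u v)
        (4 * CP ^ 2 * β) := by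
  refine ⟨s7_hDiff ℝ ι l σ h D Dh u v hU hUh, ?_⟩
  have nA : s7nb (s7blk D u v - s7blk Dh u v) β := fun i j => hDD _ _
  refine ((nH.mul nA).mul nHh).mono (le_of_eq ?_)
  ring

theorem s7eb_sqrt_mul_le {a b W : ℝ} (ha : a ≤ W) (hb : b ≤ W) (hW : 0 ≤ W) : √a * √b ≤ W := by
  calc √a * √b ≤ √W * √W :=
        mul_le_mul (Real.sqrt_le_sqrt ha) (Real.sqrt_le_sqrt hb) (Real.sqrt_nonneg _)
          (Real.sqrt_nonneg _)
    _ = W := Real.mul_self_sqrt hW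

end key

/-- **S7-STEP-20** ((7.60), Phase B). -/
theorem s7_entryMeanB : StS7EntryMeanB := by
  intro hmin C0 C1 hmin0 hC0 hC1
  obtain ⟨CP, εP, lP, hCP, hεP, hPt⟩ := s7_coefPt hmin C0 hmin0 hC0
  obtain ⟨CB, εB, lB, hCB, hεB, hBil⟩ := s7_bilin hmin C0 hmin0 hC0
  refine ⟨96 * CP ^ 2 + 2 * (192 * C1 + 1000 + CB), min (min εP εB) 1, max (max lP lB) 8,
    by positivity, lt_min (lt_min hεP hεB) one_pos, ?_⟩
  intro ι _ _ σ h ε ε1 β R I D Dh w₁ w₂ p₁ p₂ hb hbh hε hl hA O1 O2 hε1 hβ0 hβ1 hDD Zh τ Wg hZh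
    hT hTh hw1 hw2 hp1 hp2
  have hεP' : ε ≤ εP := hε.trans ((min_le_left _ _).trans (min_le_left _ _))
  have hεB' : ε ≤ εB := hε.trans ((min_le_left _ _).trans (min_le_right _ _))
  have hε1' : ε ≤ 1 := hε.trans (min_le_right _ _)
  have hlP' : lP ≤ R.card := le_trans ((le_max_left _ _).trans (le_max_left _ _)) hl
  have hlB' : lB ≤ R.card := le_trans ((le_max_right _ _).trans (le_max_left _ _)) hl
  have hl8 : 8 ≤ R.card := le_trans (le_max_right _ _) hl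
  have hR0 : R.card ≠ 0 := by omega
  obtain ⟨hm1, hm2, hl8', hden⟩ := s7cc_card hA hl8
  have hWg0 : 0 ≤ Wg := (s7eb_sqOn_nonneg I w₁).trans hw1
  have hl0 : (0 : ℝ) < R.card := by linarith
  -- pointwise telescoping
  have hpt : ∀ u ∈ I, ∀ v ∈ I, u ≠ v →
      s7dE R.card σ h D Dh w₁ w₂ p₁ p₂ u v
        = s7q (s7H R.card σ h D u v * (s7blk D u v - s7blk Dh u v) * s7H R.card σ h Dh u v)
            (s7pv w₁ u v) (s7pv w₂ u v)
          - s7q (s7H R.card σ h Dh u v) (s7pv (w₁ - p₁) u v) (s7pv w₂ u v)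
          - s7q (s7H R.card σ h Dh u v) (s7pv (w₂ - p₂) u v) (s7pv p₁ u v) := by
    intro u hu v hv huv
    obtain ⟨hU, nH, -⟩ := hPt ι σ h ε R D hb hεP' hlP' u (hA.1 hu) v (hA.1 hv) huv
    obtain ⟨hUh, nHh, hsym, -⟩ := hPt ι σ h ε R Dh hbh hεP' hlP' u (hA.1 hu) v (hA.1 hv) huv
    exact s7eb_tel _ _ _ (s7eb_pt hU hUh nH nHh hDD).1 hsym w₁ w₂ p₁ p₂ u v
  rw [s7t_avg_congr hpt, s7t_avg_sub, s7t_avg_sub]
  -- the coefficient difference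
  have t1 : |s7avg I (fun u v => s7q (s7H R.card σ h D u v * (s7blk D u v - s7blk Dh u v)
      * s7H R.card σ h Dh u v) (s7pv w₁ u v) (s7pv w₂ u v))|
      ≤ 96 * CP ^ 2 * β * (Wg / R.card) := by
    have hnb : ∀ u ∈ I, ∀ v ∈ I, u ≠ v → s7nb (s7H R.card σ h D u v
        * (s7blk D u v - s7blk Dh u v) * s7H R.card σ h Dh u v) (4 * CP ^ 2 * β) := by
      intro u hu v hv huv
      obtain ⟨hU, nH, -⟩ := hPt ι σ h ε R D hb hεP' hlP' u (hA.1 hu) v (hA.1 hv) huv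
      obtain ⟨hUh, nHh, -⟩ := hPt ι σ h ε R Dh hbh hεP' hlP' u (hA.1 hu) v (hA.1 hv) huv
      exact (s7eb_pt hU hUh nH nHh hDD).2
    have h0 := s7eb_S_kernel I _ (4 * CP ^ 2 * β) (by positivity) hnb w₁ w₂
    have h1 : 4 * (4 * CP ^ 2 * β) * (I.card : ℝ) * (√(s7sqOn I w₁) * √(s7sqOn I w₂))
        ≤ 4 * (4 * CP ^ 2 * β) * (R.card : ℝ) * Wg :=
      mul_le_mul (mul_le_mul_of_nonneg_left hm1 (by positivity))
        (s7eb_sqrt_mul_le hw1 hw2 hWg0) (by positivity) (by positivity)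
    refine (s7eb_avg_abs_le hA hl8 _ _ (h0.trans h1)).trans (le_of_eq ?_)
    field_simp
    ring
  have hN2 : ∀ x y : ι → ℝ, (∀ s, 0 ≤ x s) → (∀ s, 0 ≤ y s) →
      s7avg I (fun u v => s7absq (s7N2 R.card σ h Dh u v) x y u v) ≤
        CB * ε * (1 + √(s7T Dh)) / ((R.card : ℝ) * √(R.card : ℝ)) *
          (√(s7sqOn I x) * √(s7sqOn I y)) :=
    fun x y hx hy => (hBil ι σ h ε R I Dh x y hbh hεB' hlB' hA hx hy).2
  have t2 := s7eb_key_core hbh hmin0 hε1' hl8 hA CB hCB.le hN2 Zh τ Wg β C1 hZh hTh (w₁ - p₁) w₂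
    O1.df (s7eb_cent_sum_I hA hR0 (s7eb_cent_sub O1.wc O1.pc) β O1.df) hw2
    (s7eb_cent_sum_I hA hR0 O2.wc C1 O2.wb)
  have t3 := s7eb_key_core hbh hmin0 hε1' hl8 hA CB hCB.le hN2 Zh τ Wg β C1 hZh hTh (w₂ - p₂) p₁
    O2.df (s7eb_cent_sum_I hA hR0 (s7eb_cent_sub O2.wc O2.pc) β O2.df) hp1
    (s7eb_cent_sum_I hA hR0 O1.pc C1 O1.pb)
  have a1 := abs_sub (s7avg I (fun u v => s7q (s7H R.card σ h D u v
      * (s7blk D u v - s7blk Dh u v) * s7H R.card σ h Dh u v) (s7pv w₁ u v) (s7pv w₂ u v))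
      - s7avg I (fun u v => s7q (s7H R.card σ h Dh u v) (s7pv (w₁ - p₁) u v) (s7pv w₂ u v)))
    (s7avg I (fun u v => s7q (s7H R.card σ h Dh u v) (s7pv (w₂ - p₂) u v) (s7pv p₁ u v)))
  have a2 := abs_sub (s7avg I (fun u v => s7q (s7H R.card σ h D u v
      * (s7blk D u v - s7blk Dh u v) * s7H R.card σ h Dh u v) (s7pv w₁ u v) (s7pv w₂ u v)))
    (s7avg I (fun u v => s7q (s7H R.card σ h Dh u v) (s7pv (w₁ - p₁) u v) (s7pv w₂ u v)))
  refine a1.trans ((add_le_add (a2.trans (add_le_add t1 t2)) t3).trans ?_)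
  have hZh0 := hZh.1
  have n1 : 0 ≤ β * (1 / (R.card : ℝ) ^ 2) := by positivity
  have n2 : 0 ≤ β * (Wg / (R.card : ℝ)) := by positivity
  have n3 : 0 ≤ β * ((1 + √τ + Zh) * √Wg / (R.card : ℝ)) := by positivity
  have hK0 : 0 ≤ 192 * C1 + 1000 + CB := by positivity
  have hP0 : 0 ≤ 96 * CP ^ 2 := by positivity
  nlinarith [mul_nonneg hK0 n2, mul_nonneg hP0 n1, mul_nonneg hP0 n3]

/-! ## The second moment -/

theorem s7eb_var_arith (CP β ε1 τ Wg Eg l : ℝ) (hτ : 0 ≤ τ) (hW : 0 ≤ Wg) (hE : 0 ≤ Eg)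
    (hl : 0 < l) :
    6 * (3 * ((8 * (4 * CP ^ 2 * β) ^ 2 * (Wg * Wg) + 8 * ((l * (4 * CP ^ 2 * β) ^ 2) * (ε1 ^ 2 * Wg)))
        + (8 * CP ^ 2 * (Eg * Wg) + 8 * ((2 * CP ^ 2 * (1 + τ)) * (β ^ 2 * Wg)))
        + (8 * CP ^ 2 * (Eg * Wg) + 8 * ((2 * CP ^ 2 * (1 + τ)) * (β ^ 2 * Wg))))) / l ^ 2
      ≤ 18 * (128 * CP ^ 4 + 32 * CP ^ 2) * ((Eg * Wg + β ^ 2 * Wg ^ 2) / l ^ 2
          + (1 + τ) * β ^ 2 * Wg / l ^ 2 + β ^ 2 * ε1 ^ 2 * Wg / l) := by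
  obtain ⟨A1, h1⟩ : ∃ A, A = Eg * Wg / l ^ 2 := ⟨_, rfl⟩
  obtain ⟨A2, h2⟩ : ∃ A, A = β ^ 2 * Wg ^ 2 / l ^ 2 := ⟨_, rfl⟩
  obtain ⟨A3, h3⟩ : ∃ A, A = (1 + τ) * β ^ 2 * Wg / l ^ 2 := ⟨_, rfl⟩
  obtain ⟨A4, h4⟩ : ∃ A, A = β ^ 2 * ε1 ^ 2 * Wg / l := ⟨_, rfl⟩
  have n1 : 0 ≤ A1 := by rw [h1]; positivity
  have n2 : 0 ≤ A2 := by rw [h2]; positivity
  have n3 : 0 ≤ A3 := by rw [h3]; positivity
  have n4 : 0 ≤ A4 := by rw [h4]; positivity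
  have e1 : 6 * (3 * ((8 * (4 * CP ^ 2 * β) ^ 2 * (Wg * Wg)
        + 8 * ((l * (4 * CP ^ 2 * β) ^ 2) * (ε1 ^ 2 * Wg)))
        + (8 * CP ^ 2 * (Eg * Wg) + 8 * ((2 * CP ^ 2 * (1 + τ)) * (β ^ 2 * Wg)))
        + (8 * CP ^ 2 * (Eg * Wg) + 8 * ((2 * CP ^ 2 * (1 + τ)) * (β ^ 2 * Wg))))) / l ^ 2
      = 18 * (128 * CP ^ 4 * A2 + 128 * CP ^ 4 * A4 + 16 * CP ^ 2 * A1 + 32 * CP ^ 2 * A3) := by
    rw [h1, h2, h3, h4]; field_simp; ring
  have e2 : (Eg * Wg + β ^ 2 * Wg ^ 2) / l ^ 2 + (1 + τ) * β ^ 2 * Wg / l ^ 2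
      + β ^ 2 * ε1 ^ 2 * Wg / l = A1 + A2 + A3 + A4 := by
    rw [h1, h2, h3, h4]; ring
  rw [e1, e2]
  have c4 : 0 ≤ CP ^ 4 := by positivity
  have c2 : 0 ≤ CP ^ 2 := by positivity
  nlinarith [mul_nonneg c4 n1, mul_nonneg c4 n2, mul_nonneg c4 n3, mul_nonneg c4 n4,
    mul_nonneg c2 n1, mul_nonneg c2 n2, mul_nonneg c2 n3, mul_nonneg c2 n4]

section var

variable {ι : Type} [Fintype ι] [DecidableEq ι]

/-- `∑_I x² y² ≤ b² ∑_I y²` -/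
theorem s7eb_sum_sq_sq (I : Finset ι) (x y : ι → ℝ) (b W : ℝ) (hx : ∀ s ∈ I, |x s| ≤ b)
    (hy : s7sqOn I y ≤ W) : ∑ s ∈ I, x s ^ 2 * y s ^ 2 ≤ b ^ 2 * W := by
  calc ∑ s ∈ I, x s ^ 2 * y s ^ 2 ≤ ∑ s ∈ I, b ^ 2 * y s ^ 2 := by
        refine Finset.sum_le_sum fun s hs => ?_
        exact mul_le_mul_of_nonneg_right (sq_le_sq' (abs_le.1 (hx s hs)).1 (abs_le.1 (hx s hs)).2)
          (sq_nonneg _)
    _ = b ^ 2 * s7sqOn I y := by rw [s7sqOn, Finset.mul_sum]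
    _ ≤ b ^ 2 * W := mul_le_mul_of_nonneg_left hy (sq_nonneg _)

/-- second moment of `q(Ĥ; x, y)`: `∑_I x² ≤ E`, `|x| ≤ β`, `∑_I y² ≤ W`. -/
theorem s7eb_var_H {R I : Finset ι} (hA : S7Allowed R I) (hl : 8 ≤ R.card) {CP σ h τ : ℝ}
    {D : Matrix ι ι ℝ} (hCP : 0 ≤ CP) (hτ : s7T D ≤ τ)
    (nH : ∀ u ∈ I, ∀ v ∈ I, u ≠ v → s7nb (s7H R.card σ h D u v) CP)
    (h00 : ∀ u ∈ I, ∀ v ∈ I, u ≠ v →
      |s7H R.card σ h D u v 0 0| ≤ CP * (1 / (R.card : ℝ) + |D v v|))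
    (h11 : ∀ u ∈ I, ∀ v ∈ I, u ≠ v →
      |s7H R.card σ h D u v 1 1| ≤ CP * (1 / (R.card : ℝ) + |D u u|))
    (x y : ι → ℝ) (β E W : ℝ) (hx : ∀ s, |x s| ≤ β) (hxE : s7sqOn I x ≤ E) (hy : s7sqOn I y ≤ W) :
    s7ebS I (fun u v => (s7q (s7H R.card σ h D u v) (s7pv x u v) (s7pv y u v)) ^ 2)
      ≤ 8 * CP ^ 2 * (E * W) + 8 * ((2 * CP ^ 2 * (1 + τ)) * (β ^ 2 * W)) := by
  obtain ⟨hm1, hm2, hl8, hden⟩ := s7cc_card hA hl
  have hl0 : (0 : ℝ) < R.card := by linarith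
  have hW0 : 0 ≤ W := (s7eb_sqOn_nonneg I y).trans hy
  have hsq : ∀ a d : ℝ, |a| ≤ CP * (1 / (R.card : ℝ) + |d|) →
      a ^ 2 ≤ 2 * CP ^ 2 * (1 / (R.card : ℝ) ^ 2 + d ^ 2) := by
    intro a d ha
    have h1 : a ^ 2 ≤ (CP * (1 / (R.card : ℝ) + |d|)) ^ 2 := by
      rw [← sq_abs a]
      exact pow_le_pow_left₀ (abs_nonneg _) ha 2
    have h2 : (1 / (R.card : ℝ) + |d|) ^ 2 ≤ 2 * (1 / (R.card : ℝ) ^ 2 + d ^ 2) := by
      have e : (1 / (R.card : ℝ)) ^ 2 = 1 / (R.card : ℝ) ^ 2 := by rw [div_pow, one_pow]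
      have := sq_nonneg (1 / (R.card : ℝ) - |d|)
      have e2 := sq_abs d
      nlinarith
    calc a ^ 2 ≤ CP ^ 2 * (1 / (R.card : ℝ) + |d|) ^ 2 := by rw [← mul_pow]; exact h1
      _ ≤ CP ^ 2 * (2 * (1 / (R.card : ℝ) ^ 2 + d ^ 2)) :=
          mul_le_mul_of_nonneg_left h2 (sq_nonneg _)
      _ = _ := by ring
  have h := s7eb_S_sq I (fun u v => s7H R.card σ h D u v) CP
    (fun s => 2 * CP ^ 2 * (1 / (R.card : ℝ) ^ 2 + D s s ^ 2)) (fun s => by positivity)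
    (fun u hu v hv huv => nH u hu v hv huv 0 1) (fun u hu v hv huv => nH u hu v hv huv 1 0)
    (fun u hu v hv huv => hsq _ _ (h00 u hu v hv huv))
    (fun u hu v hv huv => hsq _ _ (h11 u hu v hv huv)) x y
  refine h.trans ?_
  have g1 : ∑ s ∈ I, 2 * CP ^ 2 * (1 / (R.card : ℝ) ^ 2 + D s s ^ 2) ≤ 2 * CP ^ 2 * (1 + τ) := by
    rw [← Finset.mul_sum, Finset.sum_add_distrib, Finset.sum_const, nsmul_eq_mul]
    refine mul_le_mul_of_nonneg_left (add_le_add ?_ ((s7t_sum_diag_sq_le D I).trans hτ))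
      (by positivity)
    rw [mul_one_div, div_le_one (by positivity)]
    nlinarith
  have g0 : 0 ≤ ∑ s ∈ I, 2 * CP ^ 2 * (1 / (R.card : ℝ) ^ 2 + D s s ^ 2) :=
    Finset.sum_nonneg fun s _ => by positivity
  have g2 := s7eb_sum_sq_sq I x y β W (fun s _ => hx s) hy
  have g3 : s7sqOn I x * s7sqOn I y ≤ E * W :=
    mul_le_mul hxE hy (s7eb_sqOn_nonneg I y) ((s7eb_sqOn_nonneg I x).trans hxE)
  have g4 := mul_le_mul g1 g2 (Finset.sum_nonneg fun s _ => by positivity)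
    (g0.trans g1)
  have g5 := mul_le_mul_of_nonneg_left g3 (by positivity : 0 ≤ 8 * CP ^ 2)
  linarith

end var

/-- **S7-STEP-21** (Phase B, second moment). -/
theorem s7_entryVarB : StS7EntryVarB := by
  intro hmin C0 C1 hmin0 hC0 hC1
  obtain ⟨CP, εP, lP, hCP, hεP, hPt⟩ := s7_coefPt hmin C0 hmin0 hC0
  refine ⟨18 * (128 * CP ^ 4 + 32 * CP ^ 2), εP, max lP 8, by positivity, hεP, ?_⟩
  intro ι _ _ σ h ε ε1 β R I D Dh w₁ w₂ p₁ p₂ hb hbh hε hl hA O1 O2 hε1 hβ0 hβ1 hDD τ Wg Eg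
    hT hTh hw1 hw2 hp1 hp2 he1 he2
  have hlP' : lP ≤ R.card := le_trans (le_max_left _ _) hl
  have hl8 : 8 ≤ R.card := le_trans (le_max_right _ _) hl
  obtain ⟨hm1, hm2, hl8', hden⟩ := s7cc_card hA hl8
  have hWg0 : 0 ≤ Wg := (s7eb_sqOn_nonneg I w₁).trans hw1
  have hEg0 : 0 ≤ Eg := (s7eb_sqOn_nonneg I (w₁ - p₁)).trans he1
  have hτ0 : 0 ≤ τ := (s7t_T_nonneg D).trans hT
  have hl0 : (0 : ℝ) < R.card := by linarith
  have hpt : ∀ u ∈ I, ∀ v ∈ I, u ≠ v →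
      (s7dE R.card σ h D Dh w₁ w₂ p₁ p₂ u v) ^ 2
        ≤ 3 * (s7q (s7H R.card σ h D u v * (s7blk D u v - s7blk Dh u v) * s7H R.card σ h Dh u v)
            (s7pv w₁ u v) (s7pv w₂ u v)) ^ 2
          + 3 * (s7q (s7H R.card σ h Dh u v) (s7pv (w₁ - p₁) u v) (s7pv w₂ u v)) ^ 2
          + 3 * (s7q (s7H R.card σ h Dh u v) (s7pv (w₂ - p₂) u v) (s7pv p₁ u v)) ^ 2 := by
    intro u hu v hv huv
    obtain ⟨hU, nH, -⟩ := hPt ι σ h ε R D hb hε hlP' u (hA.1 hu) v (hA.1 hv) huv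
    obtain ⟨hUh, nHh, hsym, -⟩ := hPt ι σ h ε R Dh hbh hε hlP' u (hA.1 hu) v (hA.1 hv) huv
    have e : s7dE R.card σ h D Dh w₁ w₂ p₁ p₂ u v = _ :=
      s7eb_tel _ _ _ (s7eb_pt hU hUh nH nHh hDD).1 hsym w₁ w₂ p₁ p₂ u v
    rw [e]
    generalize s7q (s7H R.card σ h D u v * (s7blk D u v - s7blk Dh u v) * s7H R.card σ h Dh u v)
      (s7pv w₁ u v) (s7pv w₂ u v) = a
    generalize s7q (s7H R.card σ h Dh u v) (s7pv (w₁ - p₁) u v) (s7pv w₂ u v) = b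
    generalize s7q (s7H R.card σ h Dh u v) (s7pv (w₂ - p₂) u v) (s7pv p₁ u v) = c
    nlinarith [sq_nonneg (a + b), sq_nonneg (a + c), sq_nonneg (b - c)]
  -- the coefficient difference
  have hnb : ∀ u ∈ I, ∀ v ∈ I, u ≠ v → s7nb (s7H R.card σ h D u v
      * (s7blk D u v - s7blk Dh u v) * s7H R.card σ h Dh u v) (4 * CP ^ 2 * β) := by
    intro u hu v hv huv
    obtain ⟨hU, nH, -⟩ := hPt ι σ h ε R D hb hε hlP' u (hA.1 hu) v (hA.1 hv) huv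
    obtain ⟨hUh, nHh, -⟩ := hPt ι σ h ε R Dh hbh hε hlP' u (hA.1 hu) v (hA.1 hv) huv
    exact (s7eb_pt hU hUh nH nHh hDD).2
  have hsqle : ∀ a c : ℝ, |a| ≤ c → a ^ 2 ≤ c ^ 2 := fun a c hac =>
    sq_le_sq' (abs_le.1 hac).1 (abs_le.1 hac).2
  have s1 : s7ebS I (fun u v => (s7q (s7H R.card σ h D u v * (s7blk D u v - s7blk Dh u v)
      * s7H R.card σ h Dh u v) (s7pv w₁ u v) (s7pv w₂ u v)) ^ 2)
      ≤ 8 * (4 * CP ^ 2 * β) ^ 2 * (Wg * Wg)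
        + 8 * (((R.card : ℝ) * (4 * CP ^ 2 * β) ^ 2) * (ε1 ^ 2 * Wg)) := by
    have h0 := s7eb_S_sq I (fun u v => s7H R.card σ h D u v * (s7blk D u v - s7blk Dh u v)
      * s7H R.card σ h Dh u v) (4 * CP ^ 2 * β) (fun _ => (4 * CP ^ 2 * β) ^ 2)
      (fun _ => sq_nonneg _) (fun u hu v hv huv => hnb u hu v hv huv 0 1)
      (fun u hu v hv huv => hnb u hu v hv huv 1 0)
      (fun u hu v hv huv => hsqle _ _ (hnb u hu v hv huv 0 0))
      (fun u hu v hv huv => hsqle _ _ (hnb u hu v hv huv 1 1)) w₁ w₂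
    refine h0.trans ?_
    have g1 : ∑ _s ∈ I, (4 * CP ^ 2 * β) ^ 2 ≤ (R.card : ℝ) * (4 * CP ^ 2 * β) ^ 2 := by
      rw [Finset.sum_const, nsmul_eq_mul]
      exact mul_le_mul_of_nonneg_right hm1 (sq_nonneg _)
    have g2 := s7eb_sum_sq_sq I w₁ w₂ ε1 Wg O1.ws hw2
    have g3 : s7sqOn I w₁ * s7sqOn I w₂ ≤ Wg * Wg :=
      mul_le_mul hw1 hw2 (s7eb_sqOn_nonneg I w₂) hWg0
    have g4 := mul_le_mul g1 g2 (Finset.sum_nonneg fun s _ => by positivity) (by positivity)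
    have g5 := mul_le_mul_of_nonneg_left g3 (by positivity : 0 ≤ 8 * (4 * CP ^ 2 * β) ^ 2)
    linarith
  have nHh : ∀ u ∈ I, ∀ v ∈ I, u ≠ v → s7nb (s7H R.card σ h Dh u v) CP := fun u hu v hv huv =>
    (hPt ι σ h ε R Dh hbh hε hlP' u (hA.1 hu) v (hA.1 hv) huv).2.1
  have h00 : ∀ u ∈ I, ∀ v ∈ I, u ≠ v →
      |s7H R.card σ h Dh u v 0 0| ≤ CP * (1 / (R.card : ℝ) + |Dh v v|) := fun u hu v hv huv =>
    (hPt ι σ h ε R Dh hbh hε hlP' u (hA.1 hu) v (hA.1 hv) huv).2.2.2.1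
  have h11 : ∀ u ∈ I, ∀ v ∈ I, u ≠ v →
      |s7H R.card σ h Dh u v 1 1| ≤ CP * (1 / (R.card : ℝ) + |Dh u u|) := fun u hu v hv huv =>
    (hPt ι σ h ε R Dh hbh hε hlP' u (hA.1 hu) v (hA.1 hv) huv).2.2.2.2.1
  have s2 := s7eb_var_H hA hl8 hCP.le hTh nHh h00 h11 (w₁ - p₁) w₂ β Eg Wg O1.df he1 hw2
  have s3 := s7eb_var_H hA hl8 hCP.le hTh nHh h00 h11 (w₂ - p₂) p₁ β Eg Wg O2.df he2 hp1
  have hS : ∑ u ∈ I, ∑ v ∈ I.erase u, (s7dE R.card σ h D Dh w₁ w₂ p₁ p₂ u v) ^ 2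
      ≤ 3 * ((8 * (4 * CP ^ 2 * β) ^ 2 * (Wg * Wg)
          + 8 * (((R.card : ℝ) * (4 * CP ^ 2 * β) ^ 2) * (ε1 ^ 2 * Wg)))
        + (8 * CP ^ 2 * (Eg * Wg) + 8 * ((2 * CP ^ 2 * (1 + τ)) * (β ^ 2 * Wg)))
        + (8 * CP ^ 2 * (Eg * Wg) + 8 * ((2 * CP ^ 2 * (1 + τ)) * (β ^ 2 * Wg)))) := by
    have h0 := s7eb_S_mono hpt
    rw [s7eb_S_add, s7eb_S_add, s7eb_S_smul, s7eb_S_smul, s7eb_S_smul] at h0
    have h1 : ∑ u ∈ I, ∑ v ∈ I.erase u, (s7dE R.card σ h D Dh w₁ w₂ p₁ p₂ u v) ^ 2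
        = s7ebS I (fun u v => (s7dE R.card σ h D Dh w₁ w₂ p₁ p₂ u v) ^ 2) := rfl
    rw [h1]
    linarith
  refine (s7cc_avg_le hA hl8 _ _ (by positivity) hS).trans ?_
  exact s7eb_var_arith CP β ε1 τ Wg Eg (R.card : ℝ) hτ0 hWg0 hEg0 hl0

end Claimed.Agent.R275
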