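import Claimed.Agent.R275.S7FinM
import Claimed.Agent.R275.S7Tools

/-!
# Row 275, Section 7, leaf S7-F-ALG (#4540): `StS7TwoRef`, `StS7FinBound` (abstract linear algebra)

Proofs: helper255.  Prefix `s7fa_`.  Final theorems: `s7_twoRef : StS7TwoRef`, `s7_finBound : StS7FinBound`.
Reusable: `s7faN` (Euclidean norm of an array, `s7fa_N_add/_sub/_smul/_supp`, `s7fa_cs`), `s7fa_push` (push-through),
`s7fa_H_symm`, `s7fa_H_sub` (resolvent identity), `s7fa_two_mat` (matrix form of the two-reference identity).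
-/

set_option autoImplicit false

namespace Claimed.Agent.R275

open Matrix

/-- push-through: `A (1 + D A)⁻¹ = (1 + A D)⁻¹ A`. -/
theorem s7fa_push {K m : Type*} [Field K] [Fintype m] [DecidableEq m] (A D : Matrix m m K)
    (hu : IsUnit (1 + D * A)) (hu' : IsUnit (1 + A * D)) :
    A * (1 + D * A)⁻¹ = (1 + A * D)⁻¹ * A := by
  have hd : IsUnit (1 + D * A).det := (Matrix.isUnit_iff_isUnit_det _).1 hu
  have hd' : IsUnit (1 + A * D).det := (Matrix.isUnit_iff_isUnit_det _).1 hu'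
  have h1 : (1 + A * D) * A = A * (1 + D * A) := by
    rw [add_mul, mul_add, one_mul, mul_one, Matrix.mul_assoc]
  calc A * (1 + D * A)⁻¹ = (1 + A * D)⁻¹ * ((1 + A * D) * A) * (1 + D * A)⁻¹ := by
        rw [← Matrix.mul_assoc, Matrix.nonsing_inv_mul _ hd', one_mul]
    _ = (1 + A * D)⁻¹ * A := by
        rw [h1, Matrix.mul_assoc, Matrix.mul_assoc, Matrix.mul_nonsing_inv _ hd, mul_one]

theorem s7fa_unit_swap {K m : Type*} [Field K] [Fintype m] [DecidableEq m] (A D : Matrix m m K)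
    (hA : Aᵀ = A) (hD : Dᵀ = D) (hu : IsUnit (1 + D * A)) : IsUnit (1 + A * D) := by
  have h : (1 + D * A)ᵀ = 1 + A * D := by
    rw [Matrix.transpose_add, Matrix.transpose_one, Matrix.transpose_mul, hA, hD]
  rw [← h, Matrix.isUnit_iff_isUnit_det, Matrix.det_transpose, ← Matrix.isUnit_iff_isUnit_det]
  exact hu

theorem s7fa_H_symm {K m : Type*} [Field K] [Fintype m] [DecidableEq m] (A D : Matrix m m K)
    (hA : Aᵀ = A) (hD : Dᵀ = D) (hu : IsUnit (1 + D * A)) :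
    (A * (1 + D * A)⁻¹)ᵀ = A * (1 + D * A)⁻¹ := by
  have h : (1 + D * A)ᵀ = 1 + A * D := by
    rw [Matrix.transpose_add, Matrix.transpose_one, Matrix.transpose_mul, hA, hD]
  rw [Matrix.transpose_mul, Matrix.transpose_nonsing_inv, h, hA,
    s7fa_push A D hu (s7fa_unit_swap A D hA hD hu)]

theorem s7fa_H_sub {K m : Type*} [Field K] [Fintype m] [DecidableEq m] (A D Dh : Matrix m m K)
    (hA : Aᵀ = A) (hD : Dᵀ = D) (hu : IsUnit (1 + D * A)) (huh : IsUnit (1 + Dh * A)) :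
    A * (1 + D * A)⁻¹ - A * (1 + Dh * A)⁻¹
      = -(A * (1 + D * A)⁻¹ * (D - Dh) * (A * (1 + Dh * A)⁻¹)) := by
  have hu' := s7fa_unit_swap A D hA hD hu
  have hd' : IsUnit (1 + A * D).det := (Matrix.isUnit_iff_isUnit_det _).1 hu'
  have hdh : IsUnit (1 + Dh * A).det := (Matrix.isUnit_iff_isUnit_det _).1 huh
  rw [s7fa_push A D hu hu']
  set Y := (1 + A * D)⁻¹ with hY
  set Z := (1 + Dh * A)⁻¹ with hZ
  have h1 : Y * (1 + A * D) = 1 := Matrix.nonsing_inv_mul _ hd'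
  have h2 : (1 + Dh * A) * Z = 1 := Matrix.mul_nonsing_inv _ hdh
  have e1 : Y * A = Y * A * ((1 + Dh * A) * Z) := by rw [h2, mul_one]
  have e2 : A * Z = (Y * (1 + A * D)) * (A * Z) := by rw [h1, one_mul]
  calc Y * A - A * Z = Y * A * ((1 + Dh * A) * Z) - (Y * (1 + A * D)) * (A * Z) := by rw [← e1, ← e2]
    _ = -(Y * A * (D - Dh) * (A * Z)) := by noncomm_ring

/-- the matrix form of the two-reference identity -/
theorem s7fa_two_mat {K V m : Type*} [Field K] [Fintype V] [Fintype m] [DecidableEq m]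
    (E : Matrix V V K) (e p z : Matrix m V K) (H Hh C : Matrix m m K)
    (hH : Hᵀ = H) (hC : Cᵀ = C) (hsub : H - Hh = -(H * C * Hh)) (hz : z = Hh * p) :
    E - (p + e)ᵀ * H * (p + e) + pᵀ * Hh * p
      = E - eᵀ * z - zᵀ * e + zᵀ * C * z - (e - C * z)ᵀ * H * (e - C * z) := by
  have hHp : H * p = z - H * C * z := by
    have h0 : H = Hh - H * C * Hh := by
      have := sub_eq_iff_eq_add.1 hsub
      rw [sub_eq_add_neg, add_comm]
      exact this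
    calc H * p = (Hh - H * C * Hh) * p := by rw [← h0]
      _ = z - H * C * z := by rw [hz, Matrix.sub_mul]; simp only [Matrix.mul_assoc]
  have hpH : pᵀ * H = zᵀ - zᵀ * C * H := by
    have := congrArg Matrix.transpose hHp
    rw [Matrix.transpose_mul, hH, Matrix.transpose_sub, Matrix.transpose_mul, Matrix.transpose_mul, hH, hC] at this
    rw [this, Matrix.mul_assoc]
  have hpz : pᵀ * Hh * p = pᵀ * z := by rw [hz, Matrix.mul_assoc]
  have e1 : (p + e)ᵀ * H * (p + e) = pᵀ * H * p + pᵀ * H * e + eᵀ * (H * p) + eᵀ * H * e := by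
    rw [Matrix.transpose_add]
    simp only [Matrix.add_mul, Matrix.mul_add, Matrix.mul_assoc]
    abel
  have e2 : pᵀ * H * p = pᵀ * z - (zᵀ - zᵀ * C * H) * C * z := by
    rw [Matrix.mul_assoc, hHp, Matrix.mul_sub, ← hpH]
    simp only [Matrix.mul_assoc]
  rw [e1, e2, hpH, hHp, hpz, Matrix.transpose_sub, Matrix.transpose_mul, hC]
  simp only [Matrix.add_mul, Matrix.mul_add, Matrix.sub_mul, Matrix.mul_sub, Matrix.mul_assoc]
  abel


/-- column of a product -/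
theorem s7fa_mulVec_col {K V m k : Type*} [Field K] [Fintype m] (M : Matrix k m K) (N : Matrix m V K) (j : V) :
    (M *ᵥ fun x => N x j) = fun x => (M * N) x j := by
  funext x
  rfl

/-- entries of `aᵀ b` -/
theorem s7fa_dot_col {K V m : Type*} [Field K] [Fintype m] (M N : Matrix m V K) (i j : V) :
    (fun x => M x i) ⬝ᵥ (fun x => N x j) = (Mᵀ * N) i j := rfl

theorem s7_twoRef : StS7TwoRef := by
  intro K _ V m _ _ _ _ W P U A G₀ hW hP hA hG hu huh H Hh C hH hHh hC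
  have hD : (Uᵀ * W * U - G₀)ᵀ = Uᵀ * W * U - G₀ := by
    rw [Matrix.transpose_sub, Matrix.transpose_mul, Matrix.transpose_mul, Matrix.transpose_transpose, hW, hG,
      Matrix.mul_assoc]
  have hDh : (Uᵀ * P * U - G₀)ᵀ = Uᵀ * P * U - G₀ := by
    rw [Matrix.transpose_sub, Matrix.transpose_mul, Matrix.transpose_mul, Matrix.transpose_transpose, hP, hG,
      Matrix.mul_assoc]
  have hCs : Cᵀ = C := by
    rw [hC, Matrix.transpose_mul, Matrix.transpose_mul, Matrix.transpose_transpose, Matrix.transpose_sub, hW, hP,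
      Matrix.mul_assoc]
  have hCD : C = (Uᵀ * W * U - G₀) - (Uᵀ * P * U - G₀) := by
    rw [hC, Matrix.mul_sub, Matrix.sub_mul]; abel
  have h1 : Hᵀ = H := by rw [hH]; exact s7fa_H_symm A _ hA hD hu
  have h2 : Hhᵀ = Hh := by rw [hHh]; exact s7fa_H_symm A _ hA hDh huh
  have h3 : H - Hh = -(H * C * Hh) := by
    rw [hH, hHh, hCD]; exact s7fa_H_sub A _ _ hA hD hu huh
  refine ⟨h1, h2, h3, ?_⟩
  intro i j ei ej zi zj hei hej hzi hzj
  have hmat := s7fa_two_mat (W - P) (Uᵀ * (W - P)) (Uᵀ * P) (Hh * (Uᵀ * P)) H Hh C h1 hCs h3 rfl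
  have hw : Uᵀ * P + Uᵀ * (W - P) = Uᵀ * W := by rw [← Matrix.mul_add]; congr 1; abel
  have hwT : (Uᵀ * W)ᵀ = W * U := by rw [Matrix.transpose_mul, Matrix.transpose_transpose, hW]
  have hpT : (Uᵀ * P)ᵀ = P * U := by rw [Matrix.transpose_mul, Matrix.transpose_transpose, hP]
  have hL : (W - W * U * H * Uᵀ * W) - (P - P * U * Hh * Uᵀ * P)
      = (W - P) - (Uᵀ * P + Uᵀ * (W - P))ᵀ * H * (Uᵀ * P + Uᵀ * (W - P)) + (Uᵀ * P)ᵀ * Hh * (Uᵀ * P) := by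
    rw [hw, hwT, hpT]
    simp only [Matrix.mul_assoc]
    abel
  rw [hL, hmat]
  rw [s7fa_mulVec_col] at hzi hzj
  have hCzi : C *ᵥ zi = fun x => (C * (Hh * (Uᵀ * P))) x i := by rw [hzi, s7fa_mulVec_col]
  have hCzj : C *ᵥ zj = fun x => (C * (Hh * (Uᵀ * P))) x j := by rw [hzj, s7fa_mulVec_col]
  have hdi : ei - C *ᵥ zi = fun x => (Uᵀ * (W - P) - C * (Hh * (Uᵀ * P))) x i := by
    rw [hCzi, hei]; rfl
  have hdj : ej - C *ᵥ zj = fun x => (Uᵀ * (W - P) - C * (Hh * (Uᵀ * P))) x j := by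
    rw [hCzj, hej]; rfl
  rw [hdi, hdj, s7fa_mulVec_col, s7fa_dot_col, hCzj, hzi, hzj, hei, hej, s7fa_dot_col, s7fa_dot_col, s7fa_dot_col]
  simp only [Matrix.sub_apply, Matrix.add_apply, Matrix.mul_assoc]

section FinBound

variable {ι : Type*} [Fintype ι]

/-- Euclidean norm of an array -/
noncomputable def s7faN (a : ι → ℝ) : ℝ := Real.sqrt (s7sq a)

theorem s7fa_N_nonneg (a : ι → ℝ) : 0 ≤ s7faN a := Real.sqrt_nonneg _

theorem s7fa_N_sq (a : ι → ℝ) : s7faN a ^ 2 = s7sq a := Real.sq_sqrt (s7t_sq_nonneg a)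

theorem s7fa_cs (a b : ι → ℝ) : |a ⬝ᵥ b| ≤ s7faN a * s7faN b := s7t_cs a b

theorem s7fa_N_add (a b : ι → ℝ) : s7faN (a + b) ≤ s7faN a + s7faN b := by
  have h0 := s7fa_N_nonneg a
  have h0' := s7fa_N_nonneg b
  refine Real.sqrt_le_iff.2 ⟨by positivity, ?_⟩
  have h1 : s7sq (a + b) = s7sq a + 2 * (a ⬝ᵥ b) + s7sq b := by
    unfold s7sq
    rw [add_dotProduct, dotProduct_add, dotProduct_add, dotProduct_comm b a]; ring
  have h2 := s7fa_cs a b
  have h3 := le_abs_self (a ⬝ᵥ b)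
  nlinarith [s7fa_N_sq a, s7fa_N_sq b]

theorem s7fa_N_neg (a : ι → ℝ) : s7faN (-a) = s7faN a := by
  unfold s7faN s7sq
  rw [neg_dotProduct_neg]

theorem s7fa_N_sub (a b : ι → ℝ) : s7faN (a - b) ≤ s7faN a + s7faN b := by
  rw [sub_eq_add_neg, ← s7fa_N_neg b]
  exact s7fa_N_add a (-b)

theorem s7fa_N_smul (c : ℝ) (a : ι → ℝ) : s7faN (c • a) = |c| * s7faN a := by
  unfold s7faN s7sq
  rw [smul_dotProduct, dotProduct_smul, smul_eq_mul, smul_eq_mul, ← mul_assoc,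
    Real.sqrt_mul (mul_self_nonneg c), Real.sqrt_mul_self_eq_abs]

theorem s7fa_N_le_of_sq {a : ι → ℝ} {r : ℝ} (hr : 0 ≤ r) (h : s7sq a ≤ r ^ 2) : s7faN a ≤ r :=
  Real.sqrt_le_iff.2 ⟨hr, h⟩

theorem s7fa_N_supp {R : Finset ι} {a : ι → ℝ} {β : ℝ} (hβ : 0 ≤ β) (h0 : ∀ x, x ∉ R → a x = 0)
    (h1 : ∀ x, |a x| ≤ β) : s7faN a ≤ Real.sqrt R.card * β := by
  refine Real.sqrt_le_iff.2 ⟨by positivity, ?_⟩
  rw [mul_pow, Real.sq_sqrt (Nat.cast_nonneg _)]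
  have h2 : s7sq a = ∑ x ∈ R, a x * a x := by
    unfold s7sq dotProduct
    symm
    apply Finset.sum_subset (Finset.subset_univ _)
    intro x _ hx
    rw [h0 x hx, mul_zero]
  rw [h2]
  calc ∑ x ∈ R, a x * a x ≤ ∑ _x ∈ R, β ^ 2 := by
        apply Finset.sum_le_sum
        intro x _
        have := h1 x
        rw [← abs_mul_abs_self, sq]
        exact mul_le_mul this this (abs_nonneg _) hβ
    _ = R.card * β ^ 2 := by rw [Finset.sum_const, nsmul_eq_mul]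

variable [DecidableEq ι]

omit [Fintype ι] in
theorem s7fa_Pi_transpose (R : Finset ι) : (s7Pi ℝ R)ᵀ = s7Pi ℝ R := by
  ext x y
  simp only [Matrix.transpose_apply, s7Pi, and_comm, eq_comm]

theorem s7fa_cent_zero {R : Finset ι} {e : ι → ℝ} (he : S7Cent R e) (x : ι) (hx : x ∉ R) : e x = 0 := by
  unfold S7Cent at he
  rw [← he, Matrix.mulVec, dotProduct]
  refine Finset.sum_eq_zero (fun z _ => ?_)
  simp [s7Pi, hx]

/-- `e ⬝ (Π e_t) = e_t` for centred `e`. -/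
theorem s7fa_dot_Pi {R : Finset ι} {e : ι → ℝ} (he : S7Cent R e) (t : ι) :
    e ⬝ᵥ (s7Pi ℝ R *ᵥ Pi.single t 1) = e t := by
  rw [Matrix.dotProduct_mulVec, ← s7fa_Pi_transpose, Matrix.vecMul_transpose, he, dotProduct_single, mul_one]

theorem s7fa_dot_z {R : Finset ι} {e τ : ι → ℝ} {b1 c r : ℝ} (he : S7Cent R e) (hb : ∀ x, |e x| ≤ b1)
    (hb1 : 0 ≤ b1) (hc : |c| ≤ 1) (hτ : s7faN τ ≤ r) (t : ι) :
    |e ⬝ᵥ (c • (s7Pi ℝ R *ᵥ Pi.single t 1) + τ)| ≤ b1 * (1 + Real.sqrt R.card * r) := by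
  rw [dotProduct_add, dotProduct_smul, s7fa_dot_Pi he, smul_eq_mul]
  have h1 : |c * e t| ≤ b1 := by
    rw [abs_mul]
    calc |c| * |e t| ≤ 1 * b1 := mul_le_mul hc (hb t) (abs_nonneg _) (by norm_num)
      _ = b1 := one_mul _
  have h2 : |e ⬝ᵥ τ| ≤ Real.sqrt R.card * b1 * r :=
    (s7fa_cs e τ).trans (mul_le_mul (s7fa_N_supp hb1 (s7fa_cent_zero he) hb) hτ (s7fa_N_nonneg _) (by positivity))
  calc |c * e t + e ⬝ᵥ τ| ≤ |c * e t| + |e ⬝ᵥ τ| := abs_add_le _ _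
    _ ≤ b1 + Real.sqrt R.card * b1 * r := add_le_add h1 h2
    _ = b1 * (1 + Real.sqrt R.card * r) := by ring

theorem s7fa_C_Pi {R : Finset ι} {C : Matrix ι ι ℝ} (hs : Cᵀ = C) (hc : s7Pi ℝ R * C = C) : C * s7Pi ℝ R = C := by
  have := congrArg Matrix.transpose hc
  rwa [Matrix.transpose_mul, hs, s7fa_Pi_transpose] at this

theorem s7fa_Cz {R : Finset ι} {C : Matrix ι ι ℝ} (hs : Cᵀ = C) (hc : s7Pi ℝ R * C = C) (c : ℝ) (t : ι)
    (τ : ι → ℝ) :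
    C *ᵥ (c • (s7Pi ℝ R *ᵥ Pi.single t 1) + τ) = c • (fun x => C x t) + C *ᵥ τ := by
  rw [Matrix.mulVec_add, Matrix.mulVec_smul, Matrix.mulVec_mulVec, s7fa_C_Pi hs hc, Matrix.mulVec_single_one]
  rfl

theorem s7fa_col_cent {R : Finset ι} {C : Matrix ι ι ℝ} (hc : s7Pi ℝ R * C = C) (t : ι) :
    S7Cent R (fun x => C x t) := by
  unfold S7Cent
  funext x
  conv_rhs => rw [← hc]
  rfl

theorem s7fa_mulVec_cent {R : Finset ι} {C : Matrix ι ι ℝ} (hc : s7Pi ℝ R * C = C) (τ : ι → ℝ) :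
    S7Cent R (C *ᵥ τ) := by
  unfold S7Cent
  rw [Matrix.mulVec_mulVec, hc]

theorem s7fa_col_N {R : Finset ι} {C : Matrix ι ι ℝ} {b3 : ℝ} (hc : s7Pi ℝ R * C = C) (hb3 : 0 ≤ b3)
    (hb : ∀ x y, |C x y| ≤ b3) (t : ι) : s7faN (fun x => C x t) ≤ Real.sqrt R.card * b3 :=
  s7fa_N_supp hb3 (s7fa_cent_zero (s7fa_col_cent hc t)) (fun x => hb x t)

theorem s7fa_mulVec_abs {R : Finset ι} {C : Matrix ι ι ℝ} {b3 : ℝ} (hs : Cᵀ = C) (hc : s7Pi ℝ R * C = C)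
    (hb3 : 0 ≤ b3) (hb : ∀ x y, |C x y| ≤ b3) (τ : ι → ℝ) (x : ι) :
    |(C *ᵥ τ) x| ≤ Real.sqrt R.card * b3 * s7faN τ := by
  have h1 : (C *ᵥ τ) x = (fun y => C y x) ⬝ᵥ τ := by
    have h2 : (fun y => C y x) = fun y => C x y := by
      funext y
      exact s7t_symm_apply hs y x
    rw [h2]
    rfl
  rw [h1]
  exact (s7fa_cs _ τ).trans (mul_le_mul_of_nonneg_right (s7fa_col_N hc hb3 hb x) (s7fa_N_nonneg _))

theorem s7fa_mulVec_N {R : Finset ι} {C : Matrix ι ι ℝ} {b3 : ℝ} (hs : Cᵀ = C) (hc : s7Pi ℝ R * C = C)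
    (hb3 : 0 ≤ b3) (hb : ∀ x y, |C x y| ≤ b3) (τ : ι → ℝ) :
    s7faN (C *ᵥ τ) ≤ R.card * b3 * s7faN τ := by
  have h := s7fa_N_supp (R := R) (a := C *ᵥ τ) (β := Real.sqrt R.card * b3 * s7faN τ)
    (by have := s7fa_N_nonneg τ; positivity) (s7fa_cent_zero (s7fa_mulVec_cent hc τ))
    (s7fa_mulVec_abs hs hc hb3 hb τ)
  have hs2 : Real.sqrt R.card * Real.sqrt R.card = R.card := Real.mul_self_sqrt (Nat.cast_nonneg _)
  calc s7faN (C *ᵥ τ) ≤ Real.sqrt R.card * (Real.sqrt R.card * b3 * s7faN τ) := h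
    _ = (Real.sqrt R.card * Real.sqrt R.card) * b3 * s7faN τ := by ring
    _ = R.card * b3 * s7faN τ := by rw [hs2]

end FinBound

theorem s7_finBound : StS7FinBound := by
  intro ι _ _ R C H ei ej τi τj ci cj b1 b3 r ti tj hei hej hbi hbj hCs hCc hCb hH hci hcj hr hτi hτj
    zi zj hzi hzj
  set s := Real.sqrt R.card with hs
  have hs0 : 0 ≤ s := Real.sqrt_nonneg _
  have hs2 : s * s = R.card := Real.mul_self_sqrt (Nat.cast_nonneg _)
  have hb1 : 0 ≤ b1 := (abs_nonneg _).trans (hbi ti)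
  have hb3 : 0 ≤ b3 := (abs_nonneg _).trans (hCb ti ti)
  have hNi : s7faN τi ≤ r := s7fa_N_le_of_sq hr hτi
  have hNj : s7faN τj ≤ r := s7fa_N_le_of_sq hr hτj
  have hc0 : (0 : ℝ) ≤ R.card := Nat.cast_nonneg _
  -- term (a)
  have hA1 : |ei ⬝ᵥ zj| ≤ b1 * (1 + s * r) := by rw [hzj]; exact s7fa_dot_z hei hbi hb1 hcj hNj tj
  have hA2 : |zi ⬝ᵥ ej| ≤ b1 * (1 + s * r) := by
    rw [dotProduct_comm, hzi]; exact s7fa_dot_z hej hbj hb1 hci hNi ti
  -- `C z`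
  have hCzi : C *ᵥ zi = ci • (fun x => C x ti) + C *ᵥ τi := by rw [hzi]; exact s7fa_Cz hCs hCc ci ti τi
  have hCzj : C *ᵥ zj = cj • (fun x => C x tj) + C *ᵥ τj := by rw [hzj]; exact s7fa_Cz hCs hCc cj tj τj
  have hNC : ∀ (c : ℝ) (t : ι) (τ : ι → ℝ), |c| ≤ 1 → s7faN τ ≤ r →
      s7faN (c • (fun x => C x t) + C *ᵥ τ) ≤ s * b3 + R.card * b3 * r := by
    intro c t τ hc hτ
    refine (s7fa_N_add _ _).trans (add_le_add ?_ ?_)
    · rw [s7fa_N_smul]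
      calc |c| * s7faN (fun x => C x t) ≤ 1 * (s * b3) :=
            mul_le_mul hc (s7fa_col_N hCc hb3 hCb t) (s7fa_N_nonneg _) (by norm_num)
        _ = s * b3 := one_mul _
    · exact (s7fa_mulVec_N hCs hCc hb3 hCb τ).trans (mul_le_mul_of_nonneg_left hτ (by positivity))
  -- term (c)
  have hQi : s7faN (ei - C *ᵥ zi) ≤ s * (b1 + b3) + R.card * b3 * r := by
    refine (s7fa_N_sub _ _).trans ?_
    have h1 := s7fa_N_supp hb1 (s7fa_cent_zero hei) hbi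
    have h2 := hNC ci ti τi hci hNi
    rw [← hCzi] at h2
    linarith
  have hQj : s7faN (ej - C *ᵥ zj) ≤ s * (b1 + b3) + R.card * b3 * r := by
    refine (s7fa_N_sub _ _).trans ?_
    have h1 := s7fa_N_supp hb1 (s7fa_cent_zero hej) hbj
    have h2 := hNC cj tj τj hcj hNj
    rw [← hCzj] at h2
    linarith
  have hQ0 : 0 ≤ s * (b1 + b3) + R.card * b3 * r := by positivity
  have hC : |(ei - C *ᵥ zi) ⬝ᵥ (H *ᵥ (ej - C *ᵥ zj))| ≤ (s * (b1 + b3) + R.card * b3 * r) ^ 2 := by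
    refine (s7fa_cs _ _).trans ?_
    have h1 : s7faN (H *ᵥ (ej - C *ᵥ zj)) ≤ s * (b1 + b3) + R.card * b3 * r := by
      have := s7t_op_sqrt hH (ej - C *ᵥ zj)
      rw [one_mul] at this
      exact this.trans hQj
    rw [sq]
    exact mul_le_mul hQi h1 (s7fa_N_nonneg _) hQ0
  -- term (b)
  have hB : |zi ⬝ᵥ (C *ᵥ zj)| ≤ b3 * (1 + 2 * s * r + R.card * r ^ 2) := by
    rw [hCzj, hzi, add_dotProduct, smul_dotProduct, dotProduct_comm _ (cj • (fun x => C x tj) + C *ᵥ τj),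
      add_dotProduct, smul_dotProduct, s7fa_dot_Pi (s7fa_col_cent hCc tj), s7fa_dot_Pi (s7fa_mulVec_cent hCc τj),
      dotProduct_add, dotProduct_smul]
    simp only [smul_eq_mul]
    have t1 : |ci * (cj * C ti tj + (C *ᵥ τj) ti)| ≤ b3 + s * b3 * r := by
      rw [abs_mul]
      have h1 : |cj * C ti tj| ≤ b3 := by
        rw [abs_mul]
        calc |cj| * |C ti tj| ≤ 1 * b3 := mul_le_mul hcj (hCb _ _) (abs_nonneg _) (by norm_num)
          _ = b3 := one_mul _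
      have h2 : |(C *ᵥ τj) ti| ≤ s * b3 * r :=
        (s7fa_mulVec_abs hCs hCc hb3 hCb τj ti).trans (mul_le_mul_of_nonneg_left hNj (by positivity))
      have h3 : |cj * C ti tj + (C *ᵥ τj) ti| ≤ b3 + s * b3 * r := (abs_add_le _ _).trans (add_le_add h1 h2)
      calc |ci| * |cj * C ti tj + (C *ᵥ τj) ti| ≤ 1 * (b3 + s * b3 * r) :=
            mul_le_mul hci h3 (abs_nonneg _) (by norm_num)
        _ = b3 + s * b3 * r := one_mul _
    have t2 : |cj * (τi ⬝ᵥ fun x => C x tj)| ≤ r * (s * b3) := by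
      rw [abs_mul]
      have h1 : |τi ⬝ᵥ fun x => C x tj| ≤ r * (s * b3) :=
        (s7fa_cs _ _).trans (mul_le_mul hNi (s7fa_col_N hCc hb3 hCb tj) (s7fa_N_nonneg _) hr)
      calc |cj| * |τi ⬝ᵥ fun x => C x tj| ≤ 1 * (r * (s * b3)) := mul_le_mul hcj h1 (abs_nonneg _) (by norm_num)
        _ = r * (s * b3) := one_mul _
    have t3 : |τi ⬝ᵥ (C *ᵥ τj)| ≤ r * (R.card * b3 * r) := by
      refine (s7fa_cs _ _).trans (mul_le_mul hNi ?_ (s7fa_N_nonneg _) hr)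
      exact (s7fa_mulVec_N hCs hCc hb3 hCb τj).trans (mul_le_mul_of_nonneg_left hNj (by positivity))
    calc |ci * (cj * C ti tj + (C *ᵥ τj) ti) + (cj * (τi ⬝ᵥ fun x => C x tj) + τi ⬝ᵥ (C *ᵥ τj))|
        ≤ |ci * (cj * C ti tj + (C *ᵥ τj) ti)| + (|cj * (τi ⬝ᵥ fun x => C x tj)| + |τi ⬝ᵥ (C *ᵥ τj)|) :=
          (abs_add_le _ _).trans (add_le_add le_rfl (abs_add_le _ _))
      _ ≤ (b3 + s * b3 * r) + (r * (s * b3) + r * (R.card * b3 * r)) := add_le_add t1 (add_le_add t2 t3)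
      _ = b3 * (1 + 2 * s * r + R.card * r ^ 2) := by ring
  have habs : |-(ei ⬝ᵥ zj) - zi ⬝ᵥ ej + zi ⬝ᵥ (C *ᵥ zj) - (ei - C *ᵥ zi) ⬝ᵥ (H *ᵥ (ej - C *ᵥ zj))|
      ≤ |ei ⬝ᵥ zj| + |zi ⬝ᵥ ej| + |zi ⬝ᵥ (C *ᵥ zj)| + |(ei - C *ᵥ zi) ⬝ᵥ (H *ᵥ (ej - C *ᵥ zj))| := by
    refine (abs_sub _ _).trans (add_le_add ?_ le_rfl)
    refine (abs_add_le _ _).trans (add_le_add ?_ le_rfl)
    refine (abs_sub _ _).trans (add_le_add ?_ le_rfl)
    rw [abs_neg]
  refine habs.trans ?_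
  linarith

end Claimed.Agent.R275
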