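import Claimed.Agent.R275.S7FinAlg
import Claimed.Agent.R275.S7Num
import Claimed.Agent.R275.S7Next
import Claimed.Agent.R275.L41B

/-!
# Row 275, Section 7, package S7-F-ENT: the final matching (`StS7FinEnt`, statement in `S7FinM.lean`, helper245)

Proof by helper287.  Helper prefix `s7fe_`.
`s7fe_core` is the non-asymptotic statement at one `(σ, h)`; `s7_finEnt` adds the numerics.
-/

set_option autoImplicit false
set_option linter.unusedVariables false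

namespace Claimed.Agent.R275

open Filter Matrix

/-! ## small tools -/

theorem s7fe_ext_trans {n d : ℕ} {π₀ π₁ π₂ : PPair n d} (h1 : π₀.Ext π₁) (h2 : π₁.Ext π₂) :
    π₀.Ext π₂ := by
  intro x hx
  have e1 := h1 x hx
  have hx1 : ¬ π₁.Unres x := by
    intro h
    apply hx
    unfold PPair.Unres at h ⊢
    rw [← e1]
    exact h
  rw [h2 x hx1, e1]

theorem s7fe_Wmat_transpose {n d : ℕ} (π : PPair n d) (σ h : ℝ) : (π.Wmat σ h)ᵀ = π.Wmat σ h := by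
  have e : π.Wmat σ h = (mh h)⁻¹ • ((compN (π.Mmat σ h))⁻¹ - J1 ℝ n) := rfl
  rw [e, Matrix.transpose_smul, Matrix.transpose_sub, Matrix.transpose_nonsing_inv,
    compN_transpose _ (π.Mmat_transpose σ h), J1_transpose]

theorem s7fe_opLE_mono {ι : Type*} [Fintype ι] [DecidableEq ι] {D : Matrix ι ι ℝ} {a b : ℝ}
    (h : s7opLE D a) (hab : a ≤ b) : s7opLE D b := by
  refine ⟨h.1.trans hab, fun x => (h.2 x).trans ?_⟩
  exact mul_le_mul_of_nonneg_right (pow_le_pow_left₀ h.1 hab 2) (s7t_sq_nonneg x)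

theorem s7fe_opLE_add {ι : Type*} [Fintype ι] [DecidableEq ι] {R : Finset ι} {D C : Matrix ι ι ℝ}
    {a b3 : ℝ} (hD : s7opLE D a) (hs : Cᵀ = C) (hc : s7Pi ℝ R * C = C) (hb3 : 0 ≤ b3)
    (hb : ∀ x y, |C x y| ≤ b3) : s7opLE (D + C) (a + R.card * b3) := by
  have h0 : 0 ≤ a + R.card * b3 := add_nonneg hD.1 (by positivity)
  refine ⟨h0, fun x => ?_⟩
  have h1 : s7faN ((D + C) *ᵥ x) ≤ (a + R.card * b3) * s7faN x := by
    rw [Matrix.add_mulVec]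
    refine (s7fa_N_add _ _).trans ?_
    have e1 : s7faN (D *ᵥ x) ≤ a * s7faN x := s7t_op_sqrt hD x
    have e2 := s7fa_mulVec_N hs hc hb3 hb x
    linarith
  have h2 := pow_le_pow_left₀ (s7fa_N_nonneg _) h1 2
  rwa [mul_pow, s7fa_N_sq, s7fa_N_sq] at h2

theorem s7fe_cent_sub {ι : Type*} [Fintype ι] [DecidableEq ι] {R : Finset ι} {a b : ι → ℝ}
    (ha : S7Cent R a) (hb : S7Cent R b) : S7Cent R (a - b) := by
  unfold S7Cent at *
  rw [Matrix.mulVec_sub, ha, hb]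

theorem s7fe_row_eq {n d : ℕ} (π : PPair n d) (X : Matrix (Fin n) (Fin n) ℝ) (i : Fin n) :
    s7row π X i = fun x => ((π.Xi ℝ)ᵀ * X) x i := by
  funext x
  simp only [s7row, Matrix.mul_apply, Matrix.transpose_apply]

theorem s7fe_PiS_transpose {n d : ℕ} (π : PPair n d) : (π.PiS ℝ)ᵀ = π.PiS ℝ := by
  ext x y
  simp only [Matrix.transpose_apply, PPair.PiS, and_comm, eq_comm]

theorem s7fe_Kinc_add {n d : ℕ} (π₀ π₁ π₂ : PPair n d) (σ h : ℝ) :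
    s7Kinc π₀ π₂ σ h = s7Kinc π₀ π₁ σ h + s7Kinc π₁ π₂ σ h := by
  unfold s7Kinc
  rw [← smul_add]
  congr 1
  abel

theorem s7fe_abs_sig {σ : ℝ} (hσ : σ ^ 2 = 1) : |σ| = 1 := by
  have h1 : |σ| ^ 2 = 1 := by rw [sq_abs]; exact hσ
  have h2 : 0 ≤ |σ| := abs_nonneg _
  nlinarith

/-- the pure numerical inequality behind `31 B_B` -/
theorem s7fe_num (l B r s : ℝ) (hs : s * s = l) (hs0 : 0 ≤ s) (hB : 0 ≤ B) (hr : 0 ≤ r)
    (h1 : l * B ≤ 1 / 100) (h2 : s * r ≤ 1 / 100) :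
    2 * (13 * B) * (1 + s * r) + 2 * B * (1 + 2 * s * r + l * r ^ 2)
      + (s * (13 * B + 2 * B) + l * (2 * B) * r) ^ 2 ≤ 31 * B := by
  set q := s * r with hq
  have hq0 : 0 ≤ q := mul_nonneg hs0 hr
  have e1 : l * r ^ 2 = q ^ 2 := by rw [hq, ← hs]; ring
  have e2 : (s * (13 * B + 2 * B) + l * (2 * B) * r) ^ 2 = (l * B) * (B * (15 + 2 * q) ^ 2) := by
    rw [hq, ← hs]; ring
  have e3 : 2 * s * r = 2 * q := by rw [hq]; ring
  rw [e1, e2, e3]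
  have h3 : (15 + 2 * q) ^ 2 ≤ 226 := by nlinarith
  have h4 : B * (15 + 2 * q) ^ 2 ≤ B * 226 := mul_le_mul_of_nonneg_left h3 hB
  have h5 : (l * B) * (B * (15 + 2 * q) ^ 2) ≤ 1 / 100 * (B * 226) :=
    mul_le_mul h1 h4 (by positivity) (by norm_num)
  have h6 : B * q ≤ B * (1 / 100) := mul_le_mul_of_nonneg_left h2 hB
  have h7 : q ^ 2 ≤ 1 / 100 := by nlinarith
  have h8 : B * q ^ 2 ≤ B * (1 / 100) := mul_le_mul_of_nonneg_left h7 hB
  nlinarith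

/-! ## the final matching at one `(σ, h)` (not asymptotic) -/

theorem s7fe_core (hRefAll : StS7RefAll) (hContW : StS7ContW) (hContAdd : StS7ContAdd)
    (hAgg : StS7Aggregate) (hNeu : StS7Neumann) (hPtC : StS7PtCoord) (hPtAlg : StS7PtAlg)
    (hTwo : StS7TwoRef) (hFinZ : StS7FinZ) (hFinB : StS7FinBound) (hFinPos : StS7FinPos)
    (hCtr : StS7CtrRow) (hFlags : StS7Flags) {n d : ℕ} (hn : 0 < n) (π₀ π₃ πf : PPair n d)
    (t0 L : ℕ) (σ h B ρ Yb Tb βP : ℝ) (P0 : Matrix (Fin n) (Fin n) ℝ) (hext03 : π₀.Ext π₃)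
    (hext3f : π₃.Ext πf) (hcomp : πf.Complete) (hσ : σ ^ 2 = 1) (hh0 : 0 < h) (hh1 : h ≤ 3 / 4)
    (hpos3 : PosOn1 (π₃.Mmat σ h)) (href : S7RefOut π₀ t0 L σ h P0 (1 / 32) ρ Yb Tb βP)
    (hρ : 0 ≤ ρ)
    (hdD : ∀ x y, |s7Dof π₃ (π₃.Wmat σ h) x y - s7Dof π₃ (s7Ref π₀ π₃ P0 σ h) x y| ≤ 2 * B)
    (hoD : ∀ i x, |s7row π₃ (π₃.Wmat σ h) i x - s7row π₃ (s7Ref π₀ π₃ P0 σ h) i x| ≤ 13 * B)
    (hE3 : ∀ i k, |(π₃.Wmat σ h - s7Ref π₀ π₃ P0 σ h) i k| ≤ 318 * B)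
    (hN1 : (π₃.l : ℝ) * B ≤ 1 / 100) (hN2 : Real.sqrt (π₃.l : ℝ) * (6 * ρ) ≤ 1 / 100)
    (hl : 2 ≤ π₃.l) :
    PosOn1 (πf.Mmat σ h) ∧ ∀ i k, |(πf.Wmat σ h - s7Ref π₀ πf P0 σ h) i k| ≤ 350 * B := by
  have hext0f : π₀.Ext πf := s7fe_ext_trans hext03 hext3f
  have hh2 : h ^ 2 ≠ 1 := by nlinarith
  have RA3 := hRefAll n d π₀ π₃ t0 L σ h P0 (1 / 32) ρ Yb Tb βP href hext03 hσ hh0 hh1
    (by norm_num) hρ
  have RAf := hRefAll n d π₀ πf t0 L σ h P0 (1 / 32) ρ Yb Tb βP href hext0f hσ hh0 hh1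
    (by norm_num) hρ
  set W := π₃.Wmat σ h with hW
  set P := s7Ref π₀ π₃ P0 σ h with hP
  have hWs : Wᵀ = W := s7fe_Wmat_transpose π₃ σ h
  have hPs : Pᵀ = P := RA3.symm
  obtain ⟨-, hcW, hPiS, hcDW, hsDW⟩ := hCtr n d π₃ W
  obtain ⟨-, hcP, -, hcDP, hsDP⟩ := hCtr n d π₃ P
  have hB : 0 ≤ B := by
    have := (abs_nonneg _).trans (hE3 ⟨0, hn⟩ ⟨0, hn⟩)
    linarith
  set C := s7Dof π₃ W - s7Dof π₃ P with hC
  have hCs : Cᵀ = C := by rw [hC, Matrix.transpose_sub, hsDW hWs, hsDP hPs]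
  have hCc : s7Pi ℝ π₃.unres * C = C := by rw [hC, Matrix.mul_sub, hcDW, hcDP]
  have hCb : ∀ x y, |C x y| ≤ 2 * B := fun x y => by
    rw [hC, Matrix.sub_apply]; exact hdD x y
  have opP : s7opLE (s7Dof π₃ P) (1 / 8) := s7fe_opLE_mono RA3.op (by norm_num)
  have opW : s7opLE (s7Dof π₃ W) (1 / 8) := by
    have e : s7Dof π₃ W = s7Dof π₃ P + C := by rw [hC]; abel
    rw [e]
    refine s7fe_opLE_mono (s7fe_opLE_add RA3.op hCs hCc (by positivity) hCb) ?_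
    have e2 : ((π₃.unres.card : ℕ) : ℝ) = (π₃.l : ℝ) := rfl
    rw [e2]
    linarith
  have posf : PosOn1 (πf.Mmat σ h) := hFinPos n d π₃ πf σ h hn hext3f hσ hh0 hh1 hpos3 opW
  refine ⟨posf, ?_⟩
  -- units
  obtain ⟨hPt1, -⟩ := hPtC n d π₃ πf hext3f
  have hc : |-(σ * h)| ≤ 3 / 4 := by
    rw [abs_neg, abs_mul, s7fe_abs_sig hσ, one_mul, abs_of_pos hh0]; exact hh1
  obtain ⟨uW, -, opH⟩ := hNeu (Stub n d) (s7Dof π₃ W) (s7Pt π₃ πf ℝ) (1 / 8) (-(σ * h)) opW le_rfl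
    hPt1 hc
  obtain ⟨uP, -, -⟩ := hNeu (Stub n d) (s7Dof π₃ P) (s7Pt π₃ πf ℝ) (1 / 8) (-(σ * h)) opP le_rfl
    hPt1 hc
  have uW' : IsUnit (1 + s7Dof π₃ W * s7Ht0 π₃ πf σ h) := uW
  have uP' : IsUnit (1 + s7Dof π₃ P * s7Ht0 π₃ πf σ h) := uP
  have opH' : s7opLE (s7Ht π₃ πf W σ h) 1 := opH
  obtain ⟨-, aggW, -⟩ := hAgg ℝ n d π₃ πf W σ h hext3f hσ hh2 uW'
  obtain ⟨-, aggP, -⟩ := hAgg ℝ n d π₃ πf P σ h hext3f hσ hh2 uP'
  -- `W_f`
  have U3 : IsUnit (π₃.Mmat σ h * Pi1 ℝ n + J1 ℝ n) := by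
    rw [← π₃.compN_Mmat hn]; exact (π₃.isUnit_of_posOn1 hn σ h hpos3).1
  have Uf : IsUnit (πf.Mmat σ h * Pi1 ℝ n + J1 ℝ n) := by
    rw [← πf.compN_Mmat hn]; exact (πf.isUnit_of_posOn1 hn σ h posf).1
  obtain ⟨-, hWf⟩ := hContW ℝ n d π₃ πf σ h hn hext3f hh0.ne' hh2 U3 Uf
  -- `P̂_f`
  have hPf : s7Ref π₀ πf P0 σ h = s7Ref π₃ πf P σ h := by
    obtain ⟨-, hadd⟩ := hContAdd ℝ (Fin n) P0 (s7Kinc π₀ π₃ σ h) (s7Kinc π₃ πf σ h) RA3.unit
    have hu : IsUnit (1 + P0 * (s7Kinc π₀ π₃ σ h + s7Kinc π₃ πf σ h)) := by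
      rw [← s7fe_Kinc_add]; exact RAf.unit
    have h1 := hadd hu
    rw [← s7fe_Kinc_add] at h1
    exact h1.symm
  -- the two-reference identity
  have hAs : (s7Ht0 π₃ πf σ h)ᵀ = s7Ht0 π₃ πf σ h := by
    rw [s7Ht0, Matrix.transpose_smul, (hPtAlg ℝ n d π₃ πf hext3f).2.2.2.2.1]
  have hC' : C = (π₃.Xi ℝ)ᵀ * (W - P) * π₃.Xi ℝ := by
    rw [hC]; unfold s7Dof; rw [Matrix.mul_sub, Matrix.sub_mul]; abel
  obtain ⟨-, -, -, hmain⟩ := hTwo ℝ (Fin n) (Stub n d) W P (π₃.Xi ℝ) (s7Ht0 π₃ πf σ h) (π₃.PiS ℝ)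
    hWs hPs hAs (s7fe_PiS_transpose π₃) uW' uP' (s7Ht π₃ πf W σ h) (s7Ht π₃ πf P σ h) C rfl rfl hC'
  -- two distinct unresolved stubs
  obtain ⟨u, hu, v, hv, huv⟩ := Finset.one_lt_card.1 (show 1 < π₃.unres.card from hl)
  have hu' : π₃.Unres u := (Finset.mem_filter.1 hu).2
  have hv' : π₃.Unres v := (Finset.mem_filter.1 hv).2
  have hshort := (hFlags n d π₀ π₃ t0 u v hu' hv' huv).2.2
  -- sparse form of `z`
  have hz : ∀ i : Fin n, ∃ (c : ℝ) (t : Stub n d) (τ' : Stub n d → ℝ),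
      s7Ht π₃ πf P σ h *ᵥ (fun x => ((π₃.Xi ℝ)ᵀ * P) x i) =
        c • (s7Pi ℝ π₃.unres *ᵥ Pi.single t 1) + τ' ∧ |c| ≤ 1 ∧ s7sq τ' ≤ (6 * ρ) ^ 2 := by
    intro i
    obtain ⟨c, t, τ', h1, h2, h3⟩ := hFinZ n d π₃ πf P σ h (3 * ρ) (s7short π₀ t0 σ h i)
      (s7tail π₀ π₃ t0 σ h P i) u hext3f hcomp hσ hh0 hh1 hPs (by positivity) opP RA3.drow
      (fun x y hx hy => href.uniq i x y (by_contra fun hc => hx (hshort σ h i x hc))
        (by_contra fun hc => hy (hshort σ h i y hc)))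
      (href.cle i) (RA3.tail i)
    refine ⟨c, t, τ', ?_, h2, ?_⟩
    · rw [← hPiS, ← h1, ← s7fe_row_eq]
      congr 1
      unfold s7tail
      abel
    · calc s7sq τ' ≤ (2 * (3 * ρ)) ^ 2 := h3
        _ = (6 * ρ) ^ 2 := by ring
  have hrow : ∀ i : Fin n, (fun x => ((π₃.Xi ℝ)ᵀ * (W - P)) x i) = s7row π₃ W i - s7row π₃ P i := by
    intro i
    rw [s7fe_row_eq, s7fe_row_eq]
    funext x
    simp only [Matrix.mul_sub, Matrix.sub_apply, Pi.sub_apply]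
  have hcent : ∀ i : Fin n, S7Cent π₃.unres (fun x => ((π₃.Xi ℝ)ᵀ * (W - P)) x i) := by
    intro i
    rw [hrow]
    exact s7fe_cent_sub (hcW (S7Out.glob i)) (hcP (S7Out.glob i))
  have hbd : ∀ (i : Fin n) (x : Stub n d), |((π₃.Xi ℝ)ᵀ * (W - P)) x i| ≤ 13 * B := by
    intro i x
    have h1 := congrFun (hrow i) x
    simp only [Pi.sub_apply] at h1
    rw [h1]; exact hoD i x
  intro i k
  obtain ⟨ci, ti, τi, hzi, hci, hτi⟩ := hz i
  obtain ⟨ck, tk, τk, hzk, hck, hτk⟩ := hz k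
  have hfb := hFinB (Stub n d) π₃.unres C (s7Ht π₃ πf W σ h) _ _ τi τk ci ck (13 * B) (2 * B)
    (6 * ρ) ti tk (hcent i) (hcent k) (hbd i) (hbd k) hCs hCc hCb opH' hci hck (by positivity)
    hτi hτk _ _ hzi hzk
  have hm := hmain i k _ _ _ _ rfl rfl rfl rfl
  have hnum := s7fe_num (π₃.l : ℝ) B (6 * ρ) (Real.sqrt (π₃.l : ℝ))
    (Real.mul_self_sqrt (Nat.cast_nonneg _)) (Real.sqrt_nonneg _) hB (by positivity) hN1 hN2
  have hfb' := le_trans hfb hnum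
  have h3 := hE3 i k
  rw [hWf, hPf, aggW, aggP, hm]
  rw [abs_le] at hfb' h3 ⊢
  constructor <;> linarith [hfb'.1, hfb'.2, h3.1, h3.2]

/-! ## numerics -/

theorem s7fe_numA : ∀ᶠ n : ℕ in atTop, Real.sqrt (s7l3 n : ℝ) * (6 * (s7rho n : ℝ)) ≤ 1 / 100 := by
  have hx : s7chi + (-(2 * aa / 1000) + -(2 * aa / 1000)) < 0 := by unfold s7chi aa; norm_num
  filter_upwards [s7n_scQ_small hx (1 / 720000) (by norm_num)] with n hn
  have h1 : scQ s7chi n * (s7rho n * s7rho n) ≤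
      scQ (s7chi + (-(2 * aa / 1000) + -(2 * aa / 1000))) n := by
    unfold s7rho
    exact (mul_le_mul_of_nonneg_left (s7n_scQ_mul_le _ _ n) (scQ_pos _ _).le).trans
      (s7n_scQ_mul_le _ _ n)
  have h2 : (scQ s7chi n : ℝ) * ((s7rho n : ℝ) * (s7rho n : ℝ)) ≤ 1 / 720000 := by
    refine le_trans ?_ hn
    exact_mod_cast h1
  have h3 : ((s7l3 n : ℕ) : ℝ) = 2 * (scQ s7chi n : ℝ) := by exact_mod_cast s7n_l3 n
  refine le_of_pow_le_pow_left₀ (n := 2) (by norm_num) (by norm_num) ?_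
  rw [mul_pow, Real.sq_sqrt (Nat.cast_nonneg _), h3]
  nlinarith

theorem s7fe_numB {g : ℚ} (hg : S7gOK g) :
    ∀ᶠ n : ℕ in atTop, (s7l3 n : ℝ) * (s7BB g n : ℝ) ≤ 1 / 100 := by
  have hx : s7chi + (40 / 100 * aa - (2 / 3 + 15 / 100 * aa - 2 * g) / 2) < 0 := by
    have h1 := hg.2
    unfold s7chi
    unfold aa at *
    linarith
  filter_upwards [s7n_scQ_small hx (1 / 200) (by norm_num)] with n hn
  have h1 : scQ s7chi n * s7BB g n ≤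
      scQ (s7chi + (40 / 100 * aa - (2 / 3 + 15 / 100 * aa - 2 * g) / 2)) n :=
    s7n_scQ_mul_le _ _ n
  have h2 : (scQ s7chi n : ℝ) * (s7BB g n : ℝ) ≤ 1 / 200 := by
    refine le_trans ?_ hn
    exact_mod_cast h1
  have h3 : ((s7l3 n : ℕ) : ℝ) = 2 * (scQ s7chi n : ℝ) := by exact_mod_cast s7n_l3 n
  rw [h3]
  linarith

theorem s7fe_g0_le (d n : ℕ) : g0 d n ≤ R0 d n + 1 := by
  have h1 : scN (2 / 1000 * aa) n ≤ scN (4 / 100 * aa) n := by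
    unfold scN scZ
    refine Nat.pow_le_pow_right (by norm_num) (Int.toNat_le_toNat (Int.floor_le_floor ?_))
    refine mul_le_mul_of_nonneg_right ?_ (by positivity)
    unfold aa; norm_num
  exact (Nat.log_mono_right h1).trans (Nat.le_succ _)

theorem s7fe_Th_le (ty fl : ℕ) : s7Th ty fl ≤ 317 := by
  unfold s7Th; split_ifs <;> norm_num

theorem s7fe_Th_one_le (fl : ℕ) : s7Th 1 fl ≤ 12 := by
  unfold s7Th
  rw [if_neg (by norm_num), if_pos rfl]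
  split_ifs <;> norm_num

/-! ## the statement -/

/-- **S7-F-6** -/
theorem s7_finEnt (hBDer : StS7BDer) (hRefAll : StS7RefAll) (hContW : StS7ContW)
    (hContAdd : StS7ContAdd) (hAgg : StS7Aggregate) (hNeu : StS7Neumann) (hPtC : StS7PtCoord)
    (hPtAlg : StS7PtAlg) (hTwo : StS7TwoRef) (hFinZ : StS7FinZ) (hFinB : StS7FinBound)
    (hFinPos : StS7FinPos) (hGirth : StS7Girth) (hCtr : StS7CtrRow) (hFlags : StS7Flags) :
    StS7FinEnt := by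
  intro d par hpar
  have hd := hpar.1
  have hg := hpar.2.1
  filter_upwards [hBDer d par hpar, s7fe_numA, s7fe_numB hg, eventually_ge_atTop 1]
    with n der hA hBn hn φ π₀ π₃ πf t hstop hinv hl3 hext hcomp
  have hext0f := s7fe_ext_trans hinv.ext hext
  have hBpos : (0 : ℝ) < (s7BB par.g n : ℝ) := s7n_cast_pos _ n
  have core : ∀ j ≤ Nprim d n par.cp, ∀ b : Bool,
      PosOn1 (πf.Mmat (sgn b) ((prim d n j : ℚ) : ℝ)) ∧
      ∀ i k, |s7E π₀ πf φ (Lcut d n) (sgn b) ((prim d n j : ℚ) : ℝ) i k| ≤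
        350 * (s7BB par.g n : ℝ) := by
    intro j hj b
    have D := der φ π₀ π₃ t hstop hinv hl3.ge j hj b
    have cap := hinv.cap j hj b
    refine s7fe_core hRefAll hContW hContAdd hAgg hNeu hPtC hPtAlg hTwo hFinZ hFinB hFinPos hCtr
      hFlags hn π₀ π₃ πf (s7t0 d n) (Lcut d n) (sgn b) ((prim d n j : ℚ) : ℝ) (s7BB par.g n : ℝ)
      (s7rho n : ℝ) _ _ _ (s7P0R d n φ π₀ (sgn b) ((prim d n j : ℚ) : ℝ)) hinv.ext hext hcomp D.sig
      (lt_of_lt_of_le (s7nx_hmin_pos d hd) D.baseD.h_lo) D.baseD.h_hi (hinv.pos j hj b)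
      (hstop.ref j hj b) (s7n_cast_pos _ n).le D.dDiff ?_ ?_ ?_ ?_ ?_
    · intro i x
      refine (D.oDiff (S7Out.glob i) trivial x).trans ?_
      have h2 : ((s7Th (S7Out.glob i : S7Out n d).ty
          ((S7Out.glob i : S7Out n d).fl π₀ π₃ (s7t0 d n)) : ℚ) : ℝ) ≤ 12 := by
        exact_mod_cast s7fe_Th_one_le _
      nlinarith
    · intro i k
      have h1 := cap.ent (S7Out.glob i) (S7Out.glob k) trivial trivial
      have h2 : ((s7Th ((S7Out.glob i : S7Out n d).ty + (S7Out.glob k : S7Out n d).ty)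
          ((S7Out.glob i : S7Out n d).fl π₀ π₃ (s7t0 d n)
            + (S7Out.glob k : S7Out n d).fl π₀ π₃ (s7t0 d n)) : ℚ) : ℝ) ≤ 317 := by
        exact_mod_cast s7fe_Th_le _ _
      have h3 : s7ent (s7E π₀ π₃ φ (Lcut d n) (sgn b) ((prim d n j : ℚ) : ℝ))
          (S7Out.glob i : S7Out n d) (S7Out.glob k : S7Out n d) =
          s7E π₀ π₃ φ (Lcut d n) (sgn b) ((prim d n j : ℚ) : ℝ) i k := by
        simp [s7ent, S7Out.vec]
      rw [h3] at h1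
      refine le_trans h1 ?_
      nlinarith
    · rw [hl3]; exact hBn
    · rw [hl3]; exact hA
    · rw [hl3]; exact s7n_l3_pos n
  exact ⟨hext0f, hcomp, hGirth n d π₀ πf (g0 d n) (R0 d n) hstop.girth hstop.sep (s7fe_g0_le d n)
    hext0f, fun j hj b => (core j hj b).1, fun j hj b => (core j hj b).2⟩

end Claimed.Agent.R275
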