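import Claimed.Agent.R275.S7PhaseB

/-!
# Row 275, Section 7, package S7-F: the final matching (`boundary.tex` §7.6) and Proposition 7.1, statements

Owner of the statements: helper245.  Only `def St… : Prop`, no sorry.

`π₃` = the state at `l₃` (caps `S7InvB`), `π_f` = ANY complete pairing extending `π₃`.  With `𝒦_f = s7Kinc π₃ π_f σ h`:
  `W_f = s7Ref π₃ π_f W₃` (`StS7ContW`),  `P̂_f = s7Ref π₃ π_f P̂₃` (semigroup law `StS7ContAdd`, `s7Kinc π₀ π_f = s7Kinc π₀ π₃ + s7Kinc π₃ π_f`),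
  and `StS7Aggregate` (with `π₃` in the role of the stop) gives `X_f = X₃ - X₃ Ξ₃ H Ξ₃ᵀ X₃`, `H = H_{f0} (1 + D_X H_{f0})⁻¹`, `H_{f0} = -σ h P_f`.
-/

set_option autoImplicit false
set_option linter.unusedVariables false

namespace Claimed.Agent.R275

open Matrix

/-- **S7-F-1** the exact two-reference Woodbury identity (abstract; machine-checked in exact arithmetic). -/
def StS7TwoRef : Prop :=
  ∀ (K : Type) [Field K] (V m : Type) [Fintype V] [DecidableEq V] [Fintype m] [DecidableEq m]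
    (W P : Matrix V V K) (U : Matrix V m K) (A G₀ : Matrix m m K),
    Wᵀ = W → Pᵀ = P → Aᵀ = A → G₀ᵀ = G₀ →
    IsUnit (1 + (Uᵀ * W * U - G₀) * A) → IsUnit (1 + (Uᵀ * P * U - G₀) * A) →
    ∀ (H Hh C : Matrix m m K), H = A * (1 + (Uᵀ * W * U - G₀) * A)⁻¹ →
    Hh = A * (1 + (Uᵀ * P * U - G₀) * A)⁻¹ → C = Uᵀ * (W - P) * U →
    Hᵀ = H ∧ Hhᵀ = Hh ∧ H - Hh = -(H * C * Hh) ∧
    ∀ (i j : V) (ei ej zi zj : m → K), (ei = fun x => (Uᵀ * (W - P)) x i) →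
      (ej = fun x => (Uᵀ * (W - P)) x j) → (zi = Hh *ᵥ fun x => (Uᵀ * P) x i) →
      (zj = Hh *ᵥ fun x => (Uᵀ * P) x j) →
      ((W - W * U * H * Uᵀ * W) - (P - P * U * Hh * Uᵀ * P)) i j =
        (W - P) i j - ei ⬝ᵥ zj - zi ⬝ᵥ ej + zi ⬝ᵥ (C *ᵥ zj)
          - (ei - C *ᵥ zi) ⬝ᵥ (H *ᵥ (ej - C *ᵥ zj))

/-- **S7-F-2** positivity of the precision of EVERY extension, if `‖D‖ ≤ 1/8`.
Proof without inertia: `y = Ξᵀ v`.  (i) `vᵀ M v ≥ 2 t |y|² - t² m_h yᵀ (Π + D) y` for all `t` (expand `(v - t R Ξ y)ᵀ M (v - t R Ξ y) ≥ 0`,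
`R = Rinv`, `Ξᵀ R Ξ = m_h (Π + D)`); `t = 1/(m_h (1+δ))` gives `vᵀ M v ≥ |y|²/(m_h (1+δ))`.  (ii) `M' - M = Ξ K Ξᵀ` (`StS7Kinc`),
`K = h (Π - Π') - σ P_t ⪰ -(1-h)` (`StS7PtAlg`: `P_t² = Π - Π'`, `P_t (Π - Π') = P_t`).  (iii) `(1-h²)/(h (1+δ)) > 1 - h`; if `y = 0` use `M ≻ 0`. -/
def StS7FinPos : Prop :=
  ∀ (n d : ℕ) (π π' : PPair n d) (σ h : ℝ), 0 < n → π.Ext π' → σ ^ 2 = 1 → 0 < h → h ≤ 3 / 4 →
    PosOn1 (π.Mmat σ h) → s7opLE (s7D π σ h) (1 / 8) → PosOn1 (π'.Mmat σ h)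

/-- **S7-F-3** sparse form of `z = Ĥ_f p`: `p = Π sh + τ`, `sh` with at most one non-zero coordinate, `|sh| ≤ 1`, `‖τ‖ ≤ r`, rows of `D̂` `≤ r`.
(`t₀` only says that there is a stub.)  Proof: `H = H₀ - H D̂ H₀`, `H₀ Π e_s = -σ h P_t e_s = -σ h Π e_{mate s}` (`StS7PtCoord`), `‖H‖ ≤ 1` (`StS7Neumann`),
`D̂ Π e_t = D̂ e_t` = a column of `D̂`; so `c = -σ h sh_s`, `τ' = -c H D̂ e_t + H τ`. -/
def StS7FinZ : Prop :=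
  ∀ (n d : ℕ) (π π' : PPair n d) (X : Matrix (Fin n) (Fin n) ℝ) (σ h r : ℝ) (sh τ : Stub n d → ℝ)
    (t₀ : Stub n d), π.Ext π' → π'.Complete → σ ^ 2 = 1 → 0 < h → h ≤ 3 / 4 → Xᵀ = X → 0 ≤ r →
    s7opLE (s7Dof π X) (1 / 8) → (∀ x, (s7Dof π X * s7Dof π X) x x ≤ r ^ 2) →
    (∀ x y, sh x ≠ 0 → sh y ≠ 0 → x = y) → (∀ x, |sh x| ≤ 1) → s7sq τ ≤ r ^ 2 →
    ∃ (c : ℝ) (t : Stub n d) (τ' : Stub n d → ℝ),
      s7Ht π π' X σ h *ᵥ (π.PiS ℝ *ᵥ sh + τ) = c • (π.PiS ℝ *ᵥ Pi.single t 1) + τ' ∧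
      |c| ≤ 1 ∧ s7sq τ' ≤ (2 * r) ^ 2

/-- **S7-F-4** the abstract estimate of the four correction terms of `StS7TwoRef`. -/
def StS7FinBound : Prop :=
  ∀ (ι : Type) [Fintype ι] [DecidableEq ι] (R : Finset ι) (C H : Matrix ι ι ℝ)
    (ei ej τi τj : ι → ℝ) (ci cj b1 b3 r : ℝ) (ti tj : ι),
    S7Cent R ei → S7Cent R ej → (∀ x, |ei x| ≤ b1) → (∀ x, |ej x| ≤ b1) → Cᵀ = C →
    s7Pi ℝ R * C = C → (∀ x y, |C x y| ≤ b3) → s7opLE H 1 → |ci| ≤ 1 → |cj| ≤ 1 → 0 ≤ r →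
    s7sq τi ≤ r ^ 2 → s7sq τj ≤ r ^ 2 →
    ∀ zi zj : ι → ℝ, zi = ci • (s7Pi ℝ R *ᵥ Pi.single ti 1) + τi →
      zj = cj • (s7Pi ℝ R *ᵥ Pi.single tj 1) + τj →
      |-(ei ⬝ᵥ zj) - zi ⬝ᵥ ej + zi ⬝ᵥ (C *ᵥ zj) - (ei - C *ᵥ zi) ⬝ᵥ (H *ᵥ (ej - C *ᵥ zj))| ≤
        2 * b1 * (1 + Real.sqrt R.card * r)
        + b3 * (1 + 2 * Real.sqrt R.card * r + R.card * r ^ 2)
        + (Real.sqrt R.card * (b1 + b3) + R.card * b3 * r) ^ 2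

/-- **S7-F-5** the list-order matching of the remaining stubs is a complete extension. -/
def StS7FinRun : Prop :=
  ∀ (n d : ℕ) (π : PPair n d), Even π.l →
    (s7finStep^[π.l / 2] π).Complete ∧ π.Ext (s7finStep^[π.l / 2] π)

/-- **S7-F-6** the final matching: caps of Phase B at `l₃` ⟹ output predicate, for every complete extension.
`‖D - D̂‖ ≤ 2 l₃ B_B`, `‖D̂‖ ≤ 1/16`, so `‖D‖ ≤ 1/8`; `|E'_ij| ≤ 318 B_B + 31 B_B`. -/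
def StS7FinEnt : Prop :=
  ∀ (d : ℕ) (par : S7Par), S7ParOK d par → ∀ᶠ n : ℕ in Filter.atTop,
    ∀ (φ : ℕ → ℚ) (π₀ π₃ π_f : PPair n d) (t : ℕ), S7Stop d n par φ π₀ → S7InvB d n par φ π₀ t π₃ →
    π₃.l = s7l3 n → π₃.Ext π_f → π_f.Complete → S7Fin d n par φ 350 π₀ π_f

/-- **PROPOSITION 7.1** in terms of the input predicate `S7In`. -/
def StS7Main : Prop :=
  ∀ d : ℕ, 3 ≤ d → ∃ g₀ : ℚ, 0 < g₀ ∧ ∀ par : S7Par, S7ParOK d par → par.g ≤ g₀ →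
    ∀ᶠ n : ℕ in Filter.atTop, ∀ (φ : ℕ → ℚ) (π₀ : PPair n d), S7In d n par φ π₀ →
      S7Fin d n par φ 350 π₀ (s7run d n par φ π₀)

end Claimed.Agent.R275
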