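import Claimed.Agent.R275.S7FinAlg
import Claimed.Agent.R275.S7Bridge
import Claimed.Agent.R275.L41D

/-!
# Row 275, Section 7, leaf S7-F-POS-Z-RUN: `StS7FinRun`, `StS7FinPos`, `StS7FinZ` (statements: `S7FinM.lean`)

Proofs: helper227.  Prefix `s7fp_`.  No sorry.
* `s7_finRun (hLavg : StS7Lavg) : StS7FinRun`
* `s7_finPos : StS7FinPos`                                   (uses `s7KincPf`, `s7PtAlg`, `Mmat_mul_Rinv`, `PosOn1.cauchy`)
* `s7_finZ (hC : StS7PtCoord) (hN : StS7Neumann) : StS7FinZ`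
-/

set_option autoImplicit false

namespace Claimed.Agent.R275

open Matrix

/-! ## 1. The list-order matching -/

section Run

variable {n d : ℕ}

theorem s7fp_ext_refl (π : PPair n d) : π.Ext π := fun _ _ => rfl

theorem s7fp_ext_trans {π₀ π₁ π₂ : PPair n d} (h1 : π₀.Ext π₁) (h2 : π₁.Ext π₂) : π₀.Ext π₂ := by
  intro x hx
  have e1 := h1 x hx
  have hx1 : ¬ π₁.Unres x := by
    intro h
    apply hx
    have h' : π₁.mate x = x := h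
    show π₀.mate x = x
    rw [← e1, h']
  rw [h2 x hx1, e1]

theorem s7fp_complete_of_l {π : PPair n d} (h : π.l = 0) : π.Complete := by
  intro x hx
  have h1 : x ∈ π.unres := Finset.mem_filter.2 ⟨Finset.mem_univ _, hx⟩
  have h2 : π.unres = ∅ := Finset.card_eq_zero.1 h
  rw [h2] at h1
  exact absurd h1 (Finset.notMem_empty _)

theorem s7fp_step (hLavg : StS7Lavg) (π : PPair n d) (h : 2 ≤ π.l) :
    ∃ u v, π.Unres u ∧ π.Unres v ∧ u ≠ v ∧ s7finStep π = π.resolve u v := by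
  obtain ⟨-, h1, h2⟩ := hLavg n d π (fun _ => 0)
  have hne := h1 h
  obtain ⟨a, l, hal⟩ := List.exists_cons_of_ne_nil hne
  obtain ⟨u, v, hu, hv, huv, e⟩ := h2 a (by rw [hal]; exact List.mem_cons_self)
  refine ⟨u, v, hu, hv, huv, ?_⟩
  unfold s7finStep
  rw [hal, ← e]
  rfl

theorem s7fp_run (hLavg : StS7Lavg) : ∀ (m : ℕ) (π : PPair n d), π.l = 2 * m →
    (s7finStep^[m] π).Complete ∧ π.Ext (s7finStep^[m] π) := by
  intro m
  induction m with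
  | zero =>
    intro π h
    exact ⟨s7fp_complete_of_l (by simpa using h), s7fp_ext_refl π⟩
  | succ m ih =>
    intro π h
    obtain ⟨u, v, hu, hv, huv, e⟩ := s7fp_step hLavg π (by omega)
    have hl := PPair.resolve_l hu hv huv
    rw [Function.iterate_succ_apply, e]
    obtain ⟨h1, h2⟩ := ih (π.resolve u v) (by omega)
    exact ⟨h1, s7fp_ext_trans (PPair.s7br_ext hu hv) h2⟩

/-- **S7-F-5** -/
theorem s7_finRun (hLavg : StS7Lavg) : StS7FinRun := by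
  intro n d π hev
  obtain ⟨k, hk⟩ := hev
  have h2 : π.l / 2 = k := by omega
  rw [h2]
  exact s7fp_run hLavg k π (by omega)

end Run

/-! ## 2. Positivity of the precision of every extension -/

section Pos

theorem s7fp_dot_symm {ι : Type*} [Fintype ι] {A : Matrix ι ι ℝ} (hA : Aᵀ = A) (x y : ι → ℝ) :
    (A *ᵥ x) ⬝ᵥ y = x ⬝ᵥ (A *ᵥ y) := by
  rw [Matrix.dotProduct_mulVec, ← Matrix.mulVec_transpose, hA]

theorem s7fp_dot_rect {ι κ : Type*} [Fintype ι] [Fintype κ] (A : Matrix ι κ ℝ) (x : ι → ℝ) (y : κ → ℝ) :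
    x ⬝ᵥ (A *ᵥ y) = (Aᵀ *ᵥ x) ⬝ᵥ y := by
  rw [Matrix.dotProduct_mulVec, Matrix.mulVec_transpose]

/-- a symmetric matrix with `P³ = P`: `σ yᵀ P y ≤ yᵀ P² y ≤ |y|²` -/
theorem s7fp_tripotent {ι : Type*} [Fintype ι] {P : Matrix ι ι ℝ} (hP : Pᵀ = P) (h3 : P * P * P = P)
    {σ : ℝ} (hσ : σ ^ 2 = 1) (y : ι → ℝ) :
    σ * (y ⬝ᵥ (P *ᵥ y)) ≤ y ⬝ᵥ ((P * P) *ᵥ y) ∧ y ⬝ᵥ ((P * P) *ᵥ y) ≤ y ⬝ᵥ y ∧
      0 ≤ y ⬝ᵥ ((P * P) *ᵥ y) := by
  set a := P *ᵥ y with ha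
  set b := P *ᵥ a with hb
  have hPb : P *ᵥ b = a := by
    rw [hb, ha, Matrix.mulVec_mulVec, Matrix.mulVec_mulVec, h3]
  have e0 : (P * P) *ᵥ y = b := by rw [hb, ha, Matrix.mulVec_mulVec]
  have e1 : y ⬝ᵥ b = a ⬝ᵥ a := by rw [hb, ← s7fp_dot_symm hP]
  have e2 : b ⬝ᵥ b = a ⬝ᵥ a := by
    conv_lhs => rw [hb]
    rw [s7fp_dot_symm hP, hPb]
  have e3 : a ⬝ᵥ b = y ⬝ᵥ a := by
    conv_lhs => rw [ha]
    rw [s7fp_dot_symm hP, hPb]
  have n1 : 0 ≤ (y - b) ⬝ᵥ (y - b) := Finset.sum_nonneg fun i _ => mul_self_nonneg _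
  have n2 : 0 ≤ (σ • a - b) ⬝ᵥ (σ • a - b) := Finset.sum_nonneg fun i _ => mul_self_nonneg _
  have n3 : 0 ≤ a ⬝ᵥ a := Finset.sum_nonneg fun i _ => mul_self_nonneg _
  rw [sub_dotProduct, dotProduct_sub, dotProduct_sub, dotProduct_comm b y, e1, e2] at n1
  rw [sub_dotProduct, dotProduct_sub, dotProduct_sub, smul_dotProduct, smul_dotProduct, dotProduct_smul,
    dotProduct_smul, dotProduct_comm b a, e3, e2] at n2
  simp only [smul_eq_mul] at n2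
  rw [e0, e1]
  refine ⟨?_, by linarith, n3⟩
  have : σ * (σ * (a ⬝ᵥ a)) = a ⬝ᵥ a := by rw [← mul_assoc, ← sq, hσ, one_mul]
  linarith

theorem s7fp_quad_le {ι : Type*} [Fintype ι] {D : Matrix ι ι ℝ} {Z : ℝ} (hD : s7opLE D Z) (y : ι → ℝ) :
    (D *ᵥ y) ⬝ᵥ y ≤ Z * (y ⬝ᵥ y) := by
  have h1 := s7t_cs (D *ᵥ y) y
  have h2 := s7t_op_sqrt hD y
  have h3 : Real.sqrt (s7sq y) * Real.sqrt (s7sq y) = y ⬝ᵥ y := Real.mul_self_sqrt (s7t_sq_nonneg y)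
  have h4 := Real.sqrt_nonneg (s7sq y)
  calc (D *ᵥ y) ⬝ᵥ y ≤ |(D *ᵥ y) ⬝ᵥ y| := le_abs_self _
    _ ≤ Real.sqrt (s7sq (D *ᵥ y)) * Real.sqrt (s7sq y) := h1
    _ ≤ Z * Real.sqrt (s7sq y) * Real.sqrt (s7sq y) := mul_le_mul_of_nonneg_right h2 h4
    _ = Z * (y ⬝ᵥ y) := by rw [mul_assoc, h3]

variable {n d : ℕ}

theorem s7fp_sum_Xi (π : PPair n d) (x : Stub n d) : ∑ i, π.Xi ℝ i x = 0 := by
  by_cases hx : π.Unres x
  · have hl : 0 < π.l := Finset.card_pos.2 ⟨x, Finset.mem_filter.2 ⟨Finset.mem_univ _, hx⟩⟩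
    have := π.sum_xi_apply ℝ hl x
    simpa [PPair.Xi, hx] using this
  · simp [PPair.Xi, hx]

theorem s7fp_sum_Xi_mulVec (π : PPair n d) (y : Stub n d → ℝ) : ∑ i, (π.Xi ℝ *ᵥ y) i = 0 := by
  simp only [Matrix.mulVec, dotProduct]
  rw [Finset.sum_comm]
  apply Finset.sum_eq_zero
  intro x _
  rw [← Finset.sum_mul, s7fp_sum_Xi, zero_mul]

theorem s7fp_sum_of_J1_mul (hn : 0 < n) (R : Matrix (Fin n) (Fin n) ℝ) (hR : J1 ℝ n * R = 0)
    (x : Fin n → ℝ) : ∑ i, (R *ᵥ x) i = 0 := by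
  have hnR : (n : ℝ) ≠ 0 := Nat.cast_ne_zero.2 hn.ne'
  have h1 : J1 ℝ n *ᵥ (R *ᵥ x) = 0 := by rw [Matrix.mulVec_mulVec, hR, Matrix.zero_mulVec]
  have e2 := congrFun h1 ⟨0, hn⟩
  rw [J1_mulVec] at e2
  rcases mul_eq_zero.1 e2 with e3 | e3
  · exact absurd e3 (inv_ne_zero hnR)
  · exact e3

theorem s7fp_PiS_XiT (π : PPair n d) : π.PiS ℝ * (π.Xi ℝ)ᵀ = (π.Xi ℝ)ᵀ := by
  rw [π.s7ctb_XiT_eq ℝ, ← Matrix.mul_assoc, π.s7ctb_PiS_idem ℝ]

theorem s7fp_Pt_cube {π π' : PPair n d} (hE : π.Ext π') :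
    s7Pt π π' ℝ * s7Pt π π' ℝ * s7Pt π π' ℝ = s7Pt π π' ℝ := by
  obtain ⟨-, hPP, -, hQP, -, -, -⟩ := s7PtAlg ℝ n d π π' hE
  rw [hPP, Matrix.sub_mul, hQP, sub_zero, s7Pt, ← Matrix.mul_assoc, ← Matrix.mul_assoc, π.s7ctb_PiS_idem ℝ]

/-- **S7-F-2** -/
theorem s7_finPos : StS7FinPos := by
  intro n d π π' σ h hn hE hσ hh hh' hpos hD v hv hv0
  obtain ⟨hU, -⟩ := π.isUnit_of_posOn1 hn σ h hpos
  obtain ⟨hMR, -, -, hJR, hRt⟩ := π.Mmat_mul_Rinv hn σ h hU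
  have hMt := π.Mmat_transpose σ h
  obtain ⟨-, hPP, -, -, hPt, -, -⟩ := s7PtAlg ℝ n d π π' hE
  have hK := s7KincPf ℝ n d π π' σ h hE
  have h3 := s7fp_Pt_cube hE
  have h1h : 0 < 1 - h ^ 2 := by nlinarith
  have hm : 0 < mh h := div_pos hh h1h
  set y : Stub n d → ℝ := (π.Xi ℝ)ᵀ *ᵥ v with hy
  set q : Fin n → ℝ := π.Xi ℝ *ᵥ y with hq
  set r : Fin n → ℝ := π.Rinv σ h *ᵥ q with hr
  have hq0 : ∑ i, q i = 0 := s7fp_sum_Xi_mulVec π y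
  have hr0 : ∑ i, r i = 0 := s7fp_sum_of_J1_mul hn _ hJR q
  have hMr : π.Mmat σ h *ᵥ r = q := by
    rw [hr, Matrix.mulVec_mulVec, hMR, Pi1_mulVec_of_sum_zero q hq0]
  have hQy : π.PiS ℝ *ᵥ y = y := by rw [hy, Matrix.mulVec_mulVec, s7fp_PiS_XiT]
  -- Cauchy-Schwarz for the form `M`
  have hC := hpos.cauchy hMt v r hv hr0
  rw [hMr] at hC
  have e1 : v ⬝ᵥ q = y ⬝ᵥ y := by rw [hq, s7fp_dot_rect]
  have hG : (π.Xi ℝ)ᵀ * π.Rinv σ h * π.Xi ℝ = mh h • (s7D π σ h + π.PiS ℝ) := by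
    have : π.Wmat σ h = (mh h)⁻¹ • π.Rinv σ h := rfl
    rw [s7D, s7Dof, this, sub_add_cancel, Matrix.mul_smul, Matrix.smul_mul, smul_smul,
      mul_inv_cancel₀ hm.ne', one_smul]
  have e2 : r ⬝ᵥ q = mh h * ((s7D π σ h *ᵥ y) ⬝ᵥ y + y ⬝ᵥ y) := by
    have : (π.Xi ℝ)ᵀ *ᵥ r = ((π.Xi ℝ)ᵀ * π.Rinv σ h * π.Xi ℝ) *ᵥ y := by
      rw [hr, hq, Matrix.mulVec_mulVec, Matrix.mulVec_mulVec, Matrix.mul_assoc]
    rw [hq, s7fp_dot_rect, this, hG, Matrix.smul_mulVec, smul_dotProduct, Matrix.add_mulVec, hQy,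
      add_dotProduct, smul_eq_mul]
  rw [e1, e2] at hC
  have hDq := s7fp_quad_le hD y
  -- the increment
  obtain ⟨t1, t2, t3⟩ := s7fp_tripotent hPt h3 hσ y
  have e3 : v ⬝ᵥ (π'.Mmat σ h *ᵥ v) = v ⬝ᵥ (π.Mmat σ h *ᵥ v) +
      (h * (y ⬝ᵥ ((s7Pt π π' ℝ * s7Pt π π' ℝ) *ᵥ y)) - σ * (y ⬝ᵥ (s7Pt π π' ℝ *ᵥ y))) := by
    have : π'.Mmat σ h = π.Mmat σ h + (π'.Mmat σ h - π.Mmat σ h) := by abel
    rw [this, hK, Matrix.add_mulVec, dotProduct_add, ← hPP]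
    congr 1
    rw [← Matrix.mulVec_mulVec, ← Matrix.mulVec_mulVec, s7fp_dot_rect, ← hy, Matrix.sub_mulVec,
      Matrix.smul_mulVec, Matrix.smul_mulVec, dotProduct_sub, dotProduct_smul, dotProduct_smul,
      smul_eq_mul, smul_eq_mul]
  rw [e3]
  have hA := hpos v hv hv0
  set A := v ⬝ᵥ (π.Mmat σ h *ᵥ v)
  set N := y ⬝ᵥ y
  set e := y ⬝ᵥ ((s7Pt π π' ℝ * s7Pt π π' ℝ) *ᵥ y)
  set p := y ⬝ᵥ (s7Pt π π' ℝ *ᵥ y)
  set g := (s7D π σ h *ᵥ y) ⬝ᵥ y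
  have hN0 : 0 ≤ N := Finset.sum_nonneg fun i _ => mul_self_nonneg _
  -- `(1 - h) N < A`
  have key : (1 - h) * N < A := by
    rcases hN0.eq_or_lt with h0 | h0
    · rw [← h0, mul_zero]; exact hA
    · have hc : mh h * (1 - h ^ 2) = h := div_mul_cancel₀ h h1h.ne'
      have b1 : N ^ 2 ≤ A * (mh h * (9 / 8 * N)) := by
        refine hC.trans (mul_le_mul_of_nonneg_left (mul_le_mul_of_nonneg_left ?_ hm.le) hA.le)
        linarith
      have b2 : N ≤ A * (mh h * (9 / 8)) := by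
        have : N * N ≤ (A * (mh h * (9 / 8))) * N := by nlinarith
        exact le_of_mul_le_mul_right this h0
      set w := (1 - h) * mh h with hw
      have hw1 : w * (1 + h) = h := by rw [hw]; linear_combination hc
      have hw0 : 0 ≤ w := mul_nonneg (by linarith) hm.le
      have hw2 : w * (9 / 8) < 1 := by nlinarith
      calc (1 - h) * N ≤ (1 - h) * (A * (mh h * (9 / 8))) :=
            mul_le_mul_of_nonneg_left b2 (by linarith)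
        _ = A * (w * (9 / 8)) := by rw [hw]; ring
        _ < A * 1 := mul_lt_mul_of_pos_left hw2 hA
        _ = A := mul_one A
  have k2 : (1 - h) * e ≤ (1 - h) * N := mul_le_mul_of_nonneg_left t2 (by linarith)
  nlinarith

end Pos

/-! ## 3. The sparse form of `z = Ĥ_f p` -/

section Z

variable {n d : ℕ}

theorem s7fp_PiS_single (π : PPair n d) {t : Stub n d} (ht : π.Unres t) :
    π.PiS ℝ *ᵥ Pi.single t 1 = Pi.single t 1 - fun y => if π.Unres y then ((π.l : ℝ))⁻¹ else 0 := by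
  rw [Matrix.mulVec_single_one]
  funext y
  show π.PiS ℝ y t = _
  simp only [PPair.PiS, Pi.sub_apply, Pi.single_apply]
  by_cases hy : π.Unres y
  · simp [hy, ht]
  · have : y ≠ t := fun e => hy (e ▸ ht)
    simp [hy, this]

theorem s7fp_PiS_single_res (π : PPair n d) {t : Stub n d} (ht : ¬ π.Unres t) :
    π.PiS ℝ *ᵥ Pi.single t 1 = 0 := by
  rw [Matrix.mulVec_single_one]
  funext y
  show π.PiS ℝ y t = _
  simp [PPair.PiS, ht]

theorem s7fp_Dof_transpose (π : PPair n d) {X : Matrix (Fin n) (Fin n) ℝ} (hX : Xᵀ = X) :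
    (s7Dof π X)ᵀ = s7Dof π X := by
  unfold s7Dof
  rw [Matrix.transpose_sub, Matrix.transpose_mul, Matrix.transpose_mul, Matrix.transpose_transpose, hX,
    π.s7ctb_PiS_transpose ℝ, Matrix.mul_assoc]

theorem s7fp_Dof_PiS (π : PPair n d) (X : Matrix (Fin n) (Fin n) ℝ) :
    s7Dof π X * π.PiS ℝ = s7Dof π X := by
  have h1 : π.Xi ℝ * π.PiS ℝ = π.Xi ℝ := by
    have := congrArg Matrix.transpose (s7fp_PiS_XiT π)
    rwa [Matrix.transpose_mul, Matrix.transpose_transpose, π.s7ctb_PiS_transpose ℝ] at this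
  unfold s7Dof
  rw [Matrix.sub_mul, Matrix.mul_assoc, h1, π.s7ctb_PiS_idem ℝ]

theorem s7fp_Pt_PiS (π π' : PPair n d) : s7Pt π π' ℝ * π.PiS ℝ = s7Pt π π' ℝ := by
  rw [s7Pt, Matrix.mul_assoc, π.s7ctb_PiS_idem ℝ]

theorem s7fp_N_op {ι : Type*} [Fintype ι] {H : Matrix ι ι ℝ} (hH : s7opLE H 1) (a : ι → ℝ) :
    s7faN (H *ᵥ a) ≤ s7faN a := by
  have := s7t_op_sqrt hH a
  rwa [one_mul] at this

theorem s7fp_sq_le_of_N {ι : Type*} [Fintype ι] {a : ι → ℝ} {r : ℝ} (h : s7faN a ≤ r) :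
    s7sq a ≤ r ^ 2 := by
  rw [← s7fa_N_sq a]
  exact pow_le_pow_left₀ (s7fa_N_nonneg a) h 2

/-- **S7-F-3** -/
theorem s7_finZ (hC : StS7PtCoord) (hN : StS7Neumann) : StS7FinZ := by
  intro n d π π' X σ h r sh τ t₀ hE hcomp hσ hh hh' hX hr hD hrow huniq hsh hτ
  obtain ⟨hP1, hPc⟩ := hC n d π π' hE
  have hσ1 : |σ| = 1 := by
    have : |σ| ^ 2 = 1 := by rw [sq_abs, hσ]
    exact (pow_eq_one_iff_of_nonneg (abs_nonneg σ) two_ne_zero).1 this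
  have habs : |-(σ * h)| ≤ 3 / 4 := by
    rw [abs_neg, abs_mul, hσ1, one_mul, abs_of_pos hh]
    exact hh'
  obtain ⟨hU, -, hH1⟩ := hN (Stub n d) (s7Dof π X) (s7Pt π π' ℝ) (1 / 8) (-(σ * h)) hD le_rfl hP1 habs
  have hH : s7opLE (s7Ht π π' X σ h) 1 := hH1
  have hτN : s7faN τ ≤ r := s7fa_N_le_of_sq hr hτ
  -- the easy case
  have easy : π.PiS ℝ *ᵥ sh = 0 → ∃ (c : ℝ) (t : Stub n d) (τ' : Stub n d → ℝ),
      s7Ht π π' X σ h *ᵥ (π.PiS ℝ *ᵥ sh + τ) = c • (π.PiS ℝ *ᵥ Pi.single t 1) + τ' ∧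
      |c| ≤ 1 ∧ s7sq τ' ≤ (2 * r) ^ 2 := by
    intro hz
    refine ⟨0, t₀, s7Ht π π' X σ h *ᵥ τ, by rw [hz, zero_add, zero_smul, zero_add], by simp, ?_⟩
    apply s7fp_sq_le_of_N
    have := s7fp_N_op hH τ
    linarith
  by_cases hall : ∀ x, sh x = 0
  · apply easy
    have : sh = 0 := funext hall
    rw [this, Matrix.mulVec_zero]
  push Not at hall
  obtain ⟨s, hs⟩ := hall
  have hshs : sh = sh s • Pi.single s 1 := by
    funext x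
    rw [Pi.smul_apply, Pi.single_apply, smul_eq_mul]
    by_cases hx : x = s
    · rw [if_pos hx, mul_one, hx]
    · rw [if_neg hx, mul_zero]
      by_contra h0
      exact hx (huniq x s h0 hs)
  by_cases hsU : π.Unres s
  swap
  · apply easy
    rw [hshs, Matrix.mulVec_smul, s7fp_PiS_single_res π hsU, smul_zero]
  -- the main case
  set t := π'.mate s with ht
  have htU : π.Unres t := (PPair.s7ctb_ext_mate hE s).2 hsU
  set D := s7Dof π X with hDdef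
  set H := s7Ht π π' X σ h with hHdef
  set H₀ := s7Ht0 π π' σ h with hH0def
  have hDt : Dᵀ = D := s7fp_Dof_transpose π hX
  have hid : H + H * (D * H₀) = H₀ := by
    have h1 : H * (1 + D * H₀) = H₀ := by
      rw [hHdef, s7Ht]
      exact Matrix.nonsing_inv_mul_cancel_right _ _ ((Matrix.isUnit_iff_isUnit_det _).1 hU)
    rwa [Matrix.mul_add, Matrix.mul_one] at h1
  have hvec : ∀ e : Stub n d → ℝ, H *ᵥ e = H₀ *ᵥ e - H *ᵥ (D *ᵥ (H₀ *ᵥ e)) := by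
    intro e
    have := congrArg (fun A => A *ᵥ e) hid
    simp only [Matrix.add_mulVec, ← Matrix.mulVec_mulVec] at this
    exact eq_sub_of_add_eq this
  have hH0e : H₀ *ᵥ (π.PiS ℝ *ᵥ Pi.single s 1) = (-(σ * h)) • (π.PiS ℝ *ᵥ Pi.single t 1) := by
    rw [hH0def, s7Ht0, Matrix.smul_mulVec, Matrix.mulVec_mulVec, s7fp_Pt_PiS, hPc s hsU,
      if_neg (hcomp s), s7fp_PiS_single π htU]
  have hHe : H *ᵥ (π.PiS ℝ *ᵥ Pi.single s 1) =
      (-(σ * h)) • (π.PiS ℝ *ᵥ Pi.single t 1) - (-(σ * h)) • (H *ᵥ (D *ᵥ Pi.single t 1)) := by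
    have hDP : D *ᵥ (π.PiS ℝ *ᵥ Pi.single t 1) = D *ᵥ Pi.single t 1 := by
      rw [Matrix.mulVec_mulVec, hDdef, s7fp_Dof_PiS]
    rw [hvec, hH0e, Matrix.mulVec_smul, Matrix.mulVec_smul, hDP]
  set c := sh s * (-(σ * h)) with hc
  have hc1 : |c| ≤ 1 := by
    rw [hc, abs_mul]
    calc |sh s| * |-(σ * h)| ≤ 1 * (3 / 4) := mul_le_mul (hsh s) habs (abs_nonneg _) (by norm_num)
      _ ≤ 1 := by norm_num
  refine ⟨c, t, -(c • (H *ᵥ (D *ᵥ Pi.single t 1))) + H *ᵥ τ, ?_, hc1, ?_⟩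
  · rw [Matrix.mulVec_add]
    conv_lhs => rw [hshs]
    rw [Matrix.mulVec_smul, Matrix.mulVec_smul, hHe, smul_sub, smul_smul, smul_smul, ← hc]
    abel
  · apply s7fp_sq_le_of_N
    have hcol : s7faN (D *ᵥ Pi.single t 1) ≤ r := by
      apply s7fa_N_le_of_sq hr
      have : D *ᵥ Pi.single t 1 = D t := by
        rw [Matrix.mulVec_single_one]
        funext x
        exact s7t_symm_apply hDt x t
      rw [this, s7t_sq_row hDt]
      exact hrow t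
    have n1 : s7faN (-(c • (H *ᵥ (D *ᵥ Pi.single t 1)))) ≤ r := by
      rw [s7fa_N_neg, s7fa_N_smul]
      calc |c| * s7faN (H *ᵥ (D *ᵥ Pi.single t 1)) ≤ 1 * r :=
            mul_le_mul hc1 ((s7fp_N_op hH _).trans hcol) (s7fa_N_nonneg _) (by norm_num)
        _ = r := one_mul r
    have n2 : s7faN (H *ᵥ τ) ≤ r := (s7fp_N_op hH τ).trans hτN
    have := s7fa_N_add (-(c • (H *ᵥ (D *ᵥ Pi.single t 1)))) (H *ᵥ τ)
    linarith

end Z

end Claimed.Agent.R275
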