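import Claimed.Agent.R275.S7AccTools
import Claimed.Agent.R275.NbWalk2

/-!
# Row 275, Section 7, leaf S7-GIRTH: `StS7SepOf`, `StS7Girth` (helper183)

Both are corollaries of the walk calculus of `NbWalk.lean` / `NbWalk2.lean` (`nbw_ext_girth`).  No sorry.
-/

set_option autoImplicit false

namespace Claimed.Agent.R275

namespace PPair

variable {n d : ℕ} {π₀ : PPair n d}

/-- distinct unresolved stubs of a separated boundary are far apart -/
theorem s7g_far {R : ℕ} (hs : π₀.Separated R) {x y : Stub n d} (hx : π₀.Unres x) (hy : π₀.Unres y)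
    (hxy : x ≠ y) : π₀.Far R x.1 y.1 := by
  by_contra hcon
  exact hs x ⟨hx, Or.inr ⟨y, hy, hxy.symm, hcon⟩⟩

/-- no short return at an unresolved stub of a separated boundary -/
theorem s7g_noret {R : ℕ} (hs : π₀.Separated R) {x : Stub n d} (hx : π₀.Unres x) (k : ℕ)
    (hk1 : 1 ≤ k) (hk : k ≤ R) : π₀.Nact ℚ k x.1 x.1 = 0 := by
  by_contra hcon
  exact hs x ⟨hx, Or.inl ⟨k, by omega, hk1, hcon⟩⟩

end PPair

/-- **S7-T15** -/
theorem s7_sepOf : StS7SepOf := by
  intro n d π₀ R hs
  refine ⟨fun v => ?_, fun x y hx hy k hk1 hk => ?_⟩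
  · unfold PPair.tcount
    rw [Finset.card_le_one]
    intro x hx y hy
    simp only [PPair.unres, Finset.mem_filter, Finset.mem_univ, true_and] at hx hy
    by_contra hxy
    have h := PPair.s7g_far hs hx.1 hy.1 hxy 0 (by omega)
    rw [hx.2, hy.2] at h
    exact (π₀.nbw_Nact_zero_ne_zero v v).2 rfl h
  · by_cases hxy : x = y
    · subst hxy
      exact PPair.s7g_noret hs hx k hk1 hk
    · exact PPair.s7g_far hs hx hy hxy k (by omega)

/-- **S7-T16** -/
theorem s7_girth : StS7Girth := by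
  intro n d π₀ π g R hg hs hgR hE
  exact PPair.nbw_ext_girth hE g R (by omega) hg
    (fun s t hs0 ht0 _ _ hst => PPair.s7g_far hs hs0 ht0 hst)
    (fun s hs0 _ k hk1 hk => PPair.s7g_noret hs hs0 k hk1 hk)

end Claimed.Agent.R275
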