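import Claimed.Agent.R275.S7Iface
import Claimed.Agent.R275.S7Num
import Claimed.Agent.R275.S4Cor
import Claimed.Agent.R275.S7ContB

/-!
# Row 275, Section 7, package S7-I-INAT: the analytic input at the stop ("The initial energy gap", (7.46))

Proof of `StS7InAtOf` (statement in `S7Iface.lean`, helper245); proof by helper277.  No hypothesis.  Helper prefix `s7ia_`.

* deterministic part: `Tr Π_S = l - 1`, `Y = Tr D = L₁`, `X = Tr D² = Tr K_all - 2 L₁ - (l - 1)`, the diagonal `D_xx = T_xx + e_x(x)`,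
  the global rows `‖Ξᵀ W e_i‖² = (W f_i)ᵀ 𝒟 (W f_i)`, the entries at two global labels.
* numerics: comparison of `n ^ e` with the dyadic scales `scQ`.
-/

set_option autoImplicit false

namespace Claimed.Agent.R275

open Matrix Filter

/-! ## Deterministic part -/

namespace PPair

variable {n d : ℕ} (π : PPair n d)

theorem s7ia_trace_PiS (hl : 0 < π.l) : (π.PiS ℝ).trace = (π.l : ℝ) - 1 := by
  have hl' : (π.l : ℝ) ≠ 0 := by exact_mod_cast hl.ne'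
  have h1 : (π.PiS ℝ).trace = ∑ x ∈ π.unres, (1 - (π.l : ℝ)⁻¹) := by
    rw [Matrix.trace, unres, Finset.sum_filter]
    refine Finset.sum_congr rfl fun x _ => ?_
    rw [Matrix.diag_apply, PiS]
    by_cases hx : π.Unres x <;> simp [hx]
  rw [h1, Finset.sum_const, nsmul_eq_mul]
  have h2 : ((π.unres.card : ℕ) : ℝ) = (π.l : ℝ) := rfl
  rw [h2]
  field_simp

theorem s7ia_trace_Gam (σ h : ℝ) : (π.Gam σ h).trace = π.F1 σ h := by
  rw [Gam, F1, Matrix.trace_mul_comm, ← Matrix.mul_assoc, ← Dcal_eq_Xi_mul]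

theorem s7ia_D_eq (σ h : ℝ) : s7D π σ h = π.Gam σ h - π.PiS ℝ := rfl

/-- `Y = Tr D = L₁` -/
theorem s7ia_Y (hl : 0 < π.l) (σ h : ℝ) : s7Y (s7D π σ h) = π.L1 σ h := by
  rw [s7Y, s7ia_D_eq, Matrix.trace_sub, s7ia_trace_Gam, π.s7ia_trace_PiS hl, L1]

theorem s7ia_Gam_mul_PiS (σ h : ℝ) : π.Gam σ h * π.PiS ℝ = π.Gam σ h := by
  rw [Gam, Matrix.mul_assoc, s72e_Xi_mul_PiS]

theorem s7ia_PiS_mul_Gam (σ h : ℝ) : π.PiS ℝ * π.Gam σ h = π.Gam σ h := by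
  have h1 := congrArg Matrix.transpose (π.s7ia_Gam_mul_PiS σ h)
  rwa [Matrix.transpose_mul, s4c_Gam_transpose, s7ctb_PiS_transpose] at h1

/-- `X = Tr D² = Tr K_all - 2 L₁ - (l - 1)` -/
theorem s7ia_X (hl : 0 < π.l) (σ h : ℝ) :
    s7X (s7D π σ h) = (π.Kall σ h).trace - 2 * π.L1 σ h - ((π.l : ℝ) - 1) := by
  have h1 : s7D π σ h * s7D π σ h = π.Kall σ h - π.Gam σ h - π.Gam σ h + π.PiS ℝ := by
    rw [s7ia_D_eq, Matrix.sub_mul, Matrix.mul_sub, Matrix.mul_sub, s7ia_Gam_mul_PiS, s7ia_PiS_mul_Gam,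
      s7ctb_PiS_idem, Kall]
    abel
  rw [s7X, h1, Matrix.trace_add, Matrix.trace_sub, Matrix.trace_sub, s7ia_trace_Gam, π.s7ia_trace_PiS hl, L1]
  ring

/-- the diagonal of `D` at an unresolved stub -/
theorem s7ia_diag (hn : 0 < n) (hl : 0 < π.l) (L : ℕ) (hL : 0 < L) (σ h : ℝ) (x : Stub n d) (hx : π.Unres x) :
    s7D π σ h x x = (∑ k ∈ Finset.range L, (σ * h) ^ k * π.tCoef k x x) + π.eEnt L σ h (.stub x) x := by
  rw [s7ia_D_eq, Matrix.sub_apply, s45i_Gam_apply, if_pos ⟨hx, hx⟩, PiS, if_pos ⟨hx, hx⟩, if_pos rfl]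
  have h1 : π.eEnt L σ h (.stub x) x = π.wEnt σ h (.stub x) x - π.pEnt L σ h (.stub x) x := by
    rw [eEnt, Emat, ft_ent_sub]
    rfl
  have h2 : π.pEnt L σ h (.stub x) x = ∑ k ∈ Finset.range L, (σ * h) ^ k * π.qEnt k (.stub x) (.stub x) :=
    π.ft_ent_Pmat hn hl L σ h _ _
  have h3 : ∑ k ∈ Finset.range L, (σ * h) ^ k * π.tCoef k x x =
      π.pEnt L σ h (.stub x) x - (1 - (π.l : ℝ)⁻¹) := by
    rw [h2]
    simp only [tCoef, mul_sub, Finset.sum_sub_distrib]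
    congr 1
    rw [Finset.sum_eq_single 0 (fun k _ hk => by rw [if_neg hk, mul_zero])
      (fun h0 => absurd (Finset.mem_range.2 hL) h0)]
    simp
  rw [h3, h1]
  ring

theorem s7ia_diag_res (σ h : ℝ) (x : Stub n d) (hx : ¬ π.Unres x) : s7D π σ h x x = 0 := by
  rw [s7ia_D_eq, Matrix.sub_apply, s45i_Gam_apply, if_neg (fun hh => hx hh.1), PiS, if_neg (fun hh => hx hh.1),
    sub_zero]

/-- `T ≤ 2 ∑ j_x² + 2 T_S` -/
theorem s7ia_T_le (hd : 3 ≤ d) (hn : 0 < n) (hl : 0 < π.l) (L : ℕ) (hL : 0 < L) (σ h : ℝ) (hσ : σ ^ 2 = 1)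
    (hh : 0 ≤ h) :
    s7T (s7D π σ h) ≤ 2 * ∑ x ∈ π.unres, π.jmaj (Cmaj d) L h x ^ 2 + 2 * π.TS L σ h := by
  have h1 : s7T (s7D π σ h) = ∑ x ∈ π.unres,
      ((∑ k ∈ Finset.range L, (σ * h) ^ k * π.tCoef k x x) + π.eEnt L σ h (.stub x) x) ^ 2 := by
    rw [s7T, unres, Finset.sum_filter]
    refine Finset.sum_congr rfl fun x _ => ?_
    by_cases hx : π.Unres x
    · rw [if_pos hx, π.s7ia_diag hn hl L hL σ h x hx]
    · rw [if_neg hx, π.s7ia_diag_res σ h x hx]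
      ring
  rw [h1]
  refine (s4c_sum_sq_add _ _ _).trans ?_
  rw [TS]
  refine add_le_add_left (mul_le_mul_of_nonneg_left (Finset.sum_le_sum fun x _ => ?_) (by norm_num)) _
  have h2 : |∑ k ∈ Finset.range L, (σ * h) ^ k * π.tCoef k x x| ≤ π.jmaj (Cmaj d) L h x :=
    (ft_abs_sum_le σ h hσ hh L _).trans (π.s43v_TAbs_self_le hd hn hl L h hh x)
  exact sq_le_sq' (by linarith [(abs_le.1 h2).1]) (abs_le.1 h2).2

theorem s7ia_W_mul_J1 (hn : 0 < n) (σ h : ℝ) (hp : PosOn1 (π.Mmat σ h)) : π.Wmat σ h * J1 ℝ n = 0 := by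
  obtain ⟨hRJ, -, -, -, -⟩ := π.s45g_Rinv_facts hn σ h hp
  rw [Wmat_eq_smul, Matrix.smul_mul, hRJ, smul_zero]

theorem s7ia_J1_mul_W (hn : 0 < n) (σ h : ℝ) (hp : PosOn1 (π.Mmat σ h)) : J1 ℝ n * π.Wmat σ h = 0 := by
  obtain ⟨-, hJR, -, -, -⟩ := π.s45g_Rinv_facts hn σ h hp
  rw [Wmat_eq_smul, Matrix.mul_smul, hJR, smul_zero]

theorem s7ia_lvec_glob (i : Fin n) : π.lvec ℝ (.glob i) = Pi1 ℝ n *ᵥ Pi.single i 1 := by
  ext v
  rw [Matrix.mulVec_single_one]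
  simp [lvec, Pi1, J1, Matrix.one_apply, eq_comm]

theorem s7ia_W_lvec_glob (hn : 0 < n) (σ h : ℝ) (hp : PosOn1 (π.Mmat σ h)) (i : Fin n) :
    π.Wmat σ h *ᵥ π.lvec ℝ (.glob i) = fun w => π.Wmat σ h w i := by
  rw [s7ia_lvec_glob, Matrix.mulVec_mulVec, Pi1, Matrix.mul_sub, Matrix.mul_one, π.s7ia_W_mul_J1 hn σ h hp, sub_zero,
    Matrix.mulVec_single_one]
  rfl

/-- squared norm of a global row -/
theorem s7ia_row_sq (X : Matrix (Fin n) (Fin n) ℝ) (i : Fin n) :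
    s7sq (s7row π X i) = (fun w => X w i) ⬝ᵥ (π.Dcal ℝ *ᵥ fun w => X w i) := by
  rw [s45i_Dform, s7sq, dotProduct, unres, Finset.sum_filter]
  refine Finset.sum_congr rfl fun x _ => ?_
  by_cases hx : π.Unres x
  · rw [if_pos hx]
    have h1 : s7row π X i x = π.xi ℝ x ⬝ᵥ fun w => X w i := by
      simp only [s7row, dotProduct, Xi, if_pos hx]
    rw [h1]
    ring
  · rw [if_neg hx]
    have h1 : s7row π X i x = 0 := by simp [s7row, Xi, hx]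
    rw [h1]
    ring

theorem s7ia_lvec_glob_sq (hn : 0 < n) (hl : 0 < π.l) (i : Fin n) :
    π.lvec ℝ (.glob i) ⬝ᵥ π.lvec ℝ (.glob i) ≤ 1 := by
  rw [π.s45i_glob_dot i _ (π.s45k_sum_lvec hn hl (.glob i))]
  have h1 : (0 : ℝ) ≤ (n : ℝ)⁻¹ := by positivity
  simp only [lvec, if_true]
  linarith

/-- (4.10) for a global coordinate -/
theorem s7ia_loc (hn : 0 < n) (hl : 0 < π.l) (σ h ε : ℝ) (hp : PosOn1 (π.Mmat σ h)) (hβ : 0 ≤ betaf d h) (i : Fin n)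
    (hq : (π.Wmat σ h *ᵥ π.lvec ℝ (.glob i)) ⬝ᵥ (π.Bplus h *ᵥ (π.Wmat σ h *ᵥ π.lvec ℝ (.glob i))) ≤
      (1 + (h ^ 2)⁻¹) * (π.lvec ℝ (.glob i) ⬝ᵥ π.lvec ℝ (.glob i)) + ε) :
    s7sq (s7row π (π.Wmat σ h) i) ≤ 1 + (h ^ 2)⁻¹ + ε := by
  rw [s7ia_row_sq, ← π.s7ia_W_lvec_glob hn σ h hp i]
  rw [s45i_Bform] at hq
  have h1 := π.s7ia_lvec_glob_sq hn hl i
  have h2 : 0 ≤ betaf d h * ((π.Wmat σ h *ᵥ π.lvec ℝ (.glob i)) ⬝ᵥ (π.Wmat σ h *ᵥ π.lvec ℝ (.glob i))) :=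
    mul_nonneg hβ (s44_dot_self_nonneg _)
  have h3 : (0 : ℝ) ≤ 1 + (h ^ 2)⁻¹ := by positivity
  have h4 := mul_le_mul_of_nonneg_left h1 h3
  linarith

/-- an entry at two global labels -/
theorem s7ia_ent_glob (X : Matrix (Fin n) (Fin n) ℝ) (i j : Fin n) :
    π.ent X (.glob i) (.glob j) = (Pi1 ℝ n * X * Pi1 ℝ n) i j := by
  rw [ent, s7ia_lvec_glob, s7ia_lvec_glob, Matrix.mulVec_mulVec, Matrix.dotProduct_mulVec, Matrix.vecMul_mulVec,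
    s4c_entry (Pi1 ℝ n * X * Pi1 ℝ n) i j, Matrix.dotProduct_mulVec, Pi1_transpose, Matrix.mul_assoc]

theorem s7ia_Pi1_W (hn : 0 < n) (σ h : ℝ) (hp : PosOn1 (π.Mmat σ h)) :
    Pi1 ℝ n * π.Wmat σ h * Pi1 ℝ n = π.Wmat σ h := by
  rw [Pi1, Matrix.sub_mul, Matrix.one_mul, π.s7ia_J1_mul_W hn σ h hp, sub_zero, Matrix.mul_sub, Matrix.mul_one,
    π.s7ia_W_mul_J1 hn σ h hp, sub_zero]

theorem s7ia_Pi1_P (hn : 0 < n) (L : ℕ) (σ h : ℝ) : Pi1 ℝ n * π.Pmat L σ h * Pi1 ℝ n = π.Pmat L σ h := by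
  rw [Pmat, PmatV, Finset.mul_sum, Finset.sum_mul]
  refine Finset.sum_congr rfl fun k _ => ?_
  rw [Matrix.mul_smul, Matrix.smul_mul]
  congr 1
  rw [← Matrix.mul_assoc, ← Matrix.mul_assoc, Pi1_mul_Pi1 ℝ hn, Matrix.mul_assoc _ (Pi1 ℝ n) (Pi1 ℝ n),
    Pi1_mul_Pi1 ℝ hn]

/-- the error at two global labels is the matrix entry -/
theorem s7ia_Eent_glob (hn : 0 < n) (L : ℕ) (σ h : ℝ) (hp : PosOn1 (π.Mmat σ h)) (i j : Fin n) :
    π.Eent L σ h (.glob i) (.glob j) = (π.Wmat σ h - π.Pmat L σ h) i j := by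
  rw [Eent, s7ia_ent_glob, Emat, Matrix.mul_sub, Matrix.sub_mul, π.s7ia_Pi1_W hn σ h hp, π.s7ia_Pi1_P hn]

end PPair

/-! ## The gap: a computation with real numbers -/

theorem s7ia_gap_core (l N h α K T L1 ε c δ : ℝ) (hl : 2 ≤ l) (hN : 0 < N) (hh0 : 0 < h) (hh1 : h ≤ 1) (hα : 0 < α)
    (hid : |K / l + α / h ^ 2 * T / l - (1 + (h ^ 2)⁻¹)| ≤ ε)
    (hT : c * (N⁻¹ + α / l)⁻¹ ≤ T) (hc : 0 ≤ c) (hlN : l / N ≤ α) (hδ : 0 ≤ δ) (hε : 0 ≤ ε)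
    (hnum : (2 + 2 * |L1|) / l + ε + δ ≤ c / 2) :
    h ^ 2 * (K - 2 * L1 - (l - 1)) / (l - 1) ≤ 1 - δ := by
  have hl0 : 0 < l := by linarith
  have h2 : 0 < h ^ 2 := by positivity
  have h21 : h ^ 2 ≤ 1 := by nlinarith
  have hA : c * l / 2 ≤ α * T := by
    have e1 : N⁻¹ ≤ α / l := by
      rw [le_div_iff₀ hl0, inv_mul_eq_div]
      exact hlN
    have e0 : 0 < N⁻¹ + α / l := by positivity
    have e2 : (2 * (α / l))⁻¹ ≤ (N⁻¹ + α / l)⁻¹ := inv_anti₀ e0 (by linarith)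
    have e3 : (2 * (α / l))⁻¹ = l / (2 * α) := by field_simp
    have e4 : c * (l / (2 * α)) ≤ T := by
      rw [← e3]
      exact (mul_le_mul_of_nonneg_left e2 hc).trans hT
    calc c * l / 2 = α * (c * (l / (2 * α))) := by field_simp
      _ ≤ α * T := mul_le_mul_of_nonneg_left e4 hα.le
  have hK : K / l + α / h ^ 2 * T / l ≤ 1 + (h ^ 2)⁻¹ + ε := by linarith [(abs_le.1 hid).2]
  have hK2 : h ^ 2 * K + α * T ≤ l * (h ^ 2 + 1 + h ^ 2 * ε) := by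
    have e0 := mul_le_mul_of_nonneg_left hK (by positivity : 0 ≤ h ^ 2 * l)
    have e1 : h ^ 2 * l * (K / l + α / h ^ 2 * T / l) = h ^ 2 * K + α * T := by field_simp
    have e2 : h ^ 2 * l * (1 + (h ^ 2)⁻¹ + ε) = l * (h ^ 2 + 1 + h ^ 2 * ε) := by field_simp
    linarith
  rw [div_le_iff₀ (by linarith)]
  have hnum' : 2 + 2 * |L1| + l * ε + l * δ ≤ c * l / 2 := by
    have e0 := mul_le_mul_of_nonneg_left hnum hl0.le
    have e1 : l * ((2 + 2 * |L1|) / l + ε + δ) = 2 + 2 * |L1| + l * ε + l * δ := by field_simp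
    linarith
  have hL : -(h ^ 2 * L1) ≤ |L1| := by
    have e1 := neg_abs_le L1
    have e2 := abs_nonneg L1
    nlinarith
  have hε' : l * (h ^ 2 * ε) ≤ l * ε := by
    have e1 := mul_nonneg hl0.le hε
    nlinarith
  nlinarith

/-! ## Numerics -/

/-- `C n^e ≤ scQ x n` for `e < x` -/
theorem s7ia_rpow_le_scQ (C e : ℝ) (x : ℚ) (h : e < (x : ℝ)) :
    ∀ᶠ n : ℕ in atTop, C * (n : ℝ) ^ e ≤ (scQ x n : ℝ) := by
  rcases le_total 0 x with hx | hx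
  · filter_upwards [s45k_ev (C * 2 ^ ((x : ℝ) + 1)) e x h, eventually_ge_atTop 1] with n hn hn1
    have h1 := le_scQ_of_nonneg x hx n hn1
    rw [div_le_iff₀ (by positivity)] at h1
    have h2 : C * (n : ℝ) ^ e * 2 ^ ((x : ℝ) + 1) ≤ (scQ x n : ℝ) * 2 ^ ((x : ℝ) + 1) := by linarith
    exact le_of_mul_le_mul_right h2 (by positivity)
  · filter_upwards [s45k_ev (C * 2) e x h, eventually_ge_atTop 1] with n hn hn1
    have h1 := le_scQ_of_nonpos x hx n hn1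
    linarith

/-- `scQ x n ≤ c n^e` for `x < e` -/
theorem s7ia_scQ_le_rpow (c e : ℝ) (hc : 0 < c) (x : ℚ) (h : (x : ℝ) < e) :
    ∀ᶠ n : ℕ in atTop, (scQ x n : ℝ) ≤ c * (n : ℝ) ^ e := by
  rcases le_total 0 x with hx | hx
  · filter_upwards [s45k_ev (1 / c) x e h, eventually_ge_atTop 1] with n hn hn1
    have h1 := scQ_le_of_nonneg x hx n hn1
    rw [div_mul_eq_mul_div, one_mul, div_le_iff₀ hc] at hn
    linarith
  · filter_upwards [s45k_ev (2 ^ (-(x : ℝ)) / c) x e h, eventually_ge_atTop 1] with n hn hn1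
    have h1 := scQ_le_of_nonpos x hx n hn1
    rw [div_mul_eq_mul_div, div_le_iff₀ hc] at hn
    linarith

/-- numerics of the gap: the three error terms against `c_T n^{-θ} / 2` -/
theorem s7ia_gap_num (q cT A13 A23 Aθ Aε Ac l L1 δ : ℝ) (_hq : 0 < q) (hcT : 0 < cT) (h13 : 1 ≤ A13) (hAθ : 0 < Aθ)
    (hl : A23 / 2 ≤ l) (h23 : 0 < A23) (hL1 : |L1| ≤ 16 * q * A13) (hAc : Ac = Aθ * A23)
    (g1 : δ ≤ cT / 6 * Aθ) (g2 : 6 / cT * Aε ≤ Aθ) (g3 : (2 + 32 * q) * 12 / cT * A13 ≤ Ac) :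
    (2 + 2 * |L1|) / l + Aε + δ ≤ cT * Aθ / 2 := by
  have hl0 : 0 < l := by linarith
  have e2 : Aε ≤ cT / 6 * Aθ := by
    rw [div_mul_eq_mul_div, div_le_iff₀ hcT] at g2
    linarith
  have e3 : (2 + 2 * |L1|) / l ≤ cT / 6 * Aθ := by
    rw [div_le_iff₀ hl0]
    rw [div_mul_eq_mul_div, div_le_iff₀ hcT, hAc] at g3
    have e4 : 2 + 2 * |L1| ≤ (2 + 32 * q) * A13 := by nlinarith
    have e5 : cT / 6 * Aθ * (A23 / 2) ≤ cT / 6 * Aθ * l := mul_le_mul_of_nonneg_left hl (by positivity)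
    nlinarith
  linarith

/-- **S7-I-3** -/
theorem s7_inAtOf : StS7InAtOf := by
  intro d par hpar CM CR η Rc cT θ hη0 hη1 hθ hcT
  obtain ⟨hd, ⟨hg0, hg1⟩, -, hcp, hcp'⟩ := hpar
  have hd' : (3 : ℝ) ≤ (d : ℝ) := by exact_mod_cast hd
  obtain ⟨hr1, hr2⟩ := parF_sqrtq d hd
  have hgR0 : (0 : ℝ) < (par.g : ℝ) := by exact_mod_cast hg0
  have hgR1 : (par.g : ℝ) ≤ (aa : ℝ) / 100000 := by
    have h := (Rat.cast_le (K := ℝ)).2 hg1
    push_cast at h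
    exact h
  have ha : (aa : ℝ) = 1 / 10000 := parF_aa
  have N1 := s7ia_rpow_le_scQ 2 ((125 / 1000 : ℝ) * (aa : ℝ)) (126 / 1000 * aa) (by push_cast; rw [ha]; norm_num)
  have N2 := s7ia_rpow_le_scQ 1 ((9 / 100 : ℝ) * (aa : ℝ)) (1 / 10 * aa) (by push_cast; rw [ha]; norm_num)
  have N3 := s7ia_rpow_le_scQ 4 ((η + (par.g : ℝ) / 100) / 2) (s7eta0 par.g)
    (by unfold s7eta0; push_cast; linarith)
  have N6 := s7ia_rpow_le_scQ 2 ((37 / 100 : ℝ) * (aa : ℝ) - (2 / 3 + 15 / 100 * (aa : ℝ)) / 2)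
    (375 / 1000 * aa - (2 / 3 + 15 / 100 * aa) / 2) (by push_cast; rw [ha]; norm_num)
  have G1 := s7ia_scQ_le_rpow (cT / 6) (-θ) (by positivity) (-par.g) (by push_cast; linarith)
  have G2 := s45k_ev (6 / cT) (-((aa : ℝ) / 2000)) (-θ) (by rw [ha] at hgR1 ⊢; linarith)
  have G3 := s45k_ev ((2 + 32 * ((d : ℝ) - 1)) * 12 / cT) (1 / 3) (-θ + 2 / 3) (by rw [ha] at hgR1; linarith)
  have G4 := s45k_ev (32 * ((d : ℝ) - 1)) (-(1 / 3 : ℝ) + 15 / 100 * (aa : ℝ)) (-(1 / 3 : ℝ) + (aa : ℝ) / 2)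
    (by rw [ha]; norm_num)
  filter_upwards [eventually_ge_atTop 1, s4c_basic d hd par.cp hcp hcp', s7n_prim d hd par.cp hcp hcp',
    s4c_opnorms d hd par.cp hcp hcp' CM CR η Rc, prim_zero_facts d hd,
    s45i_quad_prim d hd par.cp hcp hcp' CM CR η Rc, s45i_trace_identity d hd par.cp hcp hcp' CM CR η Rc,
    s43v_sum_jmaj_sq_le d hd CM CR η ((η + (par.g : ℝ) / 100) / 2) Rc hη0 (by linarith), s4c_Lcut_pos d hd,
    N1, N2, N3, N6, G1, G2, G3, G4]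
    with n hn1 hbas hprim hop hzero hquad htr hjm hL n1 n2 n3 n6 g1 g2 g3 g4
  intro π₀ hc j hj b
  have hn0 : 0 < n := hn1
  have hnR : (0 : ℝ) < (n : ℝ) := by exact_mod_cast hn1
  have hnR1 : (1 : ℝ) ≤ (n : ℝ) := by exact_mod_cast hn1
  have hcur : π₀.Cur par.cp CM CR η Rc := ⟨le_of_eq hc.l_eq.symm, hc.walk, hc.caps⟩
  have hmem := s45j_prim_mem d n par.cp j (by omega)
  have hmemP : prim d n j ∈ primList d n par.cp := by
    unfold primList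
    exact List.mem_map.2 ⟨j, List.mem_range.2 (by omega), rfl⟩
  obtain ⟨hh0, hhz, hh1, hq, hα0, hα1, hβ0, -, -⟩ := hbas _ hmem
  obtain ⟨hlo, -, -⟩ := hprim j hj
  have caps := hc.caps _ hmem b
  have hσ := s4c_sgn_sq b
  have hl2 : 2 ≤ π₀.l := by rw [hc.l_eq]; exact s7n_l0_pos n
  have hl0 : 0 < π₀.l := by omega
  have hαS := s45k_alphaS_le d n j hd hh0.le
  have hαS0 : 0 < alphaS d n :=
    lt_of_lt_of_le (div_pos (Real.rpow_pos_of_pos hnR _) (by linarith)) hzero.2.2.1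
  have hal : (s7alS d n : ℝ) = alphaS d n := rfl
  refine ⟨caps.pos, ?_, ?_, ?_, ?_, ?_, ?_⟩
  · -- `opD`
    refine s7opLE_mono (hop π₀ hcur _ hmem b).1 ?_
    rw [hal]
    exact (div_le_div_of_nonneg_left (by positivity) hαS0 hαS).trans (div_le_div_of_nonneg_right n1 hαS0.le)
  · -- `trY`
    rw [π₀.s7ia_Y hl0, hal]
    refine caps.hL1.trans (div_le_div_of_nonneg_right ?_ hαS0.le)
    linarith
  · -- `dgT`
    refine (π₀.s7ia_T_le hd hn0 hl0 (Lcut d n) hL _ _ hσ hh0.le).trans ?_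
    have t1 := hjm π₀ hcur.l_ge hc.walk _ hh0.le hhz
    have t2 := hc.ts _ hmem b
    have t3 : (n : ℝ) ^ η ≤ (n : ℝ) ^ ((η + (par.g : ℝ) / 100) / 2) :=
      Real.rpow_le_rpow_of_exponent_le hnR1 (by linarith)
    unfold s7Tin
    linarith
  · -- `gap`
    rw [π₀.s7ia_X hl0, ← hc.l_eq]
    have hid := htr π₀ hcur _ hmemP b
    have hT := hc.tlow _ hmemP b
    unfold betaf at hid
    have hlR : (l0 n : ℝ) = (π₀.l : ℝ) := by rw [hc.l_eq]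
    have hl23 := s4c_l0_ge n hn1
    have hlup := (s43w_l0 n hn1).2
    rw [hlR] at hl23 hlup
    have hq0 : (0 : ℝ) < (d : ℝ) - 1 := by linarith
    have hL1 : |π₀.L1 (sgn b) ((prim d n j : ℚ) : ℝ)| ≤ 16 * ((d : ℝ) - 1) * (n : ℝ) ^ (1 / 3 : ℝ) := by
      refine caps.hL1.trans ?_
      rw [div_le_iff₀ hαS0]
      have e1 : 16 * ((d : ℝ) - 1) * (n : ℝ) ^ (1 / 3 : ℝ) *
          ((n : ℝ) ^ (-(1 / 3 : ℝ) + (aa : ℝ) / 2) / (16 * ((d : ℝ) - 1))) = (n : ℝ) ^ ((aa : ℝ) / 2) := by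
        have : (n : ℝ) ^ ((aa : ℝ) / 2) = (n : ℝ) ^ (1 / 3 : ℝ) * (n : ℝ) ^ (-(1 / 3 : ℝ) + (aa : ℝ) / 2) := by
          rw [← Real.rpow_add hnR]
          congr 1
          ring
        rw [this]
        field_simp
      have e2 : (n : ℝ) ^ ((9 / 100 : ℝ) * (aa : ℝ)) ≤ (n : ℝ) ^ ((aa : ℝ) / 2) :=
        Real.rpow_le_rpow_of_exponent_le hnR1 (by rw [ha]; norm_num)
      calc (n : ℝ) ^ ((9 / 100 : ℝ) * (aa : ℝ)) ≤ (n : ℝ) ^ ((aa : ℝ) / 2) := e2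
        _ = _ := e1.symm
        _ ≤ _ := mul_le_mul_of_nonneg_left hzero.2.2.1 (by positivity)
    have hlN : (π₀.l : ℝ) / (n : ℝ) ≤ alphaf d ((prim d n j : ℚ) : ℝ) := by
      refine le_trans ?_ (hzero.2.2.1.trans hαS)
      rw [div_le_iff₀ hnR]
      have e1 : (n : ℝ) ^ (2 / 3 + 15 / 100 * (aa : ℝ)) = (n : ℝ) ^ (-(1 / 3 : ℝ) + 15 / 100 * (aa : ℝ)) * (n : ℝ) := by
        rw [← Real.rpow_add_one hnR.ne']
        congr 1
        ring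
      have e2 : 2 * (n : ℝ) ^ (-(1 / 3 : ℝ) + 15 / 100 * (aa : ℝ)) ≤
          (n : ℝ) ^ (-(1 / 3 : ℝ) + (aa : ℝ) / 2) / (16 * ((d : ℝ) - 1)) := by
        rw [le_div_iff₀ (by linarith)]
        linarith
      calc (π₀.l : ℝ) ≤ 2 * (n : ℝ) ^ (2 / 3 + 15 / 100 * (aa : ℝ)) := hlup
        _ = 2 * (n : ℝ) ^ (-(1 / 3 : ℝ) + 15 / 100 * (aa : ℝ)) * (n : ℝ) := by rw [e1]; ring
        _ ≤ _ := mul_le_mul_of_nonneg_right e2 hnR.le
    have hnum := s7ia_gap_num ((d : ℝ) - 1) cT ((n : ℝ) ^ (1 / 3 : ℝ)) ((n : ℝ) ^ (2 / 3 : ℝ)) ((n : ℝ) ^ (-θ))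
      ((n : ℝ) ^ (-((aa : ℝ) / 2000))) ((n : ℝ) ^ (-θ + 2 / 3)) (π₀.l : ℝ) (π₀.L1 (sgn b) ((prim d n j : ℚ) : ℝ))
      (s7del par.g n : ℝ) hq0 hcT (Real.one_le_rpow hnR1 (by norm_num)) (Real.rpow_pos_of_pos hnR _) hl23
      (Real.rpow_pos_of_pos hnR _) hL1 (Real.rpow_add hnR _ _) g1 g2 g3
    exact s7ia_gap_core (π₀.l : ℝ) (n : ℝ) _ _ _ _ _ ((n : ℝ) ^ (-((aa : ℝ) / 2000))) (cT * (n : ℝ) ^ (-θ)) _
      (by exact_mod_cast hl2) hnR hh0 hh1.le hα0 hid hT (by positivity) hlN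
      (by exact_mod_cast (s7n_del_pos par.g n).le) (by positivity) hnum
  · -- `loc`
    intro i
    have q := hquad π₀ hcur _ hmemP b (.glob i) trivial
    have h1 := π₀.s7ia_loc hn0 hl0 _ _ _ caps.pos hβ0.le i q
    have e1 : (((prim d n j : ℚ) : ℝ) ^ 2)⁻¹ ≤ 4 * ((d : ℝ) - 1) := by
      have hr0 : 0 < Real.sqrt ((d : ℝ) - 1) := by linarith
      have e2 : (1 / (2 * Real.sqrt ((d : ℝ) - 1))) ^ 2 ≤ ((prim d n j : ℚ) : ℝ) ^ 2 :=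
        pow_le_pow_left₀ (by positivity) hlo 2
      have e3 : (1 / (2 * Real.sqrt ((d : ℝ) - 1))) ^ 2 = (4 * ((d : ℝ) - 1))⁻¹ := by
        rw [div_pow, mul_pow, hr2]
        norm_num
      rw [e3] at e2
      exact inv_le_of_inv_le₀ (by linarith) e2
    have e2 : (n : ℝ) ^ (-((aa : ℝ) / 1500)) ≤ 1 :=
      Real.rpow_le_one_of_one_le_of_nonpos hnR1 (by rw [ha]; norm_num)
    linarith
  · -- `ent`
    intro i k
    rw [← π₀.s7ia_Eent_glob hn0 (Lcut d n) _ _ caps.pos i k]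
    refine (caps.hE (.glob i) (.glob k) trivial trivial).trans ?_
    have s := s43w_sqrt_l0_ge n hn1
    have s0 : 0 < (n : ℝ) ^ ((2 / 3 + 15 / 100 * (aa : ℝ)) / 2) := Real.rpow_pos_of_pos hnR _
    unfold s7Bin
    refine le_trans ?_ n6
    rw [Real.rpow_sub hnR, div_le_iff₀ (by linarith)]
    have e1 : 2 * ((n : ℝ) ^ ((37 / 100 : ℝ) * (aa : ℝ)) / (n : ℝ) ^ ((2 / 3 + 15 / 100 * (aa : ℝ)) / 2)) *
        ((n : ℝ) ^ ((2 / 3 + 15 / 100 * (aa : ℝ)) / 2) / 2) = (n : ℝ) ^ ((37 / 100 : ℝ) * (aa : ℝ)) := by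
      field_simp
    calc (n : ℝ) ^ ((37 / 100 : ℝ) * (aa : ℝ)) = _ := e1.symm
      _ ≤ _ := mul_le_mul_of_nonneg_left s (by positivity)

end Claimed.Agent.R275
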