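import Claimed.Agent.R275.S81Num

/-!
# Row 275, Sec 8.1, leaf S81-NUM-A.  Statement and proof: helper51.  Proof notes: header of `S81Num.lean`, item A.
-/

set_option autoImplicit false

namespace Claimed.Agent.R275

open Filter

theorem s81a_zfun_cast (d : ℕ) (h : ℚ) : ((zfun d h : ℚ) : ℝ) = zfun d ((h : ℚ) : ℝ) := by
  unfold zfun; push_cast; ring

theorem s81a_pow_delta_le (d n j N : ℕ) (hd : 3 ≤ d) (hj : j ≤ N) :
    (2 : ℚ) ^ j * delta0 d n ≤ 2 ^ N * delta0 d n :=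
  mul_le_mul_of_nonneg_right (pow_le_pow_right₀ (by norm_num) hj) (parF_delta0_pos d hd n).le

theorem s81a_jB_pos : ∀ᶠ n : ℕ in atTop, 1 ≤ s8jB n := by
  filter_upwards [eventually_ge_atTop (2 ^ 203)] with n hn
  have h1 : 203 ≤ Nat.log 2 n := by
    have := Nat.log_mono_right (b := 2) hn
    rwa [Nat.log_pow (by norm_num)] at this
  have h2 : (1 : ℤ) ≤ scZ (99 / 2 * aa) n := by
    unfold scZ
    rw [Int.le_floor]
    have h3 : (203 : ℚ) ≤ (Nat.log 2 n : ℚ) := by exact_mod_cast h1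
    unfold aa
    push_cast
    linarith
  unfold s8jB
  omega

/-- **S81-NUM-A** -/
theorem s81_numA (d : ℕ) (hd : 3 ≤ d) (cp : ℚ) (hcp : 0 < cp) (hcp' : cp ≤ 1 / 4) :
    ∀ᶠ n : ℕ in atTop, S81NumA d n cp := by
  obtain ⟨hr1, hr2⟩ := parF_sqrtq d hd
  have hd' : (3 : ℝ) ≤ (d : ℝ) := by exact_mod_cast hd
  have hcpR : (0 : ℝ) < (cp : ℝ) := by exact_mod_cast hcp
  obtain ⟨C1, hC1, hok⟩ := s8Par_ok d hd
  filter_upwards [eventually_ge_atTop 2, tracked_range d hd cp hcp hcp', prim_dist d hd, prim_zero_facts d hd,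
    Nprim_spec d hd cp hcp hcp', hok, s81a_jB_pos,
    parF_ev_small (-(1 / 3 : ℝ) + (aa : ℝ) / 2) (by rw [parF_aa]; norm_num) ((cp : ℝ) / 21) (by positivity),
    parF_ev_small (-(1 / 3 : ℝ) + 50 * (aa : ℝ)) (by rw [parF_aa]; norm_num) ((cp : ℝ) / 2) (by positivity),
    parF_ev_large (99 * (aa : ℝ)) (by rw [parF_aa]; norm_num) C1]
    with n hn hrange hdist hzero hspec hpar hjB hE hF hbig
  have hn1 : 1 ≤ n := by omega
  have hn0 : (0 : ℝ) < (n : ℝ) := by exact_mod_cast hn1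
  have hδ0 := parF_delta0_pos d hd n
  have hr0 : 0 < Real.sqrt ((d : ℝ) - 1) := by linarith
  have hE' : parE n ≤ (cp : ℝ) / 21 := hE
  have hF' : s8aF n ≤ (cp : ℝ) / 2 := hF
  have hF0 := s8a_F_pos n hn1
  obtain ⟨-, hxT2⟩ := s8a_xT d hd n hn1
  obtain ⟨-, hxB2⟩ := s8a_xB d hd n hn1
  have heR0 : 0 < eR n := Real.rpow_pos_of_pos hn0 _
  -- membership
  have key : ∀ j : ℕ, (((2 : ℚ) ^ j * delta0 d n : ℚ) : ℝ) ≤ (cp : ℝ) / 2 → j ≤ Nprim d n cp := by
    intro j hj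
    have h1 : (2 : ℚ) ^ j * delta0 d n ≤ cp / 2 := by
      have : (((2 : ℚ) ^ j * delta0 d n : ℚ) : ℝ) ≤ ((cp / 2 : ℚ) : ℝ) := by
        push_cast at hj ⊢; exact hj
      exact (Rat.cast_le (K := ℝ)).1 this
    have h2 : (2 : ℚ) ^ j * delta0 d n < 2 ^ Nprim d n cp * delta0 d n := lt_of_le_of_lt h1 hspec.1
    have h3 : (2 : ℚ) ^ j < 2 ^ Nprim d n cp := lt_of_mul_lt_mul_right h2 hδ0.le
    exact ((pow_lt_pow_iff_right₀ (by norm_num)).1 h3).le
  have hrg : ∀ j, j ≤ Nprim d n cp →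
      1 / (2 * Real.sqrt ((d : ℝ) - 1)) ≤ s81h d n j ∧ Real.sqrt ((d : ℝ) - 1) * s81h d n j < 1 := by
    intro j hj
    have hmem : prim d n j ∈ trackedList d n cp := by
      unfold trackedList primList
      refine List.mem_append_left _ (List.mem_append_left _ ?_)
      exact List.mem_map.2 ⟨j, List.mem_range.2 (by omega), rfl⟩
    obtain ⟨h1, h2⟩ := hrange _ hmem
    refine ⟨h1, ?_⟩
    rw [lt_div_iff₀ hr0] at h2
    unfold s81h
    linarith
  have hρ0 : (0 : ℝ) ≤ ((rhoQ d n : ℚ) : ℝ) := by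
    have : (0 : ℚ) ≤ rhoQ d n := div_nonneg (Nat.cast_nonneg _) (Nat.cast_nonneg _)
    exact_mod_cast this
  have hδR : (0 : ℝ) < ((delta0 d n : ℚ) : ℝ) := by exact_mod_cast hδ0
  -- `√q ρ ≥ 1/2`
  have hrρ : 1 / 2 ≤ Real.sqrt ((d : ℝ) - 1) * ((rhoQ d n : ℚ) : ℝ) := by
    obtain ⟨h1, -⟩ := hrg 0 (Nat.zero_le _)
    rw [div_le_iff₀ (by positivity)] at h1
    have h2 : s81h d n 0 ≤ ((rhoQ d n : ℚ) : ℝ) := by
      unfold s81h
      rw [parF_prim_real]
      push_cast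
      nlinarith
    nlinarith
  refine ⟨hn1, hrg, ?_, ?_, ?_, hjB, ?_, ?_, ?_⟩
  · -- step
    intro j hj
    have hle : (2 : ℚ) ^ (j + 1) * delta0 d n ≤ 1 :=
      (s81a_pow_delta_le d n (j + 1) _ hd hj).trans (hspec.2.trans (hcp'.trans (by norm_num)))
    obtain ⟨-, h2⟩ := hdist (j + 1) hle
    have h19 := parF_inv_pow19 n hn
    have hdiff : s81h d n j - s81h d n (j + 1) = ((rhoQ d n : ℚ) : ℝ) * ((2 : ℝ) ^ j * ((delta0 d n : ℚ) : ℝ)) := by
      unfold s81h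
      rw [parF_prim_real, parF_prim_real]
      push_cast
      ring
    have hx0 : 0 < (2 : ℝ) ^ j * ((delta0 d n : ℚ) : ℝ) := by positivity
    have hρpos : 0 < ((rhoQ d n : ℚ) : ℝ) := by
      rcases hρ0.lt_or_eq with h | h
      · exact h
      · rw [← h] at hrρ; norm_num at hrρ
    constructor
    · have : 0 < s81h d n j - s81h d n (j + 1) := by rw [hdiff]; positivity
      linarith
    · rw [hdiff]
      have h3 : (((2 : ℚ) ^ (j + 1) * delta0 d n : ℚ) : ℝ) = 2 * ((2 : ℝ) ^ j * ((delta0 d n : ℚ) : ℝ)) := by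
        push_cast; ring
      rw [h3] at h2
      refine h2.trans ?_
      generalize (2 : ℝ) ^ j * ((delta0 d n : ℚ) : ℝ) = x at hx0 ⊢
      calc 2 * x * (1 + 1 / (n : ℝ) ^ 19) ≤ 2 * x * (1 + 1 / 10) :=
            mul_le_mul_of_nonneg_left (by linarith) (by positivity)
        _ ≤ 8 * (1 / 2) * x := by linarith
        _ ≤ 8 * (Real.sqrt ((d : ℝ) - 1) * ((rhoQ d n : ℚ) : ℝ)) * x :=
            mul_le_mul_of_nonneg_right (by linarith) hx0.le
        _ = 8 * Real.sqrt ((d : ℝ) - 1) * (((rhoQ d n : ℚ) : ℝ) * x) := by ring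
  · -- z0
    obtain ⟨-, h2, -⟩ := hzero
    rw [s81a_zfun_cast] at h2
    have : sR d = s8s d := rfl
    unfold s81h
    linarith
  · exact key _ (by linarith)
  · refine key _ (hxB2.trans ?_)
    rw [div_le_iff₀ (by linarith)]
    nlinarith
  · -- wT
    have h := hpar.hT1
    have e : (s8Par d n).toReal.wT d = s81w d n (s8jT d) := by
      unfold S8Par.wT s81w s81h
      rw [← s81a_zfun_cast]
      rfl
    rw [e] at h
    linarith
  · -- wB
    have h := hpar.hB1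
    have e : (s8Par d n).toReal.wB d = s81w d n (s8jB n) := by
      unfold S8Par.wB s81w s81h
      rw [← s81a_zfun_cast]
      rfl
    rw [e] at h
    refine le_trans ?_ h
    rw [le_div_iff₀ (by linarith)]
    have e2 : (n : ℝ) ^ (-(2 / 3 : ℝ) + 100 * (aa : ℝ)) = eR n * (n : ℝ) ^ (99 * (aa : ℝ)) := by
      unfold eR
      rw [← Real.rpow_add hn0]
      congr 1
      ring
    rw [e2]
    exact mul_le_mul_of_nonneg_left hbig heR0.le

end Claimed.Agent.R275
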