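import Claimed.Agent.R275.S81Num

/-!
# Row 275, Sec 8.1, leaf S81-NUM-B.  Statement: helper51.  The claimer owns this file.  Proof notes: header of `S81Num.lean`, item B.
Proofs: helper282.
-/

set_option autoImplicit false

namespace Claimed.Agent.R275

open Filter

/-- `C (log n)^k ≤ n^c` eventually -/
theorem s81_ev_logpow (C c : ℝ) (hc : 0 < c) (k : ℕ) :
    ∀ᶠ n : ℕ in atTop, C * Real.log n ^ k ≤ (n : ℝ) ^ c := by
  have h1 := (isLittleO_log_rpow_rpow_atTop (k : ℝ) hc).bound (c := 1 / (|C| + 1)) (by positivity)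
  filter_upwards [tendsto_natCast_atTop_atTop.eventually h1, eventually_ge_atTop 1] with n hn hn1
  have hn1' : (1 : ℝ) ≤ (n : ℝ) := by exact_mod_cast hn1
  have hl : 0 ≤ Real.log n := Real.log_nonneg hn1'
  rw [Real.rpow_natCast, Real.norm_of_nonneg (by positivity), Real.norm_of_nonneg (by positivity),
    one_div, inv_mul_eq_div, le_div_iff₀ (by positivity)] at hn
  have h2 : C ≤ |C| + 1 := by linarith [le_abs_self C]
  calc C * Real.log n ^ k ≤ (|C| + 1) * Real.log n ^ k := mul_le_mul_of_nonneg_right h2 (by positivity)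
    _ = Real.log n ^ k * (|C| + 1) := mul_comm _ _
    _ ≤ _ := hn

/-- the exponent of the path cutoff -/
theorem s81_xL : (0 : ℚ) ≤ 2 / 3 + (15 / 100 - 58 / 100) * aa ∧
    (2 / 3 + (15 / 100 - 58 / 100) * aa : ℚ) ≤ 1 ∧ (1 / 2 : ℚ) ≤ 2 / 3 + (15 / 100 - 58 / 100) * aa := by
  unfold aa
  norm_num

/-- `1 + L ≤ 3 log n` -/
theorem s81_Lcut_le (d : ℕ) (hd : 3 ≤ d) (n : ℕ) (hn : 3 ≤ n) :
    1 + (Lcut d n : ℝ) ≤ 3 * Real.log n := by
  have hn1 : 1 ≤ n := by omega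
  have hnR : (3 : ℝ) ≤ (n : ℝ) := by exact_mod_cast hn
  have hdR : (3 : ℝ) ≤ (d : ℝ) := by exact_mod_cast hd
  obtain ⟨hx0, hx1, -⟩ := s81_xL
  have h1 := (pow_radius_bounds d hd _ hx0 n hn1).1
  have h2 : (n : ℝ) ^ (((2 / 3 + (15 / 100 - 58 / 100) * aa : ℚ)) : ℝ) ≤ (n : ℝ) ^ (1 : ℝ) :=
    Real.rpow_le_rpow_of_exponent_le (by linarith) (by exact_mod_cast hx1)
  rw [Real.rpow_one] at h2
  have h3 : (2 : ℝ) ^ Lcut d n ≤ ((d : ℝ) - 1) ^ Lcut d n :=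
    pow_le_pow_left₀ (by norm_num) (by linarith) _
  have h4 : (2 : ℝ) ^ Lcut d n ≤ n := h3.trans (h1.trans h2)
  have h5 : (Lcut d n : ℝ) * Real.log 2 ≤ Real.log n := by
    have := Real.log_le_log (by positivity) h4
    rwa [Real.log_pow] at this
  have h6 : (0.6931471803 : ℝ) < Real.log 2 := Real.log_two_gt_d9
  have h7 : (1 : ℝ) ≤ Real.log n := by
    have e1 : Real.exp 1 ≤ n := by
      have := Real.exp_one_lt_d9
      linarith
    have := Real.log_le_log (Real.exp_pos 1) e1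
    rwa [Real.log_exp] at this
  have h8 : (0 : ℝ) ≤ (Lcut d n : ℝ) := Nat.cast_nonneg _
  nlinarith

/-- the polynomial bound of the constant -/
theorem s81_CL_le (d L : ℕ) :
    s81CL (s81B L) (s81Lam d L) + 24 * Real.sqrt ((d : ℝ) - 1) ≤
      (396 + 2064 * Real.sqrt ((d : ℝ) - 1)) * (1 + (L : ℝ)) ^ 10 := by
  set s : ℝ := Real.sqrt ((d : ℝ) - 1) with hs
  have hs0 : 0 ≤ s := Real.sqrt_nonneg _
  set t : ℝ := 1 + (L : ℝ) with ht
  have hL0 : (0 : ℝ) ≤ (L : ℝ) := Nat.cast_nonneg _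
  have ht1 : 1 ≤ t := by linarith
  have hLt : (L : ℝ) ≤ t := by linarith
  have hp : ∀ k : ℕ, k ≤ 10 → t ^ k ≤ t ^ 10 := fun k hk => pow_le_pow_right₀ ht1 hk
  have hp0 : ∀ k : ℕ, 0 ≤ t ^ k := fun k => by positivity
  unfold s81CL s81LipF s81Lam s81B
  rw [← hs, ← ht]
  -- replace the factor `L` by `t`
  have e1 : 2 * s * (L : ℝ) * (6 * t ^ 3) ≤ 12 * s * t ^ 4 := by
    have : s * (L : ℝ) * t ^ 3 ≤ s * t * t ^ 3 :=
      mul_le_mul_of_nonneg_right (mul_le_mul_of_nonneg_left hLt hs0) (hp0 3)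
    nlinarith
  set Λ : ℝ := 2 * s * (L : ℝ) * (6 * t ^ 3) with hΛ
  have hΛ0 : 0 ≤ Λ := by positivity
  have e2 : 2 * (6 * t ^ 3) * Λ ≤ 144 * s * t ^ 7 := by
    have : (6 * t ^ 3) * Λ ≤ (6 * t ^ 3) * (12 * s * t ^ 4) :=
      mul_le_mul_of_nonneg_left e1 (by positivity)
    nlinarith
  have e3 : 2 * (6 * t ^ 3) ^ 2 * Λ ≤ 864 * s * t ^ 10 := by
    have : (6 * t ^ 3) ^ 2 * Λ ≤ (6 * t ^ 3) ^ 2 * (12 * s * t ^ 4) :=
      mul_le_mul_of_nonneg_left e1 (by positivity)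
    nlinarith
  have f3 := hp 3 (by norm_num)
  have f4 := hp 4 (by norm_num)
  have f6 := hp 6 (by norm_num)
  have f7 := hp 7 (by norm_num)
  have f0 : (1 : ℝ) ≤ t ^ 10 := one_le_pow₀ ht1
  have g4 : s * t ^ 4 ≤ s * t ^ 10 := mul_le_mul_of_nonneg_left f4 hs0
  have g7 : s * t ^ 7 ≤ s * t ^ 10 := mul_le_mul_of_nonneg_left f7 hs0
  have g0 : s * 1 ≤ s * t ^ 10 := mul_le_mul_of_nonneg_left f0 hs0
  have h6 : (6 * t ^ 3) ^ 2 = 36 * t ^ 6 := by ring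
  rw [h6] at e3 ⊢
  nlinarith

/-- **S81-NUM-B** -/
theorem s81_numB (d : ℕ) (hd : 3 ≤ d) : ∀ᶠ n : ℕ in atTop, S81NumB d n := by
  have hdR : (3 : ℝ) ≤ (d : ℝ) := by exact_mod_cast hd
  obtain ⟨hx0, hx1, hx2⟩ := s81_xL
  have haa : (0 : ℝ) < (aa : ℝ) / 20 := by
    unfold aa
    norm_num
  have e1 := s81_ev_logpow ((396 + 2064 * Real.sqrt ((d : ℝ) - 1)) * 3 ^ 10) ((aa : ℝ) / 20) haa 10
  have e2 := parF_ev_large (0.42 : ℝ) (by norm_num) (4 * ((d : ℝ) - 1) ^ 3)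
  filter_upwards [e1, e2, eventually_ge_atTop 3] with n h1 h2 hn
  have hn1 : 1 ≤ n := by omega
  have hnR : (1 : ℝ) ≤ (n : ℝ) := by exact_mod_cast hn1
  have hn0 : (0 : ℝ) < (n : ℝ) := by linarith
  refine ⟨?_, ?_⟩
  · -- radii
    by_contra hcon
    have hcon' : Lcut d n + 1 ≤ Nat.log (d - 1) (scN (8 / 100) n) + 3 := by
      unfold s81r at hcon
      omega
    have a1 := (pow_radius_bounds d hd (8 / 100) (by norm_num) n hn1).1
    have a2 := (pow_radius_bounds d hd _ hx0 n hn1).2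
    have hq1 : (1 : ℝ) ≤ (d : ℝ) - 1 := by linarith
    have a3 : ((d : ℝ) - 1) ^ (Lcut d n + 1) ≤
        ((d : ℝ) - 1) ^ (Nat.log (d - 1) (scN (8 / 100) n) + 3) := pow_le_pow_right₀ hq1 hcon'
    have a4 : ((d : ℝ) - 1) ^ (Nat.log (d - 1) (scN (8 / 100) n) + 3) ≤
        (n : ℝ) ^ (((8 / 100 : ℚ)) : ℝ) * ((d : ℝ) - 1) ^ 3 := by
      rw [pow_add]
      exact mul_le_mul_of_nonneg_right a1 (by positivity)
    have a5 : (n : ℝ) ^ (((2 / 3 + (15 / 100 - 58 / 100) * aa : ℚ)) : ℝ) /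
        2 ^ ((((2 / 3 + (15 / 100 - 58 / 100) * aa : ℚ)) : ℝ) + 1) <
        (n : ℝ) ^ (((8 / 100 : ℚ)) : ℝ) * ((d : ℝ) - 1) ^ 3 := lt_of_lt_of_le a2 (a3.trans a4)
    have a6 : (2 : ℝ) ^ ((((2 / 3 + (15 / 100 - 58 / 100) * aa : ℚ)) : ℝ) + 1) ≤ 4 := by
      have : (2 : ℝ) ^ ((((2 / 3 + (15 / 100 - 58 / 100) * aa : ℚ)) : ℝ) + 1) ≤ (2 : ℝ) ^ (2 : ℝ) := by
        refine Real.rpow_le_rpow_of_exponent_le (by norm_num) ?_
        have : (((2 / 3 + (15 / 100 - 58 / 100) * aa : ℚ)) : ℝ) ≤ 1 := by exact_mod_cast hx1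
        linarith
      refine this.trans (le_of_eq ?_)
      rw [Real.rpow_two]
      norm_num
    have a7 : (n : ℝ) ^ (0.5 : ℝ) ≤ (n : ℝ) ^ (((2 / 3 + (15 / 100 - 58 / 100) * aa : ℚ)) : ℝ) := by
      refine Real.rpow_le_rpow_of_exponent_le hnR ?_
      have : ((1 / 2 : ℚ) : ℝ) ≤ (((2 / 3 + (15 / 100 - 58 / 100) * aa : ℚ)) : ℝ) := by
        exact_mod_cast hx2
      push_cast at this
      norm_num at this ⊢
      linarith
    have a8 : (n : ℝ) ^ (0.5 : ℝ) = (n : ℝ) ^ (((8 / 100 : ℚ)) : ℝ) * (n : ℝ) ^ (0.42 : ℝ) := by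
      rw [← Real.rpow_add hn0]
      congr 1
      push_cast
      norm_num
    have hp8 : 0 < (n : ℝ) ^ (((8 / 100 : ℚ)) : ℝ) := Real.rpow_pos_of_pos hn0 _
    rw [div_lt_iff₀ (by positivity)] at a5
    have a9 : (n : ℝ) ^ (((8 / 100 : ℚ)) : ℝ) * ((d : ℝ) - 1) ^ 3 *
        2 ^ ((((2 / 3 + (15 / 100 - 58 / 100) * aa : ℚ)) : ℝ) + 1) ≤
        (n : ℝ) ^ (((8 / 100 : ℚ)) : ℝ) * ((d : ℝ) - 1) ^ 3 * 4 :=
      mul_le_mul_of_nonneg_left a6 (by positivity)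
    have a10 : (n : ℝ) ^ (((8 / 100 : ℚ)) : ℝ) * (4 * ((d : ℝ) - 1) ^ 3) ≤
        (n : ℝ) ^ (((8 / 100 : ℚ)) : ℝ) * (n : ℝ) ^ (0.42 : ℝ) :=
      mul_le_mul_of_nonneg_left h2 hp8.le
    nlinarith
  · -- the constant
    refine (s81_CL_le d (Lcut d n)).trans ?_
    have b1 := s81_Lcut_le d hd n hn
    have b2 : (1 + (Lcut d n : ℝ)) ^ 10 ≤ (3 * Real.log n) ^ 10 :=
      pow_le_pow_left₀ (by positivity) b1 10
    have b3 : 0 ≤ 396 + 2064 * Real.sqrt ((d : ℝ) - 1) := by positivity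
    unfold s81C0
    refine (mul_le_mul_of_nonneg_left b2 b3).trans (le_trans (le_of_eq ?_) h1)
    rw [mul_pow]
    ring

end Claimed.Agent.R275
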