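import Claimed.Agent.R275.S81Num

/-!
# Row 275, Sec 8.1, leaf S81-NUM-C.  Statement: helper51.  The claimer owns this file.  Proof notes: header of `S81Num.lean`, item C.
Proof: helper81 (power-bound calculus `S8UpF` / `S8LoF` of `S8AsymA.lean`).
-/

set_option autoImplicit false

namespace Claimed.Agent.R275

open Filter

/-- trivial index for the calculus -/
def s81cOK : ℕ → Unit → Prop := fun _ _ => True

theorem s81c_q (d : ℕ) (hd : 3 ≤ d) : (2 : ℝ) ≤ (d : ℝ) - 1 := by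
  have : (3 : ℝ) ≤ (d : ℝ) := by exact_mod_cast hd
  linarith

theorem s81c_l0_cast (n : ℕ) : (l0 n : ℝ) = 2 * (scQ (2 / 3 + 15 / 100 * aa) n : ℝ) := by
  have h : (l0 n : ℚ) = 2 * scQ (2 / 3 + 15 / 100 * aa) n := by
    rw [← scN_cast _ (by unfold aa; norm_num) n]
    unfold l0
    push_cast
    ring
  exact_mod_cast h

theorem s81c_X_cast : (((2 / 3 + 15 / 100 * aa : ℚ)) : ℝ) = 2 / 3 + 15 / 100 * (aa : ℝ) := by
  push_cast
  ring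

theorem s81c_up_l0 : S8UpF s81cOK (fun n _ => (l0 n : ℝ)) (2 / 3 + 15 / 100 * (aa : ℝ)) := by
  refine ⟨2, fun n _ hn _ => ⟨Nat.one_le_cast.2 hn, by positivity, ?_⟩⟩
  have h := scQ_le_of_nonneg (2 / 3 + 15 / 100 * aa) (by unfold aa; norm_num) n hn
  rw [s81c_X_cast] at h
  beta_reduce
  rw [s81c_l0_cast]
  linarith

theorem s81c_lo_l0 : S8LoF s81cOK (fun n _ => (l0 n : ℝ)) (2 / 3 + 15 / 100 * (aa : ℝ)) := by
  refine ⟨2 / 2 ^ ((2 / 3 + 15 / 100 * (aa : ℝ)) + 1), fun n _ hn _ =>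
    ⟨Nat.one_le_cast.2 hn, by positivity, ?_⟩⟩
  have h := le_scQ_of_nonneg (2 / 3 + 15 / 100 * aa) (by unfold aa; norm_num) n hn
  rw [s81c_X_cast] at h
  beta_reduce
  rw [s81c_l0_cast]
  calc 2 / 2 ^ ((2 / 3 + 15 / 100 * (aa : ℝ)) + 1) * (n : ℝ) ^ (2 / 3 + 15 / 100 * (aa : ℝ))
      = 2 * ((n : ℝ) ^ (2 / 3 + 15 / 100 * (aa : ℝ)) / 2 ^ ((2 / 3 + 15 / 100 * (aa : ℝ)) + 1)) := by ring
    _ ≤ _ := by linarith

theorem s81c_r_cast : (((8 / 100 : ℚ)) : ℝ) = 8 / 100 := by norm_num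

/-- `q^(r+1) ≤ q³ n^.08` -/
theorem s81c_up_qr (d : ℕ) (hd : 3 ≤ d) :
    S8UpF s81cOK (fun n _ => ((d : ℝ) - 1) ^ (s81r d n + 1)) (8 / 100) := by
  have hq := s81c_q d hd
  refine ⟨((d : ℝ) - 1) ^ 3, fun n _ hn _ => ⟨Nat.one_le_cast.2 hn, by positivity, ?_⟩⟩
  have h := (pow_radius_bounds d hd (8 / 100) (by norm_num) n hn).1
  rw [s81c_r_cast] at h
  have e : ((d : ℝ) - 1) ^ (s81r d n + 1) =
      ((d : ℝ) - 1) ^ 3 * ((d : ℝ) - 1) ^ Nat.log (d - 1) (scN (8 / 100) n) := by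
    unfold s81r
    rw [← pow_add]
    congr 1
    ring
  beta_reduce
  rw [e]
  exact mul_le_mul_of_nonneg_left h (by positivity)

theorem s81c_zq_nonneg (d : ℕ) : 0 ≤ zq d := by
  unfold zq
  positivity

theorem s81c_zq_sq (d : ℕ) (hd : 3 ≤ d) : zq d ^ 2 = ((d : ℝ) - 1)⁻¹ := by
  have hq := s81c_q d hd
  unfold zq
  rw [inv_pow, Real.sq_sqrt (by linarith)]

theorem s81c_zq_le_one (d : ℕ) (hd : 3 ≤ d) : zq d ≤ 1 := by
  have hq := s81c_q d hd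
  unfold zq
  refine inv_le_one_of_one_le₀ ?_
  rw [Real.le_sqrt' (by norm_num)]
  linarith

/-- `zq^r = q^(-r/2) ≤ C n^-.04` -/
theorem s81c_up_zqr (d : ℕ) (hd : 3 ≤ d) :
    S8UpF s81cOK (fun n _ => zq d ^ s81r d n) (-(8 / 100) / 2) := by
  have hq := s81c_q d hd
  have h1 : S8UpF s81cOK (fun n _ => (zq d ^ s81r d n) ^ 2) (-(8 / 100)) := by
    refine ⟨2 ^ ((8 / 100 : ℝ) + 1), fun n _ hn _ => ⟨Nat.one_le_cast.2 hn, by positivity, ?_⟩⟩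
    have hn0 : (0 : ℝ) < (n : ℝ) := by exact_mod_cast hn
    have h := (pow_radius_bounds d hd (8 / 100) (by norm_num) n hn).2
    rw [s81c_r_cast] at h
    have e : (zq d ^ s81r d n) ^ 2 = (((d : ℝ) - 1) ^ s81r d n)⁻¹ := by
      rw [← pow_mul, mul_comm, pow_mul, s81c_zq_sq d hd, inv_pow]
    have h2 : ((d : ℝ) - 1) ^ (Nat.log (d - 1) (scN (8 / 100) n) + 1) ≤ ((d : ℝ) - 1) ^ s81r d n := by
      unfold s81r
      exact pow_le_pow_right₀ (by linarith) (by omega)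
    have h3 : (0 : ℝ) < (n : ℝ) ^ (8 / 100 : ℝ) / 2 ^ ((8 / 100 : ℝ) + 1) := by positivity
    beta_reduce
    rw [e]
    calc (((d : ℝ) - 1) ^ s81r d n)⁻¹ ≤ ((n : ℝ) ^ (8 / 100 : ℝ) / 2 ^ ((8 / 100 : ℝ) + 1))⁻¹ :=
          inv_anti₀ h3 (h.le.trans h2)
      _ = 2 ^ ((8 / 100 : ℝ) + 1) * (n : ℝ) ^ (-(8 / 100 : ℝ)) := by
          rw [inv_div, Real.rpow_neg hn0.le]
          ring
  have h2 := h1.sqrt
  have e : (fun (n : ℕ) (_ : Unit) => Real.sqrt ((zq d ^ s81r d n) ^ 2)) =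
      fun n _ => zq d ^ s81r d n := by
    funext n _
    exact Real.sqrt_sq (pow_nonneg (s81c_zq_nonneg d) _)
  rwa [e] at h2

/-- `1 + L ≤ C n^ε` -/
theorem s81c_up_L (d : ℕ) (hd : 3 ≤ d) (ε : ℝ) (hε : 0 < ε) :
    S8UpF s81cOK (fun n _ => 1 + (Lcut d n : ℝ)) ε := by
  have hq := s81c_q d hd
  have hl2 : 0 < Real.log 2 := Real.log_pos (by norm_num)
  refine ⟨1 + 1 / (ε * Real.log 2), fun n _ hn _ => ⟨Nat.one_le_cast.2 hn, by positivity, ?_⟩⟩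
  have hn1 : (1 : ℝ) ≤ (n : ℝ) := by exact_mod_cast hn
  have hn0 : (0 : ℝ) < (n : ℝ) := by linarith
  have hx : (0 : ℚ) ≤ 2 / 3 + (15 / 100 - 58 / 100) * aa := by unfold aa; norm_num
  have hx1 : (((2 / 3 + (15 / 100 - 58 / 100) * aa : ℚ)) : ℝ) ≤ 1 := by
    have : (2 / 3 + (15 / 100 - 58 / 100) * aa : ℚ) ≤ 1 := by unfold aa; norm_num
    exact_mod_cast this
  have h := (pow_radius_bounds d hd _ hx n hn).1
  have h1 : (2 : ℝ) ^ Lcut d n ≤ (n : ℝ) := by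
    calc (2 : ℝ) ^ Lcut d n ≤ ((d : ℝ) - 1) ^ Lcut d n := pow_le_pow_left₀ (by norm_num) hq _
      _ ≤ (n : ℝ) ^ (((2 / 3 + (15 / 100 - 58 / 100) * aa : ℚ)) : ℝ) := h
      _ ≤ (n : ℝ) ^ (1 : ℝ) := Real.rpow_le_rpow_of_exponent_le hn1 hx1
      _ = (n : ℝ) := Real.rpow_one _
  have h2 := Real.log_le_log (by positivity) h1
  rw [Real.log_pow] at h2
  have h3 := Real.log_le_rpow_div hn0.le hε
  have h4 : (Lcut d n : ℝ) ≤ (n : ℝ) ^ ε / ε / Real.log 2 := by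
    rw [le_div_iff₀ hl2]
    linarith
  have h5 : (1 : ℝ) ≤ (n : ℝ) ^ ε := Real.one_le_rpow hn1 hε.le
  calc 1 + (Lcut d n : ℝ) ≤ (n : ℝ) ^ ε + (n : ℝ) ^ ε / ε / Real.log 2 := by linarith
    _ = (1 + 1 / (ε * Real.log 2)) * (n : ℝ) ^ ε := by
        field_simp

theorem s81c_rho_nonneg (d n : ℕ) : (0 : ℝ) ≤ ((rhoQ d n : ℚ) : ℝ) := by
  have : (0 : ℚ) ≤ rhoQ d n := by
    unfold rhoQ
    positivity
  exact_mod_cast this

theorem s81c_two_pow_jB (n : ℕ) : ((2 : ℚ) ^ s8jB n) = scQ (99 / 2 * aa) n := by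
  rw [← scN_cast _ (by unfold aa; norm_num) n]
  unfold scN s8jB
  push_cast
  rfl

/-- `zq - h_jB ≤ C n^(-1/3+50a)` -/
theorem s81c_up_dist (d : ℕ) (hd : 3 ≤ d) :
    S8UpF s81cOK (fun n _ => zq d - s81h d n (s8jB n)) (-(1 / 3) + 50 * (aa : ℝ)) := by
  have hq := s81c_q d hd
  refine ⟨5, fun n _ hn _ => ?_⟩
  have hn1 : (1 : ℝ) ≤ (n : ℝ) := by exact_mod_cast hn
  have hn0 : (0 : ℝ) < (n : ℝ) := by linarith
  obtain ⟨hρ1, hρ2⟩ := rhoQ_bounds d hd n hn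
  have hρ0 := s81c_rho_nonneg d n
  have hzq : zq d = 1 / Real.sqrt ((d : ℝ) - 1) := by
    unfold zq
    rw [one_div]
  rw [← hzq] at hρ1 hρ2
  have hz1 := s81c_zq_le_one d hd
  obtain ⟨-, hδ2⟩ := parF_delta0_bounds d hd n hn
  have hδ0 : (0 : ℝ) < ((delta0 d n : ℚ) : ℝ) := by exact_mod_cast parF_delta0_pos d hd n
  have hE := parF_parE_pos n hn
  have hδ3 : ((delta0 d n : ℚ) : ℝ) ≤ parE n := by
    refine hδ2.trans ?_
    rw [div_le_iff₀ (by linarith)]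
    nlinarith
  have hs := scQ_le_of_nonneg (99 / 2 * aa) (by unfold aa; norm_num) n hn
  have hs0 : (0 : ℝ) < (scQ (99 / 2 * aa) n : ℝ) := by exact_mod_cast scQ_pos _ n
  have e : s81h d n (s8jB n) =
      ((rhoQ d n : ℚ) : ℝ) * (1 - (scQ (99 / 2 * aa) n : ℝ) * ((delta0 d n : ℚ) : ℝ)) := by
    unfold s81h
    rw [parF_prim_real, s81c_two_pow_jB]
    push_cast
    ring
  have hprod : (scQ (99 / 2 * aa) n : ℝ) * ((delta0 d n : ℚ) : ℝ) ≤ (n : ℝ) ^ (-(1 / 3) + 50 * (aa : ℝ)) := by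
    calc (scQ (99 / 2 * aa) n : ℝ) * ((delta0 d n : ℚ) : ℝ)
        ≤ (n : ℝ) ^ (((99 / 2 * aa : ℚ)) : ℝ) * parE n := mul_le_mul hs hδ3 hδ0.le (by positivity)
      _ = (n : ℝ) ^ (-(1 / 3) + 50 * (aa : ℝ)) := by
          unfold parE
          rw [← Real.rpow_add hn0]
          congr 1
          push_cast
          ring
  have h20 : 4 / (n : ℝ) ^ 20 ≤ 4 * (n : ℝ) ^ (-(1 / 3) + 50 * (aa : ℝ)) := by
    have h1 : ((n : ℝ) ^ 20)⁻¹ = (n : ℝ) ^ (-(20 : ℝ)) := by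
      rw [Real.rpow_neg hn0.le]
      norm_cast
    rw [div_eq_mul_inv, h1]
    refine mul_le_mul_of_nonneg_left (Real.rpow_le_rpow_of_exponent_le hn1 ?_) (by norm_num)
    rw [s8as_aa]
    norm_num
  have hpp : 0 ≤ (scQ (99 / 2 * aa) n : ℝ) * ((delta0 d n : ℚ) : ℝ) := by positivity
  refine ⟨hn1, ?_, ?_⟩
  · beta_reduce
    rw [e]
    nlinarith
  · beta_reduce
    rw [e]
    have h2 : ((rhoQ d n : ℚ) : ℝ) * ((scQ (99 / 2 * aa) n : ℝ) * ((delta0 d n : ℚ) : ℝ)) ≤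
        1 * (n : ℝ) ^ (-(1 / 3) + 50 * (aa : ℝ)) :=
      mul_le_mul (by linarith) hprod hpp (by norm_num)
    nlinarith

/-- the tolerance sum, with `|CM|` -/
theorem s81c_tol (d : ℕ) (hd : 3 ≤ d) (CM : ℝ) (hCM : 0 ≤ CM) : ∀ᶠ n : ℕ in atTop, ∀ p : Unit, s81cOK n p →
    3 / 2 * (Real.sqrt ((n : ℝ) ^ (-(2 / 3 : ℝ) + (aa : ℝ))) + (n : ℝ) ^ (-(3 / 100 : ℝ)) +
      (n : ℝ) ^ (-(28 / 100 : ℝ) * (aa : ℝ)) / Real.sqrt (l0 n) + 4 * CM * zq d ^ s81r d n) +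
      6 * (zq d - s81h d n (s8jB n)) ≤ (n : ℝ) ^ (-(24 / 1000 : ℝ)) :=
  s8as_finalF
    (((S8UpF.const (3 / 2) (by norm_num)).mul
      ((((S8UpF.rpow _).sqrt.add (S8UpF.rpow _)).add ((S8UpF.rpow _).div s81c_lo_l0.sqrt)).add
        (((S8UpF.const 4 (by norm_num)).mul (S8UpF.const CM hCM)).mul (s81c_up_zqr d hd)))).add
      ((S8UpF.const 6 (by norm_num)).mul (s81c_up_dist d hd)))
    (S8LoF.rpow _)
    (by simp only [s8as_aa]; norm_num)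

/-- the count of exceptional stubs, with `η = 1/2` -/
theorem s81c_cnt (d : ℕ) (hd : 3 ≤ d) : ∀ᶠ n : ℕ in atTop, ∀ p : Unit, s81cOK n p →
    (l0 n : ℝ) + 2 * d * ((n : ℝ) ^ (1 / 2 : ℝ) * ((d : ℝ) - 1) ^ (s81r d n + 1) +
      2 * ((l0 n : ℝ) * (6 * (1 + (Lcut d n : ℝ)) ^ 3) ^ 2 / (n : ℝ) ^ (-(3 / 100 : ℝ)))) ≤
      (n : ℝ) ^ ((aa : ℝ) / 20) * (n : ℝ) ^ (-(1 / 10 : ℝ)) * (n * d) :=
  s8as_finalF
    (s81c_up_l0.add
      (((S8UpF.const 2 (by norm_num)).mul (S8UpF.const d (by positivity))).mul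
        (((S8UpF.rpow _).mul (s81c_up_qr d hd)).add
          ((S8UpF.const 2 (by norm_num)).mul
            ((s81c_up_l0.mul
              (((S8UpF.const 6 (by norm_num)).mul
                ((s81c_up_L d hd (1 / 600) (by norm_num)).pow 3)).pow 2)).div (S8LoF.rpow _))))))
    (((S8LoF.rpow _).mul (S8LoF.rpow _)).mul
      (S8LoF.self.mul (S8LoF.const d (by have : 0 < d := by omega
                                         exact_mod_cast this))))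
    (by simp only [s8as_aa]; norm_num)

/-- **S81-NUM-C** -/
theorem s81_numC (d : ℕ) (hd : 3 ≤ d) (CM η : ℝ) (hη : η ≤ 1 / 2) : ∀ᶠ n : ℕ in atTop, S81NumC d n CM η := by
  have hq := s81c_q d hd
  filter_upwards [s43v_Umaj_small d hd, s81c_tol d hd |CM| (abs_nonneg _), s81c_cnt d hd,
    eventually_ge_atTop 1] with n h1 h2 h3 hn
  have hn1 : (1 : ℝ) ≤ (n : ℝ) := by exact_mod_cast hn
  have h2' := h2 () trivial
  have h3' := h3 () trivial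
  refine ⟨?_, h1 _ le_rfl, ?_, ?_⟩
  · unfold l0 scN
    positivity
  · refine le_trans ?_ h2'
    have hz : 0 ≤ zq d ^ s81r d n := pow_nonneg (s81c_zq_nonneg d) _
    have h4 : 4 * CM * zq d ^ s81r d n ≤ 4 * |CM| * zq d ^ s81r d n :=
      mul_le_mul_of_nonneg_right (by linarith [le_abs_self CM]) hz
    unfold eR s81tau s81U
    linarith
  · refine le_trans ?_ h3'
    have h4 : (n : ℝ) ^ η ≤ (n : ℝ) ^ (1 / 2 : ℝ) := Real.rpow_le_rpow_of_exponent_le hn1 hη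
    have h5 : (n : ℝ) ^ η * ((d : ℝ) - 1) ^ (s81r d n + 1) ≤
        (n : ℝ) ^ (1 / 2 : ℝ) * ((d : ℝ) - 1) ^ (s81r d n + 1) :=
      mul_le_mul_of_nonneg_right h4 (by positivity)
    have hd0 : (0 : ℝ) ≤ 2 * (d : ℝ) := by positivity
    unfold s81B s81tau
    have h6 := mul_le_mul_of_nonneg_left h5 hd0
    nlinarith

end Claimed.Agent.R275
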