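import Claimed.Agent.R275.S81Typ
import Claimed.Agent.R275.S81NumA
import Claimed.Agent.R275.S81NumB
import Claimed.Agent.R275.S81NumC

/-!
# Row 275, Sec 8.1: ASSEMBLY.  `S81In` (output of Sec 7) implies `PPair.S8Hyp` (hypothesis of the repair theorem).
Owner: helper51.  No sorry of its own.
-/

set_option autoImplicit false

namespace Claimed.Agent.R275

open Matrix Filter

theorem s81_zfun_cast (d : ℕ) (h : ℚ) : ((zfun d h : ℚ) : ℝ) = zfun d ((h : ℚ) : ℝ) := by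
  unfold zfun
  push_cast
  ring

theorem s81_zT_eq (d n : ℕ) : (s8Par d n).toReal.zT = zfun d (s81h d n (s8jT d)) :=
  s81_zfun_cast d _

theorem s81_zB_eq (d n : ℕ) : (s8Par d n).toReal.zB = zfun d (s81h d n (s8jB n)) :=
  s81_zfun_cast d _

theorem s81_prim_mem (d n : ℕ) (cp : ℚ) (j : ℕ) (hj : j ≤ Nprim d n cp) : prim d n j ∈ primList d n cp :=
  List.mem_map.2 ⟨j, List.mem_range.2 (by omega), rfl⟩

theorem s81_prim_mem_tracked (d n : ℕ) (cp : ℚ) (j : ℕ) (hj : j ≤ Nprim d n cp) :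
    prim d n j ∈ trackedList d n cp := by
  unfold trackedList
  exact List.mem_append_left _ (List.mem_append_left _ (s81_prim_mem d n cp j hj))

theorem PPair.s8Good_mono {n d : ℕ} (π : PPair n d) (z t t' : ℝ) (htt : t ≤ t') (g : Stub n d)
    (h : π.s8Good z t g) : π.s8Good z t' g := fun b =>
  ⟨(h b).1.trans htt, (h b).2.1.trans htt, (h b).2.2.trans htt⟩

theorem s81_sgn_sq (s : Bool) : (sgn s : ℝ) ^ 2 = 1 := by
  cases s <;> simp [sgn]

theorem s81_sgn_abs (s : Bool) : |(sgn s : ℝ)| = 1 := by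
  cases s <;> simp [sgn]

section Assembly

variable {n d : ℕ} {cp : ℚ} {CM CR η : ℝ} {Rc : ℕ} {cT θ : ℝ} {π₀ π : PPair n d} {φ : ℕ → ℝ}

/-- positivity at the stop -/
theorem S81In.pos0 (H : S81In cp CM CR η Rc cT θ π₀ π φ) (j : ℕ) (hj : j ≤ Nprim d n cp) (s : Bool) :
    PosOn1 (π₀.Mmat (sgn s : ℝ) (s81h d n j)) :=
  (H.clean.caps _ (s81_prim_mem_tracked d n cp j hj) s).pos

theorem S81In.one (H : S81In cp CM CR η Rc cT θ π₀ π φ) (v : Fin n) : π₀.tcount v ≤ 1 :=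
  π₀.s81_one_of_sep (R0 d n) H.clean.sep v

/-- elementary consequences of the range of a primary -/
theorem s81_range_facts (hd : 3 ≤ d) (h : ℝ) (h1 : 1 / (2 * Real.sqrt ((d : ℝ) - 1)) ≤ h)
    (h2 : Real.sqrt ((d : ℝ) - 1) * h < 1) :
    0 < h ∧ ((d : ℝ) - 1) * h ^ 2 ≤ 1 ∧ h ^ 2 ≤ 1 / 2 ∧ h ≤ 1 ∧ h ≤ zq d := by
  have hq : (2 : ℝ) ≤ (d : ℝ) - 1 := by
    have : (3 : ℝ) ≤ d := by exact_mod_cast hd
    linarith
  have hs : 0 < Real.sqrt ((d : ℝ) - 1) := Real.sqrt_pos.2 (by linarith)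
  have hss : Real.sqrt ((d : ℝ) - 1) ^ 2 = (d : ℝ) - 1 := Real.sq_sqrt (by linarith)
  have h0 : 0 < h := lt_of_lt_of_le (by positivity) h1
  have hq1 : ((d : ℝ) - 1) * h ^ 2 ≤ 1 := by
    have : (Real.sqrt ((d : ℝ) - 1) * h) ^ 2 ≤ 1 := by
      have h3 : 0 ≤ Real.sqrt ((d : ℝ) - 1) * h := by positivity
      nlinarith
    rw [mul_pow, hss] at this
    exact this
  have hh2 : h ^ 2 ≤ 1 / 2 := by nlinarith [sq_nonneg h]
  refine ⟨h0, hq1, hh2, by nlinarith, ?_⟩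
  unfold zq
  rw [← one_div, le_div_iff₀ hs]
  linarith [mul_comm h (Real.sqrt ((d : ℝ) - 1))]

/-- operator norm of the stop reference at a primary -/
theorem S81In.opX (H : S81In cp CM CR η Rc cT θ π₀ π φ) (hd : 3 ≤ d) (A : S81NumA d n cp) (j : ℕ)
    (hj : j ≤ Nprim d n cp) (s : Bool) :
    s7opLE (s7P0 π₀ φ (Lcut d n) (sgn s) (s81h d n j)) (s81B (Lcut d n)) := by
  obtain ⟨r1, r2⟩ := A.range j hj
  obtain ⟨f0, f1, -, -, -⟩ := s81_range_facts hd _ r1 r2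
  have hp : PosOn1 (π₀.Mmat (1 : ℝ) (s81h d n j)) := by simpa [sgn] using H.pos0 j hj true
  have hm : PosOn1 (π₀.Mmat (-1 : ℝ) (s81h d n j)) := by simpa [sgn] using H.pos0 j hj false
  exact s81_P0_op π₀ hd A.hn _ f0 f1 hp hm _ (s81_sgn_sq s) _ φ H.phiB

/-- **(8.62) at every primary `j + 1` whose gap is at least `e`** -/
theorem s81_sq (hd : 3 ≤ d) (A : S81NumA d n cp) (B : S81NumB d n) (H : S81In cp CM CR η Rc cT θ π₀ π φ) (j : ℕ)
    (hj : j + 1 ≤ Nprim d n cp) (hw : eR n ≤ s81w d n (j + 1)) (b : Bool) (p : Fin n) :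
    π.s8Psi b (zfun d (s81h d n (j + 1))) p p ≤ s81C0 n / Real.sqrt (s81w d n (j + 1)) := by
  have hj0 : j ≤ Nprim d n cp := by omega
  obtain ⟨r1, r1'⟩ := A.range j hj0
  obtain ⟨r2, r2'⟩ := A.range (j + 1) hj
  obtain ⟨st1, st2⟩ := A.step j hj
  obtain ⟨f0, f1, f2, f3, -⟩ := s81_range_facts hd _ r1 r1'
  obtain ⟨g0, g1, g2, g3, -⟩ := s81_range_facts hd _ r2 r2'
  set h₁ := s81h d n j with hh₁
  set h₂ := s81h d n (j + 1) with hh₂
  set L := Lcut d n with hL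
  set σ : ℝ := sgn b with hσ
  set X₁ := s7P0 π₀ φ L σ h₁ with hX₁
  set X₂ := s7P0 π₀ φ L σ h₂ with hX₂
  have hσ2 : σ ^ 2 = 1 := s81_sgn_sq b
  have hσa : |σ| = 1 := s81_sgn_abs b
  have hΔ : 0 < h₁ - h₂ := by linarith
  have hΞ := π₀.s81_Xi_contr H.one
  have o1 : s7opLE X₁ (s81B L) := H.opX hd A j hj0 b
  have o2 : s7opLE X₂ (s81B L) := H.opX hd A (j + 1) hj b
  have hp : PosOn1 (π₀.Mmat (1 : ℝ) h₁) := by simpa [sgn] using H.pos0 j hj0 true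
  have hm : PosOn1 (π₀.Mmat (-1 : ℝ) h₁) := by simpa [sgn] using H.pos0 j hj0 false
  have o12 : s7opLE (X₁ - X₂) (s81Lam d L * (h₁ - h₂)) :=
    s81_P0_lip π₀ hd A.hn h₁ h₂ g0 st1.le r1 f1 hp hm σ hσ2 L φ H.phiB
  have a1 := H.at_ j hj0 b
  have a2 := H.at_ (j + 1) hj b
  have two := s81_two_point hΞ (s7Pt π₀ π ℝ) (π₀.PiS ℝ) H.opPt X₁ X₂ (-(σ * h₁)) (-(σ * h₂)) (s81B L)
    (s81Lam d L) (h₁ - h₂)
    (by rw [abs_neg, abs_mul, hσa, one_mul, abs_of_pos f0]; exact f3)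
    (by rw [abs_neg, abs_mul, hσa, one_mul, abs_of_pos g0]; exact g3)
    (by
      have : -(σ * h₁) - -(σ * h₂) = -(σ * (h₁ - h₂)) := by ring
      rw [this, abs_neg, abs_mul, hσa, one_mul, abs_of_pos hΔ])
    o1 o2 o12 a1.opD a2.opD a1.unit0 a2.unit0 a1.opH a2.opH
  have agg1 := s81_agg_op hΞ X₁ _ (s81B L) o1 a1.opH
  have lip : ∀ p, |mh h₁ * s7Ref π₀ π X₁ σ h₁ p p - mh h₂ * s7Ref π₀ π X₂ σ h₂ p p| ≤
      s81CL (s81B L) (s81Lam d L) * (h₁ - h₂) := by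
    intro p
    have e1 : |s7Ref π₀ π X₁ σ h₁ p p| ≤ s81B L + s81B L ^ 2 := by
      rw [a1.agg]; exact s81_op_entry agg1 p p
    have e2 : |s7Ref π₀ π X₁ σ h₁ p p - s7Ref π₀ π X₂ σ h₂ p p| ≤
        s81LipF (s81B L) (s81Lam d L) * |h₁ - h₂| := by
      rw [a1.agg, a2.agg, abs_of_pos hΔ]
      exact s81_op_entry two p p
    have := s81_mF_lip h₁ h₂ _ _ _ _ f0.le f2 g0.le g2 e1 e2
    rwa [abs_of_pos hΔ] at this
  have key := π.s81_sq_pair hd A.hn H.complete b h₁ h₂ g0 st1 r1' a1.pos (s7Ref π₀ π X₁ σ h₁)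
    (s7Ref π₀ π X₂ σ h₂) (Real.sqrt (eR n)) (s81CL (s81B L) (s81Lam d L)) (8 * Real.sqrt ((d : ℝ) - 1))
    (fun p => a1.cmp p p) (fun p => a2.cmp p p) lip st2 (Real.sqrt_le_sqrt hw) p
  refine key.trans ?_
  have hc0 := B.c0
  exact div_le_div_of_nonneg_right (by rw [← hL] at hc0; linarith) (Real.sqrt_nonneg _)

open Classical in
/-- **typical edge blocks at `z(s8hB)`** -/
theorem s81_typ (hd : 3 ≤ d) (A : S81NumA d n cp) (B : S81NumB d n) (C : S81NumC d n CM η)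
    (H : S81In cp CM CR η Rc cT θ π₀ π φ) :
    ((Finset.univ.filter fun g : Stub n d =>
      ¬ π.s8Good (zfun d (s81h d n (s8jB n))) ((n : ℝ) ^ (-(24 / 1000 : ℝ))) g).card : ℝ) ≤
      s81C0 n * (n : ℝ) ^ (-(1 / 10 : ℝ)) * (n * d) := by
  obtain ⟨r1, r1'⟩ := A.range _ A.jB
  obtain ⟨f0, -, -, -, f4⟩ := s81_range_facts hd _ r1 r1'
  set h := s81h d n (s8jB n) with hh
  set L := Lcut d n with hL
  set r := s81r d n with hr
  have hl : π₀.l = l0 n := H.clean.l_eq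
  have hl0 : 0 < π₀.l := hl ▸ C.l0pos
  have hr2 : 2 ≤ r := by rw [hr]; unfold s81r; omega
  have hτ : 0 < s81tau n := by
    unfold s81tau
    exact Real.rpow_pos_of_pos (by exact_mod_cast A.hn) _
  have good : ∀ g : Stub n d, ¬ s81BadS π₀ π r (fun s => s7P0 π₀ φ L (sgn s) h) (s81tau n) g →
      π.s8Good (zfun d h) ((n : ℝ) ^ (-(24 / 1000 : ℝ))) g := by
    intro g hg
    have hU : Umaj d (Cmaj d) π₀.l L h ≤ s81U n := by
      have hC : 0 ≤ Cmaj d := by unfold Cmaj; positivity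
      have := (π₀.s43v_maj_mono (Cmaj d) hC hd L h (zq d) f0.le f4 (.stub g) g g g.1 g.1).2.2.1
      refine this.trans ?_
      rw [hl]
      exact C.umaj
    have := s81_good π₀ π hd A.hn hl0 H.ext H.complete CM L H.clean.walk.mult r hr2 B.rL φ H.phi1 H.phiB h f0 f4
      (Real.sqrt (eR n)) (s81tau n) (s81U n) hU (fun s => H.at_ _ A.jB s) g hg
    exact π.s8Good_mono _ _ _ C.tol g this
  have sub : (Finset.univ.filter fun g : Stub n d => ¬ π.s8Good (zfun d h) ((n : ℝ) ^ (-(24 / 1000 : ℝ))) g) ⊆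
      Finset.univ.filter fun g : Stub n d => s81BadS π₀ π r (fun s => s7P0 π₀ φ L (sgn s) h) (s81tau n) g := by
    intro g hg
    simp only [Finset.mem_filter, Finset.mem_univ, true_and] at hg ⊢
    by_contra hcon
    exact hg (good g hcon)
  have cnt := s81_count π₀ π hd H.one η L H.clean.walk.ret r B.rL.le (fun s => s7P0 π₀ φ L (sgn s) h) (s81B L)
    (s81tau n) (fun s => H.opX hd A _ A.jB s) hτ
  calc ((Finset.univ.filter fun g : Stub n d =>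
        ¬ π.s8Good (zfun d h) ((n : ℝ) ^ (-(24 / 1000 : ℝ))) g).card : ℝ)
      ≤ ((Finset.univ.filter fun g : Stub n d =>
          s81BadS π₀ π r (fun s => s7P0 π₀ φ L (sgn s) h) (s81tau n) g).card : ℝ) := by
        exact_mod_cast Finset.card_le_card sub
    _ ≤ _ := cnt
    _ ≤ _ := by rw [hl]; exact C.cnt

/-- **Sec 8.1, non-asymptotic form** -/
theorem s81_hyp (hd : 3 ≤ d) (A : S81NumA d n cp) (B : S81NumB d n) (C : S81NumC d n CM η)
    (H : S81In cp CM CR η Rc cT θ π₀ π φ) :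
    π.S8Hyp (s8Par d n).toReal (eR n) (s81C0 n) (s81C0 n * (n : ℝ) ^ (-(1 / 10 : ℝ)))
      ((n : ℝ) ^ (-(24 / 1000 : ℝ))) where
  complete := H.complete
  simple := H.simple
  conf := fun b v hv => π.s81_conf H.complete b (s81h d n 0) (H.at_ 0 (Nat.zero_le _) b).pos _ A.z0 v hv
  sqT := fun b p => by
    have := s81_sq hd A B H (Nat.log 2 (32 * (d - 1))) A.jT A.wT b p
    unfold S8Par.wT
    rw [s81_zT_eq]
    exact this
  sqB := fun b p => by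
    obtain ⟨j, hj⟩ : ∃ j, s8jB n = j + 1 := ⟨s8jB n - 1, by have := A.jB1; omega⟩
    have h1 := A.jB
    have h2 := A.wB
    rw [hj] at h1 h2
    have := s81_sq hd A B H j h1 h2 b p
    unfold S8Par.wB
    rw [s81_zB_eq, hj]
    exact this
  typ := by
    rw [s81_zB_eq]
    convert s81_typ hd A B C H using 1

end Assembly

/-! ## bridge from the structures of Sec 7 -/

/-- `S81At` from Lemma 7.2 (`S7RefOut`), its continuation (`StS7RefAll`, `StS7Aggregate`) and Prop 7.1 (positivity, entry comparison) -/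
theorem s81At_of_ref (hAll : StS7RefAll) (hAgg : StS7Aggregate) {n d : ℕ} (π₀ π : PPair n d) (t0 L : ℕ) (σ h : ℝ)
    (X : Matrix (Fin n) (Fin n) ℝ) (δ ρ Yb Tb βP β : ℝ) (hR : S7RefOut π₀ t0 L σ h X δ ρ Yb Tb βP)
    (hext : π₀.Ext π) (hσ : σ ^ 2 = 1) (hh : 0 < h) (hh' : h ≤ 3 / 4) (hδ : δ ≤ 1 / 8) (hρ : 0 ≤ ρ)
    (hpos : PosOn1 (π.Mmat σ h)) (hcmp : ∀ i j, |(π.Wmat σ h - s7Ref π₀ π X σ h) i j| ≤ β) :
    S81At π₀ π σ h X β := by
  have hat := hAll n d π₀ π t0 L σ h X δ ρ Yb Tb βP hR hext hσ hh hh' hδ hρ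
  have h1 : h ^ 2 ≠ 1 := by nlinarith
  exact
    { pos := hpos
      opD := s7opLE_mono hR.op hδ
      unit0 := hat.unit0
      opH := hat.opH
      agg := (hAgg ℝ n d π₀ π X σ h hext hσ h1 hat.unit0).2.1
      cmp := hcmp }

theorem s81_opPt_of (hPt : StS7PtCoord) {n d : ℕ} (π₀ π : PPair n d) (hext : π₀.Ext π) :
    s7opLE (s7Pt π₀ π ℝ) 1 := (hPt n d π₀ π hext).1

/-- **SEC 8.1** (`T81` of `Top.lean`): the output of Sec 7 implies the hypothesis of the repair theorem. -/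
theorem s81_main (d : ℕ) (hd : 3 ≤ d) (cp : ℚ) (hcp : 0 < cp) (hcp' : cp ≤ 1 / 4) (CM CR η : ℝ) (hη : η ≤ 1 / 2)
    (Rc : ℕ) (cT θ : ℝ) :
    ∀ᶠ n : ℕ in atTop, ∀ (π₀ π : PPair n d) (φ : ℕ → ℝ), S81In cp CM CR η Rc cT θ π₀ π φ →
      π.S8Hyp (s8Par d n).toReal (eR n) (s81C0 n) (s81C0 n * (n : ℝ) ^ (-(1 / 10 : ℝ)))
        ((n : ℝ) ^ (-(24 / 1000 : ℝ))) := by
  filter_upwards [s81_numA d hd cp hcp hcp', s81_numB d hd, s81_numC d hd CM η hη] with n A B C π₀ π φ H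
  exact s81_hyp hd A B C H

end Claimed.Agent.R275
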