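import Claimed.Agent.R275.S7Iface
import Claimed.Agent.R275.S72Rows
import Claimed.Agent.R275.S81Main
import Claimed.Agent.R275.S7Num
import Claimed.Agent.R275.NbWalk
import Claimed.Agent.R275.S45K

/-!
# Row 275, Section 7, package S7-I-STOP: `StS7RefMono`, `StS7StopOf`, `StS7Simple`, `StS7OutTo` (statements: S7Iface.lean, helper245)

Proofs: helper238.  Prefix of the helper lemmas: `s7is_`.
-/

set_option autoImplicit false

namespace Claimed.Agent.R275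

open Matrix Filter

/-! ## S7-I-1 -/

theorem s7_refMono : StS7RefMono := by
  intro n d π₀ t0 L σ h P0 δ ρ Yb Tb βP δ' ρ' Yb' Tb' βP' H hδ hρ0 hρ hY hT hβ
  have hsq : ρ ^ 2 ≤ ρ' ^ 2 := pow_le_pow_left₀ hρ0 hρ 2
  exact
    { symm := H.symm
      ker := H.ker
      op := s7opLE_mono H.op hδ
      tail := fun i => (H.tail i).trans hsq
      uniq := H.uniq
      cle := H.cle
      drow := fun x => (H.drow x).trans hsq
      tr := H.tr.trans hY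
      dg := H.dg.trans hT
      near := fun i j => (H.near i j).trans hβ }

/-! ## S7-I-4 -/

theorem s7_simple : StS7Simple := by
  intro n d π hg v w
  constructor
  · by_contra hcon
    have h2 : 1 < π.acount v w := by omega
    unfold PPair.acount at h2
    obtain ⟨x₁, hx₁, x₂, hx₂, hne⟩ := Finset.one_lt_card.1 h2
    simp only [Finset.mem_filter, Finset.mem_univ, true_and] at hx₁ hx₂
    refine (π.nbw_Nact_succ_ne_zero 1 v v).2 ⟨x₁, x₂, hx₁.1, hx₂.1, π.mate x₁, π.mate x₂, ⟨hx₁.2.1, rfl⟩, ?_, ?_,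
      π.nbw_unres_mate hx₂.2.1, π.mate_mate x₂⟩ (hg v 2 (by norm_num) (by norm_num))
    · rw [hx₁.2.2, hx₂.2.2]
    · intro e
      apply hne
      rw [← π.mate_mate x₁, e, π.mate_mate]
  · by_contra hcon
    have hpos : 0 < π.acount v v := Nat.pos_of_ne_zero hcon
    unfold PPair.acount at hpos
    obtain ⟨x, hx⟩ := Finset.card_pos.1 hpos
    simp only [Finset.mem_filter, Finset.mem_univ, true_and] at hx
    exact (π.nbw_Nact_succ_ne_zero 0 v v).2 ⟨x, π.mate x, hx.1, hx.2.2, hx.2.1, rfl⟩ (hg v 1 (by norm_num) le_rfl)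

theorem s7is_girth_mono {n d : ℕ} {π : PPair n d} {g g' : ℕ} (h : π.GirthGE g) (hg : g' ≤ g) : π.GirthGE g' :=
  fun v k hk h1 => h v k (by omega) h1

/-! ## radii -/

theorem s7is_radius_large (d : ℕ) (hd : 3 ≤ d) (x : ℚ) (hx : 0 < x) (hx1 : x ≤ 1) (m : ℕ) :
    ∀ᶠ n : ℕ in atTop, m ≤ Nat.log (d - 1) (scN x n) := by
  have hd' : (3 : ℝ) ≤ d := by exact_mod_cast hd
  have hx' : (0 : ℝ) < (x : ℝ) := by exact_mod_cast hx
  filter_upwards [parF_ev_large (x : ℝ) hx' (((d : ℝ) - 1) ^ m * (4 * ((d : ℝ) - 1)) + 1), eventually_ge_atTop 1]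
    with n hn hn1
  by_contra hcon
  have hlt : Nat.log (d - 1) (scN x n) ≤ m := by omega
  have h := (s43w_radius d hd x hx.le hx1 n hn1).2
  have h2 : ((d : ℝ) - 1) ^ Nat.log (d - 1) (scN x n) ≤ ((d : ℝ) - 1) ^ m := pow_le_pow_right₀ (by linarith) hlt
  rw [div_le_iff₀ (by linarith)] at h
  have h3 := mul_le_mul_of_nonneg_right h2 (by linarith : (0 : ℝ) ≤ 4 * ((d : ℝ) - 1))
  linarith

theorem s7is_R0_large (d : ℕ) (hd : 3 ≤ d) (m : ℕ) : ∀ᶠ n : ℕ in atTop, m ≤ R0 d n :=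
  s7is_radius_large d hd (4 / 100 * aa) (by unfold aa; norm_num) (by unfold aa; norm_num) m

theorem s7is_g0_large (d : ℕ) (hd : 3 ≤ d) (m : ℕ) : ∀ᶠ n : ℕ in atTop, m ≤ g0 d n :=
  s7is_radius_large d hd (2 / 1000 * aa) (by unfold aa; norm_num) (by unfold aa; norm_num) m

/-- `2 r_n ≤ L`. -/
theorem s7is_r_le (d : ℕ) (hd : 3 ≤ d) : ∀ᶠ n : ℕ in atTop, 2 * s81r d n ≤ Lcut d n := by
  have hd' : (3 : ℝ) ≤ d := by exact_mod_cast hd
  filter_upwards [s45k_ev (4 * ((d : ℝ) - 1) ^ 5 + 1) (16 / 100) (2 / 3 - 43 / 100 * (aa : ℝ))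
    (by rw [parF_aa]; norm_num), eventually_ge_atTop 1] with n hn hn1
  have hnR : (0 : ℝ) < (n : ℝ) := by exact_mod_cast hn1
  by_contra hcon
  unfold s81r at hcon
  generalize hℓ : Nat.log (d - 1) (scN (8 / 100) n) = ℓ at hcon
  have hlt : Lcut d n ≤ 2 * ℓ + 4 := by omega
  have h1 := (s43w_radius d hd (8 / 100) (by norm_num) (by norm_num) n hn1).1
  rw [hℓ] at h1
  have h2 := (s43w_qL d hd n hn1).2
  have h3 : ((d : ℝ) - 1) ^ Lcut d n ≤ ((d : ℝ) - 1) ^ (2 * ℓ + 4) := pow_le_pow_right₀ (by linarith) hlt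
  have h4 : ((d : ℝ) - 1) ^ (2 * ℓ + 4) = (((d : ℝ) - 1) ^ ℓ) ^ 2 * ((d : ℝ) - 1) ^ 4 := by
    rw [pow_add, mul_comm 2 ℓ, pow_mul]
  have h5 : (((d : ℝ) - 1) ^ ℓ) ^ 2 ≤ (n : ℝ) ^ (16 / 100 : ℝ) := by
    have e : (n : ℝ) ^ (16 / 100 : ℝ) = ((n : ℝ) ^ (((8 / 100 : ℚ)) : ℝ)) ^ 2 := by
      rw [← Real.rpow_natCast, ← Real.rpow_mul hnR.le]
      congr 1
      push_cast
      norm_num
    rw [e]
    exact pow_le_pow_left₀ (pow_nonneg (by linarith) _) h1 2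
  rw [div_le_iff₀ (by linarith)] at h2
  have hq4 : (0 : ℝ) ≤ ((d : ℝ) - 1) ^ 4 := pow_nonneg (by linarith) _
  have h6 : ((d : ℝ) - 1) ^ Lcut d n ≤ (n : ℝ) ^ (16 / 100 : ℝ) * ((d : ℝ) - 1) ^ 4 := by
    rw [h4] at h3
    exact h3.trans (mul_le_mul_of_nonneg_right h5 hq4)
  have h7 := mul_le_mul_of_nonneg_right h6 (by linarith : (0 : ℝ) ≤ 4 * ((d : ℝ) - 1))
  have h8 : (n : ℝ) ^ (16 / 100 : ℝ) * ((d : ℝ) - 1) ^ 4 * (4 * ((d : ℝ) - 1)) =
      4 * ((d : ℝ) - 1) ^ 5 * (n : ℝ) ^ (16 / 100 : ℝ) := by ring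
  have h9 : 0 < (n : ℝ) ^ (16 / 100 : ℝ) := by positivity
  linarith

/-! ## S7-I-2 -/

/-- numerics of the stop. -/
theorem s7is_numStop (d : ℕ) (hd : 3 ≤ d) (g : ℚ) (hg : S7gOK g) (C η' : ℝ) (hη' : η' < (g : ℝ) / 100) :
    ∀ᶠ n : ℕ in atTop,
      C / (R0 d n : ℝ) ≤ 1 / 32 ∧
      (n : ℝ) ^ (-(4 / 1000 : ℝ) * (aa : ℝ)) ≤ (s7rho n : ℝ) ∧
      (n : ℝ) ^ η' * Real.sqrt ((d : ℝ) - 1) ^ Lcut d n ≤ Real.sqrt (s7SY2 n : ℝ) ∧
      (n : ℝ) ^ η' ≤ (s7Tin g n : ℝ) ∧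
      (n : ℝ) ^ ((32 / 100 : ℝ) * (aa : ℝ)) / Real.sqrt (l0 n) ≤ (s7Bin n : ℝ) := by
  obtain ⟨hg0, hg1⟩ := hg
  have hg0' : (0 : ℝ) < (g : ℝ) := by exact_mod_cast hg0
  have hg1' : (g : ℝ) ≤ (aa : ℝ) / 100000 := by
    have := (Rat.cast_le (K := ℝ)).2 hg1
    push_cast at this
    exact this
  have haa := parF_aa
  filter_upwards [eventually_ge_atTop 1, s7is_R0_large d hd (⌈32 * C⌉₊ + 1),
    s45k_ev 2 (-(4 / 1000 : ℝ) * (aa : ℝ)) (-(2 * (aa : ℝ) / 1000)) (by rw [parF_aa]; norm_num),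
    s45k_ev 4 (2 * (η' + (2 / 3 - 43 / 100 * (aa : ℝ)) / 2)) (2 / 3 + 15 / 100 * (aa : ℝ) + -(12 / 100 * (aa : ℝ)))
      (by rw [haa] at hg1' ⊢; linarith),
    s45k_ev 4 η' ((g : ℝ) / 100) hη',
    s45k_ev 4 ((32 / 100 : ℝ) * (aa : ℝ) - (2 / 3 + 15 / 100 * (aa : ℝ)) / 2)
      (375 / 1000 * (aa : ℝ) - (2 / 3 + 15 / 100 * (aa : ℝ)) / 2) (by rw [parF_aa]; norm_num)]
    with n hn1 hR e2 e3 e4 e5
  have hnR : (0 : ℝ) < (n : ℝ) := by exact_mod_cast hn1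
  refine ⟨?_, ?_, ?_, ?_, ?_⟩
  · have h1 : (⌈32 * C⌉₊ : ℝ) + 1 ≤ (R0 d n : ℝ) := by exact_mod_cast hR
    have h2 : 32 * C ≤ (⌈32 * C⌉₊ : ℝ) := Nat.le_ceil _
    have h3 : (0 : ℝ) ≤ (⌈32 * C⌉₊ : ℝ) := Nat.cast_nonneg _
    rw [div_le_iff₀ (by linarith)]
    linarith
  · have h1 := le_scQ_of_nonpos (-(2 * aa / 1000)) (by unfold aa; norm_num) n hn1
    have e : (((-(2 * aa / 1000) : ℚ)) : ℝ) = -(2 * (aa : ℝ) / 1000) := by push_cast; ring
    rw [e] at h1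
    unfold s7rho
    linarith
  · have h1 := s43w_rL_le d hd n hn1
    have h2 := (s43w_l0 n hn1).1
    have h3 := le_scQ_of_nonpos (-(12 / 100 * aa)) (by unfold aa; norm_num) n hn1
    have e : (((-(12 / 100 * aa) : ℚ)) : ℝ) = -(12 / 100 * (aa : ℝ)) := by push_cast; ring
    rw [e] at h3
    have h4 : (n : ℝ) ^ η' * Real.sqrt ((d : ℝ) - 1) ^ Lcut d n ≤
        (n : ℝ) ^ (η' + (2 / 3 - 43 / 100 * (aa : ℝ)) / 2) := by
      rw [Real.rpow_add hnR]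
      exact mul_le_mul_of_nonneg_left h1 (by positivity)
    refine h4.trans (Real.le_sqrt_of_sq_le ?_)
    have e2' : ((n : ℝ) ^ (η' + (2 / 3 - 43 / 100 * (aa : ℝ)) / 2)) ^ 2 =
        (n : ℝ) ^ (2 * (η' + (2 / 3 - 43 / 100 * (aa : ℝ)) / 2)) := by
      rw [← Real.rpow_natCast, ← Real.rpow_mul hnR.le]
      congr 1
      push_cast
      ring
    rw [e2']
    have e3' : ((s7SY2 n : ℚ) : ℝ) = (l0 n : ℝ) * ((scQ (-(12 / 100 * aa)) n : ℚ) : ℝ) := by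
      unfold s7SY2
      push_cast
      ring
    rw [e3']
    have h5 : (n : ℝ) ^ (2 / 3 + 15 / 100 * (aa : ℝ)) / 2 * ((n : ℝ) ^ (-(12 / 100 * (aa : ℝ))) / 2) ≤
        (l0 n : ℝ) * ((scQ (-(12 / 100 * aa)) n : ℚ) : ℝ) :=
      mul_le_mul h2 h3 (by positivity) (by positivity)
    rw [Real.rpow_add hnR] at e3
    linarith
  · have hx : (0 : ℚ) ≤ s7eta0 g := by unfold s7eta0; positivity
    have h1 := le_scQ_of_nonneg (s7eta0 g) hx n hn1
    have e : ((s7eta0 g : ℚ) : ℝ) = (g : ℝ) / 100 := by unfold s7eta0; push_cast; ring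
    rw [e] at h1
    have h2 := s43w_two_rpow_le ((g : ℝ) / 100) (by rw [haa] at hg1'; linarith)
    have h3 : (n : ℝ) ^ ((g : ℝ) / 100) / 4 ≤ (n : ℝ) ^ ((g : ℝ) / 100) / 2 ^ ((g : ℝ) / 100 + 1) :=
      div_le_div_of_nonneg_left (by positivity) (by positivity) h2
    unfold s7Tin
    linarith
  · have h1 := le_scQ_of_nonpos (375 / 1000 * aa - (2 / 3 + 15 / 100 * aa) / 2) (by unfold aa; norm_num) n hn1
    have e : (((375 / 1000 * aa - (2 / 3 + 15 / 100 * aa) / 2 : ℚ)) : ℝ) =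
        375 / 1000 * (aa : ℝ) - (2 / 3 + 15 / 100 * (aa : ℝ)) / 2 := by push_cast; ring
    rw [e] at h1
    have h2 := s43w_sqrt_l0_ge n hn1
    have h3 : (n : ℝ) ^ ((32 / 100 : ℝ) * (aa : ℝ)) / Real.sqrt (l0 n) ≤
        (n : ℝ) ^ ((32 / 100 : ℝ) * (aa : ℝ)) / ((n : ℝ) ^ ((2 / 3 + 15 / 100 * (aa : ℝ)) / 2) / 2) :=
      div_le_div_of_nonneg_left (by positivity) (by positivity) h2
    have h4 : (n : ℝ) ^ ((32 / 100 : ℝ) * (aa : ℝ)) / ((n : ℝ) ^ ((2 / 3 + 15 / 100 * (aa : ℝ)) / 2) / 2) =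
        2 * (n : ℝ) ^ ((32 / 100 : ℝ) * (aa : ℝ) - (2 / 3 + 15 / 100 * (aa : ℝ)) / 2) := by
      rw [Real.rpow_sub hnR]
      field_simp
    unfold s7Bin
    linarith

theorem s7is_sgn (b : Bool) : (sgn b : ℝ) = 1 ∨ (sgn b : ℝ) = -1 := by
  cases b <;> simp [sgn]

theorem s7_stopOf : StS7StopOf := by
  intro d par hpar CM CR η Rc cT θ hη0 hη
  obtain ⟨hd, hg, -, hcp, hcp'⟩ := hpar
  have h1 : η < (η + (par.g : ℝ) / 100) / 2 := by linarith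
  have h2 : (η + (par.g : ℝ) / 100) / 2 < (par.g : ℝ) / 100 := by linarith
  obtain ⟨C, -, hC⟩ := s72_refOut d hd CM CR η ((η + (par.g : ℝ) / 100) / 2) Rc hη0 h1
  filter_upwards [hC, s7is_numStop d hd par.g hg C _ h2, s7n_prim d hd par.cp hcp hcp', eventually_ge_atTop 1]
    with n hC hnum hprim hn1 π₀ hclean
  obtain ⟨n1, n2, n3, n4, n5⟩ := hnum
  have hmem0 := s45j_prim_mem d n par.cp 0 (by omega)
  have hp1 : PosOn1 (π₀.Mmat 1 ((prim d n 0 : ℚ) : ℝ)) := by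
    have := (hclean.caps _ hmem0 true).pos
    simpa [sgn] using this
  have hp2 : PosOn1 (π₀.Mmat (-1) ((prim d n 0 : ℚ) : ℝ)) := by
    have := (hclean.caps _ hmem0 false).pos
    simpa [sgn] using this
  refine ⟨hclean.l_eq, hclean.sep, hclean.walk.girth, fun j hj b => ?_⟩
  obtain ⟨r1, -, -⟩ := hprim j hj
  have hr0 : 0 < Real.sqrt ((d : ℝ) - 1) := by linarith [(parF_sqrtq d hd).1]
  have hh0 : 0 < ((prim d n j : ℚ) : ℝ) := lt_of_lt_of_le (by positivity) r1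
  have hle : ((prim d n j : ℚ) : ℝ) ≤ ((prim d n 0 : ℚ) : ℝ) := by exact_mod_cast s45k_prim_le d n j hd
  have H := hC π₀ hclean.l_eq hclean.walk hclean.sep hp1 hp2 (sgn b) _ (s7is_sgn b) hh0 hle
  exact s7_refMono n d π₀ _ _ _ _ _ _ _ _ _ _ _ _ _ _ _ H n1 (by positivity) n2 n3 n4 n5

/-! ## S7-I-5 -/

theorem s7is_numOut (g : ℚ) (hg : S7gOK g) : ∀ᶠ n : ℕ in atTop, 350 * (s7BB g n : ℝ) ≤ Real.sqrt (eR n) := by
  obtain ⟨hg0, hg1⟩ := hg
  have hg0' : (0 : ℝ) < (g : ℝ) := by exact_mod_cast hg0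
  have hg1' : (g : ℝ) ≤ (aa : ℝ) / 100000 := by
    have := (Rat.cast_le (K := ℝ)).2 hg1
    push_cast at this
    exact this
  have haa := parF_aa
  have haaQ : aa = 1 / 10000 := rfl
  filter_upwards [eventually_ge_atTop 1,
    s45k_ev (350 * (13 / 10)) (40 / 100 * (aa : ℝ) - (2 / 3 + 15 / 100 * (aa : ℝ) - 2 * (g : ℝ)) / 2)
      (-(1 / 3 : ℝ) + (aa : ℝ) / 2) (by rw [haa] at hg1' ⊢; linarith)] with n hn1 e1
  rw [← parF_parE_sq, Real.sqrt_sq (parF_parE_pos n hn1).le]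
  have h1 := parF_scQ_neg_le (40 / 100 * aa - (2 / 3 + 15 / 100 * aa - 2 * g) / 2)
    (by rw [haaQ] at hg1 ⊢; linarith) (by rw [haaQ]; linarith) n hn1
  have e : (((40 / 100 * aa - (2 / 3 + 15 / 100 * aa - 2 * g) / 2 : ℚ)) : ℝ) =
      40 / 100 * (aa : ℝ) - (2 / 3 + 15 / 100 * (aa : ℝ) - 2 * (g : ℝ)) / 2 := by push_cast; ring
  rw [e] at h1
  unfold s7BB parE
  linarith

theorem s7_outTo (hAll : StS7RefAll) (hAgg : StS7Aggregate) (hPt : StS7PtCoord) : StS7OutTo := by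
  intro d par hpar CM CR η Rc cT θ
  obtain ⟨hd, hg, -, hcp, hcp'⟩ := hpar
  filter_upwards [s7is_g0_large d hd 3, s7is_r_le d hd, s45k_Lcut_pos d hd, s7is_numOut par.g hg,
    s7n_prim d hd par.cp hcp hcp'] with n hg3 hr hL hnum hprim π₀ π hclean hstop hfin
  have hr0 : 0 < Real.sqrt ((d : ℝ) - 1) := by linarith [(parF_sqrtq d hd).1]
  exact
    { clean := hclean
      ext := hfin.ext
      complete := hfin.complete
      simple := s7_simple n d π (s7is_girth_mono hfin.girth hg3)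
      opPt := s81_opPt_of hPt π₀ π hfin.ext
      phi1 := fun k hk => by
        have := s7taper_eq_one d n k (by omega)
        simp only [this, Rat.cast_one]
      phiB := fun k => by
        have h0 : (0 : ℝ) ≤ ((s7taper d n k : ℚ) : ℝ) := by exact_mod_cast s7taper_nonneg d n k
        have h1 : ((s7taper d n k : ℚ) : ℝ) ≤ 1 := by exact_mod_cast s7taper_le_one d n k
        rw [abs_of_nonneg h0]
        exact h1
      at_ := fun j hj s => by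
        obtain ⟨r1, -, r3⟩ := hprim j hj
        have hh0 : 0 < ((prim d n j : ℚ) : ℝ) := lt_of_lt_of_le (by positivity) r1
        exact s81At_of_ref hAll hAgg π₀ π _ _ _ _ _ _ _ _ _ _ _ (hstop.ref j hj s) hfin.ext (s45k_sgn_sq s) hh0 r3
          (by norm_num) (by exact_mod_cast (scQ_pos _ n).le) (hfin.pos j hj s)
          (fun i k => (hfin.ent j hj s i k).trans hnum) }

end Claimed.Agent.R275
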