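import Claimed.Agent.R275.S8Main
import Claimed.Agent.R275.Params
import Claimed.Agent.R275.S8AsymA

/-!
# Row 275, Sec 8, package ASYM: the concrete parameters of the repair stage and the numeric conditions `S8Num` for large `n`.
Statements: helper118.  The ONLY asymptotic file of Sec 8.  No paper needed: powers of `n` only.

`a = aa = 10⁻⁴`, `e = eR n = n^(-2/3+a)`.  Exponents (up to constants `C(d, C0, C1)`):
  `wT ≍ n^(-2/3+a)`, `wB ≍ n^(-2/3+100a)`, `κ ≍ n^(-1/3+.4a)`, `M ≍ n^(1/3+10a)`, `thr ∈ [2 n^(-.024), n^(-.02)]`, `apx = 1/n`, `εa = C0 n^(-.1)`,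
  `tol0 = n^(-.024)`, `δ1 = n^(-12a)`, `P ≥ n^5`;  `mN, hsup ≍ n^(-1+150a)`, `tolB ≲ n^(-.02)`, `4 n^(-12a) ≤ dlt ≲ n^(-12a)`.
Field by field (LHS/RHS as a power of `n`):
  hbr  `κ/√wT ≍ n^(-.1a)`;   hM `M/n`;   hbias  `M κ/(n² wT²) ≍ n^(-2/3+8.4a)` versus `e`;   hopp  `M κ/n² ≍ n^(-2+10.4a)` versus `e`;
  herr `M εa hsup ≍ n^(-2/3-.1+160a)`, `M T²/P hsup ≲ n^(-11/3+160a)` versus `e`;   hE1 `M hsup²/e² ≍ n^(-1/3+308a)`;   hE2 `mN² n²/M ≍ n^(-1/3+290a)`;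
  hE3 `M²/(n √wB δ1²) ≍ n^(-6a)`;   hE4 `M²/n ≍ n^(-1/3+20a)`;   hδ1', hsm `dlt → 0`;   hloss `dlt M/n ≍ n^(-2/3-2a)` versus `e`;
  hbulk `dlt wB ≳ n^(-2/3+88a)` versus `e`;   htest `n (1 - e/(2s))^(2n) ≤ n exp(-n e/s) = n exp(-n^(1/3+a)/s) < 1`;   hMP `M < n^5 ≤ P`;
  basic.hnB `1/n ≤ √wB`.
-/

set_option autoImplicit false

namespace Claimed.Agent.R275

open Filter

/-! `s8_eventually_small`, `S8ParOK`, `s8_asym` (package ASYM1) are in `S8AsymA.lean`. -/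

/-! ## the concrete parameters -/

/-- index of the primary of the tilt: `32 q < 2^jT ≤ 64 q` -/
def s8jT (d : ℕ) : ℕ := Nat.log 2 (32 * (d - 1)) + 1

/-- index of the primary of the acceptance test: `2^jB ≍ n^(49.5 a)` -/
def s8jB (n : ℕ) : ℕ := (scZ (99 / 2 * aa) n).toNat

/-- the spectral parameter of the tilt -/
def s8hT (d n : ℕ) : ℚ := prim d n (s8jT d)

/-- the spectral parameter of the acceptance test -/
def s8hB (d n : ℕ) : ℚ := prim d n (s8jB n)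

/-- **the parameters of the repair stage** -/
def s8Par (d n : ℕ) : S8Par ℚ where
  zT := zfun d (s8hT d n)
  zB := zfun d (s8hB d n)
  sA := zfun d (rhoQ d n)
  thr := scQ (-(22 / 1000)) n
  kap := scQ (-(1 / 3) + 4 / 10 * aa) n
  M := scN (1 / 3 + 10 * aa) n
  NP := n ^ 5

/-- `z(h) - s = (1 - √q h)²/h` -/
theorem s8_zfun_sub (d : ℕ) (hd : 3 ≤ d) (h : ℝ) (hh : h ≠ 0) :
    zfun d h - s8s d = (1 - Real.sqrt ((d : ℝ) - 1) * h) ^ 2 / h := by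
  obtain ⟨-, hr2⟩ := parF_sqrtq d hd
  unfold zfun s8s
  rw [eq_div_iff hh]
  have e : h⁻¹ * h = 1 := inv_mul_cancel₀ hh
  linear_combination e - h ^ 2 * hr2

/-- pure real computation: `x² r ≤ z(H) - s ≤ 2.42 r x²` -/
theorem s8a_core (d : ℕ) (hd : 3 ≤ d) (H x ε : ℝ)
    (hx0 : 0 < x) (hx1 : x ≤ 1 / 4) (hε : ε ≤ 1 / 10)
    (hu1 : x ≤ 1 - Real.sqrt ((d : ℝ) - 1) * H) (hu2 : 1 - Real.sqrt ((d : ℝ) - 1) * H ≤ x * (1 + ε)) :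
    x ^ 2 * Real.sqrt ((d : ℝ) - 1) ≤ zfun d H - s8s d ∧
      zfun d H - s8s d ≤ 121 / 50 * x ^ 2 * Real.sqrt ((d : ℝ) - 1) := by
  obtain ⟨hr1, hr2⟩ := parF_sqrtq d hd
  have hu3 : 1 - Real.sqrt ((d : ℝ) - 1) * H ≤ 11 / 10 * x := by nlinarith
  have hH0 : 0 < H := by
    by_contra hcon
    push Not at hcon
    nlinarith
  rw [s8_zfun_sub d hd H hH0.ne']
  generalize Real.sqrt ((d : ℝ) - 1) = r at hr1 hu1 hu2 hu3 ⊢
  have hrH : r * H = 1 - (1 - r * H) := by ring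
  generalize 1 - r * H = u at hu1 hu2 hu3 hrH ⊢
  have hu0 : 0 < u := lt_of_lt_of_le hx0 hu1
  have hxu : x ^ 2 ≤ u ^ 2 := pow_le_pow_left₀ hx0.le hu1 2
  have hux : u ^ 2 ≤ (11 / 10 * x) ^ 2 := pow_le_pow_left₀ hu0.le hu3 2
  constructor
  · rw [le_div_iff₀ hH0]
    calc x ^ 2 * r * H = x ^ 2 * (r * H) := by ring
      _ ≤ x ^ 2 * 1 := mul_le_mul_of_nonneg_left (by rw [hrH]; linarith) (by positivity)
      _ ≤ u ^ 2 := by linarith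
  · rw [div_le_iff₀ hH0]
    have h1 : 1 / 2 ≤ r * H := by rw [hrH]; linarith
    calc u ^ 2 ≤ (11 / 10 * x) ^ 2 := hux
      _ = 121 / 50 * x ^ 2 * (1 / 2) := by ring
      _ ≤ 121 / 50 * x ^ 2 * (r * H) := mul_le_mul_of_nonneg_left h1 (by positivity)
      _ = 121 / 50 * x ^ 2 * r * H := by ring

theorem s8a_jT (d : ℕ) (hd : 3 ≤ d) :
    32 * ((d : ℝ) - 1) ≤ (2 : ℝ) ^ s8jT d ∧ (2 : ℝ) ^ s8jT d ≤ 64 * ((d : ℝ) - 1) := by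
  have hq : ((d : ℝ) - 1) = ((d - 1 : ℕ) : ℝ) := by
    rw [Nat.cast_sub (by omega)]; norm_num
  have h1 : 32 * (d - 1) < 2 ^ s8jT d := Nat.lt_pow_succ_log_self (by norm_num) _
  have h2 : 2 ^ Nat.log 2 (32 * (d - 1)) ≤ 32 * (d - 1) := Nat.pow_log_le_self 2 (by omega)
  have h3 : 2 ^ s8jT d ≤ 64 * (d - 1) := by
    unfold s8jT
    rw [pow_succ]
    omega
  rw [hq]
  constructor
  · exact_mod_cast h1.le
  · exact_mod_cast h3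

/-- `x_T = 2^jT δ₀ ∈ [2 E, 10.4 E]` -/
theorem s8a_xT (d : ℕ) (hd : 3 ≤ d) (n : ℕ) (hn : 1 ≤ n) :
    2 * parE n ≤ (((2 : ℚ) ^ s8jT d * delta0 d n : ℚ) : ℝ) ∧
      (((2 : ℚ) ^ s8jT d * delta0 d n : ℚ) : ℝ) ≤ 52 / 5 * parE n := by
  have hd' : (3 : ℝ) ≤ (d : ℝ) := by exact_mod_cast hd
  obtain ⟨hδ1, hδ2⟩ := parF_delta0_bounds d hd n hn
  obtain ⟨hj1, hj2⟩ := s8a_jT d hd
  have hE0 := parF_parE_pos n hn
  have hδ0 : (0 : ℝ) < ((delta0 d n : ℚ) : ℝ) := by exact_mod_cast parF_delta0_pos d hd n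
  have hq0 : (0 : ℝ) < (d : ℝ) - 1 := by linarith
  push_cast
  constructor
  · calc 2 * parE n = 32 * ((d : ℝ) - 1) * (parE n / (16 * ((d : ℝ) - 1))) := by
          field_simp; norm_num
      _ ≤ (2 : ℝ) ^ s8jT d * ((delta0 d n : ℚ) : ℝ) := mul_le_mul hj1 hδ1 (by positivity) (by positivity)
  · calc (2 : ℝ) ^ s8jT d * ((delta0 d n : ℚ) : ℝ)
        ≤ 64 * ((d : ℝ) - 1) * (13 / 10 * parE n / (8 * ((d : ℝ) - 1))) :=
          mul_le_mul hj2 hδ2 hδ0.le (by linarith)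
      _ = 52 / 5 * parE n := by field_simp; norm_num

/-- the real scale `n^{-1/3+50a}`. -/
noncomputable def s8aF (n : ℕ) : ℝ := (n : ℝ) ^ (-(1 / 3 : ℝ) + 50 * (aa : ℝ))

theorem s8a_F_pos (n : ℕ) (hn : 1 ≤ n) : 0 < s8aF n := by
  have : (0 : ℝ) < (n : ℝ) := by exact_mod_cast hn
  unfold s8aF; positivity

theorem s8a_F_sq (n : ℕ) : s8aF n ^ 2 = (n : ℝ) ^ (-(2 / 3 : ℝ) + 100 * (aa : ℝ)) := by
  unfold s8aF
  rw [← Real.rpow_natCast, ← Real.rpow_mul (by positivity)]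
  congr 1
  push_cast
  ring

theorem s8a_jB (n : ℕ) (hn : 1 ≤ n) :
    (n : ℝ) ^ (99 / 2 * (aa : ℝ)) / 4 ≤ (2 : ℝ) ^ s8jB n ∧ (2 : ℝ) ^ s8jB n ≤ (n : ℝ) ^ (99 / 2 * (aa : ℝ)) := by
  have hx : (0 : ℚ) ≤ 99 / 2 * aa := by unfold aa; norm_num
  have hc : (((99 / 2 * aa : ℚ)) : ℝ) = 99 / 2 * (aa : ℝ) := by push_cast; ring
  have h1 := le_scQ_of_nonneg _ hx n hn
  have h2 := scQ_le_of_nonneg _ hx n hn
  have h3 : (2 : ℝ) ^ s8jB n = ((scQ (99 / 2 * aa) n : ℚ) : ℝ) := by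
    rw [← scN_cast _ hx n]
    unfold scN s8jB
    push_cast
    rfl
  rw [hc] at h1 h2
  rw [h3]
  refine ⟨le_trans ?_ h1, h2⟩
  have h4 : (2 : ℝ) ^ (99 / 2 * (aa : ℝ) + 1) ≤ 4 := by
    have : (2 : ℝ) ^ (99 / 2 * (aa : ℝ) + 1) ≤ (2 : ℝ) ^ (2 : ℝ) :=
      Real.rpow_le_rpow_of_exponent_le (by norm_num) (by rw [parF_aa]; norm_num)
    refine this.trans (le_of_eq ?_)
    rw [Real.rpow_two]; norm_num
  exact div_le_div_of_nonneg_left (by positivity) (by positivity) h4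

theorem s8a_F_eq (n : ℕ) (hn : 1 ≤ n) : (n : ℝ) ^ (99 / 2 * (aa : ℝ)) * parE n = s8aF n := by
  have hn0 : (0 : ℝ) < (n : ℝ) := by exact_mod_cast hn
  unfold parE s8aF
  rw [← Real.rpow_add hn0]
  congr 1
  ring

/-- `x_B = 2^jB δ₀ ∈ [F/(64 q), 13 F/(80 q)]` -/
theorem s8a_xB (d : ℕ) (hd : 3 ≤ d) (n : ℕ) (hn : 1 ≤ n) :
    s8aF n / (64 * ((d : ℝ) - 1)) ≤ (((2 : ℚ) ^ s8jB n * delta0 d n : ℚ) : ℝ) ∧
      (((2 : ℚ) ^ s8jB n * delta0 d n : ℚ) : ℝ) ≤ 13 / 80 * s8aF n / ((d : ℝ) - 1) := by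
  have hd' : (3 : ℝ) ≤ (d : ℝ) := by exact_mod_cast hd
  obtain ⟨hδ1, hδ2⟩ := parF_delta0_bounds d hd n hn
  obtain ⟨hj1, hj2⟩ := s8a_jB n hn
  have hE0 := parF_parE_pos n hn
  have hδ0 : (0 : ℝ) < ((delta0 d n : ℚ) : ℝ) := by exact_mod_cast parF_delta0_pos d hd n
  have hn0 : (0 : ℝ) < (n : ℝ) := by exact_mod_cast hn
  have hq0 : (0 : ℝ) < (d : ℝ) - 1 := by linarith
  push_cast
  rw [← s8a_F_eq n hn]
  constructor
  · calc (n : ℝ) ^ (99 / 2 * (aa : ℝ)) * parE n / (64 * ((d : ℝ) - 1))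
        = (n : ℝ) ^ (99 / 2 * (aa : ℝ)) / 4 * (parE n / (16 * ((d : ℝ) - 1))) := by
          field_simp; norm_num
      _ ≤ (2 : ℝ) ^ s8jB n * ((delta0 d n : ℚ) : ℝ) := mul_le_mul hj1 hδ1 (by positivity) (by positivity)
  · calc (2 : ℝ) ^ s8jB n * ((delta0 d n : ℚ) : ℝ)
        ≤ (n : ℝ) ^ (99 / 2 * (aa : ℝ)) * (13 / 10 * parE n / (8 * ((d : ℝ) - 1))) :=
          mul_le_mul hj2 hδ2 hδ0.le (by positivity)
      _ = 13 / 80 * ((n : ℝ) ^ (99 / 2 * (aa : ℝ)) * parE n) / ((d : ℝ) - 1) := by field_simp; norm_num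


theorem s8a_zfun_cast (d : ℕ) (h : ℚ) : ((zfun d h : ℚ) : ℝ) = zfun d ((h : ℚ) : ℝ) := by
  unfold zfun; push_cast; ring

/-- the point `sA = z(rhoQ)` -/
theorem s8a_sA (d : ℕ) (hd : 3 ≤ d) (n : ℕ) (hn : 8 * d ≤ n) :
    s8s d ≤ zfun d ((rhoQ d n : ℚ) : ℝ) ∧ zfun d ((rhoQ d n : ℚ) : ℝ) ≤ s8s d + 1 / n := by
  obtain ⟨hr1, hr2⟩ := parF_sqrtq d hd
  have hd' : (3 : ℝ) ≤ (d : ℝ) := by exact_mod_cast hd
  have hn' : 8 * (d : ℝ) ≤ (n : ℝ) := by exact_mod_cast hn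
  have hn1 : (1 : ℝ) ≤ (n : ℝ) := by linarith
  have hn0 : (0 : ℝ) < (n : ℝ) := by linarith
  obtain ⟨hρ1, hρ2⟩ := rhoQ_bounds d hd n (by omega)
  generalize ((rhoQ d n : ℚ) : ℝ) = ρ at hρ1 hρ2 ⊢
  have hpow : (n : ℝ) ≤ (n : ℝ) ^ 19 := le_self_pow₀ hn1 (by norm_num)
  have hrq : Real.sqrt ((d : ℝ) - 1) ≤ (d : ℝ) - 1 := by nlinarith
  -- `w = 1 - r ρ ∈ (0, 4 r / n^20]`
  have hw0 : 0 < 1 - Real.sqrt ((d : ℝ) - 1) * ρ := by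
    rw [lt_div_iff₀ (by linarith)] at hρ1
    linarith
  have hw1 : 1 - Real.sqrt ((d : ℝ) - 1) * ρ ≤ 4 * Real.sqrt ((d : ℝ) - 1) / (n : ℝ) ^ 20 := by
    have := mul_le_mul_of_nonneg_left hρ2 (by linarith : (0 : ℝ) ≤ Real.sqrt ((d : ℝ) - 1))
    have e : Real.sqrt ((d : ℝ) - 1) * (1 / Real.sqrt ((d : ℝ) - 1) - 4 / (n : ℝ) ^ 20)
        = 1 - 4 * Real.sqrt ((d : ℝ) - 1) / (n : ℝ) ^ 20 := by
      field_simp
    linarith
  have hw2 : 4 * Real.sqrt ((d : ℝ) - 1) / (n : ℝ) ^ 20 ≤ 1 / (2 * Real.sqrt ((d : ℝ) - 1) * n) := by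
    rw [div_le_div_iff₀ (by positivity) (by positivity)]
    have h1 : 8 * Real.sqrt ((d : ℝ) - 1) ^ 2 ≤ (n : ℝ) ^ 19 := by rw [hr2]; linarith
    calc 4 * Real.sqrt ((d : ℝ) - 1) * (2 * Real.sqrt ((d : ℝ) - 1) * n)
        = 8 * Real.sqrt ((d : ℝ) - 1) ^ 2 * n := by ring
      _ ≤ (n : ℝ) ^ 19 * n := mul_le_mul_of_nonneg_right h1 hn0.le
      _ = 1 * (n : ℝ) ^ 20 := by ring
  have hw3 := hw1.trans hw2
  have hw4 : 1 / (2 * Real.sqrt ((d : ℝ) - 1) * n) ≤ 1 / 2 := by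
    rw [div_le_div_iff₀ (by positivity) (by norm_num)]
    nlinarith
  have hρ0 : 0 < ρ := by
    by_contra hcon
    push Not at hcon
    nlinarith
  have hsub := s8_zfun_sub d hd ρ hρ0.ne'
  generalize Real.sqrt ((d : ℝ) - 1) = r at hr1 hw0 hw3 hw4 hsub
  have hrρ : r * ρ = 1 - (1 - r * ρ) := by ring
  generalize 1 - r * ρ = w at hw0 hw3 hrρ hsub
  constructor
  · have : 0 ≤ w ^ 2 / ρ := by positivity
    linarith
  · have : w ^ 2 / ρ ≤ 1 / n := by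
      rw [div_le_div_iff₀ hρ0 hn0]
      -- `w² n ≤ ρ`;  `w n ≤ 1/(2 r)`, `w ≤ 1/2`, `ρ ≥ 1/(2r)`
      have h1 : w * (2 * r * n) ≤ 1 := by
        rwa [le_div_iff₀ (by positivity)] at hw3
      have h2 : w ≤ 1 / 2 := hw3.trans hw4
      have h3 : 1 / 2 ≤ r * ρ := by rw [hrρ]; linarith
      have h4 : w ^ 2 * n * (2 * r) ≤ 1 * ρ * (2 * r) := by
        calc w ^ 2 * n * (2 * r) = w * (w * (2 * r * n)) := by ring
          _ ≤ w * 1 := mul_le_mul_of_nonneg_left h1 hw0.le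
          _ ≤ 1 * ρ * (2 * r) := by nlinarith
      exact le_of_mul_le_mul_right h4 (by linarith)
    linarith

/-- the threshold -/
theorem s8a_thr (n : ℕ) (hn : 1 ≤ n) (hbig : 4 ≤ (n : ℝ) ^ (2 / 1000 : ℝ)) :
    2 * (n : ℝ) ^ (-(24 / 1000 : ℝ)) ≤ ((scQ (-(22 / 1000)) n : ℚ) : ℝ) ∧
      ((scQ (-(22 / 1000)) n : ℚ) : ℝ) ≤ (n : ℝ) ^ (-(20 / 1000 : ℝ)) := by
  have hn0 : (0 : ℝ) < (n : ℝ) := by exact_mod_cast hn
  have hc : (((-(22 / 1000) : ℚ)) : ℝ) = -(22 / 1000 : ℝ) := by push_cast; ring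
  have h1 := le_scQ_of_nonpos (-(22 / 1000)) (by norm_num) n hn
  have h2 := parF_scQ_neg_le (-(22 / 1000)) (by norm_num) (by norm_num) n hn
  rw [hc] at h1 h2
  have e1 : (n : ℝ) ^ (-(24 / 1000 : ℝ)) * (n : ℝ) ^ (2 / 1000 : ℝ) = (n : ℝ) ^ (-(22 / 1000 : ℝ)) := by
    rw [← Real.rpow_add hn0]; congr 1; norm_num
  have e2 : (n : ℝ) ^ (-(22 / 1000 : ℝ)) * (n : ℝ) ^ (2 / 1000 : ℝ) = (n : ℝ) ^ (-(20 / 1000 : ℝ)) := by
    rw [← Real.rpow_add hn0]; congr 1; norm_num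
  have p1 : 0 < (n : ℝ) ^ (-(24 / 1000 : ℝ)) := by positivity
  have p2 : 0 < (n : ℝ) ^ (-(22 / 1000 : ℝ)) := by positivity
  constructor
  · refine le_trans ?_ h1
    rw [← e1]
    nlinarith
  · refine h2.trans ?_
    rw [← e2]
    nlinarith

theorem s8a_fin_T (q r E xT w : ℝ) (hq2 : 2 ≤ q) (hr1 : 1 < r) (hrq : r ≤ q) (hE0 : 0 < E)
    (hxT1 : 2 * E ≤ xT) (hxT2 : xT ≤ 52 / 5 * E) (cT1 : xT ^ 2 * r ≤ w) (cT2 : w ≤ 121 / 50 * xT ^ 2 * r) :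
    2 * E ^ 2 ≤ w ∧ w ≤ 5000 * q ^ 2 * E ^ 2 := by
  constructor
  · refine le_trans ?_ cT1
    have h1 : (2 * E) ^ 2 ≤ xT ^ 2 := pow_le_pow_left₀ (by positivity) hxT1 2
    have h2 : xT ^ 2 * 1 ≤ xT ^ 2 * r := mul_le_mul_of_nonneg_left hr1.le (by positivity)
    nlinarith
  · refine cT2.trans ?_
    have h1 : xT ^ 2 ≤ (52 / 5 * E) ^ 2 := pow_le_pow_left₀ (by linarith) hxT2 2
    have h2 : r ≤ q ^ 2 := by nlinarith
    calc 121 / 50 * xT ^ 2 * r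
        ≤ 121 / 50 * (52 / 5 * E) ^ 2 * q ^ 2 :=
          mul_le_mul (by linarith) h2 (by linarith) (by positivity)
      _ ≤ 5000 * q ^ 2 * E ^ 2 := by
          have : 0 ≤ q ^ 2 * E ^ 2 := by positivity
          nlinarith

theorem s8a_fin_B (q r F xB w : ℝ) (hq2 : 2 ≤ q) (hr1 : 1 < r) (hrq : r ≤ q) (hF0 : 0 < F)
    (hxB1 : F / (64 * q) ≤ xB) (hxB3 : xB ≤ 13 / 160 * F) (cB1 : xB ^ 2 * r ≤ w)
    (cB2 : w ≤ 121 / 50 * xB ^ 2 * r) :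
    F ^ 2 / (5000 * q ^ 2) ≤ w ∧ w ≤ 5000 * q ^ 2 * F ^ 2 := by
  constructor
  · refine le_trans ?_ cB1
    have h1 : (F / (64 * q)) ^ 2 ≤ xB ^ 2 := pow_le_pow_left₀ (by positivity) hxB1 2
    have h2 : xB ^ 2 * 1 ≤ xB ^ 2 * r := mul_le_mul_of_nonneg_left hr1.le (by positivity)
    have h3 : F ^ 2 / (5000 * q ^ 2) ≤ (F / (64 * q)) ^ 2 := by
      rw [div_pow]
      refine div_le_div_of_nonneg_left (by positivity) (by positivity) ?_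
      nlinarith [sq_nonneg q]
    linarith
  · refine cB2.trans ?_
    have hxB0 : 0 ≤ xB := le_trans (by positivity) hxB1
    have h1 : xB ^ 2 ≤ (13 / 160 * F) ^ 2 := pow_le_pow_left₀ hxB0 hxB3 2
    have h2 : r ≤ q ^ 2 := by nlinarith
    calc 121 / 50 * xB ^ 2 * r
        ≤ 121 / 50 * (13 / 160 * F) ^ 2 * q ^ 2 :=
          mul_le_mul (by linarith) h2 (by linarith) (by positivity)
      _ ≤ 5000 * q ^ 2 * F ^ 2 := by
          have : 0 ≤ q ^ 2 * F ^ 2 := by positivity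
          nlinarith

/-- uses the FACTS of `Params.lean` (`prim_dist`, `rhoQ_bounds`, bounds of `scQ`, `scN_cast`).
`1/h ∈ (√q, 2√q]`, `(2^jT δ₀)² ∈ [4 e, 103 e]`, `(2^jB δ₀)² ≍ n^(-2/3+100a)/q²`. -/
theorem s8Par_ok (d : ℕ) (hd : 3 ≤ d) :
    ∃ C1 : ℝ, 1 ≤ C1 ∧ ∀ᶠ n : ℕ in atTop, S8ParOK n d (s8Par d n).toReal C1 := by
  obtain ⟨hr1, hr2⟩ := parF_sqrtq d hd
  have hd' : (3 : ℝ) ≤ (d : ℝ) := by exact_mod_cast hd
  have hq2 : (2 : ℝ) ≤ (d : ℝ) - 1 := by linarith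
  have hrq : Real.sqrt ((d : ℝ) - 1) ≤ (d : ℝ) - 1 := by nlinarith
  have hC : (20000 : ℝ) ≤ 5000 * ((d : ℝ) - 1) ^ 2 := by nlinarith
  refine ⟨5000 * ((d : ℝ) - 1) ^ 2, by linarith, ?_⟩
  filter_upwards [eventually_ge_atTop (8 * d), prim_dist d hd,
    parF_ev_small (-(1 / 3 : ℝ) + (aa : ℝ) / 2) (by rw [parF_aa]; norm_num) (1 / 42) (by norm_num),
    parF_ev_small (-(1 / 3 : ℝ) + 50 * (aa : ℝ)) (by rw [parF_aa]; norm_num) (1 / 4) (by norm_num),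
    parF_ev_large (2 / 1000) (by norm_num) 4] with n hn hdist hE hF hbig
  have hn1 : 1 ≤ n := by omega
  have hn2 : 2 ≤ n := by omega
  have hn0 : (0 : ℝ) < (n : ℝ) := by exact_mod_cast hn1
  have hE' : parE n ≤ 1 / 42 := hE
  have hF' : s8aF n ≤ 1 / 4 := hF
  have hE0 := parF_parE_pos n hn1
  have hF0 := s8a_F_pos n hn1
  obtain ⟨hxT1, hxT2⟩ := s8a_xT d hd n hn1
  obtain ⟨hxB1, hxB2⟩ := s8a_xB d hd n hn1
  have hxB3 : (((2 : ℚ) ^ s8jB n * delta0 d n : ℚ) : ℝ) ≤ 13 / 160 * s8aF n := by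
    refine hxB2.trans ?_
    rw [div_le_iff₀ (by linarith)]
    nlinarith
  have hTle : (((2 : ℚ) ^ s8jT d * delta0 d n : ℚ) : ℝ) ≤ 1 / 4 := by linarith
  have hBle : (((2 : ℚ) ^ s8jB n * delta0 d n : ℚ) : ℝ) ≤ 1 / 4 := by linarith
  have hTQ : (2 : ℚ) ^ s8jT d * delta0 d n ≤ 1 := by
    have : (((2 : ℚ) ^ s8jT d * delta0 d n : ℚ) : ℝ) ≤ ((1 : ℚ) : ℝ) := by
      rw [Rat.cast_one]; linarith
    exact (Rat.cast_le (K := ℝ)).1 this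
  have hBQ : (2 : ℚ) ^ s8jB n * delta0 d n ≤ 1 := by
    have : (((2 : ℚ) ^ s8jB n * delta0 d n : ℚ) : ℝ) ≤ ((1 : ℚ) : ℝ) := by
      rw [Rat.cast_one]; linarith
    exact (Rat.cast_le (K := ℝ)).1 this
  obtain ⟨hT1, hT2⟩ := hdist _ hTQ
  obtain ⟨hB1, hB2⟩ := hdist _ hBQ
  obtain ⟨cT1, cT2⟩ := s8a_core d hd _ _ _ (by linarith) hTle (parF_inv_pow19 n hn2) hT1 hT2
  obtain ⟨cB1, cB2⟩ := s8a_core d hd _ _ _
    (lt_of_lt_of_le (by positivity) hxB1) hBle (parF_inv_pow19 n hn2) hB1 hB2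
  obtain ⟨sA1, sA2⟩ := s8a_sA d hd n hn
  obtain ⟨th1, th2⟩ := s8a_thr n hn1 hbig
  have ewT : (s8Par d n).toReal.wT d = zfun d ((prim d n (s8jT d) : ℚ) : ℝ) - s8s d := by
    rw [← s8a_zfun_cast]; rfl
  have ewB : (s8Par d n).toReal.wB d = zfun d ((prim d n (s8jB n) : ℚ) : ℝ) - s8s d := by
    rw [← s8a_zfun_cast]; rfl
  have esA : (s8Par d n).toReal.sA = zfun d ((rhoQ d n : ℚ) : ℝ) := by
    rw [← s8a_zfun_cast]; rfl
  have ethr : (s8Par d n).toReal.thr = ((scQ (-(22 / 1000)) n : ℚ) : ℝ) := rfl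
  have ekap : (s8Par d n).toReal.kap = ((scQ (-(1 / 3) + 4 / 10 * aa) n : ℚ) : ℝ) := rfl
  have eM : (((s8Par d n).toReal.M : ℕ) : ℝ) = ((scQ (1 / 3 + 10 * aa) n : ℚ) : ℝ) := by
    rw [← scN_cast _ (by unfold aa; norm_num) n]
    push_cast
    rfl
  generalize (((2 : ℚ) ^ s8jT d * delta0 d n : ℚ) : ℝ) = xT at hxT1 hxT2 cT1 cT2
  generalize (((2 : ℚ) ^ s8jB n * delta0 d n : ℚ) : ℝ) = xB at hxB1 hxB3 cB1 cB2
  have fT := s8a_fin_T _ _ _ _ _ hq2 hr1 hrq hE0 hxT1 hxT2 cT1 cT2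
  have fB := s8a_fin_B _ _ _ _ _ hq2 hr1 hrq hF0 hxB1 hxB3 cB1 cB2
  refine ⟨?_, ?_, ?_, ?_, ?_, ?_, ?_, ?_, ?_, ?_, ?_, ?_, ?_⟩
  · rw [ewT, ← parF_parE_sq]; exact fT.1
  · rw [ewT, ← parF_parE_sq]; exact fT.2
  · rw [ewB, ← s8a_F_sq]; exact fB.1
  · rw [ewB, ← s8a_F_sq]; exact fB.2
  · rw [esA]; exact sA1
  · rw [esA]; exact sA2
  · rw [ethr]; exact th1
  · rw [ethr]; exact th2
  · rw [ekap]
    have hc : (((-(1 / 3) + 4 / 10 * aa : ℚ)) : ℝ) = -(1 / 3 : ℝ) + 4 / 10 * (aa : ℝ) := by push_cast; ring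
    have h1 := le_scQ_of_nonpos (-(1 / 3) + 4 / 10 * aa) (by unfold aa; norm_num) n hn1
    rw [hc] at h1
    refine le_trans ?_ h1
    exact div_le_div_of_nonneg_left (by positivity) (by norm_num) (by linarith)
  · rw [ekap]
    have hc : (((-(1 / 3) + 4 / 10 * aa : ℚ)) : ℝ) = -(1 / 3 : ℝ) + 4 / 10 * (aa : ℝ) := by push_cast; ring
    have h1 := parF_scQ_neg_le (-(1 / 3) + 4 / 10 * aa) (by unfold aa; norm_num) (by unfold aa; norm_num) n hn1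
    rw [hc] at h1
    refine h1.trans ?_
    exact mul_le_mul_of_nonneg_right (by linarith) (by positivity)
  · rw [eM]
    have hc : (((1 / 3 + 10 * aa : ℚ)) : ℝ) = (1 / 3 : ℝ) + 10 * (aa : ℝ) := by push_cast; ring
    have h1 := le_scQ_of_nonneg (1 / 3 + 10 * aa) (by unfold aa; norm_num) n hn1
    rw [hc] at h1
    refine le_trans ?_ h1
    have h4 : (2 : ℝ) ^ ((1 / 3 : ℝ) + 10 * (aa : ℝ) + 1) ≤ 4 := by
      have : (2 : ℝ) ^ ((1 / 3 : ℝ) + 10 * (aa : ℝ) + 1) ≤ (2 : ℝ) ^ (2 : ℝ) :=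
        Real.rpow_le_rpow_of_exponent_le (by norm_num) (by rw [parF_aa]; norm_num)
      refine this.trans (le_of_eq ?_)
      rw [Real.rpow_two]; norm_num
    exact div_le_div_of_nonneg_left (by positivity) (by positivity) (by linarith)
  · rw [eM]
    have hc : (((1 / 3 + 10 * aa : ℚ)) : ℝ) = (1 / 3 : ℝ) + 10 * (aa : ℝ) := by push_cast; ring
    have h1 := scQ_le_of_nonneg (1 / 3 + 10 * aa) (by unfold aa; norm_num) n hn1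
    rw [hc] at h1
    refine h1.trans ?_
    exact le_mul_of_one_le_left (by positivity) (by linarith)
  · exact le_refl _

/-- both points are primaries of the tracked list -/
theorem s8_prim_mem (d : ℕ) (hd : 3 ≤ d) (cp : ℚ) (hcp : 0 < cp) (hcp' : cp ≤ 1 / 4) :
    ∀ᶠ n : ℕ in atTop, s8hT d n ∈ primList d n cp ∧ s8hB d n ∈ primList d n cp := by
  have hd' : (3 : ℝ) ≤ (d : ℝ) := by exact_mod_cast hd
  have hcpR : (0 : ℝ) < (cp : ℝ) := by exact_mod_cast hcp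
  filter_upwards [eventually_ge_atTop 1, Nprim_spec d hd cp hcp hcp',
    parF_ev_small (-(1 / 3 : ℝ) + (aa : ℝ) / 2) (by rw [parF_aa]; norm_num) ((cp : ℝ) / 21) (by positivity),
    parF_ev_small (-(1 / 3 : ℝ) + 50 * (aa : ℝ)) (by rw [parF_aa]; norm_num) ((cp : ℝ) / 2) (by positivity)]
    with n hn hspec hE hF
  have hE' : parE n ≤ (cp : ℝ) / 21 := hE
  have hF' : s8aF n ≤ (cp : ℝ) / 2 := hF
  have hF0 := s8a_F_pos n hn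
  have hδ0 := parF_delta0_pos d hd n
  obtain ⟨-, hxT2⟩ := s8a_xT d hd n hn
  obtain ⟨-, hxB2⟩ := s8a_xB d hd n hn
  have key : ∀ j : ℕ, (((2 : ℚ) ^ j * delta0 d n : ℚ) : ℝ) ≤ (cp : ℝ) / 2 → prim d n j ∈ primList d n cp := by
    intro j hj
    have h1 : (2 : ℚ) ^ j * delta0 d n ≤ cp / 2 := by
      have : (((2 : ℚ) ^ j * delta0 d n : ℚ) : ℝ) ≤ ((cp / 2 : ℚ) : ℝ) := by
        push_cast at hj ⊢; exact hj
      exact (Rat.cast_le (K := ℝ)).1 this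
    have h2 : (2 : ℚ) ^ j * delta0 d n < 2 ^ Nprim d n cp * delta0 d n := lt_of_le_of_lt h1 hspec.1
    have h3 : (2 : ℚ) ^ j < 2 ^ Nprim d n cp := lt_of_mul_lt_mul_right h2 hδ0.le
    have h4 : j < Nprim d n cp := (pow_lt_pow_iff_right₀ (by norm_num)).1 h3
    unfold primList
    exact List.mem_map.2 ⟨j, List.mem_range.2 (by omega), rfl⟩
  constructor
  · exact key _ (by linarith)
  · refine key _ (hxB2.trans ?_)
    rw [div_le_iff₀ (by linarith)]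
    nlinarith

/-- **the repair stage, final form** (`RepairThm` of `Top.lean`); `C0` may depend on `n`, `1 ≤ C0 ≤ n^(a/20)` -/
theorem s8_repair_thm (d : ℕ) (hd : 3 ≤ d) :
    ∀ᶠ n : ℕ in atTop, ∀ C0 : ℝ, 1 ≤ C0 → C0 ≤ (n : ℝ) ^ ((aa : ℝ) / 20) → ∀ π : PPair n d,
      π.S8Hyp (s8Par d n).toReal (eR n) C0 (C0 * (n : ℝ) ^ (-(1 / 10 : ℝ))) ((n : ℝ) ^ (-(24 / 1000 : ℝ))) →
      (π.s8Repair (s8Par d n)).Complete ∧ (π.s8Repair (s8Par d n)).IsSimple ∧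
        ∀ v : Fin n → ℝ, ∑ p, v p = 0 → v ≠ 0 →
          |v ⬝ᵥ ((π.s8Repair (s8Par d n)).adjM ℝ).mulVec v| < 2 * Real.sqrt ((d : ℝ) - 1) * (v ⬝ᵥ v) := by
  obtain ⟨C1, hC1, hok⟩ := s8Par_ok d hd
  filter_upwards [hok, s8_asym d hd C1 hC1, eventually_ge_atTop 1] with n h1 h2 h3 C0 hC0 hC0' π hh
  refine PPair.s8_repair π (s8Par d n) ?_ (fun P hP hP1 _ => h2 C0 hC0 hC0' _ h1 P hP hP1) hh
  show n ^ 5 ≠ 0
  positivity

end Claimed.Agent.R275
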