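import Claimed.Agent.R275.S7RefIface
import Claimed.Agent.R275.S8Asym
import Claimed.Agent.R275.S44B

/-!
# Row 275, Sec 8.1 (`repair.tex` l. 1-275: Lemma 8.1, "Verifying the reference derivative", Lemma 8.2): DEFINITIONS and INTERFACE.
Owner: helper51.  Prefix `s81`.  No sorry.

GOAL of Sec 8.1 (`S81Main.lean`): the output of Sec 7 (`S81In`) implies the hypothesis `PPair.S8Hyp` of the repair theorem.

DESIGN (differs from the paper; every step re-derived by hand).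
* NO DERIVATIVES.  Only TWO-POINT bounds at two consecutive primaries `h₂ = prim (j+1) < h₁ = prim j`.
* (8.62) at `z₂ = z(h₂)`:  `[R(z₂)²]_pp ≤ (R(z₁) - R(z₂))_pp / (z₂ - z₁)`  (matrix proof, `S81Res`), `R(z(h)) = m_h W(h)`,
  `|W - P̂fin| ≤ β` entrywise (Prop 7.1), `|m_{h₁} P̂fin(h₁)_pp - m_{h₂} P̂fin(h₂)_pp| ≤ CL (h₁ - h₂)`.
* THE CONSTANT `C0` OF THE REPAIR THEOREM IS ALLOWED TO BE `n^(a/20)`.  So `CL` may be POLYLOGARITHMIC and the Lipschitz bound needs operator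
  norms only: `‖P̂₀‖ ≤ B = 6 (1+L)³`, `‖P̂₀(h₁) - P̂₀(h₂)‖ ≤ Λ (h₁ - h₂)` (both from (4.7) = `s44b_taper_opLE`), `‖Ξ₀‖ ≤ 1`, `‖D̂₀‖ ≤ 1/8` ((7.40)),
  `‖H_f‖ ≤ 1`, `‖P_f‖ ≤ 1` and the EXACT identity `H - H' = (1 - H D)(A - A' + A (D' - D) A')(1 - D' H')`.
  Neither (7.41)/(7.43) nor any `h`-derivative of the objects of Sec 7 is used.
* typical edge blocks (Lemma 8.2, second half) at `h = s8hB`: as in the paper.
-/

set_option autoImplicit false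

namespace Claimed.Agent.R275

open Matrix

/-! ## radii, points, constants -/

/-- the return radius `r_n`: `q^(r-2) ≤ n^.08 < 2^1.08 q^(r-1)` -/
def s81r (d n : ℕ) : ℕ := Nat.log (d - 1) (scN (8 / 100) n) + 2

/-- the `j`-th primary as a real number -/
noncomputable def s81h (d n j : ℕ) : ℝ := ((prim d n j : ℚ) : ℝ)

/-- the gap `w_j = z(h_j) - s` -/
noncomputable def s81w (d n j : ℕ) : ℝ := zfun d (s81h d n j) - s8s d

/-- bound of `‖P̂₀‖` -/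
noncomputable def s81B (L : ℕ) : ℝ := 6 * (1 + (L : ℝ)) ^ 3

/-- Lipschitz constant of `h ↦ P̂₀(h)` on `[1/(2√q), 1/√q]` -/
noncomputable def s81Lam (d L : ℕ) : ℝ := 2 * Real.sqrt ((d : ℝ) - 1) * L * s81B L

/-- Lipschitz constant of `h ↦ P̂fin(h)` -/
noncomputable def s81LipF (B Λ : ℝ) : ℝ := Λ + 2 * B * Λ + 2 * B ^ 2 * (1 + Λ)

/-- Lipschitz constant of `h ↦ m_h P̂fin(h)` -/
noncomputable def s81CL (B Λ : ℝ) : ℝ := 6 * (B + B ^ 2) + 2 * s81LipF B Λ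

/-- the constant `C0` of the repair theorem -/
noncomputable def s81C0 (n : ℕ) : ℝ := (n : ℝ) ^ ((aa : ℝ) / 20)

/-- threshold of the squared row norms -/
noncomputable def s81tau (n : ℕ) : ℝ := (n : ℝ) ^ (-(3 / 100 : ℝ))

/-! ## the interface with Sec 7 -/

section Iface

variable {n d : ℕ}

/-- EXACTLY what Sec 8.1 uses at one signed parameter `(σ, h)`;  `X = P̂₀(σ, h)`, `β` = final entry error. -/
structure S81At (π₀ π : PPair n d) (σ h : ℝ) (X : Matrix (Fin n) (Fin n) ℝ) (β : ℝ) : Prop where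
  /-- final positivity (Prop 7.1) -/
  pos : PosOn1 (π.Mmat σ h)
  /-- (7.40), weak form -/
  opD : s7opLE (s7Dof π₀ X) (1 / 8)
  /-- `S7RefAt.unit0` -/
  unit0 : IsUnit (1 + s7Dof π₀ X * s7Ht0 π₀ π σ h)
  /-- `S7RefAt.opH` -/
  opH : s7opLE (s7Ht π₀ π X σ h) 1
  /-- `StS7Aggregate` -/
  agg : s7Ref π₀ π X σ h = X - X * π₀.Xi ℝ * s7Ht π₀ π X σ h * (π₀.Xi ℝ)ᵀ * X
  /-- final entry comparison (Prop 7.1) -/
  cmp : ∀ i j, |(π.Wmat σ h - s7Ref π₀ π X σ h) i j| ≤ β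

/-- **INPUT OF SEC 8.1**: `π₀` = the separation stop, `π` = the completed pairing, `φ` = the taper. -/
structure S81In (cp : ℚ) (CM CR η : ℝ) (Rc : ℕ) (cT θ : ℝ) (π₀ π : PPair n d) (φ : ℕ → ℝ) : Prop where
  clean : π₀.CleanOut cp CM CR η Rc cT θ
  ext : π₀.Ext π
  complete : π.Complete
  simple : π.IsSimple
  /-- `StS7PtCoord` -/
  opPt : s7opLE (s7Pt π₀ π ℝ) 1
  phi1 : ∀ k, k ≤ s81r d n → φ k = 1
  phiB : ∀ k, |φ k| ≤ 1
  at_ : ∀ j, j ≤ Nprim d n cp → ∀ s : Bool,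
    S81At π₀ π (sgn s) (s81h d n j) (s7P0 π₀ φ (Lcut d n) (sgn s) (s81h d n j)) (Real.sqrt (eR n))

/-- exceptional vertices of the typical-edge estimate: a short return, or a large stop row for one of the signs -/
def s81BadV (π₀ : PPair n d) (r : ℕ) (X : Bool → Matrix (Fin n) (Fin n) ℝ) (τ : ℝ) (v : Fin n) : Prop :=
  π₀.HasRet r v ∨ ∃ s : Bool, τ < s7sq (s7row π₀ (X s) v)

/-- exceptional stubs -/
def s81BadS (π₀ π : PPair n d) (r : ℕ) (X : Bool → Matrix (Fin n) (Fin n) ℝ) (τ : ℝ) (g : Stub n d) : Prop :=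
  π₀.Unres g ∨ s81BadV π₀ r X τ g.1 ∨ s81BadV π₀ r X τ (π.oth g)

end Iface

/-- a contraction between two coordinate spaces -/
def S81Contr {ι κ : Type*} [Fintype ι] [Fintype κ] (Ξ : Matrix ι κ ℝ) : Prop :=
  (∀ y : κ → ℝ, s7sq (Ξ *ᵥ y) ≤ s7sq y) ∧ ∀ v : ι → ℝ, s7sq (Ξᵀ *ᵥ v) ≤ s7sq v

end Claimed.Agent.R275
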