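import Claimed.Agent.R275.S7FinM
import Claimed.Agent.R275.S72Sep
import Claimed.Agent.R275.S81Defs

/-!
# Row 275, Section 7, package S7-IFACE: from `CleanOut` (output of Section 6) to `S81In` (input of Section 8.1), statements

Owner of the statements: helper245.  Only `def St… : Prop`, no sorry.

ORDER OF THE CONSTANTS (contract T7 of `Top.lean`):  `d`;  `g₀ = g₀(d)` (from `StS7Main`);  `par = (g, p, cp)` with `S7ParOK d par`, `g ≤ g₀`;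
then `CM CR Rc cT` arbitrary (`cT > 0`), `0 ≤ η < g/100`, `θ < g`;  then `n` large.   The taper is `s7taper d n` (S72Sep.lean).
-/

set_option autoImplicit false
set_option linter.unusedVariables false

namespace Claimed.Agent.R275

open Matrix

/-- **S7-I-1** monotonicity of the output predicate of Lemma 7.2 in its five constants. -/
def StS7RefMono : Prop :=
  ∀ (n d : ℕ) (π₀ : PPair n d) (t0 L : ℕ) (σ h : ℝ) (P0 : Matrix (Fin n) (Fin n) ℝ)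
    (δ ρ Yb Tb βP δ' ρ' Yb' Tb' βP' : ℝ), S7RefOut π₀ t0 L σ h P0 δ ρ Yb Tb βP →
    δ ≤ δ' → 0 ≤ ρ → ρ ≤ ρ' → Yb ≤ Yb' → Tb ≤ Tb' → βP ≤ βP' →
    S7RefOut π₀ t0 L σ h P0 δ' ρ' Yb' Tb' βP'

/-- **S7-I-2** the frozen data at the stop: `CleanOut` + Lemma 7.2 (`s72_refOut`, S72Rows.lean, with `η' = (η + g/100)/2`).
Numerics: `C/R₀ ≤ 1/32`;  `n^{-.004a} ≤ ρ = scQ(-.002a)`;  `n^{η'} √q^L ≤ √(l₀ scQ(-.12a))` (`q^L ≤ n^{2/3-.43a}`);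
`n^{η'} ≤ scQ(g/100)`;  `n^{.32a}/√l₀ ≤ s7Bin`. -/
def StS7StopOf : Prop :=
  ∀ (d : ℕ) (par : S7Par), S7ParOK d par → ∀ (CM CR η : ℝ) (Rc : ℕ) (cT θ : ℝ),
    0 ≤ η → η < (par.g : ℝ) / 100 →
    ∀ᶠ n : ℕ in Filter.atTop, ∀ π₀ : PPair n d, π₀.CleanOut par.cp CM CR η Rc cT θ →
      S7Stop d n par (s7taper d n) π₀

/-- **S7-I-3** the analytic input at the stop ("The initial energy gap", (7.46)), from `CleanOut` and Lemmas 4.3-4.5.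
`pos`: caps.   `opD`: `s4c_opnorms` (`s7D = Dst`), `α(h) ≥ α_*`.   `trY`: `Y = Tr D = L₁` (`Tr Ξᵀ W Ξ = Tr 𝒟 W`), caps.
`dgT`: `D_xx = (Ξᵀ P Ξ - Π)_xx + e_x(x)`, `T ≤ 2 ∑ jmaj² + 2 T_S ≤ 4 n^{η'}` (`s43v_TAbs_self_le`, `s43v_sum_jmaj_sq_le`, `TSBd`).
`gap`: `X = Tr (Γ - Π)² = Tr K_all - 2 L₁ - (l - 1)`; (4.11) = `s45i_trace_identity`; `β = α/h²`; `TLow`: `α 𝒯 / l ≥ cT n^{-θ} α/(l/n + α) ≥ cT n^{-θ}/2`
(`l₀/n ≤ α_*`); so `h² X/(l-1) ≤ 1 - cT n^{-θ}/2 + n^{-a/2000} + (2 + 2|L₁|)/(l-1) ≤ 1 - scQ(-g)` because `θ < g < a/2000`.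
`loc`: `s45i_quad_prim` at `f = glob i`, `B₊ ⪰ 𝒟 = Ξ Ξᵀ`, `W 1 = 0`, `1 + h⁻² ≤ 4d - 3`.   `ent`: caps `hE` at global labels (`E 1 = 0`, `1ᵀ E = 0`). -/
def StS7InAtOf : Prop :=
  ∀ (d : ℕ) (par : S7Par), S7ParOK d par → ∀ (CM CR η : ℝ) (Rc : ℕ) (cT θ : ℝ),
    0 ≤ η → η < (par.g : ℝ) / 100 → θ < (par.g : ℝ) → 0 < cT →
    ∀ᶠ n : ℕ in Filter.atTop, ∀ π₀ : PPair n d, π₀.CleanOut par.cp CM CR η Rc cT θ →
      ∀ j ≤ Nprim d n par.cp, ∀ b : Bool, S7InAt d n par π₀ (sgn b) ((prim d n j : ℚ) : ℝ)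

/-- **S7-I-4** girth `≥ 3` contains simplicity (`N₁(v,v) = acount v v`; a double edge is a closed nonbacktracking walk of length 2). -/
def StS7Simple : Prop :=
  ∀ (n d : ℕ) (π : PPair n d), π.GirthGE 3 → π.IsSimple

/-- **S7-I-5** the output of Section 7 in the form of Section 8.1 (`s81At_of_ref`, `s81_opPt_of` of S81Main.lean).
Numerics: `3 ≤ g₀`;  `s81r ≤ (1 - 10⁻⁶) L` (`s7taper_eq_one`);  `350 B_B ≤ √(e_R)` (`B_B ≤ n^{-1/3+.325a+g}`). -/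
def StS7OutTo : Prop :=
  ∀ (d : ℕ) (par : S7Par), S7ParOK d par → ∀ (CM CR η : ℝ) (Rc : ℕ) (cT θ : ℝ),
    ∀ᶠ n : ℕ in Filter.atTop, ∀ π₀ π : PPair n d, π₀.CleanOut par.cp CM CR η Rc cT θ →
      S7Stop d n par (s7taper d n) π₀ → S7Fin d n par (s7taper d n) 350 π₀ π →
      S81In par.cp CM CR η Rc cT θ π₀ π (fun k => ((s7taper d n k : ℚ) : ℝ))

/-- **CONTRACT T7**: Section 7 as a stage of the pipeline. -/
def StS7T7 : Prop :=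
  ∀ d : ℕ, 3 ≤ d → ∃ g₀ : ℚ, 0 < g₀ ∧ ∀ par : S7Par, S7ParOK d par → par.g ≤ g₀ →
    ∀ (CM CR η : ℝ) (Rc : ℕ) (cT θ : ℝ), 0 ≤ η → η < (par.g : ℝ) / 100 → θ < (par.g : ℝ) → 0 < cT →
    ∀ᶠ n : ℕ in Filter.atTop, ∀ π₀ : PPair n d, π₀.CleanOut par.cp CM CR η Rc cT θ →
      S81In par.cp CM CR η Rc cT θ π₀ (s7run d n par (s7taper d n) π₀)
        (fun k => ((s7taper d n k : ℚ) : ℝ))

/-- T7 from its four parts. -/
theorem s7_t7 (hM : StS7Main) (hS : StS7StopOf) (hI : StS7InAtOf) (hO : StS7OutTo) : StS7T7 := by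
  intro d hd
  obtain ⟨g₀, hg₀, H⟩ := hM d hd
  refine ⟨g₀, hg₀, fun par hpar hg CM CR η Rc cT θ h0 h1 h2 h3 => ?_⟩
  filter_upwards [H par hpar hg, hS d par hpar CM CR η Rc cT θ h0 h1,
    hI d par hpar CM CR η Rc cT θ h0 h1 h2 h3, hO d par hpar CM CR η Rc cT θ] with n a b c e π₀ hc
  exact e π₀ _ hc (b π₀ hc) (a _ π₀ ⟨b π₀ hc, c π₀ hc⟩)

end Claimed.Agent.R275
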