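import Claimed.Agent.R275.S7Acc

/-!
# Row 275, Section 7: input predicate, invariants (caps) of Phases A and B, output predicate

Owner: helper245.  DEFINITIONS ONLY.   All caps are over `ℝ`; every scale is one of the rational scales of `S7Acc.lean`, cast to `ℝ`.

* `S7Stop`  : what is frozen at the stop `π₀` (size, separation, output of Lemma 7.2 at all primaries and signs).
* `S7InAt`, `S7In` : the analytic input at the stop (consequences of `CleanOut` and of Lemmas 4.3-4.5; text "The initial energy gap").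
* `S7CapA`, `S7InvA` : (7.47).      `S7CapB`, `S7InvB` : the display at the beginning of §7.5.
* `S7Out` is the type of output labels (S7Acc); the OUTPUT PREDICATE of the section is `S7Fin`.
-/

set_option autoImplicit false
set_option linter.unusedVariables false

namespace Claimed.Agent.R275

open Matrix

/-- standing assumptions on the constants -/
def S7ParOK (d : ℕ) (par : S7Par) : Prop :=
  3 ≤ d ∧ S7gOK par.g ∧ S7pOK par.g par.p ∧ 0 < par.cp ∧ par.cp ≤ 1 / 4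

section Pred

variable (d n : ℕ) (par : S7Par) (φ : ℕ → ℚ)

/-- the tapered reference at the stop, over `ℝ` -/
noncomputable def s7P0R (π₀ : PPair n d) (σ h : ℝ) : Matrix (Fin n) (Fin n) ℝ :=
  s7P0 π₀ (fun k => ((φ k : ℚ) : ℝ)) (Lcut d n) σ h

/-- what is frozen at the stop -/
structure S7Stop (π₀ : PPair n d) : Prop where
  card : π₀.l = l0 n
  sep : π₀.Separated (R0 d n)
  girth : π₀.GirthGE (g0 d n)
  ref : ∀ j ≤ Nprim d n par.cp, ∀ b : Bool,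
    S7RefOut π₀ (s7t0 d n) (Lcut d n) (sgn b) ((prim d n j : ℚ) : ℝ)
      (s7P0R d n φ π₀ (sgn b) ((prim d n j : ℚ) : ℝ))
      (1 / 32) (s7rho n : ℝ) (Real.sqrt (s7SY2 n : ℝ)) (s7Tin par.g n : ℝ) (s7Bin n : ℝ)

/-- the analytic input at the stop, at one `(σ, h)` -/
structure S7InAt (π₀ : PPair n d) (σ h : ℝ) : Prop where
  pos : PosOn1 (π₀.Mmat σ h)
  /-- `Z_D ≤ C n^{v_*}/α_*` -/
  opD : s7opLE (s7D π₀ σ h) ((scQ (126 / 1000 * aa) n : ℝ) / (s7alS d n : ℝ))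
  /-- `|Y| ≤ n^{.09a}/α_*` -/
  trY : |s7Y (s7D π₀ σ h)| ≤ (scQ (1 / 10 * aa) n : ℝ) / (s7alS d n : ℝ)
  /-- `T ≤ n^η` -/
  dgT : s7T (s7D π₀ σ h) ≤ (s7Tin par.g n : ℝ)
  /-- (7.46) -/
  gap : h ^ 2 * s7X (s7D π₀ σ h) / ((l0 n : ℝ) - 1) ≤ 1 - (s7del par.g n : ℝ)
  /-- (4.10) for global coordinates -/
  loc : ∀ i, s7sq (s7row π₀ (π₀.Wmat σ h) i) ≤ 4 * (d : ℝ) - 2
  /-- the cleanup entry bound -/
  ent : ∀ i j, |(π₀.Wmat σ h - π₀.Pmat (Lcut d n) σ h) i j| ≤ (s7Bin n : ℝ)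

/-- INPUT of Section 7 -/
structure S7In (π₀ : PPair n d) : Prop where
  stop : S7Stop d n par φ π₀
  at_ : ∀ j ≤ Nprim d n par.cp, ∀ b : Bool, S7InAt d n par π₀ (sgn b) ((prim d n j : ℚ) : ℝ)

/-- the caps (7.47) of Phase A at one `(σ, h)` (positivity is listed in `S7InvA`) -/
structure S7CapA (π₀ π : PPair n d) (σ h : ℝ) : Prop where
  /-- `Z_D ≤ √l n^{-.1a}` in the form `Tr D⁸ ≤ (l n^{-.2a})⁴` -/
  nrm : s7F8 (s7D π σ h) ≤ ((π.l : ℝ) * (scQ (-(2 / 10 * aa)) n : ℝ)) ^ 4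
  trY : s7Y (s7D π σ h) ^ 2 ≤ (l0 n : ℝ) * (scQ (-(8 / 100 * aa)) n : ℝ)
  trYh : s7Y (s7Dh π₀ π φ (Lcut d n) σ h) ^ 2 ≤ (l0 n : ℝ) * (scQ (-(8 / 100 * aa)) n : ℝ)
  dgT : s7T (s7D π σ h) ≤ (s7Tcap par.g n : ℝ)
  dgTh : s7T (s7Dh π₀ π φ (Lcut d n) σ h) ≤ (s7Tcap par.g n : ℝ)
  gap : h ^ 2 * s7X (s7D π σ h) / ((π.l : ℝ) - 1) ≤
    (s7ubar par.g n π.l : ℝ) + (scQ (-(2 * par.g)) n : ℝ)
  crow : ∀ x y, π.Unres x → π.Unres y → x ≠ y →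
    s7sq (s7D π σ h *ᵥ s7ctr ℝ x y) ≤ ((s7ThS d : ℝ) + 1) * (s7om par.g n π.l : ℝ)
  grow : ∀ i, s7sq (s7r π₀ π (s7t0 d n) σ h i) ≤
    (((if s7removed π₀ π (s7t0 d n) i then s7ThV1 d else s7ThV0 d : ℚ) : ℝ) + 1)
      * (s7om par.g n π.l : ℝ)
  ent : ∀ a c : S7Out n d, a.Alive π → c.Alive π →
    |s7ent (s7E π₀ π φ (Lcut d n) σ h) a c| ≤
      ((s7Th (a.ty + c.ty) (a.fl π₀ π (s7t0 d n) + c.fl π₀ π (s7t0 d n)) : ℝ) + 1)
        * (s7BA par.g n : ℝ)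

/-- the invariant of Phase A after `t` steps -/
structure S7InvA (π₀ : PPair n d) (t : ℕ) (π : PPair n d) : Prop where
  ext : π₀.Ext π
  card : π.l + 2 * t = l0 n
  pos : ∀ j ≤ Nprim d n par.cp, ∀ b : Bool, PosOn1 (π.Mmat (sgn b) ((prim d n j : ℚ) : ℝ))
  cap : ∀ j ≤ Nprim d n par.cp, ∀ b : Bool,
    S7CapA d n par φ π₀ π (sgn b) ((prim d n j : ℚ) : ℝ)

/-- the caps of Phase B at one `(σ, h)` -/
structure S7CapB (π₀ π : PPair n d) (σ h : ℝ) : Prop where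
  dgT : s7T (s7D π σ h) ≤ (s7TcapB par.g n : ℝ)
  dgTh : s7T (s7Dh π₀ π φ (Lcut d n) σ h) ≤ (s7TcapB par.g n : ℝ)
  crow : ∀ x y, π.Unres x → π.Unres y → x ≠ y →
    s7sq (s7D π σ h *ᵥ s7ctr ℝ x y) ≤ 2 * (s7GS par.g n : ℝ)
  grow : ∀ i, s7sq (s7r π₀ π (s7t0 d n) σ h i) ≤
    ((if s7removed π₀ π (s7t0 d n) i then 104 else 1 : ℝ) + 1) * (s7GV par.g n : ℝ)
  ent : ∀ a c : S7Out n d, a.Alive π → c.Alive π →
    |s7ent (s7E π₀ π φ (Lcut d n) σ h) a c| ≤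
      ((s7Th (a.ty + c.ty) (a.fl π₀ π (s7t0 d n) + c.fl π₀ π (s7t0 d n)) : ℝ) + 1)
        * (s7BB par.g n : ℝ)

/-- the invariant of Phase B after `t` steps -/
structure S7InvB (π₀ : PPair n d) (t : ℕ) (π : PPair n d) : Prop where
  ext : π₀.Ext π
  card : π.l + 2 * t = s7l2 par.g n
  pos : ∀ j ≤ Nprim d n par.cp, ∀ b : Bool, PosOn1 (π.Mmat (sgn b) ((prim d n j : ℚ) : ℝ))
  cap : ∀ j ≤ Nprim d n par.cp, ∀ b : Bool,
    S7CapB d n par φ π₀ π (sgn b) ((prim d n j : ℚ) : ℝ)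

/-- OUTPUT of Section 7 (Proposition 7.1) for the completed pairing `π`; `CE` = the constant of the entry bound.
The reference `P̂_fin(h) = s7Ph π₀ π φ L σ h` is defined for EVERY `h` by the stop and the completed matching. -/
structure S7Fin (CE : ℝ) (π₀ π : PPair n d) : Prop where
  ext : π₀.Ext π
  complete : π.Complete
  girth : π.GirthGE (g0 d n)
  pos : ∀ j ≤ Nprim d n par.cp, ∀ b : Bool, PosOn1 (π.Mmat (sgn b) ((prim d n j : ℚ) : ℝ))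
  ent : ∀ j ≤ Nprim d n par.cp, ∀ b : Bool, ∀ i k : Fin n,
    |s7E π₀ π φ (Lcut d n) (sgn b) ((prim d n j : ℚ) : ℝ) i k| ≤ CE * (s7BB par.g n : ℝ)

end Pred

/-- kind of an account label -/
def S7Lab.kind {n d : ℕ} : S7Lab n d → ℕ
  | .nrm _ _ => 0
  | .trY _ _ _ => 1
  | .dgT _ _ _ => 2
  | .gap _ _ => 3
  | .crow _ _ _ _ => 4
  | .grow _ _ _ => 5
  | .ent _ _ _ _ _ => 6

/-- "for all large `n`, at every state of Phase A satisfying the caps, at every primary and both signs" -/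
def S7EvA (d : ℕ) (par : S7Par)
    (P : (n : ℕ) → (ℕ → ℚ) → PPair n d → PPair n d → ℝ → ℝ → Prop) : Prop :=
  ∀ᶠ n : ℕ in Filter.atTop, ∀ (φ : ℕ → ℚ) (π₀ π : PPair n d) (t : ℕ),
    S7Stop d n par φ π₀ → S7InvA d n par φ π₀ t π → s7l2 par.g n ≤ π.l →
    ∀ j ≤ Nprim d n par.cp, ∀ b : Bool, P n φ π₀ π (sgn b) ((prim d n j : ℚ) : ℝ)

/-- the same for Phase B -/
def S7EvB (d : ℕ) (par : S7Par)
    (P : (n : ℕ) → (ℕ → ℚ) → PPair n d → PPair n d → ℝ → ℝ → Prop) : Prop :=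
  ∀ᶠ n : ℕ in Filter.atTop, ∀ (φ : ℕ → ℚ) (π₀ π : PPair n d) (t : ℕ),
    S7Stop d n par φ π₀ → S7InvB d n par φ π₀ t π → s7l3 n ≤ π.l →
    ∀ j ≤ Nprim d n par.cp, ∀ b : Bool, P n φ π₀ π (sgn b) ((prim d n j : ℚ) : ℝ)

/-- one-step estimate of Phase A for the accounts of kind `k`, with growth rate `c n l` -/
def S7StepA (d : ℕ) (par : S7Par) (k : ℕ) (c : ℕ → ℕ → ℝ) : Prop :=
  ∀ᶠ n : ℕ in Filter.atTop, ∀ (φ : ℕ → ℚ) (π₀ π : PPair n d) (t : ℕ),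
    S7Stop d n par φ π₀ → S7InvA d n par φ π₀ t π → s7l2 par.g n < π.l →
    ∀ i ∈ s7labsA n d par.cp, i.kind = k →
      0 ≤ c n π.l ∧ (s7PhaseA ℝ d n par φ π₀).avg i π
        ≤ (1 + c n π.l) * (s7PhaseA ℝ d n par φ π₀).Z i π

/-- one-step estimate of Phase B -/
def S7StepB (d : ℕ) (par : S7Par) (k : ℕ) (c : ℕ → ℕ → ℝ) : Prop :=
  ∀ᶠ n : ℕ in Filter.atTop, ∀ (φ : ℕ → ℚ) (π₀ π : PPair n d) (t : ℕ),
    S7Stop d n par φ π₀ → S7InvB d n par φ π₀ t π → s7l3 n < π.l →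
    ∀ i ∈ s7labsB n d par.cp, i.kind = k →
      0 ≤ c n π.l ∧ (s7PhaseB ℝ d n par φ π₀).avg i π
        ≤ (1 + c n π.l) * (s7PhaseB ℝ d n par φ π₀).Z i π

/-- budgets of Phase A -/
noncomputable def s7BudA {n d : ℕ} (par : S7Par) (i : S7Lab n d) : ℝ :=
  if i.kind = 0 then (scQ (aa / 10) n : ℝ) else if i.kind = 3 then (scQ (6 * par.g) n : ℝ) else 2

end Claimed.Agent.R275
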