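import Claimed.Agent.R275.S7FinM
import Claimed.Agent.R275.S7Num

/-!
# Row 275, Section 7, leaf S7-MAIN: assembly of Proposition 7.1 (`StS7Main`)

`s7_main`: from the run of Phase A (`StS7ARun`), the transition (`StS7BInit`), the run of Phase B (`StS7BRun`), the final
matching (`StS7FinRun`, `StS7FinEnt`) and the fact that the accounts over `ℝ` are the casts of the accounts over `ℚ` (`StS7Map`,
`Phase.map_run`).
-/

set_option autoImplicit false
set_option linter.unusedVariables false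

namespace Claimed.Agent.R275

/-- the rational and the real run of Phase A visit the same states -/
theorem s7mn_runA_eq (hM : StS7Map) (d n : ℕ) (par : S7Par) (φ : ℕ → ℚ) (π₀ x : PPair n d) (t : ℕ) :
    ((s7PhaseA ℚ d n par φ π₀).run x t).1 = ((s7PhaseA ℝ d n par φ π₀).run x t).1 := by
  rw [← (hM d n par φ π₀).1, Phase.map_run (Rat.castHom ℝ) Rat.cast_strictMono]

/-- the rational and the real run of Phase B visit the same states -/
theorem s7mn_runB_eq (hM : StS7Map) (d n : ℕ) (par : S7Par) (φ : ℕ → ℚ) (π₀ x : PPair n d) (t : ℕ) :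
    ((s7PhaseB ℚ d n par φ π₀).run x t).1 = ((s7PhaseB ℝ d n par φ π₀).run x t).1 := by
  rw [← (hM d n par φ π₀).2, Phase.map_run (Rat.castHom ℝ) Rat.cast_strictMono]

/-- `l₂ + 2 t_A = l₀` -/
theorem s7mn_tA {g : ℚ} (hg : S7gOK g) (n : ℕ) : s7l2 g n + 2 * ((l0 n - s7l2 g n) / 2) = l0 n := by
  have hle := s7n_l2_le_l0 hg n
  obtain ⟨a, ha⟩ := s7n_even_l2 g n
  obtain ⟨b, hb⟩ := even_l0 n
  omega

/-- `l₃ + 2 t_B = l₂` -/
theorem s7mn_tB {g : ℚ} (hg : S7gOK g) (n : ℕ) : s7l3 n + 2 * ((s7l2 g n - s7l3 n) / 2) = s7l2 g n := by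
  have hle := s7n_l3_le_l2 hg n
  obtain ⟨a, ha⟩ := s7n_even_l2 g n
  obtain ⟨b, hb⟩ := s7n_even_l3 n
  omega

/-- **PROPOSITION 7.1** (assembly). -/
theorem s7_main (h1 : StS7ARun) (h2 : StS7BInit) (h3 : StS7BRun) (h4 : StS7FinRun) (h5 : StS7FinEnt)
    (h6 : StS7Map) : StS7Main := by
  intro d hd
  obtain ⟨g₀, hg₀, hA⟩ := h1 d hd
  refine ⟨g₀, hg₀, fun par hpar hg => ?_⟩
  have hgOK : S7gOK par.g := hpar.2.1
  filter_upwards [hA par hpar hg, h2 d par hpar, h3 d par hpar, h5 d par hpar] with n hnA hnI hnB hnF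
  intro φ π₀ hin
  -- Phase A
  have hA1 : S7InvA d n par φ π₀ ((l0 n - s7l2 par.g n) / 2) (s7runA d n par φ π₀) := by
    have := hnA φ π₀ hin ((l0 n - s7l2 par.g n) / 2) (s7mn_tA hgOK n).le
    rwa [← s7mn_runA_eq h6] at this
  have hl2 : (s7runA d n par φ π₀).l = s7l2 par.g n := by
    have h := hA1.card
    have h' := s7mn_tA hgOK n
    omega
  -- transition
  obtain ⟨hB0, hZ⟩ := hnI φ π₀ _ _ hA1 hl2
  -- Phase B
  have hB1 : S7InvB d n par φ π₀ ((s7l2 par.g n - s7l3 n) / 2) (s7runB d n par φ π₀) := by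
    have := hnB φ π₀ _ hin.stop hB0 hZ ((s7l2 par.g n - s7l3 n) / 2) (s7mn_tB hgOK n).le
    rwa [← s7mn_runB_eq h6] at this
  have hl3 : (s7runB d n par φ π₀).l = s7l3 n := by
    have h := hB1.card
    have h' := s7mn_tB hgOK n
    omega
  -- the final matching
  have hev : Even (s7runB d n par φ π₀).l := by rw [hl3]; exact s7n_even_l3 n
  obtain ⟨hc, he⟩ := h4 n d (s7runB d n par φ π₀) hev
  rw [hl3] at hc he
  exact hnF φ π₀ _ _ _ hin.stop hB1 hl3 he hc

end Claimed.Agent.R275
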