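import Claimed.Agent.R275.S7AccTools

/-!
# Row 275, Section 7, package S7-A: Phase A (`boundary.tex` §7.4), statements

Owner of the statements: helper245.  Only definitions and `def St… : Prop`, no sorry.

STRUCTURE OF THE PROOF OF PHASE A (`StS7ARun`), by `Phase.invariant_run` (one tier) for `Φ = s7PhaseA ℝ d n par φ π₀`, `Inv = S7InvA`,
`K₀ = 14`, `B = s7BudA`, `T = (l₀ - l₂)/2`:
  `hK, h0`  ← `StS7AInit`;      `hcand` ← `StS7Lavg`;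
  `hstep`   ← `StS7AStepNrm … StS7AStepEnt` (7 families);   rates: `C/l + C/S_N` (nrm), `5/l + C κ/l` (gap), `C κ/l` (all others),
              `κ = s7kap = n^{-g/50}`;
  `hbud`    ← `StS7ABud0`, `StS7ABudNrm` (the ONLY place where `g ≤ g₀(d)` is needed), `StS7ABudGap`  (pure numerics);
  `hext`    ← `StS7ANext` (extension, size, positivity) and `StS7AExt` (caps from the accounts).
Every step statement is proved from: `S7DerA` (derived bounds, `StS7ADer`), `StS7Upd`/`StS7Flags`/`StS7TailId` (update identities),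
ONE abstract one-step estimate of `S7Step.lean`, ONE account lemma of `S7Tools.lean` (T3-T6), `StS7Lavg`, and numerics (`S7Num.lean`).
-/

set_option autoImplicit false
set_option linter.unusedVariables false

namespace Claimed.Agent.R275

open Matrix

/-- lower bound of the tracked `h` -/
noncomputable def s7hmin (d : ℕ) : ℝ := 1 / (2 * Real.sqrt ((d : ℝ) - 1))

/-- the constant `C₁` of `S7Outer` -/
def s7C1 (d : ℕ) : ℚ := 2 * (s7ThV1 d + 1) + 4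

/-- the allowed endpoint set of an entry `(a, c)` -/
def s7allow {n d : ℕ} (π₀ π : PPair n d) (t0 : ℕ) (a c : S7Out n d) : Finset (Stub n d) :=
  π.unres.filter fun z => ¬ a.Avoid π₀ t0 z ∧ ¬ c.Avoid π₀ t0 z

/-- the bounds derived from the caps of Phase A at one `(σ, h)`; `ε = s7eps n`, `C₀ = ThS + 1`. -/
structure S7DerA (d n : ℕ) (par : S7Par) (φ : ℕ → ℚ) (π₀ π : PPair n d) (σ h : ℝ) : Prop where
  sig : σ ^ 2 = 1
  refAt : S7RefAt π₀ π (s7t0 d n) σ h (s7P0R d n φ π₀ σ h) (1 / 32) (s7rho n : ℝ)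
  /-- hypotheses of all abstract one-step estimates, for `D` and `D̂` -/
  baseD : S7Base (s7hmin d) ((s7ThS d : ℝ) + 1) (s7eps n : ℝ) σ h π.unres (s7D π σ h)
  baseDh : S7Base (s7hmin d) ((s7ThS d : ℝ) + 1) (s7eps n : ℝ) σ h π.unres
    (s7Dh π₀ π φ (Lcut d n) σ h)
  /-- `Z_D ≤ √l n^{-.1a}` -/
  opD : s7opLE (s7D π σ h) (Real.sqrt ((π.l : ℝ) * (scQ (-(2 / 10 * aa)) n : ℝ)))
  opDh : s7opLE (s7Dh π₀ π φ (Lcut d n) σ h) (1 / 4)
  /-- individual rows (Jensen) -/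
  rowG : ∀ x, (s7D π σ h * s7D π σ h) x x ≤ ((s7ThS d : ℝ) + 1) * (s7om par.g n π.l : ℝ)
  /-- (7.45) for the global tails -/
  tailE : ∀ i x, |s7r π₀ π (s7t0 d n) σ h i x| ≤ (s7eps n : ℝ)
  tailC : ∀ i, S7Cent π.unres (s7r π₀ π (s7t0 d n) σ h i)
  /-- centred-stub errors from the contrast entries -/
  dDiff : ∀ x y, |s7D π σ h x y - s7Dh π₀ π φ (Lcut d n) σ h x y| ≤ 2 * (s7BA par.g n : ℝ)
  oDiff : ∀ a : S7Out n d, a.Alive π → ∀ x,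
    |s7orow π (π.Wmat σ h) a x - s7orow π (s7Ph π₀ π φ (Lcut d n) σ h) a x| ≤
      ((s7Th a.ty (a.fl π₀ π (s7t0 d n)) : ℝ) + 1) * (s7BA par.g n : ℝ)
  /-- outer rows on ordinary events -/
  outer : ∀ a c : S7Out n d, a.Alive π → c.Alive π →
    S7Allowed π.unres (s7allow π₀ π (s7t0 d n) a c) ∧
    S7Outer (s7C1 d : ℝ) (2 * (s7eps n : ℝ)) (13 * (s7BA par.g n : ℝ)) π.unres
      (s7allow π₀ π (s7t0 d n) a c) (s7orow π (π.Wmat σ h) a)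
      (s7orow π (s7Ph π₀ π φ (Lcut d n) σ h) a)
  /-- outer rows at arbitrary endpoints (exceptional events): `|p_a| ≤ 1.05`, `|w_a| ≤ 1.1` for every alive label at stubs that are not
  endpoints of the label (if it is a contrast) -/
  big : ∀ a : S7Out n d, a.Alive π → ∀ x, (a.ty = 0 → ¬ a.Avoid π₀ (s7t0 d n) x) →
    |s7orow π (s7Ph π₀ π φ (Lcut d n) σ h) a x| ≤ 105 / 100 ∧
    |s7orow π (π.Wmat σ h) a x| ≤ 11 / 10
  /-- the gap: `1 - u_l ≥ (9/10) d_l`, `d_l = 1 - ū_l` -/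
  gapD : 9 / 10 * (1 - (s7ubar par.g n π.l : ℝ)) ≤
    1 - h ^ 2 * s7X (s7D π σ h) / ((π.l : ℝ) - 1)

/-- **S7-A-DER** the derived bounds. -/
def StS7ADer : Prop :=
  ∀ (d : ℕ) (par : S7Par), S7ParOK d par →
    S7EvA d par fun n φ π₀ π σ h => S7DerA d n par φ π₀ π σ h

/-! ## One-step estimates (hypothesis `hstep` of `invariant_run`) -/

/-- **S7-A-STEP-0** 8-th moment.  `C` depends only on `d`. -/
def StS7AStepNrm : Prop :=
  ∀ d : ℕ, 3 ≤ d → ∃ C : ℝ, 0 < C ∧ ∀ par : S7Par, S7ParOK d par →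
    S7StepA d par 0 fun n l => C / l + C / (s7SN d n : ℝ)

/-- **S7-A-STEP-1** traces `Y`, `Ŷ`. -/
def StS7AStepTrY : Prop :=
  ∀ (d : ℕ) (par : S7Par), S7ParOK d par → ∃ C : ℝ, 0 < C ∧
    S7StepA d par 1 fun n l => C * (s7kap par.g n : ℝ) / l

/-- **S7-A-STEP-2** diagonal squares `T`, `T̂`. -/
def StS7AStepDgT : Prop :=
  ∀ (d : ℕ) (par : S7Par), S7ParOK d par → ∃ C : ℝ, 0 < C ∧
    S7StepA d par 2 fun n l => C * (s7kap par.g n : ℝ) / l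

/-- **S7-A-STEP-3** the averaged gap. -/
def StS7AStepGap : Prop :=
  ∀ (d : ℕ) (par : S7Par), S7ParOK d par → ∃ C : ℝ, 0 < C ∧
    S7StepA d par 3 fun n l => 5 / l + C * (s7kap par.g n : ℝ) / l

/-- **S7-A-STEP-4** contrast rows. -/
def StS7AStepCrow : Prop :=
  ∀ (d : ℕ) (par : S7Par), S7ParOK d par → ∃ C : ℝ, 0 < C ∧
    S7StepA d par 4 fun n l => C * (s7kap par.g n : ℝ) / l

/-- **S7-A-STEP-5** global tails. -/
def StS7AStepGrow : Prop :=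
  ∀ (d : ℕ) (par : S7Par), S7ParOK d par → ∃ C : ℝ, 0 < C ∧
    S7StepA d par 5 fun n l => C * (s7kap par.g n : ℝ) / l

/-- **S7-A-STEP-6** entries. -/
def StS7AStepEnt : Prop :=
  ∀ (d : ℕ) (par : S7Par), S7ParOK d par → ∃ C : ℝ, 0 < C ∧
    S7StepA d par 6 fun n l => C * (s7kap par.g n : ℝ) / l

/-! ## Budgets (pure numerics) -/

/-- **S7-A-BUD-0** `∏ (1 + C κ / l) ≤ 2` over `l = l₀, l₀ - 2, …` (`l > l₂`). -/
def StS7ABud0 : Prop :=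
  ∀ (d : ℕ) (par : S7Par), S7ParOK d par → ∀ C : ℝ, 0 < C → ∀ᶠ n : ℕ in Filter.atTop, ∀ t : ℕ,
    s7l2 par.g n + 2 * t ≤ l0 n →
    ∏ s ∈ Finset.range t, (1 + C * (s7kap par.g n : ℝ) / ((l0 n - 2 * s : ℕ) : ℝ)) ≤ 2

/-- **S7-A-BUD-NRM** `∏ (1 + C/l + C/S_N) ≤ n^{a/10}` if `g ≤ g₀(C)`. -/
def StS7ABudNrm : Prop :=
  ∀ (d : ℕ) (C : ℝ), 3 ≤ d → 0 < C → ∃ g₀ : ℚ, 0 < g₀ ∧ ∀ par : S7Par, S7ParOK d par → par.g ≤ g₀ →
    ∀ᶠ n : ℕ in Filter.atTop, ∀ t : ℕ, s7l2 par.g n + 2 * t ≤ l0 n →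
    ∏ s ∈ Finset.range t, (1 + (C / ((l0 n - 2 * s : ℕ) : ℝ) + C / (s7SN d n : ℝ))) ≤
      (scQ (aa / 10) n : ℝ)

/-- **S7-A-BUD-GAP** `∏ (1 + 5/l + C κ/l) ≤ n^{6g}`. -/
def StS7ABudGap : Prop :=
  ∀ (d : ℕ) (par : S7Par), S7ParOK d par → ∀ C : ℝ, 0 < C → ∀ᶠ n : ℕ in Filter.atTop, ∀ t : ℕ,
    s7l2 par.g n + 2 * t ≤ l0 n →
    ∏ s ∈ Finset.range t, (1 + (5 / ((l0 n - 2 * s : ℕ) : ℝ)
        + C * (s7kap par.g n : ℝ) / ((l0 n - 2 * s : ℕ) : ℝ))) ≤ (scQ (6 * par.g) n : ℝ)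

/-! ## Extraction, next state, initial state -/

/-- **S7-A-EXT** the caps follow from the accounts. -/
def StS7AExt : Prop :=
  ∀ (d : ℕ) (par : S7Par), S7ParOK d par → ∀ᶠ n : ℕ in Filter.atTop,
    ∀ (φ : ℕ → ℚ) (π₀ π : PPair n d), s7l2 par.g n ≤ π.l → π.l ≤ l0 n →
    (∀ i ∈ s7labsA n d par.cp, (s7PhaseA ℝ d n par φ π₀).wt i * (s7PhaseA ℝ d n par φ π₀).Z i π
      ≤ 14 * s7BudA par i) →
    ∀ j ≤ Nprim d n par.cp, ∀ b : Bool, S7CapA d n par φ π₀ π (sgn b) ((prim d n j : ℚ) : ℝ)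

/-- **S7-A-NEXT** every candidate extends the stop, has two stubs less, and positive precisions. -/
def StS7ANext : Prop :=
  ∀ (d : ℕ) (par : S7Par), S7ParOK d par → ∀ᶠ n : ℕ in Filter.atTop,
    ∀ (φ : ℕ → ℚ) (π₀ π : PPair n d) (t : ℕ), S7Stop d n par φ π₀ → S7InvA d n par φ π₀ t π →
    s7l2 par.g n < π.l → ∀ π' ∈ s7cands π,
    π₀.Ext π' ∧ π'.l + 2 * (t + 1) = l0 n ∧
    ∀ j ≤ Nprim d n par.cp, ∀ b : Bool, PosOn1 (π'.Mmat (sgn b) ((prim d n j : ℚ) : ℝ))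

/-- **S7-A-INIT** the caps hold at the stop and every account is `≤ 2` there. -/
def StS7AInit : Prop :=
  ∀ (d : ℕ) (par : S7Par), S7ParOK d par → ∀ᶠ n : ℕ in Filter.atTop,
    ∀ (φ : ℕ → ℚ) (π₀ : PPair n d), S7In d n par φ π₀ →
    S7InvA d n par φ π₀ 0 π₀ ∧
    ∀ i ∈ s7labsA n d par.cp, (s7PhaseA ℝ d n par φ π₀).Z i π₀ ≤ 2

/-- **S7-A-RUN** Phase A: the caps hold along the greedy run. -/
def StS7ARun : Prop :=
  ∀ d : ℕ, 3 ≤ d → ∃ g₀ : ℚ, 0 < g₀ ∧ ∀ par : S7Par, S7ParOK d par → par.g ≤ g₀ →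
    ∀ᶠ n : ℕ in Filter.atTop, ∀ (φ : ℕ → ℚ) (π₀ : PPair n d), S7In d n par φ π₀ →
    ∀ t : ℕ, s7l2 par.g n + 2 * t ≤ l0 n →
      S7InvA d n par φ π₀ t ((s7PhaseA ℝ d n par φ π₀).run π₀ t).1

end Claimed.Agent.R275
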