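import Claimed.Agent.R275.S7RefIface
import Claimed.Agent.R275.S7ContC
import Claimed.Agent.R275.S7FinAlg
import Claimed.Agent.R275.S7AccMap
import Claimed.Agent.R275.S44A

/-!
# Row 275, Section 7, leaf S7-REFALL (#3018): the reference bounds persist for every pairing extending the stop
Proofs of `StS7Neumann`, `StS7PtCoord`, `StS7RefAll` (statements: `S7RefIface.lean`, helper245).  Proofs: helper60.  Prefix `s7ra_`.

Route.  Euclidean norm `s7faN` (helper255) and the `l¹` size `s7raL`.  If every column of `D` has norm `≤ ρ` then `|D w| ≤ |w|₁ ρ`;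
`P_*` is doubly stochastic, hence an `l¹` contraction, `Π_S = 1 - P_*²` has `l¹` norm `≤ 2`, and `D̂₀ P_t = D̂₀ P_*^π`.
-/

set_option autoImplicit false
set_option linter.unusedVariables false
set_option linter.unusedSectionVars false

namespace Claimed.Agent.R275

open Matrix

section Abs

variable {ι : Type*} [Fintype ι] [DecidableEq ι]

theorem s7ra_N_op {D : Matrix ι ι ℝ} {Z : ℝ} (hZ : s7opLE D Z) (a : ι → ℝ) :
    s7faN (D *ᵥ a) ≤ Z * s7faN a := s7t_op_sqrt hZ a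

theorem s7ra_N_op' {D : Matrix ι ι ℝ} {Z r : ℝ} (hZ : s7opLE D Z) {a : ι → ℝ} (ha : s7faN a ≤ r) :
    s7faN (D *ᵥ a) ≤ Z * r := (s7ra_N_op hZ a).trans (mul_le_mul_of_nonneg_left ha hZ.1)

theorem s7ra_sq_le {a : ι → ℝ} {r : ℝ} (h : s7faN a ≤ r) : s7sq a ≤ r ^ 2 := by
  rw [← s7fa_N_sq]
  exact pow_le_pow_left₀ (s7fa_N_nonneg a) h 2

theorem s7ra_N_zero : s7faN (0 : ι → ℝ) = 0 := by
  unfold s7faN s7sq
  rw [dotProduct_zero, Real.sqrt_zero]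

theorem s7ra_eq_zero {a : ι → ℝ} (h : s7faN a ≤ 0) : a = 0 := by
  have h1 : s7sq a ≤ 0 := by
    have := s7ra_sq_le h
    simpa using this
  have h2 : a ⬝ᵥ a = 0 := le_antisymm h1 (s7t_sq_nonneg a)
  exact dotProduct_self_eq_zero.1 h2

theorem s7ra_N_sum {κ : Type*} (s : Finset κ) (f : κ → ι → ℝ) :
    s7faN (∑ k ∈ s, f k) ≤ ∑ k ∈ s, s7faN (f k) := by
  classical
  induction s using Finset.induction_on with
  | empty => simp [s7ra_N_zero]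
  | insert a s ha ih =>
    rw [Finset.sum_insert ha, Finset.sum_insert ha]
    exact (s7fa_N_add _ _).trans (add_le_add le_rfl ih)

theorem s7ra_abs_le_N (a : ι → ℝ) (x : ι) : |a x| ≤ s7faN a := by
  refine Real.abs_le_sqrt ?_
  unfold s7sq dotProduct
  rw [sq]
  exact Finset.single_le_sum (f := fun y => a y * a y) (fun y _ => mul_self_nonneg _) (Finset.mem_univ x)

theorem s7ra_op_of_N {D : Matrix ι ι ℝ} {Z : ℝ} (hZ : 0 ≤ Z)
    (h : ∀ x, s7faN (D *ᵥ x) ≤ Z * s7faN x) : s7opLE D Z := by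
  refine ⟨hZ, fun x => ?_⟩
  rw [← s7fa_N_sq, ← s7fa_N_sq, ← mul_pow]
  exact pow_le_pow_left₀ (s7fa_N_nonneg _) (h x) 2

theorem s7ra_op_sub {D D' : Matrix ι ι ℝ} {Z Z' : ℝ} (h : s7opLE D Z) (h' : s7opLE D' Z') :
    s7opLE (D - D') (Z + Z') := by
  have h2 := s7opLE_smul (-1) h'
  rw [abs_neg, abs_one, one_mul, neg_one_smul] at h2
  rw [sub_eq_add_neg]
  exact s7opLE_add h h2

theorem s7ra_sq_mulVec {D : Matrix ι ι ℝ} (hD : Dᵀ = D) (x : ι → ℝ) :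
    s7sq (D *ᵥ x) = x ⬝ᵥ ((D * D) *ᵥ x) := by
  unfold s7sq
  rw [← Matrix.mulVec_mulVec, Matrix.dotProduct_mulVec x D, ← Matrix.mulVec_transpose, hD]

/-- a symmetric idempotent has norm `≤ 1` -/
theorem s7ra_proj_op {P : Matrix ι ι ℝ} (hs : Pᵀ = P) (hi : P * P = P) : s7opLE P 1 := by
  refine ⟨zero_le_one, fun x => ?_⟩
  have h1 : s7sq (P *ᵥ x) = x ⬝ᵥ (P *ᵥ x) := by rw [s7ra_sq_mulVec hs, hi]
  have h2 : s7sq (x - P *ᵥ x) = s7sq x - s7sq (P *ᵥ x) := by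
    have : s7sq (x - P *ᵥ x) = s7sq x - 2 * (x ⬝ᵥ (P *ᵥ x)) + s7sq (P *ᵥ x) := by
      unfold s7sq
      rw [sub_dotProduct, dotProduct_sub, dotProduct_sub, dotProduct_comm (P *ᵥ x) x]
      ring
    rw [this, ← h1]
    ring
  have h3 := s7t_sq_nonneg (x - P *ᵥ x)
  rw [h2] at h3
  linarith

theorem s7ra_diag_eq {D : Matrix ι ι ℝ} (hs : Dᵀ = D) (x : ι) :
    (D * D) x x = s7sq (D *ᵥ Pi.single x 1) := by
  rw [s7ra_sq_mulVec hs]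
  simp

/-! ### Neumann -/

theorem s7ra_lower {E : Matrix ι ι ℝ} {ε : ℝ} (hE : s7opLE E ε) (x : ι → ℝ) :
    (1 - ε) * s7faN x ≤ s7faN ((1 + E) *ᵥ x) := by
  have e : x = (1 + E) *ᵥ x - E *ᵥ x := by
    rw [Matrix.add_mulVec, Matrix.one_mulVec, add_sub_cancel_right]
  have h1 := s7fa_N_sub ((1 + E) *ᵥ x) (E *ᵥ x)
  rw [← e] at h1
  have h2 := s7ra_N_op hE x
  linarith

theorem s7ra_unit {E : Matrix ι ι ℝ} {ε : ℝ} (hE : s7opLE E ε) (hε : ε < 1) : IsUnit (1 + E) := by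
  rw [Matrix.isUnit_iff_isUnit_det, isUnit_iff_ne_zero]
  intro hdet
  obtain ⟨v, hv, hv0⟩ := Matrix.exists_mulVec_eq_zero_iff.2 hdet
  have h1 := s7ra_lower hE v
  rw [hv0, s7ra_N_zero] at h1
  have h2 : s7faN v ≤ 0 := by
    by_contra hc
    have : 0 < (1 - ε) * s7faN v := mul_pos (by linarith) (not_le.1 hc)
    linarith
  exact hv (s7ra_eq_zero h2)

theorem s7ra_inv_op {E : Matrix ι ι ℝ} {ε B : ℝ} (hE : s7opLE E ε) (hε : ε < 1) (hB0 : 0 ≤ B)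
    (hB : 1 ≤ B * (1 - ε)) : s7opLE ((1 + E)⁻¹) B := by
  have hu := s7ra_unit hE hε
  have hd := (Matrix.isUnit_iff_isUnit_det _).1 hu
  refine s7ra_op_of_N hB0 fun y => ?_
  have h1 := s7ra_lower hE ((1 + E)⁻¹ *ᵥ y)
  rw [Matrix.mulVec_mulVec, Matrix.mul_nonsing_inv _ hd, Matrix.one_mulVec] at h1
  have h0 := s7fa_N_nonneg ((1 + E)⁻¹ *ᵥ y)
  calc s7faN ((1 + E)⁻¹ *ᵥ y) ≤ (B * (1 - ε)) * s7faN ((1 + E)⁻¹ *ᵥ y) := le_mul_of_one_le_left h0 hB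
    _ = B * ((1 - ε) * s7faN ((1 + E)⁻¹ *ᵥ y)) := by ring
    _ ≤ B * s7faN y := mul_le_mul_of_nonneg_left h1 hB0

end Abs

/-- **S7-REF-ALL-1** -/
theorem s7_neumann : StS7Neumann := by
  intro ι _ _ D P δ c hD hδ hP hc
  have hcP : s7opLE (c • P) (3 / 4) := s7opLE_mono (s7opLE_smul c hP) (by linarith)
  have hE : s7opLE (D * (c • P)) (3 / 32) := s7opLE_mono (s7opLE_mul hD hcP) (by linarith)
  have hinv : s7opLE ((1 + D * (c • P))⁻¹) (8 / 7) :=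
    s7ra_inv_op hE (by norm_num) (by norm_num) (by norm_num)
  exact ⟨s7ra_unit hE (by norm_num), hinv, s7opLE_mono (s7opLE_mul hcP hinv) (by norm_num)⟩

/-- **S7-REF-ALL-2** -/
theorem s7_ptCoord : StS7PtCoord := by
  intro n d π₀ π hext
  obtain ⟨hP1, hP2, -, -, hPs, -, -⟩ := s7PtAlg ℝ n d π₀ π hext
  refine ⟨⟨zero_le_one, fun x => ?_⟩, ?_⟩
  · rw [s7ra_sq_mulVec hPs, hP2, Matrix.sub_mulVec, dotProduct_sub, one_pow, one_mul]
    have h1 : x ⬝ᵥ (π₀.PiS ℝ *ᵥ x) = s7sq (π₀.PiS ℝ *ᵥ x) := by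
      rw [s7ra_sq_mulVec (π₀.s7ctb_PiS_transpose ℝ), π₀.s7ctb_PiS_idem ℝ]
    have h2 : x ⬝ᵥ (π.PiS ℝ *ᵥ x) = s7sq (π.PiS ℝ *ᵥ x) := by
      rw [s7ra_sq_mulVec (π.s7ctb_PiS_transpose ℝ), π.s7ctb_PiS_idem ℝ]
    have h3 := (s7ra_proj_op (π₀.s7ctb_PiS_transpose ℝ) (π₀.s7ctb_PiS_idem ℝ)).2 x
    have h4 := s7t_sq_nonneg (π.PiS ℝ *ᵥ x)
    rw [h1, h2]
    linarith
  · intro s hs
    rw [hP1, Matrix.mulVec_single_one]
    funext y
    have hm : ∀ (ϖ : PPair n d), ϖ.Unres s → ¬ ϖ.Unres y → ϖ.mate y ≠ s := by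
      intro ϖ h1 h2 h3
      apply h2
      have : ϖ.mate (ϖ.mate y) = ϖ.mate s := by rw [h3]
      rw [ϖ.mate_mate, h1] at this
      rw [this]; exact h1
    by_cases hs' : π.Unres s
    · by_cases hy : π.Unres y <;> by_cases hy0 : π₀.Unres y <;>
        simp [PPair.Pstar, hs, hs', hy, hy0, hm π hs', hm π₀ hs]
    · have hiff : π.mate y = s ↔ y = π.mate s := by
        constructor
        · intro h; rw [← h, π.mate_mate]
        · intro h; rw [h, π.mate_mate]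
      have hne : π.Unres y → y ≠ π.mate s := by
        intro h1 h2
        apply hs'
        have h3 : π.mate y = s := hiff.2 h2
        rw [h1] at h3
        rw [← h3]; exact h1
      by_cases hy : π.Unres y <;> by_cases hy0 : π₀.Unres y <;>
        simp [PPair.Pstar, hs, hs', hy, hy0, hm π₀ hs, hiff, Pi.single_apply, hne]

/-! ## the `l¹` size -/

section L1

variable {ι : Type*} [Fintype ι] [DecidableEq ι]

/-- `l¹` size of an array -/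
def s7raL (w : ι → ℝ) : ℝ := ∑ y, |w y|

theorem s7ra_L_nonneg (w : ι → ℝ) : 0 ≤ s7raL w := Finset.sum_nonneg fun _ _ => abs_nonneg _

theorem s7ra_L_single (x : ι) : s7raL (Pi.single x (1 : ℝ)) = 1 := by
  unfold s7raL
  rw [Finset.sum_eq_single x]
  · simp
  · intro y _ hy
    simp [hy]
  · intro h
    exact absurd (Finset.mem_univ x) h

theorem s7ra_L_sub (a b : ι → ℝ) : s7raL (a - b) ≤ s7raL a + s7raL b := by
  unfold s7raL
  rw [← Finset.sum_add_distrib]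
  exact Finset.sum_le_sum fun y _ => abs_sub _ _

/-- columns of norm `≤ ρ`: `|D w| ≤ |w|₁ ρ` -/
theorem s7ra_N_comb {D : Matrix ι ι ℝ} {ρ : ℝ} (hcol : ∀ y, s7faN (D *ᵥ Pi.single y 1) ≤ ρ)
    (w : ι → ℝ) : s7faN (D *ᵥ w) ≤ s7raL w * ρ := by
  have e : D *ᵥ w = ∑ y, w y • (D *ᵥ Pi.single y 1) := by
    conv_lhs => rw [pi_eq_sum_univ' w]
    rw [Matrix.mulVec_sum]
    exact Finset.sum_congr rfl fun y _ => Matrix.mulVec_smul _ _ _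
  rw [e]
  refine (s7ra_N_sum _ _).trans ?_
  rw [s7raL, Finset.sum_mul]
  refine Finset.sum_le_sum fun y _ => ?_
  rw [s7fa_N_smul]
  exact mul_le_mul_of_nonneg_left (hcol y) (abs_nonneg _)

/-- nonnegative entries and column sums `≤ 1`: an `l¹` contraction -/
theorem s7ra_L_stoch {A : Matrix ι ι ℝ} (h0 : ∀ x y, 0 ≤ A x y) (h1 : ∀ y, ∑ x, A x y ≤ 1)
    (w : ι → ℝ) : s7raL (A *ᵥ w) ≤ s7raL w := by
  unfold s7raL
  calc ∑ x, |(A *ᵥ w) x| ≤ ∑ x, ∑ y, A x y * |w y| := by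
        refine Finset.sum_le_sum fun x _ => ?_
        unfold Matrix.mulVec dotProduct
        refine (Finset.abs_sum_le_sum_abs _ _).trans (Finset.sum_le_sum fun y _ => ?_)
        rw [abs_mul, abs_of_nonneg (h0 x y)]
    _ = ∑ y, (∑ x, A x y) * |w y| := by
        rw [Finset.sum_comm]
        exact Finset.sum_congr rfl fun y _ => (Finset.sum_mul _ _ _).symm
    _ ≤ ∑ y, |w y| := Finset.sum_le_sum fun y _ => mul_le_of_le_one_left (abs_nonneg _) (h1 y)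

end L1

namespace PPair

variable {n d : ℕ} (π : PPair n d)

theorem s7ra_Pstar_nonneg (x y : Stub n d) : 0 ≤ π.Pstar ℝ x y := by
  unfold Pstar
  split_ifs <;> positivity

theorem s7ra_Pstar_colsum (y : Stub n d) : ∑ x, π.Pstar ℝ x y = 1 := by
  have h := congrFun (π.Pstar_mulVec_one ℝ) y
  simp only [Matrix.mulVec, dotProduct, mul_one] at h
  rw [← h]
  refine Finset.sum_congr rfl fun x _ => ?_
  conv_lhs => rw [← π.Pstar_transpose ℝ]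
  rfl

theorem s7ra_L_Pstar (w : Stub n d → ℝ) : s7raL (π.Pstar ℝ *ᵥ w) ≤ s7raL w :=
  s7ra_L_stoch π.s7ra_Pstar_nonneg (fun y => (π.s7ra_Pstar_colsum y).le) w

theorem s7ra_L_PiS (w : Stub n d → ℝ) : s7raL (π.PiS ℝ *ᵥ w) ≤ 2 * s7raL w := by
  rw [s7ctb_PiS_eq, Matrix.sub_mulVec, Matrix.one_mulVec, ← Matrix.mulVec_mulVec]
  have h1 := s7ra_L_sub w (π.Pstar ℝ *ᵥ (π.Pstar ℝ *ᵥ w))
  have h2 := π.s7ra_L_Pstar (π.Pstar ℝ *ᵥ w)
  have h3 := π.s7ra_L_Pstar w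
  linarith

theorem s7ra_PiS_Pstar : π.PiS ℝ * π.Pstar ℝ = 0 := by
  rw [s7ctb_PiS_eq, Matrix.sub_mul, Matrix.one_mul, Pstar_cube', sub_self]

theorem s7ra_Dof_symm {X : Matrix (Fin n) (Fin n) ℝ} (hX : Xᵀ = X) : (s7Dof π X)ᵀ = s7Dof π X := by
  rw [s7Dof, Matrix.transpose_sub, Matrix.transpose_mul, Matrix.transpose_mul,
    Matrix.transpose_transpose, hX, s7ctb_PiS_transpose, Matrix.mul_assoc]

theorem s7ra_Dof_PiS (X : Matrix (Fin n) (Fin n) ℝ) : s7Dof π X * π.PiS ℝ = s7Dof π X := by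
  have hXi : π.Xi ℝ * π.PiS ℝ = π.Xi ℝ := by
    rw [s7ctb_Xi_eq, Matrix.mul_assoc, s7ctb_PiS_idem]
  rw [s7Dof, Matrix.sub_mul, Matrix.mul_assoc, hXi, s7ctb_PiS_idem]

theorem s7ra_short_near (t0 : ℕ) (σ h : ℝ) (i : Fin n) (x : Stub n d)
    (hx : s7short π t0 σ h i x ≠ 0) : s7near π t0 i x := by
  unfold s7short at hx
  by_cases hu : π.Unres x
  · rw [if_pos hu] at hx
    obtain ⟨k, hk, hk0⟩ := Finset.exists_ne_zero_of_sum_ne_zero hx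
    refine ⟨hu, k, Finset.mem_range.1 hk, fun h0 => hk0 ?_⟩
    rw [← s7m_Nact (Rat.castHom ℝ) π k, Matrix.map_apply, h0, map_zero, mul_zero]
  · rw [if_neg hu] at hx
    exact absurd rfl hx

theorem s7ra_L_short (t0 : ℕ) (σ h : ℝ) (i : Fin n)
    (uniq : ∀ x y, s7near π t0 i x → s7near π t0 i y → x = y)
    (cle : ∀ x, |s7short π t0 σ h i x| ≤ 1) : s7raL (s7short π t0 σ h i) ≤ 1 := by
  by_cases hall : ∀ x, s7short π t0 σ h i x = 0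
  · unfold s7raL
    simp [hall]
  · obtain ⟨s, hs⟩ := not_forall.1 hall
    unfold s7raL
    rw [Finset.sum_eq_single s]
    · exact cle s
    · intro y _ hy
      by_contra hne
      have h1 : s7short π t0 σ h i y ≠ 0 := fun h => hne (by rw [h, abs_zero])
      exact hy (uniq y s (π.s7ra_short_near t0 σ h i y h1) (π.s7ra_short_near t0 σ h i s hs))
    · intro h
      exact absurd (Finset.mem_univ s) h

end PPair

/-- **S7-REF-ALL** -/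
theorem s7_refAll : StS7RefAll := by
  intro n d π₀ π t0 L σ h P0 δ ρ Yb Tb βP hO hext hσ hh hh34 hδ hρ
  have hh1 : h ^ 2 ≠ 1 := by nlinarith
  have hc : |-(σ * h)| ≤ 3 / 4 := by
    have h1 : |σ| = 1 := by
      rcases mul_self_eq_one_iff.1 (by rw [← sq]; exact hσ : σ * σ = 1) with h | h <;> rw [h] <;> simp
    rw [abs_neg, abs_mul, abs_of_pos hh, h1, one_mul]
    exact hh34
  obtain ⟨hPt1, -⟩ := s7_ptCoord n d π₀ π hext
  obtain ⟨hPe, -, -, -, -, h01, -⟩ := s7PtAlg ℝ n d π₀ π hext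
  obtain ⟨hN1, hN2, hN3⟩ :=
    s7_neumann (Stub n d) (s7Dof π₀ P0) (s7Pt π₀ π ℝ) δ (-(σ * h)) hO.op hδ hPt1 hc
  have hU0 : IsUnit (1 + s7Dof π₀ P0 * s7Ht0 π₀ π σ h) := hN1
  have hInv : s7opLE ((1 + s7Dof π₀ P0 * s7Ht0 π₀ π σ h)⁻¹) (8 / 7) := hN2
  have hH : s7opLE (s7Ht π₀ π P0 σ h) 1 := hN3
  obtain ⟨A1, A2, A3, A4, A5, A6, A7⟩ := s7_aggregate ℝ n d π₀ π P0 σ h hext hσ hh1 hU0
  have hδ0 : 0 ≤ δ := hO.op.1
  have hKt : (s7Kinc π₀ π σ h)ᵀ = s7Kinc π₀ π σ h := by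
    rw [s7Kinc, Matrix.transpose_smul, Matrix.transpose_sub, PPair.Mmat_transpose,
      PPair.Mmat_transpose]
  have hsymm : (s7Ref π₀ π P0 σ h)ᵀ = s7Ref π₀ π P0 σ h :=
    (s7_contSymm ℝ (Fin n) P0 _ A1).2.2.2 hO.symm hKt
  have hker : s7Ref π₀ π P0 σ h *ᵥ (fun _ => 1) = 0 := by
    rw [s7Ref, s7cont, ← Matrix.mulVec_mulVec, hO.ker, Matrix.mulVec_zero]
  have hPi : s7opLE (π.PiS ℝ) 1 := s7ra_proj_op (π.s7ctb_PiS_transpose ℝ) (π.s7ctb_PiS_idem ℝ)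
  have h10 : π.PiS ℝ * π₀.PiS ℝ = π.PiS ℝ := by
    have := congrArg Matrix.transpose h01
    rwa [Matrix.transpose_mul, π.s7ctb_PiS_transpose ℝ, π₀.s7ctb_PiS_transpose ℝ] at this
  have hD0s := π₀.s7ra_Dof_symm hO.symm
  have hDs := π.s7ra_Dof_symm hsymm
  have hcol : ∀ y, s7faN (s7Dof π₀ P0 *ᵥ Pi.single y 1) ≤ ρ := fun y =>
    s7fa_N_le_of_sq hρ (by rw [← s7ra_diag_eq hD0s]; exact hO.drow y)
  have hDH : s7opLE (s7Dof π₀ P0 * s7Ht π₀ π P0 σ h) δ :=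
    s7opLE_mono (s7opLE_mul hO.op hH) (by linarith)
  have hop : s7opLE (s7Dof π (s7Ref π₀ π P0 σ h)) (2 * δ) := by
    rw [A6]
    refine s7opLE_mono (s7opLE_mul (s7opLE_mul hPi
      (s7ra_op_sub hO.op (s7opLE_mul hDH hO.op))) hPi) ?_
    nlinarith
  have hcolD : ∀ x, s7faN (s7Dof π (s7Ref π₀ π P0 σ h) *ᵥ Pi.single x 1) ≤ 3 * ρ := by
    intro x
    have e : s7Dof π (s7Ref π₀ π P0 σ h) *ᵥ Pi.single x 1 =
        π.PiS ℝ *ᵥ (s7Dof π₀ P0 *ᵥ (π.PiS ℝ *ᵥ Pi.single x 1) -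
          (s7Dof π₀ P0 * s7Ht π₀ π P0 σ h) *ᵥ (s7Dof π₀ P0 *ᵥ (π.PiS ℝ *ᵥ Pi.single x 1))) := by
      rw [A6, ← Matrix.mulVec_mulVec, ← Matrix.mulVec_mulVec, Matrix.sub_mulVec,
        ← Matrix.mulVec_mulVec]
    have hw : s7faN (s7Dof π₀ P0 *ᵥ (π.PiS ℝ *ᵥ Pi.single x 1)) ≤ 2 * ρ := by
      refine (s7ra_N_comb hcol _).trans (mul_le_mul_of_nonneg_right ?_ hρ)
      have := π.s7ra_L_PiS (Pi.single x 1)
      rwa [s7ra_L_single, mul_one] at this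
    have h2 := s7ra_N_op' hDH hw
    have h3 := (s7fa_N_sub _ _).trans (add_le_add hw h2)
    have h4 := s7ra_N_op' hPi h3
    rw [e]
    refine h4.trans ?_
    nlinarith
  have hE : s7Dof π₀ P0 * s7Ht π₀ π P0 σ h =
      (1 + s7Dof π₀ P0 * s7Ht0 π₀ π σ h)⁻¹ * (s7Dof π₀ P0 * s7Ht0 π₀ π σ h) := by
    have hd := (Matrix.isUnit_iff_isUnit_det _).1 hU0
    rw [s7Ht, ← Matrix.mul_assoc]
    symm
    apply s7ca_inv_mul_eq _ hU0
    have e : (1 + s7Dof π₀ P0 * s7Ht0 π₀ π σ h) *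
        (s7Dof π₀ P0 * s7Ht0 π₀ π σ h * (1 + s7Dof π₀ P0 * s7Ht0 π₀ π σ h)⁻¹) =
        s7Dof π₀ P0 * s7Ht0 π₀ π σ h *
          ((1 + s7Dof π₀ P0 * s7Ht0 π₀ π σ h) * (1 + s7Dof π₀ P0 * s7Ht0 π₀ π σ h)⁻¹) := by
      noncomm_ring
    rw [e, Matrix.mul_nonsing_inv _ hd, Matrix.mul_one]
  have hEP : s7Dof π₀ P0 * s7Ht0 π₀ π σ h * π₀.PiS ℝ = (-(σ * h)) • (s7Dof π₀ P0 * π.Pstar ℝ) := by
    have e1 : s7Pt π₀ π ℝ * π₀.PiS ℝ = s7Pt π₀ π ℝ := by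
      rw [s7Pt, Matrix.mul_assoc, π₀.s7ctb_PiS_idem ℝ]
    have e2 : s7Dof π₀ P0 * π₀.Pstar ℝ = 0 := by
      rw [← π₀.s7ra_Dof_PiS P0, Matrix.mul_assoc, π₀.s7ra_PiS_Pstar, Matrix.mul_zero]
    rw [s7Ht0, Matrix.mul_smul, Matrix.smul_mul, Matrix.mul_assoc, e1, hPe, Matrix.mul_sub, e2,
      sub_zero]
  have htail : ∀ i, s7sq (s7tail π₀ π t0 σ h (s7Ref π₀ π P0 σ h) i) ≤ (3 * ρ) ^ 2 := by
    intro i
    apply s7ra_sq_le
    have hτ : s7faN (s7tail π₀ π₀ t0 σ h P0 i) ≤ ρ := s7fa_N_le_of_sq hρ (hO.tail i)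
    have hr0 : s7row π₀ P0 i = s7tail π₀ π₀ t0 σ h P0 i + π₀.PiS ℝ *ᵥ s7short π₀ t0 σ h i := by
      rw [s7tail, sub_add_cancel]
    have e : s7tail π₀ π t0 σ h (s7Ref π₀ π P0 σ h) i =
        π.PiS ℝ *ᵥ (s7tail π₀ π₀ t0 σ h P0 i -
          (s7Dof π₀ P0 * s7Ht π₀ π P0 σ h) *ᵥ s7tail π₀ π₀ t0 σ h P0 i -
          (s7Dof π₀ P0 * s7Ht π₀ π P0 σ h) *ᵥ (π₀.PiS ℝ *ᵥ s7short π₀ t0 σ h i)) := by
      have e1 : π.PiS ℝ *ᵥ (π₀.PiS ℝ *ᵥ s7short π₀ t0 σ h i) = π.PiS ℝ *ᵥ s7short π₀ t0 σ h i := by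
        rw [Matrix.mulVec_mulVec, h10]
      conv_lhs => rw [s7tail, A7, hr0]
      simp only [Matrix.mulVec_add, Matrix.mulVec_sub, e1]
      abel
    have e2 : (s7Dof π₀ P0 * s7Ht π₀ π P0 σ h) *ᵥ (π₀.PiS ℝ *ᵥ s7short π₀ t0 σ h i) =
        (1 + s7Dof π₀ P0 * s7Ht0 π₀ π σ h)⁻¹ *ᵥ
          ((-(σ * h)) • (s7Dof π₀ P0 *ᵥ (π.Pstar ℝ *ᵥ s7short π₀ t0 σ h i))) := by
      rw [hE, Matrix.mulVec_mulVec, Matrix.mul_assoc, hEP, ← Matrix.mulVec_mulVec,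
        Matrix.smul_mulVec, Matrix.mulVec_mulVec]
    have h1 : s7faN (s7Dof π₀ P0 *ᵥ (π.Pstar ℝ *ᵥ s7short π₀ t0 σ h i)) ≤ ρ := by
      refine (s7ra_N_comb hcol _).trans ?_
      have a1 := π.s7ra_L_Pstar (s7short π₀ t0 σ h i)
      have a2 := π₀.s7ra_L_short t0 σ h i (hO.uniq i) (hO.cle i)
      calc s7raL (π.Pstar ℝ *ᵥ s7short π₀ t0 σ h i) * ρ ≤ 1 * ρ :=
            mul_le_mul_of_nonneg_right (a1.trans a2) hρ
        _ = ρ := one_mul _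
    have h2 : s7faN ((-(σ * h)) • (s7Dof π₀ P0 *ᵥ (π.Pstar ℝ *ᵥ s7short π₀ t0 σ h i))) ≤
        3 / 4 * ρ := by
      rw [s7fa_N_smul]
      exact mul_le_mul hc h1 (s7fa_N_nonneg _) (by norm_num)
    have h3 := s7ra_N_op' hInv h2
    rw [← e2] at h3
    have h4 := s7ra_N_op' hDH hτ
    have h5 := (s7fa_N_sub _ _).trans (add_le_add ((s7fa_N_sub _ _).trans (add_le_add hτ h4)) h3)
    have h6 := s7ra_N_op' hPi h5
    rw [e]
    refine h6.trans ?_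
    nlinarith
  refine ⟨hU0, A1, hsymm, hker, hH, hop, ?_, ?_, htail⟩
  · intro x
    rw [s7ra_diag_eq hDs]
    exact s7ra_sq_le (hcolD x)
  · intro x y
    have h1 := s7ra_abs_le_N (s7Dof π (s7Ref π₀ π P0 σ h) *ᵥ Pi.single y 1) x
    have h2 : (s7Dof π (s7Ref π₀ π P0 σ h) *ᵥ Pi.single y 1) x = s7Dof π (s7Ref π₀ π P0 σ h) x y := by
      rw [Matrix.mulVec_single_one]
      rfl
    rw [h2] at h1
    exact h1.trans (hcolD y)

end Claimed.Agent.R275
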