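import Claimed.Agent.R275.S7Cont
import Claimed.Agent.R275.Params

/-!
# Row 275, Section 7: INTERFACE between Lemma 7.2 (smooth reference at the stop; blueprint: helper194) and the rest of Section 7

Owner of this file: helper245.  Definitions and `def St… : Prop` only, no sorry.

* `s7P0 π₀ φ L σ h = ∑_{k<L} φ k (σ h)^k Π Q_k Π`: the tapered reference at the stop `π₀` (`φ` = the taper, a parameter here).
* `s7short π₀ t0 σ h i`: the SHORT PART of the row of the global vertex `i`, as an array on stubs: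
  `x ↦ ∑_{k<t0} (σ h)^k N_k(i, vtx x)` on the unresolved stubs of `π₀`.  Under separation it has at most one non-zero coordinate `s(i)`, with
  value `c_i = (σ h)^{dist(i, s(i))}`; no `Option`, no case distinction: the paper's `c_i Π_l e_{s(i)}` (omitted if `s(i)` is absent or resolved)
  is `Π_S (s7short …)` at EVERY later state, because `Π_S` kills the resolved coordinates.
* `s7near π₀ t0 i x`: `x` is the short endpoint of `i` (decidable, independent of `h`).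
* `S7RefOut`: EXACTLY what Sections 7.2-7.6 use of Lemma 7.2 at one `(σ, h)`.
* `S7RefAt` + `StS7RefAll`: the consequences for EVERY pairing extending the stop (second half of §7.2), explicit constants.
-/

set_option autoImplicit false
set_option linter.unusedVariables false

namespace Claimed.Agent.R275

open Matrix

section Defs

variable {n d : ℕ}

/-- the tapered reference at the stop -/
def s7P0 {K : Type*} [Field K] (π₀ : PPair n d) (φ : ℕ → K) (L : ℕ) (σ h : K) :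
    Matrix (Fin n) (Fin n) K :=
  ∑ k ∈ Finset.range L, (φ k * (σ * h) ^ k) • (Pi1 K n * π₀.Qmat K k * Pi1 K n)

/-- the short part of the row of the global vertex `i` -/
def s7short {K : Type*} [Field K] (π₀ : PPair n d) (t0 : ℕ) (σ h : K) (i : Fin n) : Stub n d → K :=
  fun x => if π₀.Unres x then ∑ k ∈ Finset.range t0, (σ * h) ^ k * π₀.Nact K k i x.1 else 0

/-- `x` is a short endpoint of `i`: an unresolved stub of the stop joined to `i` by an actual nonbacktracking walk of length `< t0` -/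
def s7near (π₀ : PPair n d) (t0 : ℕ) (i : Fin n) (x : Stub n d) : Prop :=
  π₀.Unres x ∧ ∃ k < t0, π₀.Nact ℚ k i x.1 ≠ 0

instance (π₀ : PPair n d) (t0 : ℕ) (i : Fin n) (x : Stub n d) : Decidable (s7near π₀ t0 i x) :=
  inferInstanceAs (Decidable (_ ∧ _))

/-- the short endpoint of `i` exists and is still unresolved at `π` -/
def s7active (π₀ π : PPair n d) (t0 : ℕ) (i : Fin n) : Prop := ∃ x, s7near π₀ t0 i x ∧ π.Unres x

/-- the short endpoint of `i` existed and has been resolved -/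
def s7removed (π₀ π : PPair n d) (t0 : ℕ) (i : Fin n) : Prop := ∃ x, s7near π₀ t0 i x ∧ ¬ π.Unres x

instance (π₀ π : PPair n d) (t0 : ℕ) (i : Fin n) : Decidable (s7active π₀ π t0 i) :=
  inferInstanceAs (Decidable (∃ x, _))

instance (π₀ π : PPair n d) (t0 : ℕ) (i : Fin n) : Decidable (s7removed π₀ π t0 i) :=
  inferInstanceAs (Decidable (∃ x, _))

/-- the tail `X`-row of `i` at the state `π`:  `Ξᵀ X e_i - Π_S (short part)` -/
def s7tail {K : Type*} [Field K] (π₀ π : PPair n d) (t0 : ℕ) (σ h : K) (X : Matrix (Fin n) (Fin n) K)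
    (i : Fin n) : Stub n d → K :=
  s7row π X i - π.PiS K *ᵥ s7short π₀ t0 σ h i

/-- SEPARATION at the stop: distinct boundary vertices, no actual nonbacktracking walk of length `1..R` between boundary vertices -/
structure S7Sep (π₀ : PPair n d) (R : ℕ) : Prop where
  one : ∀ v, π₀.tcount v ≤ 1
  sep : ∀ x y, π₀.Unres x → π₀.Unres y → ∀ k, 1 ≤ k → k ≤ R → π₀.Nact ℚ k x.1 y.1 = 0

/-- OUTPUT OF LEMMA 7.2 at one `(σ, h)`;  `P0 = s7P0 π₀ φ L σ h`, `δ` = bound of `‖D̂₀‖`, `ρ` = bound of the row tails,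
`Yb`, `Tb` = bounds of `|Tr D̂₀|`, `∑ (D̂₀)_ss²`, `βP` = bound of the entries of `P̂₀ - P_{<L}`. -/
structure S7RefOut (π₀ : PPair n d) (t0 L : ℕ) (σ h : ℝ) (P0 : Matrix (Fin n) (Fin n) ℝ)
    (δ ρ Yb Tb βP : ℝ) : Prop where
  symm : P0ᵀ = P0
  ker : P0 *ᵥ (fun _ => 1) = 0
  /-- (7.40) -/
  op : s7opLE (s7Dof π₀ P0) δ
  /-- (7.41) -/
  tail : ∀ i, s7sq (s7tail π₀ π₀ t0 σ h P0 i) ≤ ρ ^ 2
  /-- uniqueness of the short endpoint -/
  uniq : ∀ i x y, s7near π₀ t0 i x → s7near π₀ t0 i y → x = y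
  /-- `|c_i| ≤ 1` -/
  cle : ∀ i x, |s7short π₀ t0 σ h i x| ≤ 1
  /-- rows of `D̂₀` (display after (7.41)) -/
  drow : ∀ x, ((s7Dof π₀ P0) * (s7Dof π₀ P0)) x x ≤ ρ ^ 2
  /-- end of §7.2 -/
  tr : |s7Y (s7Dof π₀ P0)| ≤ Yb
  dg : s7T (s7Dof π₀ P0) ≤ Tb
  /-- taper change (display before Lemma 7.2) -/
  near : ∀ i j, |(P0 - π₀.Pmat L σ h) i j| ≤ βP

/-- the reference bounds at a pairing `π` extending the stop;  `Ph = s7Ref π₀ π P0 σ h`. -/
structure S7RefAt (π₀ π : PPair n d) (t0 : ℕ) (σ h : ℝ) (P0 : Matrix (Fin n) (Fin n) ℝ) (δ ρ : ℝ) :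
    Prop where
  unit0 : IsUnit (1 + s7Dof π₀ P0 * s7Ht0 π₀ π σ h)
  unit : IsUnit (1 + P0 * s7Kinc π₀ π σ h)
  symm : (s7Ref π₀ π P0 σ h)ᵀ = s7Ref π₀ π P0 σ h
  ker : s7Ref π₀ π P0 σ h *ᵥ (fun _ => 1) = 0
  /-- `‖H_t‖ ≤ 1` -/
  opH : s7opLE (s7Ht π₀ π P0 σ h) 1
  /-- `‖D̂‖ ≤ 2 δ` -/
  op : s7opLE (s7Dof π (s7Ref π₀ π P0 σ h)) (2 * δ)
  /-- rows of `D̂` -/
  drow : ∀ x, (s7Dof π (s7Ref π₀ π P0 σ h) * s7Dof π (s7Ref π₀ π P0 σ h)) x x ≤ (3 * ρ) ^ 2
  /-- entries of `D̂` -/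
  dent : ∀ x y, |s7Dof π (s7Ref π₀ π P0 σ h) x y| ≤ 3 * ρ
  /-- (7.43) -/
  tail : ∀ i, s7sq (s7tail π₀ π t0 σ h (s7Ref π₀ π P0 σ h) i) ≤ (3 * ρ) ^ 2

end Defs

/-- **S7-REF-ALL-1** abstract Neumann bound.  `‖D‖ ≤ δ ≤ 1/8`, `‖P‖ ≤ 1`, `|c| ≤ 3/4`: `1 + D (c P)` is invertible,
`‖(1 + c D P)⁻¹ x‖ ≤ (8/7) ‖x‖`, and `H = c P (1 + c D P)⁻¹` has norm `≤ 1`.
(Injectivity from `‖(1 + cDP) x‖ ≥ (1 - 3δ/4) ‖x‖`; finite dimension.) -/
def StS7Neumann : Prop :=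
  ∀ (ι : Type) [Fintype ι] [DecidableEq ι] (D P : Matrix ι ι ℝ) (δ c : ℝ), s7opLE D δ → δ ≤ 1 / 8 →
    s7opLE P 1 → |c| ≤ 3 / 4 →
    IsUnit (1 + D * (c • P)) ∧ s7opLE ((1 + D * (c • P))⁻¹) (8 / 7) ∧
    s7opLE ((c • P) * (1 + D * (c • P))⁻¹) 1

/-- **S7-REF-ALL-2** `‖P_t‖ ≤ 1`, and the action of `P_t` on a coordinate of `S₀`: the partner coordinate, or the average over the current
unresolved stubs, minus the average over `S₀`. -/
def StS7PtCoord : Prop :=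
  ∀ (n d : ℕ) (π₀ π : PPair n d), π₀.Ext π →
    s7opLE (s7Pt π₀ π ℝ) 1 ∧
    ∀ s, π₀.Unres s → s7Pt π₀ π ℝ *ᵥ (Pi.single s 1) =
      (if π.Unres s then (fun y => if π.Unres y then ((π.l : ℝ))⁻¹ else 0) else Pi.single (π.mate s) 1)
        - fun y => if π₀.Unres y then ((π₀.l : ℝ))⁻¹ else 0

/-- **S7-REF-ALL** (§7.2, second half): the reference bounds persist for every pairing extending the stop. -/
def StS7RefAll : Prop :=
  ∀ (n d : ℕ) (π₀ π : PPair n d) (t0 L : ℕ) (σ h : ℝ) (P0 : Matrix (Fin n) (Fin n) ℝ)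
    (δ ρ Yb Tb βP : ℝ), S7RefOut π₀ t0 L σ h P0 δ ρ Yb Tb βP → π₀.Ext π → σ ^ 2 = 1 → 0 < h →
    h ≤ 3 / 4 → δ ≤ 1 / 8 → 0 ≤ ρ → S7RefAt π₀ π t0 σ h P0 δ ρ

end Claimed.Agent.R275
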