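import Claimed.Agent.R275.L41

/-!
# Row 275, package TB: the `2 × 2` endpoint coefficient `H = (H_0⁻¹ + D)⁻¹` in closed form

Replaces ALL "endpoint Neumann expansions / word classifications" of Sec 5-7 (early.tex L5.4, cleanup.tex L6.4) by the exact adjugate
formula and explicit second-order error bounds.  One lemma covers the three uses:
* `D = D_p = Uᵀ W U - G_0`  (actual coefficient `H`, `PPair.Hp`),
* `D = T = Uᵀ P U - G_0`    (reference coefficient `H_P`, `PPair.HP`),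
* `σ = -1`, `D = - t̂`, `t̂ ≥ 0` entrywise (the nonnegative coefficient majorant `Ĥ_P = Ĥ_0 (1 - t̂ Ĥ_0)⁻¹` of the formal tail).
Index `0 = u` (prescribed / first endpoint), `1 = v`.   Statements: helper208 (formulas checked in exact arithmetic).
-/

set_option autoImplicit false

namespace Claimed.Agent.R275

open Matrix

/-- `H = (H_0⁻¹ + D)⁻¹` -/
noncomputable def Hgen (l : ℕ) (σ h : ℝ) (D : Matrix (Fin 2) (Fin 2) ℝ) : Matrix (Fin 2) (Fin 2) ℝ :=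
  ((H0 l σ h)⁻¹ + D)⁻¹

/-- `g = 1 - 1/l - x D_{01}`, `x = σ h` -/
noncomputable def tbG (l : ℕ) (σ h : ℝ) (D : Matrix (Fin 2) (Fin 2) ℝ) : ℝ :=
  1 - 1 / (l : ℝ) - σ * h * D 0 1

/-- `(x D_{00} + 1/l)(x D_{11} + 1/l)` -/
noncomputable def tbPQ (l : ℕ) (σ h : ℝ) (D : Matrix (Fin 2) (Fin 2) ℝ) : ℝ :=
  (σ * h * D 0 0 + 1 / (l : ℝ)) * (σ * h * D 1 1 + 1 / (l : ℝ))

/-- standing hypotheses: `l ≥ 4`, `σ = ±1`, `0 < h ≤ 1`, `D` symmetric with entries `≤ 1/16` -/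
structure TBHyp (l : ℕ) (σ h : ℝ) (D : Matrix (Fin 2) (Fin 2) ℝ) : Prop where
  hl : 4 ≤ l
  hσ : σ ^ 2 = 1
  hh : 0 < h
  hh1 : h ≤ 1
  sym : D 1 0 = D 0 1
  small : ∀ i j, |D i j| ≤ 1 / 16

variable {l : ℕ} {σ h : ℝ} {D : Matrix (Fin 2) (Fin 2) ℝ}

/-! ### scalar facts -/

/-- `|num / Δ| ≤ (8/3) |num|` for `Δ ≥ 3/8` -/
theorem tb_abs_div_le (num Δ : ℝ) (hΔ : 3 / 8 ≤ Δ) : |num / Δ| ≤ 8 / 3 * |num| := by
  have hpos : 0 < Δ := by linarith
  rw [abs_div, abs_of_pos hpos, div_le_iff₀ hpos]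
  have := abs_nonneg num
  nlinarith

/-- the scalar estimates behind `tb_second_order` and `tb_first_order` -/
theorem tb_scalar_bounds (x p q r e a c β : ℝ) (hx : |x| ≤ 1) (he0 : 0 ≤ e) (he : e ≤ 1 / 4)
    (hp : |p| ≤ 1 / 16) (hq : |q| ≤ 1 / 16) (hr : |r| ≤ 1 / 16) (hpa : |p| ≤ a) (hqc : |q| ≤ c)
    (hrβ : |r| ≤ β) (g Δ : ℝ) (hg : g = 1 - e - x * r) (hΔ : Δ = g ^ 2 - (x * p + e) * (x * q + e))
    (hΔ38 : 3 / 8 ≤ Δ) (hg1 : 11 / 16 ≤ g) (hg2 : g ≤ 17 / 16) (hP : |x * p + e| ≤ |p| + e)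
    (hQ : |x * q + e| ≤ |q| + e) (hxr : |x * r| ≤ |r|) :
    |-x * (x * q + e) / Δ + x ^ 2 * q| ≤ 8 * (c * β + a * c ^ 2 + e) ∧
    |-x * g / Δ + x + x ^ 2 * r| ≤ 8 * (β ^ 2 + a * c + e) ∧
    |-x * (x * q + e) / Δ| ≤ 8 * (c + e) ∧
    |-x * g / Δ + x| ≤ 8 * (β + a * c + e) := by
  have hpos : 0 < Δ := by linarith
  have hP0 := abs_nonneg p
  have hQ0 := abs_nonneg q
  have hR0 := abs_nonneg r
  have hx2 : |x ^ 2| ≤ 1 := by
    rw [abs_pow]; exact pow_le_one₀ (abs_nonneg _) hx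
  -- the product `PQ`
  have hPQ : |(x * p + e) * (x * q + e)| ≤ |p| * |q| + 3 / 8 * e := by
    rw [abs_mul]
    calc |x * p + e| * |x * q + e| ≤ (|p| + e) * (|q| + e) :=
          mul_le_mul hP hQ (abs_nonneg _) (by linarith)
      _ ≤ |p| * |q| + 3 / 8 * e := by nlinarith
  have hpq : |p| * |q| ≤ a * c := mul_le_mul hpa hqc hQ0 (by linarith)
  have hε : |e + x * r| ≤ e + |r| := by
    calc |e + x * r| ≤ |e| + |x * r| := abs_add_le _ _
      _ ≤ e + |r| := by rw [abs_of_nonneg he0]; linarith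
  have hgabs : |g| ≤ 17 / 16 := abs_le.2 ⟨by linarith, hg2⟩
  refine ⟨?_, ?_, ?_, ?_⟩
  · have e1 : -x * (x * q + e) / Δ + x ^ 2 * q = (x ^ 2 * (q * (Δ - 1)) - x * e) / Δ := by
      field_simp; ring
    rw [e1]
    refine (tb_abs_div_le _ _ hΔ38).trans ?_
    have h1 : |Δ - 1| ≤ 3 * (e + |r|) + (|p| * |q| + 3 / 8 * e) := by
      have e2 : Δ - 1 = -(e + x * r) * (g + 1) - (x * p + e) * (x * q + e) := by
        rw [hΔ, hg]; ring
      rw [e2]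
      refine (abs_sub _ _).trans (add_le_add ?_ hPQ)
      rw [abs_mul, abs_neg]
      have : |g + 1| ≤ 3 := abs_le.2 ⟨by linarith, by linarith⟩
      calc |e + x * r| * |g + 1| ≤ (e + |r|) * 3 := mul_le_mul hε this (abs_nonneg _) (by linarith)
        _ = 3 * (e + |r|) := by ring
    have h2 : |q * (Δ - 1)| ≤ 3 * (c * β) + a * c ^ 2 + 27 / 128 * e := by
      rw [abs_mul]
      have h3 : |q| * |Δ - 1| ≤ |q| * (3 * (e + |r|) + (|p| * |q| + 3 / 8 * e)) :=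
        mul_le_mul_of_nonneg_left h1 hQ0
      have h4 : |q| * |r| ≤ c * β := mul_le_mul hqc hrβ hR0 (by linarith)
      have h5 : |q| * (|p| * |q|) ≤ a * c ^ 2 := by
        have : |q| * |q| ≤ c * c := mul_le_mul hqc hqc hQ0 (by linarith)
        calc |q| * (|p| * |q|) = |p| * (|q| * |q|) := by ring
          _ ≤ a * (c * c) := mul_le_mul hpa this (by positivity) (by linarith)
          _ = a * c ^ 2 := by ring
      have h6 : |q| * e ≤ 1 / 16 * e := mul_le_mul_of_nonneg_right hq he0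
      nlinarith
    have h7 : |x ^ 2 * (q * (Δ - 1)) - x * e| ≤ |q * (Δ - 1)| + e := by
      refine (abs_sub _ _).trans (add_le_add ?_ ?_)
      · rw [abs_mul]; exact mul_le_of_le_one_left (abs_nonneg _) hx2
      · rw [abs_mul, abs_of_nonneg he0]; exact mul_le_of_le_one_left he0 hx
    have hcβ : 0 ≤ c * β := mul_nonneg (by linarith) (by linarith)
    have hac : 0 ≤ a * c ^ 2 := mul_nonneg (by linarith) (by positivity)
    linarith
  · have e1 : -x * g / Δ + x + x ^ 2 * r =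
        (x * (-(g * e) - g * (x * r) * (e + x * r) - (x * p + e) * (x * q + e) * (1 + x * r))) / Δ := by
      field_simp
      rw [hΔ, hg]; ring
    rw [e1]
    refine (tb_abs_div_le _ _ hΔ38).trans ?_
    rw [abs_mul]
    have h1 : |-(g * e) - g * (x * r) * (e + x * r) - (x * p + e) * (x * q + e) * (1 + x * r)| ≤
        17 / 16 * e + 17 / 16 * (1 / 16 * e + β ^ 2) + (a * c + 3 / 8 * e) * (17 / 16) := by
      refine (abs_sub _ _).trans (add_le_add ((abs_sub _ _).trans (add_le_add ?_ ?_)) ?_)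
      · rw [abs_neg, abs_mul, abs_of_nonneg he0]
        exact mul_le_mul_of_nonneg_right hgabs he0
      · rw [abs_mul, abs_mul]
        have h2 : |x * r| * |e + x * r| ≤ 1 / 16 * e + β ^ 2 := by
          calc |x * r| * |e + x * r| ≤ |r| * (e + |r|) :=
                mul_le_mul hxr hε (abs_nonneg _) hR0
            _ = |r| * e + |r| * |r| := by ring
            _ ≤ 1 / 16 * e + β * β :=
                add_le_add (mul_le_mul_of_nonneg_right hr he0) (mul_le_mul hrβ hrβ hR0 (by linarith))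
            _ = 1 / 16 * e + β ^ 2 := by ring
        calc |g| * |x * r| * |e + x * r| = |g| * (|x * r| * |e + x * r|) := by ring
          _ ≤ 17 / 16 * (1 / 16 * e + β ^ 2) :=
              mul_le_mul hgabs h2 (by positivity) (by norm_num)
      · rw [abs_mul]
        have h3 : |1 + x * r| ≤ 17 / 16 := by
          have := abs_le.1 (hxr.trans hr)
          exact abs_le.2 ⟨by linarith, by linarith⟩
        exact mul_le_mul (hPQ.trans (by linarith)) h3 (abs_nonneg _) (by nlinarith)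
    have h4 : |x| * |-(g * e) - g * (x * r) * (e + x * r) - (x * p + e) * (x * q + e) * (1 + x * r)| ≤
        17 / 16 * e + 17 / 16 * (1 / 16 * e + β ^ 2) + (a * c + 3 / 8 * e) * (17 / 16) :=
      (mul_le_of_le_one_left (abs_nonneg _) hx).trans h1
    have hac : 0 ≤ a * c := mul_nonneg (by linarith) (by linarith)
    have hβ2 : 0 ≤ β ^ 2 := by positivity
    linarith
  · refine (tb_abs_div_le _ _ hΔ38).trans ?_
    rw [abs_mul, abs_neg]
    have : |x| * |x * q + e| ≤ c + e :=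
      (mul_le_of_le_one_left (abs_nonneg _) hx).trans (hQ.trans (by linarith))
    have h0 : 0 ≤ c + e := by linarith
    linarith
  · have e1 : -x * g / Δ + x = (x * (-(g * (e + x * r)) - (x * p + e) * (x * q + e))) / Δ := by
      field_simp
      rw [hΔ, hg]; ring
    rw [e1]
    refine (tb_abs_div_le _ _ hΔ38).trans ?_
    rw [abs_mul]
    have h1 : |-(g * (e + x * r)) - (x * p + e) * (x * q + e)| ≤
        17 / 16 * (e + β) + (a * c + 3 / 8 * e) := by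
      refine (abs_sub _ _).trans (add_le_add ?_ (hPQ.trans (by linarith)))
      rw [abs_neg, abs_mul]
      exact mul_le_mul hgabs (hε.trans (by linarith)) (abs_nonneg _) (by norm_num)
    have h4 := (mul_le_of_le_one_left (abs_nonneg _) hx).trans h1
    have hac : 0 ≤ a * c := mul_nonneg (by linarith) (by linarith)
    have hβ : 0 ≤ β := by linarith
    linarith


theorem TBHyp.sign (H : TBHyp l σ h D) : σ = 1 ∨ σ = -1 :=
  mul_self_eq_one_iff.1 ((sq σ).symm.trans H.hσ)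

theorem TBHyp.abs_x (H : TBHyp l σ h D) : |σ * h| ≤ 1 := by
  have h1 : |σ| = 1 := by
    rcases H.sign with h | h <;> simp [h]
  rw [abs_mul, h1, one_mul, abs_of_pos H.hh]
  exact H.hh1

theorem TBHyp.inv_l (H : TBHyp l σ h D) : 0 < 1 / (l : ℝ) ∧ 1 / (l : ℝ) ≤ 1 / 4 := by
  have h4 : (4 : ℝ) ≤ l := by exact_mod_cast H.hl
  constructor
  · positivity
  · exact one_div_le_one_div_of_le (by norm_num) h4

/-- pure scalar form of the denominator bound -/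
theorem tb_den_scalar (x p q r e : ℝ) (hx : |x| ≤ 1) (he0 : 0 ≤ e) (he : e ≤ 1 / 4) (hp : |p| ≤ 1 / 16)
    (hq : |q| ≤ 1 / 16) (hr : |r| ≤ 1 / 16) :
    3 / 8 ≤ (1 - e - x * r) ^ 2 - (x * p + e) * (x * q + e) ∧ 11 / 16 ≤ 1 - e - x * r ∧
      1 - e - x * r ≤ 17 / 16 ∧ |x * p + e| ≤ |p| + e ∧ |x * q + e| ≤ |q| + e ∧ |x * r| ≤ |r| := by
  have hxr : |x * r| ≤ |r| := by
    rw [abs_mul]; exact mul_le_of_le_one_left (abs_nonneg _) hx
  have hxp : |x * p| ≤ |p| := by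
    rw [abs_mul]; exact mul_le_of_le_one_left (abs_nonneg _) hx
  have hxq : |x * q| ≤ |q| := by
    rw [abs_mul]; exact mul_le_of_le_one_left (abs_nonneg _) hx
  have h1 : |x * p + e| ≤ |p| + e := by
    calc |x * p + e| ≤ |x * p| + |e| := abs_add_le _ _
      _ ≤ |p| + e := by rw [abs_of_nonneg he0]; linarith
  have h2 : |x * q + e| ≤ |q| + e := by
    calc |x * q + e| ≤ |x * q| + |e| := abs_add_le _ _
      _ ≤ |q| + e := by rw [abs_of_nonneg he0]; linarith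
  have hg1 : 11 / 16 ≤ 1 - e - x * r := by
    have := (abs_le.1 (hxr.trans hr)).2
    linarith
  have hg2 : 1 - e - x * r ≤ 17 / 16 := by
    have := (abs_le.1 (hxr.trans hr)).1
    linarith
  refine ⟨?_, hg1, hg2, h1, h2, hxr⟩
  have h3 : (x * p + e) * (x * q + e) ≤ 25 / 256 := by
    have h4 : |(x * p + e) * (x * q + e)| ≤ (5 / 16) * (5 / 16) := by
      rw [abs_mul]
      exact mul_le_mul (by linarith) (by linarith) (abs_nonneg _) (by norm_num)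
    have := (abs_le.1 h4).2
    linarith
  nlinarith

theorem TBHyp.scalar (H : TBHyp l σ h D) :
    3 / 8 ≤ tbG l σ h D ^ 2 - tbPQ l σ h D ∧ 11 / 16 ≤ tbG l σ h D ∧ tbG l σ h D ≤ 17 / 16 :=
  let h := tb_den_scalar (σ * h) (D 0 0) (D 1 1) (D 0 1) (1 / (l : ℝ)) H.abs_x H.inv_l.1.le H.inv_l.2
    (H.small 0 0) (H.small 1 1) (H.small 0 1)
  ⟨h.1, h.2.1, h.2.2.1⟩

theorem tb_den_ge (H : TBHyp l σ h D) : 1 / 4 ≤ tbG l σ h D ^ 2 - tbPQ l σ h D := by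
  have := H.scalar.1
  linarith

/-- the closed form as a matrix -/
noncomputable def tbN (l : ℕ) (σ h : ℝ) (D : Matrix (Fin 2) (Fin 2) ℝ) : Matrix (Fin 2) (Fin 2) ℝ :=
  !![-(σ * h) * (σ * h * D 1 1 + 1 / (l : ℝ)) / (tbG l σ h D ^ 2 - tbPQ l σ h D),
     -(σ * h) * tbG l σ h D / (tbG l σ h D ^ 2 - tbPQ l σ h D);
     -(σ * h) * tbG l σ h D / (tbG l σ h D ^ 2 - tbPQ l σ h D),
     -(σ * h) * (σ * h * D 0 0 + 1 / (l : ℝ)) / (tbG l σ h D ^ 2 - tbPQ l σ h D)]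

theorem tb_M_entries (H : TBHyp l σ h D) :
    ((H0 l σ h)⁻¹ + D) 0 0 = σ * h⁻¹ * (1 / (l : ℝ)) + D 0 0 ∧
    ((H0 l σ h)⁻¹ + D) 0 1 = -(σ * h⁻¹) * (1 - 1 / (l : ℝ)) + D 0 1 ∧
    ((H0 l σ h)⁻¹ + D) 1 0 = -(σ * h⁻¹) * (1 - 1 / (l : ℝ)) + D 0 1 ∧
    ((H0 l σ h)⁻¹ + D) 1 1 = σ * h⁻¹ * (1 / (l : ℝ)) + D 1 1 := by
  have hl2 : 2 < l := by have := H.hl; omega
  have hinv := (PPair.H0_inv hl2 σ h H.hσ H.hh.ne').1
  rw [hinv]
  refine ⟨?_, ?_, ?_, ?_⟩ <;>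
    simp [G0, F2, J2, Matrix.mul_apply, Fin.sum_univ_two, Matrix.one_apply, H.sym]

theorem tb_entry_scalar (x y e p q r Δ : ℝ) (hxy : x * y = 1) (hΔ0 : Δ ≠ 0)
    (hΔ : Δ = (1 - e - x * r) ^ 2 - (x * p + e) * (x * q + e)) :
    (y * e + p) * (-x * (x * q + e) / Δ) + (-y * (1 - e) + r) * (-x * (1 - e - x * r) / Δ) = 1 ∧
    (y * e + p) * (-x * (1 - e - x * r) / Δ) + (-y * (1 - e) + r) * (-x * (x * p + e) / Δ) = 0 := by
  constructor
  · field_simp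
    rw [hΔ]
    linear_combination (-e * (x * q + e) + (1 - e) * (1 - e - x * r)) * hxy
  · field_simp
    linear_combination (-e * (1 - e - x * r) + (1 - e) * (x * p + e)) * hxy

theorem tb_mul_tbN (H : TBHyp l σ h D) : ((H0 l σ h)⁻¹ + D) * tbN l σ h D = 1 := by
  have hΔ : tbG l σ h D ^ 2 - tbPQ l σ h D ≠ 0 := by
    have := tb_den_ge H
    intro h0
    rw [h0] at this
    norm_num at this
  have hxy : σ * h * (σ * h⁻¹) = 1 := by
    have := H.hσ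
    have hh0 : h ≠ 0 := H.hh.ne'
    field_simp
    exact this
  obtain ⟨m00, m01, m10, m11⟩ := tb_M_entries H
  have s1 := tb_entry_scalar (σ * h) (σ * h⁻¹) (1 / (l : ℝ)) (D 0 0) (D 1 1) (D 0 1) _ hxy hΔ rfl
  have s2 := tb_entry_scalar (σ * h) (σ * h⁻¹) (1 / (l : ℝ)) (D 1 1) (D 0 0) (D 0 1) _ hxy hΔ
    (by rw [tbPQ, tbG]; ring)
  ext i j
  fin_cases i <;> fin_cases j
  · simp only [Fin.zero_eta, Fin.isValue, Matrix.mul_apply, Fin.sum_univ_two, m00, m01, tbN,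
      Matrix.of_apply, Matrix.cons_val', Matrix.cons_val_zero, Matrix.cons_val_one,
      Matrix.cons_val_fin_one, Matrix.one_apply_eq]
    exact s1.1
  · simp only [Fin.zero_eta, Fin.mk_one, Fin.isValue, Matrix.mul_apply, Fin.sum_univ_two, m00, m01, tbN,
      Matrix.of_apply, Matrix.cons_val', Matrix.cons_val_zero, Matrix.cons_val_one,
      Matrix.cons_val_fin_one]
    exact s1.2
  · simp only [Fin.zero_eta, Fin.mk_one, Fin.isValue, Matrix.mul_apply, Fin.sum_univ_two, m10, m11, tbN,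
      Matrix.of_apply, Matrix.cons_val', Matrix.cons_val_zero, Matrix.cons_val_one,
      Matrix.cons_val_fin_one]
    rw [add_comm]
    exact s2.2
  · simp only [Fin.mk_one, Fin.isValue, Matrix.mul_apply, Fin.sum_univ_two, m10, m11, tbN,
      Matrix.of_apply, Matrix.cons_val', Matrix.cons_val_zero, Matrix.cons_val_one,
      Matrix.cons_val_fin_one, Matrix.one_apply_eq]
    rw [add_comm]
    exact s2.1

theorem tb_isUnit (H : TBHyp l σ h D) : IsUnit ((H0 l σ h)⁻¹ + D) :=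
  (Matrix.isUnit_iff_isUnit_det _).2 (Matrix.isUnit_det_of_right_inverse (tb_mul_tbN H))

theorem tb_Hgen_eq (H : TBHyp l σ h D) : Hgen l σ h D = tbN l σ h D :=
  Matrix.inv_eq_right_inv (tb_mul_tbN H)

/-- the closed form -/
theorem tb_formula (H : TBHyp l σ h D) :
    Hgen l σ h D 0 0 = -(σ * h) * (σ * h * D 1 1 + 1 / (l : ℝ)) / (tbG l σ h D ^ 2 - tbPQ l σ h D) ∧
    Hgen l σ h D 1 1 = -(σ * h) * (σ * h * D 0 0 + 1 / (l : ℝ)) / (tbG l σ h D ^ 2 - tbPQ l σ h D) ∧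
    Hgen l σ h D 0 1 = -(σ * h) * tbG l σ h D / (tbG l σ h D ^ 2 - tbPQ l σ h D) ∧
    Hgen l σ h D 1 0 = Hgen l σ h D 0 1 := by
  rw [tb_Hgen_eq H]
  exact ⟨rfl, rfl, rfl, rfl⟩

theorem TBHyp.isUnit_H0 (H : TBHyp l σ h D) : IsUnit (H0 l σ h) :=
  (PPair.H0_inv (by have := H.hl; omega) σ h H.hσ H.hh.ne').2

theorem tb_one_add_eq (H : TBHyp l σ h D) : 1 + D * H0 l σ h = ((H0 l σ h)⁻¹ + D) * H0 l σ h := by
  rw [Matrix.add_mul, Matrix.nonsing_inv_mul _ ((Matrix.isUnit_iff_isUnit_det _).1 H.isUnit_H0)]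

/-- `H = H_0 (1 + D H_0)⁻¹` -/
theorem tb_eq_mul_inv (H : TBHyp l σ h D) :
    Hgen l σ h D = H0 l σ h * (1 + D * H0 l σ h)⁻¹ ∧ IsUnit (1 + D * H0 l σ h) := by
  constructor
  · rw [tb_one_add_eq H, Matrix.mul_inv_rev, ← Matrix.mul_assoc,
      Matrix.mul_nonsing_inv _ ((Matrix.isUnit_iff_isUnit_det _).1 H.isUnit_H0), Matrix.one_mul, Hgen]
  · rw [tb_one_add_eq H]
    exact (tb_isUnit H).mul H.isUnit_H0

/-- finite Neumann expansion with exact remainder -/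
theorem tb_neumann (H : TBHyp l σ h D) (J : ℕ) :
    Hgen l σ h D = ∑ j ∈ Finset.range J, H0 l σ h * (-(D * H0 l σ h)) ^ j
      + Hgen l σ h D * (-(D * H0 l σ h)) ^ J := by
  obtain ⟨h1, h2⟩ := tb_eq_mul_inv H
  set y := -(D * H0 l σ h) with hy
  have e : 1 + D * H0 l σ h = 1 - y := by rw [hy]; abel
  rw [e] at h1 h2
  have hdet := (Matrix.isUnit_iff_isUnit_det _).1 h2
  have h3 : (1 - y)⁻¹ = ∑ j ∈ Finset.range J, y ^ j + (1 - y)⁻¹ * y ^ J := by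
    have h4 : (1 - y) * ∑ j ∈ Finset.range J, y ^ j = 1 - y ^ J := mul_neg_geom_sum y J
    have h5 : ∑ j ∈ Finset.range J, y ^ j = (1 - y)⁻¹ * (1 - y ^ J) := by
      rw [← h4, ← Matrix.mul_assoc, Matrix.nonsing_inv_mul _ hdet, Matrix.one_mul]
    rw [h5, Matrix.mul_sub, Matrix.mul_one]
    abel
  rw [← Finset.mul_sum]
  conv_lhs => rw [h1, h3]
  rw [h1, Matrix.mul_add, Matrix.mul_assoc]

/-- coefficient subtraction: `H = H_P - H_P E_pair H` -/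
theorem tb_sub {D E : Matrix (Fin 2) (Fin 2) ℝ} (H : TBHyp l σ h D) (H' : TBHyp l σ h (D + E)) :
    Hgen l σ h (D + E) = Hgen l σ h D - Hgen l σ h D * E * Hgen l σ h (D + E) := by
  have d1 := (Matrix.isUnit_iff_isUnit_det _).1 (tb_isUnit H)
  have d2 := (Matrix.isUnit_iff_isUnit_det _).1 (tb_isUnit H')
  set A := (H0 l σ h)⁻¹ + D with hA
  have hA' : (H0 l σ h)⁻¹ + (D + E) = A + E := by rw [hA]; abel
  rw [hA'] at d2
  have e1 : Hgen l σ h D = A⁻¹ := rfl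
  have e2 : Hgen l σ h (D + E) = (A + E)⁻¹ := by rw [Hgen, hA']
  rw [e1, e2]
  have h1 : A⁻¹ * (A + E) * (A + E)⁻¹ = A⁻¹ := by
    rw [Matrix.mul_assoc, Matrix.mul_nonsing_inv _ d2, Matrix.mul_one]
  have h2 : A⁻¹ * (A + E) = 1 + A⁻¹ * E := by
    rw [Matrix.mul_add, Matrix.nonsing_inv_mul _ d1]
  rw [h2, Matrix.add_mul, Matrix.one_mul] at h1
  exact eq_sub_of_add_eq h1

/-- all scalar bounds at once, for `(p, q) = (D 0 0, D 1 1)` -/
theorem TBHyp.bounds (H : TBHyp l σ h D) (a c β : ℝ) (ha : |D 0 0| ≤ a) (hc : |D 1 1| ≤ c)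
    (hβ : |D 0 1| ≤ β) :
    |-(σ * h) * (σ * h * D 1 1 + 1 / (l : ℝ)) / (tbG l σ h D ^ 2 - tbPQ l σ h D) + (σ * h) ^ 2 * D 1 1|
      ≤ 8 * (c * β + a * c ^ 2 + 1 / (l : ℝ)) ∧
    |-(σ * h) * tbG l σ h D / (tbG l σ h D ^ 2 - tbPQ l σ h D) + σ * h + (σ * h) ^ 2 * D 0 1|
      ≤ 8 * (β ^ 2 + a * c + 1 / (l : ℝ)) ∧
    |-(σ * h) * (σ * h * D 1 1 + 1 / (l : ℝ)) / (tbG l σ h D ^ 2 - tbPQ l σ h D)| ≤ 8 * (c + 1 / (l : ℝ)) ∧
    |-(σ * h) * tbG l σ h D / (tbG l σ h D ^ 2 - tbPQ l σ h D) + σ * h| ≤ 8 * (β + a * c + 1 / (l : ℝ)) :=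
  let s := tb_den_scalar (σ * h) (D 0 0) (D 1 1) (D 0 1) (1 / (l : ℝ)) H.abs_x H.inv_l.1.le H.inv_l.2
    (H.small 0 0) (H.small 1 1) (H.small 0 1)
  tb_scalar_bounds (σ * h) (D 0 0) (D 1 1) (D 0 1) (1 / (l : ℝ)) a c β H.abs_x H.inv_l.1.le H.inv_l.2
    (H.small 0 0) (H.small 1 1) (H.small 0 1) ha hc hβ (tbG l σ h D) (tbG l σ h D ^ 2 - tbPQ l σ h D)
    rfl rfl s.1 s.2.1 s.2.2.1 s.2.2.2.1 s.2.2.2.2.1 s.2.2.2.2.2

/-- all scalar bounds at once, for `(p, q) = (D 1 1, D 0 0)` -/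
theorem TBHyp.bounds' (H : TBHyp l σ h D) (a c β : ℝ) (ha : |D 0 0| ≤ a) (hc : |D 1 1| ≤ c)
    (hβ : |D 0 1| ≤ β) :
    |-(σ * h) * (σ * h * D 0 0 + 1 / (l : ℝ)) / (tbG l σ h D ^ 2 - tbPQ l σ h D) + (σ * h) ^ 2 * D 0 0|
      ≤ 8 * (a * β + c * a ^ 2 + 1 / (l : ℝ)) ∧
    |-(σ * h) * tbG l σ h D / (tbG l σ h D ^ 2 - tbPQ l σ h D) + σ * h + (σ * h) ^ 2 * D 0 1|
      ≤ 8 * (β ^ 2 + c * a + 1 / (l : ℝ)) ∧
    |-(σ * h) * (σ * h * D 0 0 + 1 / (l : ℝ)) / (tbG l σ h D ^ 2 - tbPQ l σ h D)| ≤ 8 * (a + 1 / (l : ℝ)) ∧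
    |-(σ * h) * tbG l σ h D / (tbG l σ h D ^ 2 - tbPQ l σ h D) + σ * h| ≤ 8 * (β + c * a + 1 / (l : ℝ)) :=
  let s := tb_den_scalar (σ * h) (D 0 0) (D 1 1) (D 0 1) (1 / (l : ℝ)) H.abs_x H.inv_l.1.le H.inv_l.2
    (H.small 0 0) (H.small 1 1) (H.small 0 1)
  tb_scalar_bounds (σ * h) (D 1 1) (D 0 0) (D 0 1) (1 / (l : ℝ)) c a β H.abs_x H.inv_l.1.le H.inv_l.2
    (H.small 1 1) (H.small 0 0) (H.small 0 1) hc ha hβ (tbG l σ h D) (tbG l σ h D ^ 2 - tbPQ l σ h D)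
    rfl (by rw [tbPQ]; ring) s.1 s.2.1 s.2.2.1 s.2.2.2.2.1 s.2.2.2.1 s.2.2.2.2.2

theorem TBHyp.x_sq (H : TBHyp l σ h D) : (σ * h) ^ 2 = h ^ 2 := by
  rw [mul_pow, H.hσ, one_mul]

/-- crude bound -/
theorem tb_abs_le (H : TBHyp l σ h D) (i j : Fin 2) : |Hgen l σ h D i j| ≤ 4 := by
  obtain ⟨f00, f11, f01, f10⟩ := tb_formula H
  have s := tb_den_scalar (σ * h) (D 0 0) (D 1 1) (D 0 1) (1 / (l : ℝ)) H.abs_x H.inv_l.1.le H.inv_l.2
    (H.small 0 0) (H.small 1 1) (H.small 0 1)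
  have hx := H.abs_x
  have he := H.inv_l
  have key : ∀ t : ℝ, |t| ≤ 17 / 16 →
      |-(σ * h) * t / (tbG l σ h D ^ 2 - tbPQ l σ h D)| ≤ 4 := by
    intro t ht
    refine (tb_abs_div_le _ _ s.1).trans ?_
    rw [abs_mul, abs_neg]
    have := (mul_le_of_le_one_left (abs_nonneg t) hx).trans ht
    linarith
  have h01 : |Hgen l σ h D 0 1| ≤ 4 := by
    rw [f01]
    exact key _ (abs_le.2 ⟨by linarith [H.scalar.2.1], H.scalar.2.2⟩)
  fin_cases i <;> fin_cases j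
  · show |Hgen l σ h D 0 0| ≤ 4
    rw [f00]
    exact key _ (s.2.2.2.2.1.trans (by linarith [H.small 1 1]))
  · exact h01
  · show |Hgen l σ h D 1 0| ≤ 4
    rw [f10]; exact h01
  · show |Hgen l σ h D 1 1| ≤ 4
    rw [f11]
    exact key _ (s.2.2.2.1.trans (by linarith [H.small 0 0]))

/-- SECOND-ORDER BOUNDS.  With `|D_00| ≤ a`, `|D_11| ≤ c`, `|D_01| ≤ β`:
`H_00 = -h² D_11 + O(c β + a c² + 1/l)`, `H_11 = -h² D_00 + O(a β + a² c + 1/l)`,
`H_01 = -σh - h² D_01 + O(β² + a c + 1/l)`.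
NOTE the refined shape `c β + a c²` (NOT `c (a + β)`): a same-end coefficient always carries the OPPOSITE diagonal entry
(parity claim of cleanup.tex L6.4, class 5); the budgets of L6.7 need it. -/
theorem tb_second_order : ∃ C : ℝ, 0 < C ∧ ∀ (l : ℕ) (σ h : ℝ) (D : Matrix (Fin 2) (Fin 2) ℝ) (a c β : ℝ),
    TBHyp l σ h D → |D 0 0| ≤ a → |D 1 1| ≤ c → |D 0 1| ≤ β →
    |Hgen l σ h D 0 0 + h ^ 2 * D 1 1| ≤ C * (c * β + a * c ^ 2 + 1 / (l : ℝ)) ∧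
    |Hgen l σ h D 1 1 + h ^ 2 * D 0 0| ≤ C * (a * β + a ^ 2 * c + 1 / (l : ℝ)) ∧
    |Hgen l σ h D 0 1 + σ * h + h ^ 2 * D 0 1| ≤ C * (β ^ 2 + a * c + 1 / (l : ℝ)) := by
  refine ⟨8, by norm_num, fun l σ h D a c β H ha hc hβ => ?_⟩
  obtain ⟨f00, f11, f01, -⟩ := tb_formula H
  have b := H.bounds a c β ha hc hβ
  have b' := H.bounds' a c β ha hc hβ
  rw [f00, f11, f01, ← H.x_sq]
  refine ⟨b.1, ?_, b.2.1⟩
  have := b'.1
  rwa [show c * a ^ 2 = a ^ 2 * c by ring] at this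

/-- first-order consequences -/
theorem tb_first_order : ∃ C : ℝ, 0 < C ∧ ∀ (l : ℕ) (σ h : ℝ) (D : Matrix (Fin 2) (Fin 2) ℝ) (a c β : ℝ),
    TBHyp l σ h D → |D 0 0| ≤ a → |D 1 1| ≤ c → |D 0 1| ≤ β →
    |Hgen l σ h D 0 0| ≤ C * (c + 1 / (l : ℝ)) ∧
    |Hgen l σ h D 1 1| ≤ C * (a + 1 / (l : ℝ)) ∧
    |Hgen l σ h D 0 1 + σ * h| ≤ C * (β + a * c + 1 / (l : ℝ)) := by
  refine ⟨8, by norm_num, fun l σ h D a c β H ha hc hβ => ?_⟩
  obtain ⟨f00, f11, f01, -⟩ := tb_formula H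
  have b := H.bounds a c β ha hc hβ
  have b' := H.bounds' a c β ha hc hβ
  rw [f00, f11, f01]
  exact ⟨b.2.2.1, b'.2.2.1, b.2.2.2⟩

/-! ### entrywise nonnegative matrices -/

theorem tb_nonneg_mul {A B : Matrix (Fin 2) (Fin 2) ℝ} (hA : ∀ i j, 0 ≤ A i j) (hB : ∀ i j, 0 ≤ B i j)
    (i j : Fin 2) : 0 ≤ (A * B) i j := by
  rw [Matrix.mul_apply]
  exact Finset.sum_nonneg fun k _ => mul_nonneg (hA i k) (hB k j)

theorem tb_nonneg_pow {A : Matrix (Fin 2) (Fin 2) ℝ} (hA : ∀ i j, 0 ≤ A i j) (k : ℕ) (i j : Fin 2) :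
    0 ≤ (A ^ k) i j := by
  induction k generalizing i j with
  | zero =>
    rw [pow_zero, Matrix.one_apply]
    split_ifs <;> norm_num
  | succ k ih =>
    rw [pow_succ]
    exact tb_nonneg_mul ih hA i j

theorem tb_H0_nonneg (hl : 4 ≤ l) (hh : 0 < h) (i j : Fin 2) : 0 ≤ H0 l (-1) h i j := by
  have h4 : (4 : ℝ) ≤ l := by exact_mod_cast hl
  have h1 : 0 ≤ ((l : ℝ) - 2)⁻¹ := inv_nonneg.2 (by linarith)
  rw [H0, PPair.F2_mul_B2]
  fin_cases i <;> fin_cases j <;> simp [F2, J2] <;> positivity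

/-- the majorant coefficient `Ĥ_P = Ĥ_0 (1 - t̂ Ĥ_0)⁻¹ = Hgen l (-1) h (- t̂)` has nonnegative entries and dominates every partial sum -/
theorem tb_majorant_nonneg {t : Matrix (Fin 2) (Fin 2) ℝ} (H : TBHyp l (-1) h (-t)) (ht : ∀ i j, 0 ≤ t i j)
    (J : ℕ) (i j : Fin 2) :
    0 ≤ (∑ k ∈ Finset.range J, H0 l (-1) h * (t * H0 l (-1) h) ^ k) i j ∧
    (∑ k ∈ Finset.range J, H0 l (-1) h * (t * H0 l (-1) h) ^ k) i j ≤ Hgen l (-1) h (-t) i j := by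
  have h0 : ∀ i j, 0 ≤ H0 l (-1) h i j := tb_H0_nonneg H.hl H.hh
  have hy : ∀ i j, 0 ≤ (t * H0 l (-1) h) i j := tb_nonneg_mul ht h0
  constructor
  · rw [Matrix.sum_apply]
    exact Finset.sum_nonneg fun k _ => tb_nonneg_mul h0 (tb_nonneg_pow hy k) i j
  · have hN := tb_neumann H J
    have e : -(-t * H0 l (-1) h) = t * H0 l (-1) h := by rw [Matrix.neg_mul, neg_neg]
    rw [e] at hN
    have hH : ∀ i j, 0 ≤ Hgen l (-1) h (-t) i j := by
      obtain ⟨f00, f11, f01, f10⟩ := tb_formula H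
      have s := H.scalar
      have hΔ : 0 < tbG l (-1) h (-t) ^ 2 - tbPQ l (-1) h (-t) := by linarith [s.1]
      have he := H.inv_l.1
      have hh := H.hh
      have h01 : 0 ≤ Hgen l (-1) h (-t) 0 1 := by
        rw [f01]
        refine div_nonneg (mul_nonneg (by linarith) (by linarith [s.2.1])) hΔ.le
      intro i j
      fin_cases i <;> fin_cases j
      · show 0 ≤ Hgen l (-1) h (-t) 0 0
        rw [f00]
        refine div_nonneg (mul_nonneg (by linarith) ?_) hΔ.le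
        have := mul_nonneg hh.le (ht 1 1)
        simp only [Matrix.neg_apply]
        nlinarith
      · exact h01
      · show 0 ≤ Hgen l (-1) h (-t) 1 0
        rw [f10]; exact h01
      · show 0 ≤ Hgen l (-1) h (-t) 1 1
        rw [f11]
        refine div_nonneg (mul_nonneg (by linarith) ?_) hΔ.le
        have := mul_nonneg hh.le (ht 0 0)
        simp only [Matrix.neg_apply]
        nlinarith
    have h2 := tb_nonneg_mul hH (tb_nonneg_pow hy J) i j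
    have h3 := congrFun (congrFun hN i) j
    rw [Matrix.add_apply] at h3
    linarith

namespace PPair

variable {n d : ℕ} (π : PPair n d)

theorem Hp_eq_Hgen (σ h : ℝ) (u v : Stub n d) : π.Hp σ h u v = Hgen π.l σ h (π.Dp σ h u v) := rfl

theorem HP_eq_Hgen (L : ℕ) (σ h : ℝ) (u v : Stub n d) :
    π.HP L σ h u v = Hgen π.l σ h (π.Tp L σ h u v) := rfl

/-- entries of the pair blocks in terms of label entries -/
theorem blk_eq_ent (X : Matrix (Fin n) (Fin n) ℝ) (u v : Stub n d) (i j : Fin 2) :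
    π.blk X u v i j = π.ent X (.stub (if i = 0 then u else v)) (.stub (if j = 0 then u else v)) := by
  rw [blk_apply, ent]
  split_ifs <;> rfl

/-- a rank-two update at two labels: `(X U H Uᵀ Y)_{ab} = ∑_{s,s'} X_{a,s} H_{ss'} Y_{s',b}` -/
theorem ent_update (X Y : Matrix (Fin n) (Fin n) ℝ) (Hm : Matrix (Fin 2) (Fin 2) ℝ) (u v : Stub n d)
    (a b : Label n d) :
    π.ent (X * π.Upair ℝ u v * Hm * (π.Upair ℝ u v)ᵀ * Y) a b =
      ∑ s : Fin 2, ∑ s' : Fin 2, π.ent X a (.stub (if s = 0 then u else v)) * Hm s s' *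
        π.ent Y (.stub (if s' = 0 then u else v)) b := by
  have hU : ∀ w : Fin 2 → ℝ, π.Upair ℝ u v *ᵥ w = w 0 • π.xi ℝ u + w 1 • π.xi ℝ v := by
    intro w
    ext k
    simp [Matrix.mulVec, dotProduct, Upair, Fin.sum_univ_two]
    ring
  have hs : ∀ x : Stub n d, π.lvec ℝ (.stub x) = π.xi ℝ x := fun _ => rfl
  simp only [ent, hs, ← Matrix.mulVec_mulVec, Upair_transpose_mulVec, hU, Fin.sum_univ_two,
    if_true, one_ne_zero, if_false]
  generalize π.lvec ℝ a = fa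
  generalize π.lvec ℝ b = fb
  generalize π.xi ℝ u ⬝ᵥ Y *ᵥ fb = α
  generalize π.xi ℝ v ⬝ᵥ Y *ᵥ fb = β
  simp only [Matrix.mulVec_add, Matrix.mulVec_smul, dotProduct_add, dotProduct_smul, smul_eq_mul]
  generalize fa ⬝ᵥ X *ᵥ π.xi ℝ u = γ
  generalize fa ⬝ᵥ X *ᵥ π.xi ℝ v = δ
  simp [Matrix.mulVec, dotProduct, Fin.sum_univ_two]
  ring

end PPair

end Claimed.Agent.R275
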