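import Claimed.Agent.R275.S7AccRows
import Claimed.Agent.R275.S7ContC
import Claimed.Agent.R275.S7Bridge
import Claimed.Agent.R275.TwoByTwo

/-!
# Row 275, Section 7, package S7-UPD: one exposure at the level of pairings

Proof of `StS7Upd` (statement: `S7AccTools.lean`, helper245).  Owner of this file: helper165.  Prefix `s7u_`.

ROUTE.  `W' = s7upd π W` (`Wmat_resolve`), `P̂' = s7upd π P̂` (`s7_contStep`); both `W` and `P̂` are symmetric, so `s7Bridge` transports the update to the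
stub compression, to the global rows and to the global entries; contrast labels follow by linearity.  Invertibility of the two `2 × 2` coefficients:
`posOn1_resolve` (actual), `tb_isUnit` (reference).
-/

set_option autoImplicit false
set_option linter.unusedSectionVars false

namespace Claimed.Agent.R275

open Matrix

/-! ## linearity of the abstract update -/

section Lin

variable {ι : Type*} [Fintype ι] [DecidableEq ι] {K : Type*} [Field K]

theorem s7u_pv_sub (r₁ r₂ : ι → K) (u v : ι) : s7pv (r₁ - r₂) u v = s7pv r₁ u v - s7pv r₂ u v := by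
  funext k
  simp only [s7pv, Pi.sub_apply]
  split_ifs <;> rfl

theorem s7u_rstep_sub (σ h : K) (R : Finset ι) (D : Matrix ι ι K) (r₁ r₂ : ι → K) (u v : ι) :
    s7rstep σ h R D (r₁ - r₂) 0 u v = s7rstep σ h R D r₁ 0 u v - s7rstep σ h R D r₂ 0 u v := by
  unfold s7rstep
  rw [← Matrix.mulVec_sub]
  congr 1
  have h0 : (fun _ : Fin 2 => (0 : K)) = 0 := rfl
  rw [s7u_pv_sub, h0, sub_zero, sub_zero, sub_zero, Matrix.mulVec_sub]
  abel

theorem s7u_q_sub_left (N : Matrix (Fin 2) (Fin 2) K) (a₁ a₂ b : Fin 2 → K) :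
    s7q N (a₁ - a₂) b = s7q N a₁ b - s7q N a₂ b := by
  unfold s7q
  rw [sub_dotProduct]

theorem s7u_q_sub_right (N : Matrix (Fin 2) (Fin 2) K) (a b₁ b₂ : Fin 2 → K) :
    s7q N a (b₁ - b₂) = s7q N a b₁ - s7q N a b₂ := by
  unfold s7q
  rw [Matrix.mulVec_sub, dotProduct_sub]

end Lin

/-! ## entries at output labels -/

section Ent

variable {n d : ℕ} {K : Type*} [Field K]

theorem s7u_ent_glob (X : Matrix (Fin n) (Fin n) K) (i j : Fin n) :
    s7ent X (S7Out.glob i : S7Out n d) (S7Out.glob j) = X i j := by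
  change (Pi.single i 1 : Fin n → K) ⬝ᵥ (X *ᵥ (Pi.single j 1 : Fin n → K)) = X i j
  rw [single_dotProduct, one_mul, Matrix.mulVec_single_one]
  rfl

theorem s7u_ent_ctr_left (X : Matrix (Fin n) (Fin n) K) (x y : Stub n d) (c : S7Out n d) :
    s7ent X (S7Out.ctr x y) c = s7ent X (S7Out.glob x.1) c - s7ent X (S7Out.glob y.1) c := by
  change ((Pi.single x.1 1 - Pi.single y.1 1 : Fin n → K)) ⬝ᵥ _ =
    (Pi.single x.1 1 : Fin n → K) ⬝ᵥ _ - (Pi.single y.1 1 : Fin n → K) ⬝ᵥ _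
  rw [sub_dotProduct]

theorem s7u_ent_ctr_right (X : Matrix (Fin n) (Fin n) K) (a : S7Out n d) (x y : Stub n d) :
    s7ent X a (S7Out.ctr x y) = s7ent X a (S7Out.glob x.1) - s7ent X a (S7Out.glob y.1) := by
  change _ ⬝ᵥ (X *ᵥ (Pi.single x.1 1 - Pi.single y.1 1 : Fin n → K)) =
    _ ⬝ᵥ (X *ᵥ (Pi.single x.1 1 : Fin n → K)) - _ ⬝ᵥ (X *ᵥ (Pi.single y.1 1 : Fin n → K))
  rw [Matrix.mulVec_sub, dotProduct_sub]

theorem s7u_ent_sub (X Y : Matrix (Fin n) (Fin n) K) (a c : S7Out n d) :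
    s7ent (X - Y) a c = s7ent X a c - s7ent Y a c := by
  unfold s7ent
  rw [Matrix.sub_mulVec, dotProduct_sub]

theorem s7u_orow_ctr (π : PPair n d) (X : Matrix (Fin n) (Fin n) K) (x y : Stub n d) :
    s7orow π X (S7Out.ctr x y) = s7orow π X (S7Out.glob x.1) - s7orow π X (S7Out.glob y.1) := rfl

/-- an update of the global entries by a `2 × 2` form of the global rows extends to all output labels -/
theorem s7u_ent_upd (π : PPair n d) (X Y : Matrix (Fin n) (Fin n) K) (N : Matrix (Fin 2) (Fin 2) K)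
    (u v : Stub n d)
    (hXY : ∀ i j, Y i j = X i j - s7q N (s7pv (s7row π X i) u v) (s7pv (s7row π X j) u v))
    (a c : S7Out n d) :
    s7ent Y a c = s7ent X a c - s7q N (s7pv (s7orow π X a) u v) (s7pv (s7orow π X c) u v) := by
  have h1 : ∀ i j : Fin n, s7ent Y (S7Out.glob i : S7Out n d) (S7Out.glob j) =
      s7ent X (S7Out.glob i : S7Out n d) (S7Out.glob j) -
        s7q N (s7pv (s7orow π X (S7Out.glob i)) u v) (s7pv (s7orow π X (S7Out.glob j)) u v) := by
    intro i j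
    rw [s7u_ent_glob, s7u_ent_glob, hXY i j]
    rfl
  have h2 : ∀ (i : Fin n) (c : S7Out n d), s7ent Y (S7Out.glob i : S7Out n d) c =
      s7ent X (S7Out.glob i : S7Out n d) c -
        s7q N (s7pv (s7orow π X (S7Out.glob i)) u v) (s7pv (s7orow π X c) u v) := by
    intro i c
    rcases c with j | ⟨x, y⟩
    · exact h1 i j
    · change s7ent Y _ (S7Out.ctr x y) = s7ent X _ (S7Out.ctr x y) -
        s7q N _ (s7pv (s7orow π X (S7Out.ctr x y)) u v)
      rw [s7u_ent_ctr_right, s7u_ent_ctr_right, s7u_orow_ctr, s7u_pv_sub, s7u_q_sub_right, h1, h1]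
      ring
  rcases a with i | ⟨x, y⟩
  · exact h2 i c
  · change s7ent Y (S7Out.ctr x y) c = s7ent X (S7Out.ctr x y) c -
      s7q N (s7pv (s7orow π X (S7Out.ctr x y)) u v) _
    rw [s7u_ent_ctr_left, s7u_ent_ctr_left, s7u_orow_ctr, s7u_pv_sub, s7u_q_sub_left, h2, h2]
    ring

/-- an update of the global rows extends to all output labels -/
theorem s7u_orow_upd (π π' : PPair n d) (X Y : Matrix (Fin n) (Fin n) K) (σ h : K)
    (R : Finset (Stub n d)) (D : Matrix (Stub n d) (Stub n d) K) (u v : Stub n d)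
    (hXY : ∀ i, s7row π' Y i = s7rstep σ h R D (s7row π X i) 0 u v) (a : S7Out n d) :
    s7orow π' Y a = s7rstep σ h R D (s7orow π X a) 0 u v := by
  rcases a with i | ⟨x, y⟩
  · exact hXY i
  · change s7row π' Y x.1 - s7row π' Y y.1 = s7rstep σ h R D (s7row π X x.1 - s7row π X y.1) 0 u v
    rw [s7u_rstep_sub, hXY, hXY]

end Ent

/-! ## symmetry of the matrices -/

section Symm

variable {n d : ℕ}

theorem s7u_P0_transpose {K : Type*} [Field K] [CharZero K] (π₀ : PPair n d) (φ : ℕ → K) (L : ℕ) (σ h : K) :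
    (s7P0 π₀ φ L σ h)ᵀ = s7P0 π₀ φ L σ h := by
  unfold s7P0
  rw [Matrix.transpose_sum]
  refine Finset.sum_congr rfl fun k _ => ?_
  rw [Matrix.transpose_smul, Matrix.transpose_mul, Matrix.transpose_mul, Pi1_transpose, π₀.Qmat_transpose,
    Matrix.mul_assoc]

theorem s7u_Kinc_transpose {K : Type*} [Field K] [CharZero K] (π₀ π : PPair n d) (σ h : K) :
    (s7Kinc π₀ π σ h)ᵀ = s7Kinc π₀ π σ h := by
  unfold s7Kinc
  rw [Matrix.transpose_smul, Matrix.transpose_sub, π.Mmat_transpose, π₀.Mmat_transpose]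

theorem s7u_ext_trans {π₀ π π' : PPair n d} (h₁ : π₀.Ext π) (h₂ : π.Ext π') : π₀.Ext π' := by
  intro x hx
  have h3 : ¬ π.Unres x := by
    intro h
    apply hx
    have e := h₁ x hx
    have h' : π.mate x = x := h
    rw [h'] at e
    exact e.symm
  rw [h₂ x h3, h₁ x hx]

end Symm

/-- **S7-T13** -/
theorem s7_upd : StS7Upd := by
  intro n d π₀ π φ L σ h u v hn hExt hu hv huv hl hσ hh hh34 hpos hD hUnit hDh
  have hl2 : 2 < π.l := by omega
  have hh0 : h ≠ 0 := hh.ne'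
  have hh1 : h < 1 := by linarith
  have hhsq : h ^ 2 ≠ 1 := by nlinarith
  -- the actual inverse
  obtain ⟨hU, -⟩ := π.isUnit_of_posOn1 hn σ h hpos
  obtain ⟨-, -, -, -, hRt⟩ := π.Mmat_mul_Rinv hn σ h hU
  have hWt : (π.Wmat σ h)ᵀ = π.Wmat σ h := by
    rw [PPair.Wmat_eq_smul, Matrix.transpose_smul, hRt]
  obtain ⟨bW1, bW2, bW3, bW4⟩ := s7Bridge ℝ n d π (π.Wmat σ h) σ h u v hu hv huv hl2 hWt
  have hDp : π.Dp σ h u v = s7blk (s7D π σ h) u v := bW1
  obtain ⟨hpos', hHU⟩ := PPair.posOn1_resolve hn hu hv huv hl σ h hσ hh hh1 hpos (by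
    intro i j
    rw [hDp]
    exact (hD _ _).trans (by norm_num))
  obtain ⟨-, hW'⟩ := PPair.Wmat_resolve hn hu hv huv hl2 σ h hσ hh0 hhsq hU hHU
  have hW'' : (π.resolve u v).Wmat σ h = s7upd π (π.Wmat σ h) σ h u v := hW'
  -- the reference
  set X₀ := s7P0 π₀ (fun k => ((φ k : ℚ) : ℝ)) L σ h with hX₀
  have hPh : s7Ph π₀ π φ L σ h = s7Ref π₀ π X₀ σ h := rfl
  have hPh' : s7Ph π₀ (π.resolve u v) φ L σ h = s7Ref π₀ (π.resolve u v) X₀ σ h := rfl
  have hPt : (s7Ph π₀ π φ L σ h)ᵀ = s7Ph π₀ π φ L σ h :=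
    (s7_contSymm ℝ (Fin n) X₀ (s7Kinc π₀ π σ h) hUnit).2.2.2 (s7u_P0_transpose π₀ _ L σ h)
      (s7u_Kinc_transpose π₀ π σ h)
  obtain ⟨bP1, bP2, bP3, bP4⟩ := s7Bridge ℝ n d π (s7Ph π₀ π φ L σ h) σ h u v hu hv huv hl2 hPt
  have hDht : (s7Dh π₀ π φ L σ h)ᵀ = s7Dh π₀ π φ L σ h := s7ar_Dof_transpose π hPt
  have hTB : TBHyp π.l σ h (s7blk (s7Dh π₀ π φ L σ h) u v) :=
    { hl := hl
      hσ := hσ
      hh := hh
      hh1 := hh1.le
      sym := by
        have := congrFun (congrFun hDht u) v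
        simpa [s7blk, Matrix.transpose_apply] using this
      small := fun i j => hDh _ _ }
  have hHU' : IsUnit ((H0 π.l σ h)⁻¹ + (π.blk (s7Ref π₀ π X₀ σ h) u v - G0 ℝ π.l)) := by
    rw [← hPh, bP1]
    exact tb_isUnit hTB
  obtain ⟨hUnit', hRef'⟩ := s7_contStep ℝ n d π₀ π X₀ σ h u v hExt hu hv huv hl2 hσ hh0 hhsq hUnit hHU'
  have hP'' : s7Ph π₀ (π.resolve u v) φ L σ h = s7upd π (s7Ph π₀ π φ L σ h) σ h u v := hRef'
  refine ⟨hpos', s7u_ext_trans hExt (PPair.s7br_ext hu hv), PPair.resolve_l hu hv huv,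
    PPair.resolve_unres hu hv huv, hUnit', ?_, ?_, ?_, ?_, ?_⟩
  · change s7Dof (π.resolve u v) ((π.resolve u v).Wmat σ h) = _
    rw [hW'']
    exact bW2
  · change s7Dof (π.resolve u v) (s7Ph π₀ (π.resolve u v) φ L σ h) = _
    rw [hP'']
    exact bP2
  · intro a
    rw [hW'']
    exact s7u_orow_upd π (π.resolve u v) _ _ σ h π.unres _ u v bW3 a
  · intro a
    rw [hP'']
    exact s7u_orow_upd π (π.resolve u v) _ _ σ h π.unres _ u v bP3 a
  · intro a c
    unfold s7E s7dE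
    rw [s7u_ent_sub, s7u_ent_sub, hW'', hP'', s7u_ent_upd π _ _ _ u v bW4 a c, s7u_ent_upd π _ _ _ u v bP4 a c]
    change _ = _ + (-(s7q (s7H π.l σ h (s7Dof π (π.Wmat σ h)) u v) _ _) +
      s7q (s7H π.l σ h (s7Dof π (s7Ph π₀ π φ L σ h)) u v) _ _)
    ring

end Claimed.Agent.R275
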