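import Claimed.Agent.R275.S81Defs

/-!
# Row 275, Sec 8.1, package S81-OP: abstract two-point (Lipschitz) bound of the aggregate formula `X - X Ξ H Ξᵀ X` in the elementary operator norm.
Statements and proofs: helper51.  No sorry.
Tools: the calculus of `s7opLE` in `S44A.lean` (`s7opLE_add/_sum/_smul/_mul/_mono/_bilin/_of_bilin/_transpose`; they may be used even while sorried).
`s7opLE D Z := 0 ≤ Z ∧ ∀ x, s7sq (D *ᵥ x) ≤ Z² s7sq x`,  `s7sq r = r ⬝ᵥ r`,  `S81Contr Ξ := (∀ y, |Ξ y|² ≤ |y|²) ∧ (∀ v, |Ξᵀ v|² ≤ |v|²)`.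

PROOFS.
* `s81_H_diff`: expand;  `(1 - H D) A = H` and `(1 - H D)(1 + A D) = 1` by `h1`;  `A' (1 - D' H') = H'` and `(1 + D' A')(1 - D' H') = 1` by `h2`;
  `A - A' + A (D' - D) A' = A (1 + D' A') - (1 + A D) A'`.   (Noncommutative ring identity: `noncomm_ring` after substituting, or by hand.)
* `s81_H_lip`: `‖1 - H D‖ ≤ 9/8`, `‖1 - D' H'‖ ≤ 9/8`, middle factor `≤ δA + δD`, `(9/8)² ≤ 2`.
* `s81_agg_lip`: `X Y X - X' Y' X' = (X - X') Y X + X' (Y - Y') X + X' Y' (X - X')` with `Y = Ξ H Ξᵀ`, `‖Y‖ ≤ 1`, `‖Y - Y'‖ ≤ δH`.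
-/

set_option autoImplicit false
set_option linter.unusedSectionVars false

namespace Claimed.Agent.R275

open Matrix

section

variable {ι κ : Type*} [Fintype ι] [DecidableEq ι] [Fintype κ] [DecidableEq κ]

theorem s81_op_one : s7opLE (1 : Matrix ι ι ℝ) 1 := by
  refine ⟨zero_le_one, fun x => ?_⟩
  rw [Matrix.one_mulVec]; simp

theorem s81_op_neg {D : Matrix ι ι ℝ} {Z : ℝ} (h : s7opLE D Z) : s7opLE (-D) Z := by
  have := s7opLE_smul (-1) h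
  simpa using this

theorem s81_op_sub {D D' : Matrix ι ι ℝ} {Z Z' : ℝ} (h : s7opLE D Z) (h' : s7opLE D' Z') :
    s7opLE (D - D') (Z + Z') := by
  rw [sub_eq_add_neg]
  exact s7opLE_add h (s81_op_neg h')

/-- entries are bounded by the norm -/
theorem s81_op_entry {D : Matrix ι ι ℝ} {Z : ℝ} (h : s7opLE D Z) (i j : ι) : |D i j| ≤ Z := by
  have h1 := s7opLE_bilin h (Pi.single i 1) (Pi.single j 1)
  have e1 : (Pi.single i (1 : ℝ) : ι → ℝ) ⬝ᵥ (D *ᵥ Pi.single j 1) = D i j := by simp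
  have e2 : (Pi.single i (1 : ℝ) : ι → ℝ) ⬝ᵥ Pi.single i 1 = 1 := by simp
  have e3 : (Pi.single j (1 : ℝ) : ι → ℝ) ⬝ᵥ Pi.single j 1 = 1 := by simp
  rw [e1, e2, e3, mul_one, mul_one] at h1
  exact abs_le_of_sq_le_sq h1 h.1

/-- bilinear form, with square roots removed -/
theorem s81_op_form {D : Matrix ι ι ℝ} {Z τ : ℝ} (h : s7opLE D Z) (u v : ι → ℝ) (hu : s7sq u ≤ τ)
    (hv : s7sq v ≤ τ) : |u ⬝ᵥ (D *ᵥ v)| ≤ Z * τ := by
  have h1 := s7opLE_bilin h u v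
  have hu0 : 0 ≤ u ⬝ᵥ u := s44_dot_self_nonneg u
  have hv0 : 0 ≤ v ⬝ᵥ v := s44_dot_self_nonneg v
  have hτ : 0 ≤ τ := hu0.trans hu
  have h2 : (u ⬝ᵥ u) * (v ⬝ᵥ v) ≤ τ * τ := mul_le_mul hu hv hv0 hτ
  have h3 : (u ⬝ᵥ (D *ᵥ v)) ^ 2 ≤ (Z * τ) ^ 2 := by
    refine h1.trans ?_
    have : Z ^ 2 * ((u ⬝ᵥ u) * (v ⬝ᵥ v)) ≤ Z ^ 2 * (τ * τ) := mul_le_mul_of_nonneg_left h2 (sq_nonneg _)
    nlinarith
  exact abs_le_of_sq_le_sq h3 (mul_nonneg h.1 hτ)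

theorem s81_op_conj {Ξ : Matrix ι κ ℝ} (hΞ : S81Contr Ξ) {H : Matrix κ κ ℝ} {Z : ℝ} (h : s7opLE H Z) :
    s7opLE (Ξ * H * Ξᵀ) Z := by
  refine ⟨h.1, fun x => ?_⟩
  rw [← Matrix.mulVec_mulVec, ← Matrix.mulVec_mulVec]
  refine (hΞ.1 _).trans ((h.2 _).trans ?_)
  exact mul_le_mul_of_nonneg_left (hΞ.2 x) (sq_nonneg _)

theorem s81_op_comp {Ξ : Matrix ι κ ℝ} (hΞ : S81Contr Ξ) {X : Matrix ι ι ℝ} {Z : ℝ} (h : s7opLE X Z) :
    s7opLE (Ξᵀ * X * Ξ) Z := by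
  refine ⟨h.1, fun x => ?_⟩
  rw [← Matrix.mulVec_mulVec, ← Matrix.mulVec_mulVec]
  refine (hΞ.2 _).trans ((h.2 _).trans ?_)
  exact mul_le_mul_of_nonneg_left (hΞ.1 x) (sq_nonneg _)

/-- the exact two-point identity for `H = A (1 + D A)⁻¹` -/
theorem s81_H_diff (A A' D D' H H' : Matrix κ κ ℝ) (h1 : H = A - H * D * A) (h2 : H' = A' - A' * D' * H') :
    H - H' = (1 - H * D) * (A - A' + A * (D' - D) * A') * (1 - D' * H') := by
  have a1 : (1 - H * D) * A = H := by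
    rw [Matrix.sub_mul, Matrix.one_mul]; exact h1.symm
  have a2 : A' * (1 - D' * H') = H' := by
    rw [Matrix.mul_sub, Matrix.mul_one, ← Matrix.mul_assoc]; exact h2.symm
  have a3 : (1 - H * D) * (1 + A * D) = 1 := by
    have : (1 - H * D) * (1 + A * D) = 1 + ((1 - H * D) * A - H) * D := by noncomm_ring
    rw [this, a1, sub_self, Matrix.zero_mul, add_zero]
  have a4 : (1 + D' * A') * (1 - D' * H') = 1 := by
    have : (1 + D' * A') * (1 - D' * H') = 1 + D' * (A' * (1 - D' * H') - H') := by noncomm_ring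
    rw [this, a2, sub_self, Matrix.mul_zero, add_zero]
  have e : (1 - H * D) * (A - A' + A * (D' - D) * A') * (1 - D' * H') =
      ((1 - H * D) * A) * ((1 + D' * A') * (1 - D' * H')) -
        ((1 - H * D) * (1 + A * D)) * (A' * (1 - D' * H')) := by noncomm_ring
  rw [e, a1, a2, a3, a4, Matrix.mul_one, Matrix.one_mul]

/-- the two defining identities from invertibility -/
theorem s81_H_ids (A D : Matrix κ κ ℝ) (hU : IsUnit (1 + D * A)) :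
    A * (1 + D * A)⁻¹ = A - A * (1 + D * A)⁻¹ * D * A ∧
      A * (1 + D * A)⁻¹ = A - A * D * (A * (1 + D * A)⁻¹) := by
  have hdet := (Matrix.isUnit_iff_isUnit_det _).1 hU
  have i1 : (1 + D * A)⁻¹ * (1 + D * A) = 1 := Matrix.nonsing_inv_mul _ hdet
  have i2 : (1 + D * A) * (1 + D * A)⁻¹ = 1 := Matrix.mul_nonsing_inv _ hdet
  set V := (1 + D * A)⁻¹ with hV
  constructor
  · have : A * V + A * V * D * A = A * (V * (1 + D * A)) := by noncomm_ring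
    rw [i1, Matrix.mul_one] at this
    exact eq_sub_of_add_eq this
  · have : A * V + A * D * (A * V) = A * ((1 + D * A) * V) := by noncomm_ring
    rw [i2, Matrix.mul_one] at this
    exact eq_sub_of_add_eq this

theorem s81_H_lip (A A' D D' H H' : Matrix κ κ ℝ) (h1 : H = A - H * D * A) (h2 : H' = A' - A' * D' * H')
    (δA δD : ℝ) (hA : s7opLE A 1) (hA' : s7opLE A' 1) (hH : s7opLE H 1) (hH' : s7opLE H' 1)
    (hD : s7opLE D (1 / 8)) (hD' : s7opLE D' (1 / 8)) (hAA : s7opLE (A - A') δA) (hDD : s7opLE (D - D') δD) :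
    s7opLE (H - H') (2 * (δA + δD)) := by
  rw [s81_H_diff A A' D D' H H' h1 h2]
  have b1 : s7opLE (1 - H * D) (1 + 1 * (1 / 8)) := s81_op_sub s81_op_one (s7opLE_mul hH hD)
  have b2 : s7opLE (1 - D' * H') (1 + 1 / 8 * 1) := s81_op_sub s81_op_one (s7opLE_mul hD' hH')
  have hDD' : s7opLE (D' - D) δD := by
    have := s81_op_neg hDD
    rwa [neg_sub] at this
  have b3 : s7opLE (A - A' + A * (D' - D) * A') (δA + 1 * δD * 1) :=
    s7opLE_add hAA (s7opLE_mul (s7opLE_mul hA hDD') hA')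
  refine s7opLE_mono (s7opLE_mul (s7opLE_mul b1 b3) b2) ?_
  have := hAA.1
  have := hDD.1
  nlinarith

theorem s81_agg_op {Ξ : Matrix ι κ ℝ} (hΞ : S81Contr Ξ) (X : Matrix ι ι ℝ) (H : Matrix κ κ ℝ) (B : ℝ)
    (hX : s7opLE X B) (hH : s7opLE H 1) : s7opLE (X - X * Ξ * H * Ξᵀ * X) (B + B ^ 2) := by
  have e : X * Ξ * H * Ξᵀ * X = X * (Ξ * H * Ξᵀ) * X := by simp only [Matrix.mul_assoc]
  rw [e]
  refine s7opLE_mono (s81_op_sub hX (s7opLE_mul (s7opLE_mul hX (s81_op_conj hΞ hH)) hX)) ?_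
  nlinarith

theorem s81_agg_lip {Ξ : Matrix ι κ ℝ} (hΞ : S81Contr Ξ) (X X' : Matrix ι ι ℝ) (H H' : Matrix κ κ ℝ)
    (B δX δH : ℝ) (hX : s7opLE X B) (hX' : s7opLE X' B) (hH : s7opLE H 1) (hH' : s7opLE H' 1)
    (hXX : s7opLE (X - X') δX) (hHH : s7opLE (H - H') δH) :
    s7opLE ((X - X * Ξ * H * Ξᵀ * X) - (X' - X' * Ξ * H' * Ξᵀ * X')) (δX + 2 * B * δX + B ^ 2 * δH) := by
  have e : (X - X * Ξ * H * Ξᵀ * X) - (X' - X' * Ξ * H' * Ξᵀ * X') =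
      (X - X') - ((X - X') * (Ξ * H * Ξᵀ) * X + X' * (Ξ * (H - H') * Ξᵀ) * X +
        X' * (Ξ * H' * Ξᵀ) * (X - X')) := by
    simp only [Matrix.mul_sub, Matrix.sub_mul, Matrix.mul_assoc]
    abel
  rw [e]
  have c1 := s7opLE_mul (s7opLE_mul hXX (s81_op_conj hΞ hH)) hX
  have c2 := s7opLE_mul (s7opLE_mul hX' (s81_op_conj hΞ hHH)) hX
  have c3 := s7opLE_mul (s7opLE_mul hX' (s81_op_conj hΞ hH')) hXX
  refine s7opLE_mono (s81_op_sub hXX (s7opLE_add (s7opLE_add c1 c2) c3)) ?_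
  nlinarith

/-- **the abstract two-point bound**: `P : κ × κ` fixed, `A = -(σ h) P`, `D = Ξᵀ X Ξ - Ps`, `H = A (1 + D A)⁻¹`. -/
theorem s81_two_point {Ξ : Matrix ι κ ℝ} (hΞ : S81Contr Ξ) (Pt Ps : Matrix κ κ ℝ) (hPt : s7opLE Pt 1)
    (X X' : Matrix ι ι ℝ) (c c' B Λ δ : ℝ) (hc : |c| ≤ 1) (hc' : |c'| ≤ 1) (hcc : |c - c'| ≤ δ)
    (hX : s7opLE X B) (hX' : s7opLE X' B) (hXX : s7opLE (X - X') (Λ * δ))
    (hD : s7opLE (Ξᵀ * X * Ξ - Ps) (1 / 8)) (hD' : s7opLE (Ξᵀ * X' * Ξ - Ps) (1 / 8))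
    (hU : IsUnit (1 + (Ξᵀ * X * Ξ - Ps) * (c • Pt))) (hU' : IsUnit (1 + (Ξᵀ * X' * Ξ - Ps) * (c' • Pt)))
    (hH : s7opLE ((c • Pt) * (1 + (Ξᵀ * X * Ξ - Ps) * (c • Pt))⁻¹) 1)
    (hH' : s7opLE ((c' • Pt) * (1 + (Ξᵀ * X' * Ξ - Ps) * (c' • Pt))⁻¹) 1) :
    s7opLE ((X - X * Ξ * ((c • Pt) * (1 + (Ξᵀ * X * Ξ - Ps) * (c • Pt))⁻¹) * Ξᵀ * X) -
        (X' - X' * Ξ * ((c' • Pt) * (1 + (Ξᵀ * X' * Ξ - Ps) * (c' • Pt))⁻¹) * Ξᵀ * X'))
      (s81LipF B Λ * δ) := by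
  have hA : s7opLE (c • Pt) 1 := s7opLE_mono (s7opLE_smul c hPt) (by linarith)
  have hA' : s7opLE (c' • Pt) 1 := s7opLE_mono (s7opLE_smul c' hPt) (by linarith)
  have hAA : s7opLE (c • Pt - c' • Pt) δ := by
    rw [← sub_smul]
    exact s7opLE_mono (s7opLE_smul (c - c') hPt) (by linarith)
  have hDD : s7opLE ((Ξᵀ * X * Ξ - Ps) - (Ξᵀ * X' * Ξ - Ps)) (Λ * δ) := by
    have e : (Ξᵀ * X * Ξ - Ps) - (Ξᵀ * X' * Ξ - Ps) = Ξᵀ * (X - X') * Ξ := by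
      rw [Matrix.mul_sub, Matrix.sub_mul]; abel
    rw [e]
    exact s81_op_comp hΞ hXX
  have hHH := s81_H_lip _ _ _ _ _ _ (s81_H_ids _ _ hU).1 (s81_H_ids _ _ hU').2 δ (Λ * δ) hA hA' hH hH' hD hD'
    hAA hDD
  refine s7opLE_mono (s81_agg_lip hΞ X X' _ _ B (Λ * δ) _ hX hX' hH hH' hXX hHH) ?_
  unfold s81LipF
  nlinarith

end

end Claimed.Agent.R275
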