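import Claimed.Agent.R275.S81Defs

/-!
# Row 275, Sec 8.1, package S81-P0: the tapered stop reference `P̂₀ = s7P0 π₀ φ L σ h = ∑_{k<L} φ k (σ h)^k Π Q_k Π`.
Statements and proofs: helper51.  No sorry of its own.
Tools (may be used while sorried): `s44b_taper_opLE` (S44B), `s43v_abs_qEnt_sub_le` (S43V), `Qmat_transpose`, `Pi1_transpose` (L41B/C), `Umaj`, `UmajC`, `qEnt` (Maj).

PROOFS.
* `s81_P0_op`: `s44b_taper_opLE` with `B = 1` (the two expressions are syntactically equal after `unfold s7P0`).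
* `s81_P0_lip`: `s7P0 .. h₁ - s7P0 .. h₂ = ∑_{k<L} (ψ k (σ h₁)^k) • Π Q_k Π` with `ψ k = if k < L then φ k (1 - (h₂/h₁)^k) else 0`;
  Bernoulli `1 - x^k ≤ k (1 - x)` for `0 ≤ x ≤ 1` gives `|ψ k| ≤ L (h₁ - h₂)/h₁ ≤ 2 √q L (h₁ - h₂)`;  `s44b_taper_opLE` at `h₁` with this bound.
* `s81_P0_entry`: `(Π Q Π)_{p p'} = lvec (glob p) ⬝ᵥ Q *ᵥ lvec (glob p') = qEnt k (glob p) (glob p')` (`Π` symmetric, `Π e_p = lvec (glob p)`), then
  `s43v_abs_qEnt_sub_le`, `|φ k (σ h)^k| ≤ h^k`, and the definition of `Umaj`.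
-/

set_option autoImplicit false
set_option linter.unusedVariables false

namespace Claimed.Agent.R275

open Matrix

section

variable {n d : ℕ} (π₀ : PPair n d)

theorem s81_P0_symm (φ : ℕ → ℝ) (L : ℕ) (σ h : ℝ) : (s7P0 π₀ φ L σ h)ᵀ = s7P0 π₀ φ L σ h := by
  unfold s7P0
  rw [Matrix.transpose_sum]
  refine Finset.sum_congr rfl fun k _ => ?_
  rw [Matrix.transpose_smul, Matrix.transpose_mul, Matrix.transpose_mul, Pi1_transpose, π₀.Qmat_transpose,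
    Matrix.mul_assoc]

theorem s81_P0_op (hd : 3 ≤ d) (hn : 0 < n) (h : ℝ) (hh : 0 < h) (hq : ((d : ℝ) - 1) * h ^ 2 ≤ 1)
    (hp : PosOn1 (π₀.Mmat (1 : ℝ) h)) (hm : PosOn1 (π₀.Mmat (-1 : ℝ) h)) (σ : ℝ) (hσ : σ ^ 2 = 1) (L : ℕ)
    (φ : ℕ → ℝ) (hφ : ∀ k, |φ k| ≤ 1) : s7opLE (s7P0 π₀ φ L σ h) (s81B L) := by
  have := π₀.s44b_taper_opLE hd hn h hh hq hp hm σ hσ L φ 1 hφ
  rw [mul_one] at this
  exact this

/-- two-point bound; positivity is needed at the LARGER parameter only -/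
theorem s81_P0_lip (hd : 3 ≤ d) (hn : 0 < n) (h₁ h₂ : ℝ) (h2 : 0 < h₂) (h21 : h₂ ≤ h₁)
    (hlo : 1 / (2 * Real.sqrt ((d : ℝ) - 1)) ≤ h₁) (hq : ((d : ℝ) - 1) * h₁ ^ 2 ≤ 1)
    (hp : PosOn1 (π₀.Mmat (1 : ℝ) h₁)) (hm : PosOn1 (π₀.Mmat (-1 : ℝ) h₁)) (σ : ℝ) (hσ : σ ^ 2 = 1) (L : ℕ)
    (φ : ℕ → ℝ) (hφ : ∀ k, |φ k| ≤ 1) :
    s7opLE (s7P0 π₀ φ L σ h₁ - s7P0 π₀ φ L σ h₂) (s81Lam d L * (h₁ - h₂)) := by
  have h1 : 0 < h₁ := lt_of_lt_of_le h2 h21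
  have hq2 : (2 : ℝ) ≤ (d : ℝ) - 1 := by
    have : (3 : ℝ) ≤ d := by exact_mod_cast hd
    linarith
  have hs : 0 < Real.sqrt ((d : ℝ) - 1) := Real.sqrt_pos.2 (by linarith)
  set r := Real.sqrt ((d : ℝ) - 1) with hr
  set x := h₂ / h₁ with hx
  have hx0 : 0 < x := div_pos h2 h1
  have hx1 : x ≤ 1 := (div_le_one h1).2 h21
  have hxx : 1 - x ≤ 2 * r * (h₁ - h₂) := by
    have e : 1 - x = (h₁ - h₂) / h₁ := by rw [hx]; field_simp
    rw [e, div_le_iff₀ h1]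
    have : 1 ≤ 2 * r * h₁ := by
      rw [div_le_iff₀ (by positivity)] at hlo
      linarith
    nlinarith
  set ψ : ℕ → ℝ := fun k => if k < L then φ k * (1 - x ^ k) else 0 with hψ
  have hψB : ∀ k, |ψ k| ≤ 2 * r * L * (h₁ - h₂) := by
    intro k
    have hnn : 0 ≤ 2 * r * L * (h₁ - h₂) := by
      have : 0 ≤ h₁ - h₂ := by linarith
      positivity
    by_cases hk : k < L
    · simp only [hψ, if_pos hk]
      have b1 : 1 + (k : ℝ) * (x - 1) ≤ (1 + (x - 1)) ^ k := one_add_mul_le_pow (by linarith) k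
      rw [add_sub_cancel] at b1
      have b2 : x ^ k ≤ 1 := pow_le_one₀ hx0.le hx1
      have b3 : |1 - x ^ k| ≤ (L : ℝ) * (1 - x) := by
        rw [abs_of_nonneg (by linarith)]
        have : (k : ℝ) ≤ L := by exact_mod_cast hk.le
        nlinarith
      rw [abs_mul]
      calc |φ k| * |1 - x ^ k| ≤ 1 * ((L : ℝ) * (1 - x)) :=
            mul_le_mul (hφ k) b3 (abs_nonneg _) zero_le_one
        _ ≤ 2 * r * L * (h₁ - h₂) := by
            have : (0 : ℝ) ≤ L := Nat.cast_nonneg _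
            nlinarith
    · simp only [hψ, if_neg hk, abs_zero]
      exact hnn
  have key := π₀.s44b_taper_opLE hd hn h₁ h1 hq hp hm σ hσ L ψ _ hψB
  have e : s7P0 π₀ φ L σ h₁ - s7P0 π₀ φ L σ h₂ =
      ∑ k ∈ Finset.range L, (ψ k * (σ * h₁) ^ k) • (Pi1 ℝ n * π₀.Qmat ℝ k * Pi1 ℝ n) := by
    unfold s7P0
    rw [← Finset.sum_sub_distrib]
    refine Finset.sum_congr rfl fun k hk => ?_
    rw [← sub_smul]
    congr 1
    simp only [hψ, if_pos (Finset.mem_range.1 hk)]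
    have : (σ * h₂) ^ k = (σ * h₁) ^ k * x ^ k := by
      rw [← mul_pow, hx]
      congr 1
      field_simp
    rw [this]; ring
  rw [e]
  refine s7opLE_mono key (le_of_eq ?_)
  unfold s81Lam s81B
  ring

/-- entries of a compression to `1^⊥` -/
theorem s81_Pi_entry (hn : 0 < n) (Q : Matrix (Fin n) (Fin n) ℝ) (p p' : Fin n) :
    (Pi1 ℝ n * Q * Pi1 ℝ n) p p' = π₀.ent Q (.glob p) (.glob p') := by
  have a1 : ∀ v, Pi1 ℝ n p v = π₀.lvec ℝ (.glob p) v := by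
    intro v
    simp [Pi1, J1, PPair.lvec, Matrix.one_apply]
  have a2 : ∀ w, Pi1 ℝ n w p' = π₀.lvec ℝ (.glob p') w := by
    intro w
    simp [Pi1, J1, PPair.lvec, Matrix.one_apply, eq_comm]
  simp only [PPair.ent, Matrix.mul_apply, dotProduct, Matrix.mulVec, a1, a2]
  simp only [Finset.sum_mul, Finset.mul_sum]
  rw [Finset.sum_comm]
  exact Finset.sum_congr rfl fun v _ => Finset.sum_congr rfl fun w _ => by ring

/-- the stop reference is the weighted sum of the actual walks, up to the virtual and centring terms -/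
theorem s81_P0_entry (hd : 3 ≤ d) (hn : 0 < n) (hl : 0 < π₀.l) (L : ℕ) (σ h : ℝ) (hσ : σ ^ 2 = 1) (hh : 0 ≤ h)
    (φ : ℕ → ℝ) (hφ : ∀ k, |φ k| ≤ 1) (p p' : Fin n) :
    |s7P0 π₀ φ L σ h p p' - ∑ k ∈ Finset.range L, φ k * (σ * h) ^ k * π₀.Nact ℝ k p p'| ≤
      Umaj d (Cmaj d) π₀.l L h := by
  have hσa : |σ| = 1 := by
    have : |σ| ^ 2 = 1 := by rw [sq_abs]; exact hσ
    nlinarith [abs_nonneg σ]
  have e : s7P0 π₀ φ L σ h p p' = ∑ k ∈ Finset.range L, φ k * (σ * h) ^ k * π₀.qEnt k (.glob p) (.glob p') := by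
    unfold s7P0
    rw [Matrix.sum_apply]
    refine Finset.sum_congr rfl fun k _ => ?_
    rw [Matrix.smul_apply, smul_eq_mul, s81_Pi_entry π₀ hn]
    rfl
  rw [e, ← Finset.sum_sub_distrib]
  refine (Finset.abs_sum_le_sum_abs _ _).trans ?_
  unfold Umaj
  refine Finset.sum_le_sum fun k _ => ?_
  have b := π₀.s43v_abs_qEnt_sub_le hd hn hl k (.glob p) (.glob p')
  have e2 : φ k * (σ * h) ^ k * π₀.qEnt k (.glob p) (.glob p') - φ k * (σ * h) ^ k * π₀.Nact ℝ k p p' =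
      φ k * (σ * h) ^ k * (π₀.qEnt k (.glob p) (.glob p') - π₀.Nact ℝ k p p') := by ring
  rw [e2, abs_mul, abs_mul, abs_pow, abs_mul, hσa, one_mul, abs_of_nonneg hh]
  have hk : 0 ≤ h ^ k := pow_nonneg hh k
  calc |φ k| * h ^ k * |π₀.qEnt k (.glob p) (.glob p') - π₀.Nact ℝ k p p'|
      ≤ 1 * h ^ k * UmajC d (Cmaj d) π₀.l k :=
        mul_le_mul (mul_le_mul_of_nonneg_right (hφ k) hk) b (abs_nonneg _) (by positivity)
    _ = UmajC d (Cmaj d) π₀.l k * h ^ k := by ring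

end

end Claimed.Agent.R275
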