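import Claimed.Agent.R275.S81Defs

/-!
# Row 275, Sec 8.1, package S81-RES: the difference quotient of the resolvent, confinement, `s8Res = m_h W`.
Statements and proofs: helper51.  No sorry.
Tools: `L41B` (`compN`, `invOn1`, `invOn1_spec`, `J1`/`Pi1` algebra, `Mmat_complete`, `isUnit_of_posOn1` (copy its proof for a general `M`)), `L41D`
(`PosOn1.nonneg`), `S8Graph` (`s8Res_eq_Rinv`, `s8_adjM_symm`, `s8_adjM_row`).

PROOF of `s81_invOn1_sq_le`.  `M' = M + c`, `G = compN M`, `G' = compN M'`; both are invertible (`PosOn1 M`, `PosOn1 M'`), `G' - G = c Π`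
(`Π (c • 1) Π = c Π`).  `R = G⁻¹ - J`, `R' = G'⁻¹ - J`.  By `invOn1_spec`: `M R = R M = Π`, `R J = J R = 0`, so `R Π = Π R = R`; same for `R'`.
(a) `R - R' = c R R'`:  `R (M' - M) R' = R M' R' - R M R' = R Π - Π R' = R - R'`.      (b) the same with the roles exchanged: `R - R' = c R' R`.
(c) `R R' - R' R' = (R - R') R' = c R' R R'`, and `(R' R R')_pp = (R' e_p)ᵀ R (R' e_p) ≥ 0` because `R` is positive semidefinite:
    `xᵀ R x = (R x)ᵀ M (R x)` (`R M R = Π R = R`), `R x ⟂ 1`, `PosOn1.nonneg`.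
(d) `(R'R')_pp ≤ (R R')_pp = (R - R')_pp / c`.
-/

set_option autoImplicit false

namespace Claimed.Agent.R275

open Matrix

/-- positivity on `1^⊥` gives invertibility of the completed compression (general `M`; cf. `PPair.isUnit_of_posOn1`) -/
theorem s81_isUnit_compN {n : ℕ} (hn : 0 < n) (M : Matrix (Fin n) (Fin n) ℝ) (hpos : PosOn1 M) :
    IsUnit (compN M) := by
  have hnR : (n : ℝ) ≠ 0 := Nat.cast_ne_zero.2 hn.ne'
  rw [Matrix.isUnit_iff_isUnit_det, isUnit_iff_ne_zero]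
  intro hdet
  obtain ⟨x, hx0, hx⟩ := Matrix.exists_mulVec_eq_zero_iff.2 hdet
  have hJ : J1 ℝ n *ᵥ x = 0 := by
    have := congrArg (fun y => J1 ℝ n *ᵥ y) hx
    simp only [Matrix.mulVec_mulVec, J1_mul_compN hn, Matrix.mulVec_zero] at this
    exact this
  have hs : ∑ i, x i = 0 := by
    have e2 := congrFun hJ ⟨0, hn⟩
    rw [J1_mulVec] at e2
    rcases mul_eq_zero.1 e2 with e3 | e3
    · exact absurd e3 (inv_ne_zero hnR)
    · exact e3
  have hP : Pi1 ℝ n *ᵥ x = x := Pi1_mulVec_of_sum_zero x hs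
  have h1 : x ⬝ᵥ (M *ᵥ x) = 0 := by
    have h2 : compN M *ᵥ x = Pi1 ℝ n *ᵥ (M *ᵥ x) := by
      rw [compN, Matrix.add_mulVec, hJ, add_zero, ← Matrix.mulVec_mulVec, ← Matrix.mulVec_mulVec, hP]
    have h3 : x ⬝ᵥ (Pi1 ℝ n *ᵥ (M *ᵥ x)) = x ⬝ᵥ (M *ᵥ x) := by
      rw [Matrix.dotProduct_mulVec, ← Matrix.mulVec_transpose, Pi1_transpose, hP]
    rw [← h3, ← h2, hx, dotProduct_zero]
  exact absurd h1 (hpos x hs hx0).ne'

/-- sums of the rows of a matrix annihilated by `J` -/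
theorem s81_sum_of_J1_mul {n : ℕ} (hn : 0 < n) (R : Matrix (Fin n) (Fin n) ℝ) (hR : J1 ℝ n * R = 0)
    (x : Fin n → ℝ) : ∑ i, (R *ᵥ x) i = 0 := by
  have hnR : (n : ℝ) ≠ 0 := Nat.cast_ne_zero.2 hn.ne'
  have h1 : J1 ℝ n *ᵥ (R *ᵥ x) = 0 := by rw [Matrix.mulVec_mulVec, hR, Matrix.zero_mulVec]
  have e2 := congrFun h1 ⟨0, hn⟩
  rw [J1_mulVec] at e2
  rcases mul_eq_zero.1 e2 with e3 | e3
  · exact absurd e3 (inv_ne_zero hnR)
  · exact e3

/-- `invOn1 M` is positive semidefinite -/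
theorem s81_invOn1_psd {n : ℕ} (hn : 0 < n) (M : Matrix (Fin n) (Fin n) ℝ) (hMt : Mᵀ = M) (c₀ : ℝ)
    (hM1 : M *ᵥ (fun _ => 1) = fun _ => c₀) (hpos : PosOn1 M) (x : Fin n → ℝ) :
    0 ≤ x ⬝ᵥ (invOn1 M *ᵥ x) := by
  obtain ⟨h1, h2, h3, h4, h5⟩ := invOn1_spec hn M c₀ hMt hM1 (s81_isUnit_compN hn M hpos)
  set R := invOn1 M with hR
  have hPR : Pi1 ℝ n * R = R := by rw [Pi1, Matrix.sub_mul, Matrix.one_mul, h4, sub_zero]
  have hRMR : R * M * R = R := by rw [h2, hPR]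
  have e : x ⬝ᵥ (R *ᵥ x) = (R *ᵥ x) ⬝ᵥ (M *ᵥ (R *ᵥ x)) := by
    conv_lhs => rw [← hRMR]
    rw [← Matrix.mulVec_mulVec, ← Matrix.mulVec_mulVec, Matrix.dotProduct_mulVec, ← Matrix.mulVec_transpose, h5]
  rw [e]
  exact hpos.nonneg _ (s81_sum_of_J1_mul hn R h4 x)

/-- the shifted matrix inherits the hypotheses -/
theorem s81_shift_hyp {n : ℕ} (M : Matrix (Fin n) (Fin n) ℝ) (hMt : Mᵀ = M) (c₀ : ℝ)
    (hM1 : M *ᵥ (fun _ => 1) = fun _ => c₀) (hpos : PosOn1 M) (c : ℝ) (hc : 0 < c) :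
    (M + c • (1 : Matrix (Fin n) (Fin n) ℝ))ᵀ = M + c • (1 : Matrix (Fin n) (Fin n) ℝ) ∧
      (M + c • (1 : Matrix (Fin n) (Fin n) ℝ)) *ᵥ (fun _ => 1) = (fun _ => c₀ + c) ∧
      PosOn1 (M + c • (1 : Matrix (Fin n) (Fin n) ℝ)) := by
  refine ⟨?_, ?_, ?_⟩
  · rw [Matrix.transpose_add, hMt, Matrix.transpose_smul, Matrix.transpose_one]
  · rw [Matrix.add_mulVec, hM1, Matrix.smul_mulVec, Matrix.one_mulVec]
    ext i
    simp
  · intro v hv hv0
    rw [Matrix.add_mulVec, Matrix.smul_mulVec, Matrix.one_mulVec, dotProduct_add, dotProduct_smul, smul_eq_mul]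
    have h1 := hpos v hv hv0
    have h2 : 0 ≤ v ⬝ᵥ v := by
      simp only [dotProduct]
      exact Finset.sum_nonneg fun i _ => mul_self_nonneg _
    nlinarith

/-- resolvent identity -/
theorem s81_invOn1_sub {n : ℕ} (hn : 0 < n) (M : Matrix (Fin n) (Fin n) ℝ) (hMt : Mᵀ = M) (c₀ : ℝ)
    (hM1 : M *ᵥ (fun _ => 1) = fun _ => c₀) (hpos : PosOn1 M) (c : ℝ) (hc : 0 < c) :
    invOn1 M - invOn1 (M + c • (1 : Matrix (Fin n) (Fin n) ℝ)) =
        c • (invOn1 M * invOn1 (M + c • (1 : Matrix (Fin n) (Fin n) ℝ))) ∧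
      invOn1 M - invOn1 (M + c • (1 : Matrix (Fin n) (Fin n) ℝ)) =
        c • (invOn1 (M + c • (1 : Matrix (Fin n) (Fin n) ℝ)) * invOn1 M) := by
  obtain ⟨t1, t2, t3⟩ := s81_shift_hyp M hMt c₀ hM1 hpos c hc
  obtain ⟨h1, h2, h3, h4, h5⟩ := invOn1_spec hn M c₀ hMt hM1 (s81_isUnit_compN hn M hpos)
  obtain ⟨k1, k2, k3, k4, k5⟩ := invOn1_spec hn _ (c₀ + c) t1 t2 (s81_isUnit_compN hn _ t3)
  set M' := M + c • (1 : Matrix (Fin n) (Fin n) ℝ) with hM'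
  set R := invOn1 M with hR
  set R' := invOn1 M' with hR'
  have hPR : Pi1 ℝ n * R = R := by rw [Pi1, Matrix.sub_mul, Matrix.one_mul, h4, sub_zero]
  have hRP : R * Pi1 ℝ n = R := by rw [Pi1, Matrix.mul_sub, Matrix.mul_one, h3, sub_zero]
  have hPR' : Pi1 ℝ n * R' = R' := by rw [Pi1, Matrix.sub_mul, Matrix.one_mul, k4, sub_zero]
  have hRP' : R' * Pi1 ℝ n = R' := by rw [Pi1, Matrix.mul_sub, Matrix.mul_one, k3, sub_zero]
  have hd : M' - M = c • (1 : Matrix (Fin n) (Fin n) ℝ) := by rw [hM']; abel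
  constructor
  · calc R - R' = R * (M' * R') - (R * M) * R' := by rw [k1, h2, hRP, hPR']
      _ = R * (M' - M) * R' := by
        rw [Matrix.mul_sub, Matrix.sub_mul, Matrix.mul_assoc R M' R']
      _ = c • (R * R') := by rw [hd, Matrix.mul_smul, Matrix.mul_one, Matrix.smul_mul]
  · calc R - R' = (R' * M') * R - R' * (M * R) := by rw [k2, h1, hRP', hPR]
      _ = R' * (M' - M) * R := by
        rw [Matrix.mul_sub, Matrix.sub_mul, Matrix.mul_assoc R' M R]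
      _ = c • (R' * R) := by rw [hd, Matrix.mul_smul, Matrix.mul_one, Matrix.smul_mul]

/-- **the difference quotient dominates the squared resolvent on the diagonal** -/
theorem s81_invOn1_sq_le {n : ℕ} (hn : 0 < n) (M : Matrix (Fin n) (Fin n) ℝ) (hMt : Mᵀ = M) (c₀ : ℝ)
    (hM1 : M *ᵥ (fun _ => 1) = fun _ => c₀) (hpos : PosOn1 M) (c : ℝ) (hc : 0 < c) (p : Fin n) :
    (invOn1 (M + c • (1 : Matrix (Fin n) (Fin n) ℝ)) * invOn1 (M + c • (1 : Matrix (Fin n) (Fin n) ℝ))) p p ≤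
      (invOn1 M p p - invOn1 (M + c • (1 : Matrix (Fin n) (Fin n) ℝ)) p p) / c := by
  obtain ⟨t1, t2, t3⟩ := s81_shift_hyp M hMt c₀ hM1 hpos c hc
  obtain ⟨-, -, -, -, k5⟩ := invOn1_spec hn _ (c₀ + c) t1 t2 (s81_isUnit_compN hn _ t3)
  obtain ⟨s1, s2⟩ := s81_invOn1_sub hn M hMt c₀ hM1 hpos c hc
  have psd := s81_invOn1_psd hn M hMt c₀ hM1 hpos
  set R := invOn1 M with hR
  set R' := invOn1 (M + c • (1 : Matrix (Fin n) (Fin n) ℝ)) with hR'
  -- `(R R' - R' R')_pp = c (R' R R')_pp ≥ 0`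
  have e1 : R * R' - R' * R' = c • (R' * R * R') := by
    rw [← Matrix.sub_mul, s2, Matrix.smul_mul]
  have e2 : (R' * R * R') p p = (R' *ᵥ Pi.single p 1) ⬝ᵥ (R *ᵥ (R' *ᵥ Pi.single p 1)) := by
    have a1 : (R' * R * R') p p = Pi.single p 1 ⬝ᵥ ((R' * R * R') *ᵥ Pi.single p 1) := by
      simp
    rw [a1, ← Matrix.mulVec_mulVec, ← Matrix.mulVec_mulVec, Matrix.dotProduct_mulVec,
      ← Matrix.mulVec_transpose, k5]
  have e3 : 0 ≤ (R' * R * R') p p := by rw [e2]; exact psd _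
  have e4 : (R * R') p p = (R p p - R' p p) / c := by
    have := congrFun (congrFun s1 p) p
    simp only [Matrix.sub_apply, Matrix.smul_apply, smul_eq_mul] at this
    rw [this]; field_simp
  have e5 := congrFun (congrFun e1 p) p
  simp only [Matrix.sub_apply, Matrix.smul_apply, smul_eq_mul] at e5
  rw [← e4]
  nlinarith [mul_nonneg hc.le e3]

namespace PPair

variable {n d : ℕ} (π : PPair n d)

/-- first inequality of (8.62) -/
theorem s81_psi_le (hc : π.Complete) (hn : 0 < n) (b : Bool) (h₁ : ℝ) (z₂ : ℝ) (hz : zfun d h₁ < z₂)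
    (hpos : PosOn1 (π.Mmat (sgn b : ℝ) h₁)) (p : Fin n) :
    π.s8Psi b z₂ p p ≤ (π.s8Res b (zfun d h₁) p p - π.s8Res b z₂ p p) / (z₂ - zfun d h₁) := by
  rw [π.Mmat_complete hc] at hpos
  set M := zfun d h₁ • (1 : Matrix (Fin n) (Fin n) ℝ) - (sgn b : ℝ) • π.adjM ℝ with hM
  have hMt : Mᵀ = M := by
    rw [hM, Matrix.transpose_sub, Matrix.transpose_smul, Matrix.transpose_smul, Matrix.transpose_one,
      π.s8_adjM_symm]
  have hM1 : M *ᵥ (fun _ => 1) = fun _ => zfun d h₁ - (sgn b : ℝ) * d := by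
    rw [hM, Matrix.sub_mulVec, Matrix.smul_mulVec, Matrix.smul_mulVec, Matrix.one_mulVec,
      π.s8_adjM_mulVec_one hc]
    ext i
    simp
  have hM2 : M + (z₂ - zfun d h₁) • (1 : Matrix (Fin n) (Fin n) ℝ) =
      z₂ • (1 : Matrix (Fin n) (Fin n) ℝ) - (sgn b : ℝ) • π.adjM ℝ := by
    rw [hM, sub_smul]; abel
  have := s81_invOn1_sq_le hn M hMt _ hM1 hpos (z₂ - zfun d h₁) (by linarith) p
  rw [hM2] at this
  exact this

/-- the resolvent is `m_h W` -/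
theorem s81_res_eq (hc : π.Complete) (b : Bool) (h : ℝ) (hh : h ≠ 0) (hh1 : h ^ 2 ≠ 1) (p p' : Fin n) :
    π.s8Res b (zfun d h) p p' = mh h * π.Wmat (sgn b : ℝ) h p p' := by
  rw [π.s8Res_eq_Rinv hc, π.Wmat_eq_smul, Matrix.smul_apply, smul_eq_mul, ← mul_assoc,
    mul_inv_cancel₀ (mh_ne_zero hh hh1), one_mul]

/-- confinement from positivity at one point -/
theorem s81_conf (hc : π.Complete) (b : Bool) (h : ℝ) (hpos : PosOn1 (π.Mmat (sgn b : ℝ) h)) (t : ℝ)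
    (ht : zfun d h ≤ t) (v : Fin n → ℝ) (hv : ∑ p, v p = 0) :
    (sgn b : ℝ) * (v ⬝ᵥ (π.adjM ℝ *ᵥ v)) ≤ t * (v ⬝ᵥ v) := by
  have h1 := hpos.nonneg v hv
  rw [π.Mmat_complete hc, Matrix.sub_mulVec, Matrix.smul_mulVec, Matrix.smul_mulVec, Matrix.one_mulVec,
    dotProduct_sub, dotProduct_smul, dotProduct_smul, smul_eq_mul, smul_eq_mul] at h1
  have h2 : 0 ≤ v ⬝ᵥ v := by
    simp only [dotProduct]
    exact Finset.sum_nonneg fun i _ => mul_self_nonneg _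
  nlinarith

end PPair

end Claimed.Agent.R275
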