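import Claimed.Agent.R275.S81Res

/-!
# Row 275, Sec 8.1, package S81-SQ: the scalar functions `m_h`, `z(h)`, and (8.62) from two consecutive points (non-asymptotic form of Lemma 8.1).
Statements and proofs: helper51.  No sorry.
Tools (may be used while sorried): `PPair.s81_psi_le`, `PPair.s81_res_eq` (S81Res), `s8_zfun_sub` (S8Asym).

PROOF of `s81_sq_pair`.  `q = d-1`, `Δ = h₁ - h₂ > 0`, `x₂ = 1 - √q h₂ > 0`, `w₂ = z(h₂) - s = x₂²/h₂` (`s8_zfun_sub`), `h₂ < h₁ < 1/√q ≤ 1/√2`.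
 (1) `z(h₂) - z(h₁) = Δ (1 - q h₁ h₂)/(h₁ h₂)` and `1 - q h₁ h₂ ≥ x₂` (because `√q h₁ ≤ 1`).
 (2) `Ψ(z₂)_pp ≤ (R₁ - R₂)_pp/(z₂ - z₁)` (`s81_psi_le`), `R_i = m_i W_i` (`s81_res_eq`), `0 ≤ m_i ≤ 3/2`:  `(R₁ - R₂)_pp ≤ CL Δ + 3 β`.
 (3) `(CL Δ + 3 β) h₁ h₂/(Δ x₂) = CL h₁ h₂/x₂ + 3 β h₁ h₂/(Δ x₂)`;  `x₂ = √w₂ √h₂`, so `h₁ h₂/x₂ = h₁ √h₂/√w₂ ≤ 1/√w₂`;
     `1/Δ ≤ κ/x₂`, so `3 β h₁ h₂/(Δ x₂) ≤ 3 β κ h₁ h₂/x₂² = 3 β κ h₁/w₂ ≤ 3 κ/√w₂` (`β ≤ √w₂`).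
-/

set_option autoImplicit false
set_option linter.unusedVariables false

namespace Claimed.Agent.R275

open Matrix

theorem s81_mh_bounds (h : ℝ) (h0 : 0 ≤ h) (h2 : h ^ 2 ≤ 1 / 2) : 0 ≤ mh h ∧ mh h ≤ 3 / 2 := by
  have h1 : 0 < 1 - h ^ 2 := by linarith
  have h3 : h ≤ 3 / 4 := by nlinarith
  unfold mh
  refine ⟨div_nonneg h0 h1.le, ?_⟩
  rw [div_le_iff₀ h1]
  nlinarith

/-- `m₁ - m₂ = (h₁ - h₂)(1 + h₁ h₂)/((1 - h₁²)(1 - h₂²))` -/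
theorem s81_mh_lip (h₁ h₂ : ℝ) (a0 : 0 ≤ h₁) (a2 : h₁ ^ 2 ≤ 1 / 2) (b0 : 0 ≤ h₂) (b2 : h₂ ^ 2 ≤ 1 / 2) :
    |mh h₁ - mh h₂| ≤ 6 * |h₁ - h₂| := by
  have p1 : 0 < 1 - h₁ ^ 2 := by linarith
  have p2 : 0 < 1 - h₂ ^ 2 := by linarith
  have e : mh h₁ - mh h₂ = (h₁ - h₂) * ((1 + h₁ * h₂) / ((1 - h₁ ^ 2) * (1 - h₂ ^ 2))) := by
    unfold mh
    field_simp
    ring
  have hp : h₁ * h₂ ≤ 1 / 2 := by nlinarith [sq_nonneg (h₁ - h₂)]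
  have hpp : 0 ≤ h₁ * h₂ := mul_nonneg a0 b0
  have hden : 1 / 4 ≤ (1 - h₁ ^ 2) * (1 - h₂ ^ 2) := by nlinarith
  have hf : |(1 + h₁ * h₂) / ((1 - h₁ ^ 2) * (1 - h₂ ^ 2))| ≤ 6 := by
    rw [abs_of_nonneg (div_nonneg (by linarith) (mul_pos p1 p2).le), div_le_iff₀ (mul_pos p1 p2)]
    nlinarith
  rw [e, abs_mul, mul_comm]
  exact mul_le_mul_of_nonneg_right hf (abs_nonneg _)

/-- `m₁ h₁ - m₂ h₂ = (h₁ - h₂)(h₁ + h₂)/((1 - h₁²)(1 - h₂²))` -/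
theorem s81_mhh_lip (h₁ h₂ : ℝ) (a0 : 0 ≤ h₁) (a2 : h₁ ^ 2 ≤ 1 / 2) (b0 : 0 ≤ h₂) (b2 : h₂ ^ 2 ≤ 1 / 2) :
    |mh h₁ * h₁ - mh h₂ * h₂| ≤ 6 * |h₁ - h₂| := by
  have p1 : 0 < 1 - h₁ ^ 2 := by linarith
  have p2 : 0 < 1 - h₂ ^ 2 := by linarith
  have e : mh h₁ * h₁ - mh h₂ * h₂ = (h₁ - h₂) * ((h₁ + h₂) / ((1 - h₁ ^ 2) * (1 - h₂ ^ 2))) := by
    unfold mh
    field_simp
    ring
  have c1 : h₁ ≤ 3 / 4 := by nlinarith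
  have c2 : h₂ ≤ 3 / 4 := by nlinarith
  have hden : 1 / 4 ≤ (1 - h₁ ^ 2) * (1 - h₂ ^ 2) := by nlinarith
  have hf : |(h₁ + h₂) / ((1 - h₁ ^ 2) * (1 - h₂ ^ 2))| ≤ 6 := by
    rw [abs_of_nonneg (div_nonneg (by linarith) (mul_pos p1 p2).le), div_le_iff₀ (mul_pos p1 p2)]
    nlinarith
  rw [e, abs_mul, mul_comm]
  exact mul_le_mul_of_nonneg_right hf (abs_nonneg _)

theorem s81_zq_sq (d : ℕ) (hd : 3 ≤ d) : 0 < zq d ∧ zq d ^ 2 ≤ 1 / 2 ∧ ((d : ℝ) - 1) * zq d ^ 2 = 1 := by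
  have hq : (2 : ℝ) ≤ (d : ℝ) - 1 := by
    have : (3 : ℝ) ≤ d := by exact_mod_cast hd
    linarith
  have hs : 0 < Real.sqrt ((d : ℝ) - 1) := Real.sqrt_pos.2 (by linarith)
  have hss : Real.sqrt ((d : ℝ) - 1) ^ 2 = (d : ℝ) - 1 := Real.sq_sqrt (by linarith)
  have e : zq d ^ 2 = ((d : ℝ) - 1)⁻¹ := by unfold zq; rw [inv_pow, hss]
  refine ⟨by unfold zq; positivity, ?_, ?_⟩
  · rw [e, inv_le_comm₀ (by linarith) (by norm_num)]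
    norm_num
    linarith
  · rw [e, mul_inv_cancel₀ (by linarith)]

/-- the tree block: `m_c = √q/(d-2)`, `m_c h_c = 1/(d-2)` -/
theorem s81_mh_zq (d : ℕ) (hd : 3 ≤ d) :
    mh (zq d) = Real.sqrt ((d : ℝ) - 1) / ((d : ℝ) - 2) ∧ mh (zq d) * zq d = 1 / ((d : ℝ) - 2) := by
  have hq : (2 : ℝ) ≤ (d : ℝ) - 1 := by
    have : (3 : ℝ) ≤ d := by exact_mod_cast hd
    linarith
  have hs : 0 < Real.sqrt ((d : ℝ) - 1) := Real.sqrt_pos.2 (by linarith)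
  have hss : Real.sqrt ((d : ℝ) - 1) ^ 2 = (d : ℝ) - 1 := Real.sq_sqrt (by linarith)
  have hd2 : (d : ℝ) - 2 ≠ 0 := by linarith
  have h1 : Real.sqrt ((d : ℝ) - 1) ^ 2 - 1 ≠ 0 := by rw [hss]; linarith
  have hd2' : (d : ℝ) - 2 = Real.sqrt ((d : ℝ) - 1) ^ 2 - 1 := by rw [hss]; ring
  unfold mh zq
  rw [hd2']
  generalize Real.sqrt ((d : ℝ) - 1) = r at hs h1
  constructor
  · have : 1 - r⁻¹ ^ 2 ≠ 0 := by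
      intro h
      apply h1
      field_simp at h
      linarith
    field_simp
  · have : 1 - r⁻¹ ^ 2 ≠ 0 := by
      intro h
      apply h1
      field_simp at h
      linarith
    field_simp

theorem s81_zfun_diff (d : ℕ) (h₁ h₂ : ℝ) (a : h₁ ≠ 0) (b : h₂ ≠ 0) :
    zfun d h₂ - zfun d h₁ = (h₁ - h₂) * (1 - ((d : ℝ) - 1) * h₁ * h₂) / (h₁ * h₂) := by
  unfold zfun
  field_simp
  ring

/-- two-point bound of `m_h f(h)` -/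
theorem s81_mF_lip (h₁ h₂ f₁ f₂ Bf Lf : ℝ) (a0 : 0 ≤ h₁) (a2 : h₁ ^ 2 ≤ 1 / 2) (b0 : 0 ≤ h₂) (b2 : h₂ ^ 2 ≤ 1 / 2)
    (hf : |f₁| ≤ Bf) (hff : |f₁ - f₂| ≤ Lf * |h₁ - h₂|) :
    |mh h₁ * f₁ - mh h₂ * f₂| ≤ (6 * Bf + 2 * Lf) * |h₁ - h₂| := by
  have e : mh h₁ * f₁ - mh h₂ * f₂ = (mh h₁ - mh h₂) * f₁ + mh h₂ * (f₁ - f₂) := by ring
  obtain ⟨m0, m1⟩ := s81_mh_bounds h₂ b0 b2
  have l1 := s81_mh_lip h₁ h₂ a0 a2 b0 b2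
  have t1 : |(mh h₁ - mh h₂) * f₁| ≤ 6 * |h₁ - h₂| * Bf := by
    rw [abs_mul]
    exact mul_le_mul l1 hf (abs_nonneg _) (by positivity)
  have t2 : |mh h₂ * (f₁ - f₂)| ≤ 3 / 2 * (Lf * |h₁ - h₂|) := by
    rw [abs_mul, abs_of_nonneg m0]
    exact mul_le_mul m1 hff (abs_nonneg _) (by norm_num)
  have t3 : 0 ≤ Lf * |h₁ - h₂| := (abs_nonneg _).trans hff
  rw [e]
  refine (abs_add_le _ _).trans ?_
  nlinarith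

theorem s81_num_aux (m₁ m₂ a₁ a₂ t β X : ℝ) (m10 : 0 ≤ m₁) (m11 : m₁ ≤ 3 / 2) (m20 : 0 ≤ m₂) (m21 : m₂ ≤ 3 / 2)
    (c1 : |a₁| ≤ β) (c2 : |a₂| ≤ β) (c3 : |t| ≤ X) : m₁ * a₁ + t - m₂ * a₂ ≤ X + 3 * β := by
  have hβ0 : 0 ≤ β := (abs_nonneg _).trans c1
  have u1 := abs_le.1 c1
  have u2 := abs_le.1 c2
  have u3 := abs_le.1 c3
  nlinarith [mul_le_mul_of_nonneg_left u1.2 m10, mul_le_mul_of_nonneg_left u2.1 m20,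
    mul_le_mul_of_nonneg_right m11 hβ0, mul_le_mul_of_nonneg_right m21 hβ0]

/-- consequences of `√q h < 1` -/
theorem s81_h_facts (q r h : ℝ) (hq : 2 ≤ q) (hr : 0 < r) (hrr : r ^ 2 = q) (h0 : 0 < h) (hc : r * h < 1) :
    h ^ 2 ≤ 1 / 2 ∧ h ≤ 1 := by
  have sq1 : q * h ^ 2 ≤ 1 := by
    have : (r * h) ^ 2 ≤ 1 := by
      have h3 : 0 ≤ r * h := by positivity
      nlinarith
    rwa [mul_pow, hrr] at this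
  have a2 : h ^ 2 ≤ 1 / 2 := by nlinarith [sq_nonneg h]
  exact ⟨a2, by nlinarith⟩

/-- the scalar part of `s81_sq_pair` -/
theorem s81_sq_scalar (q r h₁ h₂ β CL κ w N : ℝ) (hq : 2 ≤ q) (hr : 0 < r) (hrr : r ^ 2 = q) (h2 : 0 < h₂)
    (h21 : h₂ < h₁) (h1c : r * h₁ < 1) (hw : w = (1 - r * h₂) ^ 2 / h₂) (hβ0 : 0 ≤ β) (hβ : β ≤ Real.sqrt w)
    (hCL : 0 ≤ CL) (gap : 1 - r * h₂ ≤ κ * (h₁ - h₂)) (hN : N ≤ CL * (h₁ - h₂) + 3 * β) :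
    0 < (h₁ - h₂) * (1 - q * h₁ * h₂) / (h₁ * h₂) ∧
    N / ((h₁ - h₂) * (1 - q * h₁ * h₂) / (h₁ * h₂)) ≤ (CL + 3 * κ) / Real.sqrt w := by
  have h1 : 0 < h₁ := h2.trans h21
  have g1c : r * h₂ < 1 := by nlinarith
  obtain ⟨a2, a1⟩ := s81_h_facts q r h₁ hq hr hrr h1 h1c
  obtain ⟨b2, b1⟩ := s81_h_facts q r h₂ hq hr hrr h2 g1c
  obtain ⟨Δ, hΔ⟩ : ∃ Δ, Δ = h₁ - h₂ := ⟨_, rfl⟩
  obtain ⟨x₂, hx₂⟩ : ∃ x, x = 1 - r * h₂ := ⟨_, rfl⟩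
  obtain ⟨y, hy⟩ : ∃ y, y = 1 - q * h₁ * h₂ := ⟨_, rfl⟩
  obtain ⟨S, hS⟩ : ∃ S, S = Real.sqrt w := ⟨_, rfl⟩
  rw [← hΔ, ← hy, ← hS]
  rw [← hx₂] at hw gap
  rw [← hΔ] at gap hN
  rw [← hS] at hβ
  have hΔ0 : 0 < Δ := by rw [hΔ]; linarith
  have hx0 : 0 < x₂ := by rw [hx₂]; linarith
  have hw0 : 0 < w := by rw [hw]; positivity
  have hS0 : 0 < S := by rw [hS]; exact Real.sqrt_pos.2 hw0
  have hSS : S ^ 2 = w := by rw [hS]; exact Real.sq_sqrt hw0.le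
  have hwx : w * h₂ = x₂ ^ 2 := by rw [hw]; field_simp
  have hyx : x₂ ≤ y := by
    have : q * h₁ * h₂ = (r * h₁) * (r * h₂) := by rw [← hrr]; ring
    rw [hy, hx₂, this]
    have h3 : 0 ≤ r * h₂ := by positivity
    nlinarith
  have hy0 : 0 < y := lt_of_lt_of_le hx0 hyx
  have hκ : 0 ≤ κ := by
    have : 0 ≤ κ * Δ := hx0.le.trans gap
    exact nonneg_of_mul_nonneg_left this hΔ0
  have hz0 : 0 < Δ * y / (h₁ * h₂) := by positivity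
  refine ⟨hz0, (div_le_div_of_nonneg_right hN hz0.le).trans ?_⟩
  rw [div_le_div_iff₀ hz0 hS0]
  have k1 : h₁ * h₂ * S ≤ x₂ := by
    have : (h₁ * h₂ * S) ^ 2 ≤ x₂ ^ 2 := by
      have e : (h₁ * h₂ * S) ^ 2 = h₁ ^ 2 * h₂ * (w * h₂) := by rw [mul_pow, mul_pow, hSS]; ring
      rw [e, hwx]
      have h3 : h₁ ^ 2 * h₂ ≤ 1 := by nlinarith [sq_nonneg h₁]
      nlinarith [sq_nonneg x₂]
    exact (le_abs_self _).trans (abs_le_of_sq_le_sq this hx0.le)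
  have k2 : β * (h₁ * h₂ * S) ≤ κ * Δ * x₂ := by
    have e1 : β * (h₁ * h₂ * S) ≤ S * (h₁ * h₂ * S) := mul_le_mul_of_nonneg_right hβ (by positivity)
    have e2 : S * (h₁ * h₂ * S) = h₁ * x₂ ^ 2 := by
      have : S * (h₁ * h₂ * S) = h₁ * (S ^ 2 * h₂) := by ring
      rw [this, hSS, hwx]
    have e3 : h₁ * x₂ ^ 2 ≤ x₂ * x₂ := by nlinarith [sq_nonneg x₂]
    have e4 : x₂ * x₂ ≤ κ * Δ * x₂ := mul_le_mul_of_nonneg_right gap hx0.le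
    linarith
  have k3 : (CL * Δ + 3 * β) * (h₁ * h₂ * S) ≤ (CL + 3 * κ) * (Δ * y) := by
    have e1 : CL * Δ * (h₁ * h₂ * S) ≤ CL * Δ * x₂ := mul_le_mul_of_nonneg_left k1 (by positivity)
    have e2 : (CL + 3 * κ) * (Δ * x₂) ≤ (CL + 3 * κ) * (Δ * y) :=
      mul_le_mul_of_nonneg_left (mul_le_mul_of_nonneg_left hyx hΔ0.le) (by positivity)
    nlinarith
  have hh : 0 < h₁ * h₂ := by positivity
  calc (CL * Δ + 3 * β) * S = (CL * Δ + 3 * β) * (h₁ * h₂ * S) / (h₁ * h₂) := by field_simp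
    _ ≤ (CL + 3 * κ) * (Δ * y) / (h₁ * h₂) := div_le_div_of_nonneg_right k3 hh.le
    _ = (CL + 3 * κ) * (Δ * y / (h₁ * h₂)) := by ring

namespace PPair

variable {n d : ℕ} (π : PPair n d)

/-- **(8.62) at `z(h₂)` from the two points `h₂ < h₁`** -/
theorem s81_sq_pair (hd : 3 ≤ d) (hn : 0 < n) (hc : π.Complete) (b : Bool) (h₁ h₂ : ℝ) (h2 : 0 < h₂) (h21 : h₂ < h₁)
    (h1c : Real.sqrt ((d : ℝ) - 1) * h₁ < 1) (hpos : PosOn1 (π.Mmat (sgn b : ℝ) h₁))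
    (F₁ F₂ : Matrix (Fin n) (Fin n) ℝ) (β CL κ : ℝ)
    (c1 : ∀ p, |(π.Wmat (sgn b : ℝ) h₁ - F₁) p p| ≤ β) (c2 : ∀ p, |(π.Wmat (sgn b : ℝ) h₂ - F₂) p p| ≤ β)
    (lip : ∀ p, |mh h₁ * F₁ p p - mh h₂ * F₂ p p| ≤ CL * (h₁ - h₂))
    (gap : 1 - Real.sqrt ((d : ℝ) - 1) * h₂ ≤ κ * (h₁ - h₂))
    (hβ : β ≤ Real.sqrt (zfun d h₂ - s8s d)) (p : Fin n) :
    π.s8Psi b (zfun d h₂) p p ≤ (CL + 3 * κ) / Real.sqrt (zfun d h₂ - s8s d) := by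
  have hq : (2 : ℝ) ≤ (d : ℝ) - 1 := by
    have : (3 : ℝ) ≤ d := by exact_mod_cast hd
    linarith
  have hs : 0 < Real.sqrt ((d : ℝ) - 1) := Real.sqrt_pos.2 (by linarith)
  have hss : Real.sqrt ((d : ℝ) - 1) ^ 2 = (d : ℝ) - 1 := Real.sq_sqrt (by linarith)
  have hw := s8_zfun_sub d hd h₂ h2.ne'
  have h1 : 0 < h₁ := h2.trans h21
  have g1c : Real.sqrt ((d : ℝ) - 1) * h₂ < 1 := by nlinarith
  obtain ⟨a2, a1⟩ := s81_h_facts _ _ h₁ hq hs hss h1 h1c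
  obtain ⟨b2, b1⟩ := s81_h_facts _ _ h₂ hq hs hss h2 g1c
  obtain ⟨m10, m11⟩ := s81_mh_bounds h₁ h1.le a2
  obtain ⟨m20, m21⟩ := s81_mh_bounds h₂ h2.le b2
  have hβ0 : 0 ≤ β := (abs_nonneg _).trans (c1 p)
  have hCL : 0 ≤ CL := by
    have := (abs_nonneg _).trans (lip p)
    exact nonneg_of_mul_nonneg_left this (by linarith)
  have num : mh h₁ * π.Wmat (sgn b : ℝ) h₁ p p - mh h₂ * π.Wmat (sgn b : ℝ) h₂ p p ≤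
      CL * (h₁ - h₂) + 3 * β := by
    have e : mh h₁ * π.Wmat (sgn b : ℝ) h₁ p p - mh h₂ * π.Wmat (sgn b : ℝ) h₂ p p =
        mh h₁ * (π.Wmat (sgn b : ℝ) h₁ - F₁) p p + (mh h₁ * F₁ p p - mh h₂ * F₂ p p)
          - mh h₂ * (π.Wmat (sgn b : ℝ) h₂ - F₂) p p := by
      simp only [Matrix.sub_apply]; ring
    rw [e]
    exact s81_num_aux _ _ _ _ _ _ _ m10 m11 m20 m21 (c1 p) (c2 p) (lip p)
  obtain ⟨z0, fin⟩ := s81_sq_scalar _ _ h₁ h₂ β CL κ _ _ hq hs hss h2 h21 h1c hw hβ0 hβ hCL gap num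
  rw [← s81_zfun_diff d h₁ h₂ h1.ne' h2.ne'] at z0 fin
  have psi := π.s81_psi_le hc hn b h₁ (zfun d h₂) (by linarith) hpos p
  rw [π.s81_res_eq hc b h₁ h1.ne' (by nlinarith), π.s81_res_eq hc b h₂ h2.ne' (by nlinarith)] at psi
  exact psi.trans fin

end PPair

end Claimed.Agent.R275
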