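import Claimed.Agent.R275.S81Defs

/-!
# Row 275, Sec 8.1, package S81-WALK: actual nonbacktracking walks near an edge without short returns (Lemma 8.2, graph part).
Statements and proofs: helper51.  No sorry.
Definitions (`Defs.lean`): `Nact K 0 = 1`, `Nact K (j+1) = C * Pact * (NBm * Pact)^j * Cᵀ`; `Pact x y = [x resolved ∧ mate x = y]`, `NBm x y = [x.1 = y.1 ∧ x ≠ y]`,
`C v x = [x.1 = v]`;  `HasRet R v := ∃ k < R+1, 1 ≤ k ∧ Nact ℚ k v v ≠ 0` (`Stage.lean`);  `oth g = (mate g).1`.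
Tools: `Cinc_sandwich` (L41C), `Nact_le_Qmat` (nonnegativity), `s43v_Nact_cast` (S43V, may be used while sorried), `unres_mate`.

PROOFS.  Put `w_k = Pact * (NBm * Pact)^(k-1)` (`k ≥ 1`; stub level, entries are natural numbers), so `N_k(v,w) = ∑_{x.1 = v} ∑_{y.1 = w} w_k(x,y)`.
Let `g` be resolved, `g' = mate g`, `p = g.1`, `p' = g'.1`.  Since `Pact y' g = [y' = g']` and `Pact y' g' = [y' = g]`:
   (i)  `w_{k+1}(x, g)  = ∑_y w_k(x,y) NBm(y, g') = ∑_{y.1 = p', y ≠ g'} w_k(x,y)`,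
   (ii) `w_{k+1}(x, g') = ∑_{y.1 = p, y ≠ g} w_k(x,y)`.
Hence `N_k(p,p') = ∑_{x.1=p} w_k(x,g') + ∑_{x.1=p} w_{k+1}(x,g) ≤ ∑_{x.1=p} w_k(x,g') + N_{k+1}(p,p)`, and `∑_{x.1=p} w_1(x,g') = 1`,
`∑_{x.1=p} w_{k+1}(x,g') ≤ N_k(p,p)` by (ii).  (= "close the walk with the direct edge, after stripping a terminal reversal".)
Tails: `zq d ≤ 1/√2`, `∑_{k ≥ r} z^k = z^r/(1-z) ≤ 4 z^r`.
-/

set_option autoImplicit false
set_option linter.unusedVariables false

namespace Claimed.Agent.R275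

open Matrix

namespace PPair

variable {n d : ℕ} (π : PPair n d)

/-! ### natural number version of the walk counts -/

/-- incidence, natural numbers -/
def s81CN (n d : ℕ) : Matrix (Fin n) (Stub n d) ℕ := fun v x => if x.1 = v then 1 else 0

/-- `NBm`, natural numbers -/
def s81NN (n d : ℕ) : Matrix (Stub n d) (Stub n d) ℕ := fun x y => if x.1 = y.1 ∧ x ≠ y then 1 else 0

/-- `Pact`, natural numbers -/
def s81PN : Matrix (Stub n d) (Stub n d) ℕ := fun x y =>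
  if π.Unres x then 0 else (if π.mate x = y then 1 else 0)

/-- the walk counts as natural numbers -/
def s81NactN : ℕ → Matrix (Fin n) (Fin n) ℕ
  | 0 => 1
  | j + 1 => s81CN n d * π.s81PN * (s81NN n d * π.s81PN) ^ j * (s81CN n d)ᵀ

theorem s81_Nact_eq (K : Type*) [Field K] (k : ℕ) (v w : Fin n) :
    π.Nact K k v w = ((π.s81NactN k v w : ℕ) : K) := by
  have key : π.Nact K k = (π.s81NactN k).map (Nat.castRingHom K) := by
    cases k with
    | zero =>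
      show (1 : Matrix (Fin n) (Fin n) K) = (1 : Matrix (Fin n) (Fin n) ℕ).map (Nat.castRingHom K)
      rw [Matrix.map_one _ (map_zero _) (map_one _)]
    | succ j =>
      unfold Nact s81NactN
      rw [Matrix.map_mul, Matrix.map_mul, Matrix.map_mul, Matrix.map_pow, Matrix.map_mul]
      have c1 : Cinc K n d = (s81CN n d).map (Nat.castRingHom K) := by
        ext v x
        simp only [Cinc, s81CN, Matrix.map_apply]
        split_ifs <;> simp
      have c2 : π.Pact K = (π.s81PN).map (Nat.castRingHom K) := by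
        ext x y
        simp only [Pact, s81PN, Matrix.map_apply]
        split_ifs <;> simp
      have c3 : NBm K n d = (s81NN n d).map (Nat.castRingHom K) := by
        ext x y
        simp only [NBm, s81NN, Matrix.map_apply]
        split_ifs <;> simp
      rw [c1, c2, c3]
      rfl
  rw [key]
  rfl

/-- walk counts are natural numbers -/
theorem s81_Nact_nat (k : ℕ) (v w : Fin n) : ∃ m : ℕ, π.Nact ℝ k v w = m :=
  ⟨_, π.s81_Nact_eq ℝ k v w⟩

theorem s81_one_le_Nact (k : ℕ) (v w : Fin n) (h : π.Nact ℚ k v w ≠ 0) : 1 ≤ π.Nact ℝ k v w := by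
  rw [π.s81_Nact_eq ℚ] at h
  rw [π.s81_Nact_eq ℝ]
  have : π.s81NactN k v w ≠ 0 := by
    intro h0
    apply h
    rw [h0]; simp
  exact_mod_cast Nat.one_le_iff_ne_zero.2 this

theorem s81_noret (r : ℕ) (v : Fin n) (h : ¬ π.HasRet r v) (k : ℕ) (h1 : 1 ≤ k) (hk : k ≤ r) :
    π.Nact ℝ k v v = 0 := by
  unfold HasRet at h
  push Not at h
  have h2 := h k (by omega) h1
  rw [π.s81_Nact_eq ℚ] at h2
  rw [π.s81_Nact_eq ℝ]
  have : π.s81NactN k v v = 0 := by exact_mod_cast h2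
  rw [this]; simp

/-! ### stub level -/

/-- `w_{j+1} = Pact (NBm Pact)^j` -/
noncomputable def s81W (j : ℕ) : Matrix (Stub n d) (Stub n d) ℝ := π.Pact ℝ * (NBm ℝ n d * π.Pact ℝ) ^ j

theorem s81W_nonneg (j : ℕ) (x y : Stub n d) : 0 ≤ π.s81W j x y := by
  have hN : EntLe (NBm ℝ n d) (NBm ℝ n d) := by
    intro x y
    refine ⟨?_, le_refl _⟩
    simp only [NBm]; split_ifs <;> norm_num
  have hP : EntLe (π.Pact ℝ) (π.Pact ℝ) := by
    intro x y
    refine ⟨?_, le_refl _⟩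
    simp only [Pact]; split_ifs <;> norm_num
  exact ((hP.mul ((hN.mul hP).pow j)) x y).1

theorem s81_Nact_succ (j : ℕ) (v w : Fin n) :
    π.Nact ℝ (j + 1) v w =
      ∑ x : Stub n d, (if x.1 = v then (1 : ℝ) else 0) * ∑ y : Stub n d, π.s81W j x y * (if y.1 = w then 1 else 0) := by
  show (Cinc ℝ n d * π.Pact ℝ * (NBm ℝ n d * π.Pact ℝ) ^ j * (Cinc ℝ n d)ᵀ) v w = _
  rw [Matrix.mul_assoc (Cinc ℝ n d) (π.Pact ℝ)]
  exact Cinc_sandwich ℝ _ v w

/-- the column of `Pact` at a resolved stub -/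
theorem s81_Pact_col (g : Stub n d) (hg : ¬ π.Unres g) (y : Stub n d) :
    π.Pact ℝ y g = if y = π.mate g then 1 else 0 := by
  unfold Pact
  by_cases h : y = π.mate g
  · subst h
    rw [if_neg (π.unres_mate hg), if_pos (π.mate_mate g), if_pos rfl]
  · rw [if_neg h]
    by_cases hy : π.Unres y
    · rw [if_pos hy]
    · rw [if_neg hy, if_neg]
      intro e
      apply h
      rw [← e, π.mate_mate]

/-- arriving at a resolved stub `g`: the previous stub sits at the vertex of `mate g` and differs from it -/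
theorem s81W_succ_apply (j : ℕ) (x g : Stub n d) (hg : ¬ π.Unres g) :
    π.s81W (j + 1) x g =
      ∑ y : Stub n d, π.s81W j x y * (if y.1 = (π.mate g).1 ∧ y ≠ π.mate g then 1 else 0) := by
  have e : π.s81W (j + 1) = π.s81W j * (NBm ℝ n d * π.Pact ℝ) := by
    unfold s81W
    rw [pow_succ, Matrix.mul_assoc]
  rw [e, Matrix.mul_apply]
  refine Finset.sum_congr rfl fun y _ => ?_
  congr 1
  rw [Matrix.mul_apply]
  simp only [π.s81_Pact_col g hg, mul_ite, mul_one, mul_zero, Finset.sum_ite_eq', Finset.mem_univ, if_true]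
  rfl

/-- walks from the vertex `p` arriving at the stub `g` -/
noncomputable def s81arr (j : ℕ) (p : Fin n) (g : Stub n d) : ℝ :=
  ∑ x : Stub n d, (if x.1 = p then (1 : ℝ) else 0) * π.s81W j x g

theorem s81arr_nonneg (j : ℕ) (p : Fin n) (g : Stub n d) : 0 ≤ π.s81arr j p g := by
  unfold s81arr
  refine Finset.sum_nonneg fun x _ => mul_nonneg ?_ (π.s81W_nonneg j x g)
  split_ifs <;> norm_num

/-- arrivals at one stub are at most all arrivals at its vertex -/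
theorem s81arr_le (j : ℕ) (p : Fin n) (g : Stub n d) : π.s81arr j p g ≤ π.Nact ℝ (j + 1) p g.1 := by
  rw [π.s81_Nact_succ]
  unfold s81arr
  refine Finset.sum_le_sum fun x _ => mul_le_mul_of_nonneg_left ?_ (by split_ifs <;> norm_num)
  have : π.s81W j x g = π.s81W j x g * (if g.1 = g.1 then 1 else 0) := by simp
  rw [this]
  exact Finset.single_le_sum (f := fun y => π.s81W j x y * (if y.1 = g.1 then (1 : ℝ) else 0))
    (fun y _ => mul_nonneg (π.s81W_nonneg j x y) (by split_ifs <;> norm_num)) (Finset.mem_univ g)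

/-- arrivals at a resolved stub come from the other vertex -/
theorem s81arr_succ_le (j : ℕ) (p : Fin n) (g : Stub n d) (hg : ¬ π.Unres g) :
    π.s81arr (j + 1) p g ≤ π.Nact ℝ (j + 1) p (π.mate g).1 := by
  rw [π.s81_Nact_succ]
  unfold s81arr
  refine Finset.sum_le_sum fun x _ => mul_le_mul_of_nonneg_left ?_ (by split_ifs <;> norm_num)
  rw [π.s81W_succ_apply j x g hg]
  refine Finset.sum_le_sum fun y _ => mul_le_mul_of_nonneg_left ?_ (π.s81W_nonneg j x y)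
  by_cases h1 : y.1 = (π.mate g).1
  · rw [if_pos h1]; split_ifs <;> norm_num
  · rw [if_neg h1, if_neg (fun h => h1 h.1)]

/-- **decomposition of the walks from `p` to the other endpoint of `g`** -/
theorem s81_Nact_split (j : ℕ) (p : Fin n) (g : Stub n d) (hg : ¬ π.Unres g) :
    π.Nact ℝ (j + 1) p (π.oth g) = π.s81arr j p (π.mate g) + π.s81arr (j + 1) p g := by
  rw [π.s81_Nact_succ]
  unfold s81arr
  rw [← Finset.sum_add_distrib]
  refine Finset.sum_congr rfl fun x _ => ?_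
  rw [← mul_add]
  congr 1
  rw [π.s81W_succ_apply j x g hg]
  have e : π.s81W j x (π.mate g) = ∑ y : Stub n d, π.s81W j x y * (if y = π.mate g then 1 else 0) := by
    simp
  rw [e, ← Finset.sum_add_distrib]
  refine Finset.sum_congr rfl fun y _ => ?_
  rw [← mul_add]
  congr 1
  unfold oth
  by_cases h1 : y = π.mate g
  · subst h1; simp
  · by_cases h2 : y.1 = (π.mate g).1
    · simp [h1, h2]
    · simp [h1, h2]

theorem s81arr_zero (g : Stub n d) (hg : ¬ π.Unres g) : π.s81arr 0 g.1 (π.mate g) = 1 := by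
  unfold s81arr s81W
  simp only [pow_zero, Matrix.mul_one]
  have : ∀ x : Stub n d, π.Pact ℝ x (π.mate g) = if x = g then 1 else 0 := by
    intro x
    rw [π.s81_Pact_col _ (π.unres_mate hg), π.mate_mate]
  simp only [this, mul_ite, mul_one, mul_zero, Finset.sum_ite_eq', Finset.mem_univ, if_true]

theorem s81_edge_one (g : Stub n d) (hg : ¬ π.Unres g) :
    1 ≤ π.Nact ℝ 1 g.1 (π.oth g) ∧ π.Nact ℝ 1 g.1 (π.oth g) ≤ 1 + π.Nact ℝ 2 g.1 g.1 := by
  have e := π.s81_Nact_split 0 g.1 g hg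
  rw [π.s81arr_zero g hg] at e
  have h1 := π.s81arr_nonneg 1 g.1 g
  have h2 := π.s81arr_le 1 g.1 g
  simp only [zero_add] at e
  rw [e]
  constructor
  · linarith
  · have : (1 : ℕ) + 1 = 2 := rfl
    rw [this] at h2
    linarith

/-- a loop is a return of length one -/
theorem s81_edge_zero (g : Stub n d) (hg : ¬ π.Unres g) :
    π.Nact ℝ 0 g.1 (π.oth g) ≤ π.Nact ℝ 1 g.1 g.1 := by
  show (1 : Matrix (Fin n) (Fin n) ℝ) g.1 (π.oth g) ≤ _
  by_cases h : g.1 = π.oth g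
  · have := (π.s81_edge_one g hg).1
    rw [← h] at this
    rw [← h, Matrix.one_apply_eq]
    exact this
  · rw [Matrix.one_apply_ne h]
    exact (π.Nact_le_Qmat 1 g.1 g.1).1

theorem s81_edge_step (g : Stub n d) (hg : ¬ π.Unres g) (k : ℕ) :
    π.Nact ℝ (k + 2) g.1 (π.oth g) ≤ π.Nact ℝ (k + 1) g.1 g.1 + π.Nact ℝ (k + 3) g.1 g.1 := by
  have e := π.s81_Nact_split (k + 1) g.1 g hg
  have h1 := π.s81arr_succ_le k g.1 (π.mate g) (π.unres_mate hg)
  rw [π.mate_mate] at h1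
  have h2 := π.s81arr_le (k + 1 + 1) g.1 g
  have e1 : k + 1 + 1 = k + 2 := rfl
  have e2 : k + 1 + 1 + 1 = k + 3 := rfl
  rw [e1] at e
  rw [e2] at h2
  rw [e]
  rw [e1] at h2
  linarith

/-- **the direct edge is the only short walk between its endpoints** -/
theorem s81_edge_walks (g : Stub n d) (hg : ¬ π.Unres g) (r : ℕ) (hr : 2 ≤ r) (h : ¬ π.HasRet r g.1) :
    π.Nact ℝ 0 g.1 (π.oth g) = 0 ∧ π.Nact ℝ 1 g.1 (π.oth g) = 1 ∧
      ∀ k, 2 ≤ k → k + 1 ≤ r → π.Nact ℝ k g.1 (π.oth g) = 0 := by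
  refine ⟨?_, ?_, ?_⟩
  · have h1 := π.s81_edge_zero g hg
    rw [π.s81_noret r g.1 h 1 le_rfl (by omega)] at h1
    exact le_antisymm h1 (π.Nact_le_Qmat 0 _ _).1
  · obtain ⟨h1, h2⟩ := π.s81_edge_one g hg
    rw [π.s81_noret r g.1 h 2 (by omega) hr, add_zero] at h2
    exact le_antisymm h2 h1
  · intro k hk hkr
    obtain ⟨k', rfl⟩ : ∃ k', k = k' + 2 := ⟨k - 2, by omega⟩
    have h1 := π.s81_edge_step g hg k'
    rw [π.s81_noret r g.1 h (k' + 1) (by omega) (by omega),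
      π.s81_noret r g.1 h (k' + 3) (by omega) (by omega), add_zero] at h1
    exact le_antisymm h1 (π.Nact_le_Qmat _ _ _).1

theorem s81_geom_sum_le (q : ℝ) (hq : 2 ≤ q) (r : ℕ) : ∑ k ∈ Finset.range (r + 1), q ^ k ≤ q ^ (r + 1) := by
  induction r with
  | zero => simp; linarith
  | succ r ih =>
    rw [Finset.sum_range_succ]
    have : 0 < q ^ (r + 1) := by positivity
    calc ∑ k ∈ Finset.range (r + 1), q ^ k + q ^ (r + 1) ≤ q ^ (r + 1) + q ^ (r + 1) := by linarith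
      _ ≤ q ^ (r + 1) * q := by nlinarith
      _ = q ^ (r + 1 + 1) := (pow_succ _ _).symm

open Classical in
/-- number of vertices with a short return -/
theorem s81_card_ret (hd : 3 ≤ d) (η : ℝ) (L : ℕ)
    (hret : ∀ k : ℕ, 1 ≤ k → k ≤ L → ∑ v : Fin n, π.Nact ℝ k v v ≤ (n : ℝ) ^ η * ((d : ℝ) - 1) ^ k)
    (r : ℕ) (hr : r ≤ L) :
    ((Finset.univ.filter fun v : Fin n => π.HasRet r v).card : ℝ) ≤ (n : ℝ) ^ η * ((d : ℝ) - 1) ^ (r + 1) := by
  have hq : (2 : ℝ) ≤ (d : ℝ) - 1 := by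
    have : (3 : ℝ) ≤ d := by exact_mod_cast hd
    linarith
  have hn0 : 0 ≤ (n : ℝ) ^ η := Real.rpow_nonneg (Nat.cast_nonneg _) _
  have nn : ∀ (k : ℕ) (v : Fin n), 0 ≤ π.Nact ℝ k v v := fun k v => (π.Nact_le_Qmat k v v).1
  have pt : ∀ v ∈ Finset.univ.filter fun v : Fin n => π.HasRet r v,
      (1 : ℝ) ≤ ∑ k ∈ Finset.Ico 1 (r + 1), π.Nact ℝ k v v := by
    intro v hv
    obtain ⟨k, hk1, hk2, hk3⟩ := (Finset.mem_filter.1 hv).2
    refine (π.s81_one_le_Nact k v v hk3).trans ?_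
    exact Finset.single_le_sum (f := fun k => π.Nact ℝ k v v) (fun k _ => nn k v)
      (Finset.mem_Ico.2 ⟨hk2, hk1⟩)
  calc ((Finset.univ.filter fun v : Fin n => π.HasRet r v).card : ℝ)
      = ∑ v ∈ Finset.univ.filter fun v : Fin n => π.HasRet r v, (1 : ℝ) := by
        rw [Finset.sum_const, nsmul_eq_mul, mul_one]
    _ ≤ ∑ v ∈ Finset.univ.filter fun v : Fin n => π.HasRet r v,
          ∑ k ∈ Finset.Ico 1 (r + 1), π.Nact ℝ k v v := Finset.sum_le_sum pt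
    _ ≤ ∑ v : Fin n, ∑ k ∈ Finset.Ico 1 (r + 1), π.Nact ℝ k v v :=
        Finset.sum_le_sum_of_subset_of_nonneg (Finset.filter_subset _ _)
          fun v _ _ => Finset.sum_nonneg fun k _ => nn k v
    _ = ∑ k ∈ Finset.Ico 1 (r + 1), ∑ v : Fin n, π.Nact ℝ k v v := Finset.sum_comm
    _ ≤ ∑ k ∈ Finset.Ico 1 (r + 1), (n : ℝ) ^ η * ((d : ℝ) - 1) ^ k :=
        Finset.sum_le_sum fun k hk => by
          obtain ⟨h1, h2⟩ := Finset.mem_Ico.1 hk
          exact hret k h1 (by omega)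
    _ = (n : ℝ) ^ η * ∑ k ∈ Finset.Ico 1 (r + 1), ((d : ℝ) - 1) ^ k := by rw [Finset.mul_sum]
    _ ≤ (n : ℝ) ^ η * ∑ k ∈ Finset.range (r + 1), ((d : ℝ) - 1) ^ k := by
        refine mul_le_mul_of_nonneg_left ?_ hn0
        refine Finset.sum_le_sum_of_subset_of_nonneg ?_ fun k _ _ => by positivity
        intro k hk
        exact Finset.mem_range.2 (Finset.mem_Ico.1 hk).2
    _ ≤ (n : ℝ) ^ η * ((d : ℝ) - 1) ^ (r + 1) :=
        mul_le_mul_of_nonneg_left (s81_geom_sum_le _ hq r) hn0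

theorem s81_zq_le (d : ℕ) (hd : 3 ≤ d) : 0 < zq d ∧ zq d ≤ 3 / 4 := by
  have hq : (2 : ℝ) ≤ (d : ℝ) - 1 := by
    have : (3 : ℝ) ≤ d := by exact_mod_cast hd
    linarith
  have hs : 0 < Real.sqrt ((d : ℝ) - 1) := Real.sqrt_pos.2 (by linarith)
  have h43 : (4 / 3 : ℝ) ≤ Real.sqrt ((d : ℝ) - 1) := by
    apply Real.le_sqrt_of_sq_le
    norm_num
    linarith
  refine ⟨by unfold zq; positivity, ?_⟩
  unfold zq
  rw [inv_le_comm₀ hs (by norm_num)]
  norm_num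
  linarith

theorem s81_geom_aux (z : ℝ) (hz0 : 0 < z) (hz : z ≤ 3 / 4) (r m : ℕ) :
    ∑ k ∈ Finset.Ico r (r + m), z ^ k ≤ 4 * (z ^ r - z ^ (r + m)) := by
  induction m with
  | zero => simp
  | succ m ih =>
    rw [← add_assoc, Finset.sum_Ico_succ_top (by omega)]
    have : 0 < z ^ (r + m) := by positivity
    rw [pow_succ]
    nlinarith

/-- geometric tail -/
theorem s81_geom_tail (d : ℕ) (hd : 3 ≤ d) (r L : ℕ) :
    ∑ k ∈ Finset.Ico r L, zq d ^ k ≤ 4 * zq d ^ r := by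
  obtain ⟨z0, z1⟩ := s81_zq_le d hd
  by_cases h : r ≤ L
  · obtain ⟨m, rfl⟩ := Nat.exists_eq_add_of_le h
    have := s81_geom_aux (zq d) z0 z1 r m
    have h2 : 0 < zq d ^ (r + m) := by positivity
    linarith
  · rw [Finset.Ico_eq_empty (by omega), Finset.sum_empty]
    positivity

/-- bound of one term of the tail -/
theorem s81_term_le (hd : 3 ≤ d) (CM : ℝ) (L : ℕ) (hmult : ∀ (v w : Fin n) (k : ℕ), k ≤ L → π.Nact ℝ k v w ≤ CM)
    (φ : ℕ → ℝ) (hφ : ∀ k, |φ k| ≤ 1) (σ h : ℝ) (hσ : σ ^ 2 = 1) (hh : 0 ≤ h) (hz : h ≤ zq d) (v w : Fin n)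
    (k : ℕ) (hk : k ≤ L) : |φ k * (σ * h) ^ k * π.Nact ℝ k v w| ≤ CM * zq d ^ k := by
  have hσa : |σ| = 1 := by
    have : |σ| ^ 2 = 1 := by rw [sq_abs]; exact hσ
    nlinarith [abs_nonneg σ]
  have n0 := (π.Nact_le_Qmat k v w).1
  rw [abs_mul, abs_mul, abs_pow, abs_mul, hσa, one_mul, abs_of_nonneg hh, abs_of_nonneg n0]
  have h1 : h ^ k ≤ zq d ^ k := pow_le_pow_left₀ hh hz k
  have h0 : 0 ≤ h ^ k := pow_nonneg hh k
  calc |φ k| * h ^ k * π.Nact ℝ k v w ≤ 1 * zq d ^ k * CM :=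
        mul_le_mul (mul_le_mul (hφ k) h1 h0 zero_le_one) (hmult v w k hk) n0
          (mul_nonneg zero_le_one (h0.trans h1))
    _ = CM * zq d ^ k := by ring

/-- bound of the tail -/
theorem s81_tail_le (hd : 3 ≤ d) (CM : ℝ) (L : ℕ) (hmult : ∀ (v w : Fin n) (k : ℕ), k ≤ L → π.Nact ℝ k v w ≤ CM)
    (φ : ℕ → ℝ) (hφ : ∀ k, |φ k| ≤ 1) (σ h : ℝ) (hσ : σ ^ 2 = 1) (hh : 0 ≤ h) (hz : h ≤ zq d) (v w : Fin n)
    (r : ℕ) : |∑ k ∈ Finset.Ico r L, φ k * (σ * h) ^ k * π.Nact ℝ k v w| ≤ 4 * CM * zq d ^ r := by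
  have hCM : 0 ≤ CM := (π.Nact_le_Qmat 0 v w).1.trans (hmult v w 0 (Nat.zero_le _))
  refine (Finset.abs_sum_le_sum_abs _ _).trans ?_
  calc ∑ k ∈ Finset.Ico r L, |φ k * (σ * h) ^ k * π.Nact ℝ k v w|
      ≤ ∑ k ∈ Finset.Ico r L, CM * zq d ^ k :=
        Finset.sum_le_sum fun k hk =>
          π.s81_term_le hd CM L hmult φ hφ σ h hσ hh hz v w k (Finset.mem_Ico.1 hk).2.le
    _ = CM * ∑ k ∈ Finset.Ico r L, zq d ^ k := by rw [Finset.mul_sum]
    _ ≤ CM * (4 * zq d ^ r) := mul_le_mul_of_nonneg_left (s81_geom_tail d hd r L) hCM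
    _ = 4 * CM * zq d ^ r := by ring

/-- the weighted walk sum on the diagonal -/
theorem s81_diag_sum (hd : 3 ≤ d) (CM : ℝ) (L : ℕ) (hmult : ∀ (v w : Fin n) (k : ℕ), k ≤ L → π.Nact ℝ k v w ≤ CM)
    (r : ℕ) (hrL : r < L) (φ : ℕ → ℝ) (hφ1 : ∀ k, k ≤ r → φ k = 1) (hφ : ∀ k, |φ k| ≤ 1) (σ h : ℝ)
    (hσ : σ ^ 2 = 1) (hh : 0 ≤ h) (hz : h ≤ zq d) (p : Fin n) (hp : ¬ π.HasRet r p) :
    |∑ k ∈ Finset.range L, φ k * (σ * h) ^ k * π.Nact ℝ k p p - 1| ≤ 4 * CM * zq d ^ r := by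
  obtain ⟨z0, z1⟩ := s81_zq_le d hd
  have hCM : 0 ≤ CM := (π.Nact_le_Qmat 0 p p).1.trans (hmult p p 0 (Nat.zero_le _))
  rw [← Finset.sum_range_add_sum_Ico _ (show r + 1 ≤ L from hrL), Finset.sum_range_succ']
  have e0 : φ 0 * (σ * h) ^ 0 * π.Nact ℝ 0 p p = 1 := by
    rw [hφ1 0 (Nat.zero_le _)]
    show 1 * (σ * h) ^ 0 * (1 : Matrix (Fin n) (Fin n) ℝ) p p = 1
    simp
  have e1 : ∑ k ∈ Finset.range r, φ (k + 1) * (σ * h) ^ (k + 1) * π.Nact ℝ (k + 1) p p = 0 := by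
    refine Finset.sum_eq_zero fun k hk => ?_
    rw [π.s81_noret r p hp (k + 1) (by omega) (by have := Finset.mem_range.1 hk; omega), mul_zero]
  rw [e0, e1, zero_add, add_sub_cancel_left]
  refine (π.s81_tail_le hd CM L hmult φ hφ σ h hσ hh hz p p (r + 1)).trans ?_
  rw [pow_succ]
  have : 0 ≤ 4 * CM * zq d ^ r := by positivity
  nlinarith

/-- the weighted walk sum across an edge -/
theorem s81_edge_sum (hd : 3 ≤ d) (CM : ℝ) (L : ℕ) (hmult : ∀ (v w : Fin n) (k : ℕ), k ≤ L → π.Nact ℝ k v w ≤ CM)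
    (r : ℕ) (hr : 2 ≤ r) (hrL : r < L) (φ : ℕ → ℝ) (hφ1 : ∀ k, k ≤ r → φ k = 1) (hφ : ∀ k, |φ k| ≤ 1) (σ h : ℝ)
    (hσ : σ ^ 2 = 1) (hh : 0 ≤ h) (hz : h ≤ zq d) (g : Stub n d) (hg : ¬ π.Unres g) (hp : ¬ π.HasRet r g.1) :
    |∑ k ∈ Finset.range L, φ k * (σ * h) ^ k * π.Nact ℝ k g.1 (π.oth g) - σ * h| ≤ 4 * CM * zq d ^ r := by
  obtain ⟨w0, w1, w2⟩ := π.s81_edge_walks g hg r hr hp
  obtain ⟨r', rfl⟩ : ∃ r', r = r' + 2 := ⟨r - 2, by omega⟩
  rw [← Finset.sum_range_add_sum_Ico _ hrL.le, Finset.sum_range_succ', Finset.sum_range_succ']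
  have e0 : φ 0 * (σ * h) ^ 0 * π.Nact ℝ 0 g.1 (π.oth g) = 0 := by rw [w0, mul_zero]
  have e1 : φ (0 + 1) * (σ * h) ^ (0 + 1) * π.Nact ℝ (0 + 1) g.1 (π.oth g) = σ * h := by
    simp only [zero_add]
    rw [w1, hφ1 1 (by omega)]
    ring
  have e2 : ∑ k ∈ Finset.range r', φ (k + 1 + 1) * (σ * h) ^ (k + 1 + 1) * π.Nact ℝ (k + 1 + 1) g.1 (π.oth g) = 0 := by
    refine Finset.sum_eq_zero fun k hk => ?_
    rw [w2 (k + 1 + 1) (by omega) (by have := Finset.mem_range.1 hk; omega), mul_zero]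
  rw [e0, e1, e2, zero_add, add_zero, add_sub_cancel_left]
  exact π.s81_tail_le hd CM L hmult φ hφ σ h hσ hh hz g.1 (π.oth g) (r' + 2)

end PPair

end Claimed.Agent.R275
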