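import Claimed.Agent.R275.S81Defs

/-!
# Row 275, Sec 8.1, package S81-XI: the centred incidence `Ξ₀` of a separated boundary is a contraction; stop rows; entries of the aggregate formula.
Statements and proofs: helper51.  No sorry.
Tools: `L41B` (`Dcal_eq_Xi_mul : 𝒟 = Ξ Ξᵀ`, `Dcal_eq : 𝒟 = diag t - t tᵀ / l`, `xi_apply`, `sum_tcount`, `sum_unres_ite`), `S44A` (`s7opLE_transpose`).

PROOFS.
* `s81_one_of_sep`: if `tcount v ≥ 2` there are unresolved `x ≠ y` with `x.1 = y.1 = v`; `Nact ℚ 0 v v = 1 ≠ 0`, so `¬ Far R x.1 y.1`, so `Bad R x`.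
* `s81_XiT_sq`: `|Ξᵀ v|² = vᵀ Ξ Ξᵀ v = vᵀ 𝒟 v = ∑ t_w v_w² - (∑ t_w v_w)²/l ≤ ∑ v_w²`  (`t_w ≤ 1`).
* `s81_Xi_sq`: duality: `|Ξ y|² = y · Ξᵀ(Ξ y)`, Cauchy-Schwarz and `s81_XiT_sq` give `|Ξ y|⁴ ≤ |y|² |Ξ y|²`.
* `s81_row_sum`: `∑_p |row_p|² = ∑_p ∑_x (Ξᵀ X)_{x p}² = ∑_x |Xᵀ Ξ e_x|² ≤ Z² ∑_x |Ξ e_x|²`, the column `Ξ e_x` vanishes unless `x` is unresolved, and has
  square norm `≤ 1` (`s81_Xi_sq` at `y = e_x`).
* `s81_agg_entry`: `(X Ξ)_{p x} = ∑_w X_{p w} Ξ_{w x} = row_p x` by symmetry of `X`; `(Ξᵀ X)_{y p'} = row_{p'} y`.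
-/

set_option autoImplicit false

namespace Claimed.Agent.R275

open Matrix

namespace PPair

variable {n d : ℕ} (π₀ : PPair n d)

/-- separation: at most one unresolved stub per vertex -/
theorem s81_one_of_sep (R : ℕ) (hs : π₀.Separated R) (v : Fin n) : π₀.tcount v ≤ 1 := by
  by_contra hcon
  push Not at hcon
  unfold tcount at hcon
  obtain ⟨x, hx, y, hy, hxy⟩ := Finset.one_lt_card.1 hcon
  simp only [Finset.mem_filter, unres, Finset.mem_univ, true_and] at hx hy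
  apply hs x
  refine ⟨hx.1, Or.inr ⟨y, hy.1, hxy.symm, ?_⟩⟩
  intro hfar
  have := hfar 0 (Nat.succ_pos _)
  rw [hx.2, hy.2] at this
  simp [Nact] at this

theorem s81_XiT_sq (hone : ∀ v, π₀.tcount v ≤ 1) (v : Fin n → ℝ) : s7sq ((π₀.Xi ℝ)ᵀ *ᵥ v) ≤ s7sq v := by
  have e : s7sq ((π₀.Xi ℝ)ᵀ *ᵥ v) = v ⬝ᵥ (π₀.Dcal ℝ *ᵥ v) := by
    rw [π₀.Dcal_eq_Xi_mul, ← Matrix.mulVec_mulVec, Matrix.dotProduct_mulVec, ← Matrix.mulVec_transpose]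
    rfl
  have e1 : v ⬝ᵥ (diagonal (π₀.tvec ℝ) *ᵥ v) = ∑ w, π₀.tvec ℝ w * v w ^ 2 := by
    simp only [dotProduct, Matrix.mulVec_diagonal]
    exact Finset.sum_congr rfl fun w _ => by ring
  have e2 : v ⬝ᵥ (vecMulVec (π₀.tvec ℝ) (π₀.tvec ℝ) *ᵥ v) = (∑ w, π₀.tvec ℝ w * v w) ^ 2 := by
    simp only [dotProduct, Matrix.mulVec, vecMulVec_apply]
    rw [sq, Finset.sum_mul_sum]
    refine Finset.sum_congr rfl fun w _ => ?_
    rw [Finset.mul_sum]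
    exact Finset.sum_congr rfl fun w' _ => by ring
  rw [e, π₀.Dcal_eq, Matrix.sub_mulVec, dotProduct_sub, Matrix.smul_mulVec, dotProduct_smul, e1, e2, smul_eq_mul]
  have h1 : 0 ≤ ((π₀.l : ℝ))⁻¹ * (∑ w, π₀.tvec ℝ w * v w) ^ 2 := by positivity
  have h2 : ∑ w, π₀.tvec ℝ w * v w ^ 2 ≤ s7sq v := by
    simp only [s7sq, dotProduct]
    refine Finset.sum_le_sum fun w _ => ?_
    have : π₀.tvec ℝ w ≤ 1 := by
      unfold tvec
      exact_mod_cast hone w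
    nlinarith [sq_nonneg (v w)]
  linarith

theorem s81_Xi_sq (hone : ∀ v, π₀.tcount v ≤ 1) (y : Stub n d → ℝ) : s7sq (π₀.Xi ℝ *ᵥ y) ≤ s7sq y := by
  set a := s7sq (π₀.Xi ℝ *ᵥ y) with ha
  have ha0 : 0 ≤ a := s44_dot_self_nonneg _
  have hy0 : 0 ≤ s7sq y := s44_dot_self_nonneg _
  have e : a = y ⬝ᵥ ((π₀.Xi ℝ)ᵀ *ᵥ (π₀.Xi ℝ *ᵥ y)) := by
    rw [Matrix.dotProduct_mulVec, ← Matrix.mulVec_transpose, Matrix.transpose_transpose]
    rfl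
  have cs := s44_cs_real y ((π₀.Xi ℝ)ᵀ *ᵥ (π₀.Xi ℝ *ᵥ y))
  rw [← e] at cs
  have h1 : ((π₀.Xi ℝ)ᵀ *ᵥ (π₀.Xi ℝ *ᵥ y)) ⬝ᵥ ((π₀.Xi ℝ)ᵀ *ᵥ (π₀.Xi ℝ *ᵥ y)) ≤ a :=
    π₀.s81_XiT_sq hone _
  have h2 : a ^ 2 ≤ s7sq y * a := cs.trans (mul_le_mul_of_nonneg_left h1 hy0)
  by_cases h0 : a = 0
  · rw [h0]; exact hy0
  · have hpos : 0 < a := lt_of_le_of_ne ha0 (Ne.symm h0)
    nlinarith

theorem s81_Xi_contr (hone : ∀ v, π₀.tcount v ≤ 1) : S81Contr (π₀.Xi ℝ) :=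
  ⟨π₀.s81_Xi_sq hone, π₀.s81_XiT_sq hone⟩

/-- `∑_p ‖p_{p,0}‖² ≤ l₀ ‖P̂₀‖²` -/
theorem s81_row_sum (hone : ∀ v, π₀.tcount v ≤ 1) (X : Matrix (Fin n) (Fin n) ℝ) (Z : ℝ) (hX : s7opLE X Z) :
    ∑ p, s7sq (s7row π₀ X p) ≤ (π₀.l : ℝ) * Z ^ 2 := by
  have hXt := s7opLE_transpose hX
  have e : ∑ p, s7sq (s7row π₀ X p) = ∑ x, s7sq (Xᵀ *ᵥ (π₀.Xi ℝ *ᵥ Pi.single x 1)) := by
    simp only [s7sq, dotProduct, s7row]
    rw [Finset.sum_comm]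
    refine Finset.sum_congr rfl fun x _ => Finset.sum_congr rfl fun p => fun _ => ?_
    have : (Xᵀ *ᵥ (π₀.Xi ℝ *ᵥ Pi.single x 1)) p = ∑ w, π₀.Xi ℝ w x * X w p := by
      have c : π₀.Xi ℝ *ᵥ Pi.single x 1 = fun w => π₀.Xi ℝ w x := by
        ext w; simp
      rw [c]
      simp only [Matrix.mulVec, dotProduct, Matrix.transpose_apply]
      exact Finset.sum_congr rfl fun w _ => by ring
    rw [this]
  rw [e]
  have b : ∀ x : Stub n d, s7sq (Xᵀ *ᵥ (π₀.Xi ℝ *ᵥ Pi.single x 1)) ≤ if π₀.Unres x then Z ^ 2 else 0 := by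
    intro x
    by_cases hx : π₀.Unres x
    · rw [if_pos hx]
      refine (hXt.2 _).trans ?_
      have h1 := π₀.s81_Xi_sq hone (Pi.single x 1)
      have h2 : s7sq (Pi.single x (1 : ℝ) : Stub n d → ℝ) = 1 := by simp [s7sq]
      rw [h2] at h1
      nlinarith [sq_nonneg Z]
    · rw [if_neg hx]
      have : π₀.Xi ℝ *ᵥ Pi.single x 1 = 0 := by
        ext w
        simp [Xi, hx]
      rw [this, Matrix.mulVec_zero]
      simp [s7sq]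
  refine (Finset.sum_le_sum fun x _ => b x).trans ?_
  rw [← Finset.sum_filter, Finset.sum_const, nsmul_eq_mul]
  exact le_of_eq rfl

open Classical in
/-- Markov -/
theorem s81_row_card (hone : ∀ v, π₀.tcount v ≤ 1) (X : Matrix (Fin n) (Fin n) ℝ) (Z τ : ℝ) (hX : s7opLE X Z)
    (hτ : 0 < τ) :
    ((Finset.univ.filter fun p : Fin n => τ < s7sq (s7row π₀ X p)).card : ℝ) ≤ (π₀.l : ℝ) * Z ^ 2 / τ := by
  rw [le_div_iff₀ hτ]
  refine le_trans ?_ (π₀.s81_row_sum hone X Z hX)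
  calc ((Finset.univ.filter fun p : Fin n => τ < s7sq (s7row π₀ X p)).card : ℝ) * τ
      = ∑ p ∈ Finset.univ.filter fun p : Fin n => τ < s7sq (s7row π₀ X p), τ := by
        rw [Finset.sum_const, nsmul_eq_mul]
    _ ≤ ∑ p ∈ Finset.univ.filter fun p : Fin n => τ < s7sq (s7row π₀ X p), s7sq (s7row π₀ X p) :=
        Finset.sum_le_sum fun p hp => (Finset.mem_filter.1 hp).2.le
    _ ≤ ∑ p, s7sq (s7row π₀ X p) :=
        Finset.sum_le_sum_of_subset_of_nonneg (Finset.filter_subset _ _)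
          fun p _ _ => s44_dot_self_nonneg _

/-- entries of the aggregate formula -/
theorem s81_agg_entry (X : Matrix (Fin n) (Fin n) ℝ) (hX : Xᵀ = X) (H : Matrix (Stub n d) (Stub n d) ℝ)
    (p p' : Fin n) :
    (X - X * π₀.Xi ℝ * H * (π₀.Xi ℝ)ᵀ * X) p p' = X p p' - s7row π₀ X p ⬝ᵥ (H *ᵥ s7row π₀ X p') := by
  have r1 : ∀ x, (X * π₀.Xi ℝ) p x = s7row π₀ X p x := by
    intro x
    simp only [Matrix.mul_apply, s7row]
    refine Finset.sum_congr rfl fun w _ => ?_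
    have : X p w = X w p := by
      conv_lhs => rw [← hX]
      rfl
    rw [this]; ring
  have r2 : ∀ y, ((π₀.Xi ℝ)ᵀ * X) y p' = s7row π₀ X p' y := by
    intro y
    simp only [Matrix.mul_apply, s7row, Matrix.transpose_apply]
  have e : X * π₀.Xi ℝ * H * (π₀.Xi ℝ)ᵀ * X = (X * π₀.Xi ℝ) * (H * ((π₀.Xi ℝ)ᵀ * X)) := by
    simp only [Matrix.mul_assoc]
  rw [Matrix.sub_apply, e, Matrix.mul_apply]
  congr 1
  simp only [dotProduct, Matrix.mulVec, Matrix.mul_apply, r1, r2]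

end PPair

end Claimed.Agent.R275
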