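import Claimed.Agent.R275.S81Sq
import Claimed.Agent.R275.S81Op
import Claimed.Agent.R275.S81Xi
import Claimed.Agent.R275.S81P0
import Claimed.Agent.R275.S81Walk

/-!
# Row 275, Sec 8.1, package S81-TYP: typical edge blocks (Lemma 8.2, second half), non-asymptotic form.
Statements and proofs: helper51.  No sorry of its own.
ALL statements of S81Res, S81Sq, S81Op, S81Xi, S81P0, S81Walk may be used (even while sorried).

PROOFS.  `X = s7P0 π₀ φ L σ h`, `σ = sgn s`, `H = s7Ht π₀ π X σ h`, `row_p = s7row π₀ X p`.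
* `s81_W_entry`:  `W_{pp'} = (W - Ref)_{pp'} + Ref_{pp'}`, `Ref_{pp'} = X_{pp'} - row_p · H row_{p'}` (`S81At.agg`, `s81_agg_entry`, `s81_P0_symm`),
  `|row_p · H row_{p'}| ≤ τ` (`s81_op_form`, `S81At.opH`), `|X_{pp'} - ∑_k φ_k (σh)^k N_k(p,p')| ≤ U` (`s81_P0_entry`).
* `s81_good`: a stub which is not exceptional is resolved at `π₀`, so `π.oth g = π₀.oth g` (`Ext`); `s81_diag_sum` at both endpoints, `s81_edge_sum`;
  `s8Res = m_h W` (`s81_res_eq`), `0 ≤ m_h ≤ 3/2`, `|m_h - m_c| ≤ 6 (h_c - h)`, `|m_h h - m_c h_c| ≤ 6 (h_c - h)`, `m_c = √q/(d-2)`, `m_c h_c = 1/(d-2)`.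
* counting: `#{g | P g.1} = d #{v | P v}`; `g ↦ mate g` is a bijection of the stubs, so `#{g | P (oth g)} = d #{v | P v}`; `#{g | Unres g} = l`.
-/

set_option autoImplicit false

namespace Claimed.Agent.R275

open Matrix

section

variable {n d : ℕ} (π₀ π : PPair n d)

theorem s81_sgn_sq' (s : Bool) : (sgn s : ℝ) ^ 2 = 1 := by
  cases s <;> simp [sgn]

theorem s81_sgn_abs' (s : Bool) : |(sgn s : ℝ)| = 1 := by
  cases s <;> simp [sgn]

/-- entries of the final normalised resolvent at two vertices with small stop rows -/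
theorem s81_W_entry (hd : 3 ≤ d) (hn : 0 < n) (hl : 0 < π₀.l) (L : ℕ) (φ : ℕ → ℝ) (hφ : ∀ k, |φ k| ≤ 1) (s : Bool)
    (h : ℝ) (hh : 0 ≤ h) (β τ U : ℝ) (hU : Umaj d (Cmaj d) π₀.l L h ≤ U)
    (hat : S81At π₀ π (sgn s) h (s7P0 π₀ φ L (sgn s) h) β) (p p' : Fin n)
    (hp : s7sq (s7row π₀ (s7P0 π₀ φ L (sgn s) h) p) ≤ τ) (hp' : s7sq (s7row π₀ (s7P0 π₀ φ L (sgn s) h) p') ≤ τ) :
    |π.Wmat (sgn s : ℝ) h p p' - ∑ k ∈ Finset.range L, φ k * ((sgn s : ℝ) * h) ^ k * π₀.Nact ℝ k p p'| ≤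
      β + τ + U := by
  have c := hat.cmp p p'
  have e1 := π₀.s81_agg_entry _ (s81_P0_symm π₀ φ L (sgn s) h) (s7Ht π₀ π (s7P0 π₀ φ L (sgn s) h) (sgn s) h) p p'
  rw [← hat.agg] at e1
  have f := s81_op_form hat.opH _ _ hp hp'
  have g := (s81_P0_entry π₀ hd hn hl L (sgn s) h (s81_sgn_sq' s) hh φ hφ p p').trans hU
  rw [Matrix.sub_apply, e1] at c
  rw [one_mul] at f
  generalize π.Wmat (sgn s : ℝ) h p p' = w at c ⊢
  generalize ∑ k ∈ Finset.range L, φ k * ((sgn s : ℝ) * h) ^ k * π₀.Nact ℝ k p p' = S at g ⊢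
  generalize s7P0 π₀ φ L (sgn s) h p p' = x at c g
  generalize s7row π₀ (s7P0 π₀ φ L (sgn s) h) p ⬝ᵥ
    (s7Ht π₀ π (s7P0 π₀ φ L (sgn s) h) (sgn s) h *ᵥ s7row π₀ (s7P0 π₀ φ L (sgn s) h) p') = y at c f
  rw [abs_le] at c f g ⊢
  constructor <;> linarith [c.1, c.2, f.1, f.2, g.1, g.2]

/-- scalar part, diagonal -/
theorem s81_blk_diag (d : ℕ) (hd : 3 ≤ d) (h w ε : ℝ) (hh : 0 < h) (hz : h ≤ zq d) (hw : |w - 1| ≤ ε) :
    |mh h * w - Real.sqrt ((d : ℝ) - 1) / ((d : ℝ) - 2)| ≤ 3 / 2 * ε + 6 * (zq d - h) := by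
  obtain ⟨z0, z2, -⟩ := s81_zq_sq d hd
  have h2 : h ^ 2 ≤ 1 / 2 := by nlinarith
  obtain ⟨m0, m1⟩ := s81_mh_bounds h hh.le h2
  have l1 := s81_mh_lip h (zq d) hh.le h2 z0.le z2
  have hab : |h - zq d| = zq d - h := by rw [abs_sub_comm, abs_of_nonneg (by linarith)]
  rw [hab] at l1
  rw [← (s81_mh_zq d hd).1]
  have e : mh h * w - mh (zq d) = mh h * (w - 1) + (mh h - mh (zq d)) := by ring
  have t1 : |mh h * (w - 1)| ≤ 3 / 2 * ε := by
    rw [abs_mul, abs_of_nonneg m0]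
    exact mul_le_mul m1 hw (abs_nonneg _) (by norm_num)
  rw [e]
  exact (abs_add_le _ _).trans (add_le_add t1 l1)

/-- scalar part, across the edge -/
theorem s81_blk_edge (d : ℕ) (hd : 3 ≤ d) (σ h w ε : ℝ) (hσ : |σ| = 1) (hh : 0 < h) (hz : h ≤ zq d)
    (hw : |w - σ * h| ≤ ε) :
    |mh h * w - σ / ((d : ℝ) - 2)| ≤ 3 / 2 * ε + 6 * (zq d - h) := by
  obtain ⟨z0, z2, -⟩ := s81_zq_sq d hd
  have h2 : h ^ 2 ≤ 1 / 2 := by nlinarith
  obtain ⟨m0, m1⟩ := s81_mh_bounds h hh.le h2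
  have l1 := s81_mhh_lip h (zq d) hh.le h2 z0.le z2
  have hab : |h - zq d| = zq d - h := by rw [abs_sub_comm, abs_of_nonneg (by linarith)]
  rw [hab] at l1
  have e0 : σ / ((d : ℝ) - 2) = σ * (mh (zq d) * zq d) := by rw [(s81_mh_zq d hd).2]; ring
  have e : mh h * w - σ * (mh (zq d) * zq d) = mh h * (w - σ * h) + σ * (mh h * h - mh (zq d) * zq d) := by ring
  have t1 : |mh h * (w - σ * h)| ≤ 3 / 2 * ε := by
    rw [abs_mul, abs_of_nonneg m0]
    exact mul_le_mul m1 hw (abs_nonneg _) (by norm_num)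
  have t2 : |σ * (mh h * h - mh (zq d) * zq d)| ≤ 6 * (zq d - h) := by
    rw [abs_mul, hσ, one_mul]; exact l1
  rw [e0, e]
  exact (abs_add_le _ _).trans (add_le_add t1 t2)

theorem s81_abs_tri (w S t a b : ℝ) (h1 : |w - S| ≤ a) (h2 : |S - t| ≤ b) : |w - t| ≤ a + b := by
  have : w - t = (w - S) + (S - t) := by ring
  rw [this]
  exact (abs_add_le _ _).trans (add_le_add h1 h2)

/-- **every stub which is not exceptional has good endpoint blocks** -/
theorem s81_good (hd : 3 ≤ d) (hn : 0 < n) (hl : 0 < π₀.l) (hext : π₀.Ext π) (hc : π.Complete) (CM : ℝ) (L : ℕ)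
    (hmult : ∀ (v w : Fin n) (k : ℕ), k ≤ L → π₀.Nact ℝ k v w ≤ CM) (r : ℕ) (hr : 2 ≤ r) (hrL : r < L)
    (φ : ℕ → ℝ) (hφ1 : ∀ k, k ≤ r → φ k = 1) (hφ : ∀ k, |φ k| ≤ 1) (h : ℝ) (hh : 0 < h) (hz : h ≤ zq d)
    (β τ U : ℝ) (hU : Umaj d (Cmaj d) π₀.l L h ≤ U)
    (hat : ∀ s : Bool, S81At π₀ π (sgn s) h (s7P0 π₀ φ L (sgn s) h) β) (g : Stub n d)
    (hg : ¬ s81BadS π₀ π r (fun s => s7P0 π₀ φ L (sgn s) h) τ g) :
    π.s8Good (zfun d h) (3 / 2 * (β + τ + U + 4 * CM * zq d ^ r) + 6 * (zq d - h)) g := by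
  unfold s81BadS s81BadV at hg
  push Not at hg
  obtain ⟨g0, ⟨g1, g2⟩, g3, g4⟩ := hg
  have hoth : π.oth g = π₀.oth g := by unfold PPair.oth; rw [hext g g0]
  obtain ⟨z0, z2, -⟩ := s81_zq_sq d hd
  have h2 : h ^ 2 ≤ 1 / 2 := by nlinarith
  have hne1 : h ^ 2 ≠ 1 := by linarith
  intro b
  have hσ2 := s81_sgn_sq' b
  refine ⟨?_, ?_, ?_⟩
  · rw [π.s81_res_eq hc b h hh.ne' hne1]
    refine s81_blk_diag d hd h _ _ hh hz ?_
    have a1 := s81_W_entry π₀ π hd hn hl L φ hφ b h hh.le β τ U hU (hat b) g.1 g.1 (g2 b) (g2 b)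
    have a2 := π₀.s81_diag_sum hd CM L hmult r hrL φ hφ1 hφ (sgn b) h hσ2 hh.le hz g.1 g1
    exact s81_abs_tri _ _ _ _ _ a1 a2
  · rw [π.s81_res_eq hc b h hh.ne' hne1]
    refine s81_blk_diag d hd h _ _ hh hz ?_
    have a1 := s81_W_entry π₀ π hd hn hl L φ hφ b h hh.le β τ U hU (hat b) (π.oth g) (π.oth g) (g4 b) (g4 b)
    have a2 := π₀.s81_diag_sum hd CM L hmult r hrL φ hφ1 hφ (sgn b) h hσ2 hh.le hz (π.oth g) g3
    exact s81_abs_tri _ _ _ _ _ a1 a2
  · rw [π.s81_res_eq hc b h hh.ne' hne1]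
    refine s81_blk_edge d hd (sgn b) h _ _ (s81_sgn_abs' b) hh hz ?_
    have a1 := s81_W_entry π₀ π hd hn hl L φ hφ b h hh.le β τ U hU (hat b) g.1 (π.oth g) (g2 b) (g4 b)
    have a2 := π₀.s81_edge_sum hd CM L hmult r hr hrL φ hφ1 hφ (sgn b) h hσ2 hh.le hz g g0 g1
    rw [← hoth] at a2
    exact s81_abs_tri _ _ _ _ _ a1 a2

open Classical in
theorem s81_card_fst (P : Fin n → Prop) :
    (Finset.univ.filter fun g : Stub n d => P g.1).card = d * (Finset.univ.filter fun v : Fin n => P v).card := by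
  have : (Finset.univ.filter fun g : Stub n d => P g.1) =
      (Finset.univ.filter fun v : Fin n => P v) ×ˢ (Finset.univ : Finset (Fin d)) := by
    ext g
    simp
  rw [this, Finset.card_product, Finset.card_univ, Fintype.card_fin, mul_comm]

open Classical in
theorem s81_card_oth (P : Fin n → Prop) :
    (Finset.univ.filter fun g : Stub n d => P (π.oth g)).card =
      d * (Finset.univ.filter fun v : Fin n => P v).card := by
  rw [← s81_card_fst (d := d) P]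
  refine Finset.card_equiv ⟨π.mate, π.mate, π.mate_mate, π.mate_mate⟩ fun g => ?_
  rw [Finset.mem_filter, Finset.mem_filter]
  simp only [Finset.mem_univ, true_and, PPair.oth, Equiv.coe_fn_mk]

open Classical in
theorem s81_card_badS (r : ℕ) (X : Bool → Matrix (Fin n) (Fin n) ℝ) (τ : ℝ) :
    (Finset.univ.filter fun g : Stub n d => s81BadS π₀ π r X τ g).card ≤
      π₀.l + 2 * d * (Finset.univ.filter fun v : Fin n => s81BadV π₀ r X τ v).card := by
  have hl : (Finset.univ.filter fun g : Stub n d => π₀.Unres g).card = π₀.l := by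
    unfold PPair.l PPair.unres
    congr
  have sub : (Finset.univ.filter fun g : Stub n d => s81BadS π₀ π r X τ g) ⊆
      (Finset.univ.filter fun g : Stub n d => π₀.Unres g) ∪
        ((Finset.univ.filter fun g : Stub n d => s81BadV π₀ r X τ g.1) ∪
          (Finset.univ.filter fun g : Stub n d => s81BadV π₀ r X τ (π.oth g))) := by
    intro g hg
    rw [Finset.mem_filter] at hg
    simp only [Finset.mem_filter, Finset.mem_univ, true_and, Finset.mem_union]
    exact hg.2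
  refine (Finset.card_le_card sub).trans ?_
  refine (Finset.card_union_le _ _).trans ?_
  refine (add_le_add le_rfl (Finset.card_union_le _ _)).trans ?_
  rw [hl, s81_card_fst, s81_card_oth]
  exact le_of_eq (by ring)

open Classical in
/-- **the number of exceptional stubs** -/
theorem s81_count (hd : 3 ≤ d) (hone : ∀ v, π₀.tcount v ≤ 1) (η : ℝ) (L : ℕ)
    (hret : ∀ k : ℕ, 1 ≤ k → k ≤ L → ∑ v : Fin n, π₀.Nact ℝ k v v ≤ (n : ℝ) ^ η * ((d : ℝ) - 1) ^ k)
    (r : ℕ) (hr : r ≤ L) (X : Bool → Matrix (Fin n) (Fin n) ℝ) (Z τ : ℝ) (hX : ∀ s, s7opLE (X s) Z) (hτ : 0 < τ) :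
    ((Finset.univ.filter fun g : Stub n d => s81BadS π₀ π r X τ g).card : ℝ) ≤
      (π₀.l : ℝ) + 2 * d * ((n : ℝ) ^ η * ((d : ℝ) - 1) ^ (r + 1) + 2 * ((π₀.l : ℝ) * Z ^ 2 / τ)) := by
  have c1 : ((Finset.univ.filter fun v : Fin n => s81BadV π₀ r X τ v).card : ℝ) ≤
      (n : ℝ) ^ η * ((d : ℝ) - 1) ^ (r + 1) + 2 * ((π₀.l : ℝ) * Z ^ 2 / τ) := by
    have sub : (Finset.univ.filter fun v : Fin n => s81BadV π₀ r X τ v) ⊆
        (Finset.univ.filter fun v : Fin n => π₀.HasRet r v) ∪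
          ((Finset.univ.filter fun v : Fin n => τ < s7sq (s7row π₀ (X true) v)) ∪
            (Finset.univ.filter fun v : Fin n => τ < s7sq (s7row π₀ (X false) v))) := by
      intro v hv
      rw [Finset.mem_filter] at hv
      simp only [Finset.mem_filter, Finset.mem_univ, true_and, Finset.mem_union]
      rcases hv.2 with hv | ⟨s, hs⟩
      · exact Or.inl hv
      · cases s
        · exact Or.inr (Or.inr hs)
        · exact Or.inr (Or.inl hs)
    have k1 := Finset.card_le_card sub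
    have k2 := Finset.card_union_le (Finset.univ.filter fun v : Fin n => π₀.HasRet r v)
      ((Finset.univ.filter fun v : Fin n => τ < s7sq (s7row π₀ (X true) v)) ∪
        (Finset.univ.filter fun v : Fin n => τ < s7sq (s7row π₀ (X false) v)))
    have k3 := Finset.card_union_le (Finset.univ.filter fun v : Fin n => τ < s7sq (s7row π₀ (X true) v))
      (Finset.univ.filter fun v : Fin n => τ < s7sq (s7row π₀ (X false) v))
    have r1 := π₀.s81_card_ret hd η L hret r hr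
    have r2 := π₀.s81_row_card hone (X true) Z τ (hX true) hτ
    have r3 := π₀.s81_row_card hone (X false) Z τ (hX false) hτ
    have k4 : ((Finset.univ.filter fun v : Fin n => s81BadV π₀ r X τ v).card : ℝ) ≤
        ((Finset.univ.filter fun v : Fin n => π₀.HasRet r v).card : ℝ) +
          (((Finset.univ.filter fun v : Fin n => τ < s7sq (s7row π₀ (X true) v)).card : ℝ) +
            ((Finset.univ.filter fun v : Fin n => τ < s7sq (s7row π₀ (X false) v)).card : ℝ)) := by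
      exact_mod_cast k1.trans (k2.trans (add_le_add le_rfl k3))
    linarith
  have c2 : ((Finset.univ.filter fun g : Stub n d => s81BadS π₀ π r X τ g).card : ℝ) ≤
      (π₀.l : ℝ) + 2 * d * ((Finset.univ.filter fun v : Fin n => s81BadV π₀ r X τ v).card : ℝ) := by
    exact_mod_cast s81_card_badS π₀ π r X τ
  refine c2.trans ?_
  have : (0 : ℝ) ≤ 2 * d := by positivity
  nlinarith [mul_le_mul_of_nonneg_left c1 this]

end

end Claimed.Agent.R275
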