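import Claimed.Agent.R275.S8Defs
import Claimed.Agent.R275.L41B

/-!
# Row 275, Sec 8, package GRAPH: stub sums on a complete pairing, `B = A - dJ/n`, eigensystems, the resolvent in eigen-coordinates.
Statements: helper118.  ONE OWNER.  Finite sums and linear algebra only.  May use `L41A/L41B` (`acount_symm`, `sum_acount_add_tcount`,
`Mmat_complete`), even while these are still sorried.
-/

set_option autoImplicit false

namespace Claimed.Agent.R275

open Matrix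

namespace PPair

variable {n d : ℕ} (π : PPair n d)

/-! ## (A) stub sums: a uniform stub is a uniform oriented edge -/

/-- number of stubs with a prescribed oriented edge -/
theorem s8_card_stub_edge (hc : π.Complete) (v w : Fin n) :
    ((Finset.univ.filter fun g : Stub n d => g.1 = v ∧ π.oth g = w).card : ℝ) = π.adjM ℝ v w := by
  unfold adjM acount oth
  congr 2
  ext g
  simp only [Finset.mem_filter, Finset.mem_univ, true_and]
  constructor
  · rintro ⟨h1, h2⟩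
    exact ⟨h1, hc g, h2⟩
  · rintro ⟨h1, _, h2⟩
    exact ⟨h1, h2⟩

theorem s8_sum_stub (hc : π.Complete) (F : Fin n → Fin n → ℝ) :
    ∑ g : Stub n d, F g.1 (π.oth g) = ∑ v, ∑ w, π.adjM ℝ v w * F v w := by
  have h1 : ∀ v w, π.adjM ℝ v w * F v w =
      ∑ g : Stub n d, if g.1 = v ∧ π.oth g = w then F v w else 0 := by
    intro v w
    rw [← π.s8_card_stub_edge hc v w, ← Finset.sum_filter, Finset.sum_const, nsmul_eq_mul]
  simp only [h1]
  rw [Finset.sum_comm]
  have h2 : ∀ v, ∑ w, ∑ g : Stub n d, (if g.1 = v ∧ π.oth g = w then F v w else 0) =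
      ∑ g : Stub n d, ∑ w, (if g.1 = v ∧ π.oth g = w then F v w else 0) := fun v => Finset.sum_comm
  rw [Finset.sum_comm]
  simp only [h2]
  rw [Finset.sum_comm]
  refine Finset.sum_congr rfl fun g _ => ?_
  rw [Finset.sum_eq_single g.1, Finset.sum_eq_single (π.oth g)]
  · simp
  · intro w _ hw
    rw [if_neg]
    rintro ⟨_, h⟩
    exact hw h.symm
  · simp
  · intro v _ hv
    refine Finset.sum_eq_zero fun w _ => ?_
    rw [if_neg]
    rintro ⟨h, _⟩
    exact hv h.symm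
  · simp

theorem s8_sum_stub_fst (F : Fin n → ℝ) : ∑ g : Stub n d, F g.1 = d * ∑ v, F v := by
  rw [Fintype.sum_prod_type, Finset.mul_sum]
  refine Finset.sum_congr rfl fun v _ => ?_
  simp

theorem s8_sum_stub_oth (F : Fin n → ℝ) : ∑ g : Stub n d, F (π.oth g) = d * ∑ v, F v := by
  rw [← s8_sum_stub_fst (d := d) F]
  let e : Stub n d ≃ Stub n d := ⟨π.mate, π.mate, π.mate_mate, π.mate_mate⟩
  exact Equiv.sum_comp e fun g => F g.1

theorem s8_adjM_symm : (π.adjM ℝ)ᵀ = π.adjM ℝ := by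
  ext v w
  simp only [Matrix.transpose_apply, adjM]
  rw [π.acount_symm]

theorem s8_tcount_zero (hc : π.Complete) (v : Fin n) : π.tcount v = 0 := by
  unfold tcount unres
  rw [Finset.card_eq_zero, Finset.filter_eq_empty_iff]
  intro x hx
  exact absurd (Finset.mem_filter.mp hx).2 (hc x)

theorem s8_adjM_row (hc : π.Complete) (v : Fin n) : ∑ w, π.adjM ℝ v w = d := by
  have h := π.sum_acount_add_tcount v
  rw [π.s8_tcount_zero hc v, add_zero] at h
  unfold adjM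
  exact_mod_cast h

theorem s8_adjM_bit (hs : π.IsSimple) (v w : Fin n) : π.adjM ℝ v w = 0 ∨ π.adjM ℝ v w = 1 := by
  have h := (hs v w).1
  unfold adjM
  rcases Nat.le_one_iff_eq_zero_or_eq_one.mp h with h | h
  · left; rw [h]; simp
  · right; rw [h]; simp

theorem s8_adjM_diag (hs : π.IsSimple) (v : Fin n) : π.adjM ℝ v v = 0 := by
  unfold adjM
  rw [(hs v v).2]
  simp

theorem s8_adjM_stub (hc : π.Complete) (hs : π.IsSimple) (g : Stub n d) :
    π.adjM ℝ g.1 (π.oth g) = 1 ∧ g.1 ≠ π.oth g := by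
  have hpos : 0 < π.acount g.1 (π.oth g) := by
    unfold acount
    refine Finset.card_pos.mpr ⟨g, ?_⟩
    simp only [Finset.mem_filter, Finset.mem_univ, true_and]
    exact ⟨hc g, rfl⟩
  have h1 : π.acount g.1 (π.oth g) = 1 := le_antisymm (hs _ _).1 hpos
  refine ⟨by unfold adjM; rw [h1]; simp, fun h => ?_⟩
  rw [← h, (hs g.1 g.1).2] at h1
  exact absurd h1 (by norm_num)

/-! ## (B) the matrix `B` -/

theorem s8B_symm : (π.s8B)ᵀ = π.s8B := by
  unfold s8B
  rw [Matrix.transpose_sub, Matrix.transpose_smul, π.s8_adjM_symm, J1_transpose]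

theorem s8_adjM_mulVec_one (hc : π.Complete) : π.adjM ℝ *ᵥ (fun _ => (1 : ℝ)) = fun _ => (d : ℝ) := by
  ext v
  simp only [Matrix.mulVec, dotProduct, mul_one]
  exact π.s8_adjM_row hc v

theorem s8B_mulVec_one (hc : π.Complete) (hn : 0 < n) : π.s8B *ᵥ (fun _ => (1 : ℝ)) = 0 := by
  have hnR : (n : ℝ) ≠ 0 := Nat.cast_ne_zero.2 hn.ne'
  unfold s8B
  rw [Matrix.sub_mulVec, Matrix.smul_mulVec, π.s8_adjM_mulVec_one hc, J1_mulVec]
  ext v
  simp only [Pi.sub_apply, Pi.smul_apply, Finset.sum_const, Finset.card_univ, Fintype.card_fin, smul_eq_mul,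
    Pi.zero_apply, nsmul_eq_mul, mul_one]
  field_simp
  ring

theorem s8B_mulVec_of_sum_zero (f : Fin n → ℝ) (hf : ∑ p, f p = 0) :
    π.s8B *ᵥ f = π.adjM ℝ *ᵥ f := by
  unfold s8B
  rw [Matrix.sub_mulVec, Matrix.smul_mulVec, J1_mulVec, hf, mul_zero]
  ext v
  simp

theorem s8B_mul_J1 (hc : π.Complete) (hn : 0 < n) : π.s8B * J1 ℝ n = 0 := by
  have h := mul_J1_of_mulVec_one π.s8B 0 (by rw [π.s8B_mulVec_one hc hn]; rfl)
  rw [h, zero_smul]

theorem s8_J1_mul_B (hc : π.Complete) (hn : 0 < n) : J1 ℝ n * π.s8B = 0 := by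
  have h := J1_mul_of_mulVec_one π.s8B 0 π.s8B_symm (by rw [π.s8B_mulVec_one hc hn]; rfl)
  rw [h, zero_smul]

/-- `A^k = B^k + d^k J/n` for `k ≥ 1` -/
theorem s8_adjM_pow (hc : π.Complete) (hn : 0 < n) (k : ℕ) (hk : 1 ≤ k) :
    (π.adjM ℝ) ^ k = (π.s8B) ^ k + ((d : ℝ) ^ k) • J1 ℝ n := by
  have hA : π.adjM ℝ = π.s8B + (d : ℝ) • J1 ℝ n := by unfold s8B; rw [sub_add_cancel]
  induction k, hk using Nat.le_induction with
  | base => rw [pow_one, pow_one, pow_one]; exact hA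
  | succ k hk ih =>
    have hBk : π.s8B ^ k * J1 ℝ n = 0 := by
      obtain ⟨m, rfl⟩ : ∃ m, k = m + 1 := ⟨k - 1, by omega⟩
      rw [pow_succ, Matrix.mul_assoc, π.s8B_mul_J1 hc hn, Matrix.mul_zero]
    rw [pow_succ, ih]
    conv_lhs => rw [hA]
    rw [Matrix.add_mul, Matrix.mul_add, Matrix.mul_add, Matrix.mul_smul, hBk, smul_zero, add_zero,
      Matrix.smul_mul, π.s8_J1_mul_B hc hn, smul_zero, zero_add, Matrix.smul_mul, Matrix.mul_smul,
      J1_mul_J1 ℝ hn, smul_smul, ← pow_succ, ← pow_succ]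

/-- the resolvent of Sec 8 is the `Rinv` of Sec 4 at a complete pairing -/
theorem s8Res_eq_Rinv {K : Type*} [Field K] [CharZero K] (hc : π.Complete) (b : Bool) (h : K) :
    π.s8Res b (zfun d h) = π.Rinv (sgn b) h := by
  have h1 : π.Rinv (sgn b) h = invOn1 (π.Mmat (sgn b) h) := rfl
  rw [h1, π.Mmat_complete hc]
  rfl

end PPair

/-! ## (C) eigensystems -/

theorem s8Eig_exists {n : ℕ} (B : Matrix (Fin n) (Fin n) ℝ) (hB : Bᵀ = B) : Nonempty (S8Eig B) := by
  have hH : B.IsHermitian := by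
    unfold Matrix.IsHermitian
    rw [Matrix.conjTranspose_eq_transpose_of_trivial, hB]
  refine ⟨⟨hH.eigenvalues, fun i => ⇑(hH.eigenvectorBasis i), fun i k => ?_, fun i => hH.mulVec_eigenvectorBasis i⟩⟩
  have h := orthonormal_iff_ite.mp hH.eigenvectorBasis.orthonormal k i
  rw [PiLp.inner_apply] at h
  simp only [RCLike.inner_apply, conj_trivial] at h
  rw [h]
  by_cases hik : i = k
  · simp [hik]
  · simp [hik, Ne.symm hik]

namespace S8Eig

variable {n : ℕ} {B : Matrix (Fin n) (Fin n) ℝ} (E : S8Eig B)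

/-- eigen-coordinates of a vector -/
def coef (f : Fin n → ℝ) (i : Fin n) : ℝ := ∑ p, E.vec i p * f p

theorem complete (p p' : Fin n) : ∑ i, E.vec i p * E.vec i p' = if p = p' then 1 else 0 := by
  have h1 : (Matrix.of E.vec) * (Matrix.of E.vec)ᵀ = 1 := by
    ext i k
    rw [Matrix.mul_apply, Matrix.one_apply]
    exact E.orth i k
  have h2 := mul_eq_one_comm.mp h1
  have h3 := congrFun (congrFun h2 p) p'
  rw [Matrix.mul_apply, Matrix.one_apply] at h3
  exact h3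

theorem expand (f : Fin n → ℝ) (p : Fin n) : f p = ∑ i, E.coef f i * E.vec i p := by
  unfold coef
  simp only [Finset.sum_mul]
  rw [Finset.sum_comm]
  have h : ∀ q, ∑ i, E.vec i q * f q * E.vec i p = f q * if q = p then 1 else 0 := by
    intro q
    rw [← E.complete q p, Finset.mul_sum]
    exact Finset.sum_congr rfl fun i _ => by ring
  simp only [h]
  simp

theorem coef_comb (ξ : Fin n → ℝ) (i : Fin n) : E.coef (E.comb ξ) i = ξ i := by
  unfold coef comb
  simp only [Finset.mul_sum]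
  rw [Finset.sum_comm]
  have h : ∀ k, ∑ p, E.vec i p * (ξ k * E.vec k p) = ξ k * if i = k then 1 else 0 := by
    intro k
    rw [← E.orth i k, Finset.mul_sum]
    exact Finset.sum_congr rfl fun p _ => by ring
  simp only [h]
  simp

theorem comb_coef (f : Fin n → ℝ) : E.comb (E.coef f) = f := by
  funext p
  exact (E.expand f p).symm

theorem parseval (f g : Fin n → ℝ) : ∑ p, f p * g p = ∑ i, E.coef f i * E.coef g i := by
  have h : ∀ p, f p * g p = ∑ i, E.coef f i * (E.vec i p * g p) := by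
    intro p
    rw [E.expand f p, Finset.sum_mul]
    exact Finset.sum_congr rfl fun i _ => by ring
  simp only [h]
  rw [Finset.sum_comm]
  refine Finset.sum_congr rfl fun i _ => ?_
  rw [← Finset.mul_sum]
  rfl

/-- eigen-coordinates of `B f` (no symmetry needed) -/
theorem mulVec_comb (ξ : Fin n → ℝ) : B *ᵥ E.comb ξ = E.comb fun i => E.lam i * ξ i := by
  have h : E.comb ξ = ∑ i, ξ i • E.vec i := by
    funext p
    simp [comb, Finset.sum_apply]
  rw [h, Matrix.mulVec_sum]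
  funext p
  simp only [Matrix.mulVec_smul, E.eig, Finset.sum_apply, Pi.smul_apply, smul_eq_mul, comb]
  exact Finset.sum_congr rfl fun i _ => by ring

theorem coef_mulVec (f : Fin n → ℝ) (i : Fin n) : E.coef (B *ᵥ f) i = E.lam i * E.coef f i := by
  conv_lhs => rw [← E.comb_coef f, E.mulVec_comb, E.coef_comb]

theorem quad (f : Fin n → ℝ) : f ⬝ᵥ (B *ᵥ f) = ∑ i, E.lam i * E.coef f i ^ 2 := by
  have h := E.parseval f (B *ᵥ f)
  unfold dotProduct
  rw [h]
  refine Finset.sum_congr rfl fun i _ => ?_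
  rw [E.coef_mulVec]
  ring

theorem comb_sq (ξ : Fin n → ℝ) : ∑ p, E.comb ξ p ^ 2 = ∑ i, ξ i ^ 2 := by
  have h := E.parseval (E.comb ξ) (E.comb ξ)
  simp only [E.coef_comb] at h
  simp only [sq]
  exact h

theorem pow_mulVec_vec (k : ℕ) (i : Fin n) : (B ^ k) *ᵥ E.vec i = E.lam i ^ k • E.vec i := by
  induction k with
  | zero => simp
  | succ k ih =>
    rw [pow_succ, ← Matrix.mulVec_mulVec, E.eig, Matrix.mulVec_smul, ih, smul_smul, pow_succ, mul_comm]

/-- the trace in an orthonormal basis -/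
theorem trace_eq (M : Matrix (Fin n) (Fin n) ℝ) : Matrix.trace M = ∑ i, E.vec i ⬝ᵥ (M *ᵥ E.vec i) := by
  simp only [dotProduct, Matrix.mulVec, Finset.mul_sum]
  rw [Finset.sum_comm]
  have h : ∀ p, ∑ i, ∑ q, E.vec i p * (M p q * E.vec i q) = M p p := by
    intro p
    rw [Finset.sum_comm]
    have h2 : ∀ q, ∑ i, E.vec i p * (M p q * E.vec i q) = M p q * if p = q then 1 else 0 := by
      intro q
      rw [← E.complete p q, Finset.mul_sum]
      exact Finset.sum_congr rfl fun i _ => by ring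
    simp only [h2]
    simp
  simp only [h]
  rfl

/-- `trace (B^k) = ∑ λ_i^k` -/
theorem trace_pow (k : ℕ) : Matrix.trace (B ^ k) = ∑ i, E.lam i ^ k := by
  rw [E.trace_eq]
  refine Finset.sum_congr rfl fun i _ => ?_
  rw [E.pow_mulVec_vec, dotProduct_smul]
  have := E.orth i i
  rw [if_pos rfl] at this
  unfold dotProduct
  rw [this, smul_eq_mul, mul_one]

end S8Eig

namespace S8Eig

variable {n : ℕ} {B : Matrix (Fin n) (Fin n) ℝ} (E : S8Eig B)

/-- functional calculus in the eigensystem: `∑ φ_i v_i v_iᵀ` -/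
def fn (φ : Fin n → ℝ) : Matrix (Fin n) (Fin n) ℝ := fun p p' => ∑ i, φ i * E.vec i p * E.vec i p'

theorem fn_one : E.fn (fun _ => 1) = 1 := by
  ext p p'
  simp only [fn, one_mul, Matrix.one_apply]
  exact E.complete p p'

theorem fn_transpose (φ : Fin n → ℝ) : (E.fn φ)ᵀ = E.fn φ := by
  ext p p'
  simp only [fn, Matrix.transpose_apply]
  exact Finset.sum_congr rfl fun i _ => by ring

theorem fn_mulVec_vec (φ : Fin n → ℝ) (i : Fin n) : E.fn φ *ᵥ E.vec i = φ i • E.vec i := by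
  funext p
  simp only [Matrix.mulVec, dotProduct, fn, Finset.sum_mul, Pi.smul_apply, smul_eq_mul]
  rw [Finset.sum_comm]
  have h : ∀ k, ∑ q, φ k * E.vec k p * E.vec k q * E.vec i q = φ k * E.vec k p * if k = i then 1 else 0 := by
    intro k
    rw [← E.orth k i, Finset.mul_sum]
    exact Finset.sum_congr rfl fun q _ => by ring
  simp only [h]
  simp

theorem mul_fn (M : Matrix (Fin n) (Fin n) ℝ) (φ : Fin n → ℝ) (p p' : Fin n) :
    (M * E.fn φ) p p' = ∑ i, φ i * (M *ᵥ E.vec i) p * E.vec i p' := by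
  simp only [Matrix.mul_apply, fn, Matrix.mulVec, dotProduct, Finset.mul_sum, Finset.sum_mul]
  rw [Finset.sum_comm]
  exact Finset.sum_congr rfl fun i _ => Finset.sum_congr rfl fun q _ => by ring

theorem fn_mul (φ ψ : Fin n → ℝ) : E.fn φ * E.fn ψ = E.fn fun i => φ i * ψ i := by
  ext p p'
  rw [E.mul_fn]
  simp only [E.fn_mulVec_vec, Pi.smul_apply, smul_eq_mul, fn]
  exact Finset.sum_congr rfl fun i _ => by ring

theorem fn_lam : E.fn E.lam = B := by
  have h : B = B * E.fn fun _ => 1 := by rw [E.fn_one, Matrix.mul_one]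
  conv_rhs => rw [h]
  ext p p'
  rw [E.mul_fn]
  simp only [E.eig, Pi.smul_apply, smul_eq_mul, fn, one_mul]

theorem fn_lin (a c : ℝ) (φ ψ : Fin n → ℝ) : E.fn (fun i => a * φ i - c * ψ i) = a • E.fn φ - c • E.fn ψ := by
  ext p p'
  simp only [fn, Matrix.sub_apply, Matrix.smul_apply, smul_eq_mul, Finset.mul_sum]
  rw [← Finset.sum_sub_distrib]
  exact Finset.sum_congr rfl fun i _ => by ring

/-- `(z - σ B) ∑ v_i v_iᵀ/(z - σ λ_i) = 1` -/
theorem fn_res (σ z : ℝ) (hne : ∀ i, z - σ * E.lam i ≠ 0) :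
    (z • (1 : Matrix (Fin n) (Fin n) ℝ) - σ • B) * E.fn (fun i => (z - σ * E.lam i)⁻¹) = 1 := by
  have h : z • (1 : Matrix (Fin n) (Fin n) ℝ) - σ • B = E.fn fun i => z * 1 - σ * E.lam i := by
    rw [E.fn_lin z σ (fun _ => 1) E.lam, E.fn_one, E.fn_lam]
  rw [h, E.fn_mul, ← E.fn_one]
  congr 1
  funext i
  rw [mul_one]
  exact mul_inv_cancel₀ (hne i)

end S8Eig

/-! ## (D) eigensystems of `B = A - dJ/n` and the resolvent -/

namespace PPair

variable {n d : ℕ} (π : PPair n d) (E : S8Eig π.s8B)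

/-- every mode with `λ ≠ 0` is orthogonal to the constants and is an eigenvector of `A` -/
theorem s8_mode (hc : π.Complete) (hn : 0 < n) (i : Fin n) (hi : E.lam i ≠ 0) :
    ∑ p, E.vec i p = 0 ∧ π.adjM ℝ *ᵥ E.vec i = E.lam i • E.vec i := by
  have h1 : (fun _ => (1 : ℝ)) ⬝ᵥ (π.s8B *ᵥ E.vec i) = 0 := by
    rw [Matrix.dotProduct_mulVec, ← Matrix.mulVec_transpose, π.s8B_symm, π.s8B_mulVec_one hc hn, zero_dotProduct]
  rw [E.eig, dotProduct_smul] at h1
  have h2 : ∑ p, E.vec i p = 0 := by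
    have : (fun _ => (1 : ℝ)) ⬝ᵥ E.vec i = ∑ p, E.vec i p := by simp [dotProduct]
    rw [this, smul_eq_mul] at h1
    exact (mul_eq_zero.mp h1).resolve_left hi
  exact ⟨h2, by rw [← π.s8B_mulVec_of_sum_zero _ h2, E.eig]⟩

theorem s8_pencil_symm (σ z : ℝ) :
    (z • (1 : Matrix (Fin n) (Fin n) ℝ) - σ • π.adjM ℝ)ᵀ = z • (1 : Matrix (Fin n) (Fin n) ℝ) - σ • π.adjM ℝ := by
  rw [Matrix.transpose_sub, Matrix.transpose_smul, Matrix.transpose_smul, Matrix.transpose_one, π.s8_adjM_symm]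

/-- the resolvent in matrix form -/
theorem s8Res_eq (hc : π.Complete) (hn : 0 < n) (b : Bool) (z : ℝ) (hz : z ≠ 0)
    (hne : ∀ i, z - sgn b * E.lam i ≠ 0) :
    IsUnit (compN (z • (1 : Matrix (Fin n) (Fin n) ℝ) - (sgn b : ℝ) • π.adjM ℝ)) ∧
    π.s8Res b z = E.fn (fun i => (z - sgn b * E.lam i)⁻¹) - z⁻¹ • J1 ℝ n := by
  set σ : ℝ := sgn b with hσ
  set R₀ := E.fn (fun i => (z - σ * E.lam i)⁻¹) with hR₀
  set MB : Matrix (Fin n) (Fin n) ℝ := z • (1 : Matrix (Fin n) (Fin n) ℝ) - σ • π.s8B with hMB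
  have hMR : MB * R₀ = 1 := E.fn_res σ z hne
  have hJJ := J1_mul_J1 ℝ hn
  have hJMB : J1 ℝ n * MB = z • J1 ℝ n := by
    rw [hMB, Matrix.mul_sub, Matrix.mul_smul, Matrix.mul_one, Matrix.mul_smul, π.s8_J1_mul_B hc hn, smul_zero,
      sub_zero]
  have hMBJ : MB * J1 ℝ n = z • J1 ℝ n := by
    rw [hMB, Matrix.sub_mul, Matrix.smul_mul, Matrix.one_mul, Matrix.smul_mul, π.s8B_mul_J1 hc hn, smul_zero,
      sub_zero]
  have hJR : J1 ℝ n * R₀ = z⁻¹ • J1 ℝ n := by
    have h1 : J1 ℝ n * MB * R₀ = J1 ℝ n := by rw [Matrix.mul_assoc, hMR, Matrix.mul_one]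
    rw [hJMB, Matrix.smul_mul] at h1
    calc J1 ℝ n * R₀ = z⁻¹ • (z • (J1 ℝ n * R₀)) := by rw [smul_smul, inv_mul_cancel₀ hz, one_smul]
      _ = z⁻¹ • J1 ℝ n := by rw [h1]
  have hMA : z • (1 : Matrix (Fin n) (Fin n) ℝ) - σ • π.adjM ℝ = MB - (σ * d) • J1 ℝ n := by
    have hA : π.adjM ℝ = π.s8B + (d : ℝ) • J1 ℝ n := by unfold s8B; rw [sub_add_cancel]
    rw [hMB, hA, smul_add, smul_smul]
    abel
  have h1 : (z • (1 : Matrix (Fin n) (Fin n) ℝ) - σ • π.adjM ℝ) * (R₀ - z⁻¹ • J1 ℝ n) = Pi1 ℝ n := by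
    rw [hMA, Matrix.sub_mul, Matrix.mul_sub, Matrix.mul_sub, hMR, Matrix.mul_smul, hMBJ, Matrix.smul_mul, hJR,
      Matrix.smul_mul, Matrix.mul_smul, hJJ, smul_smul, inv_mul_cancel₀ hz, one_smul, sub_self, sub_zero]
    rfl
  have h2 : J1 ℝ n * (R₀ - z⁻¹ • J1 ℝ n) = 0 := by
    rw [Matrix.mul_sub, hJR, Matrix.mul_smul, hJJ, sub_self]
  have hM1 : (z • (1 : Matrix (Fin n) (Fin n) ℝ) - σ • π.adjM ℝ) *ᵥ (fun _ => 1) = fun _ => z - σ * d := by
    rw [Matrix.sub_mulVec, Matrix.smul_mulVec, Matrix.smul_mulVec, Matrix.one_mulVec, π.s8_adjM_mulVec_one hc]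
    funext p
    simp
  exact invOn1_unique hn _ (z - σ * d) (π.s8_pencil_symm σ z) hM1 _ h1 h2

theorem s8Res_entry (hc : π.Complete) (hn : 0 < n) (b : Bool) (z : ℝ) (hz : z ≠ 0)
    (hne : ∀ i, z - sgn b * E.lam i ≠ 0) (p p' : Fin n) :
    π.s8Res b z p p' = ∑ i, E.vec i p * E.vec i p' / (z - sgn b * E.lam i) - 1 / (z * n) := by
  rw [(π.s8Res_eq E hc hn b z hz hne).2]
  simp only [Matrix.sub_apply, Matrix.smul_apply, S8Eig.fn, J1, smul_eq_mul]
  congr 1
  · exact Finset.sum_congr rfl fun i _ => by rw [div_eq_mul_inv]; ring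
  · rw [one_div, mul_inv]

/-- the tilt weight in matrix form -/
theorem s8Psi_eq (hc : π.Complete) (hn : 0 < n) (b : Bool) (z : ℝ) (hz : z ≠ 0)
    (hne : ∀ i, z - sgn b * E.lam i ≠ 0) :
    π.s8Psi b z = E.fn (fun i => ((z - sgn b * E.lam i) ^ 2)⁻¹) - (z ^ 2)⁻¹ • J1 ℝ n := by
  have hR := (π.s8Res_eq E hc hn b z hz hne).2
  have hspec := invOn1_spec hn _ (z - sgn b * d) (π.s8_pencil_symm (sgn b) z)
    (by
      rw [Matrix.sub_mulVec, Matrix.smul_mulVec, Matrix.smul_mulVec, Matrix.one_mulVec, π.s8_adjM_mulVec_one hc]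
      funext p
      simp) (π.s8Res_eq E hc hn b z hz hne).1
  have hRJ : π.s8Res b z * J1 ℝ n = 0 := hspec.2.2.1
  have hJR : J1 ℝ n * π.s8Res b z = 0 := hspec.2.2.2.1
  have hJJ := J1_mul_J1 ℝ hn
  set R₀ := E.fn (fun i => (z - sgn b * E.lam i)⁻¹) with hR₀
  have hR₀' : R₀ = π.s8Res b z + z⁻¹ • J1 ℝ n := by rw [hR, sub_add_cancel]
  have h1 : R₀ * R₀ = π.s8Res b z * π.s8Res b z + (z ^ 2)⁻¹ • J1 ℝ n := by
    rw [hR₀', Matrix.add_mul, Matrix.mul_add, Matrix.mul_add, Matrix.mul_smul, hRJ, Matrix.smul_mul, hJR,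
      Matrix.smul_mul, Matrix.mul_smul, hJJ, smul_zero, add_zero, zero_add, smul_smul, ← mul_inv, sq z]
  have h2 : R₀ * R₀ = E.fn (fun i => ((z - sgn b * E.lam i) ^ 2)⁻¹) := by
    rw [hR₀, E.fn_mul]
    congr 1
    funext i
    rw [← mul_inv, ← sq]
  unfold s8Psi
  rw [← h2, h1, add_sub_cancel_right]

theorem s8Psi_entry (hc : π.Complete) (hn : 0 < n) (b : Bool) (z : ℝ) (hz : z ≠ 0)
    (hne : ∀ i, z - sgn b * E.lam i ≠ 0) (p p' : Fin n) :
    π.s8Psi b z p p' = ∑ i, E.vec i p * E.vec i p' / (z - sgn b * E.lam i) ^ 2 - 1 / (z ^ 2 * n) := by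
  rw [π.s8Psi_eq E hc hn b z hz hne]
  simp only [Matrix.sub_apply, Matrix.smul_apply, S8Eig.fn, J1, smul_eq_mul]
  congr 1
  · exact Finset.sum_congr rfl fun i _ => by rw [div_eq_mul_inv]; ring
  · rw [one_div, mul_inv]

theorem s8Res_symm (b : Bool) (z : ℝ) : (π.s8Res b z)ᵀ = π.s8Res b z := by
  unfold s8Res invOn1
  rw [Matrix.transpose_sub, Matrix.transpose_nonsing_inv, compN_transpose _ (π.s8_pencil_symm (sgn b) z),
    J1_transpose]

theorem s8Psi_symm (b : Bool) (z : ℝ) : (π.s8Psi b z)ᵀ = π.s8Psi b z := by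
  unfold s8Psi
  rw [Matrix.transpose_mul, π.s8Res_symm]

/-- rows of `Ψ` sum to zero -/
theorem s8Psi_row_sum (hc : π.Complete) (hn : 0 < n) (b : Bool) (z : ℝ) (hz : z ≠ 0)
    (hne : ∀ i, z - sgn b * E.lam i ≠ 0) (p : Fin n) : ∑ p', π.s8Psi b z p p' = 0 := by
  have hnR : (n : ℝ) ≠ 0 := Nat.cast_ne_zero.2 hn.ne'
  have hspec := invOn1_spec hn _ (z - sgn b * d) (π.s8_pencil_symm (sgn b) z)
    (by
      rw [Matrix.sub_mulVec, Matrix.smul_mulVec, Matrix.smul_mulVec, Matrix.one_mulVec, π.s8_adjM_mulVec_one hc]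
      funext p
      simp) (π.s8Res_eq E hc hn b z hz hne).1
  have hRJ : π.s8Res b z * J1 ℝ n = 0 := hspec.2.2.1
  have h1 : π.s8Psi b z * J1 ℝ n = 0 := by
    unfold s8Psi
    rw [Matrix.mul_assoc, hRJ, Matrix.mul_zero]
  have h2 := congrFun (congrFun h1 p) p
  simp only [Matrix.mul_apply, J1, Matrix.zero_apply, ← Finset.sum_mul] at h2
  exact (mul_eq_zero.mp h2).resolve_right (inv_ne_zero hnR)

theorem s8Psi_mulVec_vec (hc : π.Complete) (hn : 0 < n) (b : Bool) (z : ℝ) (hz : z ≠ 0)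
    (hne : ∀ i, z - sgn b * E.lam i ≠ 0) (i : Fin n) (hi : E.lam i ≠ 0) :
    π.s8Psi b z *ᵥ E.vec i = ((z - sgn b * E.lam i) ^ 2)⁻¹ • E.vec i := by
  rw [π.s8Psi_eq E hc hn b z hz hne, Matrix.sub_mulVec, E.fn_mulVec_vec, Matrix.smul_mulVec, J1_mulVec,
    (π.s8_mode E hc hn i hi).1, mul_zero]
  funext p
  simp

theorem s8Psi_apply (b : Bool) (z : ℝ) (p p' : Fin n) :
    π.s8Psi b z p p' = ∑ q, π.s8Res b z p q * π.s8Res b z p' q := by
  unfold s8Psi
  rw [Matrix.mul_apply]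
  refine Finset.sum_congr rfl fun q _ => ?_
  congr 1
  exact congrFun (congrFun (π.s8Res_symm b z) p') q

/-- `Ψ = Rᵀ R` is positive semidefinite: Cauchy-Schwarz for its entries -/
theorem s8Psi_entry_sq_le (b : Bool) (z : ℝ) (p p' : Fin n) :
    π.s8Psi b z p p' ^ 2 ≤ π.s8Psi b z p p * π.s8Psi b z p' p' := by
  rw [π.s8Psi_apply, π.s8Psi_apply, π.s8Psi_apply]
  have h := Finset.sum_mul_sq_le_sq_mul_sq Finset.univ (fun q => π.s8Res b z p q) fun q => π.s8Res b z p' q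
  simp only [sq] at h ⊢
  exact h

theorem s8Psi_diag_nonneg (b : Bool) (z : ℝ) (p : Fin n) : 0 ≤ π.s8Psi b z p p := by
  rw [π.s8Psi_apply]
  exact Finset.sum_nonneg fun q _ => mul_self_nonneg _

end PPair

end Claimed.Agent.R275
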