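import Mathlib

/-!
# Row 275, Sec 8, package INDEP: the affine pairwise independent sample space (Step 7 of Thm 8.3) as finite sums.
Statements: helper118.  ONE OWNER.  Pure `ℕ`/`ZMod P` arithmetic + finite sums; no graph, no matrix.   Proofs: helper38.

Seeds `ω = (γ, β) ∈ range P × range P`; the residue of the draw `r` is `(γ r + β) % P`.
`(γ, β) ↦ ((γ r + β) % P, (γ t + β) % P)` is a bijection of `(range P)²` when `P` is prime and `r ≢ t (mod P)` (work in `ZMod P`).
-/

set_option autoImplicit false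

namespace Claimed.Agent.R275

open Finset

/-- the seeds of the modulus `P` -/
def s8Seeds (P : ℕ) : Finset (ℕ × ℕ) := range P ×ˢ range P

theorem s8Seeds_card (P : ℕ) : (s8Seeds P).card = P * P := by
  simp [s8Seeds]

/-- an injective self-map of a finite set permutes sums -/
theorem s8_sum_perm {α : Type*} [DecidableEq α] (s : Finset α) (f : α → α) (hm : ∀ x ∈ s, f x ∈ s)
    (hi : Set.InjOn f s) (F : α → ℝ) : ∑ x ∈ s, F (f x) = ∑ x ∈ s, F x := by
  have himg : s.image f = s :=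
    Finset.eq_of_subset_of_card_le (Finset.image_subset_iff.mpr hm) (by rw [Finset.card_image_of_injOn hi])
  conv_rhs => rw [← himg]
  rw [Finset.sum_image hi]

/-- a shift permutes the residues -/
theorem s8_sum_shift (P : ℕ) (hP : 0 < P) (c : ℕ) (F : ℕ → ℝ) :
    ∑ b ∈ range P, F ((c + b) % P) = ∑ a ∈ range P, F a := by
  refine s8_sum_perm (range P) (fun b => (c + b) % P) (fun b _ => mem_range.mpr (Nat.mod_lt _ hP)) ?_ F
  intro b hb b' hb' h
  have hb1 : b < P := mem_range.mp hb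
  have hb2 : b' < P := mem_range.mp hb'
  have h1 : c + b ≡ c + b' [MOD P] := h
  exact (Nat.ModEq.add_left_cancel' c h1).eq_of_lt_of_lt hb1 hb2

/-- one draw is uniform -/
theorem s8_indep_one (P : ℕ) (hP : 0 < P) (r : ℕ) (F : ℕ → ℝ) :
    ∑ ω ∈ s8Seeds P, F ((ω.1 * r + ω.2) % P) = P * ∑ a ∈ range P, F a := by
  unfold s8Seeds
  rw [Finset.sum_product]
  simp only [s8_sum_shift P hP]
  rw [Finset.sum_const, card_range, nsmul_eq_mul]

/-- two different draws are independent and uniform -/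
theorem s8_indep_two (P : ℕ) (hP : P.Prime) (r t : ℕ) (hrt : r % P ≠ t % P) (F : ℕ → ℕ → ℝ) :
    ∑ ω ∈ s8Seeds P, F ((ω.1 * r + ω.2) % P) ((ω.1 * t + ω.2) % P) =
      ∑ a ∈ range P, ∑ b ∈ range P, F a b := by
  have : Fact P.Prime := ⟨hP⟩
  have hpos : 0 < P := hP.pos
  have h := s8_sum_perm (s8Seeds P) (fun ω => ((ω.1 * r + ω.2) % P, (ω.1 * t + ω.2) % P))
    (fun ω _ => by
      unfold s8Seeds
      exact mem_product.mpr ⟨mem_range.mpr (Nat.mod_lt _ hpos), mem_range.mpr (Nat.mod_lt _ hpos)⟩)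
    (by
      rintro ⟨g, b⟩ hω ⟨g', b'⟩ hω' heq
      have hω1 := mem_product.mp (Finset.mem_coe.mp hω)
      have hω2 := mem_product.mp (Finset.mem_coe.mp hω')
      have hg : g < P := mem_range.mp hω1.1
      have hb : b < P := mem_range.mp hω1.2
      have hg' : g' < P := mem_range.mp hω2.1
      have hb' : b' < P := mem_range.mp hω2.2
      have e1 : (g * r + b) % P = (g' * r + b') % P := congrArg Prod.fst heq
      have e2 : (g * t + b) % P = (g' * t + b') % P := congrArg Prod.snd heq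
      rw [← ZMod.natCast_eq_natCast_iff'] at e1 e2
      push_cast at e1 e2
      have hne : (r : ZMod P) - t ≠ 0 := by
        intro h0
        apply hrt
        rw [← ZMod.natCast_eq_natCast_iff']
        exact sub_eq_zero.mp h0
      have h3 : ((g : ZMod P) - g') * ((r : ZMod P) - t) = 0 := by linear_combination e1 - e2
      have h4 : (g : ZMod P) = g' := sub_eq_zero.mp ((mul_eq_zero.mp h3).resolve_right hne)
      have h5 : (b : ZMod P) = b' := by
        rw [h4] at e1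
        exact add_left_cancel e1
      rw [ZMod.natCast_eq_natCast_iff', Nat.mod_eq_of_lt hg, Nat.mod_eq_of_lt hg'] at h4
      rw [ZMod.natCast_eq_natCast_iff', Nat.mod_eq_of_lt hb, Nat.mod_eq_of_lt hb'] at h5
      rw [h4, h5])
    (fun ω => F ω.1 ω.2)
  rw [h]
  unfold s8Seeds
  rw [Finset.sum_product]

/-- first moment of a sum over the draws `r = 1, …, M` -/
theorem s8_first_moment (P : ℕ) (hP : 0 < P) (M : ℕ) (Y : ℕ → ℝ) :
    ∑ ω ∈ s8Seeds P, ∑ r ∈ range M, Y ((ω.1 * (r + 1) + ω.2) % P) = P * M * ∑ a ∈ range P, Y a := by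
  rw [Finset.sum_comm]
  simp only [s8_indep_one P hP]
  rw [Finset.sum_const, card_range, nsmul_eq_mul]
  ring

/-- different draws have different residues -/
theorem s8_draw_ne {P M r t : ℕ} (hM : M < P) (hr : r ∈ range M) (ht : t ∈ range M) (hrt : r ≠ t) :
    (r + 1) % P ≠ (t + 1) % P := by
  have h1 : r < M := mem_range.mp hr
  have h2 : t < M := mem_range.mp ht
  rw [Nat.mod_eq_of_lt (by omega), Nat.mod_eq_of_lt (by omega)]
  omega

/-- second moment of a sum of draws of a centred function -/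
theorem s8_second_moment_centred (P : ℕ) (hP : P.Prime) (M : ℕ) (hM : M < P) (Z : ℕ → ℝ)
    (hZ : ∑ a ∈ range P, Z a = 0) :
    ∑ ω ∈ s8Seeds P, (∑ r ∈ range M, Z ((ω.1 * (r + 1) + ω.2) % P)) ^ 2 = P * M * ∑ a ∈ range P, Z a ^ 2 := by
  have h1 : ∀ ω : ℕ × ℕ, (∑ r ∈ range M, Z ((ω.1 * (r + 1) + ω.2) % P)) ^ 2 =
      ∑ r ∈ range M, ∑ t ∈ range M, Z ((ω.1 * (r + 1) + ω.2) % P) * Z ((ω.1 * (t + 1) + ω.2) % P) := by
    intro ω
    rw [sq, Finset.sum_mul_sum]
  simp only [h1]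
  rw [Finset.sum_comm]
  have h2 : ∀ r ∈ range M, ∑ ω ∈ s8Seeds P, ∑ t ∈ range M,
      Z ((ω.1 * (r + 1) + ω.2) % P) * Z ((ω.1 * (t + 1) + ω.2) % P) = P * ∑ a ∈ range P, Z a ^ 2 := by
    intro r hr
    rw [Finset.sum_comm]
    rw [Finset.sum_eq_single_of_mem r hr]
    · have := s8_indep_one P hP.pos (r + 1) fun a => Z a ^ 2
      simp only [← sq]
      exact this
    · intro t ht htr
      rw [s8_indep_two P hP (r + 1) (t + 1) (s8_draw_ne hM hr ht (Ne.symm htr)) fun a b => Z a * Z b,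
        ← Finset.sum_mul_sum, hZ, zero_mul]
  rw [Finset.sum_congr rfl h2, Finset.sum_const, card_range, nsmul_eq_mul]
  ring

/-- second moment of a centred sum (cross terms vanish by pairwise independence; variance `≤` second moment) -/
theorem s8_second_moment (P : ℕ) (hP : P.Prime) (M : ℕ) (hM : M < P) (Y : ℕ → ℝ) :
    ∑ ω ∈ s8Seeds P, (∑ r ∈ range M, (Y ((ω.1 * (r + 1) + ω.2) % P) - (∑ a ∈ range P, Y a) / P)) ^ 2
      ≤ P * M * ∑ a ∈ range P, Y a ^ 2 := by
  have hP0 : (0 : ℝ) < P := by exact_mod_cast hP.pos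
  set μ : ℝ := (∑ a ∈ range P, Y a) / P with hμ
  have hsum : ∑ a ∈ range P, Y a = P * μ := by rw [hμ]; field_simp
  have hZ : ∑ a ∈ range P, (Y a - μ) = 0 := by
    rw [Finset.sum_sub_distrib, Finset.sum_const, card_range, nsmul_eq_mul, hsum]
    ring
  have h := s8_second_moment_centred P hP M hM (fun a => Y a - μ) hZ
  rw [h]
  have h2 : ∑ a ∈ range P, (Y a - μ) ^ 2 ≤ ∑ a ∈ range P, Y a ^ 2 := by
    have h3 : ∑ a ∈ range P, (Y a - μ) ^ 2 = ∑ a ∈ range P, Y a ^ 2 - P * μ ^ 2 := by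
      have h4 : ∀ a, (Y a - μ) ^ 2 = Y a ^ 2 - 2 * μ * Y a + μ ^ 2 := fun a => by ring
      simp only [h4]
      rw [Finset.sum_add_distrib, Finset.sum_sub_distrib, ← Finset.mul_sum, hsum, Finset.sum_const, card_range,
        nsmul_eq_mul]
      ring
    rw [h3]
    have : 0 ≤ (P : ℝ) * μ ^ 2 := by positivity
    linarith
  exact mul_le_mul_of_nonneg_left h2 (by positivity)

/-- vector valued version (squared Frobenius / Euclidean norms) -/
theorem s8_second_moment_vec {ι : Type*} [Fintype ι] (P : ℕ) (hP : P.Prime) (M : ℕ) (hM : M < P)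
    (Y : ℕ → ι → ℝ) :
    ∑ ω ∈ s8Seeds P, ∑ i, (∑ r ∈ range M,
        (Y ((ω.1 * (r + 1) + ω.2) % P) i - (∑ a ∈ range P, Y a i) / P)) ^ 2
      ≤ P * M * ∑ a ∈ range P, ∑ i, Y a i ^ 2 := by
  rw [Finset.sum_comm, Finset.sum_comm (s := range P), Finset.mul_sum]
  exact Finset.sum_le_sum fun i _ => s8_second_moment P hP M hM fun a => Y a i

/-- sums over ordered pairs of different draws -/
theorem s8_cross (P : ℕ) (hP : P.Prime) (M : ℕ) (hM : M < P) (G : ℕ → ℕ → ℝ) :
    ∑ ω ∈ s8Seeds P, ∑ r ∈ range M, ∑ t ∈ range M,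
        (if r = t then 0 else G ((ω.1 * (r + 1) + ω.2) % P) ((ω.1 * (t + 1) + ω.2) % P))
      = ((M : ℝ) ^ 2 - M) * ∑ a ∈ range P, ∑ b ∈ range P, G a b := by
  set S : ℝ := ∑ a ∈ range P, ∑ b ∈ range P, G a b with hS
  rw [Finset.sum_comm]
  have h1 : ∀ r ∈ range M, ∑ ω ∈ s8Seeds P, ∑ t ∈ range M,
      (if r = t then 0 else G ((ω.1 * (r + 1) + ω.2) % P) ((ω.1 * (t + 1) + ω.2) % P)) = ((M : ℝ) - 1) * S := by
    intro r hr
    rw [Finset.sum_comm]
    have h2 : ∀ t ∈ range M, ∑ ω ∈ s8Seeds P,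
        (if r = t then 0 else G ((ω.1 * (r + 1) + ω.2) % P) ((ω.1 * (t + 1) + ω.2) % P)) =
        S - if r = t then S else 0 := by
      intro t ht
      by_cases hrt : r = t
      · simp [hrt]
      · simp only [if_neg hrt, sub_zero]
        exact s8_indep_two P hP (r + 1) (t + 1) (s8_draw_ne hM hr ht hrt) G
    rw [Finset.sum_congr rfl h2, Finset.sum_sub_distrib, Finset.sum_const, card_range, nsmul_eq_mul,
      Finset.sum_ite_eq, if_pos hr]
    ring
  rw [Finset.sum_congr rfl h1, Finset.sum_const, card_range, nsmul_eq_mul]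
  ring

/-- Markov's inequality for counting -/
theorem s8_markov {Ω : Type*} (s : Finset Ω) (F : Ω → ℝ) (hF : ∀ ω ∈ s, 0 ≤ F ω) (t : ℝ) (ht : 0 < t)
    [DecidablePred fun ω => t < F ω] :
    ((s.filter fun ω => t < F ω).card : ℝ) ≤ (∑ ω ∈ s, F ω) / t := by
  rw [le_div_iff₀ ht]
  calc ((s.filter fun ω => t < F ω).card : ℝ) * t = ∑ _ω ∈ s.filter fun ω => t < F ω, t := by
        rw [Finset.sum_const, nsmul_eq_mul]
    _ ≤ ∑ ω ∈ s.filter fun ω => t < F ω, F ω :=
        Finset.sum_le_sum fun ω hω => (Finset.mem_filter.mp hω).2.le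
    _ ≤ ∑ ω ∈ s, F ω :=
        Finset.sum_le_sum_of_subset_of_nonneg (Finset.filter_subset _ _) fun ω hω _ => hF ω hω

/-- union bound -/
theorem s8_exists_good {Ω : Type*} (s : Finset Ω) (hs : s.Nonempty) (k : ℕ) (bad : Fin k → Ω → Prop)
    [∀ i, DecidablePred (bad i)] (c : ℝ)
    (hbad : ∀ i, ((s.filter (bad i)).card : ℝ) ≤ c * s.card) (hk : k * c < 1) :
    ∃ ω ∈ s, ∀ i, ¬ bad i ω := by
  classical
  by_contra hcon
  push Not at hcon
  have hsub : s ⊆ (univ : Finset (Fin k)).biUnion fun i => s.filter (bad i) := by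
    intro ω hω
    obtain ⟨i, hi⟩ := hcon ω hω
    exact Finset.mem_biUnion.mpr ⟨i, Finset.mem_univ _, Finset.mem_filter.mpr ⟨hω, hi⟩⟩
  have h1 : (s.card : ℝ) ≤ ∑ i : Fin k, ((s.filter (bad i)).card : ℝ) := by
    exact_mod_cast (Finset.card_le_card hsub).trans Finset.card_biUnion_le
  have h2 : ∑ i : Fin k, ((s.filter (bad i)).card : ℝ) ≤ k * (c * s.card) := by
    calc _ ≤ ∑ _i : Fin k, c * (s.card : ℝ) := Finset.sum_le_sum fun i _ => hbad i
      _ = k * (c * s.card) := by rw [Finset.sum_const, Finset.card_univ, Fintype.card_fin, nsmul_eq_mul]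
  have h3 : (0 : ℝ) < s.card := by exact_mod_cast hs.card_pos
  nlinarith

end Claimed.Agent.R275
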