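import Claimed.Agent.R275.S8Det
import Claimed.Agent.R275.S8Indep
import Claimed.Agent.R275.S8Graph

/-!
# Row 275, Sec 8: definitions of the ANALYSIS of the repair theorem (Thm 8.3).   Owner: helper118.  No sorry.

All leaves of Sec 8 are NON-ASYMPTOTIC: abstract reals `e, C0, apx, εa, tol0, δ1` and the parameters `par : S8Par ℝ`; the numeric
inequalities between them are collected in `S8Num`; only the package ASYM knows the concrete powers of `n`.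
Abbreviations: `wT = zT - s`, `wB = zB - s`, `T = n d`, near modes = `{i | x_i < wB}` (cutoff = `wB`, nothing has to avoid the spectrum).
-/

set_option autoImplicit false

namespace Claimed.Agent.R275

open Matrix

/-! ## constants depending on `d` only -/

/-- `‖K_σ‖ = (√q+1)/(√q-1)` -/
noncomputable def s8kmax (d : ℕ) : ℝ :=
  (Real.sqrt ((d : ℝ) - 1) + 1) / (Real.sqrt ((d : ℝ) - 1) - 1)

/-- lower bound of `Tr(K_σ M K̃_σ M)` on near modes -/
noncomputable def s8cT (d : ℕ) : ℝ :=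
  s8kmax d * ((s8s d + d) / ((d : ℝ) - 2)) * (((d : ℝ) - s8s d) / (2 * d)) ^ 2

/-- upper bound of the contribution of the opposite edge to the bias -/
noncomputable def s8CT (d : ℕ) : ℝ :=
  8 * s8kmax d * ((2 * (d : ℝ) + 1) / ((d : ℝ) - 2)) / s8s d ^ 2

namespace S8Par

variable (par : S8Par ℝ)

/-- `wT = zT - s` -/
noncomputable def wT (d : ℕ) : ℝ := par.zT - s8s d
/-- `wB = zB - s` -/
noncomputable def wB (d : ℕ) : ℝ := par.zB - s8s d
/-- bound of the near mass at a vertex: `4 C0 wB^{3/2}` -/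
noncomputable def mN (d : ℕ) (C0 : ℝ) : ℝ := 4 * C0 * par.wB d * Real.sqrt (par.wB d)
/-- bound of `‖H(o)‖_F`: `8 ‖K‖ mN` -/
noncomputable def hsup (d : ℕ) (C0 : ℝ) : ℝ := 8 * s8kmax d * par.mN d C0
/-- accuracy of the endpoint blocks of `R_B` at accepted stubs -/
noncomputable def tolB (d : ℕ) (C0 apx : ℝ) : ℝ := par.thr + apx + 3 * C0 * Real.sqrt (par.wB d)
/-- the operator error `δ` of `Uᵀ R_B U` -/
noncomputable def dlt (d : ℕ) (C0 apx δ1 : ℝ) : ℝ := 8 * par.tolB d C0 apx + 4 * δ1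

/-- the bias function: `∑_τ ψ_τ(λ) Tr(K_σ M(λ) K̃_τ M(λ))`, all matrices diagonalised in the basis `(1, ±σ)` -/
noncomputable def bias (d : ℕ) (b : Bool) (lam : ℝ) : ℝ :=
  ∑ b' : Bool, ∑ c : Bool,
    s8k d c * ((-par.sA + sgn c * sgn b * sgn b' * d) / ((d : ℝ) - 2)) *
      (1 + sgn c * sgn b * lam / d) ^ 2 / (par.zT - sgn b' * lam) ^ 2

end S8Par

/-- basic standing assumptions -/
structure S8Basic (n d : ℕ) (par : S8Par ℝ) (e C0 apx : ℝ) : Prop where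
  hd : 3 ≤ d
  hn : 0 < n
  he : 0 < e
  he1 : e ≤ 1
  hC0 : 1 ≤ C0
  hT : 2 * e ≤ par.wT d
  hTB : par.wT d ≤ par.wB d
  hB1 : par.wB d ≤ 1
  hnB : 1 / (n : ℝ) ≤ Real.sqrt (par.wB d)
  hsA0 : s8s d ≤ par.sA
  hsA1 : par.sA ≤ s8s d + apx
  hapx : apx ≤ 1 / 10
  hkap : 0 ≤ par.kap
  hthr : 0 ≤ par.thr

namespace PPair

variable {n d : ℕ} (π : PPair n d)

/-- the endpoint block of the resolvent at `zB` is within `tol` of the exact tree block, for both signs -/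
def s8Good (zB tol : ℝ) (g : Stub n d) : Prop :=
  ∀ b : Bool,
    |π.s8Res b zB g.1 g.1 - Real.sqrt ((d : ℝ) - 1) / ((d : ℝ) - 2)| ≤ tol ∧
    |π.s8Res b zB (π.oth g) (π.oth g) - Real.sqrt ((d : ℝ) - 1) / ((d : ℝ) - 2)| ≤ tol ∧
    |π.s8Res b zB g.1 (π.oth g) - (sgn b : ℝ) / ((d : ℝ) - 2)| ≤ tol

open Classical in
/-- **the three hypotheses of the repair theorem** (confinement; (8.62) at the two points `zT, zB`; typical edge blocks at `zB`) -/
structure S8Hyp (par : S8Par ℝ) (e C0 εa tol0 : ℝ) : Prop where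
  complete : π.Complete
  simple : π.IsSimple
  conf : ∀ (b : Bool) (v : Fin n → ℝ), ∑ p, v p = 0 →
    (sgn b : ℝ) * (v ⬝ᵥ (π.adjM ℝ *ᵥ v)) ≤ (s8s d + e / 20) * (v ⬝ᵥ v)
  sqT : ∀ (b : Bool) (p : Fin n), π.s8Psi b par.zT p p ≤ C0 / Real.sqrt (par.wT d)
  sqB : ∀ (b : Bool) (p : Fin n), π.s8Psi b par.zB p p ≤ C0 / Real.sqrt (par.wB d)
  typ : ((Finset.univ.filter fun g : Stub n d => ¬ π.s8Good par.zB tol0 g).card : ℝ) ≤ εa * (n * d)

/-- `s8A` extended by zero to void draws -/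
noncomputable def s8AO (b c : Bool) (oo : Option (Stub n d × Stub n d)) (f : Fin n → ℝ) : ℝ :=
  oo.elim 0 fun o => π.s8A b c o f

/-- ideal near correction of one draw: `H_f = ∑_± (k_±/2) ⟨ũ^±, f⟩²  ( = (z_f(g) - z_f(j))ᵀ K_σ (z_f(g) - z_f(j)) )` -/
noncomputable def s8H (b : Bool) (oo : Option (Stub n d × Stub n d)) (f : Fin n → ℝ) : ℝ :=
  ∑ c : Bool, s8k d c / 2 * π.s8AO b c oo f ^ 2

/-- `Y_f = ∑_± ⟨ũ^±, f⟩²` -/
noncomputable def s8Y (b : Bool) (oo : Option (Stub n d × Stub n d)) (f : Fin n → ℝ) : ℝ :=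
  ∑ c : Bool, π.s8AO b c oo f ^ 2

/-- the (sub-probability) law of one draw -/
noncomputable def s8Mu (par : S8Par ℝ) (P : ℕ) (o : Stub n d × Stub n d) : ℝ :=
  (((Finset.range P).filter fun ρ => π.s8Out par P ρ = some o).card : ℝ) / P

/-- the two edge slots of a draw -/
def s8Slot (o : Stub n d × Stub n d) (a : Bool) : Stub n d := if a then o.1 else o.2

/-- squared entries of `X` between the endpoints of two stubs -/
def s8W4 (X : Matrix (Fin n) (Fin n) ℝ) (g g' : Stub n d) : ℝ :=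
  X g.1 g'.1 ^ 2 + X g.1 (π.oth g') ^ 2 + X (π.oth g) g'.1 ^ 2 + X (π.oth g) (π.oth g') ^ 2

/-- the same for slots of optional draws -/
def s8WO (X : Matrix (Fin n) (Fin n) ℝ) (oo : Option (Stub n d × Stub n d)) (a : Bool)
    (oo' : Option (Stub n d × Stub n d)) (a' : Bool) : ℝ :=
  oo.elim 0 fun o => oo'.elim 0 fun o' => π.s8W4 X (s8Slot o a) (s8Slot o' a')

/-- squared Frobenius norm of the cross-slot part of the endpoint matrix of `X` -/
def s8Off (X : Matrix (Fin n) (Fin n) ℝ) (M : ℕ) (dr : ℕ → Option (Stub n d × Stub n d)) : ℝ :=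
  ∑ r ∈ Finset.range M, ∑ t ∈ Finset.range M, ∑ a : Bool, ∑ a' : Bool,
    if r = t ∧ a = a' then 0 else π.s8WO X (dr r) a (dr t) a'

/-- the endpoint block of `X` at the stub `g` is within `tol` of the tree block of the sign `b` -/
def s8Block (X : Matrix (Fin n) (Fin n) ℝ) (b : Bool) (tol : ℝ) (g : Stub n d) : Prop :=
  |X g.1 g.1 - Real.sqrt ((d : ℝ) - 1) / ((d : ℝ) - 2)| ≤ tol ∧
  |X (π.oth g) (π.oth g) - Real.sqrt ((d : ℝ) - 1) / ((d : ℝ) - 2)| ≤ tol ∧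
  |X g.1 (π.oth g) - (sgn b : ℝ) / ((d : ℝ) - 2)| ≤ tol

end PPair

/-- `ξ` is supported on the near modes of the sign `b` -/
def S8Eig.Supp {n : ℕ} {B : Matrix (Fin n) (Fin n) ℝ} (E : S8Eig B) (d : ℕ) (b : Bool) (w : ℝ)
    (ξ : Fin n → ℝ) : Prop := ∀ i, ¬ E.x d b i < w → ξ i = 0

/-- **all numeric inequalities used by the analysis** (`P` = the prime modulus) -/
structure S8Num (n d : ℕ) (par : S8Par ℝ) (e C0 apx εa tol0 δ1 : ℝ) (P : ℕ) : Prop where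
  basic : S8Basic n d par e C0 apx
  hεa : 0 ≤ εa
  hδ1 : 0 < δ1
  /-- good stubs are accepted -/
  hacc : tol0 + apx ≤ par.thr
  /-- the tilt is at most `1/2` -/
  hbr : 4 * par.kap * (par.sA + d) * C0 / (((d : ℝ) - 2) * Real.sqrt (par.wT d)) ≤ 1 / 2
  hM : 2 * (par.M : ℝ) / (((d : ℝ) - 2) * n) ≤ 1 / 2
  /-- the bias beats `e` -/
  hbias : 2 * e ≤ par.M * par.kap / (n : ℝ) ^ 2 * s8cT d / (4 * par.wT d ^ 2)
  hopp : par.M * par.kap / (n : ℝ) ^ 2 * s8CT d ≤ e / 10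
  herr : par.M * (3 / 2 * εa + 2 * ((n : ℝ) * d) ^ 2 / P) * par.hsup d C0 ≤ e / 10
  hE1 : 100 * par.M * par.hsup d C0 ^ 2 / e ^ 2 ≤ 1 / 10
  hE2 : 256 * par.mN d C0 ^ 2 * (n : ℝ) ^ 2 / par.M ≤ 1 / 10
  hE3 : 80 * (par.M : ℝ) ^ 2 * C0 / (n * Real.sqrt (par.wB d) * δ1 ^ 2) ≤ 1 / 10
  hE4 : ((4 + 2 * (d : ℝ)) * par.M + 16 * (par.M : ℝ) ^ 2) / n ≤ 1 / 10
  hδ1' : par.dlt d C0 apx δ1 ≤ 1
  hsm : 2 * par.dlt d C0 apx δ1 * s8Csm d ≤ 1
  hloss : s8Cdet d * (2 * par.dlt d C0 apx δ1) * (17 * par.M / n) ≤ e / 10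
  hbulk : e / 2 ≤ par.dlt d C0 apx δ1 * par.wB d
  htest : (n : ℝ) * (s8s d - e / 2) ^ (2 * n) < s8s d ^ (2 * n)
  hMP : par.M < P
  hPprime : P.Prime

end Claimed.Agent.R275
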