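import Claimed.Agent.R275.S8Mean

/-!
# Row 275, Sec 8, package BULK: the matrix `Uᵀ R_B U` of the rotated switch columns (replaces Step 2 and (8.64)-(8.67) of Thm 8.3).
Statements: helper118.  ONE OWNER.  No paper.  Uses SPEC (`s8_RB_quad`, `s8_RB_diag`, `s8_acc_block`), LAW, INDEP (`s8_cross`, `s8_first_moment`, `s8_markov`).

DETERMINISTIC PART (`s8_bulk_det`).  `X = R_B`.  For `z : Fin M × Bool → ℝ` put `w = ∑_{r,c} z_{rc} ũ_{rc}`, `ũ_{rc} = (e_u - e_x) + ε σ (e_v - e_y)` (zero for a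
void draw), `p_r = z_{r+} + z_{r-}`, `m_r = σ (z_{r+} - z_{r-})`; then `w = ∑_r [p_r e_u + m_r e_v - p_r e_x - m_r e_y]`, `p_r² + m_r² = 2 (z_{r+}² + z_{r-}²)`.
Slots `(r, true) = g_r` with coefficients `(p_r, m_r)`, `(r, false) = j_r` with `(-p_r, -m_r)`.  `wᵀ X w = ∑_{slots} c_sᵀ X[s,s'] c_s'` (bilinearity only; coincidences
of endpoints are irrelevant).
* tree block: `(√q (p²+m²) + 2 σ p m)/(d-2) = 2 z_+²/(√q-1) + 2 z_-²/(√q+1)`; two slots give `g_+ z_+² + g_- z_-²`.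
* error of a diagonal block: `≤ tol (|p|+|m|)² ≤ 4 tol (z_+² + z_-²)`; two slots: `8 tol`.
* cross blocks: `≤ √Off ∑_s |c_s|² ≤ δ1 · 4 ∑ z²` (Cauchy-Schwarz).
PROBABILISTIC PART (`s8_E3`).  `μ ≤ 1/T²`, `∑_{g,g'} W4 X g g' = 4 d² ∑_{p,p'} X_{pp'}² ≤ 4 d² n · 5 C0/√wB`; pairs `r ≠ t` (4 slot pairs each) by pairwise
independence, pairs `r = t`, `a ≠ a'` by the law of one draw:   `E Off ≤ (4 (M²-M) + 2 M) · 20 C0/(n √wB) ≤ 80 M² C0/(n √wB)`.
-/

set_option autoImplicit false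

namespace Claimed.Agent.R275

open Matrix Finset

namespace PPair

variable {n d : ℕ} (π : PPair n d) (par : S8Par ℝ) (P : ℕ) (E : S8Eig π.s8B)

/-- bad event 3: the cross-slot part of the endpoint matrix of `R_B` is large -/
def s8Bad3 (δ1 : ℝ) (b : Bool) (ω : ℕ × ℕ) : Prop :=
  δ1 ^ 2 < π.s8Off (E.RB d b (par.wB d)) par.M fun r => π.s8Draw par P ω.1 ω.2 (r + 1)

variable {π par P E}

/-! ## (A) deterministic part -/

/-- the vector `∑ z_{rc} ũ_{rc}` -/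
noncomputable def s8Wvec (π : PPair n d) (b : Bool) (M : ℕ) (dr : ℕ → Option (Stub n d × Stub n d))
    (z : Fin M × Bool → ℝ) (p : Fin n) : ℝ :=
  ∑ k : Fin M × Bool, z k * π.s8AO b k.2 (dr k.1) (Pi.single p 1)

/-- a column functional in the standard basis -/
theorem s8bk_AO_basis (b c : Bool) (oo : Option (Stub n d × Stub n d)) (f : Fin n → ℝ) :
    π.s8AO b c oo f = ∑ p, f p * π.s8AO b c oo (Pi.single p 1) := by
  cases oo with
  | none => simp [s8AO]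
  | some o =>
    have h : ∀ q : Fin n, ∑ p, f p * (Pi.single p (1 : ℝ) : Fin n → ℝ) q = f q := by
      intro q
      simp [Pi.single_apply]
    simp only [s8AO, Option.elim, s8A, mul_add, mul_sub, Finset.sum_add_distrib, Finset.sum_sub_distrib]
    have h2 : ∀ q : Fin n, ∑ p, f p * ((sgn c : ℝ) * sgn b * (Pi.single p (1 : ℝ) : Fin n → ℝ) q) =
        (sgn c : ℝ) * sgn b * f q := by
      intro q
      rw [← h q, Finset.mul_sum]
      exact Finset.sum_congr rfl fun p _ => by ring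
    rw [h, h, h2, h2]

theorem s8_coef_Wvec (b : Bool) (M : ℕ) (dr : ℕ → Option (Stub n d × Stub n d))
    (z : Fin M × Bool → ℝ) (i : Fin n) :
    E.coef (s8Wvec π b M dr z) i = ∑ k : Fin M × Bool, π.s8AO b k.2 (dr k.1) (E.vec i) * z k := by
  unfold S8Eig.coef s8Wvec
  simp only [Finset.mul_sum]
  rw [Finset.sum_comm]
  refine Finset.sum_congr rfl fun k _ => ?_
  rw [s8bk_AO_basis b k.2 (dr k.1) (E.vec i), Finset.sum_mul]
  exact Finset.sum_congr rfl fun p _ => by ring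

theorem s8bk_sgn_sq (b : Bool) : (sgn b : ℝ) * sgn b = 1 := by
  cases b <;> simp [sgn]

/-- the tree block in rotated coordinates -/
theorem s8_tree_block (hd : 3 ≤ d) (b : Bool) (zp zm : ℝ) :
    2 * ((Real.sqrt ((d : ℝ) - 1) * ((zp + zm) ^ 2 + (sgn b * (zp - zm)) ^ 2)
      + 2 * sgn b * (zp + zm) * (sgn b * (zp - zm))) / ((d : ℝ) - 2)) =
      s8g d true * zp ^ 2 + s8g d false * zm ^ 2 := by
  have hs := s8_one_lt_sqrt d hd
  have hq : (0 : ℝ) ≤ (d : ℝ) - 1 := by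
    have : (3 : ℝ) ≤ d := by exact_mod_cast hd
    linarith
  have hsq : Real.sqrt ((d : ℝ) - 1) ^ 2 = (d : ℝ) - 1 := Real.sq_sqrt hq
  have hσ := s8bk_sgn_sq b
  unfold s8g
  simp only [if_true, Bool.false_eq_true, if_false]
  generalize Real.sqrt ((d : ℝ) - 1) = s at hs hsq ⊢
  generalize (sgn b : ℝ) = σ at hσ ⊢
  have hd2 : (d : ℝ) - 2 = (s - 1) * (s + 1) := by nlinarith
  rw [hd2]
  have h1 : s - 1 ≠ 0 := by linarith
  have h2 : s + 1 ≠ 0 := by linarith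
  have e1 : (σ * (zp - zm)) ^ 2 = (zp - zm) ^ 2 := by
    rw [mul_pow, sq σ, hσ, one_mul]
  have e2 : 2 * σ * (zp + zm) * (σ * (zp - zm)) = 2 * (zp + zm) * (zp - zm) := by
    calc 2 * σ * (zp + zm) * (σ * (zp - zm)) = 2 * (σ * σ) * (zp + zm) * (zp - zm) := by ring
      _ = _ := by rw [hσ]; ring
  rw [e1, e2]
  field_simp
  ring

/-- Cauchy-Schwarz for terms with `b² ≤ a w` -/
theorem s8bk_cs {ι : Type*} (s : Finset ι) (b a w : ι → ℝ) (ha : ∀ i, 0 ≤ a i) (hw : ∀ i, 0 ≤ w i)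
    (h : ∀ i ∈ s, b i ^ 2 ≤ a i * w i) : (∑ i ∈ s, b i) ^ 2 ≤ (∑ i ∈ s, a i) * ∑ i ∈ s, w i := by
  have h1 : ∀ i ∈ s, |b i| ≤ Real.sqrt (a i) * Real.sqrt (w i) := by
    intro i hi
    rw [← Real.sqrt_mul (ha i)]
    exact Real.abs_le_sqrt (h i hi)
  have h2 : |∑ i ∈ s, b i| ≤ Real.sqrt (∑ i ∈ s, a i) * Real.sqrt (∑ i ∈ s, w i) :=
    (Finset.abs_sum_le_sum_abs _ _).trans ((Finset.sum_le_sum h1).trans (Real.sum_sqrt_mul_sqrt_le s ha hw))
  have hA : 0 ≤ ∑ i ∈ s, a i := Finset.sum_nonneg fun i _ => ha i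
  have hW : 0 ≤ ∑ i ∈ s, w i := Finset.sum_nonneg fun i _ => hw i
  calc (∑ i ∈ s, b i) ^ 2 = |∑ i ∈ s, b i| ^ 2 := (sq_abs _).symm
    _ ≤ (Real.sqrt (∑ i ∈ s, a i) * Real.sqrt (∑ i ∈ s, w i)) ^ 2 := pow_le_pow_left₀ (abs_nonneg _) h2 2
    _ = _ := by rw [mul_pow, Real.sq_sqrt hA, Real.sq_sqrt hW]

/-- abstract bound of a quadratic form of a sum of slot vectors -/
theorem s8bk_abs {S : Type*} [Fintype S] [DecidableEq S] (X : Matrix (Fin n) (Fin n) ℝ) (c : S → Fin n → ℝ)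
    (D N : S → ℝ) (W : S → S → ℝ) (δ1 : ℝ) (hδ1 : 0 ≤ δ1) (hN : ∀ s, 0 ≤ N s) (hW : ∀ s s', 0 ≤ W s s')
    (hdiag : ∀ s, c s ⬝ᵥ (X *ᵥ c s) ≤ D s)
    (hcross : ∀ s s', s ≠ s' → (c s ⬝ᵥ (X *ᵥ c s')) ^ 2 ≤ N s * N s' * W s s')
    (hoff : ∑ s, ∑ s', (if s = s' then 0 else W s s') ≤ δ1 ^ 2) :
    (∑ s, c s) ⬝ᵥ (X *ᵥ ∑ s, c s) ≤ ∑ s, D s + δ1 * ∑ s, N s := by
  have hexp : (∑ s, c s) ⬝ᵥ (X *ᵥ ∑ s, c s) = ∑ s, c s ⬝ᵥ (X *ᵥ c s) +
      ∑ ss : S × S, (if ss.1 = ss.2 then 0 else c ss.1 ⬝ᵥ (X *ᵥ c ss.2)) := by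
    rw [Matrix.mulVec_sum, sum_dotProduct, Fintype.sum_prod_type, ← Finset.sum_add_distrib]
    refine Finset.sum_congr rfl fun s _ => ?_
    rw [dotProduct_sum, ← Finset.add_sum_erase _ _ (Finset.mem_univ s)]
    congr 1
    rw [← Finset.add_sum_erase (a := s) _ (fun s' => if s = s' then 0 else c s ⬝ᵥ (X *ᵥ c s')) (Finset.mem_univ s),
      if_pos rfl, zero_add]
    refine Finset.sum_congr rfl fun s' hs' => ?_
    rw [if_neg (Ne.symm (Finset.ne_of_mem_erase hs'))]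
  have hSN : 0 ≤ ∑ s, N s := Finset.sum_nonneg fun s _ => hN s
  have hcs := s8bk_cs (Finset.univ : Finset (S × S))
    (fun ss => if ss.1 = ss.2 then 0 else c ss.1 ⬝ᵥ (X *ᵥ c ss.2)) (fun ss => N ss.1 * N ss.2)
    (fun ss => if ss.1 = ss.2 then 0 else W ss.1 ss.2)
    (fun ss => mul_nonneg (hN _) (hN _))
    (fun ss => by split_ifs; exacts [le_rfl, hW _ _])
    (fun ss _ => by
      by_cases h : ss.1 = ss.2
      · simp [h]
      · simp only [if_neg h]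
        exact hcross _ _ h)
  have e1 : ∑ ss : S × S, N ss.1 * N ss.2 = (∑ s, N s) ^ 2 := by
    rw [sq, Finset.sum_mul_sum, Fintype.sum_prod_type]
  have e2 : ∑ ss : S × S, (if ss.1 = ss.2 then 0 else W ss.1 ss.2) =
      ∑ s, ∑ s', (if s = s' then 0 else W s s') := by
    rw [Fintype.sum_prod_type]
  rw [e1, e2] at hcs
  have h3 : (∑ ss : S × S, (if ss.1 = ss.2 then 0 else c ss.1 ⬝ᵥ (X *ᵥ c ss.2))) ^ 2 ≤ (δ1 * ∑ s, N s) ^ 2 := by
    refine hcs.trans ?_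
    rw [mul_pow, mul_comm]
    exact mul_le_mul_of_nonneg_right hoff (sq_nonneg _)
  have h4 := (abs_le_of_sq_le_sq' h3 (mul_nonneg hδ1 hSN)).2
  rw [hexp]
  exact add_le_add (Finset.sum_le_sum fun s _ => hdiag s) h4

/-- the two-point vector of a stub -/
noncomputable def s8bkPt (π : PPair n d) (g : Stub n d) (α β : ℝ) : Fin n → ℝ :=
  α • Pi.single g.1 1 + β • Pi.single (π.oth g) 1

theorem s8bk_pt_form (X : Matrix (Fin n) (Fin n) ℝ) (g g' : Stub n d) (α β α' β' : ℝ) :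
    s8bkPt π g α β ⬝ᵥ (X *ᵥ s8bkPt π g' α' β') =
      α * α' * X g.1 g'.1 + α * β' * X g.1 (π.oth g') + β * α' * X (π.oth g) g'.1
        + β * β' * X (π.oth g) (π.oth g') := by
  unfold s8bkPt
  simp only [Matrix.mulVec_add, Matrix.mulVec_smul, Matrix.mulVec_single_one, add_dotProduct, dotProduct_add,
    smul_dotProduct, dotProduct_smul, single_one_dotProduct, Matrix.col_apply, smul_eq_mul]
  ring

/-- cross blocks -/
theorem s8bk_pt_cross (X : Matrix (Fin n) (Fin n) ℝ) (g g' : Stub n d) (α β α' β' : ℝ) :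
    (s8bkPt π g α β ⬝ᵥ (X *ᵥ s8bkPt π g' α' β')) ^ 2 ≤
      (α ^ 2 + β ^ 2) * (α' ^ 2 + β' ^ 2) * π.s8W4 X g g' := by
  rw [s8bk_pt_form]
  unfold s8W4
  generalize X g.1 g'.1 = x1
  generalize X g.1 (π.oth g') = x2
  generalize X (π.oth g) g'.1 = x3
  generalize X (π.oth g) (π.oth g') = x4
  have h := Finset.sum_mul_sq_le_sq_mul_sq (Finset.univ : Finset (Fin 4))
    ![α * α', α * β', β * α', β * β'] ![x1, x2, x3, x4]
  simp only [Fin.sum_univ_four, Matrix.cons_val_zero, Matrix.cons_val_one, Matrix.cons_val] at h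
  calc _ ≤ _ := h
    _ = _ := by ring

/-- diagonal blocks -/
theorem s8bk_pt_diag (hd : 3 ≤ d) (X : Matrix (Fin n) (Fin n) ℝ) (hX : ∀ p p', X p p' = X p' p) (b : Bool)
    (tol : ℝ) (g : Stub n d) (hg : π.s8Block X b tol g) (α β : ℝ) :
    s8bkPt π g α β ⬝ᵥ (X *ᵥ s8bkPt π g α β) ≤
      (Real.sqrt ((d : ℝ) - 1) * (α ^ 2 + β ^ 2) + 2 * sgn b * α * β) / ((d : ℝ) - 2)
        + 2 * tol * (α ^ 2 + β ^ 2) := by
  rw [s8bk_pt_form, hX (π.oth g) g.1]
  obtain ⟨h1, h2, h3⟩ := hg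
  generalize X g.1 g.1 = x1 at h1 ⊢
  generalize X (π.oth g) (π.oth g) = x2 at h2 ⊢
  generalize X g.1 (π.oth g) = x3 at h3 ⊢
  have e : (Real.sqrt ((d : ℝ) - 1) * (α ^ 2 + β ^ 2) + 2 * sgn b * α * β) / ((d : ℝ) - 2) =
      Real.sqrt ((d : ℝ) - 1) / ((d : ℝ) - 2) * α ^ 2 + Real.sqrt ((d : ℝ) - 1) / ((d : ℝ) - 2) * β ^ 2
        + 2 * ((sgn b : ℝ) / ((d : ℝ) - 2)) * (α * β) := by ring
  rw [e]
  generalize Real.sqrt ((d : ℝ) - 1) / ((d : ℝ) - 2) = t1 at h1 h2 ⊢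
  generalize (sgn b : ℝ) / ((d : ℝ) - 2) = t3 at h3 ⊢
  have htol : 0 ≤ tol := le_trans (abs_nonneg _) h1
  have a1 : (x1 - t1) * α ^ 2 ≤ tol * α ^ 2 := mul_le_mul_of_nonneg_right ((le_abs_self _).trans h1) (sq_nonneg _)
  have a2 : (x2 - t1) * β ^ 2 ≤ tol * β ^ 2 := mul_le_mul_of_nonneg_right ((le_abs_self _).trans h2) (sq_nonneg _)
  have a3 : (x3 - t3) * (α * β) ≤ tol * |α * β| := by
    calc (x3 - t3) * (α * β) ≤ |(x3 - t3) * (α * β)| := le_abs_self _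
      _ = |x3 - t3| * |α * β| := abs_mul _ _
      _ ≤ tol * |α * β| := mul_le_mul_of_nonneg_right h3 (abs_nonneg _)
  have a4 : 2 * |α * β| ≤ α ^ 2 + β ^ 2 := by
    rw [abs_mul]
    nlinarith [sq_nonneg (|α| - |β|), sq_abs α, sq_abs β]
  nlinarith

/-- the slot vectors -/
noncomputable def s8bkC (π : PPair n d) (b : Bool) (M : ℕ) (dr : ℕ → Option (Stub n d × Stub n d))
    (z : Fin M × Bool → ℝ) (s : Fin M × Bool) : Fin n → ℝ :=
  (dr s.1).elim 0 fun o => s8bkPt π (s8Slot o s.2) (sgn s.2 * (z (s.1, true) + z (s.1, false)))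
    (sgn s.2 * (sgn b * (z (s.1, true) - z (s.1, false))))

theorem s8bk_Wvec_eq (b : Bool) (M : ℕ) (dr : ℕ → Option (Stub n d × Stub n d)) (z : Fin M × Bool → ℝ) :
    s8Wvec π b M dr z = ∑ s, s8bkC π b M dr z s := by
  funext p
  rw [Finset.sum_apply]
  unfold s8Wvec
  rw [Fintype.sum_prod_type, Fintype.sum_prod_type]
  refine Finset.sum_congr rfl fun r _ => ?_
  rw [Fintype.sum_bool, Fintype.sum_bool]
  unfold s8bkC
  cases hdr : dr r with
  | none => simp [s8AO]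
  | some o =>
    have hsymm : ∀ q, (Pi.single p (1 : ℝ) : Fin n → ℝ) q = (Pi.single q (1 : ℝ) : Fin n → ℝ) p := by
      intro q
      simp [Pi.single_apply, eq_comm]
    simp only [s8AO, Option.elim, s8A, s8bkPt, s8Slot, hsymm, sgn, if_true, Bool.false_eq_true, if_false,
      Pi.add_apply, Pi.smul_apply, smul_eq_mul]
    ring

theorem s8bk_WO_nonneg (X : Matrix (Fin n) (Fin n) ℝ) (oo : Option (Stub n d × Stub n d)) (a : Bool)
    (oo' : Option (Stub n d × Stub n d)) (a' : Bool) : 0 ≤ π.s8WO X oo a oo' a' := by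
  cases oo with
  | none => simp [s8WO]
  | some o =>
    cases oo' with
    | none => simp [s8WO]
    | some o' =>
      simp only [s8WO, Option.elim, s8W4]
      positivity

/-- `s8Off` as a sum over slots -/
theorem s8bk_Off_eq (X : Matrix (Fin n) (Fin n) ℝ) (M : ℕ) (dr : ℕ → Option (Stub n d × Stub n d)) :
    ∑ s : Fin M × Bool, ∑ s' : Fin M × Bool, (if s = s' then 0 else π.s8WO X (dr s.1) s.2 (dr s'.1) s'.2) =
      π.s8Off X M dr := by
  unfold s8Off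
  rw [Finset.sum_range, Fintype.sum_prod_type]
  refine Finset.sum_congr rfl fun r _ => ?_
  rw [Finset.sum_range]
  simp only [Fintype.sum_prod_type]
  rw [Finset.sum_comm]
  refine Finset.sum_congr rfl fun t _ => Finset.sum_congr rfl fun a _ => Finset.sum_congr rfl fun a' _ => ?_
  have : ((r, a) = (t, a')) ↔ ((r : ℕ) = (t : ℕ) ∧ a = a') := by
    rw [Prod.mk.injEq, Fin.ext_iff]
  simp only [this]

/-- abstract form: symmetric `X`, blocks within `tol` at all active stubs, cross part `≤ δ1²` -/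
theorem s8_bulk_form (hd : 3 ≤ d) (X : Matrix (Fin n) (Fin n) ℝ) (hX : ∀ p p', X p p' = X p' p) (b : Bool)
    (M : ℕ) (dr : ℕ → Option (Stub n d × Stub n d)) (tol δ1 : ℝ) (htol : 0 ≤ tol) (hδ1 : 0 ≤ δ1)
    (hblk : ∀ r < M, ∀ o, dr r = some o → π.s8Block X b tol o.1 ∧ π.s8Block X b tol o.2)
    (hoff : π.s8Off X M dr ≤ δ1 ^ 2) (z : Fin M × Bool → ℝ) :
    ∑ p, ∑ p', s8Wvec π b M dr z p * X p p' * s8Wvec π b M dr z p' ≤
      ∑ k, s8g d k.2 * z k ^ 2 + (8 * tol + 4 * δ1) * ∑ k, z k ^ 2 := by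
  have hσ := s8bk_sgn_sq b
  set Pc : Fin M → ℝ := fun r => z (r, true) + z (r, false) with hPc
  set mc : Fin M → ℝ := fun r => sgn b * (z (r, true) - z (r, false)) with hmc
  have hPm : ∀ r, Pc r ^ 2 + mc r ^ 2 = 2 * (z (r, true) ^ 2 + z (r, false) ^ 2) := by
    intro r
    have : mc r ^ 2 = (z (r, true) - z (r, false)) ^ 2 := by
      rw [hmc]
      simp only
      rw [mul_pow, sq (sgn b : ℝ), hσ, one_mul]
    rw [this, hPc]
    ring
  have htree : ∀ r, 2 * ((Real.sqrt ((d : ℝ) - 1) * (Pc r ^ 2 + mc r ^ 2) + 2 * sgn b * Pc r * mc r) / ((d : ℝ) - 2)) =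
      s8g d true * z (r, true) ^ 2 + s8g d false * z (r, false) ^ 2 := fun r =>
    s8_tree_block hd b (z (r, true)) (z (r, false))
  have hform : ∑ p, ∑ p', s8Wvec π b M dr z p * X p p' * s8Wvec π b M dr z p' =
      s8Wvec π b M dr z ⬝ᵥ (X *ᵥ s8Wvec π b M dr z) := by
    simp only [dotProduct, Matrix.mulVec, Finset.mul_sum]
    exact Finset.sum_congr rfl fun p _ => Finset.sum_congr rfl fun p' _ => by ring
  rw [hform, s8bk_Wvec_eq]
  have hsq : ∀ (a : Bool) (x : ℝ), ((sgn a : ℝ) * x) ^ 2 = x ^ 2 := by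
    intro a x
    rw [mul_pow, sq (sgn a : ℝ), s8bk_sgn_sq, one_mul]
  have hN0 : ∀ r, 0 ≤ Pc r ^ 2 + mc r ^ 2 := fun r => by positivity
  have habs := s8bk_abs X (s8bkC π b M dr z)
    (fun s => (Real.sqrt ((d : ℝ) - 1) * (Pc s.1 ^ 2 + mc s.1 ^ 2) + 2 * sgn b * Pc s.1 * mc s.1) / ((d : ℝ) - 2)
      + 2 * tol * (Pc s.1 ^ 2 + mc s.1 ^ 2))
    (fun s => Pc s.1 ^ 2 + mc s.1 ^ 2)
    (fun s s' => π.s8WO X (dr s.1) s.2 (dr s'.1) s'.2) δ1 hδ1
    (fun s => by positivity) (fun s s' => s8bk_WO_nonneg X _ _ _ _)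
    (fun s => by
      unfold s8bkC
      cases hdr : dr s.1 with
      | none =>
        simp only [Option.elim, zero_dotProduct]
        have h1 := htree s.1
        have h2 := s8g_pos d hd true
        have h3 := s8g_pos d hd false
        have h4 : 0 ≤ s8g d true * z (s.1, true) ^ 2 + s8g d false * z (s.1, false) ^ 2 := by positivity
        have h5 : 0 ≤ 2 * tol * (Pc s.1 ^ 2 + mc s.1 ^ 2) := by positivity
        linarith
      | some o =>
        simp only [Option.elim]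
        have hb2 := hblk s.1 s.1.isLt o hdr
        have hslot : π.s8Block X b tol (s8Slot o s.2) := by
          unfold s8Slot
          split_ifs
          · exact hb2.1
          · exact hb2.2
        have h1 := s8bk_pt_diag hd X hX b tol (s8Slot o s.2) hslot (sgn s.2 * Pc s.1) (sgn s.2 * mc s.1)
        rw [hsq s.2 (Pc s.1), hsq s.2 (mc s.1)] at h1
        have e : 2 * (sgn b : ℝ) * (sgn s.2 * Pc s.1) * (sgn s.2 * mc s.1) = 2 * sgn b * Pc s.1 * mc s.1 := by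
          calc _ = 2 * (sgn b : ℝ) * ((sgn s.2 : ℝ) * sgn s.2) * Pc s.1 * mc s.1 := by ring
            _ = _ := by rw [s8bk_sgn_sq]; ring
        rw [e] at h1
        exact h1)
    (fun s s' _ => by
      unfold s8bkC
      cases hdr : dr s.1 with
      | none =>
        simp only [Option.elim, zero_dotProduct, ne_eq, OfNat.ofNat_ne_zero, not_false_eq_true, zero_pow]
        exact mul_nonneg (mul_nonneg (hN0 _) (hN0 _)) (s8bk_WO_nonneg (π := π) X none s.2 (dr s'.1) s'.2)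
      | some o =>
        cases hdr' : dr s'.1 with
        | none =>
          simp only [Option.elim, Matrix.mulVec_zero, dotProduct_zero, ne_eq, OfNat.ofNat_ne_zero,
            not_false_eq_true, zero_pow]
          exact mul_nonneg (mul_nonneg (hN0 _) (hN0 _)) (s8bk_WO_nonneg (π := π) X (some o) s.2 none s'.2)
        | some o' =>
          simp only [Option.elim]
          have h1 := s8bk_pt_cross (π := π) X (s8Slot o s.2) (s8Slot o' s'.2) (sgn s.2 * Pc s.1) (sgn s.2 * mc s.1)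
            (sgn s'.2 * Pc s'.1) (sgn s'.2 * mc s'.1)
          rw [hsq s.2 (Pc s.1), hsq s.2 (mc s.1), hsq s'.2 (Pc s'.1), hsq s'.2 (mc s'.1)] at h1
          exact h1)
    (by rw [s8bk_Off_eq]; exact hoff)
  refine habs.trans (le_of_eq ?_)
  rw [Fintype.sum_prod_type, Fintype.sum_prod_type, Fintype.sum_prod_type, Fintype.sum_prod_type, Finset.mul_sum,
    Finset.mul_sum, ← Finset.sum_add_distrib, ← Finset.sum_add_distrib]
  refine Finset.sum_congr rfl fun r _ => ?_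
  simp only [Fintype.sum_bool]
  have h1 := htree r
  have h2 := hPm r
  rw [h2] at h1 ⊢
  linarith

section

variable {e C0 apx εa tol0 δ1 : ℝ}

theorem s8bk_wB_pos (hb : S8Basic n d par e C0 apx) : 0 < par.wB d := by
  have := hb.he
  have := hb.hT
  have := hb.hTB
  linarith

/-- **BULK-DET**: hypothesis `hG` of `s8_det` outside the bad event 3 -/
theorem s8_bulk_det (hN : S8Num n d par e C0 apx εa tol0 δ1 P) (hh : π.S8Hyp par e C0 εa tol0) (b : Bool)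
    (ω : ℕ × ℕ) (hω : ¬ π.s8Bad3 par P E δ1 b ω) (z : Fin par.M × Bool → ℝ) :
    ∑ i, (if E.x d b i < par.wB d then 0
        else (∑ k : Fin par.M × Bool,
          π.s8AO b k.2 (π.s8Draw par P ω.1 ω.2 ((k.1 : ℕ) + 1)) (E.vec i) * z k) ^ 2 / E.x d b i) ≤
      ∑ k, s8g d k.2 * z k ^ 2 + par.dlt d C0 apx δ1 * ∑ k, z k ^ 2 := by
  have hb := hN.basic
  have h1 := s8_RB_quad hb hh E b (s8Wvec π b par.M (fun r => π.s8Draw par P ω.1 ω.2 (r + 1)) z)
  simp only [s8_coef_Wvec] at h1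
  rw [h1]
  have htol : 0 ≤ par.tolB d C0 apx := by
    have h2 := hb.hthr
    have h3 : 0 ≤ apx := by
      have := hb.hsA0
      have := hb.hsA1
      linarith
    have h4 : 0 ≤ C0 := le_trans zero_le_one hb.hC0
    unfold S8Par.tolB
    positivity
  exact s8_bulk_form hb.hd (E.RB d b (par.wB d)) (s8_RB_symm hb hh E b) b par.M
    (fun r => π.s8Draw par P ω.1 ω.2 (r + 1)) (par.tolB d C0 apx) δ1 htol hN.hδ1.le
    (fun r _ o ho => by
      have hacc := π.s8Out_acc par P _ o ho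
      exact ⟨s8_acc_block hb hh E b o.1 hacc.1, s8_acc_block hb hh E b o.2 hacc.2⟩)
    (not_lt.mp hω) z

/-! ## (B) probabilistic part -/

theorem s8W4_nonneg (X : Matrix (Fin n) (Fin n) ℝ) (g g' : Stub n d) : 0 ≤ π.s8W4 X g g' := by
  unfold s8W4
  positivity

theorem s8bk_sum2 (e1 e2 : Stub n d → Fin n) (h1 : ∀ F : Fin n → ℝ, ∑ g, F (e1 g) = d * ∑ v, F v)
    (h2 : ∀ F : Fin n → ℝ, ∑ g, F (e2 g) = d * ∑ v, F v) (F : Fin n → Fin n → ℝ) :
    ∑ g, ∑ g', F (e1 g) (e2 g') = (d : ℝ) ^ 2 * ∑ p, ∑ p', F p p' := by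
  have h3 : ∀ g, ∑ g', F (e1 g) (e2 g') = d * ∑ p', F (e1 g) p' := fun g => h2 _
  simp only [h3]
  rw [h1 fun p => d * ∑ p', F p p', ← Finset.mul_sum]
  ring

theorem s8_sum_W4 (X : Matrix (Fin n) (Fin n) ℝ) :
    ∑ g : Stub n d, ∑ g' : Stub n d, π.s8W4 X g g' = 4 * (d : ℝ) ^ 2 * ∑ p, ∑ p', X p p' ^ 2 := by
  unfold s8W4
  simp only [Finset.sum_add_distrib]
  have hf : ∀ F : Fin n → ℝ, ∑ g : Stub n d, F g.1 = d * ∑ v, F v := fun F => s8_sum_stub_fst F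
  have ho : ∀ F : Fin n → ℝ, ∑ g : Stub n d, F (π.oth g) = d * ∑ v, F v := fun F => π.s8_sum_stub_oth F
  rw [s8bk_sum2 (fun g => g.1) (fun g => g.1) hf hf fun p p' => X p p' ^ 2,
    s8bk_sum2 (fun g => g.1) π.oth hf ho fun p p' => X p p' ^ 2,
    s8bk_sum2 π.oth (fun g => g.1) ho hf fun p p' => X p p' ^ 2,
    s8bk_sum2 π.oth π.oth ho ho fun p p' => X p p' ^ 2]
  ring

/-- the total of `W4` for `R_B` -/
theorem s8bk_S2 (hb : S8Basic n d par e C0 apx) (hh : π.S8Hyp par e C0 εa tol0) (b : Bool) :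
    ∑ g : Stub n d, ∑ g' : Stub n d, π.s8W4 (E.RB d b (par.wB d)) g g' ≤
      ((n : ℝ) * d) ^ 2 * (20 * C0 / (n * Real.sqrt (par.wB d))) := by
  have hn0 : (0 : ℝ) < n := by exact_mod_cast hb.hn
  have hw : 0 < Real.sqrt (par.wB d) := Real.sqrt_pos.mpr (s8bk_wB_pos hb)
  rw [s8_sum_W4]
  have h1 : ∑ p, ∑ p', E.RB d b (par.wB d) p p' ^ 2 ≤ n * (5 * C0 / Real.sqrt (par.wB d)) := by
    calc _ ≤ ∑ _p : Fin n, 5 * C0 / Real.sqrt (par.wB d) := Finset.sum_le_sum fun p _ => s8_RB_diag hb hh E b p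
      _ = _ := by rw [Finset.sum_const, Finset.card_univ, Fintype.card_fin, nsmul_eq_mul]
  calc 4 * (d : ℝ) ^ 2 * ∑ p, ∑ p', E.RB d b (par.wB d) p p' ^ 2
      ≤ 4 * (d : ℝ) ^ 2 * (n * (5 * C0 / Real.sqrt (par.wB d))) := mul_le_mul_of_nonneg_left h1 (by positivity)
    _ = _ := by
        field_simp
        ring

theorem s8bk_WO_none_right (X : Matrix (Fin n) (Fin n) ℝ) (oo : Option (Stub n d × Stub n d)) (a a' : Bool) :
    π.s8WO X oo a none a' = 0 := by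
  cases oo <;> simp [s8WO]

/-- summing a function of one slot over all pairs -/
theorem s8bk_sum_slot (a : Bool) (G : Stub n d → ℝ) :
    ∑ o : Stub n d × Stub n d, G (s8Slot o a) = ((n : ℝ) * d) * ∑ g, G g := by
  have hcard : (Fintype.card (Stub n d) : ℝ) = (n : ℝ) * d := by
    simp [Fintype.card_prod]
  rw [Fintype.sum_prod_type]
  cases a with
  | true =>
    simp only [s8Slot, if_true, Finset.sum_const, Finset.card_univ, nsmul_eq_mul, hcard]
    rw [Finset.mul_sum]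
  | false =>
    simp only [s8Slot, Bool.false_eq_true, if_false, Finset.sum_const, Finset.card_univ, nsmul_eq_mul, hcard]

theorem s8bk_T_pos (hb : S8Basic n d par e C0 apx) : 0 < n * d :=
  Nat.mul_pos hb.hn (by have := hb.hd; omega)

/-- mean of one cross block, two different draws -/
theorem s8_mean_WO_two (hN : S8Num n d par e C0 apx εa tol0 δ1 P) (hh : π.S8Hyp par e C0 εa tol0)
    (b a a' : Bool) :
    ∑ ρ ∈ range P, ∑ ρ' ∈ range P,
      π.s8WO (E.RB d b (par.wB d)) (π.s8Out par P ρ) a (π.s8Out par P ρ') a' ≤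
      (P : ℝ) ^ 2 * (20 * C0 / (n * Real.sqrt (par.wB d))) := by
  have hb := hN.basic
  have hP := hN.hPprime.pos
  have hT := s8bk_T_pos hb
  have hTr : (0 : ℝ) < (n : ℝ) * d := by exact_mod_cast hT
  set X := E.RB d b (par.wB d) with hX
  have h1 : ∀ ρ, ∑ ρ' ∈ range P, π.s8WO X (π.s8Out par P ρ) a (π.s8Out par P ρ') a' =
      P * ∑ o', π.s8Mu par P o' * π.s8WO X (π.s8Out par P ρ) a (some o') a' := fun ρ =>
    π.s8_law_sum par P hP (fun oo' => π.s8WO X (π.s8Out par P ρ) a oo' a') (s8bk_WO_none_right X _ a a')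
  simp only [h1]
  rw [← Finset.mul_sum, Finset.sum_comm]
  have h2 : ∀ o' : Stub n d × Stub n d, ∑ ρ ∈ range P, π.s8Mu par P o' * π.s8WO X (π.s8Out par P ρ) a (some o') a' =
      π.s8Mu par P o' * (P * ∑ o, π.s8Mu par P o * π.s8W4 X (s8Slot o a) (s8Slot o' a')) := by
    intro o'
    rw [← Finset.mul_sum, π.s8_law_sum par P hP (fun oo => π.s8WO X oo a (some o') a') rfl]
    rfl
  simp only [h2]
  have hμ : ∀ o, π.s8Mu par P o ≤ 1 / ((n : ℝ) * d) ^ 2 := fun o =>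
    π.s8Mu_le_unif par P hP hT o (s8_br_half hN hh o)
  have h3 : ∀ o' : Stub n d × Stub n d,
      π.s8Mu par P o' * (P * ∑ o, π.s8Mu par P o * π.s8W4 X (s8Slot o a) (s8Slot o' a')) ≤
      1 / ((n : ℝ) * d) ^ 2 * (P * ∑ o : Stub n d × Stub n d,
        1 / ((n : ℝ) * d) ^ 2 * π.s8W4 X (s8Slot o a) (s8Slot o' a')) := by
    intro o'
    have h4 : ∑ o, π.s8Mu par P o * π.s8W4 X (s8Slot o a) (s8Slot o' a') ≤
        ∑ o : Stub n d × Stub n d, 1 / ((n : ℝ) * d) ^ 2 * π.s8W4 X (s8Slot o a) (s8Slot o' a') :=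
      Finset.sum_le_sum fun o _ => mul_le_mul_of_nonneg_right (hμ o) (s8W4_nonneg X _ _)
    have h5 : 0 ≤ ∑ o, π.s8Mu par P o * π.s8W4 X (s8Slot o a) (s8Slot o' a') :=
      Finset.sum_nonneg fun o _ => mul_nonneg (π.s8Mu_nonneg par P o) (s8W4_nonneg X _ _)
    exact mul_le_mul (hμ o') (mul_le_mul_of_nonneg_left h4 (Nat.cast_nonneg _))
      (mul_nonneg (Nat.cast_nonneg _) h5) (by positivity)
  have h6 : ∑ o' : Stub n d × Stub n d, ∑ o : Stub n d × Stub n d, π.s8W4 X (s8Slot o a) (s8Slot o' a') =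
      ((n : ℝ) * d) ^ 2 * ∑ g : Stub n d, ∑ g' : Stub n d, π.s8W4 X g g' := by
    have h7 : ∀ o' : Stub n d × Stub n d, ∑ o : Stub n d × Stub n d, π.s8W4 X (s8Slot o a) (s8Slot o' a') =
        ((n : ℝ) * d) * ∑ g, π.s8W4 X g (s8Slot o' a') := fun o' =>
      s8bk_sum_slot a fun g => π.s8W4 X g (s8Slot o' a')
    simp only [h7]
    rw [s8bk_sum_slot a' fun g' => ((n : ℝ) * d) * ∑ g, π.s8W4 X g g', ← Finset.mul_sum, Finset.sum_comm]
    ring
  have hS2 := s8bk_S2 (E := E) hb hh b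
  rw [← hX] at hS2
  calc (P : ℝ) * ∑ o', π.s8Mu par P o' * (P * ∑ o, π.s8Mu par P o * π.s8W4 X (s8Slot o a) (s8Slot o' a'))
      ≤ (P : ℝ) * ∑ o' : Stub n d × Stub n d, 1 / ((n : ℝ) * d) ^ 2 * (P * ∑ o : Stub n d × Stub n d,
        1 / ((n : ℝ) * d) ^ 2 * π.s8W4 X (s8Slot o a) (s8Slot o' a')) :=
        mul_le_mul_of_nonneg_left (Finset.sum_le_sum fun o' _ => h3 o') (Nat.cast_nonneg _)
    _ = (P : ℝ) ^ 2 * (1 / ((n : ℝ) * d) ^ 2) ^ 2 *
        ∑ o' : Stub n d × Stub n d, ∑ o : Stub n d × Stub n d, π.s8W4 X (s8Slot o a) (s8Slot o' a') := by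
        simp only [← Finset.mul_sum]
        ring
    _ = (P : ℝ) ^ 2 * (1 / ((n : ℝ) * d) ^ 2) * ∑ g : Stub n d, ∑ g' : Stub n d, π.s8W4 X g g' := by
        rw [h6]
        field_simp
    _ ≤ (P : ℝ) ^ 2 * (1 / ((n : ℝ) * d) ^ 2) * (((n : ℝ) * d) ^ 2 * (20 * C0 / (n * Real.sqrt (par.wB d)))) :=
        mul_le_mul_of_nonneg_left hS2 (by positivity)
    _ = _ := by
        generalize 20 * C0 / (n * Real.sqrt (par.wB d)) = K
        generalize (n : ℝ) * d = T at hTr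
        field_simp

/-- mean of the cross block of the two slots of one draw -/
theorem s8_mean_WO_one (hN : S8Num n d par e C0 apx εa tol0 δ1 P) (hh : π.S8Hyp par e C0 εa tol0)
    (b a : Bool) :
    ∑ ρ ∈ range P, π.s8WO (E.RB d b (par.wB d)) (π.s8Out par P ρ) a (π.s8Out par P ρ) (!a) ≤
      (P : ℝ) * (20 * C0 / (n * Real.sqrt (par.wB d))) := by
  have hb := hN.basic
  have hP := hN.hPprime.pos
  have hT := s8bk_T_pos hb
  have hTr : (0 : ℝ) < (n : ℝ) * d := by exact_mod_cast hT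
  set X := E.RB d b (par.wB d) with hX
  rw [π.s8_law_sum par P hP (fun oo => π.s8WO X oo a oo (!a)) rfl]
  have hμ : ∀ o, π.s8Mu par P o ≤ 1 / ((n : ℝ) * d) ^ 2 := fun o =>
    π.s8Mu_le_unif par P hP hT o (s8_br_half hN hh o)
  have h1 : ∑ o, π.s8Mu par P o * π.s8WO X (some o) a (some o) (!a) ≤
      ∑ o : Stub n d × Stub n d, 1 / ((n : ℝ) * d) ^ 2 * π.s8W4 X (s8Slot o a) (s8Slot o (!a)) :=
    Finset.sum_le_sum fun o _ => mul_le_mul_of_nonneg_right (hμ o) (s8W4_nonneg X _ _)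
  have h2 : ∑ o : Stub n d × Stub n d, π.s8W4 X (s8Slot o a) (s8Slot o (!a)) =
      ∑ g : Stub n d, ∑ g' : Stub n d, π.s8W4 X g g' := by
    rw [Fintype.sum_prod_type]
    cases a with
    | true => simp [s8Slot]
    | false =>
      simp only [s8Slot, Bool.false_eq_true, if_false, Bool.not_false, if_true]
      rw [Finset.sum_comm]
  have hS2 := s8bk_S2 (E := E) hb hh b
  rw [← hX] at hS2
  refine mul_le_mul_of_nonneg_left ?_ (Nat.cast_nonneg _)
  calc _ ≤ ∑ o : Stub n d × Stub n d, 1 / ((n : ℝ) * d) ^ 2 * π.s8W4 X (s8Slot o a) (s8Slot o (!a)) := h1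
    _ = 1 / ((n : ℝ) * d) ^ 2 * ∑ g : Stub n d, ∑ g' : Stub n d, π.s8W4 X g g' := by
        rw [← Finset.mul_sum, h2]
    _ ≤ 1 / ((n : ℝ) * d) ^ 2 * (((n : ℝ) * d) ^ 2 * (20 * C0 / (n * Real.sqrt (par.wB d)))) :=
        mul_le_mul_of_nonneg_left hS2 (by positivity)
    _ = _ := by
        generalize 20 * C0 / (n * Real.sqrt (par.wB d)) = K
        generalize (n : ℝ) * d = T at hTr
        field_simp

/-- splitting `s8Off` -/
theorem s8bk_Off_split (X : Matrix (Fin n) (Fin n) ℝ) (M : ℕ) (dr : ℕ → Option (Stub n d × Stub n d)) :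
    π.s8Off X M dr = ∑ a : Bool, ∑ a' : Bool, ∑ r ∈ range M, ∑ t ∈ range M,
        (if r = t then 0 else π.s8WO X (dr r) a (dr t) a')
      + ∑ a : Bool, ∑ r ∈ range M, π.s8WO X (dr r) a (dr r) (!a) := by
  unfold s8Off
  have h1 : ∀ r t : ℕ, ∑ a : Bool, ∑ a' : Bool, (if r = t ∧ a = a' then 0 else π.s8WO X (dr r) a (dr t) a') =
      ∑ a : Bool, ∑ a' : Bool, (if r = t then 0 else π.s8WO X (dr r) a (dr t) a')
        + if r = t then ∑ a : Bool, π.s8WO X (dr r) a (dr r) (!a) else 0 := by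
    intro r t
    by_cases hrt : r = t
    · subst hrt
      simp
    · simp [hrt]
  simp only [h1, Finset.sum_add_distrib]
  congr 1
  · have h2 : ∀ r, ∑ t ∈ range M, ∑ a : Bool, ∑ a' : Bool, (if r = t then 0 else π.s8WO X (dr r) a (dr t) a') =
        ∑ a : Bool, ∑ a' : Bool, ∑ t ∈ range M, (if r = t then 0 else π.s8WO X (dr r) a (dr t) a') := by
      intro r
      rw [Finset.sum_comm]
      exact Finset.sum_congr rfl fun a _ => Finset.sum_comm
    simp only [h2]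
    rw [Finset.sum_comm]
    exact Finset.sum_congr rfl fun a _ => Finset.sum_comm
  · rw [Finset.sum_comm]
    have h3 : ∀ r ∈ range M, ∑ t ∈ range M, (if r = t then ∑ a : Bool, π.s8WO X (dr r) a (dr r) (!a) else 0) =
        ∑ a : Bool, π.s8WO X (dr r) a (dr r) (!a) := by
      intro r hr
      rw [Finset.sum_ite_eq, if_pos hr]
    rw [Finset.sum_comm, Finset.sum_congr rfl h3, Finset.sum_comm]

theorem s8_mean_Off (hN : S8Num n d par e C0 apx εa tol0 δ1 P) (hh : π.S8Hyp par e C0 εa tol0) (b : Bool) :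
    ∑ ω ∈ s8Seeds P, π.s8Off (E.RB d b (par.wB d)) par.M (fun r => π.s8Draw par P ω.1 ω.2 (r + 1)) ≤
      (P : ℝ) ^ 2 * (80 * (par.M : ℝ) ^ 2 * C0 / (n * Real.sqrt (par.wB d))) := by
  have hb := hN.basic
  have hP := hN.hPprime
  set X := E.RB d b (par.wB d) with hX
  set K : ℝ := 20 * C0 / (n * Real.sqrt (par.wB d)) with hK
  have hn0 : (0 : ℝ) < n := by exact_mod_cast hb.hn
  have hw : 0 < Real.sqrt (par.wB d) := Real.sqrt_pos.mpr (s8bk_wB_pos hb)
  have hC0 : 0 < C0 := lt_of_lt_of_le zero_lt_one hb.hC0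
  have hK0 : 0 ≤ K := by rw [hK]; positivity
  simp only [s8bk_Off_split, Finset.sum_add_distrib]
  have hMM : (0 : ℝ) ≤ (par.M : ℝ) ^ 2 - par.M := by
    have h1 : (par.M : ℝ) ≤ (par.M : ℝ) ^ 2 := by
      exact_mod_cast Nat.le_self_pow (by norm_num) par.M
    linarith
  have hA : ∑ ω ∈ s8Seeds P, ∑ a : Bool, ∑ a' : Bool, ∑ r ∈ range par.M, ∑ t ∈ range par.M,
      (if r = t then 0 else π.s8WO X (π.s8Draw par P ω.1 ω.2 (r + 1)) a (π.s8Draw par P ω.1 ω.2 (t + 1)) a') ≤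
      4 * (((par.M : ℝ) ^ 2 - par.M) * ((P : ℝ) ^ 2 * K)) := by
    rw [Finset.sum_comm]
    have h1 : ∀ a : Bool, ∑ ω ∈ s8Seeds P, ∑ a' : Bool, ∑ r ∈ range par.M, ∑ t ∈ range par.M,
        (if r = t then 0 else π.s8WO X (π.s8Draw par P ω.1 ω.2 (r + 1)) a (π.s8Draw par P ω.1 ω.2 (t + 1)) a') ≤
        2 * (((par.M : ℝ) ^ 2 - par.M) * ((P : ℝ) ^ 2 * K)) := by
      intro a
      rw [Finset.sum_comm]
      have h2 : ∀ a' : Bool, ∑ ω ∈ s8Seeds P, ∑ r ∈ range par.M, ∑ t ∈ range par.M,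
          (if r = t then 0 else π.s8WO X (π.s8Draw par P ω.1 ω.2 (r + 1)) a (π.s8Draw par P ω.1 ω.2 (t + 1)) a') ≤
          ((par.M : ℝ) ^ 2 - par.M) * ((P : ℝ) ^ 2 * K) := by
        intro a'
        have h3 := s8_cross P hP par.M hN.hMP fun ρ ρ' => π.s8WO X (π.s8Out par P ρ) a (π.s8Out par P ρ') a'
        unfold s8Draw
        rw [h3]
        exact mul_le_mul_of_nonneg_left (s8_mean_WO_two hN hh b a a') hMM
      rw [Fintype.sum_bool]
      have := h2 true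
      have := h2 false
      linarith
    rw [Fintype.sum_bool]
    have := h1 true
    have := h1 false
    linarith
  have hB : ∑ ω ∈ s8Seeds P, ∑ a : Bool, ∑ r ∈ range par.M,
      π.s8WO X (π.s8Draw par P ω.1 ω.2 (r + 1)) a (π.s8Draw par P ω.1 ω.2 (r + 1)) (!a) ≤
      2 * ((P : ℝ) * par.M * ((P : ℝ) * K)) := by
    rw [Finset.sum_comm]
    have h1 : ∀ a : Bool, ∑ ω ∈ s8Seeds P, ∑ r ∈ range par.M,
        π.s8WO X (π.s8Draw par P ω.1 ω.2 (r + 1)) a (π.s8Draw par P ω.1 ω.2 (r + 1)) (!a) ≤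
        (P : ℝ) * par.M * ((P : ℝ) * K) := by
      intro a
      have h3 := s8_first_moment P hP.pos par.M fun ρ => π.s8WO X (π.s8Out par P ρ) a (π.s8Out par P ρ) (!a)
      unfold s8Draw
      rw [h3]
      exact mul_le_mul_of_nonneg_left (s8_mean_WO_one hN hh b a) (by positivity)
    rw [Fintype.sum_bool]
    have := h1 true
    have := h1 false
    linarith
  have e1 : (P : ℝ) ^ 2 * (80 * (par.M : ℝ) ^ 2 * C0 / (n * Real.sqrt (par.wB d))) =
      4 * (par.M : ℝ) ^ 2 * ((P : ℝ) ^ 2 * K) := by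
    rw [hK]
    ring
  rw [e1]
  have hPK : 0 ≤ (P : ℝ) ^ 2 * K := by positivity
  have hM0 : (0 : ℝ) ≤ par.M := Nat.cast_nonneg _
  nlinarith [mul_nonneg hM0 hPK]

theorem s8bk_Off_nonneg (X : Matrix (Fin n) (Fin n) ℝ) (M : ℕ) (dr : ℕ → Option (Stub n d × Stub n d)) :
    0 ≤ π.s8Off X M dr := by
  unfold s8Off
  refine Finset.sum_nonneg fun r _ => Finset.sum_nonneg fun t _ => Finset.sum_nonneg fun a _ =>
    Finset.sum_nonneg fun a' _ => ?_
  split_ifs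
  · exact le_rfl
  · exact s8bk_WO_nonneg X _ _ _ _

/-- **E3** -/
theorem s8_E3 (hN : S8Num n d par e C0 apx εa tol0 δ1 P) (hh : π.S8Hyp par e C0 εa tol0) (b : Bool) :
    open Classical in
    (((s8Seeds P).filter (π.s8Bad3 par P E δ1 b)).card : ℝ) ≤
      80 * (par.M : ℝ) ^ 2 * C0 / (n * Real.sqrt (par.wB d) * δ1 ^ 2) * (s8Seeds P).card := by
  classical
  have hb := hN.basic
  have hδ := hN.hδ1
  have hn0 : (0 : ℝ) < n := by exact_mod_cast hb.hn
  have hw : 0 < Real.sqrt (par.wB d) := Real.sqrt_pos.mpr (s8bk_wB_pos hb)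
  have hmk := s8_markov (s8Seeds P)
    (fun ω => π.s8Off (E.RB d b (par.wB d)) par.M fun r => π.s8Draw par P ω.1 ω.2 (r + 1))
    (fun ω _ => s8bk_Off_nonneg _ _ _) (δ1 ^ 2) (by positivity)
  have h1 : (((s8Seeds P).filter (π.s8Bad3 par P E δ1 b)).card : ℝ) =
      (((s8Seeds P).filter fun ω => δ1 ^ 2 <
        π.s8Off (E.RB d b (par.wB d)) par.M fun r => π.s8Draw par P ω.1 ω.2 (r + 1)).card : ℝ) := by
    congr 2
  rw [h1]
  refine hmk.trans ?_
  rw [s8Seeds_card, div_le_iff₀ (by positivity)]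
  refine (s8_mean_Off hN hh b).trans (le_of_eq ?_)
  push_cast
  field_simp

end

end PPair

end Claimed.Agent.R275
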