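import Claimed.Agent.R275.S8Defs
import Claimed.Agent.R275.L41G

/-!
# Row 275, Sec 8, package CAST: the algorithm over `ℚ` makes the same decisions as the algorithm over `ℝ`.
Owner: helper118.
-/

set_option autoImplicit false

namespace Claimed.Agent.R275

open Matrix

namespace PPair

variable {n d : ℕ} (π : PPair n d)

section

variable {K K' : Type*} [Field K] [Field K'] (f : K →+* K')

theorem s8Res_map (b : Bool) (z : K) : (π.s8Res b z).map f = π.s8Res b (f z) := by
  unfold s8Res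
  rw [map_invOn1, map_sub', map_smul'', map_smul'', map_one', map_sgn, PPair.map_adjM]

theorem s8Psi_map (b : Bool) (z : K) : (π.s8Psi b z).map f = π.s8Psi b (f z) := by
  unfold s8Psi
  rw [map_mul', s8Res_map]

theorem s8Res_map_apply (b : Bool) (z : K) (p p' : Fin n) :
    f (π.s8Res b z p p') = π.s8Res b (f z) p p' := by
  rw [← s8Res_map]; rfl

theorem s8Psi_map_apply (b : Bool) (z : K) (p p' : Fin n) :
    f (π.s8Psi b z p p') = π.s8Psi b (f z) p p' := by
  rw [← s8Psi_map]; rfl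

theorem s8Br_map (par : S8Par K) (g j : Stub n d) :
    f (π.s8Br par g j) = π.s8Br (par.map f) g j := by
  unfold s8Br
  simp only [map_mul, map_neg, map_sum, map_div₀, map_add, map_sub, map_sgn, map_natCast,
    s8Psi_map_apply, S8Par.map, map_ofNat]

end

/-- the cast of the parameters -/
noncomputable def _root_.Claimed.Agent.R275.S8Par.toReal (par : S8Par ℚ) : S8Par ℝ :=
  par.map (Rat.castHom ℝ)

theorem s8Acc_cast (par : S8Par ℚ) (g : Stub n d) : π.s8Acc par g ↔ π.s8Acc par.toReal g := by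
  unfold s8Acc
  refine forall_congr' fun b => ?_
  have key : ∀ (p p' : Fin n) (t : ℚ),
      (|π.s8Res b par.zB p p' - t| ≤ par.thr ↔
        |π.s8Res b par.toReal.zB p p' - (t : ℝ)| ≤ par.toReal.thr) := by
    intro p p' t
    have h1 : π.s8Res b par.toReal.zB p p' = ((π.s8Res b par.zB p p' : ℚ) : ℝ) :=
      (s8Res_map_apply π (Rat.castHom ℝ) b par.zB p p').symm
    have h2 : par.toReal.thr = ((par.thr : ℚ) : ℝ) := rfl
    rw [h1, h2, ← Rat.cast_sub, ← Rat.cast_abs, Rat.cast_le]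
  have e1 : ((par.sA / (2 * ((d : ℚ) - 2)) : ℚ) : ℝ) = par.toReal.sA / (2 * ((d : ℝ) - 2)) := by
    have : par.toReal.sA = ((par.sA : ℚ) : ℝ) := rfl
    rw [this]; push_cast; ring
  have e2 : (((sgn b : ℚ) / ((d : ℚ) - 2) : ℚ) : ℝ) = (sgn b : ℝ) / ((d : ℝ) - 2) := by
    cases b <;> simp [sgn]
  rw [key, key, key, e1, e2]

theorem s8Active_cast (par : S8Par ℚ) (P lvl : ℕ) (o : Stub n d × Stub n d) :
    π.s8Active par P lvl o ↔ π.s8Active par.toReal P lvl o := by
  unfold s8Active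
  rw [s8Acc_cast, s8Acc_cast]
  have h : π.s8Br par.toReal o.1 o.2 = ((π.s8Br par o.1 o.2 : ℚ) : ℝ) :=
    (s8Br_map π (Rat.castHom ℝ) par o.1 o.2).symm
  rw [h]
  have : ((lvl : ℚ) + 1 ≤ ((P / ((n * d) * (n * d)) : ℕ) : ℚ) * (1 + π.s8Br par o.1 o.2) / 2) ↔
      ((lvl : ℝ) + 1 ≤ ((P / ((n * d) * (n * d)) : ℕ) : ℝ) * (1 + ((π.s8Br par o.1 o.2 : ℚ) : ℝ)) / 2) := by
    rw [← Rat.cast_le (K := ℝ)]; push_cast; rfl
  rw [this]

theorem s8Out_cast (par : S8Par ℚ) (P ρ : ℕ) : π.s8Out par P ρ = π.s8Out par.toReal P ρ := by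
  unfold s8Out
  congr 1
  funext o
  by_cases h : π.s8Active par P (ρ / ((n * d) * (n * d))) o
  · rw [if_pos h, if_pos ((s8Active_cast π par P _ o).1 h)]
  · rw [if_neg h, if_neg (fun h' => h ((s8Active_cast π par P _ o).2 h'))]

theorem s8Acts_cast (par : S8Par ℚ) (P γ β : ℕ) :
    π.s8Acts par P γ β = π.s8Acts par.toReal P γ β := by
  unfold s8Acts s8Draw
  simp only [s8Out_cast]
  rfl

theorem s8Cand_cast (par : S8Par ℚ) (P γ β : ℕ) :
    π.s8Cand par P γ β = π.s8Cand par.toReal P γ β := by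
  unfold s8Cand
  rw [s8Acts_cast]

/-- **CAST** -/
theorem s8Cands_cast (par : S8Par ℚ) : π.s8Cands par = π.s8Cands par.toReal := by
  unfold s8Cands
  simp only [s8Cand_cast]
  rfl

end PPair

end Claimed.Agent.R275
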