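import Claimed.Agent.R275.S8Mean

/-!
# Row 275, Sec 8, package COLL: collisions are rare, i.e. the active draws of most seeds form a valid family of switches.
Statements: helper118.  Proofs: helper64 (helper prefix `s8co`).  No paper.  Counting only.  Uses GRAPH (A), LAW (`s8Mu_le_unif`, `s8_law_sum`, `s8Acts_mem`), INDEP, MEAN (`s8_br_half`).

`s8Valid l` fails only if
 (i)   one draw `o = (g,j)` has `u = x`, `u = y`, `v = x` or `v = y` (`u ≠ v`, `x ≠ y` hold on a simple complete pairing): each has `≤ T²/n` pairs `o`;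
 (ii)  `u ~ y` or `x ~ v`: each has `≤ T² d/n` pairs;
 (iii) two different draws share an endpoint: 16 coincidences, each has `≤ T⁴/n` pairs of pairs.
With `μ ≤ 1/T²`, the first moment (i), (ii) and pairwise independence (iii):  `#bad ≤ P² ((4 + 2d) M + 16 M²)/n`.
-/

set_option autoImplicit false

namespace Claimed.Agent.R275

open Matrix Finset

namespace PPair

variable {n d : ℕ} (π : PPair n d) (par : S8Par ℝ) (P : ℕ)

/-- bad event 4: the active draws are not a valid family of switches -/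
def s8Bad4 (ω : ℕ × ℕ) : Prop := ¬ π.s8Valid (π.s8Acts par P ω.1 ω.2)

/-- one draw is internally bad -/
def s8Self (o : Stub n d × Stub n d) : Prop :=
  ¬ (π.s8Ends o).Nodup ∨ π.acount o.1.1 (π.oth o.2) ≠ 0 ∨ π.acount o.2.1 (π.oth o.1) ≠ 0

/-- two draws share an endpoint -/
def s8Meet (o o' : Stub n d × Stub n d) : Prop := ∃ p ∈ π.s8Ends o, p ∈ π.s8Ends o'

variable {π par P}

/-- reduction of validity to the draws -/
theorem s8Valid_of_draws (M : ℕ) (dr : ℕ → Option (Stub n d × Stub n d))
    (h1 : ∀ r < M, ∀ o, dr r = some o → ¬ π.s8Self o)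
    (h2 : ∀ r < M, ∀ t < M, r ≠ t → ∀ o o', dr r = some o → dr t = some o' → ¬ π.s8Meet o o') :
    π.s8Valid ((List.range M).filterMap dr) := by
  have hS : ∀ o ∈ (List.range M).filterMap dr, ¬ π.s8Self o := by
    intro o ho
    obtain ⟨r, hr, hro⟩ := List.mem_filterMap.1 ho
    exact h1 r (List.mem_range.1 hr) o hro
  refine ⟨?_, ?_⟩
  · rw [List.nodup_flatMap]
    refine ⟨fun o ho => ?_, ?_⟩
    · by_contra hn
      exact hS o ho (Or.inl hn)
    · rw [List.pairwise_filterMap]
      refine List.Pairwise.imp_of_mem ?_ (List.pairwise_lt_range (n := M))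
      intro r t hr ht hrt o hro o' hto p hp hp'
      exact h2 r (List.mem_range.1 hr) t (List.mem_range.1 ht) (ne_of_lt hrt) o o' hro hto
        ⟨p, hp, hp'⟩
  · intro o ho
    have h := hS o ho
    unfold s8Self at h
    push Not at h
    exact ⟨h.2.1, h.2.2⟩

/-- general counting of coincidences -/
theorem s8co_card_eq {α β γ : Type*} [Fintype α] [Fintype β] [DecidableEq γ] (F : α → γ) (G : β → γ)
    (D : ℕ) (hF : ∀ p, (univ.filter fun a => F a = p).card ≤ D) :
    (univ.filter fun o : α × β => F o.1 = G o.2).card ≤ Fintype.card β * D := by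
  rw [Finset.card_filter, Fintype.sum_prod_type_right]
  calc ∑ y : β, ∑ x : α, (if F x = G y then 1 else 0) = ∑ y : β, (univ.filter fun a => F a = G y).card := by
        refine Finset.sum_congr rfl fun y _ => ?_
        rw [Finset.card_filter]
    _ ≤ ∑ _y : β, D := Finset.sum_le_sum fun y _ => hF _
    _ = Fintype.card β * D := by simp

theorem s8co_card_stub : Fintype.card (Stub n d) = n * d := by simp

open Classical in
theorem s8_card_eq_fst (F G : Stub n d → Fin n) (hF : ∀ p, (univ.filter fun g => F g = p).card ≤ d) :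
    ((univ.filter fun o : Stub n d × Stub n d => F o.1 = G o.2).card : ℝ) ≤ ((n : ℝ) * d) * d := by
  have h := s8co_card_eq F G d (fun p => by convert hF p)
  rw [s8co_card_stub] at h
  have h' : (univ.filter fun o : Stub n d × Stub n d => F o.1 = G o.2).card ≤ n * d * d := by
    convert h
  exact_mod_cast h'

open Classical in
theorem s8_card_fst (p : Fin n) : (univ.filter fun g : Stub n d => g.1 = p).card ≤ d := by
  have h := Finset.card_le_card_of_injOn (s := univ.filter fun g : Stub n d => g.1 = p)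
    (t := (univ : Finset (Fin d))) (fun g => g.2) (fun _ _ => Finset.mem_coe.2 (Finset.mem_univ _)) (by
      intro g hg g' hg' hgg
      simp only [coe_filter, mem_univ, true_and, Set.mem_ofPred_eq] at hg hg'
      exact Prod.ext (hg.trans hg'.symm) hgg)
  simpa using h

open Classical in
theorem s8_card_oth (p : Fin n) : (univ.filter fun g : Stub n d => π.oth g = p).card ≤ d := by
  refine le_trans ?_ (s8_card_fst (n := n) (d := d) p)
  refine Finset.card_le_card_of_injOn π.mate ?_ ?_
  · intro g hg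
    simp only [coe_filter, mem_univ, true_and, Set.mem_ofPred_eq] at hg ⊢
    exact hg
  · intro g _ g' _ hgg
    have := congrArg π.mate hgg
    simpa [π.mate_mate] using this

theorem s8co_sum_adj1 (hc : π.Complete) :
    ∑ o : Stub n d × Stub n d, π.adjM ℝ o.1.1 (π.oth o.2) = (d : ℝ) * (((n : ℝ) * d) * d) := by
  rw [Fintype.sum_prod_type_right]
  have h : ∀ j : Stub n d, ∑ g : Stub n d, π.adjM ℝ g.1 (π.oth j) = d * d := by
    intro j
    rw [s8_sum_stub_fst (fun u => π.adjM ℝ u (π.oth j))]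
    congr 1
    rw [← π.s8_adjM_row hc (π.oth j)]
    refine Finset.sum_congr rfl fun u _ => ?_
    unfold adjM; rw [π.acount_symm]
  simp only [h, Finset.sum_const, Finset.card_univ, s8co_card_stub, nsmul_eq_mul]
  push_cast
  ring

theorem s8co_sum_adj2 (hc : π.Complete) :
    ∑ o : Stub n d × Stub n d, π.adjM ℝ o.2.1 (π.oth o.1) = (d : ℝ) * (((n : ℝ) * d) * d) := by
  rw [← s8co_sum_adj1 hc, ← Equiv.sum_comp (Equiv.prodComm (Stub n d) (Stub n d))]
  rfl

open Classical in
theorem s8co_self_le (hc : π.Complete) (hs : π.IsSimple) (o : Stub n d × Stub n d) :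
    (if π.s8Self o then (1 : ℝ) else 0) ≤
      (if o.1.1 = o.2.1 then (1 : ℝ) else 0) + (if o.1.1 = π.oth o.2 then (1 : ℝ) else 0)
      + (if π.oth o.1 = o.2.1 then (1 : ℝ) else 0) + (if π.oth o.1 = π.oth o.2 then (1 : ℝ) else 0)
      + π.adjM ℝ o.1.1 (π.oth o.2) + π.adjM ℝ o.2.1 (π.oth o.1) := by
  have i1 : (0 : ℝ) ≤ (if o.1.1 = o.2.1 then (1 : ℝ) else 0) := by split_ifs <;> norm_num
  have i2 : (0 : ℝ) ≤ (if o.1.1 = π.oth o.2 then (1 : ℝ) else 0) := by split_ifs <;> norm_num
  have i3 : (0 : ℝ) ≤ (if π.oth o.1 = o.2.1 then (1 : ℝ) else 0) := by split_ifs <;> norm_num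
  have i4 : (0 : ℝ) ≤ (if π.oth o.1 = π.oth o.2 then (1 : ℝ) else 0) := by split_ifs <;> norm_num
  have i5 : (0 : ℝ) ≤ π.adjM ℝ o.1.1 (π.oth o.2) := by unfold adjM; positivity
  have i6 : (0 : ℝ) ≤ π.adjM ℝ o.2.1 (π.oth o.1) := by unfold adjM; positivity
  by_cases hS : π.s8Self o
  · rw [if_pos hS]
    rcases hS with h | h | h
    · by_cases e1 : o.1.1 = o.2.1
      · rw [if_pos e1] at i1 ⊢; linarith
      by_cases e2 : o.1.1 = π.oth o.2
      · rw [if_pos e2] at i2 ⊢; linarith
      by_cases e3 : π.oth o.1 = o.2.1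
      · rw [if_pos e3] at i3 ⊢; linarith
      by_cases e4 : π.oth o.1 = π.oth o.2
      · rw [if_pos e4] at i4 ⊢; linarith
      exfalso
      apply h
      have a1 := (π.s8_adjM_stub hc hs o.1).2
      have a2 := (π.s8_adjM_stub hc hs o.2).2
      simp [s8Ends, a1, a2, e1, e2, e3, e4]
    · have : (1 : ℝ) ≤ π.adjM ℝ o.1.1 (π.oth o.2) := by
        unfold adjM; exact_mod_cast Nat.one_le_iff_ne_zero.2 h
      linarith
    · have : (1 : ℝ) ≤ π.adjM ℝ o.2.1 (π.oth o.1) := by
        unfold adjM; exact_mod_cast Nat.one_le_iff_ne_zero.2 h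
      linarith
  · rw [if_neg hS]; linarith

open Classical in
/-- (i) + (ii) -/
theorem s8_card_Self (hc : π.Complete) (hs : π.IsSimple) :
    ((univ.filter fun o : Stub n d × Stub n d => π.s8Self o).card : ℝ) ≤
      (4 + 2 * (d : ℝ)) * (((n : ℝ) * d) * d) := by
  rw [← Finset.sum_boole]
  refine le_trans (Finset.sum_le_sum fun o _ => s8co_self_le hc hs o) ?_
  simp only [Finset.sum_add_distrib, Finset.sum_boole, s8co_sum_adj1 hc, s8co_sum_adj2 hc]
  have b1 := s8_card_eq_fst (n := n) (d := d) (fun g => g.1) (fun g => g.1) (fun p => s8_card_fst p)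
  have b2 := s8_card_eq_fst (n := n) (d := d) (fun g => g.1) (fun g => π.oth g) (fun p => s8_card_fst p)
  have b3 := s8_card_eq_fst (n := n) (d := d) (fun g => π.oth g) (fun g => g.1) (fun p => s8_card_oth p)
  have b4 := s8_card_eq_fst (n := n) (d := d) (fun g => π.oth g) (fun g => π.oth g)
    (fun p => s8_card_oth p)
  linarith

/-- the four endpoint functions -/
def s8coE (π : PPair n d) (i : Fin 4) (o : Stub n d × Stub n d) : Fin n :=
  ![o.1.1, π.oth o.1, o.2.1, π.oth o.2] i

theorem s8co_mem_ends (o : Stub n d × Stub n d) (p : Fin n) :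
    p ∈ π.s8Ends o ↔ ∃ i, π.s8coE i o = p := by
  simp [s8Ends, s8coE, Fin.exists_fin_succ, eq_comm]

theorem s8co_card_fstc {α β γ : Type*} [Fintype α] [Fintype β] [DecidableEq γ] (F : α → γ) (p : γ)
    (D : ℕ) (hF : (univ.filter fun a => F a = p).card ≤ D) :
    (univ.filter fun o : α × β => F o.1 = p).card ≤ Fintype.card β * D := by
  rw [Finset.card_filter, Fintype.sum_prod_type_right]
  calc ∑ _y : β, ∑ x : α, (if F x = p then 1 else 0) = ∑ _y : β, (univ.filter fun a => F a = p).card := by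
        refine Finset.sum_congr rfl fun y _ => ?_
        rw [Finset.card_filter]
    _ ≤ ∑ _y : β, D := Finset.sum_le_sum fun y _ => hF
    _ = Fintype.card β * D := by simp

theorem s8co_card_sndc {α β γ : Type*} [Fintype α] [Fintype β] [DecidableEq γ] (F : β → γ) (p : γ)
    (D : ℕ) (hF : (univ.filter fun a => F a = p).card ≤ D) :
    (univ.filter fun o : α × β => F o.2 = p).card ≤ Fintype.card α * D := by
  rw [Finset.card_filter, Fintype.sum_prod_type]
  calc ∑ _x : α, ∑ y : β, (if F y = p then 1 else 0) = ∑ _x : α, (univ.filter fun a => F a = p).card := by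
        refine Finset.sum_congr rfl fun y _ => ?_
        rw [Finset.card_filter]
    _ ≤ ∑ _x : α, D := Finset.sum_le_sum fun y _ => hF
    _ = Fintype.card α * D := by simp

theorem s8co_card_E (i : Fin 4) (p : Fin n) :
    (univ.filter fun o : Stub n d × Stub n d => π.s8coE i o = p).card ≤ (n * d) * d := by
  have f1 : (univ.filter fun g : Stub n d => g.1 = p).card ≤ d := by convert s8_card_fst (d := d) p
  have f2 : (univ.filter fun g : Stub n d => π.oth g = p).card ≤ d := by
    convert s8_card_oth (π := π) p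
  fin_cases i
  · have h := s8co_card_fstc (β := Stub n d) (fun g : Stub n d => g.1) p d f1
    rw [s8co_card_stub] at h
    exact h
  · have h := s8co_card_fstc (β := Stub n d) (fun g : Stub n d => π.oth g) p d f2
    rw [s8co_card_stub] at h
    exact h
  · have h := s8co_card_sndc (α := Stub n d) (fun g : Stub n d => g.1) p d f1
    rw [s8co_card_stub] at h
    exact h
  · have h := s8co_card_sndc (α := Stub n d) (fun g : Stub n d => π.oth g) p d f2
    rw [s8co_card_stub] at h
    exact h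

open Classical in
/-- (iii) -/
theorem s8_card_Meet :
    ((univ.filter fun oo : (Stub n d × Stub n d) × (Stub n d × Stub n d) => π.s8Meet oo.1 oo.2).card : ℝ) ≤
      16 * (((n : ℝ) * d) ^ 3 * d) := by
  have hsub : (univ.filter fun oo : (Stub n d × Stub n d) × (Stub n d × Stub n d) =>
      π.s8Meet oo.1 oo.2) ⊆ (univ : Finset (Fin 4 × Fin 4)).biUnion fun ik =>
        univ.filter fun oo : (Stub n d × Stub n d) × (Stub n d × Stub n d) =>
          π.s8coE ik.1 oo.1 = π.s8coE ik.2 oo.2 := by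
    intro oo hoo
    simp only [mem_filter, mem_univ, true_and] at hoo
    obtain ⟨p, hp, hp'⟩ := hoo
    obtain ⟨i, hi⟩ := (s8co_mem_ends _ _).1 hp
    obtain ⟨k, hk⟩ := (s8co_mem_ends _ _).1 hp'
    simp only [mem_biUnion, mem_univ, true_and, mem_filter]
    exact ⟨(i, k), hi.trans hk.symm⟩
  have h1 := (Finset.card_le_card hsub).trans Finset.card_biUnion_le
  have h2 : ∀ ik : Fin 4 × Fin 4, (univ.filter fun oo : (Stub n d × Stub n d) × (Stub n d × Stub n d) =>
          π.s8coE ik.1 oo.1 = π.s8coE ik.2 oo.2).card ≤ ((n * d) * (n * d)) * ((n * d) * d) := by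
    intro ik
    have h := s8co_card_eq (π.s8coE ik.1) (π.s8coE ik.2) ((n * d) * d) (fun p => s8co_card_E ik.1 p)
    rw [Fintype.card_prod, s8co_card_stub] at h
    convert h
  have h3 := h1.trans (Finset.sum_le_sum fun ik _ => h2 ik)
  simp only [Finset.sum_const, Finset.card_univ, Fintype.card_prod, Fintype.card_fin, smul_eq_mul] at h3
  have h4 : ((univ.filter fun oo : (Stub n d × Stub n d) × (Stub n d × Stub n d) =>
      π.s8Meet oo.1 oo.2).card : ℝ) ≤ ((4 * 4 * (n * d * (n * d) * (n * d * d)) : ℕ) : ℝ) := by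
    exact_mod_cast h3
  refine h4.trans (le_of_eq ?_)
  push_cast
  ring

open Classical in
/-- indicator of an internally bad draw -/
noncomputable def s8coS (π : PPair n d) (oo : Option (Stub n d × Stub n d)) : ℝ :=
  oo.elim 0 fun o => if π.s8Self o then 1 else 0

open Classical in
/-- indicator of two draws sharing an endpoint -/
noncomputable def s8coM (π : PPair n d) (oo oo' : Option (Stub n d × Stub n d)) : ℝ :=
  oo.elim 0 fun o => oo'.elim 0 fun o' => if π.s8Meet o o' then 1 else 0

theorem s8coS_nonneg (oo : Option (Stub n d × Stub n d)) : 0 ≤ π.s8coS oo := by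
  cases oo with
  | none => exact le_refl _
  | some o => simp only [s8coS, Option.elim_some]; split_ifs <;> norm_num

theorem s8coM_nonneg (oo oo' : Option (Stub n d × Stub n d)) : 0 ≤ π.s8coM oo oo' := by
  cases oo with
  | none => exact le_refl _
  | some o =>
    cases oo' with
    | none => exact le_refl _
    | some o' => simp only [s8coM, Option.elim_some]; split_ifs <;> norm_num

theorem s8coM_none_right (oo : Option (Stub n d × Stub n d)) : π.s8coM oo none = 0 := by
  cases oo <;> rfl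

open Classical in
theorem s8co_bad_le (ω : ℕ × ℕ) :
    (if π.s8Bad4 par P ω then (1 : ℝ) else 0) ≤
      ∑ r ∈ range par.M, π.s8coS (π.s8Out par P ((ω.1 * (r + 1) + ω.2) % P))
      + ∑ r ∈ range par.M, ∑ t ∈ range par.M,
          (if r = t then 0 else π.s8coM (π.s8Out par P ((ω.1 * (r + 1) + ω.2) % P))
            (π.s8Out par P ((ω.1 * (t + 1) + ω.2) % P))) := by
  have t2 : ∀ r t : ℕ, 0 ≤ (if r = t then 0 else π.s8coM (π.s8Out par P ((ω.1 * (r + 1) + ω.2) % P))
            (π.s8Out par P ((ω.1 * (t + 1) + ω.2) % P))) := by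
    intro r t
    split_ifs
    · exact le_refl _
    · exact s8coM_nonneg _ _
  have n1 : 0 ≤ ∑ r ∈ range par.M, π.s8coS (π.s8Out par P ((ω.1 * (r + 1) + ω.2) % P)) :=
    Finset.sum_nonneg fun r _ => s8coS_nonneg _
  have n2 : 0 ≤ ∑ r ∈ range par.M, ∑ t ∈ range par.M,
          (if r = t then 0 else π.s8coM (π.s8Out par P ((ω.1 * (r + 1) + ω.2) % P))
            (π.s8Out par P ((ω.1 * (t + 1) + ω.2) % P))) :=
    Finset.sum_nonneg fun r _ => Finset.sum_nonneg fun t _ => t2 r t
  by_cases hB : π.s8Bad4 par P ω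
  · rw [if_pos hB]
    by_contra hlt
    apply hB
    refine s8Valid_of_draws par.M (fun r => π.s8Draw par P ω.1 ω.2 (r + 1)) ?_ ?_
    · intro r hr o hro hS
      apply hlt
      have hro' : π.s8Out par P ((ω.1 * (r + 1) + ω.2) % P) = some o := hro
      have h1 : (1 : ℝ) = π.s8coS (π.s8Out par P ((ω.1 * (r + 1) + ω.2) % P)) := by
        rw [hro']; simp [s8coS, hS]
      have h2 := Finset.single_le_sum
        (f := fun r => π.s8coS (π.s8Out par P ((ω.1 * (r + 1) + ω.2) % P)))
        (fun i _ => s8coS_nonneg _) (Finset.mem_range.2 hr)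
      linarith
    · intro r hr t ht hrt o o' hro hto hM
      apply hlt
      have hro' : π.s8Out par P ((ω.1 * (r + 1) + ω.2) % P) = some o := hro
      have hto' : π.s8Out par P ((ω.1 * (t + 1) + ω.2) % P) = some o' := hto
      have h1 : (1 : ℝ) = (if r = t then 0 else π.s8coM (π.s8Out par P ((ω.1 * (r + 1) + ω.2) % P))
            (π.s8Out par P ((ω.1 * (t + 1) + ω.2) % P))) := by
        rw [hro', hto', if_neg hrt]; simp [s8coM, hM]
      have h2 := Finset.single_le_sum
        (f := fun t => (if r = t then 0 else π.s8coM (π.s8Out par P ((ω.1 * (r + 1) + ω.2) % P))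
            (π.s8Out par P ((ω.1 * (t + 1) + ω.2) % P))))
        (fun i _ => t2 r i) (Finset.mem_range.2 ht)
      have h3 := Finset.single_le_sum
        (f := fun r => ∑ t ∈ range par.M,
          (if r = t then 0 else π.s8coM (π.s8Out par P ((ω.1 * (r + 1) + ω.2) % P))
            (π.s8Out par P ((ω.1 * (t + 1) + ω.2) % P))))
        (fun i _ => Finset.sum_nonneg fun t _ => t2 i t) (Finset.mem_range.2 hr)
      linarith
  · rw [if_neg hB]; linarith

open Classical in
theorem s8co_cross_eq (hP : 0 < P) :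
    ∑ a ∈ range P, ∑ b ∈ range P, π.s8coM (π.s8Out par P a) (π.s8Out par P b) =
      P * P * ∑ oo : (Stub n d × Stub n d) × (Stub n d × Stub n d),
        π.s8Mu par P oo.1 * π.s8Mu par P oo.2 * (if π.s8Meet oo.1 oo.2 then (1 : ℝ) else 0) := by
  calc ∑ a ∈ range P, ∑ b ∈ range P, π.s8coM (π.s8Out par P a) (π.s8Out par P b)
      = ∑ a ∈ range P, P * ∑ o', π.s8Mu par P o' * π.s8coM (π.s8Out par P a) (some o') := by
        refine Finset.sum_congr rfl fun a _ => ?_
        exact π.s8_law_sum par P hP (π.s8coM (π.s8Out par P a)) (s8coM_none_right _)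
    _ = P * ∑ o', π.s8Mu par P o' * ∑ a ∈ range P, π.s8coM (π.s8Out par P a) (some o') := by
        rw [← Finset.mul_sum, Finset.sum_comm]
        simp only [Finset.mul_sum]
    _ = P * ∑ o', π.s8Mu par P o' * (P * ∑ o, π.s8Mu par P o * π.s8coM (some o) (some o')) := by
        congr 1
        refine Finset.sum_congr rfl fun o' _ => ?_
        rw [π.s8_law_sum par P hP (fun oo => π.s8coM oo (some o')) rfl]
    _ = P * P * ∑ oo : (Stub n d × Stub n d) × (Stub n d × Stub n d),
        π.s8Mu par P oo.1 * π.s8Mu par P oo.2 * (if π.s8Meet oo.1 oo.2 then (1 : ℝ) else 0) := by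
        conv_rhs => rw [Fintype.sum_prod_type_right]
        simp only [Finset.mul_sum]
        refine Finset.sum_congr rfl fun o' _ => ?_
        refine Finset.sum_congr rfl fun o _ => ?_
        simp only [s8coM, Option.elim_some]
        ring

variable {e C0 apx εa tol0 δ1 : ℝ}

/-- **E4** -/
theorem s8_E4 (hN : S8Num n d par e C0 apx εa tol0 δ1 P) (hh : π.S8Hyp par e C0 εa tol0) :
    open Classical in
    (((s8Seeds P).filter (π.s8Bad4 par P)).card : ℝ) ≤
      ((4 + 2 * (d : ℝ)) * par.M + 16 * (par.M : ℝ) ^ 2) / n * (s8Seeds P).card := by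
  classical
  have hP : 0 < P := hN.hPprime.pos
  have hn : 0 < n := hN.basic.hn
  have hd : 0 < d := by have := hN.basic.hd; omega
  have hT : 0 < n * d := Nat.mul_pos hn hd
  have hnR : (0 : ℝ) < n := by exact_mod_cast hn
  have hdR : (0 : ℝ) < d := by exact_mod_cast hd
  have hμ : ∀ o, π.s8Mu par P o ≤ 1 / ((n : ℝ) * d) ^ 2 :=
    fun o => π.s8Mu_le_unif par P hP hT o (s8_br_half hN hh o)
  have hμ0 : ∀ o, 0 ≤ π.s8Mu par P o := π.s8Mu_nonneg par P
  have B1 : ∑ o, π.s8Mu par P o * π.s8coS (some o)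
      ≤ 1 / ((n : ℝ) * d) ^ 2 * ((4 + 2 * (d : ℝ)) * (((n : ℝ) * d) * d)) := by
    calc ∑ o, π.s8Mu par P o * π.s8coS (some o)
        ≤ ∑ o, 1 / ((n : ℝ) * d) ^ 2 * (if π.s8Self o then (1 : ℝ) else 0) :=
          Finset.sum_le_sum fun o _ => mul_le_mul_of_nonneg_right (hμ o) (s8coS_nonneg (some o))
      _ = 1 / ((n : ℝ) * d) ^ 2 * ∑ o, (if π.s8Self o then (1 : ℝ) else 0) :=
          (Finset.mul_sum _ _ _).symm
      _ ≤ _ := by
          rw [Finset.sum_boole]
          exact mul_le_mul_of_nonneg_left (by convert s8_card_Self hh.complete hh.simple)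
            (by positivity)
  have B2 : ∑ oo : (Stub n d × Stub n d) × (Stub n d × Stub n d),
        π.s8Mu par P oo.1 * π.s8Mu par P oo.2 * (if π.s8Meet oo.1 oo.2 then (1 : ℝ) else 0)
      ≤ (1 / ((n : ℝ) * d) ^ 2 * (1 / ((n : ℝ) * d) ^ 2)) * (16 * (((n : ℝ) * d) ^ 3 * d)) := by
    calc _ ≤ ∑ oo : (Stub n d × Stub n d) × (Stub n d × Stub n d),
          (1 / ((n : ℝ) * d) ^ 2 * (1 / ((n : ℝ) * d) ^ 2)) *
            (if π.s8Meet oo.1 oo.2 then (1 : ℝ) else 0) := by
          refine Finset.sum_le_sum fun oo _ => mul_le_mul_of_nonneg_right ?_ (by split_ifs <;> norm_num)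
          exact mul_le_mul (hμ _) (hμ _) (hμ0 _) (by positivity)
      _ = (1 / ((n : ℝ) * d) ^ 2 * (1 / ((n : ℝ) * d) ^ 2)) *
            ∑ oo : (Stub n d × Stub n d) × (Stub n d × Stub n d),
              (if π.s8Meet oo.1 oo.2 then (1 : ℝ) else 0) := (Finset.mul_sum _ _ _).symm
      _ ≤ _ := by
          rw [Finset.sum_boole]
          exact mul_le_mul_of_nonneg_left (by convert s8_card_Meet (π := π)) (by positivity)
  rw [← Finset.sum_boole]
  refine le_trans (Finset.sum_le_sum fun ω _ => s8co_bad_le ω) ?_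
  rw [Finset.sum_add_distrib, s8_first_moment P hP par.M (fun a => π.s8coS (π.s8Out par P a)),
    s8_cross P hN.hPprime par.M hN.hMP (fun a b => π.s8coM (π.s8Out par P a) (π.s8Out par P b)),
    s8co_cross_eq hP, π.s8_law_sum par P hP π.s8coS rfl, s8Seeds_card]
  have hM0 : (0 : ℝ) ≤ (par.M : ℝ) := by positivity
  have hM1 : (0 : ℝ) ≤ (par.M : ℝ) ^ 2 - par.M := by
    have : (par.M : ℝ) ≤ (par.M : ℝ) ^ 2 := by exact_mod_cast Nat.le_self_pow (by norm_num) _
    linarith
  have hPR : (0 : ℝ) ≤ (P : ℝ) := by positivity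
  have W0 : 0 ≤ ∑ oo : (Stub n d × Stub n d) × (Stub n d × Stub n d),
        π.s8Mu par P oo.1 * π.s8Mu par P oo.2 * (if π.s8Meet oo.1 oo.2 then (1 : ℝ) else 0) :=
    Finset.sum_nonneg fun oo _ => mul_nonneg (mul_nonneg (hμ0 _) (hμ0 _)) (by split_ifs <;> norm_num)
  have e1 : 1 / ((n : ℝ) * d) ^ 2 * ((4 + 2 * (d : ℝ)) * (((n : ℝ) * d) * d)) = (4 + 2 * (d : ℝ)) / n := by
    field_simp
  have e2 : (1 / ((n : ℝ) * d) ^ 2 * (1 / ((n : ℝ) * d) ^ 2)) * (16 * (((n : ℝ) * d) ^ 3 * d)) = 16 / n := by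
    field_simp
  rw [e1] at B1
  rw [e2] at B2
  set S1 := ∑ o, π.s8Mu par P o * π.s8coS (some o)
  set W := ∑ oo : (Stub n d × Stub n d) × (Stub n d × Stub n d),
        π.s8Mu par P oo.1 * π.s8Mu par P oo.2 * (if π.s8Meet oo.1 oo.2 then (1 : ℝ) else 0)
  have c1 : (P : ℝ) * par.M * (P * S1) ≤ (P : ℝ) * par.M * (P * ((4 + 2 * (d : ℝ)) / n)) := by gcongr
  have c2 : ((par.M : ℝ) ^ 2 - par.M) * (P * P * W) ≤ (par.M : ℝ) ^ 2 * (P * P * (16 / n)) := by
    apply mul_le_mul _ _ (by positivity) (by positivity)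
    · linarith
    · gcongr
  refine (add_le_add c1 c2).trans (le_of_eq ?_)
  push_cast
  field_simp

end PPair
end Claimed.Agent.R275
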