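import Claimed.Agent.R275.Defs

/-!
# Row 275, Sec 8 (`repair.tex`): definitions of the repair stage.   Owner: helper118.  Prefix `s8`.  No sorry.

DESIGN (differs from the paper's Steps 1-7; see also helper11's memo `S8Blueprint.lean`).
* State = a COMPLETE SIMPLE pairing `π`.  Oriented edges = stubs: `g` stands for `(g.1, π.oth g)`.
* `switch1 π g j` = conjugation of the involution by the transposition `(g j)` = delete `{u,v},{x,y}`, insert `{u,y},{x,v}`
  (`u = g.1, v = oth g, x = j.1, y = oth j`).  Total, always an involution.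
* Resolvents are EXACT: `s8Res b z = (z - σ A)⁻¹` on `1^⊥`, zero on constants (`σ = sgn b`); `= π.Rinv σ h` for `z = z(h)`.
  Tilt weight `Ψ_τ = (s8Res τ zT)²`; acceptance test on the endpoint blocks of `s8Res σ zB`.
* A draw is decoded from a residue `ρ < P`: `idx = ρ % T²` (a pair of stubs, `T = n d`), `lvl = ρ / T²`;
  it is ACTIVE iff both stubs are accepted and `lvl + 1 ≤ ⌊P/T²⌋ (1 + tilt)/2`; otherwise VOID (no switch).
* Seeds: all `(P, γ, β)`, `NP ≤ P ≤ 2 NP`, `γ, β < P`; draw `r` uses the residue `(γ r + β) % P`, `1 ≤ r ≤ M`.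
* Final test: `trace (A'^(2n)) - d^(2n) < (4(d-1))^n`.
* Analysis: `B = A - d J/n` on all of `ℝ^n`, any orthonormal eigensystem `S8Eig B`; every switch is rotated to the two columns
  `(e_u - e_x) ± σ (e_v - e_y)`, so that all `2 × 2` blocks of the paper (`σF`, `2 P_tree`, `K_σ`) become diagonal.
-/

set_option autoImplicit false

namespace Claimed.Agent.R275

open Matrix

/-! ## 1. Parameters -/

/-- parameters of the repair stage (machine: `K = ℚ`, analysis: `K = ℝ`) -/
structure S8Par (K : Type*) where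
  /-- spectral point of the tilt, `zT - s ≍ e` -/
  zT : K
  /-- spectral point of the acceptance test, `zB - s ≍ W_b` -/
  zB : K
  /-- approximation of `s = 2 √(d-1)` -/
  sA : K
  /-- acceptance threshold -/
  thr : K
  /-- strength of the tilt (`≍ (n / J_T) e²`) -/
  kap : K
  /-- number of draws -/
  M : ℕ
  /-- the moduli are `NP ≤ P ≤ 2 NP` -/
  NP : ℕ

/-- change of field -/
def S8Par.map {K K' : Type*} (f : K → K') (p : S8Par K) : S8Par K' :=
  ⟨f p.zT, f p.zB, f p.sA, f p.thr, f p.kap, p.M, p.NP⟩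

/-- decoding of an index `t < (n d)²` into an ordered pair of stubs -/
def s8Dec (n d t : ℕ) : Option (Stub n d × Stub n d) :=
  if h : t < (n * d) * (n * d) then
    some (finProdFinEquiv.symm (finProdFinEquiv.symm (⟨t, h⟩ : Fin ((n * d) * (n * d)))).1,
      finProdFinEquiv.symm (finProdFinEquiv.symm (⟨t, h⟩ : Fin ((n * d) * (n * d)))).2)
  else none

namespace PPair

variable {n d : ℕ} (π : PPair n d)

/-! ## 2. The algorithm -/

/-- the other endpoint of the oriented edge given by the stub `g` -/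
def oth (g : Stub n d) : Fin n := (π.mate g).1

/-- the switch of the stubs `g, j`: conjugation by the transposition `(g j)` -/
def switch1 (g j : Stub n d) : PPair n d :=
  ⟨fun x => Equiv.swap g j (π.mate (Equiv.swap g j x)), fun x => by simp [π.mate_mate]⟩

/-- simultaneous switches -/
def s8Switch (l : List (Stub n d × Stub n d)) : PPair n d :=
  l.foldl (fun π' o => π'.switch1 o.1 o.2) π

/-- the four endpoints `u, v, x, y` of a switch -/
def s8Ends (o : Stub n d × Stub n d) : List (Fin n) := [o.1.1, π.oth o.1, o.2.1, π.oth o.2]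

/-- all endpoints are distinct and the inserted edges `{u,y}`, `{x,v}` are absent -/
def s8Valid (l : List (Stub n d × Stub n d)) : Prop :=
  (l.flatMap π.s8Ends).Nodup ∧
    ∀ o ∈ l, π.acount o.1.1 (π.oth o.2) = 0 ∧ π.acount o.2.1 (π.oth o.1) = 0

instance (l : List (Stub n d × Stub n d)) : Decidable (π.s8Valid l) := by
  unfold s8Valid; infer_instance

/-- the final test (integers written as rationals) -/
def s8Test : Prop :=
  Matrix.trace ((π.adjM ℚ) ^ (2 * n)) - (d : ℚ) ^ (2 * n) < (4 * ((d : ℚ) - 1)) ^ n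

instance : Decidable π.s8Test := by unfold s8Test; infer_instance

section Alg

variable {K : Type*} [Field K]

/-- `(z - σ A)⁻¹` on `1^⊥`, zero on constants, `σ = sgn b` -/
noncomputable def s8Res (b : Bool) (z : K) : Matrix (Fin n) (Fin n) K :=
  invOn1 (z • (1 : Matrix (Fin n) (Fin n) K) - (sgn b : K) • π.adjM K)

/-- the tilt weight `Ψ = (z - σ A)⁻²` on `1^⊥` -/
noncomputable def s8Psi (b : Bool) (z : K) : Matrix (Fin n) (Fin n) K := π.s8Res b z * π.s8Res b z

/-- the tilt `-κ ∑_τ ∑_{r,t} (K̃_τ)_{rt} Ψ_τ(g_r, j_t)`, `K̃_τ = [[-sA, τ d],[τ d, -sA]]/(d-2)` -/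
noncomputable def s8Br (par : S8Par K) (g j : Stub n d) : K :=
  -par.kap * ∑ b : Bool,
    (-par.sA * (π.s8Psi b par.zT g.1 j.1 + π.s8Psi b par.zT (π.oth g) (π.oth j))
      + (sgn b : K) * (d : K) * (π.s8Psi b par.zT g.1 (π.oth j) + π.s8Psi b par.zT (π.oth g) j.1))
      / ((d : K) - 2)

variable [LinearOrder K]

/-- the stub `g` is accepted: for both signs the endpoint block of the resolvent at `zB` is within `thr` of the tree block
`[[sA/2, σ],[σ, sA/2]]/(d-2)` -/
def s8Acc (par : S8Par K) (g : Stub n d) : Prop :=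
  ∀ b : Bool,
    |π.s8Res b par.zB g.1 g.1 - par.sA / (2 * ((d : K) - 2))| ≤ par.thr ∧
    |π.s8Res b par.zB (π.oth g) (π.oth g) - par.sA / (2 * ((d : K) - 2))| ≤ par.thr ∧
    |π.s8Res b par.zB g.1 (π.oth g) - (sgn b : K) / ((d : K) - 2)| ≤ par.thr

noncomputable instance (par : S8Par K) (g : Stub n d) : Decidable (π.s8Acc par g) := by
  unfold s8Acc; infer_instance

/-- the pair `o` is active at level `lvl` for the modulus `P` -/
def s8Active (par : S8Par K) (P lvl : ℕ) (o : Stub n d × Stub n d) : Prop :=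
  π.s8Acc par o.1 ∧ π.s8Acc par o.2 ∧
    (lvl : K) + 1 ≤ ((P / ((n * d) * (n * d)) : ℕ) : K) * (1 + π.s8Br par o.1 o.2) / 2

noncomputable instance (par : S8Par K) (P lvl : ℕ) (o : Stub n d × Stub n d) :
    Decidable (π.s8Active par P lvl o) := by
  unfold s8Active; infer_instance

/-- outcome of the residue `ρ`: `none` = void draw -/
noncomputable def s8Out (par : S8Par K) (P ρ : ℕ) : Option (Stub n d × Stub n d) :=
  (s8Dec n d (ρ % ((n * d) * (n * d)))).bind fun o =>
    if π.s8Active par P (ρ / ((n * d) * (n * d))) o then some o else none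

/-- the `r`-th draw of the seed `(P, γ, β)` -/
noncomputable def s8Draw (par : S8Par K) (P γ β r : ℕ) : Option (Stub n d × Stub n d) :=
  π.s8Out par P ((γ * r + β) % P)

/-- the active draws of a seed, `r = 1, …, M` -/
noncomputable def s8Acts (par : S8Par K) (P γ β : ℕ) : List (Stub n d × Stub n d) :=
  (List.range par.M).filterMap fun r => π.s8Draw par P γ β (r + 1)

/-- the candidate of a seed -/
noncomputable def s8Cand (par : S8Par K) (P γ β : ℕ) : PPair n d :=
  if π.s8Valid (π.s8Acts par P γ β) then π.s8Switch (π.s8Acts par P γ β) else π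

/-- all candidates, in a fixed order -/
noncomputable def s8Cands (par : S8Par K) : List (PPair n d) :=
  (List.range (par.NP + 1)).flatMap fun i =>
    (List.range (par.NP + i)).flatMap fun γ =>
      (List.range (par.NP + i)).map fun β => π.s8Cand par (par.NP + i) γ β

end Alg

/-- THE REPAIR ALGORITHM: the first candidate which passes the test -/
noncomputable def s8Repair (par : S8Par ℚ) : PPair n d :=
  ((π.s8Cands par).find? fun π' => decide π'.s8Test).getD π

/-! ## 3. Objects of the analysis -/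

/-- `B = A - d J / n` -/
noncomputable def s8B : Matrix (Fin n) (Fin n) ℝ := π.adjM ℝ - (d : ℝ) • J1 ℝ n

/-- the linear functional `f ↦ ⟨(e_u - e_x) + ε σ (e_v - e_y), f⟩` (`σ = sgn b`, `ε = sgn c`) of the switch `o = (g, j)` -/
noncomputable def s8A (b c : Bool) (o : Stub n d × Stub n d) (f : Fin n → ℝ) : ℝ :=
  (f o.1.1 - f o.2.1) + (sgn c : ℝ) * sgn b * (f (π.oth o.1) - f (π.oth o.2))

end PPair

/-- `s = 2 √(d-1)` -/
noncomputable def s8s (d : ℕ) : ℝ := 2 * Real.sqrt ((d : ℝ) - 1)

/-- eigenvalues of `K_σ`: `k_+ = (√q-1)/(√q+1)` on `(1,σ)`, `k_- = -(√q+1)/(√q-1)` on `(1,-σ)` -/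
noncomputable def s8k (d : ℕ) (c : Bool) : ℝ :=
  if c then (Real.sqrt ((d : ℝ) - 1) - 1) / (Real.sqrt ((d : ℝ) - 1) + 1)
  else -((Real.sqrt ((d : ℝ) - 1) + 1) / (Real.sqrt ((d : ℝ) - 1) - 1))

/-- ideal value of `ũᵀ R_B ũ` for the rotated (unnormalised) columns: `4/(√q-1)` and `4/(√q+1)` -/
noncomputable def s8g (d : ℕ) (c : Bool) : ℝ :=
  if c then 4 / (Real.sqrt ((d : ℝ) - 1) - 1) else 4 / (Real.sqrt ((d : ℝ) - 1) + 1)

/-- an orthonormal eigensystem of a real matrix -/
structure S8Eig {n : ℕ} (B : Matrix (Fin n) (Fin n) ℝ) where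
  lam : Fin n → ℝ
  vec : Fin n → Fin n → ℝ
  orth : ∀ i k, ∑ p, vec i p * vec k p = if i = k then 1 else 0
  eig : ∀ i, B *ᵥ vec i = lam i • vec i

namespace S8Eig

variable {n : ℕ} {B : Matrix (Fin n) (Fin n) ℝ} (E : S8Eig B)

/-- signed slack `x_i^σ = s - σ λ_i` -/
noncomputable def x (d : ℕ) (b : Bool) (i : Fin n) : ℝ := s8s d - sgn b * E.lam i

/-- the vector `∑_i ξ_i v_i` -/
def comb (ξ : Fin n → ℝ) : Fin n → ℝ := fun p => ∑ i, ξ i * E.vec i p

/-- the bulk reciprocal `R_B = ∑_{x_i ≥ w} v_i v_iᵀ / x_i` -/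
noncomputable def RB (d : ℕ) (b : Bool) (w : ℝ) : Matrix (Fin n) (Fin n) ℝ := fun p p' =>
  ∑ i, if E.x d b i < w then 0 else E.vec i p * E.vec i p' / E.x d b i

end S8Eig

end Claimed.Agent.R275
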