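import Claimed.Agent.R275.S8Defs

/-!
# Row 275, Sec 8, package DET: elimination of the bulk in eigen-coordinates (replaces Step 1 + Step 5 of Thm 8.3:
no inertia, no Schur complement, no Woodbury, no inverse of `S_B`).     Statements: helper118.  ONE OWNER.

Abstract setting: modes `i : ι` with slacks `x i`, split into near / bulk (`w ≤ x i` on the bulk); columns `k : κ` with
eigen-coordinates `U i k`, signs/weights `c k`; the new form is `∑ x_i α_i² + ∑_k c_k (∑_i U_ik α_i)²`.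
`G = Uᵀ R_B U` satisfies `zᵀ G z ≤ ∑ g_k z_k² + δ |z|²`.
PROOF of `s8_det_abs`.  Put `a_k = ∑_near U_ik α_i`, `b_k = ∑_bulk U_ik α_i`, `z_k = b_k / g_k`, `β_i = ∑_k U_ik z_k`.
For a bulk mode `x_i α_i² ≥ 2 α_i β_i - β_i²/x_i` (square), so `∑_bulk x_i α_i² ≥ θ w ∑_bulk α_i² + (1-θ)(2 ∑ z_k b_k - zᵀGz)
≥ θ w ∑_bulk α_i² + ∑_k γ_k b_k²`, `γ_k = (1-θ)(1/g_k - δ/g_k²)`.  Then `s8_scalar` for every `k`.
-/

set_option autoImplicit false

namespace Claimed.Agent.R275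

/-- `γ b² + c (a+b)² - c γ a²/(γ+c) = (γ+c) (b + c a/(γ+c))²` -/
theorem s8_scalar (γ c a b : ℝ) (h : 0 < γ + c) :
    c * γ / (γ + c) * a ^ 2 ≤ γ * b ^ 2 + c * (a + b) ^ 2 := by
  rw [div_mul_eq_mul_div, div_le_iff₀ h]
  nlinarith [sq_nonneg ((γ + c) * b + c * a)]

/-- abstract elimination of the bulk -/
theorem s8_det_abs {ι κ : Type*} [Fintype ι] [Fintype κ] (x : ι → ℝ) (near : ι → Prop)
    [DecidablePred near] (U : ι → κ → ℝ) (c g : κ → ℝ) (w θ δ : ℝ) (hw : 0 < w) (hθ0 : 0 ≤ θ)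
    (hθ1 : θ ≤ 1) (hg : ∀ k, 0 < g k) (hbulk : ∀ i, ¬ near i → w ≤ x i)
    (hG : ∀ z : κ → ℝ, ∑ i, (if near i then 0 else (∑ k, U i k * z k) ^ 2 / x i) ≤
      ∑ k, g k * z k ^ 2 + δ * ∑ k, z k ^ 2)
    (hγ : ∀ k, 0 < (1 - θ) * (1 / g k - δ / g k ^ 2) + c k) (α : ι → ℝ) :
    ∑ i, (if near i then x i * α i ^ 2 else θ * w * α i ^ 2)
      + ∑ k, c k * ((1 - θ) * (1 / g k - δ / g k ^ 2)) / ((1 - θ) * (1 / g k - δ / g k ^ 2) + c k) *
          (∑ i, if near i then U i k * α i else 0) ^ 2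
      ≤ ∑ i, x i * α i ^ 2 + ∑ k, c k * (∑ i, U i k * α i) ^ 2 := by
  set a : κ → ℝ := fun k => ∑ i, if near i then U i k * α i else 0 with ha
  set b : κ → ℝ := fun k => ∑ i, if near i then 0 else U i k * α i with hb
  set z : κ → ℝ := fun k => b k / g k with hz
  set β : ι → ℝ := fun i => ∑ k, U i k * z k with hβ
  set γ : κ → ℝ := fun k => (1 - θ) * (1 / g k - δ / g k ^ 2) with hγdef
  have hab : ∀ k, ∑ i, U i k * α i = a k + b k := by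
    intro k
    rw [ha, hb]
    simp only
    rw [← Finset.sum_add_distrib]
    refine Finset.sum_congr rfl fun i _ => ?_
    split_ifs <;> simp
  -- the bulk modes
  have h1 : ∀ i, (if near i then 0 else 2 * α i * β i - β i ^ 2 / x i) ≤ if near i then 0 else x i * α i ^ 2 := by
    intro i
    by_cases hi : near i
    · simp [hi]
    · simp only [if_neg hi]
      have hx : 0 < x i := lt_of_lt_of_le hw (hbulk i hi)
      obtain ⟨t, ht⟩ : ∃ t, β i = t * x i := ⟨β i / x i, by field_simp⟩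
      rw [ht]
      have h2 : (t * x i) ^ 2 / x i = t ^ 2 * x i := by field_simp
      rw [h2]
      nlinarith [mul_nonneg hx.le (sq_nonneg (α i - t))]
  have h3 : ∑ i, (if near i then 0 else 2 * α i * β i - β i ^ 2 / x i) =
      2 * ∑ k, z k * b k - ∑ i, (if near i then 0 else β i ^ 2 / x i) := by
    have e1 : ∑ k, z k * b k = ∑ i, if near i then 0 else α i * β i := by
      rw [hb, hβ]
      simp only [Finset.mul_sum]
      rw [Finset.sum_comm]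
      refine Finset.sum_congr rfl fun i _ => ?_
      by_cases hi : near i
      · simp [hi]
      · simp only [if_neg hi]
        exact Finset.sum_congr rfl fun k _ => by ring
    rw [e1, Finset.mul_sum, ← Finset.sum_sub_distrib]
    refine Finset.sum_congr rfl fun i _ => ?_
    split_ifs <;> ring
  have h4 : ∑ k, (1 / g k - δ / g k ^ 2) * b k ^ 2 ≤
      2 * ∑ k, z k * b k - ∑ i, (if near i then 0 else β i ^ 2 / x i) := by
    have h5 := hG z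
    have e2 : ∑ k, (1 / g k - δ / g k ^ 2) * b k ^ 2 =
        2 * ∑ k, z k * b k - (∑ k, g k * z k ^ 2 + δ * ∑ k, z k ^ 2) := by
      rw [Finset.mul_sum, Finset.mul_sum, ← Finset.sum_add_distrib, ← Finset.sum_sub_distrib]
      refine Finset.sum_congr rfl fun k _ => ?_
      have := (hg k).ne'
      rw [hz]
      field_simp
      ring
    rw [e2]
    linarith
  have h6 : ∑ k, (1 / g k - δ / g k ^ 2) * b k ^ 2 ≤ ∑ i, if near i then 0 else x i * α i ^ 2 := by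
    rw [← h3] at h4
    exact h4.trans (Finset.sum_le_sum fun i _ => h1 i)
  have h7 : θ * ∑ i, (if near i then 0 else w * α i ^ 2) ≤ θ * ∑ i, if near i then 0 else x i * α i ^ 2 := by
    refine mul_le_mul_of_nonneg_left (Finset.sum_le_sum fun i _ => ?_) hθ0
    by_cases hi : near i
    · simp [hi]
    · simp only [if_neg hi]
      exact mul_le_mul_of_nonneg_right (hbulk i hi) (sq_nonneg _)
  have h8 : ∑ k, γ k * b k ^ 2 ≤ (1 - θ) * ∑ i, if near i then 0 else x i * α i ^ 2 := by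
    have : ∑ k, γ k * b k ^ 2 = (1 - θ) * ∑ k, (1 / g k - δ / g k ^ 2) * b k ^ 2 := by
      rw [Finset.mul_sum]
      exact Finset.sum_congr rfl fun k _ => by rw [hγdef]; ring
    rw [this]
    exact mul_le_mul_of_nonneg_left h6 (by linarith)
  have h9 : ∑ k, c k * γ k / (γ k + c k) * a k ^ 2 ≤ ∑ k, (γ k * b k ^ 2 + c k * (a k + b k) ^ 2) :=
    Finset.sum_le_sum fun k _ => s8_scalar (γ k) (c k) (a k) (b k) (hγ k)
  rw [Finset.sum_add_distrib] at h9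
  have e3 : ∑ i, (if near i then x i * α i ^ 2 else θ * w * α i ^ 2) =
      ∑ i, (if near i then x i * α i ^ 2 else 0) + θ * ∑ i, (if near i then 0 else w * α i ^ 2) := by
    rw [Finset.mul_sum, ← Finset.sum_add_distrib]
    refine Finset.sum_congr rfl fun i _ => ?_
    split_ifs <;> ring
  have e4 : ∑ i, x i * α i ^ 2 =
      ∑ i, (if near i then x i * α i ^ 2 else 0) + ∑ i, (if near i then 0 else x i * α i ^ 2) := by
    rw [← Finset.sum_add_distrib]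
    refine Finset.sum_congr rfl fun i _ => ?_
    split_ifs <;> ring
  simp only [hab]
  rw [e3, e4]
  linarith

/-- smallness threshold for `θ + δ`:  `8 (γ₀ + γ₀²)/(√q - 1)`, `γ₀ = (√q+1)/4` -/
noncomputable def s8Csm (d : ℕ) : ℝ :=
  8 * ((Real.sqrt ((d : ℝ) - 1) + 1) / 4 + ((Real.sqrt ((d : ℝ) - 1) + 1) / 4) ^ 2) /
    (Real.sqrt ((d : ℝ) - 1) - 1)

/-- loss constant:  `8 (γ₀ + γ₀²)/(√q - 1)² + (γ₀ + γ₀²)` -/
noncomputable def s8Cdet (d : ℕ) : ℝ :=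
  8 * ((Real.sqrt ((d : ℝ) - 1) + 1) / 4 + ((Real.sqrt ((d : ℝ) - 1) + 1) / 4) ^ 2) /
    (Real.sqrt ((d : ℝ) - 1) - 1) ^ 2
  + ((Real.sqrt ((d : ℝ) - 1) + 1) / 4 + ((Real.sqrt ((d : ℝ) - 1) + 1) / 4) ^ 2)

/-- `1 < √q` -/
theorem s8_one_lt_sqrt (d : ℕ) (hd : 3 ≤ d) : 1 < Real.sqrt ((d : ℝ) - 1) := by
  have h : (3 : ℝ) ≤ d := by exact_mod_cast hd
  rw [Real.lt_sqrt (by norm_num)]
  linarith

theorem s8Csm_pos (d : ℕ) (hd : 3 ≤ d) : 0 < s8Csm d := by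
  have hs := s8_one_lt_sqrt d hd
  unfold s8Csm
  have : 0 < Real.sqrt ((d : ℝ) - 1) - 1 := by linarith
  positivity

theorem s8Cdet_pos (d : ℕ) (hd : 3 ≤ d) : 0 < s8Cdet d := by
  have hs := s8_one_lt_sqrt d hd
  unfold s8Cdet
  have : 0 < Real.sqrt ((d : ℝ) - 1) - 1 := by linarith
  positivity

theorem s8g_pos (d : ℕ) (hd : 3 ≤ d) (ε : Bool) : 0 < s8g d ε := by
  have hs := s8_one_lt_sqrt d hd
  unfold s8g
  have : 0 < Real.sqrt ((d : ℝ) - 1) - 1 := by linarith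
  split_ifs <;> positivity

/-- perturbation of `1/(4u)` -/
theorem s8_det_aux (u₀ u B m : ℝ) (hm : 0 < m) (hmu : m ≤ u) (hu₀ : 0 < u₀) (hB : u₀ - u ≤ B) (hB0 : 0 ≤ B) :
    1 / (4 * u) ≤ 1 / (4 * u₀) + B / (4 * m * u₀) := by
  have hu : 0 < u := lt_of_lt_of_le hm hmu
  have h1 : 1 / (4 * u) - 1 / (4 * u₀) = (u₀ - u) / (4 * u * u₀) := by
    field_simp
  have h2 : (u₀ - u) / (4 * u * u₀) ≤ B / (4 * u * u₀) := div_le_div_of_nonneg_right hB (by positivity)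
  have h3 : B / (4 * u * u₀) ≤ B / (4 * m * u₀) :=
    div_le_div_of_nonneg_left hB0 (by positivity) (by nlinarith)
  linarith

theorem s8_half_div_pos (u : ℝ) (hu : u ≠ 0) : 1 / 2 * (u - 1 / 2) / u = 1 / 2 - 1 / (4 * u) := by
  field_simp
  ring

theorem s8_half_div_neg (u : ℝ) (hu : u ≠ 0) : -1 / 2 * (u + 1 / 2) / u = -1 / 2 - 1 / (4 * u) := by
  field_simp
  ring

/-- the real-variable form of `s8_det_const`, sign `+` -/
theorem s8_det_const_pos (s θ δ : ℝ) (hs : 1 < s) (hθ0 : 0 ≤ θ) (hθ1 : θ ≤ 1) (hδ : 0 ≤ δ)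
    (hsm : (θ + δ) * ((s + 1) / 4 + ((s + 1) / 4) ^ 2) ≤ (s - 1) / 8) :
    0 < (1 - θ) * ((s - 1) / 4 - δ * ((s - 1) / 4) ^ 2) + 1 / 2 ∧
    (s - 1) / (s + 1) / 2 - ((s + 1) / 4 + ((s + 1) / 4) ^ 2) * (θ + δ) ≤
      1 / 2 * ((1 - θ) * ((s - 1) / 4 - δ * ((s - 1) / 4) ^ 2)) /
        ((1 - θ) * ((s - 1) / 4 - δ * ((s - 1) / 4) ^ 2) + 1 / 2) := by
  set T : ℝ := (s + 1) / 4 + ((s + 1) / 4) ^ 2 with hT
  set γ₁ : ℝ := (s - 1) / 4 with hγ₁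
  set γ : ℝ := (1 - θ) * (γ₁ - δ * γ₁ ^ 2) with hγ
  have hγ₁0 : 0 < γ₁ := by rw [hγ₁]; linarith
  have hT1 : γ₁ ≤ T := by rw [hγ₁, hT]; nlinarith [sq_nonneg ((s + 1) / 4)]
  have hT2 : γ₁ ^ 2 ≤ T := by
    rw [hγ₁, hT]
    nlinarith
  have hB : γ₁ - γ ≤ (θ + δ) * T := by
    have e : γ₁ - γ = θ * γ₁ + (1 - θ) * (δ * γ₁ ^ 2) := by rw [hγ]; ring
    rw [e]
    have h1 : θ * γ₁ ≤ θ * T := mul_le_mul_of_nonneg_left hT1 hθ0
    have h2 : (1 - θ) * (δ * γ₁ ^ 2) ≤ δ * γ₁ ^ 2 := by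
      have : 0 ≤ δ * γ₁ ^ 2 := by positivity
      nlinarith
    have h3 : δ * γ₁ ^ 2 ≤ δ * T := mul_le_mul_of_nonneg_left hT2 hδ
    linarith
  have hT0 : 0 < T := lt_of_lt_of_le hγ₁0 hT1
  have hB0 : 0 ≤ (θ + δ) * T := by positivity
  have hu : 1 / 2 ≤ γ + 1 / 2 := by
    have : γ₁ - (s - 1) / 8 ≤ γ := by linarith
    rw [hγ₁] at this
    linarith
  refine ⟨by linarith, ?_⟩
  have haux := s8_det_aux (γ₁ + 1 / 2) (γ + 1 / 2) ((θ + δ) * T) (1 / 2) (by norm_num) hu (by linarith)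
    (by linarith) hB0
  have hupos : 0 < γ + 1 / 2 := by linarith
  have e1 : 1 / 2 * γ / (γ + 1 / 2) = 1 / 2 - 1 / (4 * (γ + 1 / 2)) := by
    have := s8_half_div_pos (γ + 1 / 2) hupos.ne'
    rwa [add_sub_cancel_right] at this
  have e2 : (s - 1) / (s + 1) / 2 = 1 / 2 - 1 / (4 * (γ₁ + 1 / 2)) := by
    have e : 4 * (γ₁ + 1 / 2) = s + 1 := by rw [hγ₁]; ring
    rw [e]
    have : s + 1 ≠ 0 := by linarith
    field_simp
    ring
  have h4 : (θ + δ) * T / (4 * (1 / 2) * (γ₁ + 1 / 2)) ≤ (θ + δ) * T := by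
    rw [div_le_iff₀ (by linarith)]
    nlinarith
  rw [e1, e2]
  linarith

/-- the real-variable form of `s8_det_const`, sign `-` -/
theorem s8_det_const_neg (s θ δ : ℝ) (hs : 1 < s) (hθ0 : 0 ≤ θ) (hθ1 : θ ≤ 1) (hδ : 0 ≤ δ)
    (hsm : (θ + δ) * ((s + 1) / 4 + ((s + 1) / 4) ^ 2) ≤ (s - 1) / 8) :
    0 < (1 - θ) * ((s + 1) / 4 - δ * ((s + 1) / 4) ^ 2) + -1 / 2 ∧
    -((s + 1) / (s - 1)) / 2 - 8 * ((s + 1) / 4 + ((s + 1) / 4) ^ 2) / (s - 1) ^ 2 * (θ + δ) ≤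
      -1 / 2 * ((1 - θ) * ((s + 1) / 4 - δ * ((s + 1) / 4) ^ 2)) /
        ((1 - θ) * ((s + 1) / 4 - δ * ((s + 1) / 4) ^ 2) + -1 / 2) := by
  set γ₀ : ℝ := (s + 1) / 4 with hγ₀
  set T : ℝ := γ₀ + γ₀ ^ 2 with hT
  set γ : ℝ := (1 - θ) * (γ₀ - δ * γ₀ ^ 2) with hγ
  have hγ₀0 : 0 < γ₀ := by rw [hγ₀]; linarith
  have hT1 : γ₀ ≤ T := by rw [hT]; nlinarith [sq_nonneg γ₀]
  have hT2 : γ₀ ^ 2 ≤ T := by rw [hT]; linarith
  have hB : γ₀ - γ ≤ (θ + δ) * T := by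
    have e : γ₀ - γ = θ * γ₀ + (1 - θ) * (δ * γ₀ ^ 2) := by rw [hγ]; ring
    rw [e]
    have h1 : θ * γ₀ ≤ θ * T := mul_le_mul_of_nonneg_left hT1 hθ0
    have h2 : (1 - θ) * (δ * γ₀ ^ 2) ≤ δ * γ₀ ^ 2 := by
      have : 0 ≤ δ * γ₀ ^ 2 := by positivity
      nlinarith
    have h3 : δ * γ₀ ^ 2 ≤ δ * T := mul_le_mul_of_nonneg_left hT2 hδ
    linarith
  have hT0 : 0 < T := lt_of_lt_of_le hγ₀0 hT1
  have hB0 : 0 ≤ (θ + δ) * T := by positivity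
  have hs1 : 0 < s - 1 := by linarith
  have hu : (s - 1) / 8 ≤ γ + -1 / 2 := by
    have : γ₀ - (s - 1) / 8 ≤ γ := by linarith
    rw [hγ₀] at this
    linarith
  have hupos : 0 < γ + -1 / 2 := by linarith
  refine ⟨hupos, ?_⟩
  have hu₀ : γ₀ + -1 / 2 = (s - 1) / 4 := by rw [hγ₀]; ring
  have haux := s8_det_aux (γ₀ + -1 / 2) (γ + -1 / 2) ((θ + δ) * T) ((s - 1) / 8) (by linarith) hu
    (by rw [hu₀]; linarith) (by linarith) hB0
  have e1 : -1 / 2 * γ / (γ + -1 / 2) = -1 / 2 - 1 / (4 * (γ + -1 / 2)) := by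
    have := s8_half_div_neg (γ + -1 / 2) hupos.ne'
    have e : γ + -1 / 2 + 1 / 2 = γ := by ring
    rwa [e] at this
  have hs1' : s - 1 ≠ 0 := hs1.ne'
  have e2 : -((s + 1) / (s - 1)) / 2 = -1 / 2 - 1 / (4 * (γ₀ + -1 / 2)) := by
    have e : 4 * (γ₀ + -1 / 2) = s - 1 := by rw [hu₀]; ring
    rw [e]
    field_simp
    ring
  have e3 : (θ + δ) * T / (4 * ((s - 1) / 8) * (γ₀ + -1 / 2)) = 8 * T / (s - 1) ^ 2 * (θ + δ) := by
    rw [hu₀]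
    generalize s - 1 = v at hs1' ⊢
    field_simp
  rw [e3] at haux
  rw [e1, e2]
  linarith

/-- the constants of the rotated switch columns: `c = ±1/2`, `g = s8g`; at `θ = δ = 0` one gets exactly `k_±/2`.
With `γ₀ = 1/g`: `c γ₀/(γ₀+c) - c γ/(γ+c) = c² (γ₀-γ)/((γ₀+c)(γ+c))`, `γ₀ - γ ≤ θ γ₀ + δ γ₀²`.
(checked numerically for d = 3,4,5,10,100,1000) -/
theorem s8_det_const (d : ℕ) (hd : 3 ≤ d) (ε : Bool) (θ δ : ℝ) (hθ0 : 0 ≤ θ) (hθ1 : θ ≤ 1)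
    (hδ : 0 ≤ δ) (hsm : (θ + δ) * s8Csm d ≤ 1) :
    0 < (1 - θ) * (1 / s8g d ε - δ / s8g d ε ^ 2) + (sgn ε : ℝ) / 2 ∧
    s8k d ε / 2 - s8Cdet d * (θ + δ) ≤
      (sgn ε : ℝ) / 2 * ((1 - θ) * (1 / s8g d ε - δ / s8g d ε ^ 2)) /
        ((1 - θ) * (1 / s8g d ε - δ / s8g d ε ^ 2) + (sgn ε : ℝ) / 2) := by
  have hs := s8_one_lt_sqrt d hd
  unfold s8Csm at hsm
  unfold s8Cdet s8g s8k
  generalize Real.sqrt ((d : ℝ) - 1) = s at hs hsm ⊢
  have hs1 : 0 < s - 1 := by linarith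
  have hsm' : (θ + δ) * ((s + 1) / 4 + ((s + 1) / 4) ^ 2) ≤ (s - 1) / 8 := by
    have e : (θ + δ) * (8 * ((s + 1) / 4 + ((s + 1) / 4) ^ 2) / (s - 1)) =
        (θ + δ) * ((s + 1) / 4 + ((s + 1) / 4) ^ 2) * 8 / (s - 1) := by ring
    rw [e, div_le_one hs1] at hsm
    linarith
  have hT0 : 0 ≤ ((s + 1) / 4 + ((s + 1) / 4) ^ 2) * (θ + δ) := by positivity
  have hT1 : 0 ≤ 8 * ((s + 1) / 4 + ((s + 1) / 4) ^ 2) / (s - 1) ^ 2 * (θ + δ) := by positivity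
  cases ε with
  | true =>
    have h := s8_det_const_pos s θ δ hs hθ0 hθ1 hδ hsm'
    have e1 : (1 : ℝ) / (4 / (s - 1)) = (s - 1) / 4 := by field_simp
    have e2 : δ / (4 / (s - 1)) ^ 2 = δ * ((s - 1) / 4) ^ 2 := by field_simp
    simp only [sgn, if_true, e1, e2]
    refine ⟨h.1, le_trans ?_ h.2⟩
    linarith
  | false =>
    have h := s8_det_const_neg s θ δ hs hθ0 hθ1 hδ hsm'
    have e1 : (1 : ℝ) / (4 / (s + 1)) = (s + 1) / 4 := by field_simp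
    have e2 : δ / (4 / (s + 1)) ^ 2 = δ * ((s + 1) / 4) ^ 2 := by field_simp
    simp only [sgn, Bool.false_eq_true, if_false, e1, e2]
    refine ⟨h.1, le_trans ?_ h.2⟩
    linarith

/-- **DET**, the form used by the assembly: columns indexed by (switch, rotation sign). -/
theorem s8_det {ι S : Type*} [Fintype ι] [Fintype S] (d : ℕ) (hd : 3 ≤ d) (x : ι → ℝ)
    (near : ι → Prop) [DecidablePred near] (U : ι → S × Bool → ℝ) (w θ δ : ℝ) (hw : 0 < w)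
    (hθ0 : 0 ≤ θ) (hθ1 : θ ≤ 1) (hδ : 0 ≤ δ) (hsm : (θ + δ) * s8Csm d ≤ 1)
    (hbulk : ∀ i, ¬ near i → w ≤ x i)
    (hG : ∀ z : S × Bool → ℝ, ∑ i, (if near i then 0 else (∑ k, U i k * z k) ^ 2 / x i) ≤
      ∑ k, s8g d k.2 * z k ^ 2 + δ * ∑ k, z k ^ 2) (α : ι → ℝ) :
    ∑ i, (if near i then x i * α i ^ 2 else θ * w * α i ^ 2)
      + ∑ k : S × Bool, s8k d k.2 / 2 * (∑ i, if near i then U i k * α i else 0) ^ 2
      - s8Cdet d * (θ + δ) * ∑ k : S × Bool, (∑ i, if near i then U i k * α i else 0) ^ 2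
      ≤ ∑ i, x i * α i ^ 2 + ∑ k : S × Bool, (sgn k.2 : ℝ) / 2 * (∑ i, U i k * α i) ^ 2 := by
  have h := s8_det_abs x near U (fun k => (sgn k.2 : ℝ) / 2) (fun k => s8g d k.2) w θ δ hw hθ0 hθ1
    (fun k => s8g_pos d hd k.2) hbulk hG (fun k => (s8_det_const d hd k.2 θ δ hθ0 hθ1 hδ hsm).1) α
  refine le_trans ?_ h
  rw [add_sub_assoc, Finset.mul_sum, ← Finset.sum_sub_distrib]
  refine add_le_add le_rfl (Finset.sum_le_sum fun k _ => ?_)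
  rw [← sub_mul]
  exact mul_le_mul_of_nonneg_right (s8_det_const d hd k.2 θ δ hθ0 hθ1 hδ hsm).2 (sq_nonneg _)

end Claimed.Agent.R275
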