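import Claimed.Agent.R275.S8Mean

/-!
# Row 275, Sec 8, package FLUCT: fluctuations of the near correction (replaces the matrix Bernstein / Chebyshev part of Step 7).
Statements: helper118.  ONE OWNER.  No paper.  Uses INDEP (`s8_second_moment_vec`, `s8_markov`), LAW (`s8_law_sum`), SPEC (`s8_mass`), MEAN.

For a draw `oo` put `a_c(i) = s8AO b c oo (v_i)` for near `i`, `0` otherwise; `Hm = ∑_c (k_c/2) a_c a_cᵀ`, `Ym = ∑_c a_c a_cᵀ`.
`∑_c |a_c|² = ∑_{i near} [2 (v_i(u)-v_i(x))² + 2 (v_i(v)-v_i(y))²] ≤ 4 ∑_{i near} (v_i(u)² + v_i(x)² + v_i(v)² + v_i(y)²) ≤ 16 mN`, so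
`‖Ym‖_F ≤ 16 mN`, `‖Hm‖_F ≤ (kmax/2) 16 mN = hsup`.   For `ξ` supported on the near modes `s8H b oo (comb ξ) = ξᵀ Hm ξ`.
Second moment (pairwise independence) + Markov at the level `t²`:  the number of seeds with `‖∑_r (Hm(draw_r) - mean)‖_F² > t²` is
`≤ P² M hsup²/t²`; on the other seeds `|ξᵀ D ξ| ≤ ‖D‖_F |ξ|² ≤ t |ξ|²`.   E1: `t = e/10`.   E2: `t = M/n`, mean `≤ 8M/n` (`s8_meanY`).
-/

set_option autoImplicit false

namespace Claimed.Agent.R275

open Matrix Finset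

namespace PPair

variable {n d : ℕ} (π : PPair n d) (par : S8Par ℝ) (P : ℕ) (E : S8Eig π.s8B)

/-- near part of the eigen-coordinates of a rotated column -/
noncomputable def s8Col (b c : Bool) (oo : Option (Stub n d × Stub n d)) (i : Fin n) : ℝ :=
  if E.x d b i < par.wB d then π.s8AO b c oo (E.vec i) else 0

/-- the matrix of `H` on the near modes -/
noncomputable def s8Hm (b : Bool) (oo : Option (Stub n d × Stub n d)) (ik : Fin n × Fin n) : ℝ :=
  ∑ c : Bool, s8k d c / 2 * (π.s8Col par E b c oo ik.1 * π.s8Col par E b c oo ik.2)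

/-- the matrix of `Y` on the near modes -/
noncomputable def s8Ym (b : Bool) (oo : Option (Stub n d × Stub n d)) (ik : Fin n × Fin n) : ℝ :=
  ∑ c : Bool, π.s8Col par E b c oo ik.1 * π.s8Col par E b c oo ik.2

/-- bad event 1: the near correction is far from its mean -/
def s8Bad1 (e : ℝ) (b : Bool) (ω : ℕ × ℕ) : Prop :=
  ¬ ∀ ξ : Fin n → ℝ, E.Supp d b (par.wB d) ξ →
    |∑ r ∈ range par.M, π.s8H b (π.s8Draw par P ω.1 ω.2 (r + 1)) (E.comb ξ)
        - par.M * ∑ o, π.s8Mu par P o * π.s8H b (some o) (E.comb ξ)| ≤ e / 10 * ∑ i, ξ i ^ 2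

/-- bad event 2: the near Gram matrix of the columns is large -/
def s8Bad2 (b : Bool) (ω : ℕ × ℕ) : Prop :=
  ¬ ∀ ξ : Fin n → ℝ, E.Supp d b (par.wB d) ξ →
    ∑ r ∈ range par.M, π.s8Y b (π.s8Draw par P ω.1 ω.2 (r + 1)) (E.comb ξ)
      ≤ 17 * par.M / n * ∑ i, ξ i ^ 2

variable {π par P E}

/-! ## (A) linear algebra -/

/-- linearity of the column functionals -/
theorem s8AO_comb (b c : Bool) (oo : Option (Stub n d × Stub n d)) (ξ : Fin n → ℝ) :
    π.s8AO b c oo (E.comb ξ) = ∑ i, ξ i * π.s8AO b c oo (E.vec i) := by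
  cases oo with
  | none => simp [s8AO]
  | some o =>
    simp only [s8AO, Option.elim, s8A, S8Eig.comb]
    rw [← Finset.sum_sub_distrib, ← Finset.sum_sub_distrib, Finset.mul_sum, ← Finset.sum_add_distrib]
    exact Finset.sum_congr rfl fun i _ => by ring

theorem s8AO_comb_near (b c : Bool) (oo : Option (Stub n d × Stub n d)) (ξ : Fin n → ℝ)
    (hξ : E.Supp d b (par.wB d) ξ) :
    π.s8AO b c oo (E.comb ξ) = ∑ i, ξ i * π.s8Col par E b c oo i := by
  rw [s8AO_comb]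
  refine Finset.sum_congr rfl fun i _ => ?_
  unfold s8Col
  by_cases hi : E.x d b i < par.wB d
  · rw [if_pos hi]
  · rw [if_neg hi, hξ i hi, zero_mul, zero_mul]

/-- the square of a linear form as a double sum -/
theorem s8fl_sq_sum (ξ a : Fin n → ℝ) :
    (∑ i, ξ i * a i) ^ 2 = ∑ ik : Fin n × Fin n, ξ ik.1 * ξ ik.2 * (a ik.1 * a ik.2) := by
  rw [sq, Finset.sum_mul_sum, Fintype.sum_prod_type]
  exact Finset.sum_congr rfl fun i _ => Finset.sum_congr rfl fun k _ => by ring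

theorem s8H_eq_Hm (b : Bool) (oo : Option (Stub n d × Stub n d)) (ξ : Fin n → ℝ)
    (hξ : E.Supp d b (par.wB d) ξ) :
    π.s8H b oo (E.comb ξ) = ∑ ik : Fin n × Fin n, ξ ik.1 * ξ ik.2 * π.s8Hm par E b oo ik := by
  unfold s8H s8Hm
  simp only [s8AO_comb_near (par := par) b _ oo ξ hξ, s8fl_sq_sum, Finset.mul_sum]
  rw [Finset.sum_comm]
  exact Finset.sum_congr rfl fun ik _ => Finset.sum_congr rfl fun c _ => by ring

theorem s8Y_eq_Ym (b : Bool) (oo : Option (Stub n d × Stub n d)) (ξ : Fin n → ℝ)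
    (hξ : E.Supp d b (par.wB d) ξ) :
    π.s8Y b oo (E.comb ξ) = ∑ ik : Fin n × Fin n, ξ ik.1 * ξ ik.2 * π.s8Ym par E b oo ik := by
  unfold s8Y s8Ym
  simp only [s8AO_comb_near (par := par) b _ oo ξ hξ, s8fl_sq_sum, Finset.mul_sum]
  rw [Finset.sum_comm]

/-- centring a sum of quadratic forms -/
theorem s8fl_center {Ω : Type*} [Fintype Ω] (ξ : Fin n → ℝ) (M : ℕ) (Zr : ℕ → Fin n × Fin n → ℝ) (μ : Ω → ℝ)
    (Zo : Ω → Fin n × Fin n → ℝ) :
    ∑ r ∈ range M, ∑ ik : Fin n × Fin n, ξ ik.1 * ξ ik.2 * Zr r ik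
        - M * ∑ o, μ o * ∑ ik : Fin n × Fin n, ξ ik.1 * ξ ik.2 * Zo o ik =
      ∑ ik : Fin n × Fin n, ξ ik.1 * ξ ik.2 * ∑ r ∈ range M, (Zr r ik - ∑ o, μ o * Zo o ik) := by
  have e1 : ∑ r ∈ range M, ∑ ik : Fin n × Fin n, ξ ik.1 * ξ ik.2 * Zr r ik =
      ∑ ik : Fin n × Fin n, ξ ik.1 * ξ ik.2 * ∑ r ∈ range M, Zr r ik := by
    rw [Finset.sum_comm]
    exact Finset.sum_congr rfl fun ik _ => (Finset.mul_sum _ _ _).symm
  have e2 : (M : ℝ) * ∑ o, μ o * ∑ ik : Fin n × Fin n, ξ ik.1 * ξ ik.2 * Zo o ik =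
      ∑ ik : Fin n × Fin n, ξ ik.1 * ξ ik.2 * (M * ∑ o, μ o * Zo o ik) := by
    simp only [Finset.mul_sum]
    rw [Finset.sum_comm]
    exact Finset.sum_congr rfl fun ik _ => Finset.sum_congr rfl fun o _ => by ring
  rw [e1, e2, ← Finset.sum_sub_distrib]
  refine Finset.sum_congr rfl fun ik _ => ?_
  rw [Finset.sum_sub_distrib, Finset.sum_const, card_range, nsmul_eq_mul]
  ring

/-- a quadratic form is bounded by the Frobenius norm -/
theorem s8_frob (D : Fin n × Fin n → ℝ) (t : ℝ) (ht : 0 ≤ t) (hD : ∑ ik, D ik ^ 2 ≤ t ^ 2)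
    (ξ : Fin n → ℝ) : |∑ ik : Fin n × Fin n, ξ ik.1 * ξ ik.2 * D ik| ≤ t * ∑ i, ξ i ^ 2 := by
  have hS : 0 ≤ ∑ i, ξ i ^ 2 := Finset.sum_nonneg fun i _ => sq_nonneg _
  refine abs_le_of_sq_le_sq ?_ (mul_nonneg ht hS)
  have h1 := Finset.sum_mul_sq_le_sq_mul_sq Finset.univ (fun ik : Fin n × Fin n => ξ ik.1 * ξ ik.2) D
  have h2 : ∑ ik : Fin n × Fin n, (ξ ik.1 * ξ ik.2) ^ 2 = (∑ i, ξ i ^ 2) ^ 2 := by
    rw [sq (∑ i, ξ i ^ 2), Finset.sum_mul_sum, Fintype.sum_prod_type]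
    exact Finset.sum_congr rfl fun i _ => Finset.sum_congr rfl fun k _ => by ring
  rw [h2] at h1
  calc _ ≤ (∑ i, ξ i ^ 2) ^ 2 * ∑ ik, D ik ^ 2 := h1
    _ ≤ (∑ i, ξ i ^ 2) ^ 2 * t ^ 2 := mul_le_mul_of_nonneg_left hD (sq_nonneg _)
    _ = (t * ∑ i, ξ i ^ 2) ^ 2 := by ring

/-- Frobenius norm of `∑_c w_c a_c a_cᵀ` -/
theorem s8_frob_rank (a : Bool → Fin n → ℝ) (w : Bool → ℝ) (W m : ℝ) (hw : ∀ c, |w c| ≤ W)
    (hm : ∑ c, ∑ i, a c i ^ 2 ≤ m) :
    ∑ ik : Fin n × Fin n, (∑ c, w c * (a c ik.1 * a c ik.2)) ^ 2 ≤ (W * m) ^ 2 := by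
  set At : ℝ := ∑ i, a true i ^ 2 with hAt
  set Af : ℝ := ∑ i, a false i ^ 2 with hAf
  set G : ℝ := ∑ i, a true i * a false i with hG
  have hAt0 : 0 ≤ At := Finset.sum_nonneg fun i _ => sq_nonneg _
  have hAf0 : 0 ≤ Af := Finset.sum_nonneg fun i _ => sq_nonneg _
  have hCS : G ^ 2 ≤ At * Af := Finset.sum_mul_sq_le_sq_mul_sq Finset.univ (a true) (a false)
  have hW0 : 0 ≤ W := le_trans (abs_nonneg _) (hw true)
  rw [Fintype.sum_bool] at hm
  have hid : ∑ ik : Fin n × Fin n, (∑ c, w c * (a c ik.1 * a c ik.2)) ^ 2 =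
      w true ^ 2 * At ^ 2 + 2 * (w true * w false) * G ^ 2 + w false ^ 2 * Af ^ 2 := by
    rw [Fintype.sum_prod_type]
    simp only [Fintype.sum_bool]
    rw [sq At, sq Af, sq G, hAt, hAf, hG, Finset.sum_mul_sum, Finset.sum_mul_sum, Finset.sum_mul_sum]
    simp only [Finset.mul_sum]
    rw [← Finset.sum_add_distrib, ← Finset.sum_add_distrib]
    refine Finset.sum_congr rfl fun i _ => ?_
    rw [← Finset.sum_add_distrib, ← Finset.sum_add_distrib]
    exact Finset.sum_congr rfl fun k _ => by ring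
  rw [hid]
  have h1 : w true * w false ≤ |w true| * |w false| := by
    rw [← abs_mul]; exact le_abs_self _
  have h2 : 2 * (w true * w false) * G ^ 2 ≤ 2 * (|w true| * |w false|) * (At * Af) := by
    have h3 : 2 * (w true * w false) * G ^ 2 ≤ 2 * (|w true| * |w false|) * G ^ 2 :=
      mul_le_mul_of_nonneg_right (by linarith) (sq_nonneg _)
    have h4 : 2 * (|w true| * |w false|) * G ^ 2 ≤ 2 * (|w true| * |w false|) * (At * Af) :=
      mul_le_mul_of_nonneg_left hCS (by positivity)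
    exact h3.trans h4
  have h5 : w true ^ 2 * At ^ 2 + 2 * (w true * w false) * G ^ 2 + w false ^ 2 * Af ^ 2 ≤
      (|w true| * At + |w false| * Af) ^ 2 := by
    have e1 : w true ^ 2 = |w true| ^ 2 := (sq_abs _).symm
    have e2 : w false ^ 2 = |w false| ^ 2 := (sq_abs _).symm
    rw [e1, e2]
    nlinarith
  refine h5.trans ?_
  refine pow_le_pow_left₀ (by positivity) ?_ 2
  calc |w true| * At + |w false| * Af ≤ W * At + W * Af :=
        add_le_add (mul_le_mul_of_nonneg_right (hw true) hAt0) (mul_le_mul_of_nonneg_right (hw false) hAf0)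
    _ = W * (At + Af) := by ring
    _ ≤ W * m := mul_le_mul_of_nonneg_left hm hW0

/-! ## (B) sup bounds -/

section

variable {e C0 apx εa tol0 δ1 : ℝ}

theorem s8fl_mN_nonneg (hb : S8Basic n d par e C0 apx) : 0 ≤ par.mN d C0 := by
  have h1 : 0 ≤ par.wB d := by
    have := hb.he
    have := hb.hT
    have := hb.hTB
    linarith
  have h2 : 0 ≤ C0 := le_trans zero_le_one hb.hC0
  unfold S8Par.mN
  positivity

theorem s8Col_sq (hb : S8Basic n d par e C0 apx) (hh : π.S8Hyp par e C0 εa tol0) (b : Bool)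
    (oo : Option (Stub n d × Stub n d)) :
    ∑ c : Bool, ∑ i, π.s8Col par E b c oo i ^ 2 ≤ 16 * par.mN d C0 := by
  have hm0 := s8fl_mN_nonneg hb
  cases oo with
  | none =>
    have : ∀ c i, π.s8Col par E b c none i = 0 := by
      intro c i
      unfold s8Col s8AO
      simp
    simp only [this]
    simp only [ne_eq, OfNat.ofNat_ne_zero, not_false_eq_true, zero_pow, Finset.sum_const_zero]
    positivity
  | some o =>
    rw [Finset.sum_comm]
    have h1 : ∀ i, ∑ c : Bool, π.s8Col par E b c (some o) i ^ 2 ≤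
        4 * ((if E.x d b i < par.wB d then E.vec i o.1.1 ^ 2 else 0)
          + (if E.x d b i < par.wB d then E.vec i o.2.1 ^ 2 else 0)
          + (if E.x d b i < par.wB d then E.vec i (π.oth o.1) ^ 2 else 0)
          + (if E.x d b i < par.wB d then E.vec i (π.oth o.2) ^ 2 else 0)) := by
      intro i
      unfold s8Col
      by_cases hi : E.x d b i < par.wB d
      · simp only [if_pos hi]
        have h2 := s8Y_some (π := π) b o (E.vec i)
        unfold s8Y at h2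
        rw [h2]
        nlinarith [sq_nonneg (E.vec i o.1.1 + E.vec i o.2.1), sq_nonneg (E.vec i (π.oth o.1) + E.vec i (π.oth o.2))]
      · simp [if_neg hi]
    refine (Finset.sum_le_sum fun i _ => h1 i).trans ?_
    rw [← Finset.mul_sum, Finset.sum_add_distrib, Finset.sum_add_distrib, Finset.sum_add_distrib]
    have m1 := s8_mass hb hh E b o.1.1
    have m2 := s8_mass hb hh E b o.2.1
    have m3 := s8_mass hb hh E b (π.oth o.1)
    have m4 := s8_mass hb hh E b (π.oth o.2)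
    linarith

theorem s8Hm_frob (hb : S8Basic n d par e C0 apx) (hh : π.S8Hyp par e C0 εa tol0) (b : Bool)
    (oo : Option (Stub n d × Stub n d)) :
    ∑ ik, π.s8Hm par E b oo ik ^ 2 ≤ par.hsup d C0 ^ 2 := by
  have h := s8_frob_rank (fun c i => π.s8Col par E b c oo i) (fun c => s8k d c / 2) (s8kmax d / 2)
    (16 * par.mN d C0)
    (fun c => by
      rw [abs_div, abs_of_pos (by norm_num : (0 : ℝ) < 2)]
      exact div_le_div_of_nonneg_right (s8k_abs_le d hb.hd c) (by norm_num))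
    (s8Col_sq hb hh b oo)
  have e1 : s8kmax d / 2 * (16 * par.mN d C0) = par.hsup d C0 := by
    unfold S8Par.hsup
    ring
  rw [e1] at h
  exact h

theorem s8Ym_frob (hb : S8Basic n d par e C0 apx) (hh : π.S8Hyp par e C0 εa tol0) (b : Bool)
    (oo : Option (Stub n d × Stub n d)) :
    ∑ ik, π.s8Ym par E b oo ik ^ 2 ≤ (16 * par.mN d C0) ^ 2 := by
  have h := s8_frob_rank (fun c i => π.s8Col par E b c oo i) (fun _ => 1) 1 (16 * par.mN d C0)
    (fun c => by simp) (s8Col_sq hb hh b oo)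
  simp only [one_mul] at h
  exact h

/-! ## (C) the two events -/

/-- abstract Chebyshev bound for matrix valued functions of the draws -/
theorem s8_cheb (hP : P.Prime) (hMP : par.M < P) (Z : Option (Stub n d × Stub n d) → Fin n × Fin n → ℝ)
    (hZ0 : Z none = 0) (B t : ℝ) (hZ : ∀ oo, ∑ ik, Z oo ik ^ 2 ≤ B ^ 2) (ht : 0 < t) :
    open Classical in
    (((s8Seeds P).filter fun ω => t ^ 2 < ∑ ik, (∑ r ∈ range par.M,
        (Z (π.s8Draw par P ω.1 ω.2 (r + 1)) ik - ∑ o, π.s8Mu par P o * Z (some o) ik)) ^ 2).card : ℝ)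
      ≤ par.M * B ^ 2 / t ^ 2 * (s8Seeds P).card := by
  classical
  have hP0 : (0 : ℝ) < P := by exact_mod_cast hP.pos
  have hmean : ∀ ik, ∑ o, π.s8Mu par P o * Z (some o) ik = (∑ a ∈ range P, Z (π.s8Out par P a) ik) / P := by
    intro ik
    rw [π.s8_law_sum par P hP.pos (fun oo => Z oo ik) (by rw [hZ0]; rfl)]
    field_simp
  have hmk := s8_markov (s8Seeds P) (fun ω => ∑ ik, (∑ r ∈ range par.M,
        (Z (π.s8Draw par P ω.1 ω.2 (r + 1)) ik - ∑ o, π.s8Mu par P o * Z (some o) ik)) ^ 2)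
    (fun ω _ => Finset.sum_nonneg fun ik _ => sq_nonneg _) (t ^ 2) (by positivity)
  refine hmk.trans ?_
  have h2 := s8_second_moment_vec P hP par.M hMP fun a ik => Z (π.s8Out par P a) ik
  have h3 : ∑ ω ∈ s8Seeds P, ∑ ik, (∑ r ∈ range par.M,
        (Z (π.s8Draw par P ω.1 ω.2 (r + 1)) ik - ∑ o, π.s8Mu par P o * Z (some o) ik)) ^ 2 ≤
      P * par.M * ∑ a ∈ range P, ∑ ik, Z (π.s8Out par P a) ik ^ 2 := by
    simp only [hmean]
    exact h2
  have h4 : ∑ a ∈ range P, ∑ ik, Z (π.s8Out par P a) ik ^ 2 ≤ P * B ^ 2 := by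
    calc _ ≤ ∑ _a ∈ range P, B ^ 2 := Finset.sum_le_sum fun a _ => hZ _
      _ = P * B ^ 2 := by rw [Finset.sum_const, card_range, nsmul_eq_mul]
  rw [s8Seeds_card]
  push_cast
  rw [div_le_iff₀ (by positivity)]
  calc _ ≤ (P : ℝ) * par.M * ∑ a ∈ range P, ∑ ik, Z (π.s8Out par P a) ik ^ 2 := h3
    _ ≤ (P : ℝ) * par.M * (P * B ^ 2) := mul_le_mul_of_nonneg_left h4 (by positivity)
    _ = par.M * B ^ 2 / t ^ 2 * (P * P) * t ^ 2 := by
        field_simp

theorem s8fl_Col_none (b c : Bool) (i : Fin n) : π.s8Col par E b c none i = 0 := by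
  unfold s8Col s8AO
  simp

/-- **E1** -/
theorem s8_E1 (hN : S8Num n d par e C0 apx εa tol0 δ1 P) (hh : π.S8Hyp par e C0 εa tol0) (b : Bool) :
    open Classical in
    (((s8Seeds P).filter (π.s8Bad1 par P E e b)).card : ℝ) ≤
      100 * par.M * par.hsup d C0 ^ 2 / e ^ 2 * (s8Seeds P).card := by
  classical
  have he := hN.basic.he
  have hch := s8_cheb (π := π) (par := par) hN.hPprime hN.hMP (fun oo => π.s8Hm par E b oo)
    (by
      funext ik
      simp [s8Hm, s8fl_Col_none])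
    (par.hsup d C0) (e / 10) (fun oo => s8Hm_frob hN.basic hh b oo) (by positivity)
  have e1 : par.M * par.hsup d C0 ^ 2 / (e / 10) ^ 2 = 100 * par.M * par.hsup d C0 ^ 2 / e ^ 2 := by
    field_simp
    ring
  rw [e1] at hch
  refine le_trans ?_ hch
  have hsub : (s8Seeds P).filter (π.s8Bad1 par P E e b) ⊆
      (s8Seeds P).filter fun ω => (e / 10) ^ 2 < ∑ ik, (∑ r ∈ range par.M,
        (π.s8Hm par E b (π.s8Draw par P ω.1 ω.2 (r + 1)) ik
          - ∑ o, π.s8Mu par P o * π.s8Hm par E b (some o) ik)) ^ 2 := by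
    intro ω hω
    rw [Finset.mem_filter] at hω ⊢
    refine ⟨hω.1, ?_⟩
    by_contra hcon
    rw [not_lt] at hcon
    apply hω.2
    intro ξ hξ
    have h1 := s8_frob _ (e / 10) (by positivity) hcon ξ
    refine le_trans (le_of_eq ?_) h1
    congr 1
    simp only [s8H_eq_Hm (par := par) b _ ξ hξ]
    exact s8fl_center ξ par.M (fun r => π.s8Hm par E b (π.s8Draw par P ω.1 ω.2 (r + 1))) (π.s8Mu par P)
      fun o => π.s8Hm par E b (some o)
  exact_mod_cast Finset.card_le_card hsub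

/-- **E2** -/
theorem s8_E2 (hN : S8Num n d par e C0 apx εa tol0 δ1 P) (hh : π.S8Hyp par e C0 εa tol0) (b : Bool) :
    open Classical in
    (((s8Seeds P).filter (π.s8Bad2 par P E b)).card : ℝ) ≤
      256 * par.mN d C0 ^ 2 * (n : ℝ) ^ 2 / par.M * (s8Seeds P).card := by
  classical
  have he := hN.basic.he
  have hn0 : (0 : ℝ) < n := by exact_mod_cast hN.basic.hn
  have hM0 : (0 : ℝ) < par.M := by
    by_contra hcon
    have hM : (par.M : ℝ) = 0 := le_antisymm (not_lt.mp hcon) (Nat.cast_nonneg _)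
    have := hN.hbias
    rw [hM] at this
    simp only [zero_mul, zero_div] at this
    linarith
  have hch := s8_cheb (π := π) (par := par) hN.hPprime hN.hMP (fun oo => π.s8Ym par E b oo)
    (by
      funext ik
      simp [s8Ym, s8fl_Col_none])
    (16 * par.mN d C0) (par.M / n) (fun oo => s8Ym_frob hN.basic hh b oo) (by positivity)
  have e1 : par.M * (16 * par.mN d C0) ^ 2 / ((par.M : ℝ) / n) ^ 2 = 256 * par.mN d C0 ^ 2 * (n : ℝ) ^ 2 / par.M := by
    field_simp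
    ring
  rw [e1] at hch
  refine le_trans ?_ hch
  have hsub : (s8Seeds P).filter (π.s8Bad2 par P E b) ⊆
      (s8Seeds P).filter fun ω => ((par.M : ℝ) / n) ^ 2 < ∑ ik, (∑ r ∈ range par.M,
        (π.s8Ym par E b (π.s8Draw par P ω.1 ω.2 (r + 1)) ik
          - ∑ o, π.s8Mu par P o * π.s8Ym par E b (some o) ik)) ^ 2 := by
    intro ω hω
    rw [Finset.mem_filter] at hω ⊢
    refine ⟨hω.1, ?_⟩
    by_contra hcon
    rw [not_lt] at hcon
    apply hω.2
    intro ξ hξ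
    have h1 := s8_frob _ ((par.M : ℝ) / n) (by positivity) hcon ξ
    have hmean := s8_meanY hN hh E b ξ hξ
    have hS : 0 ≤ ∑ i, ξ i ^ 2 := Finset.sum_nonneg fun i _ => sq_nonneg _
    have hid : ∑ r ∈ range par.M, π.s8Y b (π.s8Draw par P ω.1 ω.2 (r + 1)) (E.comb ξ)
        - par.M * ∑ o, π.s8Mu par P o * π.s8Y b (some o) (E.comb ξ) =
        ∑ ik : Fin n × Fin n, ξ ik.1 * ξ ik.2 * ∑ r ∈ range par.M,
        (π.s8Ym par E b (π.s8Draw par P ω.1 ω.2 (r + 1)) ik
          - ∑ o, π.s8Mu par P o * π.s8Ym par E b (some o) ik) := by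
      simp only [s8Y_eq_Ym (par := par) b _ ξ hξ]
      exact s8fl_center ξ par.M (fun r => π.s8Ym par E b (π.s8Draw par P ω.1 ω.2 (r + 1))) (π.s8Mu par P)
        fun o => π.s8Ym par E b (some o)
    rw [← hid] at h1
    have h3 := (abs_le.mp h1).2
    have h4 : (par.M : ℝ) * ∑ o, π.s8Mu par P o * π.s8Y b (some o) (E.comb ξ) ≤
        par.M * (8 / n * ∑ i, ξ i ^ 2) := mul_le_mul_of_nonneg_left hmean hM0.le
    have e2 : (par.M : ℝ) / n * ∑ i, ξ i ^ 2 + par.M * (8 / n * ∑ i, ξ i ^ 2) = 9 * par.M / n * ∑ i, ξ i ^ 2 := by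
      ring
    have h5 : 9 * (par.M : ℝ) / n * ∑ i, ξ i ^ 2 ≤ 17 * par.M / n * ∑ i, ξ i ^ 2 := by
      refine mul_le_mul_of_nonneg_right ?_ hS
      exact div_le_div_of_nonneg_right (by nlinarith) hn0.le
    linarith
  exact_mod_cast Finset.card_le_card hsub

end

end PPair

end Claimed.Agent.R275
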