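import Claimed.Agent.R275.S8Ana

/-!
# Row 275, Sec 8, package LAW: the law of one draw (replaces Steps 3, 6, 7: conditioning, normalisation, rounding).
Statements: helper118.  ONE OWNER.  Pure counting (`ℕ` div/mod, `finProdFinEquiv`, floors); no spectral theory, no paper.

`T = n d`, `Q = P / T²`.  A residue `ρ < P` decodes to `idx = ρ % T²` (a pair of stubs `o`, bijectively) and `lvl = ρ / T²`;
`s8Out ρ = some o` iff both stubs are accepted and `lvl + 1 ≤ Q (1 + br o)/2`.  If `|br o| ≤ 1/2` these `lvl` satisfy `lvl < Q`, so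
`ρ = lvl T² + idx < Q T² ≤ P` automatically and the number of such `ρ` is `⌊Q (1 + br o)/2⌋`.
-/

set_option autoImplicit false

namespace Claimed.Agent.R275

open Finset

/-- the decoding as an equivalence -/
def s8lawE (n d : ℕ) : Fin ((n * d) * (n * d)) ≃ Stub n d × Stub n d :=
  finProdFinEquiv.symm.trans (Equiv.prodCongr finProdFinEquiv.symm finProdFinEquiv.symm)

theorem s8law_dec_eq (n d t : ℕ) (h : t < (n * d) * (n * d)) :
    s8Dec n d t = some (s8lawE n d ⟨t, h⟩) := by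
  unfold s8Dec
  rw [dif_pos h]
  rfl

/-- `s8Dec` is a bijection from `[0, T²)` onto the ordered pairs of stubs -/
theorem s8Dec_bij (n d : ℕ) (o : Stub n d × Stub n d) :
    ∃! t : ℕ, t < (n * d) * (n * d) ∧ s8Dec n d t = some o := by
  refine ⟨((s8lawE n d).symm o).val, ⟨((s8lawE n d).symm o).isLt, ?_⟩, ?_⟩
  · rw [s8law_dec_eq n d _ ((s8lawE n d).symm o).isLt]
    simp
  · rintro t ⟨ht, hd⟩
    rw [s8law_dec_eq n d t ht, Option.some_inj] at hd
    rw [← hd]
    simp

theorem s8Dec_none (n d t : ℕ) (ht : (n * d) * (n * d) ≤ t) : s8Dec n d t = none := by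
  unfold s8Dec
  rw [dif_neg (not_lt.mpr ht)]

namespace PPair

variable {n d : ℕ} (π : PPair n d) (par : S8Par ℝ) (P : ℕ)

theorem s8Mu_nonneg (o : Stub n d × Stub n d) : 0 ≤ π.s8Mu par P o := by
  unfold s8Mu
  exact div_nonneg (Nat.cast_nonneg _) (Nat.cast_nonneg _)

/-- averages over the residues -/
theorem s8_law_sum (hP : 0 < P) (F : Option (Stub n d × Stub n d) → ℝ) (hF : F none = 0) :
    ∑ a ∈ range P, F (π.s8Out par P a) = P * ∑ o, π.s8Mu par P o * F (some o) := by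
  have hP' : (P : ℝ) ≠ 0 := by exact_mod_cast hP.ne'
  have h1 : ∀ a, F (π.s8Out par P a) =
      ∑ o, (if π.s8Out par P a = some o then 1 else 0) * F (some o) := by
    intro a
    cases h : π.s8Out par P a with
    | none => simp [hF]
    | some o' =>
      rw [Finset.sum_eq_single o']
      · simp
      · intro b _ hb
        rw [if_neg (fun e => hb (Option.some_inj.1 e).symm), zero_mul]
      · intro hn
        exact absurd (Finset.mem_univ _) hn
  simp_rw [h1]
  rw [Finset.sum_comm, Finset.mul_sum]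
  refine Finset.sum_congr rfl fun o _ => ?_
  rw [← Finset.sum_mul, Finset.sum_boole]
  unfold s8Mu
  field_simp

/-- an outcome consists of accepted stubs -/
theorem s8Out_acc (ρ : ℕ) (o : Stub n d × Stub n d) (h : π.s8Out par P ρ = some o) :
    π.s8Acc par o.1 ∧ π.s8Acc par o.2 := by
  unfold s8Out at h
  rw [Option.bind_eq_some_iff] at h
  obtain ⟨o', -, h2⟩ := h
  split_ifs at h2 with hact
  rw [Option.some_inj] at h2
  subst h2
  exact ⟨hact.1, hact.2.1⟩

theorem s8Mu_supp (o : Stub n d × Stub n d) (h : ¬ (π.s8Acc par o.1 ∧ π.s8Acc par o.2)) :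
    π.s8Mu par P o = 0 := by
  unfold s8Mu
  have : ((Finset.range P).filter fun ρ => π.s8Out par P ρ = some o) = ∅ := by
    rw [Finset.filter_eq_empty_iff]
    intro ρ _ hρ
    exact h (π.s8Out_acc par P ρ o hρ)
  rw [this]
  simp

/-- characterisation of the residues with a given outcome -/
theorem s8law_out_iff (ρ : ℕ) (o : Stub n d × Stub n d) :
    π.s8Out par P ρ = some o ↔
      ρ % ((n * d) * (n * d)) = ((s8lawE n d).symm o).val ∧
        π.s8Active par P (ρ / ((n * d) * (n * d))) o := by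
  have hT2 : 0 < (n * d) * (n * d) := lt_of_le_of_lt (Nat.zero_le _) ((s8lawE n d).symm o).isLt
  have hlt : ρ % ((n * d) * (n * d)) < (n * d) * (n * d) := Nat.mod_lt _ hT2
  unfold s8Out
  rw [s8law_dec_eq n d _ hlt]
  simp only [Option.bind_some]
  constructor
  · intro h
    split_ifs at h with hact
    rw [Option.some_inj] at h
    refine ⟨?_, h ▸ hact⟩
    rw [← h]
    simp
  · rintro ⟨h1, h2⟩
    have h3 : s8lawE n d ⟨ρ % ((n * d) * (n * d)), hlt⟩ = o := by
      have : (⟨ρ % ((n * d) * (n * d)), hlt⟩ : Fin ((n * d) * (n * d))) = (s8lawE n d).symm o :=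
        Fin.ext h1
      rw [this]
      simp
    rw [h3, if_pos h2]

/-- the number of residues with outcome `o` -/
theorem s8law_card (o : Stub n d × Stub n d) (hbr : |π.s8Br par o.1 o.2| ≤ 1 / 2)
    (h1 : π.s8Acc par o.1) (h2 : π.s8Acc par o.2) :
    ((Finset.range P).filter fun ρ => π.s8Out par P ρ = some o).card =
      ⌊((P / ((n * d) * (n * d)) : ℕ) : ℝ) * (1 + π.s8Br par o.1 o.2) / 2⌋₊ := by
  set T2 : ℕ := (n * d) * (n * d) with hT2def
  set Q : ℕ := P / T2 with hQ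
  set t0 : ℕ := ((s8lawE n d).symm o).val with ht0
  have ht0lt : t0 < T2 := ((s8lawE n d).symm o).isLt
  have hT2 : 0 < T2 := lt_of_le_of_lt (Nat.zero_le _) ht0lt
  set x : ℝ := (Q : ℝ) * (1 + π.s8Br par o.1 o.2) / 2 with hx
  obtain ⟨hb1, hb2⟩ := abs_le.1 hbr
  have hQ0 : (0 : ℝ) ≤ Q := Nat.cast_nonneg _
  have hx0 : 0 ≤ x := by
    rw [hx]
    have : 0 ≤ 1 + π.s8Br par o.1 o.2 := by linarith
    positivity
  have hxQ : x ≤ Q := by
    rw [hx]
    nlinarith
  have hmQ : ⌊x⌋₊ ≤ Q := by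
    have := Nat.floor_le_floor hxQ
    rwa [Nat.floor_natCast] at this
  have hQT : Q * T2 ≤ P := Nat.div_mul_le_self P T2
  have hset : ((Finset.range P).filter fun ρ => π.s8Out par P ρ = some o) =
      (Finset.range ⌊x⌋₊).image fun lvl => lvl * T2 + t0 := by
    ext ρ
    simp only [Finset.mem_filter, Finset.mem_range, Finset.mem_image]
    rw [s8law_out_iff]
    constructor
    · rintro ⟨-, hmod, hact⟩
      refine ⟨ρ / T2, ?_, ?_⟩
      · have h3 := hact.2.2
        have h4 : ((ρ / T2 + 1 : ℕ) : ℝ) ≤ x := by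
          push_cast
          exact h3
        have := (Nat.le_floor_iff hx0).2 h4
        omega
      · have := Nat.div_add_mod ρ T2
        rw [hmod] at this
        rw [mul_comm]
        exact this
    · rintro ⟨lvl, hlvl, rfl⟩
      have hdiv : (lvl * T2 + t0) / T2 = lvl := by
        rw [mul_comm, Nat.mul_add_div hT2, Nat.div_eq_of_lt ht0lt, add_zero]
      have hmod : (lvl * T2 + t0) % T2 = t0 := by
        rw [mul_comm, Nat.mul_add_mod, Nat.mod_eq_of_lt ht0lt]
      refine ⟨?_, hmod, h1, h2, ?_⟩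
      · have h5 : (lvl + 1) * T2 ≤ Q * T2 := Nat.mul_le_mul_right _ (by omega)
        have h6 : lvl * T2 + t0 < (lvl + 1) * T2 := by
          rw [add_mul, one_mul]
          omega
        omega
      · rw [hdiv]
        have h7 : ((lvl + 1 : ℕ) : ℝ) ≤ x := (Nat.le_floor_iff hx0).1 (by omega)
        push_cast at h7
        exact h7
  rw [hset, Finset.card_image_of_injective, Finset.card_range]
  intro a b hab
  have : a * T2 = b * T2 := by
    simpa using hab
  exact Nat.eq_of_mul_eq_mul_right hT2 this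

theorem s8Mu_upper (hP : 0 < P) (hT : 0 < n * d) (o : Stub n d × Stub n d)
    (hbr : |π.s8Br par o.1 o.2| ≤ 1 / 2) :
    π.s8Mu par P o ≤ (1 + π.s8Br par o.1 o.2) / (2 * ((n : ℝ) * d) ^ 2) := by
  obtain ⟨hb1, hb2⟩ := abs_le.1 hbr
  have hTr : (0 : ℝ) < (n : ℝ) * d := by exact_mod_cast hT
  have hPr : (0 : ℝ) < P := by exact_mod_cast hP
  by_cases hacc : π.s8Acc par o.1 ∧ π.s8Acc par o.2
  · unfold s8Mu
    rw [π.s8law_card par P o hbr hacc.1 hacc.2]
    set Q : ℕ := P / ((n * d) * (n * d)) with hQ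
    have hQT : Q * ((n * d) * (n * d)) ≤ P := Nat.div_mul_le_self P _
    have hQT' : (Q : ℝ) * ((n : ℝ) * d) ^ 2 ≤ P := by
      have : ((Q * ((n * d) * (n * d)) : ℕ) : ℝ) ≤ P := by exact_mod_cast hQT
      push_cast at this
      nlinarith
    have hx0 : 0 ≤ (Q : ℝ) * (1 + π.s8Br par o.1 o.2) / 2 := by
      have : 0 ≤ 1 + π.s8Br par o.1 o.2 := by linarith
      positivity
    have hfl := Nat.floor_le hx0
    rw [div_le_div_iff₀ hPr (by positivity)]
    have h1 : 0 ≤ 1 + π.s8Br par o.1 o.2 := by linarith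
    calc (⌊(Q : ℝ) * (1 + π.s8Br par o.1 o.2) / 2⌋₊ : ℝ) * (2 * ((n : ℝ) * d) ^ 2)
        ≤ ((Q : ℝ) * (1 + π.s8Br par o.1 o.2) / 2) * (2 * ((n : ℝ) * d) ^ 2) :=
          mul_le_mul_of_nonneg_right hfl (by positivity)
      _ = (1 + π.s8Br par o.1 o.2) * ((Q : ℝ) * ((n : ℝ) * d) ^ 2) := by ring
      _ ≤ (1 + π.s8Br par o.1 o.2) * P := mul_le_mul_of_nonneg_left hQT' h1
  · rw [π.s8Mu_supp par P o hacc]
    have : 0 ≤ 1 + π.s8Br par o.1 o.2 := by linarith
    positivity

theorem s8Mu_lower (hP : 0 < P) (hT : 0 < n * d) (o : Stub n d × Stub n d)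
    (hbr : |π.s8Br par o.1 o.2| ≤ 1 / 2) (h1 : π.s8Acc par o.1) (h2 : π.s8Acc par o.2) :
    (1 + π.s8Br par o.1 o.2) / (2 * ((n : ℝ) * d) ^ 2) - 2 / P ≤ π.s8Mu par P o := by
  obtain ⟨hb1, hb2⟩ := abs_le.1 hbr
  have hTr : (0 : ℝ) < (n : ℝ) * d := by exact_mod_cast hT
  have hPr : (0 : ℝ) < P := by exact_mod_cast hP
  unfold s8Mu
  rw [π.s8law_card par P o hbr h1 h2]
  set Q : ℕ := P / ((n * d) * (n * d)) with hQ
  have hT2 : 0 < (n * d) * (n * d) := Nat.mul_pos hT hT
  have hQT : P < ((n * d) * (n * d)) * (Q + 1) := Nat.lt_mul_div_succ P hT2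
  have hQT' : (P : ℝ) ≤ ((n : ℝ) * d) ^ 2 * ((Q : ℝ) + 1) := by
    have : ((P : ℕ) : ℝ) ≤ ((((n * d) * (n * d)) * (Q + 1) : ℕ) : ℝ) := by exact_mod_cast hQT.le
    push_cast at this
    nlinarith
  have hb0 : 0 ≤ 1 + π.s8Br par o.1 o.2 := by linarith
  have hfl := Nat.lt_floor_add_one ((Q : ℝ) * (1 + π.s8Br par o.1 o.2) / 2)
  have hk1 : (1 + π.s8Br par o.1 o.2) * P / (2 * ((n : ℝ) * d) ^ 2) ≤
      (1 + π.s8Br par o.1 o.2) * ((Q : ℝ) + 1) / 2 := by
    rw [div_le_iff₀ (by positivity)]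
    calc (1 + π.s8Br par o.1 o.2) * P
        ≤ (1 + π.s8Br par o.1 o.2) * (((n : ℝ) * d) ^ 2 * ((Q : ℝ) + 1)) :=
          mul_le_mul_of_nonneg_left hQT' hb0
      _ = (1 + π.s8Br par o.1 o.2) * ((Q : ℝ) + 1) / 2 * (2 * ((n : ℝ) * d) ^ 2) := by ring
  have key : (1 + π.s8Br par o.1 o.2) * P / (2 * ((n : ℝ) * d) ^ 2) - 2 ≤
      (⌊(Q : ℝ) * (1 + π.s8Br par o.1 o.2) / 2⌋₊ : ℝ) := by
    nlinarith
  have e : (1 + π.s8Br par o.1 o.2) / (2 * ((n : ℝ) * d) ^ 2) - 2 / P =
      ((1 + π.s8Br par o.1 o.2) * P / (2 * ((n : ℝ) * d) ^ 2) - 2) / P := by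
    field_simp
  rw [e]
  exact div_le_div_of_nonneg_right key hPr.le

/-- domination by the uniform law `ν₀` -/
theorem s8Mu_le_unif (hP : 0 < P) (hT : 0 < n * d) (o : Stub n d × Stub n d)
    (hbr : |π.s8Br par o.1 o.2| ≤ 1 / 2) : π.s8Mu par P o ≤ 1 / ((n : ℝ) * d) ^ 2 := by
  obtain ⟨hb1, hb2⟩ := abs_le.1 hbr
  have hTr : (0 : ℝ) < (n : ℝ) * d := by exact_mod_cast hT
  refine (π.s8Mu_upper par P hP hT o hbr).trans ?_
  rw [div_le_div_iff₀ (by positivity) (by positivity)]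
  have : 0 < ((n : ℝ) * d) ^ 2 := by positivity
  nlinarith

theorem s8law_filterMap_sum {α β : Type*} (f : α → Option β) (F : β → ℝ) (l : List α) :
    ((l.filterMap f).map F).sum = (l.map fun r => (f r).elim 0 F).sum := by
  induction l with
  | nil => simp
  | cons a l ih =>
    cases h : f a with
    | none => simp [h, ih]
    | some b => simp [h, ih]

theorem s8law_sum_range (g : ℕ → ℝ) (M : ℕ) :
    ((List.range M).map g).sum = ∑ r ∈ range M, g r := by
  induction M with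
  | zero => simp
  | succ M ih => rw [List.range_succ, List.map_append, List.sum_append, ih, Finset.sum_range_succ]; simp

/-- list of active draws versus sums over `r < M` -/
theorem s8Acts_sum (γ β : ℕ) (F : Stub n d × Stub n d → ℝ) :
    ((π.s8Acts par P γ β).map F).sum =
      ∑ r ∈ range par.M, (π.s8Draw par P γ β (r + 1)).elim 0 F := by
  unfold s8Acts
  rw [s8law_filterMap_sum, s8law_sum_range]

theorem s8Acts_mem (γ β : ℕ) (o : Stub n d × Stub n d) :
    o ∈ π.s8Acts par P γ β ↔ ∃ r < par.M, π.s8Draw par P γ β (r + 1) = some o := by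
  unfold s8Acts
  rw [List.mem_filterMap]
  simp only [List.mem_range]

end PPair

end Claimed.Agent.R275
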