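import Claimed.Agent.R275.S8Graph

/-!
# Row 275, Sec 8, package SWITCH: combinatorics of simultaneous switches.     Statements: helper118.  Proofs: helper64 (helper prefix `s8sw`).  No sorry.

`π.switch1 g j` conjugates the involution by the transposition `(g j)`; `π.s8Switch l` = conjugation by the product `τ` of the
transpositions.  Equivalently: keep the pairing and move the stub `g` to the vertex of `j` and vice versa:
`acount' v w = #{t | (τ t).1 = v ∧ (τ (mate t)).1 = w}`.  If `π.s8Valid l` (all `4 |l|` endpoints distinct) then the stubs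
`g_r, mate g_r, j_r, mate j_r` are pairwise distinct, `τ` moves only the `g_r, j_r`, and
`A' = A - ∑_o [(e_u - e_x)(e_v - e_y)ᵀ + (e_v - e_y)(e_u - e_x)ᵀ]`,   `u = g.1, v = oth g, x = j.1, y = oth j`.
-/

set_option autoImplicit false

namespace Claimed.Agent.R275

open Matrix

namespace PPair

variable {n d : ℕ} (π : PPair n d)

theorem switch1_complete (hc : π.Complete) (g j : Stub n d) : (π.switch1 g j).Complete := by
  intro x hx
  apply hc (Equiv.swap g j x)
  have h : Equiv.swap g j (π.mate (Equiv.swap g j x)) = x := hx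
  show π.mate (Equiv.swap g j x) = Equiv.swap g j x
  have h2 := congrArg (Equiv.swap g j) h
  simpa using h2

theorem s8Switch_complete (hc : π.Complete) (l : List (Stub n d × Stub n d)) :
    (π.s8Switch l).Complete := by
  induction l generalizing π with
  | nil => exact hc
  | cons o l ih => exact ih (π.switch1 o.1 o.2) (π.switch1_complete hc _ _)

theorem s8sw_adjM_eq (hc : π.Complete) (a c : Fin n) :
    π.adjM ℝ a c = ∑ t : Stub n d,
      (if a = t.1 then (1 : ℝ) else 0) * (if c = (π.mate t).1 then 1 else 0) := by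
  unfold adjM acount
  rw [Finset.card_filter]
  push_cast
  refine Finset.sum_congr rfl fun t _ => ?_
  have := hc t
  by_cases h1 : a = t.1 <;> by_cases h2 : c = (π.mate t).1 <;> simp [h1, h2, this, eq_comm]

theorem s8sw_sum_delta (g j : Stub n d) (F : Stub n d → ℝ) :
    ∑ s : Stub n d, ((if s = g then (1 : ℝ) else 0) - (if s = j then 1 else 0)) * F s = F g - F j := by
  simp [sub_mul, Finset.sum_sub_distrib]

theorem s8sw_ind_swap (g j s : Stub n d) (a : Fin n) :
    (if a = (Equiv.swap g j s).1 then (1 : ℝ) else 0) = (if a = s.1 then (1 : ℝ) else 0)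
      + ((if s = g then (1 : ℝ) else 0) - (if s = j then 1 else 0)) *
        ((if a = j.1 then (1 : ℝ) else 0) - (if a = g.1 then 1 else 0)) := by
  by_cases h1 : s = g
  · subst h1
    by_cases h2 : s = j
    · subst h2; simp
    · simp [h2]
  · by_cases h2 : s = j
    · subst h2; simp [h1]
    · simp [h1, h2, Equiv.swap_apply_of_ne_of_ne h1 h2]

/-- the involution as an equivalence -/
def s8swE : Stub n d ≃ Stub n d := ⟨π.mate, π.mate, π.mate_mate, π.mate_mate⟩

theorem s8sw_switch1_adjM' (hc : π.Complete) (g j : Stub n d) (hgj : π.mate g ≠ j) (a c : Fin n) :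
    (π.switch1 g j).adjM ℝ a c = π.adjM ℝ a c
      - (((if a = g.1 then (1 : ℝ) else 0) - (if a = j.1 then 1 else 0)) *
            ((if c = (π.mate g).1 then (1 : ℝ) else 0) - (if c = (π.mate j).1 then 1 else 0))
          + ((if a = (π.mate g).1 then (1 : ℝ) else 0) - (if a = (π.mate j).1 then 1 else 0)) *
            ((if c = g.1 then (1 : ℝ) else 0) - (if c = j.1 then 1 else 0))) := by
  have hjg : π.mate j ≠ g := fun h => hgj (by rw [← h, π.mate_mate])
  have hg : π.mate g ≠ g := hc g
  have hj : π.mate j ≠ j := hc j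
  rw [s8sw_adjM_eq _ (π.switch1_complete hc g j), s8sw_adjM_eq _ hc]
  rw [← Equiv.sum_comp (Equiv.swap g j)]
  have e1 : ∀ s : Stub n d, ((π.switch1 g j).mate (Equiv.swap g j s)) = Equiv.swap g j (π.mate s) := by
    intro s
    show Equiv.swap g j (π.mate (Equiv.swap g j (Equiv.swap g j s))) = _
    simp
  simp only [e1, s8sw_ind_swap]
  set κa : ℝ := (if a = j.1 then (1 : ℝ) else 0) - (if a = g.1 then 1 else 0) with hκa
  set κc : ℝ := (if c = j.1 then (1 : ℝ) else 0) - (if c = g.1 then 1 else 0) with hκc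
  have s1 := s8sw_sum_delta g j (fun s => if c = (π.mate s).1 then (1 : ℝ) else 0)
  have s2 := s8sw_sum_delta g j (fun s => if a = (π.mate s).1 then (1 : ℝ) else 0)
  have s3 := s8sw_sum_delta g j
    (fun s => (if π.mate s = g then (1 : ℝ) else 0) - (if π.mate s = j then 1 else 0))
  have s2' : ∑ s : Stub n d, (if a = s.1 then (1 : ℝ) else 0) *
      ((if π.mate s = g then (1 : ℝ) else 0) - (if π.mate s = j then 1 else 0))
      = (if a = (π.mate g).1 then (1 : ℝ) else 0) - (if a = (π.mate j).1 then (1 : ℝ) else 0) := by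
    rw [← s2, ← Equiv.sum_comp π.s8swE]
    refine Finset.sum_congr rfl fun s _ => ?_
    show (if a = (π.mate s).1 then (1 : ℝ) else 0) *
      ((if π.mate (π.mate s) = g then (1 : ℝ) else 0) - (if π.mate (π.mate s) = j then 1 else 0)) = _
    rw [π.mate_mate, mul_comm]
  simp only [hg, hj, hgj, hjg, if_false, sub_self] at s3
  have key : ∀ s : Stub n d,
      ((if a = s.1 then (1 : ℝ) else 0) + ((if s = g then (1 : ℝ) else 0) - (if s = j then 1 else 0)) * κa) *
      ((if c = (π.mate s).1 then (1 : ℝ) else 0)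
        + ((if π.mate s = g then (1 : ℝ) else 0) - (if π.mate s = j then 1 else 0)) * κc)
      = (if a = s.1 then (1 : ℝ) else 0) * (if c = (π.mate s).1 then (1 : ℝ) else 0)
        + κa * (((if s = g then (1 : ℝ) else 0) - (if s = j then 1 else 0)) *
            (if c = (π.mate s).1 then (1 : ℝ) else 0))
        + κc * ((if a = s.1 then (1 : ℝ) else 0) *
            ((if π.mate s = g then (1 : ℝ) else 0) - (if π.mate s = j then 1 else 0)))
        + κa * κc * (((if s = g then (1 : ℝ) else 0) - (if s = j then 1 else 0)) *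
            ((if π.mate s = g then (1 : ℝ) else 0) - (if π.mate s = j then 1 else 0))) := by
    intro s; ring
  simp only [key, Finset.sum_add_distrib, ← Finset.mul_sum, s1, s2', s3]
  simp only [hκa, hκc]
  ring

theorem s8sw_switch1_adjM (hc : π.Complete) (g j : Stub n d) (hgj : π.mate g ≠ j) (a c : Fin n) :
    (π.switch1 g j).adjM ℝ a c = π.adjM ℝ a c
      - (((if a = g.1 then (1 : ℝ) else 0) - (if a = j.1 then 1 else 0)) *
            ((if c = π.oth g then (1 : ℝ) else 0) - (if c = π.oth j then 1 else 0))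
          + ((if a = π.oth g then (1 : ℝ) else 0) - (if a = π.oth j then 1 else 0)) *
            ((if c = g.1 then (1 : ℝ) else 0) - (if c = j.1 then 1 else 0))) :=
  π.s8sw_switch1_adjM' hc g j hgj a c

theorem s8sw_oth_switch1 (g j t : Stub n d) (h1 : t.1 ≠ g.1) (h2 : t.1 ≠ j.1) (h3 : π.oth t ≠ g.1)
    (h4 : π.oth t ≠ j.1) : (π.switch1 g j).oth t = π.oth t := by
  have e1 : Equiv.swap g j t = t :=
    Equiv.swap_apply_of_ne_of_ne (fun h => h1 (by rw [h])) (fun h => h2 (by rw [h]))
  have e2 : Equiv.swap g j (π.mate t) = π.mate t :=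
    Equiv.swap_apply_of_ne_of_ne (fun h => h3 (by unfold oth; rw [h]))
      (fun h => h4 (by unfold oth; rw [h]))
  show (Equiv.swap g j (π.mate (Equiv.swap g j t))).1 = (π.mate t).1
  rw [e1, e2]

theorem s8sw_acount_far (hc : π.Complete) (g j : Stub n d) (hgj : π.mate g ≠ j) (a c : Fin n)
    (h1 : a ≠ g.1) (h2 : a ≠ j.1) (h3 : a ≠ π.oth g) (h4 : a ≠ π.oth j) :
    (π.switch1 g j).acount a c = π.acount a c := by
  have h := π.s8sw_switch1_adjM hc g j hgj a c
  simp only [h1, h2, h3, h4, if_false, sub_self, zero_mul, add_zero, sub_zero] at h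
  unfold adjM at h
  exact_mod_cast h

theorem s8sw_ends_nodup (o : Stub n d × Stub n d) (h : (π.s8Ends o).Nodup) :
    o.1.1 ≠ π.oth o.1 ∧ o.1.1 ≠ o.2.1 ∧ o.1.1 ≠ π.oth o.2 ∧ π.oth o.1 ≠ o.2.1 ∧
      π.oth o.1 ≠ π.oth o.2 ∧ o.2.1 ≠ π.oth o.2 := by
  simp only [s8Ends, List.nodup_cons, List.mem_cons, List.not_mem_nil, or_false, not_or,
    not_false_eq_true, List.nodup_nil, and_true] at h
  obtain ⟨⟨a1, a2, a3⟩, ⟨a4, a5⟩, a6⟩ := h
  exact ⟨a1, a2, a3, a4, a5, a6⟩

theorem s8sw_valid_cons (hc : π.Complete) (o : Stub n d × Stub n d)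
    (l : List (Stub n d × Stub n d)) (hv : π.s8Valid (o :: l)) :
    (π.s8Ends o).Nodup ∧ (π.switch1 o.1 o.2).s8Valid l ∧
      ∀ o' ∈ l, (π.switch1 o.1 o.2).oth o'.1 = π.oth o'.1 ∧
        (π.switch1 o.1 o.2).oth o'.2 = π.oth o'.2 := by
  obtain ⟨hnd, hac⟩ := hv
  rw [List.flatMap_cons, List.nodup_append] at hnd
  obtain ⟨h1, h2, h3⟩ := hnd
  have hne : ∀ o' ∈ l, ∀ e ∈ π.s8Ends o', ∀ e0 ∈ π.s8Ends o, e ≠ e0 :=
    fun o' ho' e he e0 he0 => (h3 e0 he0 e (List.mem_flatMap.2 ⟨o', ho', he⟩)).symm
  have hoth : ∀ o' ∈ l, (π.switch1 o.1 o.2).oth o'.1 = π.oth o'.1 ∧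
        (π.switch1 o.1 o.2).oth o'.2 = π.oth o'.2 := by
    intro o' ho'
    have H := hne o' ho'
    constructor
    · apply s8sw_oth_switch1 <;> exact H _ (by simp [s8Ends]) _ (by simp [s8Ends])
    · apply s8sw_oth_switch1 <;> exact H _ (by simp [s8Ends]) _ (by simp [s8Ends])
  have hgj : π.mate o.1 ≠ o.2 := fun h => (π.s8sw_ends_nodup o h1).2.2.2.1 (by unfold oth; rw [h])
  refine ⟨h1, ⟨?_, ?_⟩, hoth⟩
  · rw [List.flatMap_congr (g := π.s8Ends)]
    · exact h2
    · intro o' ho'
      simp only [s8Ends, (hoth o' ho').1, (hoth o' ho').2]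
  · intro o' ho'
    have H := hne o' ho'
    rw [(hoth o' ho').1, (hoth o' ho').2]
    rw [π.s8sw_acount_far hc o.1 o.2 hgj, π.s8sw_acount_far hc o.1 o.2 hgj]
    · exact hac o' (List.mem_cons_of_mem _ ho')
    all_goals exact H _ (by simp [s8Ends]) _ (by simp [s8Ends])

/-- entries of the new adjacency matrix -/
theorem s8Switch_adjM (hc : π.Complete) (l : List (Stub n d × Stub n d)) (hv : π.s8Valid l)
    (a c : Fin n) :
    (π.s8Switch l).adjM ℝ a c = π.adjM ℝ a c
      - (l.map fun o =>
          ((if a = o.1.1 then (1 : ℝ) else 0) - (if a = o.2.1 then 1 else 0)) *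
            ((if c = π.oth o.1 then (1 : ℝ) else 0) - (if c = π.oth o.2 then 1 else 0))
          + ((if a = π.oth o.1 then (1 : ℝ) else 0) - (if a = π.oth o.2 then 1 else 0)) *
            ((if c = o.1.1 then (1 : ℝ) else 0) - (if c = o.2.1 then 1 else 0))).sum := by
  induction l generalizing π with
  | nil => simp [s8Switch]
  | cons o l ih =>
    obtain ⟨hnd, hv', hoth⟩ := π.s8sw_valid_cons hc o l hv
    have hgj : π.mate o.1 ≠ o.2 :=
      fun h => (π.s8sw_ends_nodup o hnd).2.2.2.1 (by unfold oth; rw [h])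
    have h1 := ih (π.switch1 o.1 o.2) (π.switch1_complete hc _ _) hv'
    have h2 : (π.s8Switch (o :: l)) = (π.switch1 o.1 o.2).s8Switch l := rfl
    rw [h2, h1, π.s8sw_switch1_adjM hc o.1 o.2 hgj a c, List.map_cons, List.sum_cons]
    rw [List.map_congr_left (g := fun o =>
          ((if a = o.1.1 then (1 : ℝ) else 0) - (if a = o.2.1 then 1 else 0)) *
            ((if c = π.oth o.1 then (1 : ℝ) else 0) - (if c = π.oth o.2 then 1 else 0))
          + ((if a = π.oth o.1 then (1 : ℝ) else 0) - (if a = π.oth o.2 then 1 else 0)) *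
            ((if c = o.1.1 then (1 : ℝ) else 0) - (if c = o.2.1 then 1 else 0)))]
    · ring
    · intro o' ho'
      rw [(hoth o' ho').1, (hoth o' ho').2]

theorem s8sw_quad_list {ι : Type*} (l : List ι) (T : ι → Fin n → Fin n → ℝ) (f : Fin n → ℝ) :
    ∑ a, f a * ∑ c, (l.map fun o => T o a c).sum * f c
      = (l.map fun o => ∑ a, f a * ∑ c, T o a c * f c).sum := by
  induction l with
  | nil => simp
  | cons o l ih =>
    simp only [List.map_cons, List.sum_cons, add_mul, Finset.sum_add_distrib, mul_add, ih]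

theorem s8sw_quad_rank (f p q : Fin n → ℝ) :
    ∑ a, f a * ∑ c, (p a * q c + q a * p c) * f c = 2 * (∑ a, f a * p a) * (∑ a, f a * q a) := by
  have h : ∀ a, f a * ∑ c, (p a * q c + q a * p c) * f c
      = (f a * p a) * (∑ c, f c * q c) + (f a * q a) * (∑ c, f c * p c) := by
    intro a
    rw [Finset.mul_sum, Finset.mul_sum, Finset.mul_sum, ← Finset.sum_add_distrib]
    exact Finset.sum_congr rfl fun c _ => by ring
  simp only [h, Finset.sum_add_distrib, ← Finset.sum_mul]
  ring

theorem s8sw_sum_ind (f : Fin n → ℝ) (u x : Fin n) :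
    ∑ a, f a * ((if a = u then (1 : ℝ) else 0) - (if a = x then 1 else 0)) = f u - f x := by
  simp [mul_sub, Finset.sum_sub_distrib]

theorem s8sw_quad_sub (A' A : Matrix (Fin n) (Fin n) ℝ) (S : Fin n → Fin n → ℝ)
    (h : ∀ a c, A' a c = A a c - S a c) (f : Fin n → ℝ) :
    f ⬝ᵥ (A' *ᵥ f) = f ⬝ᵥ (A *ᵥ f) - ∑ a, f a * ∑ c, S a c * f c := by
  simp only [dotProduct, mulVec, h, sub_mul, Finset.sum_sub_distrib, mul_sub]

/-- the change of the adjacency matrix, as a quadratic form -/
theorem s8Switch_quad (hc : π.Complete) (l : List (Stub n d × Stub n d)) (hv : π.s8Valid l)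
    (f : Fin n → ℝ) :
    f ⬝ᵥ ((π.s8Switch l).adjM ℝ *ᵥ f) = f ⬝ᵥ (π.adjM ℝ *ᵥ f)
      - (l.map fun o => 2 * (f o.1.1 - f o.2.1) * (f (π.oth o.1) - f (π.oth o.2))).sum := by
  rw [s8sw_quad_sub _ _ _ (π.s8Switch_adjM hc l hv) f]
  congr 1
  rw [s8sw_quad_list l (fun o a c =>
          ((if a = o.1.1 then (1 : ℝ) else 0) - (if a = o.2.1 then 1 else 0)) *
            ((if c = π.oth o.1 then (1 : ℝ) else 0) - (if c = π.oth o.2 then 1 else 0))
          + ((if a = π.oth o.1 then (1 : ℝ) else 0) - (if a = π.oth o.2 then 1 else 0)) *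
            ((if c = o.1.1 then (1 : ℝ) else 0) - (if c = o.2.1 then 1 else 0))) f]
  congr 1
  refine List.map_congr_left fun o _ => ?_
  rw [s8sw_quad_rank f (fun a => (if a = o.1.1 then (1 : ℝ) else 0) - (if a = o.2.1 then 1 else 0))
    (fun c => (if c = π.oth o.1 then (1 : ℝ) else 0) - (if c = π.oth o.2 then 1 else 0)),
    s8sw_sum_ind, s8sw_sum_ind]

theorem s8sw_simple_aux {u v x y : Fin n} (huv : u ≠ v) (hux : u ≠ x) (huy : u ≠ y) (hvx : v ≠ x)
    (hvy : v ≠ y) (hxy : x ≠ y) (A : Fin n → Fin n → ℝ) (hle : ∀ a c, A a c ≤ 1)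
    (h1 : A u y = 0) (h2 : A y u = 0) (h3 : A x v = 0) (h4 : A v x = 0)
    (a c : Fin n) :
    A a c - (((if a = u then (1 : ℝ) else 0) - (if a = x then 1 else 0)) *
        ((if c = v then (1 : ℝ) else 0) - (if c = y then 1 else 0))
      + ((if a = v then (1 : ℝ) else 0) - (if a = y then 1 else 0)) *
        ((if c = u then (1 : ℝ) else 0) - (if c = x then 1 else 0))) ≤ 1 := by
  have hA := hle a c
  rcases eq_or_ne a u with rfl | hau
  · simp only [if_true, hux, huv, huy, if_false]
    rcases eq_or_ne c v with rfl | hcv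
    · simp only [if_true, hvy, if_false]; linarith
    · rcases eq_or_ne c y with rfl | hcy
      · simp only [if_true, hcv, if_false, h1]; norm_num
      · simp only [hcv, hcy, if_false]; linarith
  rcases eq_or_ne a x with rfl | hax
  · simp only [if_true, hau, hvx.symm, hxy, if_false]
    rcases eq_or_ne c v with rfl | hcv
    · simp only [if_true, hvy, if_false, h3]; norm_num
    · rcases eq_or_ne c y with rfl | hcy
      · simp only [if_true, hcv, if_false]; linarith
      · simp only [hcv, hcy, if_false]; linarith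
  rcases eq_or_ne a v with rfl | hav
  · simp only [if_true, hau, hax, hvy, if_false]
    rcases eq_or_ne c u with rfl | hcu
    · simp only [if_true, hux, if_false]; linarith
    · rcases eq_or_ne c x with rfl | hcx
      · simp only [if_true, hcu, if_false, h4]; norm_num
      · simp only [hcu, hcx, if_false]; linarith
  rcases eq_or_ne a y with rfl | hay
  · simp only [if_true, hau, hax, hav, if_false]
    rcases eq_or_ne c u with rfl | hcu
    · simp only [if_true, hux, if_false, h2]; norm_num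
    · rcases eq_or_ne c x with rfl | hcx
      · simp only [if_true, hcu, if_false]; linarith
      · simp only [hcu, hcx, if_false]; linarith
  simp only [hau, hax, hav, hay, if_false]; linarith

theorem s8sw_simple_aux2 {u v x y : Fin n} (huv : u ≠ v) (huy : u ≠ y) (hvx : v ≠ x)
    (hxy : x ≠ y) (a : Fin n) :
    ((if a = u then (1 : ℝ) else 0) - (if a = x then 1 else 0)) *
        ((if a = v then (1 : ℝ) else 0) - (if a = y then 1 else 0)) = 0 := by
  rcases eq_or_ne a u with rfl | hau
  · simp [huv, huy]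
  rcases eq_or_ne a x with rfl | hax
  · simp [hvx.symm, hxy]
  simp [hau, hax]

theorem s8sw_switch1_simple (hc : π.Complete) (hs : π.IsSimple) (o : Stub n d × Stub n d)
    (hnd : (π.s8Ends o).Nodup) (h1 : π.acount o.1.1 (π.oth o.2) = 0)
    (h2 : π.acount o.2.1 (π.oth o.1) = 0) : (π.switch1 o.1 o.2).IsSimple := by
  obtain ⟨huv, hux, huy, hvx, hvy, hxy⟩ := π.s8sw_ends_nodup o hnd
  have hgj : π.mate o.1 ≠ o.2 := fun h => hvx (by unfold oth; rw [h])
  intro a c
  constructor
  · have h := π.s8sw_switch1_adjM hc o.1 o.2 hgj a c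
    have h' := s8sw_simple_aux huv hux huy hvx hvy hxy (π.adjM ℝ)
      (fun a c => by unfold adjM; exact_mod_cast (hs a c).1)
      (by unfold adjM; exact_mod_cast h1)
      (by unfold adjM; rw [π.acount_symm]; exact_mod_cast h1)
      (by unfold adjM; exact_mod_cast h2)
      (by unfold adjM; rw [π.acount_symm]; exact_mod_cast h2) a c
    rw [← h] at h'
    unfold adjM at h'
    exact_mod_cast h'
  · have h := π.s8sw_switch1_adjM hc o.1 o.2 hgj a a
    rw [s8sw_simple_aux2 huv huy hvx hxy a, mul_comm, s8sw_simple_aux2 huv huy hvx hxy a] at h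
    have h0 : π.adjM ℝ a a = 0 := by unfold adjM; exact_mod_cast (hs a a).2
    rw [h0] at h
    unfold adjM at h
    simp only [add_zero, sub_zero] at h
    exact_mod_cast h

/-- valid switches keep the graph simple -/
theorem s8Switch_simple (hc : π.Complete) (hs : π.IsSimple) (l : List (Stub n d × Stub n d))
    (hv : π.s8Valid l) : (π.s8Switch l).IsSimple := by
  induction l generalizing π with
  | nil => exact hs
  | cons o l ih =>
    obtain ⟨hnd, hv', _⟩ := π.s8sw_valid_cons hc o l hv
    have h0 := hv.2 o (List.mem_cons_self)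
    exact ih (π.switch1 o.1 o.2) (π.switch1_complete hc _ _)
      (π.s8sw_switch1_simple hc hs o hnd h0.1 h0.2) hv'

/-- rotation: `2 σ a b = ((a + σ b)² - (a - σ b)²)/2` -/
theorem s8A_rotate (b : Bool) (o : Stub n d × Stub n d) (f : Fin n → ℝ) :
    (sgn b : ℝ) * (2 * (f o.1.1 - f o.2.1) * (f (π.oth o.1) - f (π.oth o.2))) =
      ∑ c : Bool, (sgn c : ℝ) / 2 * π.s8A b c o f ^ 2 := by
  rw [Fintype.sum_bool]
  cases b <;> simp only [sgn, s8A, if_true, if_false, Bool.false_eq_true] <;> ring

/-- the signed form after the switches:  `-σ fᵀ B' f = -σ fᵀ B f + ∑_o ∑_± (±1/2) ⟨ũ_o^±, f⟩²` -/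
theorem s8Switch_form (hc : π.Complete) (l : List (Stub n d × Stub n d)) (hv : π.s8Valid l) (b : Bool)
    (f : Fin n → ℝ) :
    -((sgn b : ℝ) * (f ⬝ᵥ ((π.s8Switch l).s8B *ᵥ f))) = -((sgn b : ℝ) * (f ⬝ᵥ (π.s8B *ᵥ f)))
      + (l.map fun o => ∑ c : Bool, (sgn c : ℝ) / 2 * π.s8A b c o f ^ 2).sum := by
  simp only [s8B, Matrix.sub_mulVec, dotProduct_sub, π.s8Switch_quad hc l hv f, ← π.s8A_rotate b,
    List.sum_map_mul_left]
  ring

section Cands

variable {K : Type*} [Field K] [LinearOrder K]

theorem s8sw_cand_ok (hc : π.Complete) (hs : π.IsSimple) (par : S8Par K) (P γ β : ℕ) :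
    (π.s8Cand par P γ β).Complete ∧ (π.s8Cand par P γ β).IsSimple := by
  unfold s8Cand
  split_ifs with h
  · exact ⟨π.s8Switch_complete hc _, π.s8Switch_simple hc hs _ h⟩
  · exact ⟨hc, hs⟩

/-- every candidate is a complete simple pairing -/
theorem s8Cands_ok (hc : π.Complete) (hs : π.IsSimple) (par : S8Par K) (π' : PPair n d)
    (h : π' ∈ π.s8Cands par) : π'.Complete ∧ π'.IsSimple := by
  unfold s8Cands at h
  simp only [List.mem_flatMap, List.mem_map] at h
  obtain ⟨i, _, γ, _, β, _, rfl⟩ := h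
  exact π.s8sw_cand_ok hc hs par _ _ _

/-- membership in the list of candidates -/
theorem s8Cand_mem (par : S8Par K) (P γ β : ℕ) (hP1 : par.NP ≤ P) (hP2 : P ≤ 2 * par.NP) (hγ : γ < P)
    (hβ : β < P) : π.s8Cand par P γ β ∈ π.s8Cands par := by
  unfold s8Cands
  simp only [List.mem_flatMap, List.mem_map, List.mem_range]
  have e : par.NP + (P - par.NP) = P := by omega
  exact ⟨P - par.NP, by omega, γ, by omega, β, by omega, by rw [e]⟩

end Cands

/-- specification of the search: if some candidate passes the test, the output is a complete simple pairing passing the test -/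
theorem s8Repair_spec (hc : π.Complete) (hs : π.IsSimple) (par : S8Par ℚ)
    (hex : ∃ π' ∈ π.s8Cands par, π'.s8Test) :
    (π.s8Repair par).Complete ∧ (π.s8Repair par).IsSimple ∧ (π.s8Repair par).s8Test := by
  unfold s8Repair
  cases hf : (π.s8Cands par).find? fun π' => decide π'.s8Test with
  | none =>
    obtain ⟨π', hm, ht⟩ := hex
    exact absurd (by simpa using ht) (List.find?_eq_none.1 hf π' hm)
  | some π' =>
    have h1 := List.mem_of_find?_eq_some hf
    have h2 := List.find?_some hf
    have h3 := π.s8Cands_ok hc hs par π' h1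
    exact ⟨h3.1, h3.2, by simpa using h2⟩

end PPair
end Claimed.Agent.R275
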