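import Claimed.Agent.R275.S8Graph

/-!
# Row 275, Sec 8, package TEST: the final test `trace (A^(2n)) - d^(2n) < (4(d-1))^n` (idea of helper11; replaces exact rational inertia).
Statements: helper118.  ONE OWNER.  Uses package GRAPH (`s8_adjM_pow`, `S8Eig.trace_pow`, `S8Eig.quad`, `s8Eig_exists`), `L41G.PPair.map_adjM`.

SOUND: `trace A^(2n) = ∑ λ_i^(2n) + d^(2n)` (`λ_i` = eigenvalues of `B`), so the test gives `λ_i^(2n) < s^(2n)`, `|λ_i| < s` for every `i`,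
hence `|vᵀ A v| = |vᵀ B v| < s |v|²` for `v ⊥ 1`, `v ≠ 0`.
COMPLETE: `|λ_i| ≤ s - δ` for all `i` gives `∑ λ_i^(2n) ≤ n (s-δ)^(2n) < s^(2n)`.
-/

set_option autoImplicit false

namespace Claimed.Agent.R275

open Matrix

namespace PPair

variable {n d : ℕ} (π : PPair n d)

/-- the test, over the reals -/
theorem s8Test_iff_real :
    π.s8Test ↔ Matrix.trace ((π.adjM ℝ) ^ (2 * n)) - (d : ℝ) ^ (2 * n) < (4 * ((d : ℝ) - 1)) ^ n := by
  have hmap : (Rat.castHom ℝ).mapMatrix (π.adjM ℚ) = π.adjM ℝ := by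
    ext v w
    simp [adjM]
  have htr : Matrix.trace ((π.adjM ℝ) ^ (2 * n)) = ((Matrix.trace ((π.adjM ℚ) ^ (2 * n)) : ℚ) : ℝ) := by
    rw [← hmap, ← map_pow]
    exact (AddMonoidHom.map_trace (Rat.castHom ℝ) _).symm
  unfold s8Test
  rw [htr, ← Rat.cast_lt (K := ℝ)]
  push_cast
  rfl

/-- `s^(2n) = (4(d-1))^n` -/
theorem s8s_pow (hd : 1 ≤ d) (n : ℕ) : s8s d ^ (2 * n) = (4 * ((d : ℝ) - 1)) ^ n := by
  have h : (0 : ℝ) ≤ (d : ℝ) - 1 := by
    have : (1 : ℝ) ≤ d := by exact_mod_cast hd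
    linarith
  unfold s8s
  rw [pow_mul, mul_pow, Real.sq_sqrt h]
  norm_num

/-- the test in terms of the eigenvalues of `B` -/
theorem s8Test_iff_eig (E : S8Eig π.s8B) (hc : π.Complete) (hn : 0 < n) (hd : 1 ≤ d) :
    π.s8Test ↔ ∑ i, E.lam i ^ (2 * n) < s8s d ^ (2 * n) := by
  have hnR : (n : ℝ) ≠ 0 := Nat.cast_ne_zero.2 hn.ne'
  have hJ : Matrix.trace (J1 ℝ n) = 1 := by
    simp only [Matrix.trace, Matrix.diag, J1, Finset.sum_const, Finset.card_univ, Fintype.card_fin, nsmul_eq_mul]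
    exact mul_inv_cancel₀ hnR
  rw [π.s8Test_iff_real, π.s8_adjM_pow hc hn (2 * n) (by omega), Matrix.trace_add, Matrix.trace_smul, hJ,
    E.trace_pow, s8s_pow hd n, smul_eq_mul, mul_one, add_sub_cancel_right]

theorem s8s_nonneg (d : ℕ) : 0 ≤ s8s d := by
  unfold s8s
  positivity

/-- soundness of the test -/
theorem s8Test_sound (hc : π.Complete) (hn : 0 < n) (hd : 1 ≤ d) (ht : π.s8Test) (v : Fin n → ℝ)
    (hv : ∑ p, v p = 0) (hv0 : v ≠ 0) :
    |v ⬝ᵥ (π.adjM ℝ *ᵥ v)| < s8s d * (v ⬝ᵥ v) := by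
  obtain ⟨E⟩ := s8Eig_exists π.s8B π.s8B_symm
  rw [π.s8Test_iff_eig E hc hn hd] at ht
  have hlam : ∀ i, |E.lam i| < s8s d := by
    intro i
    have h1 : E.lam i ^ (2 * n) ≤ ∑ k, E.lam k ^ (2 * n) :=
      Finset.single_le_sum (f := fun k => E.lam k ^ (2 * n))
        (fun k _ => (even_two_mul n).pow_nonneg _) (Finset.mem_univ i)
    have h2 : |E.lam i| ^ (2 * n) < s8s d ^ (2 * n) := by
      rw [(even_two_mul n).pow_abs]
      exact lt_of_le_of_lt h1 ht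
    exact lt_of_pow_lt_pow_left₀ _ (s8s_nonneg d) h2
  rw [← π.s8B_mulVec_of_sum_zero v hv, E.quad]
  have hvv : v ⬝ᵥ v = ∑ i, E.coef v i ^ 2 := by
    unfold dotProduct
    rw [E.parseval]
    exact Finset.sum_congr rfl fun i _ => (sq _).symm
  rw [hvv, Finset.mul_sum]
  have hex : ∃ i, E.coef v i ≠ 0 := by
    by_contra hcon
    push Not at hcon
    apply hv0
    rw [← E.comb_coef v]
    funext p
    simp [S8Eig.comb, hcon]
  obtain ⟨i₀, hi₀⟩ := hex
  calc |∑ i, E.lam i * E.coef v i ^ 2| ≤ ∑ i, |E.lam i * E.coef v i ^ 2| := Finset.abs_sum_le_sum_abs _ _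
    _ = ∑ i, |E.lam i| * E.coef v i ^ 2 := by
        refine Finset.sum_congr rfl fun i _ => ?_
        rw [abs_mul, abs_of_nonneg (sq_nonneg (E.coef v i))]
    _ < ∑ i, s8s d * E.coef v i ^ 2 := by
        refine Finset.sum_lt_sum (fun i _ => mul_le_mul_of_nonneg_right (hlam i).le (sq_nonneg _))
          ⟨i₀, Finset.mem_univ _, ?_⟩
        exact mul_lt_mul_of_pos_right (hlam i₀) (by positivity)

/-- completeness of the test: a margin `δ` at both edges is detected -/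
theorem s8Test_complete (hc : π.Complete) (hn : 0 < n) (hd : 1 ≤ d) (δ : ℝ) (hδ0 : 0 ≤ δ)
    (hδ : δ ≤ s8s d) (hnum : (n : ℝ) * (s8s d - δ) ^ (2 * n) < s8s d ^ (2 * n))
    (hpos : ∀ (b : Bool) (v : Fin n → ℝ), (sgn b : ℝ) * (v ⬝ᵥ (π.s8B *ᵥ v)) ≤ (s8s d - δ) * (v ⬝ᵥ v)) :
    π.s8Test := by
  obtain ⟨E⟩ := s8Eig_exists π.s8B π.s8B_symm
  rw [π.s8Test_iff_eig E hc hn hd]
  have hlam : ∀ i, |E.lam i| ≤ s8s d - δ := by
    intro i
    have hvv : E.vec i ⬝ᵥ E.vec i = 1 := by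
      have := E.orth i i
      rwa [if_pos rfl] at this
    have hq : E.vec i ⬝ᵥ (π.s8B *ᵥ E.vec i) = E.lam i := by
      rw [E.eig, dotProduct_smul, hvv, smul_eq_mul, mul_one]
    have h1 := hpos true (E.vec i)
    have h2 := hpos false (E.vec i)
    rw [hq, hvv] at h1 h2
    simp only [sgn, if_true, Bool.false_eq_true, if_false] at h1 h2
    rw [abs_le]
    constructor <;> linarith
  refine lt_of_le_of_lt ?_ hnum
  calc ∑ i, E.lam i ^ (2 * n) ≤ ∑ _i : Fin n, (s8s d - δ) ^ (2 * n) := by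
        refine Finset.sum_le_sum fun i _ => ?_
        rw [← (even_two_mul n).pow_abs]
        exact pow_le_pow_left₀ (abs_nonneg _) (hlam i) _
    _ = (n : ℝ) * (s8s d - δ) ^ (2 * n) := by
        rw [Finset.sum_const, Finset.card_univ, Fintype.card_fin, nsmul_eq_mul]

end PPair

end Claimed.Agent.R275
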