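import Claimed.Agent.R275.S8Fluct
import Claimed.Agent.R275.S8Bulk
import Claimed.Agent.R275.S8Coll
import Claimed.Agent.R275.S8Switch
import Claimed.Agent.R275.S8Test
import Claimed.Agent.R275.S8Cast

/-!
# Row 275, Sec 8: ASSEMBLY of the repair theorem (Thm 8.3) from the packages DET, INDEP, GRAPH, TEST, SWITCH, SPEC, LAW, MEAN, FLUCT, BULK,
COLL, CAST.     Owner: helper118.     No sorry of its own.
-/

set_option autoImplicit false

namespace Claimed.Agent.R275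

open Matrix Finset

namespace PPair

variable {n d : ℕ} {π : PPair n d} {par : S8Par ℝ} {e C0 apx εa tol0 δ1 : ℝ} {P : ℕ}

theorem s8_dlt_nonneg (hN : S8Num n d par e C0 apx εa tol0 δ1 P) : 0 ≤ par.dlt d C0 apx δ1 := by
  have hb := hN.basic
  have h1 : 0 ≤ apx := by linarith [hb.hsA0, hb.hsA1]
  have h2 : 0 ≤ Real.sqrt (par.wB d) := Real.sqrt_nonneg _
  have h3 : 0 ≤ 3 * C0 * Real.sqrt (par.wB d) := by
    have := hb.hC0
    positivity
  unfold S8Par.dlt S8Par.tolB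
  linarith [hb.hthr, hN.hδ1]

theorem s8_wB_pos (hb : S8Basic n d par e C0 apx) : 0 < par.wB d := by
  linarith [hb.he, hb.hT, hb.hTB]

/-- a draw contributes `∑_± (±1/2) ⟨ũ^±, f⟩²` -/
theorem s8_elim_form (b : Bool) (oo : Option (Stub n d × Stub n d)) (f : Fin n → ℝ) :
    oo.elim 0 (fun o => ∑ c : Bool, (sgn c : ℝ) / 2 * π.s8A b c o f ^ 2) =
      ∑ c : Bool, (sgn c : ℝ) / 2 * π.s8AO b c oo f ^ 2 := by
  cases oo with
  | none => simp [s8AO]
  | some o => simp [s8AO]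

/-- **deterministic core**: at a seed outside all bad events both edges of the new graph have the margin `e/2` -/
theorem s8_good_seed (hN : S8Num n d par e C0 apx εa tol0 δ1 P) (hh : π.S8Hyp par e C0 εa tol0)
    (E : S8Eig π.s8B) (ω : ℕ × ℕ) (b : Bool) (h4 : ¬ π.s8Bad4 par P ω) (h1 : ¬ π.s8Bad1 par P E e b ω)
    (h2 : ¬ π.s8Bad2 par P E b ω) (h3 : ¬ π.s8Bad3 par P E δ1 b ω) (f : Fin n → ℝ) :
    (sgn b : ℝ) * (f ⬝ᵥ ((π.s8Switch (π.s8Acts par P ω.1 ω.2)).s8B *ᵥ f)) ≤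
      (s8s d - e / 2) * (f ⬝ᵥ f) := by
  classical
  have hb := hN.basic
  have hv : π.s8Valid (π.s8Acts par P ω.1 ω.2) := not_not.mp h4
  have h1' := not_not.mp h1
  have h2' := not_not.mp h2
  set dr : ℕ → Option (Stub n d × Stub n d) := fun r => π.s8Draw par P ω.1 ω.2 (r + 1) with hdr
  set α : Fin n → ℝ := E.coef f with hα
  set δ : ℝ := par.dlt d C0 apx δ1 with hδ
  have hδ0 : 0 ≤ δ := s8_dlt_nonneg hN
  set ξ : Fin n → ℝ := fun i => if E.x d b i < par.wB d then α i else 0 with hξdef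
  have hξ : E.Supp d b (par.wB d) ξ := by
    intro i hi
    simp [hξdef, hi]
  -- the new form
  have hform := π.s8Switch_form hh.complete _ hv b f
  rw [π.s8Acts_sum par P ω.1 ω.2] at hform
  simp only [s8_elim_form] at hform
  have hquad : f ⬝ᵥ (π.s8B *ᵥ f) = ∑ i, E.lam i * α i ^ 2 := E.quad f
  have hpars : f ⬝ᵥ f = ∑ i, α i ^ 2 := by
    have := E.parseval f f
    simp only [dotProduct]
    rw [this]
    exact Finset.sum_congr rfl fun i _ => by rw [hα]; ring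
  -- expansion of the columns
  have hcol : ∀ (c : Bool) (oo : Option (Stub n d × Stub n d)),
      π.s8AO b c oo f = ∑ i, π.s8AO b c oo (E.vec i) * α i := by
    intro c oo
    have := s8AO_comb (π := π) (E := E) b c oo α
    rw [hα, E.comb_coef f] at this
    rw [this]
    exact Finset.sum_congr rfl fun i _ => by rw [hα]; ring
  have hcolξ : ∀ (c : Bool) (oo : Option (Stub n d × Stub n d)),
      π.s8AO b c oo (E.comb ξ) =
        ∑ i, if E.x d b i < par.wB d then π.s8AO b c oo (E.vec i) * α i else 0 := by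
    intro c oo
    rw [s8AO_comb (π := π) (E := E) b c oo ξ]
    refine Finset.sum_congr rfl fun i _ => ?_
    by_cases hi : E.x d b i < par.wB d
    · simp [hξdef, hi, mul_comm]
    · simp [hξdef, hi]
  -- DET
  have hdet := s8_det (ι := Fin n) (S := Fin par.M) d hb.hd (E.x d b) (fun i => E.x d b i < par.wB d)
    (fun i k => π.s8AO b k.2 (dr k.1) (E.vec i)) (par.wB d) δ δ (s8_wB_pos hb) hδ0 hN.hδ1' hδ0
    (by have := hN.hsm; rw [← hδ] at this; linarith) (fun i hi => not_lt.mp hi)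
    (fun z => s8_bulk_det hN hh b ω h3 z) α
  simp only [← hcol, ← hcolξ] at hdet
  -- sums over `Fin M × Bool` versus sums over `range M`
  have hsum : ∀ G : ℕ → Bool → ℝ, ∑ k : Fin par.M × Bool, G k.1 k.2 =
      ∑ r ∈ range par.M, ∑ c : Bool, G r c := by
    intro G
    rw [Fintype.sum_prod_type, Finset.sum_range]
  have e1 : ∑ k : Fin par.M × Bool, s8k d k.2 / 2 * π.s8AO b k.2 (dr k.1) (E.comb ξ) ^ 2 =
      ∑ r ∈ range par.M, π.s8H b (dr r) (E.comb ξ) :=
    hsum fun r c => s8k d c / 2 * π.s8AO b c (dr r) (E.comb ξ) ^ 2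
  have e2 : ∑ k : Fin par.M × Bool, π.s8AO b k.2 (dr k.1) (E.comb ξ) ^ 2 =
      ∑ r ∈ range par.M, π.s8Y b (dr r) (E.comb ξ) :=
    hsum fun r c => π.s8AO b c (dr r) (E.comb ξ) ^ 2
  have e3 : ∑ k : Fin par.M × Bool, (sgn k.2 : ℝ) / 2 * π.s8AO b k.2 (dr k.1) f ^ 2 =
      ∑ r ∈ range par.M, ∑ c : Bool, (sgn c : ℝ) / 2 * π.s8AO b c (dr r) f ^ 2 :=
    hsum fun r c => (sgn c : ℝ) / 2 * π.s8AO b c (dr r) f ^ 2
  rw [e1, e2, e3] at hdet
  -- the probabilistic inputs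
  have hE1 := h1' ξ hξ
  have hE2 := h2' ξ hξ
  have hmean := s8_mean hN hh E b ξ hξ
  set S : ℝ := ∑ i, ξ i ^ 2 with hS
  have hS0 : 0 ≤ S := Finset.sum_nonneg fun i _ => sq_nonneg _
  set SH : ℝ := ∑ r ∈ range par.M, π.s8H b (dr r) (E.comb ξ) with hSH
  set SY : ℝ := ∑ r ∈ range par.M, π.s8Y b (dr r) (E.comb ξ) with hSY
  have hCdet : 0 < s8Cdet d := s8Cdet_pos d hb.hd
  have hloss : s8Cdet d * (δ + δ) * SY ≤ e / 10 * S := by
    have h0 : 0 ≤ s8Cdet d * (δ + δ) := by positivity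
    calc s8Cdet d * (δ + δ) * SY ≤ s8Cdet d * (δ + δ) * (17 * par.M / n * S) :=
          mul_le_mul_of_nonneg_left hE2 h0
      _ = (s8Cdet d * (2 * δ) * (17 * par.M / n)) * S := by ring
      _ ≤ e / 10 * S := mul_le_mul_of_nonneg_right hN.hloss hS0
  -- splitting of the diagonal part
  have hsplit : ∑ i, (if E.x d b i < par.wB d then E.x d b i * α i ^ 2 else δ * par.wB d * α i ^ 2) =
      ∑ i, E.x d b i * ξ i ^ 2 + δ * par.wB d * (∑ i, α i ^ 2 - S) := by
    rw [hS, ← Finset.sum_sub_distrib, Finset.mul_sum, ← Finset.sum_add_distrib]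
    refine Finset.sum_congr rfl fun i _ => ?_
    by_cases hi : E.x d b i < par.wB d
    · simp [hξdef, hi]
    · simp [hξdef, hi]
  have hrest : 0 ≤ ∑ i, α i ^ 2 - S := by
    rw [hS, ← Finset.sum_sub_distrib]
    refine Finset.sum_nonneg fun i _ => ?_
    by_cases hi : E.x d b i < par.wB d
    · simp [hξdef, hi]
    · simp [hξdef, hi, sq_nonneg]
  have hbulk : e / 2 * (∑ i, α i ^ 2 - S) ≤ δ * par.wB d * (∑ i, α i ^ 2 - S) :=
    mul_le_mul_of_nonneg_right hN.hbulk hrest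
  have hxs : ∑ i, E.x d b i * α i ^ 2 = s8s d * ∑ i, α i ^ 2 - sgn b * ∑ i, E.lam i * α i ^ 2 := by
    rw [Finset.mul_sum, Finset.mul_sum, ← Finset.sum_sub_distrib]
    exact Finset.sum_congr rfl fun i _ => by unfold S8Eig.x; ring
  rw [hsplit, hxs] at hdet
  rw [hquad] at hform
  rw [hpars]
  have hE1' := (abs_le.mp hE1).1
  have he := hb.he
  nlinarith [hdet, hform, hE1', hloss, hmean, hbulk, hS0, mul_nonneg he.le hS0]

/-- **union bound**: some seed avoids the seven bad events -/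
theorem s8_exists_seed (hN : S8Num n d par e C0 apx εa tol0 δ1 P) (hh : π.S8Hyp par e C0 εa tol0)
    (E : S8Eig π.s8B) :
    ∃ ω ∈ s8Seeds P, ¬ π.s8Bad4 par P ω ∧ ∀ b : Bool, ¬ π.s8Bad1 par P E e b ω ∧
      ¬ π.s8Bad2 par P E b ω ∧ ¬ π.s8Bad3 par P E δ1 b ω := by
  classical
  have hP : 0 < P := hN.hPprime.pos
  have hne : (s8Seeds P).Nonempty := ⟨(0, 0), by simp [s8Seeds, hP]⟩
  have hcard : (0 : ℝ) ≤ (s8Seeds P).card := Nat.cast_nonneg _
  let bad : Fin 7 → ℕ × ℕ → Prop :=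
    ![π.s8Bad4 par P, π.s8Bad1 par P E e true, π.s8Bad1 par P E e false, π.s8Bad2 par P E true,
      π.s8Bad2 par P E false, π.s8Bad3 par P E δ1 true, π.s8Bad3 par P E δ1 false]
  have hbad : ∀ i, (((s8Seeds P).filter (bad i)).card : ℝ) ≤ (1 / 10 : ℝ) * (s8Seeds P).card := by
    intro i
    fin_cases i
    · exact (s8_E4 hN hh).trans (mul_le_mul_of_nonneg_right hN.hE4 hcard)
    · exact (s8_E1 (E := E) hN hh true).trans (mul_le_mul_of_nonneg_right hN.hE1 hcard)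
    · exact (s8_E1 (E := E) hN hh false).trans (mul_le_mul_of_nonneg_right hN.hE1 hcard)
    · exact (s8_E2 (E := E) hN hh true).trans (mul_le_mul_of_nonneg_right hN.hE2 hcard)
    · exact (s8_E2 (E := E) hN hh false).trans (mul_le_mul_of_nonneg_right hN.hE2 hcard)
    · exact (s8_E3 (E := E) hN hh true).trans (mul_le_mul_of_nonneg_right hN.hE3 hcard)
    · exact (s8_E3 (E := E) hN hh false).trans (mul_le_mul_of_nonneg_right hN.hE3 hcard)
  obtain ⟨ω, hω, hgood⟩ := s8_exists_good (s8Seeds P) hne 7 bad (1 / 10) hbad (by norm_num)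
  refine ⟨ω, hω, hgood 0, fun b => ?_⟩
  cases b
  · exact ⟨hgood 2, hgood 4, hgood 6⟩
  · exact ⟨hgood 1, hgood 3, hgood 5⟩

/-- existence of a candidate which passes the test (real parameters) -/
theorem s8_exists_cand (hNP : par.NP ≠ 0)
    (hnum : ∀ P : ℕ, P.Prime → par.NP ≤ P → P ≤ 2 * par.NP → S8Num n d par e C0 apx εa tol0 δ1 P)
    (hh : π.S8Hyp par e C0 εa tol0) : ∃ π' ∈ π.s8Cands par, π'.s8Test := by
  obtain ⟨P, hPp, hP1, hP2⟩ := Nat.exists_prime_lt_and_le_two_mul par.NP hNP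
  have hN := hnum P hPp hP1.le hP2
  have hb := hN.basic
  obtain ⟨E⟩ := s8Eig_exists π.s8B π.s8B_symm
  obtain ⟨ω, hω, h4, h123⟩ := s8_exists_seed hN hh E
  have hω' : ω.1 < P ∧ ω.2 < P := by
    simpa [s8Seeds] using hω
  refine ⟨π.s8Cand par P ω.1 ω.2, π.s8Cand_mem par P ω.1 ω.2 hP1.le hP2 hω'.1 hω'.2, ?_⟩
  have hv : π.s8Valid (π.s8Acts par P ω.1 ω.2) := not_not.mp h4
  have hcand : π.s8Cand par P ω.1 ω.2 = π.s8Switch (π.s8Acts par P ω.1 ω.2) := by
    unfold s8Cand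
    rw [if_pos hv]
  rw [hcand]
  have hs := (s8s_bounds (d := d) hb.hd).1
  have h2 : (1 : ℝ) ≤ Real.sqrt 2 := by
    rw [show (1 : ℝ) = Real.sqrt 1 by simp]
    exact Real.sqrt_le_sqrt (by norm_num)
  refine (π.s8Switch _).s8Test_complete (π.s8Switch_complete hh.complete _) hb.hn
    (by have := hb.hd; omega) (e / 2) (by linarith [hb.he]) (by linarith [hb.he1]) hN.htest ?_
  intro b v
  exact s8_good_seed hN hh E ω b h4 (h123 b).1 (h123 b).2.1 (h123 b).2.2 v

/-- **THEOREM 8.3 (repair)**: under `S8Hyp` and the numeric conditions the rational search outputs a complete simple pairing whose graph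
is strictly Ramanujan. -/
theorem s8_repair (π : PPair n d) (par : S8Par ℚ) (hNP : par.NP ≠ 0)
    (hnum : ∀ P : ℕ, P.Prime → par.NP ≤ P → P ≤ 2 * par.NP →
      S8Num n d par.toReal e C0 apx εa tol0 δ1 P)
    (hh : π.S8Hyp par.toReal e C0 εa tol0) :
    (π.s8Repair par).Complete ∧ (π.s8Repair par).IsSimple ∧
      ∀ v : Fin n → ℝ, ∑ p, v p = 0 → v ≠ 0 →
        |v ⬝ᵥ ((π.s8Repair par).adjM ℝ *ᵥ v)| < s8s d * (v ⬝ᵥ v) := by
  have hex : ∃ π' ∈ π.s8Cands par, π'.s8Test := by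
    rw [s8Cands_cast]
    exact s8_exists_cand (par := par.toReal) hNP hnum hh
  obtain ⟨P, hPp, hP1, hP2⟩ := Nat.exists_prime_lt_and_le_two_mul par.NP hNP
  have hb := (hnum P hPp hP1.le hP2).basic
  obtain ⟨h1, h2, h3⟩ := π.s8Repair_spec hh.complete hh.simple par hex
  exact ⟨h1, h2, fun v hv hv0 =>
    (π.s8Repair par).s8Test_sound h1 hb.hn (by have := hb.hd; omega) h3 v hv hv0⟩

end PPair

end Claimed.Agent.R275
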