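import Claimed.Agent.R275.S8Spec
import Claimed.Agent.R275.S8Law

/-!
# Row 275, Sec 8, package MEAN: the mean of the ideal near correction (replaces Step 3/4 of Thm 8.3, (8.68)-(8.72)).
Statements and proofs: helper118.  No sorry.  No paper needed.  Uses GRAPH (stub sums, `s8Psi_*`), SPEC, LAW (sorried or not).

Notation: `o = (g, j)`, `u = g.1, v = oth g, x = j.1, y = oth j`, `σ = sgn b`, `ε = sgn c`, `T = n d`,
`a_g = f u + ε σ f v`, so `s8A b c o f = a_g - a_j`.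
* MN1.  `∑_g a_g = 0` (`f ⊥ 1`), `∑_g a_g² = 2 d |f|² + 2 ε σ fᵀAf`, hence `∑_o (a_g - a_j)² = 2 T ∑_g a_g²`.
  `k_+ + k_- = -2 s/(d-2)`, `k_+ - k_- = 2 d/(d-2)`.
* MN2.  `∑_j br(g,j) = 0 = ∑_g br(g,j)` (rows of `Ψ` sum to zero), so only the cross term `-2 a_g a_j` survives.
  With `α(p) = ∑_{g.1 = p} a_g = d f(p) + ε σ (Af)(p)` and `∑_{oth g = p} a_g = ε σ α(p)`:
  `∑_{g,j} br(g,j) a_g a_j = -κ ∑_τ 2 (-sA + τ ε σ d)/(d-2) αᵀ Ψ_τ α`, and for `f = ∑ ξ_i v_i`: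
  `αᵀ Ψ_τ α = ∑ ξ_i² (d + ε σ λ_i)²/(zT - τ λ_i)²`.      (both identities were checked numerically on a random cubic graph)
* bias.  `τ = σ`: `zT - σ λ = x + wT`; the term `c = true` is `≥ 0` (`sA ≤ d`), the term `c = false` is
  `kmax (sA+d)/(d-2) ((d-s+x)/d)²/(x+wT)²` and `d - s + x ≥ (d-s)/2` since `d - s = (√q-1)² ≥ 0.17`, `x ≥ -1/20`.
  `τ = -σ`: `zT + σ λ = 2 s + wT - x ≥ s`, `|k_c| ≤ kmax`, `|(-sA ∓ d)/(d-2)| ≤ (2d+1)/(d-2)`, `(1 ± λ/d)² ≤ 4`.
* `s8_mean`.  `μ = (1+br)/(2T²) + err`, `|err| ≤ 2/P` on accepted pairs, `|err| ≤ 3/(4T²)` on the `≤ 2 εa T²` other pairs.  Per mode, with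
  `m = 2M/((d-2)n) ≤ 1/2`:  `x (1-m) + (M κ/n²)(cT/(x+wT)² - CT) ≥ (9/10) e`  (cases `x ≤ wT`: `hbias`; `x > wT ≥ 2e`: `x/2 ≥ e`).
-/

set_option autoImplicit false
set_option linter.unusedSectionVars false

namespace Claimed.Agent.R275

open Matrix Finset

/-- `r = √q`: `r² = d - 1`, `r > 7/5`, `d - 2 = (r-1)(r+1)` -/
theorem s8_r_facts (d : ℕ) (hd : 3 ≤ d) : (7 / 5 : ℝ) < Real.sqrt ((d : ℝ) - 1) ∧
    (d : ℝ) = Real.sqrt ((d : ℝ) - 1) ^ 2 + 1 := by
  obtain ⟨h1, h2, h3⟩ := PPair.s8_sqrtq hd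
  exact ⟨by linarith, by linarith⟩

theorem s8k_add (d : ℕ) (hd : 3 ≤ d) : s8k d true + s8k d false = -(2 * s8s d / ((d : ℝ) - 2)) := by
  obtain ⟨h1, h2⟩ := s8_r_facts d hd
  unfold s8k s8s
  simp only [if_true, Bool.false_eq_true, if_false]
  set r := Real.sqrt ((d : ℝ) - 1) with hr
  have e : (d : ℝ) - 2 = (r - 1) * (r + 1) := by rw [h2]; ring
  rw [e]
  have a1 : r - 1 ≠ 0 := by linarith
  have a2 : r + 1 ≠ 0 := by linarith
  field_simp
  ring

theorem s8k_sub (d : ℕ) (hd : 3 ≤ d) : s8k d true - s8k d false = 2 * d / ((d : ℝ) - 2) := by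
  obtain ⟨h1, h2⟩ := s8_r_facts d hd
  unfold s8k
  simp only [if_true, Bool.false_eq_true, if_false]
  set r := Real.sqrt ((d : ℝ) - 1) with hr
  have e : (d : ℝ) - 2 = (r - 1) * (r + 1) := by rw [h2]; ring
  rw [e]
  have e2 : (2 : ℝ) * d = 2 * (r ^ 2 + 1) := by rw [← h2]
  rw [e2]
  have a1 : r - 1 ≠ 0 := by linarith
  have a2 : r + 1 ≠ 0 := by linarith
  field_simp
  ring

theorem s8kmax_pos (d : ℕ) (hd : 3 ≤ d) : 0 < s8kmax d := by
  obtain ⟨h1, h2⟩ := s8_r_facts d hd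
  unfold s8kmax
  apply div_pos <;> linarith

theorem s8k_abs_le (d : ℕ) (hd : 3 ≤ d) (c : Bool) : |s8k d c| ≤ s8kmax d := by
  obtain ⟨h1, h2⟩ := s8_r_facts d hd
  unfold s8k s8kmax
  set r := Real.sqrt ((d : ℝ) - 1) with hr
  cases c
  · simp only [Bool.false_eq_true, if_false, abs_neg]
    rw [abs_of_pos (div_pos (by linarith) (by linarith))]
  · simp only [if_true]
    rw [abs_of_pos (div_pos (by linarith) (by linarith)),
      div_le_div_iff₀ (by linarith) (by linarith)]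
    nlinarith

theorem s8k_false (d : ℕ) : s8k d false = -s8kmax d := by
  unfold s8k s8kmax; simp

theorem s8k_true_pos (d : ℕ) (hd : 3 ≤ d) : 0 < s8k d true := by
  obtain ⟨h1, h2⟩ := s8_r_facts d hd
  unfold s8k
  simp only [if_true]
  apply div_pos <;> linarith

theorem s8_sgn_sq (b : Bool) : (sgn b : ℝ) * sgn b = 1 := by
  cases b <;> simp [sgn]

namespace PPair

variable {n d : ℕ} {π : PPair n d} {par : S8Par ℝ} {e C0 apx εa tol0 δ1 : ℝ} {P : ℕ}

/-! ## (A) uniform law -/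

/-- the value `a_g = f u + ε σ f v` of an oriented edge -/
noncomputable def s8a (π : PPair n d) (b c : Bool) (f : Fin n → ℝ) (g : Stub n d) : ℝ :=
  f g.1 + (sgn c : ℝ) * sgn b * f (π.oth g)

theorem s8A_eq_sub (b c : Bool) (o : Stub n d × Stub n d) (f : Fin n → ℝ) :
    π.s8A b c o f = π.s8a b c f o.1 - π.s8a b c f o.2 := by
  unfold s8A s8a; ring

/-- the vertex vector `α = d f + ε σ A f` -/
noncomputable def s8al (π : PPair n d) (b c : Bool) (f : Fin n → ℝ) (v : Fin n) : ℝ :=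
  d * f v + (sgn c : ℝ) * sgn b * (π.adjM ℝ *ᵥ f) v

theorem s8_adjM_col (hc : π.Complete) (w : Fin n) : ∑ v, π.adjM ℝ v w = d := by
  have h := π.s8_adjM_row hc w
  have hs : ∀ v, π.adjM ℝ v w = π.adjM ℝ w v := fun v => by
    have := congrFun (congrFun π.s8_adjM_symm w) v
    simpa [Matrix.transpose_apply] using this
  simp only [hs, h]

/-- stub sums against a function of the first endpoint -/
theorem s8_sum_a_fst (hc : π.Complete) (b c : Bool) (f G : Fin n → ℝ) :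
    ∑ g : Stub n d, π.s8a b c f g * G g.1 = ∑ v, π.s8al b c f v * G v := by
  have h := π.s8_sum_stub hc fun v w => (f v + (sgn c : ℝ) * sgn b * f w) * G v
  unfold s8a
  rw [h]
  refine Finset.sum_congr rfl fun v _ => ?_
  unfold s8al
  have h1 : ∑ w, π.adjM ℝ v w * ((f v + (sgn c : ℝ) * sgn b * f w) * G v) =
      (∑ w, π.adjM ℝ v w) * f v * G v + (sgn c : ℝ) * sgn b * (∑ w, π.adjM ℝ v w * f w) * G v := by
    rw [Finset.sum_mul, Finset.sum_mul, Finset.mul_sum, Finset.sum_mul, ← Finset.sum_add_distrib]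
    exact Finset.sum_congr rfl fun w _ => by ring
  rw [h1, π.s8_adjM_row hc v]
  simp only [Matrix.mulVec, dotProduct]
  ring

/-- stub sums against a function of the second endpoint -/
theorem s8_sum_a_oth (hc : π.Complete) (b c : Bool) (f G : Fin n → ℝ) :
    ∑ g : Stub n d, π.s8a b c f g * G (π.oth g) =
      (sgn c : ℝ) * sgn b * ∑ v, π.s8al b c f v * G v := by
  have h := π.s8_sum_stub hc fun v w => (f v + (sgn c : ℝ) * sgn b * f w) * G w
  unfold s8a
  rw [h, Finset.sum_comm, Finset.mul_sum]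
  refine Finset.sum_congr rfl fun w _ => ?_
  unfold s8al
  have hs : ∀ v, π.adjM ℝ v w = π.adjM ℝ w v := fun v => by
    have := congrFun (congrFun π.s8_adjM_symm w) v
    simpa [Matrix.transpose_apply] using this
  have h1 : ∑ v, π.adjM ℝ v w * ((f v + (sgn c : ℝ) * sgn b * f w) * G w) =
      (∑ v, π.adjM ℝ w v * f v) * G w + (sgn c : ℝ) * sgn b * (∑ v, π.adjM ℝ v w) * f w * G w := by
    rw [Finset.sum_mul, Finset.mul_sum, Finset.sum_mul, Finset.sum_mul, ← Finset.sum_add_distrib]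
    exact Finset.sum_congr rfl fun v _ => by rw [hs v]; ring
  rw [h1, s8_adjM_col hc w]
  simp only [Matrix.mulVec, dotProduct]
  have e1 := s8_sgn_sq b
  have e2 := s8_sgn_sq c
  have e3 : (sgn c : ℝ) * sgn b * ((sgn c : ℝ) * sgn b) = 1 := by
    calc _ = ((sgn c : ℝ) * sgn c) * ((sgn b : ℝ) * sgn b) := by ring
      _ = 1 := by rw [e1, e2]; ring
  calc _ = 1 * (∑ v, π.adjM ℝ w v * f v) * G w + (sgn c : ℝ) * sgn b * d * f w * G w := by ring
    _ = _ := by rw [← e3]; ring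

theorem s8_sum_al (hc : π.Complete) (b c : Bool) (f : Fin n → ℝ) (hf : ∑ p, f p = 0) :
    ∑ v, π.s8al b c f v = 0 := by
  unfold s8al
  rw [Finset.sum_add_distrib, ← Finset.mul_sum, ← Finset.mul_sum, hf]
  have : ∑ v, (π.adjM ℝ *ᵥ f) v = 0 := by
    simp only [Matrix.mulVec, dotProduct]
    rw [Finset.sum_comm]
    have : ∀ w, ∑ v, π.adjM ℝ v w * f w = d * f w := fun w => by
      rw [← Finset.sum_mul, s8_adjM_col hc w]
    simp only [this]
    rw [← Finset.mul_sum, hf, mul_zero]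
  rw [this]; ring

theorem s8_sum_a (hc : π.Complete) (b c : Bool) (f : Fin n → ℝ) (hf : ∑ p, f p = 0) :
    ∑ g : Stub n d, π.s8a b c f g = 0 := by
  have := s8_sum_a_fst (π := π) hc b c f fun _ => 1
  simp only [mul_one] at this
  rw [this, s8_sum_al hc b c f hf]

theorem s8_sum_a_sq (hc : π.Complete) (b c : Bool) (f : Fin n → ℝ) :
    ∑ g : Stub n d, π.s8a b c f g ^ 2 =
      2 * (d * ∑ p, f p ^ 2 + sgn c * sgn b * (f ⬝ᵥ (π.adjM ℝ *ᵥ f))) := by
  have h1 : ∀ g : Stub n d, π.s8a b c f g ^ 2 =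
      π.s8a b c f g * f g.1 + (sgn c : ℝ) * sgn b * (π.s8a b c f g * f (π.oth g)) := by
    intro g
    unfold s8a; ring
  simp only [h1]
  rw [Finset.sum_add_distrib, ← Finset.mul_sum, s8_sum_a_fst hc, s8_sum_a_oth hc]
  have e1 := s8_sgn_sq b
  have e2 := s8_sgn_sq c
  have e3 : (sgn c : ℝ) * sgn b * ((sgn c : ℝ) * sgn b) = 1 := by
    calc _ = ((sgn c : ℝ) * sgn c) * ((sgn b : ℝ) * sgn b) := by ring
      _ = 1 := by rw [e1, e2]; ring
  rw [← mul_assoc, e3, one_mul]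
  have h2 : ∑ v, π.s8al b c f v * f v =
      d * ∑ p, f p ^ 2 + sgn c * sgn b * (f ⬝ᵥ (π.adjM ℝ *ᵥ f)) := by
    unfold s8al
    simp only [dotProduct]
    rw [Finset.mul_sum, Finset.mul_sum, ← Finset.sum_add_distrib]
    exact Finset.sum_congr rfl fun v _ => by ring
  rw [h2]; ring

/-- second moment of a rotated column under the uniform law -/
theorem s8_unif_sq (hc : π.Complete) (b c : Bool) (f : Fin n → ℝ) (hf : ∑ p, f p = 0) :
    ∑ o : Stub n d × Stub n d, π.s8A b c o f ^ 2 =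
      4 * n * d * (d * ∑ p, f p ^ 2 + sgn c * sgn b * (f ⬝ᵥ (π.adjM ℝ *ᵥ f))) := by
  simp only [s8A_eq_sub]
  rw [Fintype.sum_prod_type]
  have h1 : ∀ g j : Stub n d, (π.s8a b c f g - π.s8a b c f j) ^ 2 =
      π.s8a b c f g ^ 2 - 2 * π.s8a b c f g * π.s8a b c f j + π.s8a b c f j ^ 2 := by
    intro g j; ring
  simp only [h1, Finset.sum_add_distrib, Finset.sum_sub_distrib, ← Finset.mul_sum,
    s8_sum_a hc b c f hf, s8_sum_a_sq hc b c f, Finset.sum_const, Finset.card_univ,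
    Fintype.card_prod, Fintype.card_fin, nsmul_eq_mul, mul_zero, sub_zero]
  push_cast
  ring


/-- MN1 -/
theorem s8_mean_unif (hc : π.Complete) (hd : 3 ≤ d) (b : Bool) (f : Fin n → ℝ) (hf : ∑ p, f p = 0) :
    ∑ o : Stub n d × Stub n d, π.s8H b (some o) f =
      -(4 * n * (d : ℝ) ^ 2 / ((d : ℝ) - 2)) *
        (s8s d * ∑ p, f p ^ 2 - sgn b * (f ⬝ᵥ (π.adjM ℝ *ᵥ f))) := by
  have h3 : (3 : ℝ) ≤ d := by exact_mod_cast hd
  have hd2 : (d : ℝ) - 2 ≠ 0 := by linarith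
  unfold s8H s8AO
  simp only [Option.elim_some]
  rw [Finset.sum_comm]
  simp only [← Finset.mul_sum, s8_unif_sq hc b _ f hf, Fintype.sum_bool]
  have e1 := s8k_add d hd
  have e2 := s8k_sub d hd
  set F2 := ∑ p, f p ^ 2
  set Q := f ⬝ᵥ (π.adjM ℝ *ᵥ f)
  have : s8k d true / 2 * (4 * n * d * (d * F2 + sgn true * sgn b * Q)) +
      s8k d false / 2 * (4 * n * d * (d * F2 + sgn false * sgn b * Q)) =
      2 * n * d * ((s8k d true + s8k d false) * d * F2 + (s8k d true - s8k d false) * sgn b * Q) := by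
    simp only [sgn, if_true, Bool.false_eq_true, if_false]
    ring
  rw [this, e1, e2]
  field_simp
  ring

theorem s8_meanY_unif (hc : π.Complete) (b : Bool) (f : Fin n → ℝ) (hf : ∑ p, f p = 0) :
    ∑ o : Stub n d × Stub n d, π.s8Y b (some o) f = 8 * n * (d : ℝ) ^ 2 * ∑ p, f p ^ 2 := by
  unfold s8Y s8AO
  simp only [Option.elim_some]
  rw [Finset.sum_comm]
  simp only [s8_unif_sq hc b _ f hf, Fintype.sum_bool]
  simp only [sgn, if_true, Bool.false_eq_true, if_false]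
  ring

theorem s8Y_nonneg (b : Bool) (oo : Option (Stub n d × Stub n d)) (f : Fin n → ℝ) :
    0 ≤ π.s8Y b oo f := by
  unfold s8Y
  exact Finset.sum_nonneg fun c _ => sq_nonneg _

/-- `∑_± ⟨ũ^±, f⟩² = 2 (f u - f x)² + 2 (f v - f y)²` -/
theorem s8Y_some (b : Bool) (o : Stub n d × Stub n d) (f : Fin n → ℝ) :
    π.s8Y b (some o) f = 2 * (f o.1.1 - f o.2.1) ^ 2 + 2 * (f (π.oth o.1) - f (π.oth o.2)) ^ 2 := by
  unfold s8Y s8AO s8A
  simp only [Option.elim_some, Fintype.sum_bool]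
  have e1 := s8_sgn_sq b
  simp only [sgn, if_true, Bool.false_eq_true, if_false] at e1 ⊢
  cases b <;> simp <;> ring

theorem s8H_abs_le_Y (hd : 3 ≤ d) (b : Bool) (oo : Option (Stub n d × Stub n d)) (f : Fin n → ℝ) :
    |π.s8H b oo f| ≤ s8kmax d / 2 * π.s8Y b oo f := by
  unfold s8H s8Y
  rw [Finset.mul_sum]
  refine (Finset.abs_sum_le_sum_abs _ _).trans (Finset.sum_le_sum fun c _ => ?_)
  rw [abs_mul, abs_div, abs_of_nonneg (sq_nonneg (π.s8AO b c oo f)),
    abs_of_pos (by norm_num : (0 : ℝ) < 2)]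
  exact mul_le_mul_of_nonneg_right (div_le_div_of_nonneg_right (s8k_abs_le d hd c) (by norm_num))
    (sq_nonneg _)

/-! ## (B) the quadratic form in eigen-coordinates -/

theorem s8_quad_comb (hc : π.Complete) (hn : 0 < n) (E : S8Eig π.s8B) (b : Bool) (ξ : Fin n → ℝ)
    (hsum : ∑ p, E.comb ξ p = 0) :
    s8s d * ∑ p, E.comb ξ p ^ 2 - sgn b * (E.comb ξ ⬝ᵥ (π.adjM ℝ *ᵥ E.comb ξ)) =
      ∑ i, E.x d b i * ξ i ^ 2 := by
  rw [← π.s8B_mulVec_of_sum_zero _ hsum, E.quad, E.comb_sq]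
  simp only [E.coef_comb]
  rw [Finset.mul_sum, Finset.mul_sum, ← Finset.sum_sub_distrib]
  exact Finset.sum_congr rfl fun i _ => by unfold S8Eig.x; ring

/-! ## (C) the tilt -/

/-- the quadratic form of `X` at the vertex vector `α` -/
noncomputable def s8QX (π : PPair n d) (b c : Bool) (f : Fin n → ℝ) (X : Matrix (Fin n) (Fin n) ℝ) : ℝ :=
  ∑ v, π.s8al b c f v * ∑ v', π.s8al b c f v' * X v v'

theorem s8_sgn2 (b c : Bool) : (sgn c : ℝ) * sgn b * ((sgn c : ℝ) * sgn b) = 1 := by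
  cases b <;> cases c <;> simp [sgn]

theorem s8_dbl_ff (hc : π.Complete) (b c : Bool) (f : Fin n → ℝ) (X : Matrix (Fin n) (Fin n) ℝ) :
    ∑ g : Stub n d, ∑ j : Stub n d, π.s8a b c f g * π.s8a b c f j * X g.1 j.1 = π.s8QX b c f X := by
  have h1 : ∀ g : Stub n d, ∑ j : Stub n d, π.s8a b c f g * π.s8a b c f j * X g.1 j.1 =
      π.s8a b c f g * ∑ v', π.s8al b c f v' * X g.1 v' := by
    intro g
    rw [← s8_sum_a_fst hc b c f (fun v' => X g.1 v'), Finset.mul_sum]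
    exact Finset.sum_congr rfl fun j _ => by ring
  simp only [h1]
  exact s8_sum_a_fst hc b c f fun v => ∑ v', π.s8al b c f v' * X v v'

theorem s8_dbl_oo (hc : π.Complete) (b c : Bool) (f : Fin n → ℝ) (X : Matrix (Fin n) (Fin n) ℝ) :
    ∑ g : Stub n d, ∑ j : Stub n d, π.s8a b c f g * π.s8a b c f j * X (π.oth g) (π.oth j) =
      π.s8QX b c f X := by
  have h1 : ∀ g : Stub n d, ∑ j : Stub n d, π.s8a b c f g * π.s8a b c f j * X (π.oth g) (π.oth j) =
      π.s8a b c f g * ((sgn c : ℝ) * sgn b * ∑ v', π.s8al b c f v' * X (π.oth g) v') := by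
    intro g
    rw [← s8_sum_a_oth hc b c f (fun v' => X (π.oth g) v'), Finset.mul_sum]
    exact Finset.sum_congr rfl fun j _ => by ring
  simp only [h1]
  rw [s8_sum_a_oth hc b c f fun v => (sgn c : ℝ) * sgn b * ∑ v', π.s8al b c f v' * X v v']
  unfold s8QX
  rw [Finset.mul_sum]
  refine Finset.sum_congr rfl fun v _ => ?_
  calc _ = ((sgn c : ℝ) * sgn b * ((sgn c : ℝ) * sgn b)) *
        (π.s8al b c f v * ∑ v', π.s8al b c f v' * X v v') := by ring
    _ = _ := by rw [s8_sgn2, one_mul]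

theorem s8_dbl_fo (hc : π.Complete) (b c : Bool) (f : Fin n → ℝ) (X : Matrix (Fin n) (Fin n) ℝ) :
    ∑ g : Stub n d, ∑ j : Stub n d, π.s8a b c f g * π.s8a b c f j * X g.1 (π.oth j) =
      (sgn c : ℝ) * sgn b * π.s8QX b c f X := by
  have h1 : ∀ g : Stub n d, ∑ j : Stub n d, π.s8a b c f g * π.s8a b c f j * X g.1 (π.oth j) =
      π.s8a b c f g * ((sgn c : ℝ) * sgn b * ∑ v', π.s8al b c f v' * X g.1 v') := by
    intro g
    rw [← s8_sum_a_oth hc b c f (fun v' => X g.1 v'), Finset.mul_sum]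
    exact Finset.sum_congr rfl fun j _ => by ring
  simp only [h1]
  rw [s8_sum_a_fst hc b c f fun v => (sgn c : ℝ) * sgn b * ∑ v', π.s8al b c f v' * X v v']
  unfold s8QX
  rw [Finset.mul_sum]
  exact Finset.sum_congr rfl fun v _ => by ring

theorem s8_dbl_of (hc : π.Complete) (b c : Bool) (f : Fin n → ℝ) (X : Matrix (Fin n) (Fin n) ℝ) :
    ∑ g : Stub n d, ∑ j : Stub n d, π.s8a b c f g * π.s8a b c f j * X (π.oth g) j.1 =
      (sgn c : ℝ) * sgn b * π.s8QX b c f X := by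
  have h1 : ∀ g : Stub n d, ∑ j : Stub n d, π.s8a b c f g * π.s8a b c f j * X (π.oth g) j.1 =
      π.s8a b c f g * ∑ v', π.s8al b c f v' * X (π.oth g) v' := by
    intro g
    rw [← s8_sum_a_fst hc b c f (fun v' => X (π.oth g) v'), Finset.mul_sum]
    exact Finset.sum_congr rfl fun j _ => by ring
  simp only [h1]
  exact s8_sum_a_oth hc b c f fun v => ∑ v', π.s8al b c f v' * X v v'

/-- the cross term of the tilt -/
theorem s8_br_cross (hc : π.Complete) (b c : Bool) (f : Fin n → ℝ) :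
    ∑ g : Stub n d, ∑ j : Stub n d, π.s8Br par g j * (π.s8a b c f g * π.s8a b c f j) =
      -par.kap * ∑ b' : Bool, 2 * (-par.sA + (sgn c : ℝ) * sgn b * sgn b' * d) / ((d : ℝ) - 2) *
        π.s8QX b c f (π.s8Psi b' par.zT) := by
  unfold s8Br
  have h1 : ∀ g j : Stub n d, (-par.kap * ∑ b' : Bool,
      (-par.sA * (π.s8Psi b' par.zT g.1 j.1 + π.s8Psi b' par.zT (π.oth g) (π.oth j))
      + (sgn b' : ℝ) * (d : ℝ) * (π.s8Psi b' par.zT g.1 (π.oth j) + π.s8Psi b' par.zT (π.oth g) j.1))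
      / ((d : ℝ) - 2)) * (π.s8a b c f g * π.s8a b c f j) =
      -par.kap * ∑ b' : Bool, (-par.sA / ((d : ℝ) - 2) *
          (π.s8a b c f g * π.s8a b c f j * π.s8Psi b' par.zT g.1 j.1)
        + -par.sA / ((d : ℝ) - 2) *
          (π.s8a b c f g * π.s8a b c f j * π.s8Psi b' par.zT (π.oth g) (π.oth j))
        + (sgn b' : ℝ) * (d : ℝ) / ((d : ℝ) - 2) *
          (π.s8a b c f g * π.s8a b c f j * π.s8Psi b' par.zT g.1 (π.oth j))
        + (sgn b' : ℝ) * (d : ℝ) / ((d : ℝ) - 2) *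
          (π.s8a b c f g * π.s8a b c f j * π.s8Psi b' par.zT (π.oth g) j.1)) := by
    intro g j
    rw [mul_assoc, Finset.sum_mul]
    congr 1
    exact Finset.sum_congr rfl fun b' _ => by ring
  simp only [h1]
  simp only [← Finset.mul_sum]
  congr 1
  have h2 : ∀ g : Stub n d, ∑ j : Stub n d, ∑ b' : Bool, (-par.sA / ((d : ℝ) - 2) *
          (π.s8a b c f g * π.s8a b c f j * π.s8Psi b' par.zT g.1 j.1)
        + -par.sA / ((d : ℝ) - 2) *
          (π.s8a b c f g * π.s8a b c f j * π.s8Psi b' par.zT (π.oth g) (π.oth j))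
        + (sgn b' : ℝ) * (d : ℝ) / ((d : ℝ) - 2) *
          (π.s8a b c f g * π.s8a b c f j * π.s8Psi b' par.zT g.1 (π.oth j))
        + (sgn b' : ℝ) * (d : ℝ) / ((d : ℝ) - 2) *
          (π.s8a b c f g * π.s8a b c f j * π.s8Psi b' par.zT (π.oth g) j.1)) =
      ∑ b' : Bool, ∑ j : Stub n d, (-par.sA / ((d : ℝ) - 2) *
          (π.s8a b c f g * π.s8a b c f j * π.s8Psi b' par.zT g.1 j.1)
        + -par.sA / ((d : ℝ) - 2) *
          (π.s8a b c f g * π.s8a b c f j * π.s8Psi b' par.zT (π.oth g) (π.oth j))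
        + (sgn b' : ℝ) * (d : ℝ) / ((d : ℝ) - 2) *
          (π.s8a b c f g * π.s8a b c f j * π.s8Psi b' par.zT g.1 (π.oth j))
        + (sgn b' : ℝ) * (d : ℝ) / ((d : ℝ) - 2) *
          (π.s8a b c f g * π.s8a b c f j * π.s8Psi b' par.zT (π.oth g) j.1)) := fun g => Finset.sum_comm
  simp only [h2]
  rw [Finset.sum_comm]
  refine Finset.sum_congr rfl fun b' _ => ?_
  simp only [Finset.sum_add_distrib, ← Finset.mul_sum]
  rw [s8_dbl_ff hc, s8_dbl_oo hc, s8_dbl_fo hc, s8_dbl_of hc]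
  ring


section

variable (hb : S8Basic n d par e C0 apx) (hh : π.S8Hyp par e C0 εa tol0) (E : S8Eig π.s8B)

include hb hh

theorem s8_PsiT_row (b : Bool) (p : Fin n) : ∑ p', π.s8Psi b par.zT p p' = 0 := by
  obtain ⟨E⟩ := s8Eig_exists π.s8B π.s8B_symm
  have hz := s8_zT_pos hb hh
  exact π.s8Psi_row_sum E hh.complete hb.hn b par.zT (by linarith)
    (fun i => by rw [(s8_zT_sub hb hh E b i).1]; exact (s8_zT_sub hb hh E b i).2.ne') p

theorem s8_PsiT_col (b : Bool) (p' : Fin n) : ∑ p, π.s8Psi b par.zT p p' = 0 := by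
  have hs : ∀ p, π.s8Psi b par.zT p p' = π.s8Psi b par.zT p' p := fun p => by
    have := congrFun (congrFun (π.s8Psi_symm b par.zT) p') p
    simpa [Matrix.transpose_apply] using this
  simp only [hs]
  exact s8_PsiT_row hb hh b p'

theorem s8_br_sum_right (g : Stub n d) : ∑ j : Stub n d, π.s8Br par g j = 0 := by
  unfold s8Br
  rw [← Finset.mul_sum, Finset.sum_comm]
  have : ∀ b : Bool, ∑ j : Stub n d,
      (-par.sA * (π.s8Psi b par.zT g.1 j.1 + π.s8Psi b par.zT (π.oth g) (π.oth j))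
      + (sgn b : ℝ) * (d : ℝ) * (π.s8Psi b par.zT g.1 (π.oth j) + π.s8Psi b par.zT (π.oth g) j.1))
      / ((d : ℝ) - 2) = 0 := by
    intro b
    rw [← Finset.sum_div, Finset.sum_add_distrib, ← Finset.mul_sum, ← Finset.mul_sum,
      Finset.sum_add_distrib, Finset.sum_add_distrib,
      s8_sum_stub_fst (d := d) (fun x => π.s8Psi b par.zT g.1 x),
      s8_sum_stub_fst (d := d) (fun x => π.s8Psi b par.zT (π.oth g) x),
      π.s8_sum_stub_oth (fun x => π.s8Psi b par.zT g.1 x),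
      π.s8_sum_stub_oth (fun x => π.s8Psi b par.zT (π.oth g) x),
      s8_PsiT_row hb hh, s8_PsiT_row hb hh]
    simp
  simp only [this]
  simp

theorem s8_br_sum_left (j : Stub n d) : ∑ g : Stub n d, π.s8Br par g j = 0 := by
  unfold s8Br
  rw [← Finset.mul_sum, Finset.sum_comm]
  have : ∀ b : Bool, ∑ g : Stub n d,
      (-par.sA * (π.s8Psi b par.zT g.1 j.1 + π.s8Psi b par.zT (π.oth g) (π.oth j))
      + (sgn b : ℝ) * (d : ℝ) * (π.s8Psi b par.zT g.1 (π.oth j) + π.s8Psi b par.zT (π.oth g) j.1))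
      / ((d : ℝ) - 2) = 0 := by
    intro b
    rw [← Finset.sum_div, Finset.sum_add_distrib, ← Finset.mul_sum, ← Finset.mul_sum,
      Finset.sum_add_distrib, Finset.sum_add_distrib,
      s8_sum_stub_fst (d := d) (fun x => π.s8Psi b par.zT x j.1),
      s8_sum_stub_fst (d := d) (fun x => π.s8Psi b par.zT x (π.oth j)),
      π.s8_sum_stub_oth (fun x => π.s8Psi b par.zT x j.1),
      π.s8_sum_stub_oth (fun x => π.s8Psi b par.zT x (π.oth j)),
      s8_PsiT_col hb hh, s8_PsiT_col hb hh]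
    simp
  simp only [this]
  simp


theorem s8al_comb (b c : Bool) (ξ : Fin n → ℝ) (hsum : ∑ p, E.comb ξ p = 0) :
    π.s8al b c (E.comb ξ) = E.comb fun i => ξ i * (d + (sgn c : ℝ) * sgn b * E.lam i) := by
  funext v
  unfold s8al
  rw [← π.s8B_mulVec_of_sum_zero _ hsum, E.mulVec_comb]
  unfold S8Eig.comb
  rw [Finset.mul_sum, Finset.mul_sum, ← Finset.sum_add_distrib]
  exact Finset.sum_congr rfl fun i _ => by ring

theorem s8_PsiT_comb (b' : Bool) (ζ : Fin n → ℝ) (hζ : ∀ i, E.lam i = 0 → ζ i = 0) :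
    π.s8Psi b' par.zT *ᵥ E.comb ζ =
      E.comb fun i => ζ i * ((par.zT - sgn b' * E.lam i) ^ 2)⁻¹ := by
  have hz := s8_zT_pos hb hh
  funext v
  have h1 : (π.s8Psi b' par.zT *ᵥ E.comb ζ) v = ∑ i, ζ i * (π.s8Psi b' par.zT *ᵥ E.vec i) v := by
    simp only [Matrix.mulVec, dotProduct, S8Eig.comb, Finset.mul_sum]
    rw [Finset.sum_comm]
    exact Finset.sum_congr rfl fun i _ => Finset.sum_congr rfl fun p _ => by ring
  rw [h1]
  unfold S8Eig.comb
  refine Finset.sum_congr rfl fun i _ => ?_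
  by_cases hi : E.lam i = 0
  · simp [hζ i hi]
  · rw [π.s8Psi_mulVec_vec E hh.complete hb.hn b' par.zT (by linarith)
      (fun i => by rw [(s8_zT_sub hb hh E b' i).1]; exact (s8_zT_sub hb hh E b' i).2.ne') i hi]
    simp only [Pi.smul_apply, smul_eq_mul]
    ring

theorem s8QX_comb (b c b' : Bool) (ξ : Fin n → ℝ) (hξ : E.Supp d b (par.wB d) ξ) :
    π.s8QX b c (E.comb ξ) (π.s8Psi b' par.zT) =
      ∑ i, ξ i ^ 2 * ((d + (sgn c : ℝ) * sgn b * E.lam i) ^ 2 / (par.zT - sgn b' * E.lam i) ^ 2) := by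
  have hsum := s8_comb_sum hb hh E b ξ hξ
  unfold s8QX
  rw [s8al_comb hb hh E b c ξ hsum]
  set ζ : Fin n → ℝ := fun i => ξ i * (d + (sgn c : ℝ) * sgn b * E.lam i) with hζdef
  have hζ : ∀ i, E.lam i = 0 → ζ i = 0 := by
    intro i hi
    have : ξ i = 0 := by
      by_contra h
      have : E.x d b i < par.wB d := by
        by_contra h'
        exact h (hξ i h')
      exact s8_near_lam hb hh E b i this hi
    simp [hζdef, this]
  have h1 : ∀ v, ∑ v', E.comb ζ v' * π.s8Psi b' par.zT v v' = (π.s8Psi b' par.zT *ᵥ E.comb ζ) v := by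
    intro v
    simp only [Matrix.mulVec, dotProduct]
    exact Finset.sum_congr rfl fun v' _ => by ring
  simp only [h1]
  rw [s8_PsiT_comb hb hh E b' ζ hζ, E.parseval]
  simp only [E.coef_comb]
  refine Finset.sum_congr rfl fun i _ => ?_
  simp only [hζdef]
  rw [div_eq_mul_inv]
  ring

/-- MN2 -/
theorem s8_mean_tilt (b : Bool) (ξ : Fin n → ℝ) (hξ : E.Supp d b (par.wB d) ξ) :
    ∑ o : Stub n d × Stub n d, π.s8Br par o.1 o.2 * π.s8H b (some o) (E.comb ξ) =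
      2 * par.kap * (d : ℝ) ^ 2 * ∑ i, ξ i ^ 2 * par.bias d b (E.lam i) := by
  have h3 : (3 : ℝ) ≤ d := by exact_mod_cast hb.hd
  have hd0 : (d : ℝ) ≠ 0 := by linarith
  have hd2 : (d : ℝ) - 2 ≠ 0 := by linarith
  -- reduction to the cross term
  have h1 : ∀ c : Bool, ∑ g : Stub n d, ∑ j : Stub n d,
      π.s8Br par g j * (π.s8a b c (E.comb ξ) g - π.s8a b c (E.comb ξ) j) ^ 2 =
      -2 * ∑ g : Stub n d, ∑ j : Stub n d,
        π.s8Br par g j * (π.s8a b c (E.comb ξ) g * π.s8a b c (E.comb ξ) j) := by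
    intro c
    have e1 : ∀ g j : Stub n d,
        π.s8Br par g j * (π.s8a b c (E.comb ξ) g - π.s8a b c (E.comb ξ) j) ^ 2 =
        π.s8a b c (E.comb ξ) g ^ 2 * π.s8Br par g j + π.s8a b c (E.comb ξ) j ^ 2 * π.s8Br par g j
          + -2 * (π.s8Br par g j * (π.s8a b c (E.comb ξ) g * π.s8a b c (E.comb ξ) j)) := by
      intro g j; ring
    simp only [e1, Finset.sum_add_distrib, ← Finset.mul_sum, s8_br_sum_right hb hh, mul_zero,
      zero_add]
    have e2 : ∑ g : Stub n d, ∑ j : Stub n d, π.s8a b c (E.comb ξ) j ^ 2 * π.s8Br par g j = 0 := by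
      rw [Finset.sum_comm]
      simp only [← Finset.mul_sum, s8_br_sum_left hb hh, mul_zero, Finset.sum_const_zero]
    rw [e2, zero_add]
  have h2 : ∑ o : Stub n d × Stub n d, π.s8Br par o.1 o.2 * π.s8H b (some o) (E.comb ξ) =
      ∑ c : Bool, s8k d c / 2 * ∑ g : Stub n d, ∑ j : Stub n d,
        π.s8Br par g j * (π.s8a b c (E.comb ξ) g - π.s8a b c (E.comb ξ) j) ^ 2 := by
    unfold s8H s8AO
    simp only [Option.elim_some, s8A_eq_sub, Finset.mul_sum]
    rw [Finset.sum_comm]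
    refine Finset.sum_congr rfl fun c _ => ?_
    rw [Fintype.sum_prod_type]
    exact Finset.sum_congr rfl fun g _ => Finset.sum_congr rfl fun j _ => by ring
  rw [h2]
  simp only [h1, s8_br_cross hh.complete, s8QX_comb hb hh E b _ _ ξ hξ]
  unfold S8Par.bias
  simp only [Fintype.sum_bool, Finset.mul_sum, ← Finset.sum_add_distrib]
  refine Finset.sum_congr rfl fun i _ => ?_
  have n1 : par.zT - sgn true * E.lam i ≠ 0 := by
    rw [(s8_zT_sub hb hh E true i).1]; exact (s8_zT_sub hb hh E true i).2.ne'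
  have n2 : par.zT - sgn false * E.lam i ≠ 0 := by
    rw [(s8_zT_sub hb hh E false i).1]; exact (s8_zT_sub hb hh E false i).2.ne'
  field_simp
  ring


omit hb hh in
/-- the bias in terms of `L = σ λ` -/
theorem s8_bias_eq (par : S8Par ℝ) (d : ℕ) (b : Bool) (lam : ℝ) :
    par.bias d b lam =
      s8k d true * ((-par.sA + d) / ((d : ℝ) - 2)) * (1 + sgn b * lam / d) ^ 2 / (par.zT - sgn b * lam) ^ 2
      + s8k d false * ((-par.sA - d) / ((d : ℝ) - 2)) * (1 - sgn b * lam / d) ^ 2 / (par.zT - sgn b * lam) ^ 2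
      + s8k d true * ((-par.sA - d) / ((d : ℝ) - 2)) * (1 + sgn b * lam / d) ^ 2 / (par.zT + sgn b * lam) ^ 2
      + s8k d false * ((-par.sA + d) / ((d : ℝ) - 2)) * (1 - sgn b * lam / d) ^ 2 / (par.zT + sgn b * lam) ^ 2 := by
  unfold S8Par.bias
  cases b <;> simp only [sgn, Fintype.sum_bool, if_true, Bool.false_eq_true, if_false] <;> ring

omit hb hh in
theorem s8_prod4 (a1 a2 a3 a4 b1 b2 b3 b4 : ℝ) (h1 : 0 ≤ a1) (h2 : 0 ≤ a2) (h3 : 0 ≤ a3) (h4 : 0 ≤ a4)
    (g1 : a1 ≤ b1) (g2 : a2 ≤ b2) (g3 : a3 ≤ b3) (g4 : a4 ≤ b4) :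
    a1 * a2 * a3 * a4 ≤ b1 * b2 * b3 * b4 := by
  have e1 : a1 * a2 ≤ b1 * b2 := mul_le_mul g1 g2 h2 (h1.trans g1)
  have e2 : a1 * a2 * a3 ≤ b1 * b2 * b3 :=
    mul_le_mul e1 g3 h3 (mul_nonneg (h1.trans g1) (h2.trans g2))
  exact mul_le_mul e2 g4 h4 (mul_nonneg (mul_nonneg (h1.trans g1) (h2.trans g2)) (h3.trans g3))

/-- lower bound of the bias on near modes -/
theorem s8_bias_lower (b : Bool) (i : Fin n) (hi : E.x d b i < par.wB d) :
    s8cT d / (E.x d b i + par.wT d) ^ 2 - s8CT d ≤ par.bias d b (E.lam i) := by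
  have h3 : (3 : ℝ) ≤ d := by exact_mod_cast hb.hd
  have hd0 : (0 : ℝ) < d := by linarith
  have hd2 : (0 : ℝ) < (d : ℝ) - 2 := by linarith
  obtain ⟨hds, hs⟩ := s8_d_sub_s hb.hd
  have hxl := s8_x_lower hb hh E b i
  obtain ⟨hz1, hz2⟩ := s8_zT_sub hb hh E b i
  have hK := s8kmax_pos d hb.hd
  have hkp := s8k_true_pos d hb.hd
  have hkle : s8k d true ≤ s8kmax d := (le_abs_self _).trans (s8k_abs_le d hb.hd true)
  set x := E.x d b i with hx
  set L := (sgn b : ℝ) * E.lam i with hL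
  have hLx : L = s8s d - x := by rw [hx]; unfold S8Eig.x; ring
  have hLabs : |L| ≤ d := by
    rw [hL, abs_mul]
    have : |(sgn b : ℝ)| = 1 := by cases b <;> simp [sgn]
    rw [this, one_mul]
    exact s8_lam_abs_le hb hh E i
  have hLd := abs_le.mp hLabs
  rw [s8_bias_eq, ← hL, hz1, s8k_false]
  have he1 := hb.he1
  have he0 := hb.he
  have hsA0 := hb.hsA0
  have hsA1 := hb.hsA1
  have hapx := hb.hapx
  -- the four terms
  have hu1 : 0 ≤ (-par.sA + d) / ((d : ℝ) - 2) := div_nonneg (by linarith) hd2.le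
  have hu1' : (-par.sA + d) / ((d : ℝ) - 2) ≤ (2 * (d : ℝ) + 1) / ((d : ℝ) - 2) :=
    div_le_div_of_nonneg_right (by linarith) hd2.le
  have hu2 : 0 ≤ (par.sA + d) / ((d : ℝ) - 2) := div_nonneg (by linarith) hd2.le
  have hu2' : (par.sA + d) / ((d : ℝ) - 2) ≤ (2 * (d : ℝ) + 1) / ((d : ℝ) - 2) :=
    div_le_div_of_nonneg_right (by linarith) hd2.le
  have hw1 : (1 + L / d) ^ 2 ≤ 4 := by
    have a1 : L / d ≤ 1 := by rw [div_le_one hd0]; exact hLd.2
    have a2 : -1 ≤ L / d := by rw [le_div_iff₀ hd0]; linarith [hLd.1]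
    nlinarith
  have hw2 : (1 - L / d) ^ 2 ≤ 4 := by
    have a1 : L / d ≤ 1 := by rw [div_le_one hd0]; exact hLd.2
    have a2 : -1 ≤ L / d := by rw [le_div_iff₀ hd0]; linarith [hLd.1]
    nlinarith
  have hzL : s8s d ≤ par.zT + L := by
    have : par.zT = s8s d + par.wT d := by unfold S8Par.wT; ring
    rw [this, hLx]
    linarith [hb.hB1, hb.hT]
  have hr : 1 / (par.zT + L) ^ 2 ≤ 1 / s8s d ^ 2 := by
    apply one_div_le_one_div_of_le (by positivity)
    exact pow_le_pow_left₀ (by linarith) hzL 2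
  have hr0 : 0 ≤ 1 / (par.zT + L) ^ 2 := by positivity
  have T1 : 0 ≤ s8k d true * ((-par.sA + d) / ((d : ℝ) - 2)) * (1 + L / d) ^ 2 / (x + par.wT d) ^ 2 := by
    positivity
  have T2 : s8cT d / (x + par.wT d) ^ 2 ≤
      -s8kmax d * ((-par.sA - d) / ((d : ℝ) - 2)) * (1 - L / d) ^ 2 / (x + par.wT d) ^ 2 := by
    apply div_le_div_of_nonneg_right _ (by positivity)
    unfold s8cT
    have e1 : -s8kmax d * ((-par.sA - d) / ((d : ℝ) - 2)) * (1 - L / d) ^ 2 =
        s8kmax d * ((par.sA + d) / ((d : ℝ) - 2)) * (1 - L / d) ^ 2 := by ring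
    rw [e1]
    have a1 : (s8s d + d) / ((d : ℝ) - 2) ≤ (par.sA + d) / ((d : ℝ) - 2) :=
      div_le_div_of_nonneg_right (by linarith) hd2.le
    have a2 : ((d : ℝ) - s8s d) / (2 * d) ≤ 1 - L / d := by
      rw [div_le_iff₀ (by positivity), hLx]
      have : (1 - (s8s d - x) / d) * (2 * d) = 2 * (d - s8s d + x) := by
        field_simp
        ring
      rw [this]
      linarith
    have a3 : 0 ≤ ((d : ℝ) - s8s d) / (2 * d) := div_nonneg (by linarith) (by positivity)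
    have a4 : (((d : ℝ) - s8s d) / (2 * d)) ^ 2 ≤ (1 - L / d) ^ 2 := pow_le_pow_left₀ a3 a2 2
    have a5 : 0 ≤ (s8s d + d) / ((d : ℝ) - 2) := div_nonneg (by linarith) hd2.le
    exact mul_le_mul (mul_le_mul_of_nonneg_left a1 hK.le) a4 (by positivity) (by positivity)
  have T3 : s8k d true * ((par.sA + d) / ((d : ℝ) - 2)) * (1 + L / d) ^ 2 * (1 / (par.zT + L) ^ 2) ≤
      s8kmax d * ((2 * (d : ℝ) + 1) / ((d : ℝ) - 2)) * 4 * (1 / s8s d ^ 2) :=
    s8_prod4 _ _ _ _ _ _ _ _ hkp.le hu2 (sq_nonneg _) hr0 hkle hu2' hw1 hr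
  have T4 : s8kmax d * ((-par.sA + d) / ((d : ℝ) - 2)) * (1 - L / d) ^ 2 * (1 / (par.zT + L) ^ 2) ≤
      s8kmax d * ((2 * (d : ℝ) + 1) / ((d : ℝ) - 2)) * 4 * (1 / s8s d ^ 2) :=
    s8_prod4 _ _ _ _ _ _ _ _ hK.le hu1 (sq_nonneg _) hr0 le_rfl hu1' hw2 hr
  have e3 : s8k d true * ((-par.sA - d) / ((d : ℝ) - 2)) * (1 + L / d) ^ 2 / (par.zT + L) ^ 2 =
      -(s8k d true * ((par.sA + d) / ((d : ℝ) - 2)) * (1 + L / d) ^ 2 * (1 / (par.zT + L) ^ 2)) := by
    ring
  have e4 : -s8kmax d * ((-par.sA + d) / ((d : ℝ) - 2)) * (1 - L / d) ^ 2 / (par.zT + L) ^ 2 =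
      -(s8kmax d * ((-par.sA + d) / ((d : ℝ) - 2)) * (1 - L / d) ^ 2 * (1 / (par.zT + L) ^ 2)) := by
    ring
  have e5 : s8CT d = 2 * (s8kmax d * ((2 * (d : ℝ) + 1) / ((d : ℝ) - 2)) * 4 * (1 / s8s d ^ 2)) := by
    unfold s8CT; ring
  rw [e3, e4, e5]
  linarith

/-- sup bound of the ideal correction -/
theorem s8_Y_sup (b : Bool) (ξ : Fin n → ℝ) (hξ : E.Supp d b (par.wB d) ξ)
    (oo : Option (Stub n d × Stub n d)) :
    π.s8Y b oo (E.comb ξ) ≤ 16 * par.mN d C0 * ∑ i, ξ i ^ 2 := by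
  have hS : 0 ≤ ∑ i, ξ i ^ 2 := Finset.sum_nonneg fun i _ => sq_nonneg _
  cases oo with
  | none =>
    have hw : 0 < par.wB d := by linarith [hb.he, hb.hT, hb.hTB]
    have hm : 0 ≤ par.mN d C0 := by
      unfold S8Par.mN
      have := hb.hC0
      positivity
    have : π.s8Y b none (E.comb ξ) = 0 := by simp [s8Y, s8AO]
    rw [this]
    positivity
  | some o =>
    rw [s8Y_some]
    have a1 := s8_comb_sup hb hh E b ξ hξ o.1.1
    have a2 := s8_comb_sup hb hh E b ξ hξ o.2.1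
    have a3 := s8_comb_sup hb hh E b ξ hξ (π.oth o.1)
    have a4 := s8_comb_sup hb hh E b ξ hξ (π.oth o.2)
    nlinarith [sq_nonneg (E.comb ξ o.1.1 + E.comb ξ o.2.1),
      sq_nonneg (E.comb ξ (π.oth o.1) + E.comb ξ (π.oth o.2))]

theorem s8_H_sup (b : Bool) (ξ : Fin n → ℝ) (hξ : E.Supp d b (par.wB d) ξ)
    (oo : Option (Stub n d × Stub n d)) :
    |π.s8H b oo (E.comb ξ)| ≤ par.hsup d C0 * ∑ i, ξ i ^ 2 := by
  have h1 := s8H_abs_le_Y (π := π) hb.hd b oo (E.comb ξ)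
  have h2 := s8_Y_sup hb hh E b ξ hξ oo
  have hK := s8kmax_pos d hb.hd
  unfold S8Par.hsup
  calc _ ≤ _ := h1
    _ ≤ s8kmax d / 2 * (16 * par.mN d C0 * ∑ i, ξ i ^ 2) :=
        mul_le_mul_of_nonneg_left h2 (by positivity)
    _ = _ := by ring

end

/-! ## (D) the mean under the true law -/

theorem s8_sum_pair_fst (G : Stub n d → ℝ) :
    ∑ o : Stub n d × Stub n d, G o.1 = (n : ℝ) * d * ∑ g, G g := by
  rw [Fintype.sum_prod_type, Finset.mul_sum]
  refine Finset.sum_congr rfl fun g _ => ?_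
  show ∑ _j : Stub n d, G g = _
  rw [Finset.sum_const, Finset.card_univ, Fintype.card_prod, Fintype.card_fin, Fintype.card_fin,
    nsmul_eq_mul]
  push_cast
  ring

theorem s8_sum_pair_snd (G : Stub n d → ℝ) :
    ∑ o : Stub n d × Stub n d, G o.2 = (n : ℝ) * d * ∑ g, G g := by
  rw [Fintype.sum_prod_type]
  show ∑ _g : Stub n d, ∑ j : Stub n d, G j = _
  rw [Finset.sum_const, Finset.card_univ, Fintype.card_prod, Fintype.card_fin, Fintype.card_fin,
    nsmul_eq_mul]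
  push_cast
  ring

section

variable (hN : S8Num n d par e C0 apx εa tol0 δ1 P) (hh : π.S8Hyp par e C0 εa tol0)
  (E : S8Eig π.s8B)

include hN hh

theorem s8_br_half (o : Stub n d × Stub n d) : |π.s8Br par o.1 o.2| ≤ 1 / 2 :=
  (s8_br_abs hN.basic hh o.1 o.2).trans hN.hbr

theorem s8_T_pos : 0 < n * d ∧ (0 : ℝ) < ((n : ℝ) * d) ^ 2 := by
  have h1 := hN.basic.hn
  have h2 := hN.basic.hd
  have h3 : 0 < n * d := Nat.mul_pos h1 (by omega)
  refine ⟨h3, ?_⟩
  have : (0 : ℝ) < (n : ℝ) * d := by exact_mod_cast h3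
  positivity

/-- the law versus `(1 + br)/(2T²)`, pointwise -/
theorem s8_law_err_pt (o : Stub n d × Stub n d) :
    |π.s8Mu par P o - (1 + π.s8Br par o.1 o.2) / (2 * ((n : ℝ) * d) ^ 2)| ≤
      2 / P + ((if π.s8Acc par o.1 then 0 else 1) + (if π.s8Acc par o.2 then 0 else 1)) *
        (3 / (4 * ((n : ℝ) * d) ^ 2)) := by
  obtain ⟨hT, hT2⟩ := s8_T_pos hN hh
  have hP : 0 < P := hN.hPprime.pos
  have hPr : (0 : ℝ) < P := by exact_mod_cast hP
  have hbr := s8_br_half hN hh o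
  have hbr' := abs_le.mp hbr
  have h34 : 0 ≤ 3 / (4 * ((n : ℝ) * d) ^ 2) := by positivity
  have h2P : 0 ≤ 2 / (P : ℝ) := by positivity
  by_cases h1 : π.s8Acc par o.1
  · by_cases h2 : π.s8Acc par o.2
    · simp only [h1, h2, if_true, add_zero, zero_mul]
      have a1 := π.s8Mu_upper par P hP hT o hbr
      have a2 := π.s8Mu_lower par P hP hT o hbr h1 h2
      rw [abs_le]
      constructor <;> linarith
    · have h0 := π.s8Mu_supp par P o (fun h => h2 h.2)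
      simp only [h1, h2, if_true, if_false, zero_add, one_mul, h0, zero_sub, abs_neg]
      rw [abs_of_nonneg (div_nonneg (by linarith [hbr'.1]) (by positivity))]
      have : (1 + π.s8Br par o.1 o.2) / (2 * ((n : ℝ) * d) ^ 2) ≤ 3 / (4 * ((n : ℝ) * d) ^ 2) := by
        rw [div_le_div_iff₀ (by positivity) (by positivity)]
        nlinarith [hbr'.2]
      linarith
  · have h0 := π.s8Mu_supp par P o (fun h => h1 h.1)
    have hge : (1 : ℝ) ≤ ((if π.s8Acc par o.1 then 0 else 1) + (if π.s8Acc par o.2 then 0 else 1) : ℝ) := by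
      simp only [h1, if_false]
      split_ifs <;> norm_num
    rw [h0, zero_sub, abs_neg,
      abs_of_nonneg (div_nonneg (by linarith [hbr'.1]) (by positivity))]
    have : (1 + π.s8Br par o.1 o.2) / (2 * ((n : ℝ) * d) ^ 2) ≤ 3 / (4 * ((n : ℝ) * d) ^ 2) := by
      rw [div_le_div_iff₀ (by positivity) (by positivity)]
      nlinarith [hbr'.2]
    nlinarith

theorem s8_sum_not_acc :
    ∑ g : Stub n d, (if π.s8Acc par g then (0 : ℝ) else 1) ≤ εa * (n * d) := by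
  classical
  have h := s8_card_not_acc hN.basic hh hN.hacc
  have h1 : ∑ g : Stub n d, (if π.s8Acc par g then (0 : ℝ) else 1) =
      ((Finset.univ.filter fun g : Stub n d => ¬ π.s8Acc par g).card : ℝ) := by
    rw [← Finset.sum_boole]
    refine Finset.sum_congr rfl fun g _ => ?_
    by_cases hg : π.s8Acc par g <;> simp [hg]
  rw [h1]
  convert h

/-- the law versus `(1 + br)/(2T²)` -/
theorem s8_law_err (F : Stub n d × Stub n d → ℝ) (c : ℝ) (hF : ∀ o, |F o| ≤ c) :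
    |∑ o, π.s8Mu par P o * F o
        - ∑ o : Stub n d × Stub n d, (1 + π.s8Br par o.1 o.2) / (2 * ((n : ℝ) * d) ^ 2) * F o| ≤
      (3 / 2 * εa + 2 * ((n : ℝ) * d) ^ 2 / P) * c := by
  obtain ⟨hT, hT2⟩ := s8_T_pos hN hh
  have hP : 0 < P := hN.hPprime.pos
  have hPr : (0 : ℝ) < P := by exact_mod_cast hP
  have hc : 0 ≤ c := by
    have hn := hN.basic.hn
    have hd := hN.basic.hd
    let g0 : Stub n d := (⟨0, hn⟩, ⟨0, by omega⟩)
    exact (abs_nonneg _).trans (hF (g0, g0))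
  rw [← Finset.sum_sub_distrib]
  have h1 : ∀ o : Stub n d × Stub n d, |π.s8Mu par P o * F o
      - (1 + π.s8Br par o.1 o.2) / (2 * ((n : ℝ) * d) ^ 2) * F o| ≤
      (2 / P + ((if π.s8Acc par o.1 then 0 else 1) + (if π.s8Acc par o.2 then 0 else 1)) *
        (3 / (4 * ((n : ℝ) * d) ^ 2))) * c := by
    intro o
    rw [← sub_mul, abs_mul]
    exact mul_le_mul (s8_law_err_pt hN hh o) (hF o) (abs_nonneg _)
      ((abs_nonneg _).trans (s8_law_err_pt hN hh o))
  refine (Finset.abs_sum_le_sum_abs _ _).trans ((Finset.sum_le_sum fun o _ => h1 o).trans ?_)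
  rw [← Finset.sum_mul]
  apply mul_le_mul_of_nonneg_right _ hc
  have h2 := s8_sum_not_acc hN hh
  set N := ∑ g : Stub n d, (if π.s8Acc par g then (0 : ℝ) else 1) with hNdef
  have hs1 : ∑ o : Stub n d × Stub n d, (if π.s8Acc par o.1 then (0 : ℝ) else 1) = (n : ℝ) * d * N :=
    s8_sum_pair_fst fun g => if π.s8Acc par g then (0 : ℝ) else 1
  have hs2 : ∑ o : Stub n d × Stub n d, (if π.s8Acc par o.2 then (0 : ℝ) else 1) = (n : ℝ) * d * N :=
    s8_sum_pair_snd fun g => if π.s8Acc par g then (0 : ℝ) else 1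
  have hs0 : ∑ _o : Stub n d × Stub n d, (2 / P : ℝ) = (n : ℝ) * d * ((n : ℝ) * d) * (2 / P) := by
    simp only [Finset.sum_const, Finset.card_univ, Fintype.card_prod, Fintype.card_fin, nsmul_eq_mul]
    push_cast
    ring
  rw [Finset.sum_add_distrib, ← Finset.sum_mul, Finset.sum_add_distrib, hs0, hs1, hs2]
  have h3 : ((n : ℝ) * d * N + (n : ℝ) * d * N) * (3 / (4 * ((n : ℝ) * d) ^ 2)) ≤ 3 / 2 * εa := by
    have hnd : (0 : ℝ) < (n : ℝ) * d := by exact_mod_cast hT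
    have : ((n : ℝ) * d * N + (n : ℝ) * d * N) * (3 / (4 * ((n : ℝ) * d) ^ 2)) =
        3 / 2 * (N / ((n : ℝ) * d)) := by
      field_simp
      ring
    rw [this]
    apply mul_le_mul_of_nonneg_left _ (by norm_num)
    rw [div_le_iff₀ hnd]
    exact h2
  have h4 : (n : ℝ) * d * ((n : ℝ) * d) * (2 / P) = 2 * ((n : ℝ) * d) ^ 2 / P := by ring
  linarith

/-- scalar inequality per near mode -/
theorem s8_mode_gain (b : Bool) (i : Fin n) (hi : E.x d b i < par.wB d) :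
    9 / 10 * e ≤ E.x d b i * (1 - 2 * (par.M : ℝ) / (((d : ℝ) - 2) * n))
      + par.M * par.kap / (n : ℝ) ^ 2 * par.bias d b (E.lam i) := by
  have hb := hN.basic
  have h3 : (3 : ℝ) ≤ d := by exact_mod_cast hb.hd
  have hd2 : (0 : ℝ) < (d : ℝ) - 2 := by linarith
  have hn : (0 : ℝ) < n := by exact_mod_cast hb.hn
  obtain ⟨hds, hs⟩ := s8_d_sub_s hb.hd
  have hxl := s8_x_lower hb hh E b i
  obtain ⟨hz1, hz2⟩ := s8_zT_sub hb hh E b i
  have hbl := s8_bias_lower hb hh E b i hi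
  have hK := s8kmax_pos d hb.hd
  set x := E.x d b i with hx
  set A : ℝ := par.M * par.kap / (n : ℝ) ^ 2 with hA
  have hA0 : 0 ≤ A := by
    have := hb.hkap
    positivity
  set m : ℝ := 2 * (par.M : ℝ) / (((d : ℝ) - 2) * n) with hm
  have hm0 : 0 ≤ m := by positivity
  have hm1 : m ≤ 1 / 2 := hN.hM
  have hcT : 0 ≤ s8cT d := by
    unfold s8cT
    have : 0 ≤ (s8s d + d) / ((d : ℝ) - 2) := div_nonneg (by linarith) hd2.le
    positivity
  have hwT : 0 < par.wT d := by linarith [hb.he, hb.hT]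
  have h1 : A * (s8cT d / (x + par.wT d) ^ 2 - s8CT d) ≤ A * par.bias d b (E.lam i) :=
    mul_le_mul_of_nonneg_left hbl hA0
  have h2 : A * s8CT d ≤ e / 10 := hN.hopp
  have he := hb.he
  by_cases hc : x ≤ par.wT d
  · have h4 : 2 * e ≤ A * (s8cT d / (x + par.wT d) ^ 2) := by
      refine hN.hbias.trans ?_
      rw [← hA, mul_div_assoc]
      apply mul_le_mul_of_nonneg_left _ hA0
      apply div_le_div_of_nonneg_left hcT (by positivity)
      nlinarith
    have h5 : -(e / 20) ≤ x * (1 - m) := by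
      by_cases hx0 : 0 ≤ x
      · have : 0 ≤ x * (1 - m) := mul_nonneg hx0 (by linarith)
        linarith
      · have hx0' : x < 0 := not_le.mp hx0
        nlinarith
    nlinarith
  · have hc' : par.wT d < x := not_le.mp hc
    have h4 : 0 ≤ A * (s8cT d / (x + par.wT d) ^ 2) := by positivity
    have h5 : e ≤ x * (1 - m) := by
      have := hb.hT
      nlinarith
    nlinarith

/-- **MEAN**: after adding the mean correction every near direction has slack `≥ (4/5) e` -/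
theorem s8_mean (b : Bool) (ξ : Fin n → ℝ) (hξ : E.Supp d b (par.wB d) ξ) :
    4 / 5 * e * ∑ i, ξ i ^ 2 ≤ ∑ i, E.x d b i * ξ i ^ 2
      + par.M * ∑ o, π.s8Mu par P o * π.s8H b (some o) (E.comb ξ) := by
  have hb := hN.basic
  have h3 : (3 : ℝ) ≤ d := by exact_mod_cast hb.hd
  have hd0 : (d : ℝ) ≠ 0 := by linarith
  have hd2 : (d : ℝ) - 2 ≠ 0 := by linarith
  have hn : (n : ℝ) ≠ 0 := by
    have := hb.hn
    positivity
  have hsum := s8_comb_sum hb hh E b ξ hξ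
  set S := ∑ i, ξ i ^ 2 with hS
  have hS0 : 0 ≤ S := Finset.sum_nonneg fun i _ => sq_nonneg _
  have herr := s8_law_err hN hh (fun o => π.s8H b (some o) (E.comb ξ)) (par.hsup d C0 * S)
    (fun o => s8_H_sup hb hh E b ξ hξ (some o))
  have h1 : ∑ o : Stub n d × Stub n d, (1 + π.s8Br par o.1 o.2) / (2 * ((n : ℝ) * d) ^ 2) *
      π.s8H b (some o) (E.comb ξ) =
      -(2 / (((d : ℝ) - 2) * n)) * ∑ i, E.x d b i * ξ i ^ 2
        + par.kap / (n : ℝ) ^ 2 * ∑ i, ξ i ^ 2 * par.bias d b (E.lam i) := by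
    have e1 : ∀ o : Stub n d × Stub n d, (1 + π.s8Br par o.1 o.2) / (2 * ((n : ℝ) * d) ^ 2) *
        π.s8H b (some o) (E.comb ξ) = 1 / (2 * ((n : ℝ) * d) ^ 2) * π.s8H b (some o) (E.comb ξ)
        + 1 / (2 * ((n : ℝ) * d) ^ 2) * (π.s8Br par o.1 o.2 * π.s8H b (some o) (E.comb ξ)) := by
      intro o; ring
    simp only [e1]
    rw [Finset.sum_add_distrib, ← Finset.mul_sum, ← Finset.mul_sum,
      s8_mean_unif hh.complete hb.hd b _ hsum, s8_quad_comb hh.complete hb.hn E b ξ hsum,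
      s8_mean_tilt hb hh E b ξ hξ]
    field_simp
    ring
  rw [h1] at herr
  have herr' := (abs_le.mp herr).1
  have hM0 : (0 : ℝ) ≤ par.M := Nat.cast_nonneg _
  -- per mode
  have h2 : 9 / 10 * e * S ≤ ∑ i, E.x d b i * ξ i ^ 2 + par.M *
      (-(2 / (((d : ℝ) - 2) * n)) * ∑ i, E.x d b i * ξ i ^ 2
        + par.kap / (n : ℝ) ^ 2 * ∑ i, ξ i ^ 2 * par.bias d b (E.lam i)) := by
    have e2 : ∑ i, E.x d b i * ξ i ^ 2 + par.M *
      (-(2 / (((d : ℝ) - 2) * n)) * ∑ i, E.x d b i * ξ i ^ 2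
        + par.kap / (n : ℝ) ^ 2 * ∑ i, ξ i ^ 2 * par.bias d b (E.lam i)) =
        ∑ i, ξ i ^ 2 * (E.x d b i * (1 - 2 * (par.M : ℝ) / (((d : ℝ) - 2) * n))
      + par.M * par.kap / (n : ℝ) ^ 2 * par.bias d b (E.lam i)) := by
      rw [Finset.mul_sum, Finset.mul_sum, ← Finset.sum_add_distrib, Finset.mul_sum,
        ← Finset.sum_add_distrib]
      exact Finset.sum_congr rfl fun i _ => by ring
    rw [e2, hS, Finset.mul_sum]
    refine Finset.sum_le_sum fun i _ => ?_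
    by_cases hi : E.x d b i < par.wB d
    · have := s8_mode_gain hN hh E b i hi
      nlinarith [sq_nonneg (ξ i)]
    · rw [hξ i hi]; simp
  have h3' : par.M * ((3 / 2 * εa + 2 * ((n : ℝ) * d) ^ 2 / P) * (par.hsup d C0 * S)) ≤ e / 10 * S := by
    calc _ = (par.M * (3 / 2 * εa + 2 * ((n : ℝ) * d) ^ 2 / P) * par.hsup d C0) * S := by ring
      _ ≤ _ := mul_le_mul_of_nonneg_right hN.herr hS0
  have h4 := mul_le_mul_of_nonneg_left herr' hM0
  nlinarith

/-- mean of `Y` under the true law -/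
theorem s8_meanY (b : Bool) (ξ : Fin n → ℝ) (hξ : E.Supp d b (par.wB d) ξ) :
    ∑ o, π.s8Mu par P o * π.s8Y b (some o) (E.comb ξ) ≤ 8 / n * ∑ i, ξ i ^ 2 := by
  have hb := hN.basic
  obtain ⟨hT, hT2⟩ := s8_T_pos hN hh
  have hP : 0 < P := hN.hPprime.pos
  have h3 : (3 : ℝ) ≤ d := by exact_mod_cast hb.hd
  have hd0 : (d : ℝ) ≠ 0 := by linarith
  have hn : (n : ℝ) ≠ 0 := by
    have := hb.hn
    positivity
  have hsum := s8_comb_sum hb hh E b ξ hξ
  calc _ ≤ ∑ o : Stub n d × Stub n d, 1 / ((n : ℝ) * d) ^ 2 * π.s8Y b (some o) (E.comb ξ) :=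
        Finset.sum_le_sum fun o _ => mul_le_mul_of_nonneg_right
          (π.s8Mu_le_unif par P hP hT o (s8_br_half hN hh o)) (s8Y_nonneg b _ _)
    _ = _ := by
        rw [← Finset.mul_sum, s8_meanY_unif hh.complete b _ hsum, E.comb_sq]
        field_simp

end

end PPair

end Claimed.Agent.R275
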