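import Claimed.Agent.R275.S8Ana

/-!
# Row 275, Sec 8, package SPEC: spectral consequences of the hypotheses `S8Hyp` (replaces L8.1 after (8.62), (8.63), first half of L8.2).
Statements and proofs: helper118.  No sorry.  Uses package GRAPH (`s8Res_entry`, `s8Psi_entry`, `s8_mode`, `S8Eig` API).  No paper needed.

Notation: `x_i = E.x d b i = s - σ λ_i`, `wT, wB`; `zT - σ λ_i = x_i + wT`, `zB - σ λ_i = x_i + wB`; near = `{x_i < wB}`.
Everything follows from  `F_pp := ∑_i v_i(p)²/(x_i + w)² = Ψ_pp + 1/(z² n) ≤ C0/√w + 1/(8 n)`  (`z ≥ s ≥ 2√2`):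
* near mass: `0 < x_i + wB < 2 wB` on near modes, so `∑_near v_i(p)² ≤ 4 wB² Ψ_pp` (near modes are ⊥ 1: use Bessel for `Ψ_pp = |R e_p|²`
  or drop the nonnegative bulk terms and note that the constant direction only contributes through modes with `λ = 0`, which are bulk;
  the clean way: `∑_near v_i(p)²/(x_i+wB)² ≤ F_pp - (contribution of the modes with λ_i = 0) ≤ Ψ_pp`, since
  `∑_{λ_i = 0} v_i(p)²/z² ≥ 1/(z² n)` by Bessel applied to the unit vector `1/√n` which lies in the span of these modes).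
* `x_i ≥ wB ⟹ 1/x_i² ≤ 4/(x_i+wB)²`;   `1/x_i - 1/(x_i+wB) ≤ 2 wB/(x_i+wB)²`;   near: `1/(x_i+wB) ≤ 2 wB/(x_i+wB)²`.
-/

set_option autoImplicit false
set_option linter.unusedSectionVars false

namespace Claimed.Agent.R275

open Matrix

namespace PPair

variable {n d : ℕ} {π : PPair n d} {par : S8Par ℝ} {e C0 apx εa tol0 : ℝ}

theorem s8_sqrtq (hd : 3 ≤ d) : Real.sqrt 2 ≤ Real.sqrt ((d : ℝ) - 1) ∧
    Real.sqrt ((d : ℝ) - 1) ^ 2 = (d : ℝ) - 1 ∧ (7 / 5 : ℝ) < Real.sqrt 2 := by
  have h3 : (3 : ℝ) ≤ d := by exact_mod_cast hd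
  refine ⟨Real.sqrt_le_sqrt (by linarith), Real.sq_sqrt (by linarith), ?_⟩
  rw [show (7 / 5 : ℝ) = Real.sqrt ((7 / 5) ^ 2) by rw [Real.sqrt_sq (by norm_num)]]
  exact Real.sqrt_lt_sqrt (by norm_num) (by norm_num)

/-- `2 √2 ≤ s < d`, more precisely `d - s = (√q - 1)²` -/
theorem s8s_bounds (hd : 3 ≤ d) : 2 * Real.sqrt 2 ≤ s8s d ∧ s8s d < d ∧
    (d : ℝ) - s8s d = (Real.sqrt ((d : ℝ) - 1) - 1) ^ 2 := by
  obtain ⟨h1, h2, h3⟩ := s8_sqrtq hd
  have h4 : (d : ℝ) - s8s d = (Real.sqrt ((d : ℝ) - 1) - 1) ^ 2 := by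
    unfold s8s; nlinarith
  refine ⟨by unfold s8s; linarith, ?_, h4⟩
  have : 0 < (Real.sqrt ((d : ℝ) - 1) - 1) ^ 2 := by
    apply pow_pos; linarith
  linarith

/-- `d - s ≥ 4/25` -/
theorem s8_d_sub_s (hd : 3 ≤ d) : (4 / 25 : ℝ) ≤ (d : ℝ) - s8s d ∧ (14 / 5 : ℝ) < s8s d := by
  obtain ⟨h1, h2, h3⟩ := s8_sqrtq hd
  obtain ⟨g1, g2, g3⟩ := s8s_bounds hd
  refine ⟨?_, by linarith⟩
  rw [g3]
  nlinarith

theorem s8_x_sum (E : S8Eig π.s8B) (b : Bool) (i : Fin n) :
    E.x d b i + E.x d (!b) i = 2 * s8s d := by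
  unfold S8Eig.x
  cases b <;> simp [sgn] <;> ring

variable (hb : S8Basic n d par e C0 apx) (hh : π.S8Hyp par e C0 εa tol0) (E : S8Eig π.s8B)

include hb hh

/-- confinement in eigen-coordinates -/
theorem s8_x_lower (b : Bool) (i : Fin n) : -(e / 20) ≤ E.x d b i := by
  by_cases hi : E.lam i = 0
  · unfold S8Eig.x
    rw [hi]
    have := (s8_d_sub_s hb.hd).2
    linarith [hb.he]
  · obtain ⟨h1, h2⟩ := π.s8_mode E hh.complete hb.hn i hi
    have h3 := hh.conf b (E.vec i) h1
    have h4 : E.vec i ⬝ᵥ E.vec i = 1 := by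
      have := E.orth i i
      simpa [dotProduct] using this
    rw [h2, dotProduct_smul, h4] at h3
    unfold S8Eig.x
    simp only [smul_eq_mul, mul_one] at h3
    linarith

/-- all eigenvalues are bounded by `d` -/
theorem s8_lam_abs_le (i : Fin n) : |E.lam i| ≤ d := by
  have h1 := s8_x_lower hb hh E true i
  have h2 := s8_x_lower hb hh E false i
  unfold S8Eig.x at h1 h2
  simp only [sgn, if_true, Bool.false_eq_true, if_false] at h1 h2
  have := (s8_d_sub_s hb.hd).1
  rw [abs_le]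
  constructor <;> linarith [hb.he1]

/-- near modes are far from `0` -/
theorem s8_near_lam (b : Bool) (i : Fin n) (hi : E.x d b i < par.wB d) : E.lam i ≠ 0 := by
  intro h0
  unfold S8Eig.x at hi
  rw [h0] at hi
  have := (s8_d_sub_s hb.hd).2
  linarith [hb.hB1]

theorem s8_zT_sub (b : Bool) (i : Fin n) :
    par.zT - sgn b * E.lam i = E.x d b i + par.wT d ∧ 0 < E.x d b i + par.wT d := by
  have h1 := s8_x_lower hb hh E b i
  refine ⟨by unfold S8Eig.x S8Par.wT; ring, by linarith [hb.he, hb.hT]⟩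

theorem s8_zB_sub (b : Bool) (i : Fin n) :
    par.zB - sgn b * E.lam i = E.x d b i + par.wB d ∧ 0 < E.x d b i + par.wB d := by
  have h1 := s8_x_lower hb hh E b i
  refine ⟨by unfold S8Eig.x S8Par.wB; ring, by linarith [hb.he, hb.hT, hb.hTB]⟩


theorem s8_zB_pos : (14 / 5 : ℝ) < par.zB := by
  have h1 := (s8_d_sub_s hb.hd).2
  have h2 : 0 < par.wB d := by linarith [hb.he, hb.hT, hb.hTB]
  unfold S8Par.wB at h2
  linarith

theorem s8_zT_pos : (14 / 5 : ℝ) < par.zT := by
  have h1 := (s8_d_sub_s hb.hd).2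
  have h2 : 0 < par.wT d := by linarith [hb.he, hb.hT]
  unfold S8Par.wT at h2
  linarith

/-- the full spectral sum at `zB` -/
theorem s8_FB_eq (b : Bool) (p p' : Fin n) :
    ∑ i, E.vec i p * E.vec i p' / (E.x d b i + par.wB d) ^ 2 =
      π.s8Psi b par.zB p p' + 1 / (par.zB ^ 2 * n) := by
  have hz := s8_zB_pos hb hh
  rw [π.s8Psi_entry E hh.complete hb.hn b par.zB (by linarith)
    (fun i => by rw [(s8_zB_sub hb hh E b i).1]; exact (s8_zB_sub hb hh E b i).2.ne') p p']
  simp only [(s8_zB_sub hb hh E b _).1]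
  ring

/-- the modes with `λ = 0` carry the constant direction -/
theorem s8_zero_mass (p : Fin n) :
    1 / (n : ℝ) ≤ ∑ i, if E.lam i = 0 then E.vec i p ^ 2 else 0 := by
  have hn : (0 : ℝ) < n := by exact_mod_cast hb.hn
  set u : Fin n → ℝ := fun _ => 1 with hu
  have hc : ∀ i, E.lam i ≠ 0 → E.coef u i = 0 := by
    intro i hi
    have := (π.s8_mode E hh.complete hb.hn i hi).1
    simpa [S8Eig.coef, hu] using this
  have h1 : (1 : ℝ) = ∑ i, E.coef u i * (if E.lam i = 0 then E.vec i p else 0) := by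
    have := E.expand u p
    rw [show u p = 1 from rfl] at this
    rw [this]
    refine Finset.sum_congr rfl fun i _ => ?_
    by_cases hi : E.lam i = 0
    · simp [hi]
    · simp [hi, hc i hi]
  have h2 : (n : ℝ) = ∑ i, E.coef u i ^ 2 := by
    have := E.parseval u u
    simp only [hu, mul_one, Finset.sum_const, Finset.card_univ, Fintype.card_fin, nsmul_eq_mul] at this
    rw [this]
    exact Finset.sum_congr rfl fun i _ => by ring
  have h3 := Finset.sum_mul_sq_le_sq_mul_sq Finset.univ (fun i => E.coef u i)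
    (fun i => if E.lam i = 0 then E.vec i p else 0)
  rw [← h1, ← h2] at h3
  have h4 : ∑ i, (if E.lam i = 0 then E.vec i p else 0) ^ 2 =
      ∑ i, if E.lam i = 0 then E.vec i p ^ 2 else 0 :=
    Finset.sum_congr rfl fun i _ => by split_ifs <;> simp
  rw [h4] at h3
  rw [div_le_iff₀ hn]
  linarith

/-- the near part of the spectral sum at `zB` is bounded by `Ψ_pp` -/
theorem s8_near_F (b : Bool) (p : Fin n) :
    ∑ i, (if E.x d b i < par.wB d then E.vec i p ^ 2 / (E.x d b i + par.wB d) ^ 2 else 0) ≤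
      π.s8Psi b par.zB p p := by
  have hz := s8_zB_pos hb hh
  have h1 := s8_FB_eq hb hh E b p p
  have h2 := s8_zero_mass hb hh E p
  have h3 : ∑ i, (if E.x d b i < par.wB d then E.vec i p ^ 2 / (E.x d b i + par.wB d) ^ 2 else 0)
      + (∑ i, if E.lam i = 0 then E.vec i p ^ 2 else 0) / par.zB ^ 2 ≤
      ∑ i, E.vec i p * E.vec i p / (E.x d b i + par.wB d) ^ 2 := by
    rw [Finset.sum_div, ← Finset.sum_add_distrib]
    refine Finset.sum_le_sum fun i _ => ?_
    have hpos := (s8_zB_sub hb hh E b i).2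
    have hnn : 0 ≤ E.vec i p * E.vec i p / (E.x d b i + par.wB d) ^ 2 := by
      apply div_nonneg (mul_self_nonneg _) (sq_nonneg _)
    by_cases hi : E.x d b i < par.wB d
    · have h0 := s8_near_lam hb hh E b i hi
      simp only [hi, h0, if_true, if_false, zero_div, add_zero]
      rw [sq]
    · by_cases h0 : E.lam i = 0
      · simp only [hi, h0, if_true, if_false, zero_add]
        have : E.x d b i + par.wB d = par.zB := by
          rw [← (s8_zB_sub hb hh E b i).1, h0]; ring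
        rw [this, sq (E.vec i p)]
      · simp only [hi, h0, if_false, zero_div, add_zero]
        exact hnn
  have h4 : 1 / (par.zB ^ 2 * n) ≤ (∑ i, if E.lam i = 0 then E.vec i p ^ 2 else 0) / par.zB ^ 2 := by
    rw [one_div, mul_inv, mul_comm, ← one_div, ← div_eq_mul_inv]
    exact div_le_div_of_nonneg_right h2 (sq_nonneg _)
  linarith

/-- near mass at a vertex -/
theorem s8_mass (b : Bool) (p : Fin n) :
    ∑ i, (if E.x d b i < par.wB d then E.vec i p ^ 2 else 0) ≤ par.mN d C0 := by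
  have hw : 0 < par.wB d := by linarith [hb.he, hb.hT, hb.hTB]
  have h1 := s8_near_F hb hh E b p
  have h2 := hh.sqB b p
  have h3 : ∑ i, (if E.x d b i < par.wB d then E.vec i p ^ 2 else 0) ≤ 4 * par.wB d ^ 2 *
      ∑ i, (if E.x d b i < par.wB d then E.vec i p ^ 2 / (E.x d b i + par.wB d) ^ 2 else 0) := by
    rw [Finset.mul_sum]
    refine Finset.sum_le_sum fun i _ => ?_
    have hpos := (s8_zB_sub hb hh E b i).2
    by_cases hi : E.x d b i < par.wB d
    · simp only [hi, if_true]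
      rw [mul_div_assoc', le_div_iff₀ (by positivity)]
      have : (E.x d b i + par.wB d) ^ 2 ≤ 4 * par.wB d ^ 2 := by nlinarith
      nlinarith [sq_nonneg (E.vec i p)]
    · simp [hi]
  have hsq : Real.sqrt (par.wB d) * Real.sqrt (par.wB d) = par.wB d := Real.mul_self_sqrt hw.le
  have hsp : 0 < Real.sqrt (par.wB d) := Real.sqrt_pos.mpr hw
  have h4 : 4 * par.wB d ^ 2 * (C0 / Real.sqrt (par.wB d)) = par.mN d C0 := by
    unfold S8Par.mN
    rw [mul_div_assoc', div_eq_iff hsp.ne']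
    calc 4 * par.wB d ^ 2 * C0 = 4 * C0 * par.wB d * par.wB d := by ring
      _ = 4 * C0 * par.wB d * (Real.sqrt (par.wB d) * Real.sqrt (par.wB d)) := by rw [hsq]
      _ = _ := by ring
  calc _ ≤ _ := h3
    _ ≤ 4 * par.wB d ^ 2 * (C0 / Real.sqrt (par.wB d)) :=
        mul_le_mul_of_nonneg_left (h1.trans h2) (by positivity)
    _ = _ := h4

/-- sup bound for a combination of near modes -/
theorem s8_comb_sup (b : Bool) (ξ : Fin n → ℝ) (hξ : E.Supp d b (par.wB d) ξ) (p : Fin n) :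
    E.comb ξ p ^ 2 ≤ par.mN d C0 * ∑ i, ξ i ^ 2 := by
  have h1 : E.comb ξ p = ∑ i, ξ i * (if E.x d b i < par.wB d then E.vec i p else 0) := by
    unfold S8Eig.comb
    refine Finset.sum_congr rfl fun i _ => ?_
    by_cases hi : E.x d b i < par.wB d
    · simp [hi]
    · simp [hi, hξ i hi]
  have h3 := Finset.sum_mul_sq_le_sq_mul_sq Finset.univ ξ
    (fun i => if E.x d b i < par.wB d then E.vec i p else 0)
  have h4 : ∑ i, (if E.x d b i < par.wB d then E.vec i p else 0) ^ 2 =
      ∑ i, if E.x d b i < par.wB d then E.vec i p ^ 2 else 0 :=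
    Finset.sum_congr rfl fun i _ => by split_ifs <;> simp
  rw [h4, ← h1] at h3
  have h5 := s8_mass hb hh E b p
  have h6 : 0 ≤ ∑ i, ξ i ^ 2 := Finset.sum_nonneg fun i _ => sq_nonneg _
  nlinarith

/-- a combination of near modes is orthogonal to the constants -/
theorem s8_comb_sum (b : Bool) (ξ : Fin n → ℝ) (hξ : E.Supp d b (par.wB d) ξ) :
    ∑ p, E.comb ξ p = 0 := by
  unfold S8Eig.comb
  rw [Finset.sum_comm]
  refine Finset.sum_eq_zero fun i _ => ?_
  rw [← Finset.mul_sum]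
  by_cases hi : E.x d b i < par.wB d
  · rw [(π.s8_mode E hh.complete hb.hn i (s8_near_lam hb hh E b i hi)).1, mul_zero]
  · rw [hξ i hi, zero_mul]


theorem s8_RB_symm (b : Bool) (p p' : Fin n) :
    E.RB d b (par.wB d) p p' = E.RB d b (par.wB d) p' p := by
  unfold S8Eig.RB
  refine Finset.sum_congr rfl fun i _ => ?_
  split_ifs
  · rfl
  · rw [mul_comm]

/-- `1/n ≤ √wB ≤ 1 ≤ 1/√wB` -/
theorem s8_sqrt_wB : 0 < Real.sqrt (par.wB d) ∧ Real.sqrt (par.wB d) ≤ 1 ∧
    Real.sqrt (par.wB d) ≤ 1 / Real.sqrt (par.wB d) ∧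
    par.wB d / Real.sqrt (par.wB d) = Real.sqrt (par.wB d) := by
  have hw : 0 < par.wB d := by linarith [hb.he, hb.hT, hb.hTB]
  have hsp : 0 < Real.sqrt (par.wB d) := Real.sqrt_pos.mpr hw
  have hsq : Real.sqrt (par.wB d) * Real.sqrt (par.wB d) = par.wB d := Real.mul_self_sqrt hw.le
  have h1 : Real.sqrt (par.wB d) ≤ 1 := by
    rw [show (1 : ℝ) = Real.sqrt 1 by simp]
    exact Real.sqrt_le_sqrt hb.hB1
  refine ⟨hsp, h1, ?_, ?_⟩
  · rw [le_div_iff₀ hsp, hsq]; exact hb.hB1
  · rw [div_eq_iff hsp.ne', hsq]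

/-- the diagonal spectral sum at `zB` -/
theorem s8_FB_le (b : Bool) (p : Fin n) :
    ∑ i, E.vec i p ^ 2 / (E.x d b i + par.wB d) ^ 2 ≤ 6 / 5 * (C0 / Real.sqrt (par.wB d)) := by
  have hz := s8_zB_pos hb hh
  have hn : (0 : ℝ) < n := by exact_mod_cast hb.hn
  obtain ⟨g1, g2, g3, g4⟩ := s8_sqrt_wB hb hh
  have h1 := s8_FB_eq hb hh E b p p
  have h2 := hh.sqB b p
  have h3 : 1 / (par.zB ^ 2 * n) ≤ 1 / 5 * (C0 / Real.sqrt (par.wB d)) := by
    have a1 : 1 / (par.zB ^ 2 * n) ≤ 1 / 5 * (1 / n) := by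
      rw [one_div, mul_inv, ← one_div, ← one_div]
      apply mul_le_mul_of_nonneg_right _ (by positivity)
      rw [div_le_div_iff₀ (by positivity) (by norm_num)]
      nlinarith
    have a2 : 1 / Real.sqrt (par.wB d) ≤ C0 / Real.sqrt (par.wB d) :=
      div_le_div_of_nonneg_right hb.hC0 g1.le
    linarith [hb.hnB]
  have h4 : ∑ i, E.vec i p ^ 2 / (E.x d b i + par.wB d) ^ 2 =
      ∑ i, E.vec i p * E.vec i p / (E.x d b i + par.wB d) ^ 2 :=
    Finset.sum_congr rfl fun i _ => by rw [sq]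
  rw [h4, h1]
  linarith

/-- (8.63) -/
theorem s8_RB_diag (b : Bool) (p : Fin n) :
    ∑ p', E.RB d b (par.wB d) p p' ^ 2 ≤ 5 * C0 / Real.sqrt (par.wB d) := by
  have hw : 0 < par.wB d := by linarith [hb.he, hb.hT, hb.hTB]
  have h1 : ∀ p', E.RB d b (par.wB d) p p' =
      E.comb (fun i => if E.x d b i < par.wB d then 0 else E.vec i p / E.x d b i) p' := by
    intro p'
    unfold S8Eig.RB S8Eig.comb
    refine Finset.sum_congr rfl fun i _ => ?_
    by_cases hi : E.x d b i < par.wB d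
    · simp [hi]
    · simp only [hi, if_false]; ring
  simp only [h1]
  rw [E.comb_sq]
  have h2 : ∑ i, (if E.x d b i < par.wB d then 0 else E.vec i p / E.x d b i) ^ 2 ≤
      4 * ∑ i, E.vec i p ^ 2 / (E.x d b i + par.wB d) ^ 2 := by
    rw [Finset.mul_sum]
    refine Finset.sum_le_sum fun i _ => ?_
    have hpos := (s8_zB_sub hb hh E b i).2
    by_cases hi : E.x d b i < par.wB d
    · simp only [hi, if_true]
      have : 0 ≤ E.vec i p ^ 2 / (E.x d b i + par.wB d) ^ 2 := by positivity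
      nlinarith
    · simp only [hi, if_false]
      have hx : par.wB d ≤ E.x d b i := not_lt.mp hi
      have hx0 : 0 < E.x d b i := by linarith
      rw [div_pow, mul_div_assoc', div_le_div_iff₀ (by positivity) (by positivity)]
      have : (E.x d b i + par.wB d) ^ 2 ≤ 4 * E.x d b i ^ 2 := by nlinarith
      nlinarith [sq_nonneg (E.vec i p)]
  have h3 := s8_FB_le hb hh E b p
  have h4 : 0 ≤ C0 / Real.sqrt (par.wB d) :=
    div_nonneg (by linarith [hb.hC0]) (Real.sqrt_nonneg _)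
  rw [mul_div_assoc]
  linarith

/-- entries of `R_B` versus the resolvent at `zB` -/
theorem s8_RB_res (b : Bool) (p p' : Fin n) :
    |E.RB d b (par.wB d) p p' - π.s8Res b par.zB p p'| ≤ 3 * C0 * Real.sqrt (par.wB d) := by
  have hw : 0 < par.wB d := by linarith [hb.he, hb.hT, hb.hTB]
  have hz := s8_zB_pos hb hh
  have hn : (0 : ℝ) < n := by exact_mod_cast hb.hn
  obtain ⟨g1, g2, g3, g4⟩ := s8_sqrt_wB hb hh
  rw [π.s8Res_entry E hh.complete hb.hn b par.zB (by linarith)
    (fun i => by rw [(s8_zB_sub hb hh E b i).1]; exact (s8_zB_sub hb hh E b i).2.ne') p p']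
  simp only [(s8_zB_sub hb hh E b _).1]
  unfold S8Eig.RB
  have h1 : (∑ i, if E.x d b i < par.wB d then 0 else E.vec i p * E.vec i p' / E.x d b i)
      - (∑ i, E.vec i p * E.vec i p' / (E.x d b i + par.wB d) - 1 / (par.zB * n)) =
      ∑ i, ((if E.x d b i < par.wB d then 0 else E.vec i p * E.vec i p' / E.x d b i)
        - E.vec i p * E.vec i p' / (E.x d b i + par.wB d)) + 1 / (par.zB * n) := by
    rw [Finset.sum_sub_distrib]; ring
  rw [h1]
  have h2 : ∀ i, |(if E.x d b i < par.wB d then 0 else E.vec i p * E.vec i p' / E.x d b i)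
        - E.vec i p * E.vec i p' / (E.x d b i + par.wB d)| ≤
      par.wB d * (E.vec i p ^ 2 / (E.x d b i + par.wB d) ^ 2
        + E.vec i p' ^ 2 / (E.x d b i + par.wB d) ^ 2) := by
    intro i
    have hpos := (s8_zB_sub hb hh E b i).2
    have hab : |E.vec i p * E.vec i p'| ≤ (E.vec i p ^ 2 + E.vec i p' ^ 2) / 2 := by
      rw [abs_le]
      constructor <;> nlinarith [sq_nonneg (E.vec i p + E.vec i p'), sq_nonneg (E.vec i p - E.vec i p')]
    rw [← add_div, mul_div_assoc', le_div_iff₀ (by positivity)]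
    by_cases hi : E.x d b i < par.wB d
    · simp only [hi, if_true, zero_sub, abs_neg, abs_div, abs_of_pos hpos]
      have : |E.vec i p * E.vec i p'| / (E.x d b i + par.wB d) * (E.x d b i + par.wB d) ^ 2 =
          |E.vec i p * E.vec i p'| * (E.x d b i + par.wB d) := by
        field_simp
      rw [this]
      have h5 : E.x d b i + par.wB d ≤ 2 * par.wB d := by linarith
      calc |E.vec i p * E.vec i p'| * (E.x d b i + par.wB d)
          ≤ (E.vec i p ^ 2 + E.vec i p' ^ 2) / 2 * (2 * par.wB d) :=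
            mul_le_mul hab h5 hpos.le (by positivity)
        _ = _ := by ring
    · simp only [hi, if_false]
      have hx : par.wB d ≤ E.x d b i := not_lt.mp hi
      have hx0 : 0 < E.x d b i := by linarith
      have : E.vec i p * E.vec i p' / E.x d b i - E.vec i p * E.vec i p' / (E.x d b i + par.wB d) =
          E.vec i p * E.vec i p' * (par.wB d / (E.x d b i * (E.x d b i + par.wB d))) := by
        field_simp
        ring
      rw [this, abs_mul, abs_of_pos (by positivity : 0 < par.wB d / (E.x d b i * (E.x d b i + par.wB d)))]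
      have h6 : par.wB d / (E.x d b i * (E.x d b i + par.wB d)) * (E.x d b i + par.wB d) ^ 2 ≤
          2 * par.wB d := by
        have : par.wB d / (E.x d b i * (E.x d b i + par.wB d)) * (E.x d b i + par.wB d) ^ 2 =
            par.wB d * (E.x d b i + par.wB d) / E.x d b i := by
          field_simp
        rw [this, div_le_iff₀ hx0]
        nlinarith
      calc |E.vec i p * E.vec i p'| * (par.wB d / (E.x d b i * (E.x d b i + par.wB d))) *
            (E.x d b i + par.wB d) ^ 2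
          = |E.vec i p * E.vec i p'| * (par.wB d / (E.x d b i * (E.x d b i + par.wB d)) *
            (E.x d b i + par.wB d) ^ 2) := by ring
        _ ≤ (E.vec i p ^ 2 + E.vec i p' ^ 2) / 2 * (2 * par.wB d) :=
            mul_le_mul hab h6 (by positivity) (by positivity)
        _ = _ := by ring
  have h3 : |∑ i, ((if E.x d b i < par.wB d then 0 else E.vec i p * E.vec i p' / E.x d b i)
        - E.vec i p * E.vec i p' / (E.x d b i + par.wB d))| ≤
      par.wB d * (6 / 5 * (C0 / Real.sqrt (par.wB d)) + 6 / 5 * (C0 / Real.sqrt (par.wB d))) := by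
    refine (Finset.abs_sum_le_sum_abs _ _).trans ((Finset.sum_le_sum fun i _ => h2 i).trans ?_)
    rw [← Finset.mul_sum, Finset.sum_add_distrib]
    exact mul_le_mul_of_nonneg_left (add_le_add (s8_FB_le hb hh E b p) (s8_FB_le hb hh E b p')) hw.le
  have h4 : par.wB d * (6 / 5 * (C0 / Real.sqrt (par.wB d)) + 6 / 5 * (C0 / Real.sqrt (par.wB d))) =
      12 / 5 * C0 * Real.sqrt (par.wB d) := by
    calc _ = 12 / 5 * C0 * (par.wB d / Real.sqrt (par.wB d)) := by ring
      _ = _ := by rw [g4]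
  have h5 : |1 / (par.zB * n)| ≤ 1 / 2 * C0 * Real.sqrt (par.wB d) := by
    rw [abs_of_pos (by positivity)]
    have a1 : 1 / (par.zB * n) ≤ 1 / 2 * (1 / n) := by
      rw [one_div, mul_inv, ← one_div, ← one_div]
      apply mul_le_mul_of_nonneg_right _ (by positivity)
      rw [div_le_div_iff₀ (by positivity) (by norm_num)]
      linarith
    have a2 : Real.sqrt (par.wB d) ≤ C0 * Real.sqrt (par.wB d) := by
      nlinarith [hb.hC0]
    linarith [hb.hnB]
  calc _ ≤ _ := abs_add_le _ _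
    _ ≤ 12 / 5 * C0 * Real.sqrt (par.wB d) + 1 / 2 * C0 * Real.sqrt (par.wB d) := by
        rw [← h4]; exact add_le_add h3 h5
    _ ≤ _ := by
        have : 0 ≤ C0 * Real.sqrt (par.wB d) := by
          have := hb.hC0
          positivity
        linarith

/-- the bulk form of DET is the quadratic form of `R_B` -/
theorem s8_RB_quad (b : Bool) (w : Fin n → ℝ) :
    ∑ i, (if E.x d b i < par.wB d then 0 else E.coef w i ^ 2 / E.x d b i) =
      ∑ p, ∑ p', w p * E.RB d b (par.wB d) p p' * w p' := by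
  have h1 : ∀ i, (if E.x d b i < par.wB d then 0 else E.coef w i ^ 2 / E.x d b i) =
      ∑ p, ∑ p', w p * (if E.x d b i < par.wB d then 0
        else E.vec i p * E.vec i p' / E.x d b i) * w p' := by
    intro i
    by_cases hi : E.x d b i < par.wB d
    · simp [hi]
    · simp only [hi, if_false]
      unfold S8Eig.coef
      rw [sq, Finset.sum_mul_sum, Finset.sum_div]
      refine Finset.sum_congr rfl fun p _ => ?_
      rw [Finset.sum_div]
      refine Finset.sum_congr rfl fun p' _ => ?_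
      ring
  calc _ = ∑ i, ∑ p, ∑ p', w p * (if E.x d b i < par.wB d then 0
        else E.vec i p * E.vec i p' / E.x d b i) * w p' := Finset.sum_congr rfl fun i _ => h1 i
    _ = ∑ p, ∑ i, ∑ p', w p * (if E.x d b i < par.wB d then 0
        else E.vec i p * E.vec i p' / E.x d b i) * w p' := Finset.sum_comm
    _ = ∑ p, ∑ p', ∑ i, w p * (if E.x d b i < par.wB d then 0
        else E.vec i p * E.vec i p' / E.x d b i) * w p' :=
        Finset.sum_congr rfl fun p _ => Finset.sum_comm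
    _ = _ := by
        unfold S8Eig.RB
        simp only [Finset.mul_sum, Finset.sum_mul]

theorem s8_Psi_abs (b : Bool) (p p' : Fin n) :
    |π.s8Psi b par.zT p p'| ≤ C0 / Real.sqrt (par.wT d) := by
  have h1 := π.s8Psi_entry_sq_le b par.zT p p'
  have h2 := hh.sqT b p
  have h3 := hh.sqT b p'
  have h4 := π.s8Psi_diag_nonneg b par.zT p
  have h5 := π.s8Psi_diag_nonneg b par.zT p'
  apply abs_le_of_sq_le_sq _ (h4.trans h2)
  calc _ ≤ _ := h1
    _ ≤ C0 / Real.sqrt (par.wT d) * (C0 / Real.sqrt (par.wT d)) :=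
        mul_le_mul h2 h3 h5 (h4.trans h2)
    _ = _ := by ring

/-- size of the tilt -/
theorem s8_br_abs (g j : Stub n d) :
    |π.s8Br par g j| ≤
      4 * par.kap * (par.sA + d) * C0 / (((d : ℝ) - 2) * Real.sqrt (par.wT d)) := by
  have h3 : (3 : ℝ) ≤ d := by exact_mod_cast hb.hd
  have hd2 : 0 < (d : ℝ) - 2 := by linarith
  have hsA : 0 ≤ par.sA := by linarith [hb.hsA0, (s8_d_sub_s hb.hd).2]
  set B : ℝ := C0 / Real.sqrt (par.wT d) with hB
  have hterm : ∀ b : Bool,
      |(-par.sA * (π.s8Psi b par.zT g.1 j.1 + π.s8Psi b par.zT (π.oth g) (π.oth j))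
      + (sgn b : ℝ) * (d : ℝ) * (π.s8Psi b par.zT g.1 (π.oth j) + π.s8Psi b par.zT (π.oth g) j.1))
      / ((d : ℝ) - 2)| ≤ 2 * (par.sA + d) * B / ((d : ℝ) - 2) := by
    intro b
    rw [abs_div, abs_of_pos hd2]
    apply div_le_div_of_nonneg_right _ hd2.le
    have a1 := abs_le.mp (s8_Psi_abs hb hh b g.1 j.1)
    have a2 := abs_le.mp (s8_Psi_abs hb hh b (π.oth g) (π.oth j))
    have a3 := abs_le.mp (s8_Psi_abs hb hh b g.1 (π.oth j))
    have a4 := abs_le.mp (s8_Psi_abs hb hh b (π.oth g) j.1)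
    have hd0 : (0 : ℝ) ≤ d := by linarith
    rw [abs_le]
    cases b <;> simp only [sgn, if_true, Bool.false_eq_true, if_false] <;>
      constructor <;> nlinarith [a1.1, a1.2, a2.1, a2.2, a3.1, a3.2, a4.1, a4.2]
  unfold s8Br
  rw [abs_mul, abs_neg, abs_of_nonneg hb.hkap]
  have h5 := (Finset.abs_sum_le_sum_abs (fun b : Bool =>
      (-par.sA * (π.s8Psi b par.zT g.1 j.1 + π.s8Psi b par.zT (π.oth g) (π.oth j))
      + (sgn b : ℝ) * (d : ℝ) * (π.s8Psi b par.zT g.1 (π.oth j) + π.s8Psi b par.zT (π.oth g) j.1))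
      / ((d : ℝ) - 2)) Finset.univ).trans (Finset.sum_le_sum fun b _ => hterm b)
  simp only [Finset.sum_const, Finset.card_univ, Fintype.card_bool, nsmul_eq_mul] at h5
  calc _ ≤ par.kap * (((2 : ℕ) : ℝ) * (2 * (par.sA + d) * B / ((d : ℝ) - 2))) :=
        mul_le_mul_of_nonneg_left h5 hb.hkap
    _ = _ := by
        rw [hB]
        push_cast
        field_simp
        ring

/-- good stubs are accepted -/
theorem s8_good_acc (hacc : tol0 + apx ≤ par.thr) (g : Stub n d) (hg : π.s8Good par.zB tol0 g) :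
    π.s8Acc par g := by
  have h3 : (3 : ℝ) ≤ d := by exact_mod_cast hb.hd
  have hd2 : 1 ≤ (d : ℝ) - 2 := by linarith
  have hapx : 0 ≤ apx := by linarith [hb.hsA0, hb.hsA1]
  have hdiff : |Real.sqrt ((d : ℝ) - 1) / ((d : ℝ) - 2) - par.sA / (2 * ((d : ℝ) - 2))| ≤ apx := by
    have : Real.sqrt ((d : ℝ) - 1) / ((d : ℝ) - 2) - par.sA / (2 * ((d : ℝ) - 2)) =
        -((par.sA - s8s d) / (2 * ((d : ℝ) - 2))) := by
      unfold s8s
      field_simp
      ring
    rw [this, abs_neg, abs_of_nonneg (div_nonneg (by linarith [hb.hsA0]) (by linarith)),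
      div_le_iff₀ (by linarith)]
    nlinarith [hb.hsA0, hb.hsA1]
  intro b
  obtain ⟨g1, g2, g3⟩ := hg b
  have key : ∀ t : ℝ, |t - Real.sqrt ((d : ℝ) - 1) / ((d : ℝ) - 2)| ≤ tol0 →
      |t - par.sA / (2 * ((d : ℝ) - 2))| ≤ par.thr := by
    intro t ht
    have : t - par.sA / (2 * ((d : ℝ) - 2)) = (t - Real.sqrt ((d : ℝ) - 1) / ((d : ℝ) - 2)) +
        (Real.sqrt ((d : ℝ) - 1) / ((d : ℝ) - 2) - par.sA / (2 * ((d : ℝ) - 2))) := by ring
    rw [this]
    exact (abs_add_le _ _).trans (by linarith)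
  exact ⟨key _ g1, key _ g2, g3.trans (by linarith)⟩

/-- accepted stubs have good endpoint blocks of `R_B` -/
theorem s8_acc_block (b : Bool) (g : Stub n d) (hg : π.s8Acc par g) :
    π.s8Block (E.RB d b (par.wB d)) b (par.tolB d C0 apx) g := by
  have h3 : (3 : ℝ) ≤ d := by exact_mod_cast hb.hd
  have hd2 : 1 ≤ (d : ℝ) - 2 := by linarith
  have hapx : 0 ≤ apx := by linarith [hb.hsA0, hb.hsA1]
  have hdiff : |par.sA / (2 * ((d : ℝ) - 2)) - Real.sqrt ((d : ℝ) - 1) / ((d : ℝ) - 2)| ≤ apx := by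
    have : par.sA / (2 * ((d : ℝ) - 2)) - Real.sqrt ((d : ℝ) - 1) / ((d : ℝ) - 2) =
        ((par.sA - s8s d) / (2 * ((d : ℝ) - 2))) := by
      unfold s8s
      field_simp
    rw [this, abs_of_nonneg (div_nonneg (by linarith [hb.hsA0]) (by linarith)),
      div_le_iff₀ (by linarith)]
    nlinarith [hb.hsA0, hb.hsA1]
  obtain ⟨g1, g2, g3⟩ := hg b
  have key : ∀ (p p' : Fin n), |π.s8Res b par.zB p p' - par.sA / (2 * ((d : ℝ) - 2))| ≤ par.thr →
      |E.RB d b (par.wB d) p p' - Real.sqrt ((d : ℝ) - 1) / ((d : ℝ) - 2)| ≤ par.tolB d C0 apx := by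
    intro p p' ht
    have : E.RB d b (par.wB d) p p' - Real.sqrt ((d : ℝ) - 1) / ((d : ℝ) - 2) =
        (E.RB d b (par.wB d) p p' - π.s8Res b par.zB p p') +
        (π.s8Res b par.zB p p' - par.sA / (2 * ((d : ℝ) - 2))) +
        (par.sA / (2 * ((d : ℝ) - 2)) - Real.sqrt ((d : ℝ) - 1) / ((d : ℝ) - 2)) := by ring
    rw [this]
    unfold S8Par.tolB
    refine (abs_add_le _ _).trans ?_
    have := abs_add_le (E.RB d b (par.wB d) p p' - π.s8Res b par.zB p p')
      (π.s8Res b par.zB p p' - par.sA / (2 * ((d : ℝ) - 2)))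
    linarith [s8_RB_res hb hh E b p p']
  refine ⟨key _ _ g1, key _ _ g2, ?_⟩
  have : E.RB d b (par.wB d) g.1 (π.oth g) - (sgn b : ℝ) / ((d : ℝ) - 2) =
      (E.RB d b (par.wB d) g.1 (π.oth g) - π.s8Res b par.zB g.1 (π.oth g)) +
      (π.s8Res b par.zB g.1 (π.oth g) - (sgn b : ℝ) / ((d : ℝ) - 2)) := by ring
  rw [this]
  unfold S8Par.tolB
  refine (abs_add_le _ _).trans ?_
  linarith [s8_RB_res hb hh E b g.1 (π.oth g)]

open Classical in
/-- few stubs are rejected -/
theorem s8_card_not_acc (hacc : tol0 + apx ≤ par.thr) :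
    ((Finset.univ.filter fun g : Stub n d => ¬ π.s8Acc par g).card : ℝ) ≤ εa * (n * d) := by
  refine le_trans ?_ hh.typ
  norm_cast
  apply Finset.card_le_card
  intro g hg
  simp only [Finset.mem_filter, Finset.mem_univ, true_and] at hg ⊢
  exact fun h => hg (s8_good_acc hb hh hacc g h)

end PPair

end Claimed.Agent.R275
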